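import Vale.Agent.Lib.P154.PChain.BW.R5_0

set_option linter.all false

namespace Vale.Agent.Lib.P154.PChain.BW.S6

open Vale.Agent.Lib.P154.Chain

noncomputable def pc0 : PT := (PT.nd (nat_lit 3587922) (PT.nd (nat_lit 3425604) (PT.nd (nat_lit 3344406) (PT.nd (nat_lit 3303768) (PT.nd (nat_lit 3303690) (PT.nd (nat_lit 3263130) PT.nil (PT.lf (nat_lit 76) (nat_lit 3) (nat_lit 1) (nat_lit 1) (nat_lit 155) (nat_lit 80) (nat_lit 155))) (PT.lf (nat_lit 152) (nat_lit 6) (nat_lit 2) (nat_lit 3) (nat_lit 154) (nat_lit 81) (nat_lit 155))) (PT.nd (nat_lit 40482) (PT.lf (nat_lit 152) (nat_lit 6) (nat_lit 2) (nat_lit 1) (nat_lit 155) (nat_lit 81) (nat_lit 154)) (PT.nd (nat_lit 78) (PT.lf (nat_lit 228) (nat_lit 6) (nat_lit 3) (nat_lit 3) (nat_lit 153) (nat_lit 82) (nat_lit 155)) (PT.lf (nat_lit 304) (nat_lit 3) (nat_lit 4) (nat_lit 1) (nat_lit 154) (nat_lit 82) (nat_lit 154))))) (PT.nd (nat_lit 40560) (PT.nd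 (nat_lit 40482) (PT.lf (nat_lit 228) (nat_lit 6) (nat_lit 3) (nat_lit 1) (nat_lit 155) (nat_lit 82) (nat_lit 153)) (PT.lf (nat_lit 380) (nat_lit 6) (nat_lit 5) (nat_lit 3) (nat_lit 153) (nat_lit 83) (nat_lit 154))) (PT.nd (nat_lit 40482) (PT.lf (nat_lit 380) (nat_lit 6) (nat_lit 5) (nat_lit 1) (nat_lit 154) (nat_lit 83) (nat_lit 153)) (PT.nd (nat_lit 78) (PT.lf (nat_lit 456) (nat_lit 6) (nat_lit 6) (nat_lit 3) (nat_lit 152) (nat_lit 84) (nat_lit 154)) (PT.lf (nat_lit 532) (nat_lit 3) (nat_lit 7) (nat_lit 1) (nat_lit 153) (nat_lit 84) (nat_lit 153)))))) (PT.nd (nat_lit 81198) (PT.nd (nat_lit 40560) (PT.nd (nat_lit 40482) (PT.lf (nat_lit 456) (nat_lit 6) (nat_lit 6) (nat_lit 1) (nat_lit 154) (nat_lit 84) (nat_lit 152)) (PT.lf (nat_lit 608) (nat_lit 6) (nat_lit 8) (nat_lit 3) (nat_lit 152) (nat_lit 85) (nat_lit 153))) (PT.nd (nat_lit 40482) (PT.lf (nat_lit 608) (nat_lit 6) (nat_lit 8) (nat_lit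 1) (nat_lit 153) (nat_lit 85) (nat_lit 152)) (PT.nd (nat_lit 78) (PT.lf (nat_lit 684) (nat_lit 6) (nat_lit 9) (nat_lit 3) (nat_lit 151) (nat_lit 86) (nat_lit 153)) (PT.lf (nat_lit 760) (nat_lit 3) (nat_lit 10) (nat_lit 1) (nat_lit 152) (nat_lit 86) (nat_lit 152))))) (PT.nd (nat_lit 40560) (PT.nd (nat_lit 40404) (PT.lf (nat_lit 684) (nat_lit 6) (nat_lit 9) (nat_lit 1) (nat_lit 153) (nat_lit 86) (nat_lit 151)) (PT.nd (nat_lit 78) (PT.lf (nat_lit 836) (nat_lit 6) (nat_lit 11) (nat_lit 3) (nat_lit 150) (nat_lit 87) (nat_lit 153)) (PT.lf (nat_lit 912) (nat_lit 6) (nat_lit 12) (nat_lit 3) (nat_lit 151) (nat_lit 87) (nat_lit 152)))) (PT.nd (nat_lit 78) (PT.lf (nat_lit 912) (nat_lit 6) (nat_lit 12) (nat_lit 1) (nat_lit 152) (nat_lit 87) (nat_lit 151)) (PT.nd (nat_lit 40404) (PT.lf (nat_lit 836) (nat_lit 6) (nat_lit 11) (nat_lit 1) (nat_lit 153) (nat_lit 87) (nat_lit 150)) (PT.lf (nat_lit 988) (nat_lit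 6) (nat_lit 13) (nat_lit 3) (nat_lit 150) (nat_lit 88) (nat_lit 152))))))) (PT.nd (nat_lit 121758) (PT.nd (nat_lit 40716) (PT.nd (nat_lit 40482) (PT.nd (nat_lit 78) (PT.lf (nat_lit 1064) (nat_lit 3) (nat_lit 14) (nat_lit 1) (nat_lit 151) (nat_lit 88) (nat_lit 151)) (PT.lf (nat_lit 988) (nat_lit 6) (nat_lit 13) (nat_lit 1) (nat_lit 152) (nat_lit 88) (nat_lit 150))) (PT.nd (nat_lit 78) (PT.lf (nat_lit 1140) (nat_lit 6) (nat_lit 15) (nat_lit 3) (nat_lit 149) (nat_lit 89) (nat_lit 152)) (PT.nd (nat_lit 78) (PT.lf (nat_lit 1216) (nat_lit 6) (nat_lit 16) (nat_lit 3) (nat_lit 150) (nat_lit 89) (nat_lit 151)) (PT.lf (nat_lit 1216) (nat_lit 6) (nat_lit 16) (nat_lit 1) (nat_lit 151) (nat_lit 89) (nat_lit 150))))) (PT.nd (nat_lit 40482) (PT.nd (nat_lit 40404) (PT.lf (nat_lit 1140) (nat_lit 6) (nat_lit 15) (nat_lit 1) (nat_lit 152) (nat_lit 89) (nat_lit 149)) (PT.lf (nat_lit 1292) (nat_lit 6) (nat_lit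 17) (nat_lit 3) (nat_lit 149) (nat_lit 90) (nat_lit 151))) (PT.nd (nat_lit 78) (PT.lf (nat_lit 1368) (nat_lit 3) (nat_lit 18) (nat_lit 1) (nat_lit 150) (nat_lit 90) (nat_lit 150)) (PT.nd (nat_lit 40404) (PT.lf (nat_lit 1292) (nat_lit 6) (nat_lit 17) (nat_lit 1) (nat_lit 151) (nat_lit 90) (nat_lit 149)) (PT.lf (nat_lit 1444) (nat_lit 6) (nat_lit 19) (nat_lit 3) (nat_lit 148) (nat_lit 91) (nat_lit 151)))))) (PT.nd (nat_lit 40638) (PT.nd (nat_lit 156) (PT.nd (nat_lit 78) (PT.lf (nat_lit 1520) (nat_lit 6) (nat_lit 20) (nat_lit 3) (nat_lit 149) (nat_lit 91) (nat_lit 150)) (PT.lf (nat_lit 1520) (nat_lit 6) (nat_lit 20) (nat_lit 1) (nat_lit 150) (nat_lit 91) (nat_lit 149))) (PT.nd (nat_lit 40326) (PT.lf (nat_lit 1444) (nat_lit 6) (nat_lit 19) (nat_lit 1) (nat_lit 151) (nat_lit 91) (nat_lit 148)) (PT.nd (nat_lit 78) (PT.lf (nat_lit 1596) (nat_lit 6) (nat_lit 21) (nat_lit 3) (nat_lit 147) (nat_lit 92)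 (nat_lit 151)) (PT.lf (nat_lit 1672) (nat_lit 6) (nat_lit 22) (nat_lit 3) (nat_lit 148) (nat_lit 92) (nat_lit 150))))) (PT.nd (nat_lit 40482) (PT.nd (nat_lit 78) (PT.lf (nat_lit 1748) (nat_lit 3) (nat_lit 23) (nat_lit 1) (nat_lit 149) (nat_lit 92) (nat_lit 149)) (PT.nd (nat_lit 78) (PT.lf (nat_lit 1672) (nat_lit 6) (nat_lit 22) (nat_lit 1) (nat_lit 150) (nat_lit 92) (nat_lit 148)) (PT.lf (nat_lit 1596) (nat_lit 6) (nat_lit 21) (nat_lit 1) (nat_lit 151) (nat_lit 92) (nat_lit 147)))) (PT.nd (nat_lit 78) (PT.lf (nat_lit 1824) (nat_lit 6) (nat_lit 24) (nat_lit 3) (nat_lit 147) (nat_lit 93) (nat_lit 150)) (PT.nd (nat_lit 78) (PT.lf (nat_lit 1900) (nat_lit 6) (nat_lit 25) (nat_lit 3) (nat_lit 148) (nat_lit 93) (nat_lit 149)) (PT.lf (nat_lit 1900) (nat_lit 6) (nat_lit 25) (nat_lit 1) (nat_lit 149) (nat_lit 93) (nat_lit 148))))))))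
noncomputable def pc1 : PT := (PT.nd (nat_lit 162396) (PT.nd (nat_lit 81198) (PT.nd (nat_lit 40638) (PT.nd (nat_lit 40404) (PT.nd (nat_lit 40326) (PT.lf (nat_lit 1824) (nat_lit 6) (nat_lit 24) (nat_lit 1) (nat_lit 150) (nat_lit 93) (nat_lit 147)) (PT.lf (nat_lit 1976) (nat_lit 6) (nat_lit 26) (nat_lit 3) (nat_lit 146) (nat_lit 94) (nat_lit 150))) (PT.nd (nat_lit 78) (PT.lf (nat_lit 2052) (nat_lit 6) (nat_lit 27) (nat_lit 3) (nat_lit 147) (nat_lit 94) (nat_lit 149)) (PT.nd (nat_lit 78) (PT.lf (nat_lit 2128) (nat_lit 3) (nat_lit 28) (nat_lit 1) (nat_lit 148) (nat_lit 94) (nat_lit 148)) (PT.lf (nat_lit 2052) (nat_lit 6) (nat_lit 27) (nat_lit 1) (nat_lit 149) (nat_lit 94) (nat_lit 147))))) (PT.nd (nat_lit 40326) (PT.nd (nat_lit 40248) (PT.lf (nat_lit 1976) (nat_lit 6) (nat_lit 26) (nat_lit 1) (nat_lit 150) (nat_lit 94) (nat_lit 146)) (PT.lf (nat_lit 2204) (nat_lit 6) (nat_lit 29) (nat_lit 3) (nat_lit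 145) (nat_lit 95) (nat_lit 150))) (PT.nd (nat_lit 78) (PT.lf (nat_lit 2280) (nat_lit 6) (nat_lit 30) (nat_lit 3) (nat_lit 146) (nat_lit 95) (nat_lit 149)) (PT.nd (nat_lit 78) (PT.lf (nat_lit 2356) (nat_lit 6) (nat_lit 31) (nat_lit 3) (nat_lit 147) (nat_lit 95) (nat_lit 148)) (PT.lf (nat_lit 2356) (nat_lit 6) (nat_lit 31) (nat_lit 1) (nat_lit 148) (nat_lit 95) (nat_lit 147)))))) (PT.nd (nat_lit 40560) (PT.nd (nat_lit 40326) (PT.nd (nat_lit 78) (PT.lf (nat_lit 2280) (nat_lit 6) (nat_lit 30) (nat_lit 1) (nat_lit 149) (nat_lit 95) (nat_lit 146)) (PT.lf (nat_lit 2204) (nat_lit 6) (nat_lit 29) (nat_lit 1) (nat_lit 150) (nat_lit 95) (nat_lit 145))) (PT.nd (nat_lit 78) (PT.lf (nat_lit 2432) (nat_lit 6) (nat_lit 32) (nat_lit 3) (nat_lit 145) (nat_lit 96) (nat_lit 149)) (PT.nd (nat_lit 78) (PT.lf (nat_lit 2508) (nat_lit 6) (nat_lit 33) (nat_lit 3) (nat_lit 146) (nat_lit 96) (nat_lit 148)) (PT.lf (nat_lit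 2584) (nat_lit 3) (nat_lit 34) (nat_lit 1) (nat_lit 147) (nat_lit 96) (nat_lit 147))))) (PT.nd (nat_lit 40404) (PT.nd (nat_lit 78) (PT.lf (nat_lit 2508) (nat_lit 6) (nat_lit 33) (nat_lit 1) (nat_lit 148) (nat_lit 96) (nat_lit 146)) (PT.nd (nat_lit 40248) (PT.lf (nat_lit 2432) (nat_lit 6) (nat_lit 32) (nat_lit 1) (nat_lit 149) (nat_lit 96) (nat_lit 145)) (PT.lf (nat_lit 2660) (nat_lit 6) (nat_lit 35) (nat_lit 3) (nat_lit 144) (nat_lit 97) (nat_lit 149)))) (PT.nd (nat_lit 78) (PT.lf (nat_lit 2736) (nat_lit 6) (nat_lit 36) (nat_lit 3) (nat_lit 145) (nat_lit 97) (nat_lit 148)) (PT.nd (nat_lit 78) (PT.lf (nat_lit 2812) (nat_lit 6) (nat_lit 37) (nat_lit 3) (nat_lit 146) (nat_lit 97) (nat_lit 147)) (PT.lf (nat_lit 2812) (nat_lit 6) (nat_lit 37) (nat_lit 1) (nat_lit 147) (nat_lit 97) (nat_lit 146))))))) (PT.nd (nat_lit 80964) (PT.nd (nat_lit 40482) (PT.nd (nat_lit 40248) (PT.nd (nat_lit 78) (PT.lf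 (nat_lit 2736) (nat_lit 6) (nat_lit 36) (nat_lit 1) (nat_lit 148) (nat_lit 97) (nat_lit 145)) (PT.lf (nat_lit 2660) (nat_lit 6) (nat_lit 35) (nat_lit 1) (nat_lit 149) (nat_lit 97) (nat_lit 144))) (PT.nd (nat_lit 78) (PT.lf (nat_lit 2888) (nat_lit 6) (nat_lit 38) (nat_lit 3) (nat_lit 143) (nat_lit 98) (nat_lit 149)) (PT.nd (nat_lit 78) (PT.lf (nat_lit 2964) (nat_lit 6) (nat_lit 39) (nat_lit 3) (nat_lit 144) (nat_lit 98) (nat_lit 148)) (PT.lf (nat_lit 3040) (nat_lit 6) (nat_lit 40) (nat_lit 3) (nat_lit 145) (nat_lit 98) (nat_lit 147))))) (PT.nd (nat_lit 156) (PT.nd (nat_lit 78) (PT.lf (nat_lit 3116) (nat_lit 3) (nat_lit 41) (nat_lit 1) (nat_lit 146) (nat_lit 98) (nat_lit 146)) (PT.lf (nat_lit 3040) (nat_lit 6) (nat_lit 40) (nat_lit 1) (nat_lit 147) (nat_lit 98) (nat_lit 145))) (PT.nd (nat_lit 78) (PT.lf (nat_lit 2964) (nat_lit 6) (nat_lit 39) (nat_lit 1) (nat_lit 148) (nat_lit 98) (nat_lit 144))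 (PT.nd (nat_lit 40170) (PT.lf (nat_lit 2888) (nat_lit 6) (nat_lit 38) (nat_lit 1) (nat_lit 149) (nat_lit 98) (nat_lit 143)) (PT.lf (nat_lit 3192) (nat_lit 6) (nat_lit 42) (nat_lit 3) (nat_lit 143) (nat_lit 99) (nat_lit 148)))))) (PT.nd (nat_lit 40482) (PT.nd (nat_lit 156) (PT.nd (nat_lit 78) (PT.lf (nat_lit 3268) (nat_lit 6) (nat_lit 43) (nat_lit 3) (nat_lit 144) (nat_lit 99) (nat_lit 147)) (PT.lf (nat_lit 3344) (nat_lit 6) (nat_lit 44) (nat_lit 3) (nat_lit 145) (nat_lit 99) (nat_lit 146))) (PT.nd (nat_lit 78) (PT.lf (nat_lit 3344) (nat_lit 6) (nat_lit 44) (nat_lit 1) (nat_lit 146) (nat_lit 99) (nat_lit 145)) (PT.nd (nat_lit 78) (PT.lf (nat_lit 3268) (nat_lit 6) (nat_lit 43) (nat_lit 1) (nat_lit 147) (nat_lit 99) (nat_lit 144)) (PT.lf (nat_lit 3192) (nat_lit 6) (nat_lit 42) (nat_lit 1) (nat_lit 148) (nat_lit 99) (nat_lit 143))))) (PT.nd (nat_lit 234) (PT.nd (nat_lit 78) (PT.lf (nat_lit 3420)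 (nat_lit 6) (nat_lit 45) (nat_lit 3) (nat_lit 142) (nat_lit 100) (nat_lit 148)) (PT.nd (nat_lit 78) (PT.lf (nat_lit 3496) (nat_lit 6) (nat_lit 46) (nat_lit 3) (nat_lit 143) (nat_lit 100) (nat_lit 147)) (PT.lf (nat_lit 3572) (nat_lit 6) (nat_lit 47) (nat_lit 3) (nat_lit 144) (nat_lit 100) (nat_lit 146)))) (PT.nd (nat_lit 78) (PT.lf (nat_lit 3648) (nat_lit 3) (nat_lit 48) (nat_lit 1) (nat_lit 145) (nat_lit 100) (nat_lit 145)) (PT.nd (nat_lit 78) (PT.lf (nat_lit 3572) (nat_lit 6) (nat_lit 47) (nat_lit 1) (nat_lit 146) (nat_lit 100) (nat_lit 144)) (PT.lf (nat_lit 3496) (nat_lit 6) (nat_lit 46) (nat_lit 1) (nat_lit 147) (nat_lit 100) (nat_lit 143))))))))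
noncomputable def pc2 : PT := (PT.nd (nat_lit 121680) (PT.nd (nat_lit 80808) (PT.nd (nat_lit 40404) (PT.nd (nat_lit 40170) (PT.nd (nat_lit 40092) (PT.lf (nat_lit 3420) (nat_lit 6) (nat_lit 45) (nat_lit 1) (nat_lit 148) (nat_lit 100) (nat_lit 142)) (PT.lf (nat_lit 3724) (nat_lit 6) (nat_lit 49) (nat_lit 3) (nat_lit 141) (nat_lit 101) (nat_lit 148))) (PT.nd (nat_lit 78) (PT.lf (nat_lit 3800) (nat_lit 6) (nat_lit 50) (nat_lit 3) (nat_lit 142) (nat_lit 101) (nat_lit 147)) (PT.nd (nat_lit 78) (PT.lf (nat_lit 3876) (nat_lit 6) (nat_lit 51) (nat_lit 3) (nat_lit 143) (nat_lit 101) (nat_lit 146)) (PT.lf (nat_lit 3952) (nat_lit 6) (nat_lit 52) (nat_lit 3) (nat_lit 144) (nat_lit 101) (nat_lit 145))))) (PT.nd (nat_lit 156) (PT.nd (nat_lit 78) (PT.lf (nat_lit 3952) (nat_lit 6) (nat_lit 52) (nat_lit 1) (nat_lit 145) (nat_lit 101) (nat_lit 144)) (PT.lf (nat_lit 3876) (nat_lit 6) (nat_lit 51) (nat_lit 1) (nat_lit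 146) (nat_lit 101) (nat_lit 143))) (PT.nd (nat_lit 78) (PT.lf (nat_lit 3800) (nat_lit 6) (nat_lit 50) (nat_lit 1) (nat_lit 147) (nat_lit 101) (nat_lit 142)) (PT.nd (nat_lit 40092) (PT.lf (nat_lit 3724) (nat_lit 6) (nat_lit 49) (nat_lit 1) (nat_lit 148) (nat_lit 101) (nat_lit 141)) (PT.lf (nat_lit 4028) (nat_lit 6) (nat_lit 53) (nat_lit 3) (nat_lit 141) (nat_lit 102) (nat_lit 147)))))) (PT.nd (nat_lit 390) (PT.nd (nat_lit 156) (PT.nd (nat_lit 78) (PT.lf (nat_lit 4104) (nat_lit 6) (nat_lit 54) (nat_lit 3) (nat_lit 142) (nat_lit 102) (nat_lit 146)) (PT.lf (nat_lit 4180) (nat_lit 6) (nat_lit 55) (nat_lit 3) (nat_lit 143) (nat_lit 102) (nat_lit 145))) (PT.nd (nat_lit 78) (PT.lf (nat_lit 4256) (nat_lit 3) (nat_lit 56) (nat_lit 1) (nat_lit 144) (nat_lit 102) (nat_lit 144)) (PT.nd (nat_lit 78) (PT.lf (nat_lit 4180) (nat_lit 6) (nat_lit 55) (nat_lit 1) (nat_lit 145) (nat_lit 102) (nat_lit 143)) (PT.lf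 (nat_lit 4104) (nat_lit 6) (nat_lit 54) (nat_lit 1) (nat_lit 146) (nat_lit 102) (nat_lit 142))))) (PT.nd (nat_lit 40248) (PT.nd (nat_lit 40092) (PT.lf (nat_lit 4028) (nat_lit 6) (nat_lit 53) (nat_lit 1) (nat_lit 147) (nat_lit 102) (nat_lit 141)) (PT.nd (nat_lit 78) (PT.lf (nat_lit 4332) (nat_lit 6) (nat_lit 57) (nat_lit 3) (nat_lit 140) (nat_lit 103) (nat_lit 147)) (PT.lf (nat_lit 4408) (nat_lit 6) (nat_lit 58) (nat_lit 3) (nat_lit 141) (nat_lit 103) (nat_lit 146)))) (PT.nd (nat_lit 78) (PT.lf (nat_lit 4484) (nat_lit 6) (nat_lit 59) (nat_lit 3) (nat_lit 142) (nat_lit 103) (nat_lit 145)) (PT.nd (nat_lit 78) (PT.lf (nat_lit 4560) (nat_lit 6) (nat_lit 60) (nat_lit 3) (nat_lit 143) (nat_lit 103) (nat_lit 144)) (PT.lf (nat_lit 4560) (nat_lit 6) (nat_lit 60) (nat_lit 1) (nat_lit 144) (nat_lit 103) (nat_lit 143))))))) (PT.nd (nat_lit 40716) (PT.nd (nat_lit 40326) (PT.nd (nat_lit 156) (PT.nd (nat_lit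 78) (PT.lf (nat_lit 4484) (nat_lit 6) (nat_lit 59) (nat_lit 1) (nat_lit 145) (nat_lit 103) (nat_lit 142)) (PT.lf (nat_lit 4408) (nat_lit 6) (nat_lit 58) (nat_lit 1) (nat_lit 146) (nat_lit 103) (nat_lit 141))) (PT.nd (nat_lit 40014) (PT.lf (nat_lit 4332) (nat_lit 6) (nat_lit 57) (nat_lit 1) (nat_lit 147) (nat_lit 103) (nat_lit 140)) (PT.nd (nat_lit 78) (PT.lf (nat_lit 4636) (nat_lit 6) (nat_lit 61) (nat_lit 3) (nat_lit 139) (nat_lit 104) (nat_lit 147)) (PT.lf (nat_lit 4712) (nat_lit 6) (nat_lit 62) (nat_lit 3) (nat_lit 140) (nat_lit 104) (nat_lit 146))))) (PT.nd (nat_lit 156) (PT.nd (nat_lit 78) (PT.lf (nat_lit 4788) (nat_lit 6) (nat_lit 63) (nat_lit 3) (nat_lit 141) (nat_lit 104) (nat_lit 145)) (PT.lf (nat_lit 4864) (nat_lit 6) (nat_lit 64) (nat_lit 3) (nat_lit 142) (nat_lit 104) (nat_lit 144))) (PT.nd (nat_lit 78) (PT.lf (nat_lit 4940) (nat_lit 3) (nat_lit 65) (nat_lit 1) (nat_lit 143) (nat_lit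 104) (nat_lit 143)) (PT.nd (nat_lit 78) (PT.lf (nat_lit 4864) (nat_lit 6) (nat_lit 64) (nat_lit 1) (nat_lit 144) (nat_lit 104) (nat_lit 142)) (PT.lf (nat_lit 4788) (nat_lit 6) (nat_lit 63) (nat_lit 1) (nat_lit 145) (nat_lit 104) (nat_lit 141)))))) (PT.nd (nat_lit 40326) (PT.nd (nat_lit 40092) (PT.nd (nat_lit 78) (PT.lf (nat_lit 4712) (nat_lit 6) (nat_lit 62) (nat_lit 1) (nat_lit 146) (nat_lit 104) (nat_lit 140)) (PT.lf (nat_lit 4636) (nat_lit 6) (nat_lit 61) (nat_lit 1) (nat_lit 147) (nat_lit 104) (nat_lit 139))) (PT.nd (nat_lit 78) (PT.lf (nat_lit 5016) (nat_lit 6) (nat_lit 66) (nat_lit 3) (nat_lit 139) (nat_lit 105) (nat_lit 146)) (PT.nd (nat_lit 78) (PT.lf (nat_lit 5092) (nat_lit 6) (nat_lit 67) (nat_lit 3) (nat_lit 140) (nat_lit 105) (nat_lit 145)) (PT.lf (nat_lit 5168) (nat_lit 6) (nat_lit 68) (nat_lit 3) (nat_lit 141) (nat_lit 105) (nat_lit 144))))) (PT.nd (nat_lit 234) (PT.nd (nat_lit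 78) (PT.lf (nat_lit 5244) (nat_lit 6) (nat_lit 69) (nat_lit 3) (nat_lit 142) (nat_lit 105) (nat_lit 143)) (PT.nd (nat_lit 78) (PT.lf (nat_lit 5244) (nat_lit 6) (nat_lit 69) (nat_lit 1) (nat_lit 143) (nat_lit 105) (nat_lit 142)) (PT.lf (nat_lit 5168) (nat_lit 6) (nat_lit 68) (nat_lit 1) (nat_lit 144) (nat_lit 105) (nat_lit 141)))) (PT.nd (nat_lit 78) (PT.lf (nat_lit 5092) (nat_lit 6) (nat_lit 67) (nat_lit 1) (nat_lit 145) (nat_lit 105) (nat_lit 140)) (PT.nd (nat_lit 40014) (PT.lf (nat_lit 5016) (nat_lit 6) (nat_lit 66) (nat_lit 1) (nat_lit 146) (nat_lit 105) (nat_lit 139)) (PT.lf (nat_lit 5320) (nat_lit 6) (nat_lit 70) (nat_lit 3) (nat_lit 138) (nat_lit 106) (nat_lit 146))))))))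
noncomputable def pc3 : PT := (PT.nd (nat_lit 81276) (PT.nd (nat_lit 40638) (PT.nd (nat_lit 390) (PT.nd (nat_lit 156) (PT.nd (nat_lit 78) (PT.lf (nat_lit 5396) (nat_lit 6) (nat_lit 71) (nat_lit 3) (nat_lit 139) (nat_lit 106) (nat_lit 145)) (PT.lf (nat_lit 5472) (nat_lit 6) (nat_lit 72) (nat_lit 3) (nat_lit 140) (nat_lit 106) (nat_lit 144))) (PT.nd (nat_lit 78) (PT.lf (nat_lit 5548) (nat_lit 6) (nat_lit 73) (nat_lit 3) (nat_lit 141) (nat_lit 106) (nat_lit 143)) (PT.nd (nat_lit 78) (PT.lf (nat_lit 5624) (nat_lit 3) (nat_lit 74) (nat_lit 1) (nat_lit 142) (nat_lit 106) (nat_lit 142)) (PT.lf (nat_lit 5548) (nat_lit 6) (nat_lit 73) (nat_lit 1) (nat_lit 143) (nat_lit 106) (nat_lit 141))))) (PT.nd (nat_lit 156) (PT.nd (nat_lit 78) (PT.lf (nat_lit 5472) (nat_lit 6) (nat_lit 72) (nat_lit 1) (nat_lit 144) (nat_lit 106) (nat_lit 140)) (PT.lf (nat_lit 5396) (nat_lit 6) (nat_lit 71) (nat_lit 1) (nat_lit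 145) (nat_lit 106) (nat_lit 139))) (PT.nd (nat_lit 39936) (PT.lf (nat_lit 5320) (nat_lit 6) (nat_lit 70) (nat_lit 1) (nat_lit 146) (nat_lit 106) (nat_lit 138)) (PT.nd (nat_lit 78) (PT.lf (nat_lit 5700) (nat_lit 6) (nat_lit 75) (nat_lit 3) (nat_lit 137) (nat_lit 107) (nat_lit 146)) (PT.lf (nat_lit 5776) (nat_lit 6) (nat_lit 76) (nat_lit 3) (nat_lit 138) (nat_lit 107) (nat_lit 145)))))) (PT.nd (nat_lit 390) (PT.nd (nat_lit 156) (PT.nd (nat_lit 78) (PT.lf (nat_lit 5852) (nat_lit 6) (nat_lit 77) (nat_lit 3) (nat_lit 139) (nat_lit 107) (nat_lit 144)) (PT.lf (nat_lit 5928) (nat_lit 6) (nat_lit 78) (nat_lit 3) (nat_lit 140) (nat_lit 107) (nat_lit 143))) (PT.nd (nat_lit 78) (PT.lf (nat_lit 6004) (nat_lit 6) (nat_lit 79) (nat_lit 3) (nat_lit 141) (nat_lit 107) (nat_lit 142)) (PT.nd (nat_lit 78) (PT.lf (nat_lit 6004) (nat_lit 6) (nat_lit 79) (nat_lit 1) (nat_lit 142) (nat_lit 107) (nat_lit 141)) (PT.lf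 (nat_lit 5928) (nat_lit 6) (nat_lit 78) (nat_lit 1) (nat_lit 143) (nat_lit 107) (nat_lit 140))))) (PT.nd (nat_lit 40014) (PT.nd (nat_lit 78) (PT.lf (nat_lit 5852) (nat_lit 6) (nat_lit 77) (nat_lit 1) (nat_lit 144) (nat_lit 107) (nat_lit 139)) (PT.nd (nat_lit 78) (PT.lf (nat_lit 5776) (nat_lit 6) (nat_lit 76) (nat_lit 1) (nat_lit 145) (nat_lit 107) (nat_lit 138)) (PT.lf (nat_lit 5700) (nat_lit 6) (nat_lit 75) (nat_lit 1) (nat_lit 146) (nat_lit 107) (nat_lit 137)))) (PT.nd (nat_lit 78) (PT.lf (nat_lit 6080) (nat_lit 6) (nat_lit 80) (nat_lit 3) (nat_lit 136) (nat_lit 108) (nat_lit 146)) (PT.nd (nat_lit 78) (PT.lf (nat_lit 6156) (nat_lit 6) (nat_lit 81) (nat_lit 3) (nat_lit 137) (nat_lit 108) (nat_lit 145)) (PT.lf (nat_lit 6232) (nat_lit 6) (nat_lit 82) (nat_lit 3) (nat_lit 138) (nat_lit 108) (nat_lit 144))))))) (PT.nd (nat_lit 40638) (PT.nd (nat_lit 390) (PT.nd (nat_lit 156) (PT.nd (nat_lit 78)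 (PT.lf (nat_lit 6308) (nat_lit 6) (nat_lit 83) (nat_lit 3) (nat_lit 139) (nat_lit 108) (nat_lit 143)) (PT.lf (nat_lit 6384) (nat_lit 6) (nat_lit 84) (nat_lit 3) (nat_lit 140) (nat_lit 108) (nat_lit 142))) (PT.nd (nat_lit 78) (PT.lf (nat_lit 6460) (nat_lit 3) (nat_lit 85) (nat_lit 1) (nat_lit 141) (nat_lit 108) (nat_lit 141)) (PT.nd (nat_lit 78) (PT.lf (nat_lit 6384) (nat_lit 6) (nat_lit 84) (nat_lit 1) (nat_lit 142) (nat_lit 108) (nat_lit 140)) (PT.lf (nat_lit 6308) (nat_lit 6) (nat_lit 83) (nat_lit 1) (nat_lit 143) (nat_lit 108) (nat_lit 139))))) (PT.nd (nat_lit 40014) (PT.nd (nat_lit 78) (PT.lf (nat_lit 6232) (nat_lit 6) (nat_lit 82) (nat_lit 1) (nat_lit 144) (nat_lit 108) (nat_lit 138)) (PT.nd (nat_lit 78) (PT.lf (nat_lit 6156) (nat_lit 6) (nat_lit 81) (nat_lit 1) (nat_lit 145) (nat_lit 108) (nat_lit 137)) (PT.lf (nat_lit 6080) (nat_lit 6) (nat_lit 80) (nat_lit 1) (nat_lit 146) (nat_lit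 108) (nat_lit 136)))) (PT.nd (nat_lit 78) (PT.lf (nat_lit 6536) (nat_lit 6) (nat_lit 86) (nat_lit 3) (nat_lit 136) (nat_lit 109) (nat_lit 145)) (PT.nd (nat_lit 78) (PT.lf (nat_lit 6612) (nat_lit 6) (nat_lit 87) (nat_lit 3) (nat_lit 137) (nat_lit 109) (nat_lit 144)) (PT.lf (nat_lit 6688) (nat_lit 6) (nat_lit 88) (nat_lit 3) (nat_lit 138) (nat_lit 109) (nat_lit 143)))))) (PT.nd (nat_lit 390) (PT.nd (nat_lit 156) (PT.nd (nat_lit 78) (PT.lf (nat_lit 6764) (nat_lit 6) (nat_lit 89) (nat_lit 3) (nat_lit 139) (nat_lit 109) (nat_lit 142)) (PT.lf (nat_lit 6840) (nat_lit 6) (nat_lit 90) (nat_lit 3) (nat_lit 140) (nat_lit 109) (nat_lit 141))) (PT.nd (nat_lit 78) (PT.lf (nat_lit 6840) (nat_lit 6) (nat_lit 90) (nat_lit 1) (nat_lit 141) (nat_lit 109) (nat_lit 140)) (PT.nd (nat_lit 78) (PT.lf (nat_lit 6764) (nat_lit 6) (nat_lit 89) (nat_lit 1) (nat_lit 142) (nat_lit 109) (nat_lit 139)) (PT.lf (nat_lit 6688)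 (nat_lit 6) (nat_lit 88) (nat_lit 1) (nat_lit 143) (nat_lit 109) (nat_lit 138))))) (PT.nd (nat_lit 40014) (PT.nd (nat_lit 78) (PT.lf (nat_lit 6612) (nat_lit 6) (nat_lit 87) (nat_lit 1) (nat_lit 144) (nat_lit 109) (nat_lit 137)) (PT.nd (nat_lit 39858) (PT.lf (nat_lit 6536) (nat_lit 6) (nat_lit 86) (nat_lit 1) (nat_lit 145) (nat_lit 109) (nat_lit 136)) (PT.lf (nat_lit 6916) (nat_lit 6) (nat_lit 91) (nat_lit 3) (nat_lit 135) (nat_lit 110) (nat_lit 145)))) (PT.nd (nat_lit 78) (PT.lf (nat_lit 6992) (nat_lit 6) (nat_lit 92) (nat_lit 3) (nat_lit 136) (nat_lit 110) (nat_lit 144)) (PT.nd (nat_lit 78) (PT.lf (nat_lit 7068) (nat_lit 6) (nat_lit 93) (nat_lit 3) (nat_lit 137) (nat_lit 110) (nat_lit 143)) (PT.lf (nat_lit 7144) (nat_lit 6) (nat_lit 94) (nat_lit 3) (nat_lit 138) (nat_lit 110) (nat_lit 142))))))))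
noncomputable def pc4 : PT := (PT.nd (nat_lit 80964) (PT.nd (nat_lit 40482) (PT.nd (nat_lit 390) (PT.nd (nat_lit 156) (PT.nd (nat_lit 78) (PT.lf (nat_lit 7220) (nat_lit 6) (nat_lit 95) (nat_lit 3) (nat_lit 139) (nat_lit 110) (nat_lit 141)) (PT.lf (nat_lit 7296) (nat_lit 3) (nat_lit 96) (nat_lit 1) (nat_lit 140) (nat_lit 110) (nat_lit 140))) (PT.nd (nat_lit 78) (PT.lf (nat_lit 7220) (nat_lit 6) (nat_lit 95) (nat_lit 1) (nat_lit 141) (nat_lit 110) (nat_lit 139)) (PT.nd (nat_lit 78) (PT.lf (nat_lit 7144) (nat_lit 6) (nat_lit 94) (nat_lit 1) (nat_lit 142) (nat_lit 110) (nat_lit 138)) (PT.lf (nat_lit 7068) (nat_lit 6) (nat_lit 93) (nat_lit 1) (nat_lit 143) (nat_lit 110) (nat_lit 137))))) (PT.nd (nat_lit 39858) (PT.nd (nat_lit 78) (PT.lf (nat_lit 6992) (nat_lit 6) (nat_lit 92) (nat_lit 1) (nat_lit 144) (nat_lit 110) (nat_lit 136)) (PT.lf (nat_lit 6916) (nat_lit 6) (nat_lit 91) (nat_lit 1) (nat_lit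 145) (nat_lit 110) (nat_lit 135))) (PT.nd (nat_lit 78) (PT.lf (nat_lit 7372) (nat_lit 6) (nat_lit 97) (nat_lit 3) (nat_lit 134) (nat_lit 111) (nat_lit 145)) (PT.nd (nat_lit 78) (PT.lf (nat_lit 7448) (nat_lit 6) (nat_lit 98) (nat_lit 3) (nat_lit 135) (nat_lit 111) (nat_lit 144)) (PT.lf (nat_lit 7524) (nat_lit 6) (nat_lit 99) (nat_lit 3) (nat_lit 136) (nat_lit 111) (nat_lit 143)))))) (PT.nd (nat_lit 390) (PT.nd (nat_lit 156) (PT.nd (nat_lit 78) (PT.lf (nat_lit 7600) (nat_lit 6) (nat_lit 100) (nat_lit 3) (nat_lit 137) (nat_lit 111) (nat_lit 142)) (PT.lf (nat_lit 7676) (nat_lit 6) (nat_lit 101) (nat_lit 3) (nat_lit 138) (nat_lit 111) (nat_lit 141))) (PT.nd (nat_lit 78) (PT.lf (nat_lit 7752) (nat_lit 6) (nat_lit 102) (nat_lit 3) (nat_lit 139) (nat_lit 111) (nat_lit 140)) (PT.nd (nat_lit 78) (PT.lf (nat_lit 7752) (nat_lit 6) (nat_lit 102) (nat_lit 1) (nat_lit 140) (nat_lit 111) (nat_lit 139)) (PT.lf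 (nat_lit 7676) (nat_lit 6) (nat_lit 101) (nat_lit 1) (nat_lit 141) (nat_lit 111) (nat_lit 138))))) (PT.nd (nat_lit 234) (PT.nd (nat_lit 78) (PT.lf (nat_lit 7600) (nat_lit 6) (nat_lit 100) (nat_lit 1) (nat_lit 142) (nat_lit 111) (nat_lit 137)) (PT.nd (nat_lit 78) (PT.lf (nat_lit 7524) (nat_lit 6) (nat_lit 99) (nat_lit 1) (nat_lit 143) (nat_lit 111) (nat_lit 136)) (PT.lf (nat_lit 7448) (nat_lit 6) (nat_lit 98) (nat_lit 1) (nat_lit 144) (nat_lit 111) (nat_lit 135)))) (PT.nd (nat_lit 39702) (PT.lf (nat_lit 7372) (nat_lit 6) (nat_lit 97) (nat_lit 1) (nat_lit 145) (nat_lit 111) (nat_lit 134)) (PT.nd (nat_lit 78) (PT.lf (nat_lit 7828) (nat_lit 6) (nat_lit 103) (nat_lit 3) (nat_lit 133) (nat_lit 112) (nat_lit 145)) (PT.lf (nat_lit 7904) (nat_lit 6) (nat_lit 104) (nat_lit 3) (nat_lit 134) (nat_lit 112) (nat_lit 144))))))) (PT.nd (nat_lit 780) (PT.nd (nat_lit 390) (PT.nd (nat_lit 156) (PT.nd (nat_lit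 78) (PT.lf (nat_lit 7980) (nat_lit 6) (nat_lit 105) (nat_lit 3) (nat_lit 135) (nat_lit 112) (nat_lit 143)) (PT.lf (nat_lit 8056) (nat_lit 6) (nat_lit 106) (nat_lit 3) (nat_lit 136) (nat_lit 112) (nat_lit 142))) (PT.nd (nat_lit 78) (PT.lf (nat_lit 8132) (nat_lit 6) (nat_lit 107) (nat_lit 3) (nat_lit 137) (nat_lit 112) (nat_lit 141)) (PT.nd (nat_lit 78) (PT.lf (nat_lit 8208) (nat_lit 6) (nat_lit 108) (nat_lit 3) (nat_lit 138) (nat_lit 112) (nat_lit 140)) (PT.lf (nat_lit 8284) (nat_lit 3) (nat_lit 109) (nat_lit 1) (nat_lit 139) (nat_lit 112) (nat_lit 139))))) (PT.nd (nat_lit 156) (PT.nd (nat_lit 78) (PT.lf (nat_lit 8208) (nat_lit 6) (nat_lit 108) (nat_lit 1) (nat_lit 140) (nat_lit 112) (nat_lit 138)) (PT.lf (nat_lit 8132) (nat_lit 6) (nat_lit 107) (nat_lit 1) (nat_lit 141) (nat_lit 112) (nat_lit 137))) (PT.nd (nat_lit 78) (PT.lf (nat_lit 8056) (nat_lit 6) (nat_lit 106) (nat_lit 1) (nat_lit 142)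 (nat_lit 112) (nat_lit 136)) (PT.nd (nat_lit 78) (PT.lf (nat_lit 7980) (nat_lit 6) (nat_lit 105) (nat_lit 1) (nat_lit 143) (nat_lit 112) (nat_lit 135)) (PT.lf (nat_lit 7904) (nat_lit 6) (nat_lit 104) (nat_lit 1) (nat_lit 144) (nat_lit 112) (nat_lit 134)))))) (PT.nd (nat_lit 39936) (PT.nd (nat_lit 39702) (PT.nd (nat_lit 39624) (PT.lf (nat_lit 7828) (nat_lit 6) (nat_lit 103) (nat_lit 1) (nat_lit 145) (nat_lit 112) (nat_lit 133)) (PT.lf (nat_lit 8360) (nat_lit 6) (nat_lit 110) (nat_lit 3) (nat_lit 132) (nat_lit 113) (nat_lit 145))) (PT.nd (nat_lit 78) (PT.lf (nat_lit 8436) (nat_lit 6) (nat_lit 111) (nat_lit 3) (nat_lit 133) (nat_lit 113) (nat_lit 144)) (PT.nd (nat_lit 78) (PT.lf (nat_lit 8512) (nat_lit 6) (nat_lit 112) (nat_lit 3) (nat_lit 134) (nat_lit 113) (nat_lit 143)) (PT.lf (nat_lit 8588) (nat_lit 6) (nat_lit 113) (nat_lit 3) (nat_lit 135) (nat_lit 113) (nat_lit 142))))) (PT.nd (nat_lit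 234) (PT.nd (nat_lit 78) (PT.lf (nat_lit 8664) (nat_lit 6) (nat_lit 114) (nat_lit 3) (nat_lit 136) (nat_lit 113) (nat_lit 141)) (PT.nd (nat_lit 78) (PT.lf (nat_lit 8740) (nat_lit 6) (nat_lit 115) (nat_lit 3) (nat_lit 137) (nat_lit 113) (nat_lit 140)) (PT.lf (nat_lit 8816) (nat_lit 6) (nat_lit 116) (nat_lit 3) (nat_lit 138) (nat_lit 113) (nat_lit 139)))) (PT.nd (nat_lit 78) (PT.lf (nat_lit 8816) (nat_lit 6) (nat_lit 116) (nat_lit 1) (nat_lit 139) (nat_lit 113) (nat_lit 138)) (PT.nd (nat_lit 78) (PT.lf (nat_lit 8740) (nat_lit 6) (nat_lit 115) (nat_lit 1) (nat_lit 140) (nat_lit 113) (nat_lit 137)) (PT.lf (nat_lit 8664) (nat_lit 6) (nat_lit 114) (nat_lit 1) (nat_lit 141) (nat_lit 113) (nat_lit 136))))))))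
noncomputable def pc5 : PT := (PT.nd (nat_lit 80730) (PT.nd (nat_lit 40326) (PT.nd (nat_lit 39936) (PT.nd (nat_lit 156) (PT.nd (nat_lit 78) (PT.lf (nat_lit 8588) (nat_lit 6) (nat_lit 113) (nat_lit 1) (nat_lit 142) (nat_lit 113) (nat_lit 135)) (PT.lf (nat_lit 8512) (nat_lit 6) (nat_lit 112) (nat_lit 1) (nat_lit 143) (nat_lit 113) (nat_lit 134))) (PT.nd (nat_lit 78) (PT.lf (nat_lit 8436) (nat_lit 6) (nat_lit 111) (nat_lit 1) (nat_lit 144) (nat_lit 113) (nat_lit 133)) (PT.nd (nat_lit 39624) (PT.lf (nat_lit 8360) (nat_lit 6) (nat_lit 110) (nat_lit 1) (nat_lit 145) (nat_lit 113) (nat_lit 132)) (PT.lf (nat_lit 8892) (nat_lit 6) (nat_lit 117) (nat_lit 3) (nat_lit 132) (nat_lit 114) (nat_lit 144))))) (PT.nd (nat_lit 156) (PT.nd (nat_lit 78) (PT.lf (nat_lit 8968) (nat_lit 6) (nat_lit 118) (nat_lit 3) (nat_lit 133) (nat_lit 114) (nat_lit 143)) (PT.lf (nat_lit 9044) (nat_lit 6) (nat_lit 119) (nat_lit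 3) (nat_lit 134) (nat_lit 114) (nat_lit 142))) (PT.nd (nat_lit 78) (PT.lf (nat_lit 9120) (nat_lit 6) (nat_lit 120) (nat_lit 3) (nat_lit 135) (nat_lit 114) (nat_lit 141)) (PT.nd (nat_lit 78) (PT.lf (nat_lit 9196) (nat_lit 6) (nat_lit 121) (nat_lit 3) (nat_lit 136) (nat_lit 114) (nat_lit 140)) (PT.lf (nat_lit 9272) (nat_lit 6) (nat_lit 122) (nat_lit 3) (nat_lit 137) (nat_lit 114) (nat_lit 139)))))) (PT.nd (nat_lit 390) (PT.nd (nat_lit 156) (PT.nd (nat_lit 78) (PT.lf (nat_lit 9348) (nat_lit 3) (nat_lit 123) (nat_lit 1) (nat_lit 138) (nat_lit 114) (nat_lit 138)) (PT.lf (nat_lit 9272) (nat_lit 6) (nat_lit 122) (nat_lit 1) (nat_lit 139) (nat_lit 114) (nat_lit 137))) (PT.nd (nat_lit 78) (PT.lf (nat_lit 9196) (nat_lit 6) (nat_lit 121) (nat_lit 1) (nat_lit 140) (nat_lit 114) (nat_lit 136)) (PT.nd (nat_lit 78) (PT.lf (nat_lit 9120) (nat_lit 6) (nat_lit 120) (nat_lit 1) (nat_lit 141) (nat_lit 114) (nat_lit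 135)) (PT.lf (nat_lit 9044) (nat_lit 6) (nat_lit 119) (nat_lit 1) (nat_lit 142) (nat_lit 114) (nat_lit 134))))) (PT.nd (nat_lit 39780) (PT.nd (nat_lit 78) (PT.lf (nat_lit 8968) (nat_lit 6) (nat_lit 118) (nat_lit 1) (nat_lit 143) (nat_lit 114) (nat_lit 133)) (PT.nd (nat_lit 39624) (PT.lf (nat_lit 8892) (nat_lit 6) (nat_lit 117) (nat_lit 1) (nat_lit 144) (nat_lit 114) (nat_lit 132)) (PT.lf (nat_lit 9424) (nat_lit 6) (nat_lit 124) (nat_lit 3) (nat_lit 131) (nat_lit 115) (nat_lit 144)))) (PT.nd (nat_lit 78) (PT.lf (nat_lit 9500) (nat_lit 6) (nat_lit 125) (nat_lit 3) (nat_lit 132) (nat_lit 115) (nat_lit 143)) (PT.nd (nat_lit 78) (PT.lf (nat_lit 9576) (nat_lit 6) (nat_lit 126) (nat_lit 3) (nat_lit 133) (nat_lit 115) (nat_lit 142)) (PT.lf (nat_lit 9652) (nat_lit 6) (nat_lit 127) (nat_lit 3) (nat_lit 134) (nat_lit 115) (nat_lit 141))))))) (PT.nd (nat_lit 40326) (PT.nd (nat_lit 390) (PT.nd (nat_lit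 156) (PT.nd (nat_lit 78) (PT.lf (nat_lit 9728) (nat_lit 6) (nat_lit 128) (nat_lit 3) (nat_lit 135) (nat_lit 115) (nat_lit 140)) (PT.lf (nat_lit 9804) (nat_lit 6) (nat_lit 129) (nat_lit 3) (nat_lit 136) (nat_lit 115) (nat_lit 139))) (PT.nd (nat_lit 78) (PT.lf (nat_lit 9880) (nat_lit 6) (nat_lit 130) (nat_lit 3) (nat_lit 137) (nat_lit 115) (nat_lit 138)) (PT.nd (nat_lit 78) (PT.lf (nat_lit 9880) (nat_lit 6) (nat_lit 130) (nat_lit 1) (nat_lit 138) (nat_lit 115) (nat_lit 137)) (PT.lf (nat_lit 9804) (nat_lit 6) (nat_lit 129) (nat_lit 1) (nat_lit 139) (nat_lit 115) (nat_lit 136))))) (PT.nd (nat_lit 234) (PT.nd (nat_lit 78) (PT.lf (nat_lit 9728) (nat_lit 6) (nat_lit 128) (nat_lit 1) (nat_lit 140) (nat_lit 115) (nat_lit 135)) (PT.nd (nat_lit 78) (PT.lf (nat_lit 9652) (nat_lit 6) (nat_lit 127) (nat_lit 1) (nat_lit 141) (nat_lit 115) (nat_lit 134)) (PT.lf (nat_lit 9576) (nat_lit 6) (nat_lit 126) (nat_lit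 1) (nat_lit 142) (nat_lit 115) (nat_lit 133)))) (PT.nd (nat_lit 78) (PT.lf (nat_lit 9500) (nat_lit 6) (nat_lit 125) (nat_lit 1) (nat_lit 143) (nat_lit 115) (nat_lit 132)) (PT.nd (nat_lit 39546) (PT.lf (nat_lit 9424) (nat_lit 6) (nat_lit 124) (nat_lit 1) (nat_lit 144) (nat_lit 115) (nat_lit 131)) (PT.lf (nat_lit 10488) (nat_lit 6) (nat_lit 138) (nat_lit 3) (nat_lit 130) (nat_lit 116) (nat_lit 144)))))) (PT.nd (nat_lit 390) (PT.nd (nat_lit 156) (PT.nd (nat_lit 78) (PT.lf (nat_lit 10564) (nat_lit 6) (nat_lit 139) (nat_lit 3) (nat_lit 131) (nat_lit 116) (nat_lit 143)) (PT.lf (nat_lit 10640) (nat_lit 6) (nat_lit 140) (nat_lit 3) (nat_lit 132) (nat_lit 116) (nat_lit 142))) (PT.nd (nat_lit 78) (PT.lf (nat_lit 10716) (nat_lit 6) (nat_lit 141) (nat_lit 3) (nat_lit 133) (nat_lit 116) (nat_lit 141)) (PT.nd (nat_lit 78) (PT.lf (nat_lit 10792) (nat_lit 6) (nat_lit 142) (nat_lit 3) (nat_lit 134) (nat_lit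 116) (nat_lit 140)) (PT.lf (nat_lit 10868) (nat_lit 6) (nat_lit 143) (nat_lit 3) (nat_lit 135) (nat_lit 116) (nat_lit 139))))) (PT.nd (nat_lit 234) (PT.nd (nat_lit 78) (PT.lf (nat_lit 10944) (nat_lit 6) (nat_lit 144) (nat_lit 3) (nat_lit 136) (nat_lit 116) (nat_lit 138)) (PT.nd (nat_lit 78) (PT.lf (nat_lit 11020) (nat_lit 3) (nat_lit 145) (nat_lit 1) (nat_lit 137) (nat_lit 116) (nat_lit 137)) (PT.lf (nat_lit 10944) (nat_lit 6) (nat_lit 144) (nat_lit 1) (nat_lit 138) (nat_lit 116) (nat_lit 136)))) (PT.nd (nat_lit 78) (PT.lf (nat_lit 10868) (nat_lit 6) (nat_lit 143) (nat_lit 1) (nat_lit 139) (nat_lit 116) (nat_lit 135)) (PT.nd (nat_lit 78) (PT.lf (nat_lit 10792) (nat_lit 6) (nat_lit 142) (nat_lit 1) (nat_lit 140) (nat_lit 116) (nat_lit 134)) (PT.lf (nat_lit 10716) (nat_lit 6) (nat_lit 141) (nat_lit 1) (nat_lit 141) (nat_lit 116) (nat_lit 133))))))))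
noncomputable def pc6 : PT := (PT.nd (nat_lit 80340) (PT.nd (nat_lit 40170) (PT.nd (nat_lit 39780) (PT.nd (nat_lit 156) (PT.nd (nat_lit 78) (PT.lf (nat_lit 10640) (nat_lit 6) (nat_lit 140) (nat_lit 1) (nat_lit 142) (nat_lit 116) (nat_lit 132)) (PT.lf (nat_lit 10564) (nat_lit 6) (nat_lit 139) (nat_lit 1) (nat_lit 143) (nat_lit 116) (nat_lit 131))) (PT.nd (nat_lit 39468) (PT.lf (nat_lit 10488) (nat_lit 6) (nat_lit 138) (nat_lit 1) (nat_lit 144) (nat_lit 116) (nat_lit 130)) (PT.nd (nat_lit 78) (PT.lf (nat_lit 10412) (nat_lit 6) (nat_lit 137) (nat_lit 3) (nat_lit 129) (nat_lit 117) (nat_lit 144)) (PT.lf (nat_lit 11552) (nat_lit 6) (nat_lit 152) (nat_lit 3) (nat_lit 130) (nat_lit 117) (nat_lit 143))))) (PT.nd (nat_lit 156) (PT.nd (nat_lit 78) (PT.lf (nat_lit 11628) (nat_lit 6) (nat_lit 153) (nat_lit 3) (nat_lit 131) (nat_lit 117) (nat_lit 142)) (PT.lf (nat_lit 11704) (nat_lit 6) (nat_lit 154) (nat_lit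 3) (nat_lit 132) (nat_lit 117) (nat_lit 141))) (PT.nd (nat_lit 78) (PT.lf (nat_lit 11780) (nat_lit 6) (nat_lit 155) (nat_lit 3) (nat_lit 133) (nat_lit 117) (nat_lit 140)) (PT.nd (nat_lit 78) (PT.lf (nat_lit 11856) (nat_lit 6) (nat_lit 156) (nat_lit 3) (nat_lit 134) (nat_lit 117) (nat_lit 139)) (PT.lf (nat_lit 11932) (nat_lit 6) (nat_lit 157) (nat_lit 3) (nat_lit 135) (nat_lit 117) (nat_lit 138)))))) (PT.nd (nat_lit 390) (PT.nd (nat_lit 156) (PT.nd (nat_lit 78) (PT.lf (nat_lit 12008) (nat_lit 6) (nat_lit 158) (nat_lit 3) (nat_lit 136) (nat_lit 117) (nat_lit 137)) (PT.lf (nat_lit 12008) (nat_lit 6) (nat_lit 158) (nat_lit 1) (nat_lit 137) (nat_lit 117) (nat_lit 136))) (PT.nd (nat_lit 78) (PT.lf (nat_lit 11932) (nat_lit 6) (nat_lit 157) (nat_lit 1) (nat_lit 138) (nat_lit 117) (nat_lit 135)) (PT.nd (nat_lit 78) (PT.lf (nat_lit 11856) (nat_lit 6) (nat_lit 156) (nat_lit 1) (nat_lit 139) (nat_lit 117)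 (nat_lit 134)) (PT.lf (nat_lit 11780) (nat_lit 6) (nat_lit 155) (nat_lit 1) (nat_lit 140) (nat_lit 117) (nat_lit 133))))) (PT.nd (nat_lit 234) (PT.nd (nat_lit 78) (PT.lf (nat_lit 11704) (nat_lit 6) (nat_lit 154) (nat_lit 1) (nat_lit 141) (nat_lit 117) (nat_lit 132)) (PT.nd (nat_lit 78) (PT.lf (nat_lit 11628) (nat_lit 6) (nat_lit 153) (nat_lit 1) (nat_lit 142) (nat_lit 117) (nat_lit 131)) (PT.lf (nat_lit 11552) (nat_lit 6) (nat_lit 152) (nat_lit 1) (nat_lit 143) (nat_lit 117) (nat_lit 130)))) (PT.nd (nat_lit 39390) (PT.lf (nat_lit 10412) (nat_lit 6) (nat_lit 137) (nat_lit 1) (nat_lit 144) (nat_lit 117) (nat_lit 129)) (PT.nd (nat_lit 78) (PT.lf (nat_lit 10336) (nat_lit 6) (nat_lit 136) (nat_lit 3) (nat_lit 128) (nat_lit 118) (nat_lit 144)) (PT.lf (nat_lit 11476) (nat_lit 6) (nat_lit 151) (nat_lit 3) (nat_lit 129) (nat_lit 118) (nat_lit 143))))))) (PT.nd (nat_lit 780) (PT.nd (nat_lit 390) (PT.nd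 (nat_lit 156) (PT.nd (nat_lit 78) (PT.lf (nat_lit 12540) (nat_lit 6) (nat_lit 165) (nat_lit 3) (nat_lit 130) (nat_lit 118) (nat_lit 142)) (PT.lf (nat_lit 12616) (nat_lit 6) (nat_lit 166) (nat_lit 3) (nat_lit 131) (nat_lit 118) (nat_lit 141))) (PT.nd (nat_lit 78) (PT.lf (nat_lit 12692) (nat_lit 6) (nat_lit 167) (nat_lit 3) (nat_lit 132) (nat_lit 118) (nat_lit 140)) (PT.nd (nat_lit 78) (PT.lf (nat_lit 12768) (nat_lit 6) (nat_lit 168) (nat_lit 3) (nat_lit 133) (nat_lit 118) (nat_lit 139)) (PT.lf (nat_lit 12844) (nat_lit 6) (nat_lit 169) (nat_lit 3) (nat_lit 134) (nat_lit 118) (nat_lit 138))))) (PT.nd (nat_lit 156) (PT.nd (nat_lit 78) (PT.lf (nat_lit 12920) (nat_lit 6) (nat_lit 170) (nat_lit 3) (nat_lit 135) (nat_lit 118) (nat_lit 137)) (PT.lf (nat_lit 12996) (nat_lit 3) (nat_lit 171) (nat_lit 1) (nat_lit 136) (nat_lit 118) (nat_lit 136))) (PT.nd (nat_lit 78) (PT.lf (nat_lit 12920) (nat_lit 6)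 (nat_lit 170) (nat_lit 1) (nat_lit 137) (nat_lit 118) (nat_lit 135)) (PT.nd (nat_lit 78) (PT.lf (nat_lit 12844) (nat_lit 6) (nat_lit 169) (nat_lit 1) (nat_lit 138) (nat_lit 118) (nat_lit 134)) (PT.lf (nat_lit 12768) (nat_lit 6) (nat_lit 168) (nat_lit 1) (nat_lit 139) (nat_lit 118) (nat_lit 133)))))) (PT.nd (nat_lit 39624) (PT.nd (nat_lit 156) (PT.nd (nat_lit 78) (PT.lf (nat_lit 12692) (nat_lit 6) (nat_lit 167) (nat_lit 1) (nat_lit 140) (nat_lit 118) (nat_lit 132)) (PT.lf (nat_lit 12616) (nat_lit 6) (nat_lit 166) (nat_lit 1) (nat_lit 141) (nat_lit 118) (nat_lit 131))) (PT.nd (nat_lit 78) (PT.lf (nat_lit 12540) (nat_lit 6) (nat_lit 165) (nat_lit 1) (nat_lit 142) (nat_lit 118) (nat_lit 130)) (PT.nd (nat_lit 78) (PT.lf (nat_lit 11476) (nat_lit 6) (nat_lit 151) (nat_lit 1) (nat_lit 143) (nat_lit 118) (nat_lit 129)) (PT.lf (nat_lit 10336) (nat_lit 6) (nat_lit 136) (nat_lit 1) (nat_lit 144) (nat_lit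 118) (nat_lit 128))))) (PT.nd (nat_lit 234) (PT.nd (nat_lit 78) (PT.lf (nat_lit 10260) (nat_lit 6) (nat_lit 135) (nat_lit 3) (nat_lit 127) (nat_lit 119) (nat_lit 144)) (PT.nd (nat_lit 78) (PT.lf (nat_lit 11400) (nat_lit 6) (nat_lit 150) (nat_lit 3) (nat_lit 128) (nat_lit 119) (nat_lit 143)) (PT.lf (nat_lit 12464) (nat_lit 6) (nat_lit 164) (nat_lit 3) (nat_lit 129) (nat_lit 119) (nat_lit 142)))) (PT.nd (nat_lit 78) (PT.lf (nat_lit 13452) (nat_lit 6) (nat_lit 177) (nat_lit 3) (nat_lit 130) (nat_lit 119) (nat_lit 141)) (PT.nd (nat_lit 78) (PT.lf (nat_lit 13528) (nat_lit 6) (nat_lit 178) (nat_lit 3) (nat_lit 131) (nat_lit 119) (nat_lit 140)) (PT.lf (nat_lit 13604) (nat_lit 6) (nat_lit 179) (nat_lit 3) (nat_lit 132) (nat_lit 119) (nat_lit 139))))))))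
noncomputable def pc7 : PT := (PT.nd (nat_lit 40794) (PT.nd (nat_lit 780) (PT.nd (nat_lit 390) (PT.nd (nat_lit 156) (PT.nd (nat_lit 78) (PT.lf (nat_lit 13680) (nat_lit 6) (nat_lit 180) (nat_lit 3) (nat_lit 133) (nat_lit 119) (nat_lit 138)) (PT.lf (nat_lit 13756) (nat_lit 6) (nat_lit 181) (nat_lit 3) (nat_lit 134) (nat_lit 119) (nat_lit 137))) (PT.nd (nat_lit 78) (PT.lf (nat_lit 13832) (nat_lit 6) (nat_lit 182) (nat_lit 3) (nat_lit 135) (nat_lit 119) (nat_lit 136)) (PT.nd (nat_lit 78) (PT.lf (nat_lit 13832) (nat_lit 6) (nat_lit 182) (nat_lit 1) (nat_lit 136) (nat_lit 119) (nat_lit 135)) (PT.lf (nat_lit 13756) (nat_lit 6) (nat_lit 181) (nat_lit 1) (nat_lit 137) (nat_lit 119) (nat_lit 134))))) (PT.nd (nat_lit 156) (PT.nd (nat_lit 78) (PT.lf (nat_lit 13680) (nat_lit 6) (nat_lit 180) (nat_lit 1) (nat_lit 138) (nat_lit 119) (nat_lit 133)) (PT.lf (nat_lit 13604) (nat_lit 6) (nat_lit 179) (nat_lit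 1) (nat_lit 139) (nat_lit 119) (nat_lit 132))) (PT.nd (nat_lit 78) (PT.lf (nat_lit 13528) (nat_lit 6) (nat_lit 178) (nat_lit 1) (nat_lit 140) (nat_lit 119) (nat_lit 131)) (PT.nd (nat_lit 78) (PT.lf (nat_lit 13452) (nat_lit 6) (nat_lit 177) (nat_lit 1) (nat_lit 141) (nat_lit 119) (nat_lit 130)) (PT.lf (nat_lit 12464) (nat_lit 6) (nat_lit 164) (nat_lit 1) (nat_lit 142) (nat_lit 119) (nat_lit 129)))))) (PT.nd (nat_lit 39546) (PT.nd (nat_lit 39312) (PT.nd (nat_lit 78) (PT.lf (nat_lit 11400) (nat_lit 6) (nat_lit 150) (nat_lit 1) (nat_lit 143) (nat_lit 119) (nat_lit 128)) (PT.lf (nat_lit 10260) (nat_lit 6) (nat_lit 135) (nat_lit 1) (nat_lit 144) (nat_lit 119) (nat_lit 127))) (PT.nd (nat_lit 78) (PT.lf (nat_lit 10184) (nat_lit 6) (nat_lit 134) (nat_lit 3) (nat_lit 126) (nat_lit 120) (nat_lit 144)) (PT.nd (nat_lit 78) (PT.lf (nat_lit 11324) (nat_lit 6) (nat_lit 149) (nat_lit 3) (nat_lit 127) (nat_lit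 120) (nat_lit 143)) (PT.lf (nat_lit 12388) (nat_lit 6) (nat_lit 163) (nat_lit 3) (nat_lit 128) (nat_lit 120) (nat_lit 142))))) (PT.nd (nat_lit 234) (PT.nd (nat_lit 78) (PT.lf (nat_lit 13376) (nat_lit 6) (nat_lit 176) (nat_lit 3) (nat_lit 129) (nat_lit 120) (nat_lit 141)) (PT.nd (nat_lit 78) (PT.lf (nat_lit 14288) (nat_lit 6) (nat_lit 188) (nat_lit 3) (nat_lit 130) (nat_lit 120) (nat_lit 140)) (PT.lf (nat_lit 14364) (nat_lit 6) (nat_lit 189) (nat_lit 3) (nat_lit 131) (nat_lit 120) (nat_lit 139)))) (PT.nd (nat_lit 78) (PT.lf (nat_lit 14440) (nat_lit 6) (nat_lit 190) (nat_lit 3) (nat_lit 132) (nat_lit 120) (nat_lit 138)) (PT.nd (nat_lit 78) (PT.lf (nat_lit 14516) (nat_lit 6) (nat_lit 191) (nat_lit 3) (nat_lit 133) (nat_lit 120) (nat_lit 137)) (PT.lf (nat_lit 14592) (nat_lit 6) (nat_lit 192) (nat_lit 3) (nat_lit 134) (nat_lit 120) (nat_lit 136))))))) (PT.nd (nat_lit 39936) (PT.nd (nat_lit 390)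 (PT.nd (nat_lit 156) (PT.nd (nat_lit 78) (PT.lf (nat_lit 14668) (nat_lit 3) (nat_lit 193) (nat_lit 1) (nat_lit 135) (nat_lit 120) (nat_lit 135)) (PT.lf (nat_lit 14592) (nat_lit 6) (nat_lit 192) (nat_lit 1) (nat_lit 136) (nat_lit 120) (nat_lit 134))) (PT.nd (nat_lit 78) (PT.lf (nat_lit 14516) (nat_lit 6) (nat_lit 191) (nat_lit 1) (nat_lit 137) (nat_lit 120) (nat_lit 133)) (PT.nd (nat_lit 78) (PT.lf (nat_lit 14440) (nat_lit 6) (nat_lit 190) (nat_lit 1) (nat_lit 138) (nat_lit 120) (nat_lit 132)) (PT.lf (nat_lit 14364) (nat_lit 6) (nat_lit 189) (nat_lit 1) (nat_lit 139) (nat_lit 120) (nat_lit 131))))) (PT.nd (nat_lit 234) (PT.nd (nat_lit 78) (PT.lf (nat_lit 14288) (nat_lit 6) (nat_lit 188) (nat_lit 1) (nat_lit 140) (nat_lit 120) (nat_lit 130)) (PT.nd (nat_lit 78) (PT.lf (nat_lit 13376) (nat_lit 6) (nat_lit 176) (nat_lit 1) (nat_lit 141) (nat_lit 120) (nat_lit 129)) (PT.lf (nat_lit 12388) (nat_lit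 6) (nat_lit 163) (nat_lit 1) (nat_lit 142) (nat_lit 120) (nat_lit 128)))) (PT.nd (nat_lit 78) (PT.lf (nat_lit 11324) (nat_lit 6) (nat_lit 149) (nat_lit 1) (nat_lit 143) (nat_lit 120) (nat_lit 127)) (PT.nd (nat_lit 39156) (PT.lf (nat_lit 10184) (nat_lit 6) (nat_lit 134) (nat_lit 1) (nat_lit 144) (nat_lit 120) (nat_lit 126)) (PT.lf (nat_lit 10108) (nat_lit 6) (nat_lit 133) (nat_lit 3) (nat_lit 125) (nat_lit 121) (nat_lit 144)))))) (PT.nd (nat_lit 390) (PT.nd (nat_lit 156) (PT.nd (nat_lit 78) (PT.lf (nat_lit 11248) (nat_lit 6) (nat_lit 148) (nat_lit 3) (nat_lit 126) (nat_lit 121) (nat_lit 143)) (PT.lf (nat_lit 12312) (nat_lit 6) (nat_lit 162) (nat_lit 3) (nat_lit 127) (nat_lit 121) (nat_lit 142))) (PT.nd (nat_lit 78) (PT.lf (nat_lit 13300) (nat_lit 6) (nat_lit 175) (nat_lit 3) (nat_lit 128) (nat_lit 121) (nat_lit 141)) (PT.nd (nat_lit 78) (PT.lf (nat_lit 14212) (nat_lit 6) (nat_lit 187) (nat_lit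 3) (nat_lit 129) (nat_lit 121) (nat_lit 140)) (PT.lf (nat_lit 15048) (nat_lit 6) (nat_lit 198) (nat_lit 3) (nat_lit 130) (nat_lit 121) (nat_lit 139))))) (PT.nd (nat_lit 234) (PT.nd (nat_lit 78) (PT.lf (nat_lit 15124) (nat_lit 6) (nat_lit 199) (nat_lit 3) (nat_lit 131) (nat_lit 121) (nat_lit 138)) (PT.nd (nat_lit 78) (PT.lf (nat_lit 15200) (nat_lit 6) (nat_lit 200) (nat_lit 3) (nat_lit 132) (nat_lit 121) (nat_lit 137)) (PT.lf (nat_lit 15276) (nat_lit 6) (nat_lit 201) (nat_lit 3) (nat_lit 133) (nat_lit 121) (nat_lit 136)))) (PT.nd (nat_lit 78) (PT.lf (nat_lit 15352) (nat_lit 6) (nat_lit 202) (nat_lit 3) (nat_lit 134) (nat_lit 121) (nat_lit 135)) (PT.nd (nat_lit 78) (PT.lf (nat_lit 15352) (nat_lit 6) (nat_lit 202) (nat_lit 1) (nat_lit 135) (nat_lit 121) (nat_lit 134)) (PT.lf (nat_lit 15276) (nat_lit 6) (nat_lit 201) (nat_lit 1) (nat_lit 136) (nat_lit 121) (nat_lit 133))))))))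
noncomputable def pc8 : PT := (PT.nd (nat_lit 40638) (PT.nd (nat_lit 39780) (PT.nd (nat_lit 390) (PT.nd (nat_lit 156) (PT.nd (nat_lit 78) (PT.lf (nat_lit 15200) (nat_lit 6) (nat_lit 200) (nat_lit 1) (nat_lit 137) (nat_lit 121) (nat_lit 132)) (PT.lf (nat_lit 15124) (nat_lit 6) (nat_lit 199) (nat_lit 1) (nat_lit 138) (nat_lit 121) (nat_lit 131))) (PT.nd (nat_lit 78) (PT.lf (nat_lit 15048) (nat_lit 6) (nat_lit 198) (nat_lit 1) (nat_lit 139) (nat_lit 121) (nat_lit 130)) (PT.nd (nat_lit 78) (PT.lf (nat_lit 14212) (nat_lit 6) (nat_lit 187) (nat_lit 1) (nat_lit 140) (nat_lit 121) (nat_lit 129)) (PT.lf (nat_lit 13300) (nat_lit 6) (nat_lit 175) (nat_lit 1) (nat_lit 141) (nat_lit 121) (nat_lit 128))))) (PT.nd (nat_lit 156) (PT.nd (nat_lit 78) (PT.lf (nat_lit 12312) (nat_lit 6) (nat_lit 162) (nat_lit 1) (nat_lit 142) (nat_lit 121) (nat_lit 127)) (PT.lf (nat_lit 11248) (nat_lit 6) (nat_lit 148) (nat_lit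 1) (nat_lit 143) (nat_lit 121) (nat_lit 126))) (PT.nd (nat_lit 39078) (PT.lf (nat_lit 10108) (nat_lit 6) (nat_lit 133) (nat_lit 1) (nat_lit 144) (nat_lit 121) (nat_lit 125)) (PT.nd (nat_lit 78) (PT.lf (nat_lit 10032) (nat_lit 6) (nat_lit 132) (nat_lit 3) (nat_lit 124) (nat_lit 122) (nat_lit 144)) (PT.lf (nat_lit 11172) (nat_lit 6) (nat_lit 147) (nat_lit 3) (nat_lit 125) (nat_lit 122) (nat_lit 143)))))) (PT.nd (nat_lit 390) (PT.nd (nat_lit 156) (PT.nd (nat_lit 78) (PT.lf (nat_lit 12236) (nat_lit 6) (nat_lit 161) (nat_lit 3) (nat_lit 126) (nat_lit 122) (nat_lit 142)) (PT.lf (nat_lit 13224) (nat_lit 6) (nat_lit 174) (nat_lit 3) (nat_lit 127) (nat_lit 122) (nat_lit 141))) (PT.nd (nat_lit 78) (PT.lf (nat_lit 14136) (nat_lit 6) (nat_lit 186) (nat_lit 3) (nat_lit 128) (nat_lit 122) (nat_lit 140)) (PT.nd (nat_lit 78) (PT.lf (nat_lit 14972) (nat_lit 6) (nat_lit 197) (nat_lit 3) (nat_lit 129) (nat_lit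 122) (nat_lit 139)) (PT.lf (nat_lit 15732) (nat_lit 6) (nat_lit 207) (nat_lit 3) (nat_lit 130) (nat_lit 122) (nat_lit 138))))) (PT.nd (nat_lit 234) (PT.nd (nat_lit 78) (PT.lf (nat_lit 15808) (nat_lit 6) (nat_lit 208) (nat_lit 3) (nat_lit 131) (nat_lit 122) (nat_lit 137)) (PT.nd (nat_lit 78) (PT.lf (nat_lit 15884) (nat_lit 6) (nat_lit 209) (nat_lit 3) (nat_lit 132) (nat_lit 122) (nat_lit 136)) (PT.lf (nat_lit 15960) (nat_lit 6) (nat_lit 210) (nat_lit 3) (nat_lit 133) (nat_lit 122) (nat_lit 135)))) (PT.nd (nat_lit 78) (PT.lf (nat_lit 16036) (nat_lit 3) (nat_lit 211) (nat_lit 1) (nat_lit 134) (nat_lit 122) (nat_lit 134)) (PT.nd (nat_lit 78) (PT.lf (nat_lit 15960) (nat_lit 6) (nat_lit 210) (nat_lit 1) (nat_lit 135) (nat_lit 122) (nat_lit 133)) (PT.lf (nat_lit 15884) (nat_lit 6) (nat_lit 209) (nat_lit 1) (nat_lit 136) (nat_lit 122) (nat_lit 132))))))) (PT.nd (nat_lit 39702) (PT.nd (nat_lit 390)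 (PT.nd (nat_lit 156) (PT.nd (nat_lit 78) (PT.lf (nat_lit 15808) (nat_lit 6) (nat_lit 208) (nat_lit 1) (nat_lit 137) (nat_lit 122) (nat_lit 131)) (PT.lf (nat_lit 15732) (nat_lit 6) (nat_lit 207) (nat_lit 1) (nat_lit 138) (nat_lit 122) (nat_lit 130))) (PT.nd (nat_lit 78) (PT.lf (nat_lit 14972) (nat_lit 6) (nat_lit 197) (nat_lit 1) (nat_lit 139) (nat_lit 122) (nat_lit 129)) (PT.nd (nat_lit 78) (PT.lf (nat_lit 14136) (nat_lit 6) (nat_lit 186) (nat_lit 1) (nat_lit 140) (nat_lit 122) (nat_lit 128)) (PT.lf (nat_lit 13224) (nat_lit 6) (nat_lit 174) (nat_lit 1) (nat_lit 141) (nat_lit 122) (nat_lit 127))))) (PT.nd (nat_lit 156) (PT.nd (nat_lit 78) (PT.lf (nat_lit 12236) (nat_lit 6) (nat_lit 161) (nat_lit 1) (nat_lit 142) (nat_lit 122) (nat_lit 126)) (PT.lf (nat_lit 11172) (nat_lit 6) (nat_lit 147) (nat_lit 1) (nat_lit 143) (nat_lit 122) (nat_lit 125))) (PT.nd (nat_lit 39000) (PT.lf (nat_lit 10032) (nat_lit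 6) (nat_lit 132) (nat_lit 1) (nat_lit 144) (nat_lit 122) (nat_lit 124)) (PT.nd (nat_lit 78) (PT.lf (nat_lit 9956) (nat_lit 3) (nat_lit 131) (nat_lit 3) (nat_lit 123) (nat_lit 123) (nat_lit 144)) (PT.lf (nat_lit 11096) (nat_lit 6) (nat_lit 146) (nat_lit 3) (nat_lit 124) (nat_lit 123) (nat_lit 143)))))) (PT.nd (nat_lit 390) (PT.nd (nat_lit 156) (PT.nd (nat_lit 78) (PT.lf (nat_lit 12160) (nat_lit 6) (nat_lit 160) (nat_lit 3) (nat_lit 125) (nat_lit 123) (nat_lit 142)) (PT.lf (nat_lit 13148) (nat_lit 6) (nat_lit 173) (nat_lit 3) (nat_lit 126) (nat_lit 123) (nat_lit 141))) (PT.nd (nat_lit 78) (PT.lf (nat_lit 14060) (nat_lit 6) (nat_lit 185) (nat_lit 3) (nat_lit 127) (nat_lit 123) (nat_lit 140)) (PT.nd (nat_lit 78) (PT.lf (nat_lit 14896) (nat_lit 6) (nat_lit 196) (nat_lit 3) (nat_lit 128) (nat_lit 123) (nat_lit 139)) (PT.lf (nat_lit 15656) (nat_lit 6) (nat_lit 206) (nat_lit 3) (nat_lit 129) (nat_lit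 123) (nat_lit 138))))) (PT.nd (nat_lit 234) (PT.nd (nat_lit 78) (PT.lf (nat_lit 16340) (nat_lit 6) (nat_lit 215) (nat_lit 3) (nat_lit 130) (nat_lit 123) (nat_lit 137)) (PT.nd (nat_lit 78) (PT.lf (nat_lit 16416) (nat_lit 6) (nat_lit 216) (nat_lit 3) (nat_lit 131) (nat_lit 123) (nat_lit 136)) (PT.lf (nat_lit 16492) (nat_lit 6) (nat_lit 217) (nat_lit 3) (nat_lit 132) (nat_lit 123) (nat_lit 135)))) (PT.nd (nat_lit 78) (PT.lf (nat_lit 16568) (nat_lit 6) (nat_lit 218) (nat_lit 3) (nat_lit 133) (nat_lit 123) (nat_lit 134)) (PT.nd (nat_lit 78) (PT.lf (nat_lit 16568) (nat_lit 6) (nat_lit 218) (nat_lit 1) (nat_lit 134) (nat_lit 123) (nat_lit 133)) (PT.lf (nat_lit 16492) (nat_lit 6) (nat_lit 217) (nat_lit 1) (nat_lit 135) (nat_lit 123) (nat_lit 132))))))))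
noncomputable def pc9 : PT := (PT.nd (nat_lit 40482) (PT.nd (nat_lit 39624) (PT.nd (nat_lit 390) (PT.nd (nat_lit 156) (PT.nd (nat_lit 78) (PT.lf (nat_lit 16416) (nat_lit 6) (nat_lit 216) (nat_lit 1) (nat_lit 136) (nat_lit 123) (nat_lit 131)) (PT.lf (nat_lit 16340) (nat_lit 6) (nat_lit 215) (nat_lit 1) (nat_lit 137) (nat_lit 123) (nat_lit 130))) (PT.nd (nat_lit 78) (PT.lf (nat_lit 15656) (nat_lit 6) (nat_lit 206) (nat_lit 1) (nat_lit 138) (nat_lit 123) (nat_lit 129)) (PT.nd (nat_lit 78) (PT.lf (nat_lit 14896) (nat_lit 6) (nat_lit 196) (nat_lit 1) (nat_lit 139) (nat_lit 123) (nat_lit 128)) (PT.lf (nat_lit 14060) (nat_lit 6) (nat_lit 185) (nat_lit 1) (nat_lit 140) (nat_lit 123) (nat_lit 127))))) (PT.nd (nat_lit 156) (PT.nd (nat_lit 78) (PT.lf (nat_lit 13148) (nat_lit 6) (nat_lit 173) (nat_lit 1) (nat_lit 141) (nat_lit 123) (nat_lit 126)) (PT.lf (nat_lit 12160) (nat_lit 6) (nat_lit 160) (nat_lit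 1) (nat_lit 142) (nat_lit 123) (nat_lit 125))) (PT.nd (nat_lit 78) (PT.lf (nat_lit 11096) (nat_lit 6) (nat_lit 146) (nat_lit 1) (nat_lit 143) (nat_lit 123) (nat_lit 124)) (PT.nd (nat_lit 38922) (PT.lf (nat_lit 9956) (nat_lit 3) (nat_lit 131) (nat_lit 0) (nat_lit 144) (nat_lit 123) (nat_lit 123)) (PT.lf (nat_lit 10032) (nat_lit 6) (nat_lit 132) (nat_lit 5) (nat_lit 122) (nat_lit 124) (nat_lit 144)))))) (PT.nd (nat_lit 390) (PT.nd (nat_lit 156) (PT.nd (nat_lit 78) (PT.lf (nat_lit 11096) (nat_lit 6) (nat_lit 146) (nat_lit 5) (nat_lit 123) (nat_lit 124) (nat_lit 143)) (PT.lf (nat_lit 12084) (nat_lit 3) (nat_lit 159) (nat_lit 3) (nat_lit 124) (nat_lit 124) (nat_lit 142))) (PT.nd (nat_lit 78) (PT.lf (nat_lit 13072) (nat_lit 6) (nat_lit 172) (nat_lit 3) (nat_lit 125) (nat_lit 124) (nat_lit 141)) (PT.nd (nat_lit 78) (PT.lf (nat_lit 13984) (nat_lit 6) (nat_lit 184) (nat_lit 3) (nat_lit 126) (nat_lit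 124) (nat_lit 140)) (PT.lf (nat_lit 14820) (nat_lit 6) (nat_lit 195) (nat_lit 3) (nat_lit 127) (nat_lit 124) (nat_lit 139))))) (PT.nd (nat_lit 234) (PT.nd (nat_lit 78) (PT.lf (nat_lit 15580) (nat_lit 6) (nat_lit 205) (nat_lit 3) (nat_lit 128) (nat_lit 124) (nat_lit 138)) (PT.nd (nat_lit 78) (PT.lf (nat_lit 16264) (nat_lit 6) (nat_lit 214) (nat_lit 3) (nat_lit 129) (nat_lit 124) (nat_lit 137)) (PT.lf (nat_lit 16872) (nat_lit 6) (nat_lit 222) (nat_lit 3) (nat_lit 130) (nat_lit 124) (nat_lit 136)))) (PT.nd (nat_lit 78) (PT.lf (nat_lit 16948) (nat_lit 6) (nat_lit 223) (nat_lit 3) (nat_lit 131) (nat_lit 124) (nat_lit 135)) (PT.nd (nat_lit 78) (PT.lf (nat_lit 17024) (nat_lit 6) (nat_lit 224) (nat_lit 3) (nat_lit 132) (nat_lit 124) (nat_lit 134)) (PT.lf (nat_lit 17100) (nat_lit 3) (nat_lit 225) (nat_lit 1) (nat_lit 133) (nat_lit 124) (nat_lit 133))))))) (PT.nd (nat_lit 780) (PT.nd (nat_lit 390) (PT.nd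 (nat_lit 156) (PT.nd (nat_lit 78) (PT.lf (nat_lit 17024) (nat_lit 6) (nat_lit 224) (nat_lit 1) (nat_lit 134) (nat_lit 124) (nat_lit 132)) (PT.lf (nat_lit 16948) (nat_lit 6) (nat_lit 223) (nat_lit 1) (nat_lit 135) (nat_lit 124) (nat_lit 131))) (PT.nd (nat_lit 78) (PT.lf (nat_lit 16872) (nat_lit 6) (nat_lit 222) (nat_lit 1) (nat_lit 136) (nat_lit 124) (nat_lit 130)) (PT.nd (nat_lit 78) (PT.lf (nat_lit 16264) (nat_lit 6) (nat_lit 214) (nat_lit 1) (nat_lit 137) (nat_lit 124) (nat_lit 129)) (PT.lf (nat_lit 15580) (nat_lit 6) (nat_lit 205) (nat_lit 1) (nat_lit 138) (nat_lit 124) (nat_lit 128))))) (PT.nd (nat_lit 156) (PT.nd (nat_lit 78) (PT.lf (nat_lit 14820) (nat_lit 6) (nat_lit 195) (nat_lit 1) (nat_lit 139) (nat_lit 124) (nat_lit 127)) (PT.lf (nat_lit 13984) (nat_lit 6) (nat_lit 184) (nat_lit 1) (nat_lit 140) (nat_lit 124) (nat_lit 126))) (PT.nd (nat_lit 78) (PT.lf (nat_lit 13072) (nat_lit 6)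 (nat_lit 172) (nat_lit 1) (nat_lit 141) (nat_lit 124) (nat_lit 125)) (PT.nd (nat_lit 78) (PT.lf (nat_lit 12084) (nat_lit 3) (nat_lit 159) (nat_lit 0) (nat_lit 142) (nat_lit 124) (nat_lit 124)) (PT.lf (nat_lit 11096) (nat_lit 6) (nat_lit 146) (nat_lit 0) (nat_lit 143) (nat_lit 124) (nat_lit 123)))))) (PT.nd (nat_lit 39156) (PT.nd (nat_lit 38922) (PT.nd (nat_lit 38844) (PT.lf (nat_lit 10032) (nat_lit 6) (nat_lit 132) (nat_lit 0) (nat_lit 144) (nat_lit 124) (nat_lit 122)) (PT.lf (nat_lit 10108) (nat_lit 6) (nat_lit 133) (nat_lit 5) (nat_lit 121) (nat_lit 125) (nat_lit 144))) (PT.nd (nat_lit 78) (PT.lf (nat_lit 11172) (nat_lit 6) (nat_lit 147) (nat_lit 5) (nat_lit 122) (nat_lit 125) (nat_lit 143)) (PT.nd (nat_lit 78) (PT.lf (nat_lit 12160) (nat_lit 6) (nat_lit 160) (nat_lit 5) (nat_lit 123) (nat_lit 125) (nat_lit 142)) (PT.lf (nat_lit 13072) (nat_lit 6) (nat_lit 172) (nat_lit 5) (nat_lit 124) (nat_lit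 125) (nat_lit 141))))) (PT.nd (nat_lit 234) (PT.nd (nat_lit 78) (PT.lf (nat_lit 13908) (nat_lit 3) (nat_lit 183) (nat_lit 3) (nat_lit 125) (nat_lit 125) (nat_lit 140)) (PT.nd (nat_lit 78) (PT.lf (nat_lit 14744) (nat_lit 6) (nat_lit 194) (nat_lit 3) (nat_lit 126) (nat_lit 125) (nat_lit 139)) (PT.lf (nat_lit 15504) (nat_lit 6) (nat_lit 204) (nat_lit 3) (nat_lit 127) (nat_lit 125) (nat_lit 138)))) (PT.nd (nat_lit 78) (PT.lf (nat_lit 16188) (nat_lit 6) (nat_lit 213) (nat_lit 3) (nat_lit 128) (nat_lit 125) (nat_lit 137)) (PT.nd (nat_lit 78) (PT.lf (nat_lit 16796) (nat_lit 6) (nat_lit 221) (nat_lit 3) (nat_lit 129) (nat_lit 125) (nat_lit 136)) (PT.lf (nat_lit 17328) (nat_lit 6) (nat_lit 228) (nat_lit 3) (nat_lit 130) (nat_lit 125) (nat_lit 135))))))))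
noncomputable def pc10 : PT := (PT.nd (nat_lit 40326) (PT.nd (nat_lit 780) (PT.nd (nat_lit 390) (PT.nd (nat_lit 156) (PT.nd (nat_lit 78) (PT.lf (nat_lit 17404) (nat_lit 6) (nat_lit 229) (nat_lit 3) (nat_lit 131) (nat_lit 125) (nat_lit 134)) (PT.lf (nat_lit 17480) (nat_lit 6) (nat_lit 230) (nat_lit 3) (nat_lit 132) (nat_lit 125) (nat_lit 133))) (PT.nd (nat_lit 78) (PT.lf (nat_lit 17480) (nat_lit 6) (nat_lit 230) (nat_lit 1) (nat_lit 133) (nat_lit 125) (nat_lit 132)) (PT.nd (nat_lit 78) (PT.lf (nat_lit 17404) (nat_lit 6) (nat_lit 229) (nat_lit 1) (nat_lit 134) (nat_lit 125) (nat_lit 131)) (PT.lf (nat_lit 17328) (nat_lit 6) (nat_lit 228) (nat_lit 1) (nat_lit 135) (nat_lit 125) (nat_lit 130))))) (PT.nd (nat_lit 156) (PT.nd (nat_lit 78) (PT.lf (nat_lit 16796) (nat_lit 6) (nat_lit 221) (nat_lit 1) (nat_lit 136) (nat_lit 125) (nat_lit 129)) (PT.lf (nat_lit 16188) (nat_lit 6) (nat_lit 213) (nat_lit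 1) (nat_lit 137) (nat_lit 125) (nat_lit 128))) (PT.nd (nat_lit 78) (PT.lf (nat_lit 15504) (nat_lit 6) (nat_lit 204) (nat_lit 1) (nat_lit 138) (nat_lit 125) (nat_lit 127)) (PT.nd (nat_lit 78) (PT.lf (nat_lit 14744) (nat_lit 6) (nat_lit 194) (nat_lit 1) (nat_lit 139) (nat_lit 125) (nat_lit 126)) (PT.lf (nat_lit 13908) (nat_lit 3) (nat_lit 183) (nat_lit 0) (nat_lit 140) (nat_lit 125) (nat_lit 125)))))) (PT.nd (nat_lit 39078) (PT.nd (nat_lit 156) (PT.nd (nat_lit 78) (PT.lf (nat_lit 13072) (nat_lit 6) (nat_lit 172) (nat_lit 0) (nat_lit 141) (nat_lit 125) (nat_lit 124)) (PT.lf (nat_lit 12160) (nat_lit 6) (nat_lit 160) (nat_lit 0) (nat_lit 142) (nat_lit 125) (nat_lit 123))) (PT.nd (nat_lit 78) (PT.lf (nat_lit 11172) (nat_lit 6) (nat_lit 147) (nat_lit 0) (nat_lit 143) (nat_lit 125) (nat_lit 122)) (PT.nd (nat_lit 38766) (PT.lf (nat_lit 10108) (nat_lit 6) (nat_lit 133) (nat_lit 0) (nat_lit 144) (nat_lit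 125) (nat_lit 121)) (PT.lf (nat_lit 10184) (nat_lit 6) (nat_lit 134) (nat_lit 5) (nat_lit 120) (nat_lit 126) (nat_lit 144))))) (PT.nd (nat_lit 234) (PT.nd (nat_lit 78) (PT.lf (nat_lit 11248) (nat_lit 6) (nat_lit 148) (nat_lit 5) (nat_lit 121) (nat_lit 126) (nat_lit 143)) (PT.nd (nat_lit 78) (PT.lf (nat_lit 12236) (nat_lit 6) (nat_lit 161) (nat_lit 5) (nat_lit 122) (nat_lit 126) (nat_lit 142)) (PT.lf (nat_lit 13148) (nat_lit 6) (nat_lit 173) (nat_lit 5) (nat_lit 123) (nat_lit 126) (nat_lit 141)))) (PT.nd (nat_lit 78) (PT.lf (nat_lit 13984) (nat_lit 6) (nat_lit 184) (nat_lit 5) (nat_lit 124) (nat_lit 126) (nat_lit 140)) (PT.nd (nat_lit 78) (PT.lf (nat_lit 14744) (nat_lit 6) (nat_lit 194) (nat_lit 5) (nat_lit 125) (nat_lit 126) (nat_lit 139)) (PT.lf (nat_lit 15428) (nat_lit 3) (nat_lit 203) (nat_lit 3) (nat_lit 126) (nat_lit 126) (nat_lit 138))))))) (PT.nd (nat_lit 780) (PT.nd (nat_lit 390) (PT.nd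 (nat_lit 156) (PT.nd (nat_lit 78) (PT.lf (nat_lit 16112) (nat_lit 6) (nat_lit 212) (nat_lit 3) (nat_lit 127) (nat_lit 126) (nat_lit 137)) (PT.lf (nat_lit 16720) (nat_lit 6) (nat_lit 220) (nat_lit 3) (nat_lit 128) (nat_lit 126) (nat_lit 136))) (PT.nd (nat_lit 78) (PT.lf (nat_lit 17252) (nat_lit 6) (nat_lit 227) (nat_lit 3) (nat_lit 129) (nat_lit 126) (nat_lit 135)) (PT.nd (nat_lit 78) (PT.lf (nat_lit 17708) (nat_lit 6) (nat_lit 233) (nat_lit 3) (nat_lit 130) (nat_lit 126) (nat_lit 134)) (PT.lf (nat_lit 17784) (nat_lit 6) (nat_lit 234) (nat_lit 3) (nat_lit 131) (nat_lit 126) (nat_lit 133))))) (PT.nd (nat_lit 156) (PT.nd (nat_lit 78) (PT.lf (nat_lit 17860) (nat_lit 3) (nat_lit 235) (nat_lit 1) (nat_lit 132) (nat_lit 126) (nat_lit 132)) (PT.lf (nat_lit 17784) (nat_lit 6) (nat_lit 234) (nat_lit 1) (nat_lit 133) (nat_lit 126) (nat_lit 131))) (PT.nd (nat_lit 78) (PT.lf (nat_lit 17708) (nat_lit 6)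 (nat_lit 233) (nat_lit 1) (nat_lit 134) (nat_lit 126) (nat_lit 130)) (PT.nd (nat_lit 78) (PT.lf (nat_lit 17252) (nat_lit 6) (nat_lit 227) (nat_lit 1) (nat_lit 135) (nat_lit 126) (nat_lit 129)) (PT.lf (nat_lit 16720) (nat_lit 6) (nat_lit 220) (nat_lit 1) (nat_lit 136) (nat_lit 126) (nat_lit 128)))))) (PT.nd (nat_lit 390) (PT.nd (nat_lit 156) (PT.nd (nat_lit 78) (PT.lf (nat_lit 16112) (nat_lit 6) (nat_lit 212) (nat_lit 1) (nat_lit 137) (nat_lit 126) (nat_lit 127)) (PT.lf (nat_lit 15428) (nat_lit 3) (nat_lit 203) (nat_lit 0) (nat_lit 138) (nat_lit 126) (nat_lit 126))) (PT.nd (nat_lit 78) (PT.lf (nat_lit 14744) (nat_lit 6) (nat_lit 194) (nat_lit 0) (nat_lit 139) (nat_lit 126) (nat_lit 125)) (PT.nd (nat_lit 78) (PT.lf (nat_lit 13984) (nat_lit 6) (nat_lit 184) (nat_lit 0) (nat_lit 140) (nat_lit 126) (nat_lit 124)) (PT.lf (nat_lit 13148) (nat_lit 6) (nat_lit 173) (nat_lit 0) (nat_lit 141) (nat_lit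 126) (nat_lit 123))))) (PT.nd (nat_lit 38844) (PT.nd (nat_lit 78) (PT.lf (nat_lit 12236) (nat_lit 6) (nat_lit 161) (nat_lit 0) (nat_lit 142) (nat_lit 126) (nat_lit 122)) (PT.nd (nat_lit 78) (PT.lf (nat_lit 11248) (nat_lit 6) (nat_lit 148) (nat_lit 0) (nat_lit 143) (nat_lit 126) (nat_lit 121)) (PT.lf (nat_lit 10184) (nat_lit 6) (nat_lit 134) (nat_lit 0) (nat_lit 144) (nat_lit 126) (nat_lit 120)))) (PT.nd (nat_lit 78) (PT.lf (nat_lit 10260) (nat_lit 6) (nat_lit 135) (nat_lit 5) (nat_lit 119) (nat_lit 127) (nat_lit 144)) (PT.nd (nat_lit 78) (PT.lf (nat_lit 11324) (nat_lit 6) (nat_lit 149) (nat_lit 5) (nat_lit 120) (nat_lit 127) (nat_lit 143)) (PT.lf (nat_lit 12312) (nat_lit 6) (nat_lit 162) (nat_lit 5) (nat_lit 121) (nat_lit 127) (nat_lit 142))))))))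
noncomputable def pc11 : PT := (PT.nd (nat_lit 1638) (PT.nd (nat_lit 780) (PT.nd (nat_lit 390) (PT.nd (nat_lit 156) (PT.nd (nat_lit 78) (PT.lf (nat_lit 13224) (nat_lit 6) (nat_lit 174) (nat_lit 5) (nat_lit 122) (nat_lit 127) (nat_lit 141)) (PT.lf (nat_lit 14060) (nat_lit 6) (nat_lit 185) (nat_lit 5) (nat_lit 123) (nat_lit 127) (nat_lit 140))) (PT.nd (nat_lit 78) (PT.lf (nat_lit 14820) (nat_lit 6) (nat_lit 195) (nat_lit 5) (nat_lit 124) (nat_lit 127) (nat_lit 139)) (PT.nd (nat_lit 78) (PT.lf (nat_lit 15504) (nat_lit 6) (nat_lit 204) (nat_lit 5) (nat_lit 125) (nat_lit 127) (nat_lit 138)) (PT.lf (nat_lit 16112) (nat_lit 6) (nat_lit 212) (nat_lit 5) (nat_lit 126) (nat_lit 127) (nat_lit 137))))) (PT.nd (nat_lit 156) (PT.nd (nat_lit 78) (PT.lf (nat_lit 16644) (nat_lit 3) (nat_lit 219) (nat_lit 3) (nat_lit 127) (nat_lit 127) (nat_lit 136)) (PT.lf (nat_lit 17176) (nat_lit 6) (nat_lit 226) (nat_lit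 3) (nat_lit 128) (nat_lit 127) (nat_lit 135))) (PT.nd (nat_lit 78) (PT.lf (nat_lit 17632) (nat_lit 6) (nat_lit 232) (nat_lit 3) (nat_lit 129) (nat_lit 127) (nat_lit 134)) (PT.nd (nat_lit 78) (PT.lf (nat_lit 18012) (nat_lit 6) (nat_lit 237) (nat_lit 3) (nat_lit 130) (nat_lit 127) (nat_lit 133)) (PT.lf (nat_lit 18088) (nat_lit 6) (nat_lit 238) (nat_lit 3) (nat_lit 131) (nat_lit 127) (nat_lit 132)))))) (PT.nd (nat_lit 390) (PT.nd (nat_lit 156) (PT.nd (nat_lit 78) (PT.lf (nat_lit 18088) (nat_lit 6) (nat_lit 238) (nat_lit 1) (nat_lit 132) (nat_lit 127) (nat_lit 131)) (PT.lf (nat_lit 18012) (nat_lit 6) (nat_lit 237) (nat_lit 1) (nat_lit 133) (nat_lit 127) (nat_lit 130))) (PT.nd (nat_lit 78) (PT.lf (nat_lit 17632) (nat_lit 6) (nat_lit 232) (nat_lit 1) (nat_lit 134) (nat_lit 127) (nat_lit 129)) (PT.nd (nat_lit 78) (PT.lf (nat_lit 17176) (nat_lit 6) (nat_lit 226) (nat_lit 1) (nat_lit 135) (nat_lit 127)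 (nat_lit 128)) (PT.lf (nat_lit 16644) (nat_lit 3) (nat_lit 219) (nat_lit 0) (nat_lit 136) (nat_lit 127) (nat_lit 127))))) (PT.nd (nat_lit 234) (PT.nd (nat_lit 78) (PT.lf (nat_lit 16112) (nat_lit 6) (nat_lit 212) (nat_lit 0) (nat_lit 137) (nat_lit 127) (nat_lit 126)) (PT.nd (nat_lit 78) (PT.lf (nat_lit 15504) (nat_lit 6) (nat_lit 204) (nat_lit 0) (nat_lit 138) (nat_lit 127) (nat_lit 125)) (PT.lf (nat_lit 14820) (nat_lit 6) (nat_lit 195) (nat_lit 0) (nat_lit 139) (nat_lit 127) (nat_lit 124)))) (PT.nd (nat_lit 78) (PT.lf (nat_lit 14060) (nat_lit 6) (nat_lit 185) (nat_lit 0) (nat_lit 140) (nat_lit 127) (nat_lit 123)) (PT.nd (nat_lit 78) (PT.lf (nat_lit 13224) (nat_lit 6) (nat_lit 174) (nat_lit 0) (nat_lit 141) (nat_lit 127) (nat_lit 122)) (PT.lf (nat_lit 12312) (nat_lit 6) (nat_lit 162) (nat_lit 0) (nat_lit 142) (nat_lit 127) (nat_lit 121))))))) (PT.nd (nat_lit 39390) (PT.nd (nat_lit 38922) (PT.nd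 (nat_lit 38688) (PT.nd (nat_lit 78) (PT.lf (nat_lit 11324) (nat_lit 6) (nat_lit 149) (nat_lit 0) (nat_lit 143) (nat_lit 127) (nat_lit 120)) (PT.lf (nat_lit 10260) (nat_lit 6) (nat_lit 135) (nat_lit 0) (nat_lit 144) (nat_lit 127) (nat_lit 119))) (PT.nd (nat_lit 78) (PT.lf (nat_lit 10336) (nat_lit 6) (nat_lit 136) (nat_lit 5) (nat_lit 118) (nat_lit 128) (nat_lit 144)) (PT.nd (nat_lit 78) (PT.lf (nat_lit 11400) (nat_lit 6) (nat_lit 150) (nat_lit 5) (nat_lit 119) (nat_lit 128) (nat_lit 143)) (PT.lf (nat_lit 12388) (nat_lit 6) (nat_lit 163) (nat_lit 5) (nat_lit 120) (nat_lit 128) (nat_lit 142))))) (PT.nd (nat_lit 234) (PT.nd (nat_lit 78) (PT.lf (nat_lit 13300) (nat_lit 6) (nat_lit 175) (nat_lit 5) (nat_lit 121) (nat_lit 128) (nat_lit 141)) (PT.nd (nat_lit 78) (PT.lf (nat_lit 14136) (nat_lit 6) (nat_lit 186) (nat_lit 5) (nat_lit 122) (nat_lit 128) (nat_lit 140)) (PT.lf (nat_lit 14896) (nat_lit 6)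 (nat_lit 196) (nat_lit 5) (nat_lit 123) (nat_lit 128) (nat_lit 139)))) (PT.nd (nat_lit 78) (PT.lf (nat_lit 15580) (nat_lit 6) (nat_lit 205) (nat_lit 5) (nat_lit 124) (nat_lit 128) (nat_lit 138)) (PT.nd (nat_lit 78) (PT.lf (nat_lit 16188) (nat_lit 6) (nat_lit 213) (nat_lit 5) (nat_lit 125) (nat_lit 128) (nat_lit 137)) (PT.lf (nat_lit 16720) (nat_lit 6) (nat_lit 220) (nat_lit 5) (nat_lit 126) (nat_lit 128) (nat_lit 136)))))) (PT.nd (nat_lit 390) (PT.nd (nat_lit 156) (PT.nd (nat_lit 78) (PT.lf (nat_lit 17176) (nat_lit 6) (nat_lit 226) (nat_lit 5) (nat_lit 127) (nat_lit 128) (nat_lit 135)) (PT.lf (nat_lit 17556) (nat_lit 3) (nat_lit 231) (nat_lit 3) (nat_lit 128) (nat_lit 128) (nat_lit 134))) (PT.nd (nat_lit 78) (PT.lf (nat_lit 17936) (nat_lit 6) (nat_lit 236) (nat_lit 3) (nat_lit 129) (nat_lit 128) (nat_lit 133)) (PT.nd (nat_lit 78) (PT.lf (nat_lit 18240) (nat_lit 6) (nat_lit 240) (nat_lit 3)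 (nat_lit 130) (nat_lit 128) (nat_lit 132)) (PT.lf (nat_lit 18316) (nat_lit 3) (nat_lit 241) (nat_lit 1) (nat_lit 131) (nat_lit 128) (nat_lit 131))))) (PT.nd (nat_lit 234) (PT.nd (nat_lit 78) (PT.lf (nat_lit 18240) (nat_lit 6) (nat_lit 240) (nat_lit 1) (nat_lit 132) (nat_lit 128) (nat_lit 130)) (PT.nd (nat_lit 78) (PT.lf (nat_lit 17936) (nat_lit 6) (nat_lit 236) (nat_lit 1) (nat_lit 133) (nat_lit 128) (nat_lit 129)) (PT.lf (nat_lit 17556) (nat_lit 3) (nat_lit 231) (nat_lit 0) (nat_lit 134) (nat_lit 128) (nat_lit 128)))) (PT.nd (nat_lit 78) (PT.lf (nat_lit 17176) (nat_lit 6) (nat_lit 226) (nat_lit 0) (nat_lit 135) (nat_lit 128) (nat_lit 127)) (PT.nd (nat_lit 78) (PT.lf (nat_lit 16720) (nat_lit 6) (nat_lit 220) (nat_lit 0) (nat_lit 136) (nat_lit 128) (nat_lit 126)) (PT.lf (nat_lit 16188) (nat_lit 6) (nat_lit 213) (nat_lit 0) (nat_lit 137) (nat_lit 128) (nat_lit 125))))))))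
noncomputable def pc12 : PT := (PT.nd (nat_lit 40092) (PT.nd (nat_lit 39234) (PT.nd (nat_lit 390) (PT.nd (nat_lit 156) (PT.nd (nat_lit 78) (PT.lf (nat_lit 15580) (nat_lit 6) (nat_lit 205) (nat_lit 0) (nat_lit 138) (nat_lit 128) (nat_lit 124)) (PT.lf (nat_lit 14896) (nat_lit 6) (nat_lit 196) (nat_lit 0) (nat_lit 139) (nat_lit 128) (nat_lit 123))) (PT.nd (nat_lit 78) (PT.lf (nat_lit 14136) (nat_lit 6) (nat_lit 186) (nat_lit 0) (nat_lit 140) (nat_lit 128) (nat_lit 122)) (PT.nd (nat_lit 78) (PT.lf (nat_lit 13300) (nat_lit 6) (nat_lit 175) (nat_lit 0) (nat_lit 141) (nat_lit 128) (nat_lit 121)) (PT.lf (nat_lit 12388) (nat_lit 6) (nat_lit 163) (nat_lit 0) (nat_lit 142) (nat_lit 128) (nat_lit 120))))) (PT.nd (nat_lit 38610) (PT.nd (nat_lit 78) (PT.lf (nat_lit 11400) (nat_lit 6) (nat_lit 150) (nat_lit 0) (nat_lit 143) (nat_lit 128) (nat_lit 119)) (PT.lf (nat_lit 10336) (nat_lit 6) (nat_lit 136) (nat_lit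 0) (nat_lit 144) (nat_lit 128) (nat_lit 118))) (PT.nd (nat_lit 78) (PT.lf (nat_lit 10412) (nat_lit 6) (nat_lit 137) (nat_lit 5) (nat_lit 117) (nat_lit 129) (nat_lit 144)) (PT.nd (nat_lit 78) (PT.lf (nat_lit 11476) (nat_lit 6) (nat_lit 151) (nat_lit 5) (nat_lit 118) (nat_lit 129) (nat_lit 143)) (PT.lf (nat_lit 12464) (nat_lit 6) (nat_lit 164) (nat_lit 5) (nat_lit 119) (nat_lit 129) (nat_lit 142)))))) (PT.nd (nat_lit 390) (PT.nd (nat_lit 156) (PT.nd (nat_lit 78) (PT.lf (nat_lit 13376) (nat_lit 6) (nat_lit 176) (nat_lit 5) (nat_lit 120) (nat_lit 129) (nat_lit 141)) (PT.lf (nat_lit 14212) (nat_lit 6) (nat_lit 187) (nat_lit 5) (nat_lit 121) (nat_lit 129) (nat_lit 140))) (PT.nd (nat_lit 78) (PT.lf (nat_lit 14972) (nat_lit 6) (nat_lit 197) (nat_lit 5) (nat_lit 122) (nat_lit 129) (nat_lit 139)) (PT.nd (nat_lit 78) (PT.lf (nat_lit 15656) (nat_lit 6) (nat_lit 206) (nat_lit 5) (nat_lit 123) (nat_lit 129)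 (nat_lit 138)) (PT.lf (nat_lit 16264) (nat_lit 6) (nat_lit 214) (nat_lit 5) (nat_lit 124) (nat_lit 129) (nat_lit 137))))) (PT.nd (nat_lit 234) (PT.nd (nat_lit 78) (PT.lf (nat_lit 16796) (nat_lit 6) (nat_lit 221) (nat_lit 5) (nat_lit 125) (nat_lit 129) (nat_lit 136)) (PT.nd (nat_lit 78) (PT.lf (nat_lit 17252) (nat_lit 6) (nat_lit 227) (nat_lit 5) (nat_lit 126) (nat_lit 129) (nat_lit 135)) (PT.lf (nat_lit 17632) (nat_lit 6) (nat_lit 232) (nat_lit 5) (nat_lit 127) (nat_lit 129) (nat_lit 134)))) (PT.nd (nat_lit 78) (PT.lf (nat_lit 17936) (nat_lit 6) (nat_lit 236) (nat_lit 5) (nat_lit 128) (nat_lit 129) (nat_lit 133)) (PT.nd (nat_lit 78) (PT.lf (nat_lit 18164) (nat_lit 3) (nat_lit 239) (nat_lit 3) (nat_lit 129) (nat_lit 129) (nat_lit 132)) (PT.lf (nat_lit 18392) (nat_lit 6) (nat_lit 242) (nat_lit 3) (nat_lit 130) (nat_lit 129) (nat_lit 131))))))) (PT.nd (nat_lit 780) (PT.nd (nat_lit 390) (PT.nd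 (nat_lit 156) (PT.nd (nat_lit 78) (PT.lf (nat_lit 18392) (nat_lit 6) (nat_lit 242) (nat_lit 1) (nat_lit 131) (nat_lit 129) (nat_lit 130)) (PT.lf (nat_lit 18164) (nat_lit 3) (nat_lit 239) (nat_lit 0) (nat_lit 132) (nat_lit 129) (nat_lit 129))) (PT.nd (nat_lit 78) (PT.lf (nat_lit 17936) (nat_lit 6) (nat_lit 236) (nat_lit 0) (nat_lit 133) (nat_lit 129) (nat_lit 128)) (PT.nd (nat_lit 78) (PT.lf (nat_lit 17632) (nat_lit 6) (nat_lit 232) (nat_lit 0) (nat_lit 134) (nat_lit 129) (nat_lit 127)) (PT.lf (nat_lit 17252) (nat_lit 6) (nat_lit 227) (nat_lit 0) (nat_lit 135) (nat_lit 129) (nat_lit 126))))) (PT.nd (nat_lit 156) (PT.nd (nat_lit 78) (PT.lf (nat_lit 16796) (nat_lit 6) (nat_lit 221) (nat_lit 0) (nat_lit 136) (nat_lit 129) (nat_lit 125)) (PT.lf (nat_lit 16264) (nat_lit 6) (nat_lit 214) (nat_lit 0) (nat_lit 137) (nat_lit 129) (nat_lit 124))) (PT.nd (nat_lit 78) (PT.lf (nat_lit 15656) (nat_lit 6)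 (nat_lit 206) (nat_lit 0) (nat_lit 138) (nat_lit 129) (nat_lit 123)) (PT.nd (nat_lit 78) (PT.lf (nat_lit 14972) (nat_lit 6) (nat_lit 197) (nat_lit 0) (nat_lit 139) (nat_lit 129) (nat_lit 122)) (PT.lf (nat_lit 14212) (nat_lit 6) (nat_lit 187) (nat_lit 0) (nat_lit 140) (nat_lit 129) (nat_lit 121)))))) (PT.nd (nat_lit 38766) (PT.nd (nat_lit 156) (PT.nd (nat_lit 78) (PT.lf (nat_lit 13376) (nat_lit 6) (nat_lit 176) (nat_lit 0) (nat_lit 141) (nat_lit 129) (nat_lit 120)) (PT.lf (nat_lit 12464) (nat_lit 6) (nat_lit 164) (nat_lit 0) (nat_lit 142) (nat_lit 129) (nat_lit 119))) (PT.nd (nat_lit 78) (PT.lf (nat_lit 11476) (nat_lit 6) (nat_lit 151) (nat_lit 0) (nat_lit 143) (nat_lit 129) (nat_lit 118)) (PT.nd (nat_lit 38454) (PT.lf (nat_lit 10412) (nat_lit 6) (nat_lit 137) (nat_lit 0) (nat_lit 144) (nat_lit 129) (nat_lit 117)) (PT.lf (nat_lit 10488) (nat_lit 6) (nat_lit 138) (nat_lit 5) (nat_lit 116) (nat_lit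 130) (nat_lit 144))))) (PT.nd (nat_lit 234) (PT.nd (nat_lit 78) (PT.lf (nat_lit 11552) (nat_lit 6) (nat_lit 152) (nat_lit 5) (nat_lit 117) (nat_lit 130) (nat_lit 143)) (PT.nd (nat_lit 78) (PT.lf (nat_lit 12540) (nat_lit 6) (nat_lit 165) (nat_lit 5) (nat_lit 118) (nat_lit 130) (nat_lit 142)) (PT.lf (nat_lit 13452) (nat_lit 6) (nat_lit 177) (nat_lit 5) (nat_lit 119) (nat_lit 130) (nat_lit 141)))) (PT.nd (nat_lit 78) (PT.lf (nat_lit 14288) (nat_lit 6) (nat_lit 188) (nat_lit 5) (nat_lit 120) (nat_lit 130) (nat_lit 140)) (PT.nd (nat_lit 78) (PT.lf (nat_lit 15048) (nat_lit 6) (nat_lit 198) (nat_lit 5) (nat_lit 121) (nat_lit 130) (nat_lit 139)) (PT.lf (nat_lit 15732) (nat_lit 6) (nat_lit 207) (nat_lit 5) (nat_lit 122) (nat_lit 130) (nat_lit 138))))))))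
noncomputable def pc13 : PT := (PT.nd (nat_lit 1638) (PT.nd (nat_lit 780) (PT.nd (nat_lit 390) (PT.nd (nat_lit 156) (PT.nd (nat_lit 78) (PT.lf (nat_lit 16340) (nat_lit 6) (nat_lit 215) (nat_lit 5) (nat_lit 123) (nat_lit 130) (nat_lit 137)) (PT.lf (nat_lit 16872) (nat_lit 6) (nat_lit 222) (nat_lit 5) (nat_lit 124) (nat_lit 130) (nat_lit 136))) (PT.nd (nat_lit 78) (PT.lf (nat_lit 17328) (nat_lit 6) (nat_lit 228) (nat_lit 5) (nat_lit 125) (nat_lit 130) (nat_lit 135)) (PT.nd (nat_lit 78) (PT.lf (nat_lit 17708) (nat_lit 6) (nat_lit 233) (nat_lit 5) (nat_lit 126) (nat_lit 130) (nat_lit 134)) (PT.lf (nat_lit 18012) (nat_lit 6) (nat_lit 237) (nat_lit 5) (nat_lit 127) (nat_lit 130) (nat_lit 133))))) (PT.nd (nat_lit 156) (PT.nd (nat_lit 78) (PT.lf (nat_lit 18240) (nat_lit 6) (nat_lit 240) (nat_lit 5) (nat_lit 128) (nat_lit 130) (nat_lit 132)) (PT.lf (nat_lit 18392) (nat_lit 6) (nat_lit 242) (nat_lit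 5) (nat_lit 129) (nat_lit 130) (nat_lit 131))) (PT.nd (nat_lit 78) (PT.lf (nat_lit 18468) (nat_lit 1) (nat_lit 243) (nat_lit 0) (nat_lit 130) (nat_lit 130) (nat_lit 130)) (PT.nd (nat_lit 78) (PT.lf (nat_lit 18392) (nat_lit 6) (nat_lit 242) (nat_lit 0) (nat_lit 131) (nat_lit 130) (nat_lit 129)) (PT.lf (nat_lit 18240) (nat_lit 6) (nat_lit 240) (nat_lit 0) (nat_lit 132) (nat_lit 130) (nat_lit 128)))))) (PT.nd (nat_lit 390) (PT.nd (nat_lit 156) (PT.nd (nat_lit 78) (PT.lf (nat_lit 18012) (nat_lit 6) (nat_lit 237) (nat_lit 0) (nat_lit 133) (nat_lit 130) (nat_lit 127)) (PT.lf (nat_lit 17708) (nat_lit 6) (nat_lit 233) (nat_lit 0) (nat_lit 134) (nat_lit 130) (nat_lit 126))) (PT.nd (nat_lit 78) (PT.lf (nat_lit 17328) (nat_lit 6) (nat_lit 228) (nat_lit 0) (nat_lit 135) (nat_lit 130) (nat_lit 125)) (PT.nd (nat_lit 78) (PT.lf (nat_lit 16872) (nat_lit 6) (nat_lit 222) (nat_lit 0) (nat_lit 136) (nat_lit 130)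 (nat_lit 124)) (PT.lf (nat_lit 16340) (nat_lit 6) (nat_lit 215) (nat_lit 0) (nat_lit 137) (nat_lit 130) (nat_lit 123))))) (PT.nd (nat_lit 234) (PT.nd (nat_lit 78) (PT.lf (nat_lit 15732) (nat_lit 6) (nat_lit 207) (nat_lit 0) (nat_lit 138) (nat_lit 130) (nat_lit 122)) (PT.nd (nat_lit 78) (PT.lf (nat_lit 15048) (nat_lit 6) (nat_lit 198) (nat_lit 0) (nat_lit 139) (nat_lit 130) (nat_lit 121)) (PT.lf (nat_lit 14288) (nat_lit 6) (nat_lit 188) (nat_lit 0) (nat_lit 140) (nat_lit 130) (nat_lit 120)))) (PT.nd (nat_lit 78) (PT.lf (nat_lit 13452) (nat_lit 6) (nat_lit 177) (nat_lit 0) (nat_lit 141) (nat_lit 130) (nat_lit 119)) (PT.nd (nat_lit 78) (PT.lf (nat_lit 12540) (nat_lit 6) (nat_lit 165) (nat_lit 0) (nat_lit 142) (nat_lit 130) (nat_lit 118)) (PT.lf (nat_lit 11552) (nat_lit 6) (nat_lit 152) (nat_lit 0) (nat_lit 143) (nat_lit 130) (nat_lit 117))))))) (PT.nd (nat_lit 39156) (PT.nd (nat_lit 38688) (PT.nd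 (nat_lit 38454) (PT.nd (nat_lit 38376) (PT.lf (nat_lit 10488) (nat_lit 6) (nat_lit 138) (nat_lit 0) (nat_lit 144) (nat_lit 130) (nat_lit 116)) (PT.lf (nat_lit 9424) (nat_lit 6) (nat_lit 124) (nat_lit 5) (nat_lit 115) (nat_lit 131) (nat_lit 144))) (PT.nd (nat_lit 78) (PT.lf (nat_lit 10564) (nat_lit 6) (nat_lit 139) (nat_lit 5) (nat_lit 116) (nat_lit 131) (nat_lit 143)) (PT.nd (nat_lit 78) (PT.lf (nat_lit 11628) (nat_lit 6) (nat_lit 153) (nat_lit 5) (nat_lit 117) (nat_lit 131) (nat_lit 142)) (PT.lf (nat_lit 12616) (nat_lit 6) (nat_lit 166) (nat_lit 5) (nat_lit 118) (nat_lit 131) (nat_lit 141))))) (PT.nd (nat_lit 234) (PT.nd (nat_lit 78) (PT.lf (nat_lit 13528) (nat_lit 6) (nat_lit 178) (nat_lit 5) (nat_lit 119) (nat_lit 131) (nat_lit 140)) (PT.nd (nat_lit 78) (PT.lf (nat_lit 14364) (nat_lit 6) (nat_lit 189) (nat_lit 5) (nat_lit 120) (nat_lit 131) (nat_lit 139)) (PT.lf (nat_lit 15124) (nat_lit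 6) (nat_lit 199) (nat_lit 5) (nat_lit 121) (nat_lit 131) (nat_lit 138)))) (PT.nd (nat_lit 78) (PT.lf (nat_lit 15808) (nat_lit 6) (nat_lit 208) (nat_lit 5) (nat_lit 122) (nat_lit 131) (nat_lit 137)) (PT.nd (nat_lit 78) (PT.lf (nat_lit 16416) (nat_lit 6) (nat_lit 216) (nat_lit 5) (nat_lit 123) (nat_lit 131) (nat_lit 136)) (PT.lf (nat_lit 16948) (nat_lit 6) (nat_lit 223) (nat_lit 5) (nat_lit 124) (nat_lit 131) (nat_lit 135)))))) (PT.nd (nat_lit 390) (PT.nd (nat_lit 156) (PT.nd (nat_lit 78) (PT.lf (nat_lit 17404) (nat_lit 6) (nat_lit 229) (nat_lit 5) (nat_lit 125) (nat_lit 131) (nat_lit 134)) (PT.lf (nat_lit 17784) (nat_lit 6) (nat_lit 234) (nat_lit 5) (nat_lit 126) (nat_lit 131) (nat_lit 133))) (PT.nd (nat_lit 78) (PT.lf (nat_lit 18088) (nat_lit 6) (nat_lit 238) (nat_lit 5) (nat_lit 127) (nat_lit 131) (nat_lit 132)) (PT.nd (nat_lit 78) (PT.lf (nat_lit 18316) (nat_lit 3) (nat_lit 241) (nat_lit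 4) (nat_lit 128) (nat_lit 131) (nat_lit 131)) (PT.lf (nat_lit 18392) (nat_lit 6) (nat_lit 242) (nat_lit 4) (nat_lit 129) (nat_lit 131) (nat_lit 130))))) (PT.nd (nat_lit 234) (PT.nd (nat_lit 78) (PT.lf (nat_lit 18392) (nat_lit 6) (nat_lit 242) (nat_lit 2) (nat_lit 130) (nat_lit 131) (nat_lit 129)) (PT.nd (nat_lit 78) (PT.lf (nat_lit 18316) (nat_lit 3) (nat_lit 241) (nat_lit 0) (nat_lit 131) (nat_lit 131) (nat_lit 128)) (PT.lf (nat_lit 18088) (nat_lit 6) (nat_lit 238) (nat_lit 0) (nat_lit 132) (nat_lit 131) (nat_lit 127)))) (PT.nd (nat_lit 78) (PT.lf (nat_lit 17784) (nat_lit 6) (nat_lit 234) (nat_lit 0) (nat_lit 133) (nat_lit 131) (nat_lit 126)) (PT.nd (nat_lit 78) (PT.lf (nat_lit 17404) (nat_lit 6) (nat_lit 229) (nat_lit 0) (nat_lit 134) (nat_lit 131) (nat_lit 125)) (PT.lf (nat_lit 16948) (nat_lit 6) (nat_lit 223) (nat_lit 0) (nat_lit 135) (nat_lit 131) (nat_lit 124))))))))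
noncomputable def pc14 : PT := (PT.nd (nat_lit 39780) (PT.nd (nat_lit 38922) (PT.nd (nat_lit 390) (PT.nd (nat_lit 156) (PT.nd (nat_lit 78) (PT.lf (nat_lit 16416) (nat_lit 6) (nat_lit 216) (nat_lit 0) (nat_lit 136) (nat_lit 131) (nat_lit 123)) (PT.lf (nat_lit 15808) (nat_lit 6) (nat_lit 208) (nat_lit 0) (nat_lit 137) (nat_lit 131) (nat_lit 122))) (PT.nd (nat_lit 78) (PT.lf (nat_lit 15124) (nat_lit 6) (nat_lit 199) (nat_lit 0) (nat_lit 138) (nat_lit 131) (nat_lit 121)) (PT.nd (nat_lit 78) (PT.lf (nat_lit 14364) (nat_lit 6) (nat_lit 189) (nat_lit 0) (nat_lit 139) (nat_lit 131) (nat_lit 120)) (PT.lf (nat_lit 13528) (nat_lit 6) (nat_lit 178) (nat_lit 0) (nat_lit 140) (nat_lit 131) (nat_lit 119))))) (PT.nd (nat_lit 156) (PT.nd (nat_lit 78) (PT.lf (nat_lit 12616) (nat_lit 6) (nat_lit 166) (nat_lit 0) (nat_lit 141) (nat_lit 131) (nat_lit 118)) (PT.lf (nat_lit 11628) (nat_lit 6) (nat_lit 153) (nat_lit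 0) (nat_lit 142) (nat_lit 131) (nat_lit 117))) (PT.nd (nat_lit 78) (PT.lf (nat_lit 10564) (nat_lit 6) (nat_lit 139) (nat_lit 0) (nat_lit 143) (nat_lit 131) (nat_lit 116)) (PT.nd (nat_lit 38220) (PT.lf (nat_lit 9424) (nat_lit 6) (nat_lit 124) (nat_lit 0) (nat_lit 144) (nat_lit 131) (nat_lit 115)) (PT.lf (nat_lit 8360) (nat_lit 6) (nat_lit 110) (nat_lit 5) (nat_lit 113) (nat_lit 132) (nat_lit 145)))))) (PT.nd (nat_lit 390) (PT.nd (nat_lit 156) (PT.nd (nat_lit 78) (PT.lf (nat_lit 8892) (nat_lit 6) (nat_lit 117) (nat_lit 5) (nat_lit 114) (nat_lit 132) (nat_lit 144)) (PT.lf (nat_lit 9500) (nat_lit 6) (nat_lit 125) (nat_lit 5) (nat_lit 115) (nat_lit 132) (nat_lit 143))) (PT.nd (nat_lit 78) (PT.lf (nat_lit 10640) (nat_lit 6) (nat_lit 140) (nat_lit 5) (nat_lit 116) (nat_lit 132) (nat_lit 142)) (PT.nd (nat_lit 78) (PT.lf (nat_lit 11704) (nat_lit 6) (nat_lit 154) (nat_lit 5) (nat_lit 117) (nat_lit 132)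 (nat_lit 141)) (PT.lf (nat_lit 12692) (nat_lit 6) (nat_lit 167) (nat_lit 5) (nat_lit 118) (nat_lit 132) (nat_lit 140))))) (PT.nd (nat_lit 234) (PT.nd (nat_lit 78) (PT.lf (nat_lit 13604) (nat_lit 6) (nat_lit 179) (nat_lit 5) (nat_lit 119) (nat_lit 132) (nat_lit 139)) (PT.nd (nat_lit 78) (PT.lf (nat_lit 14440) (nat_lit 6) (nat_lit 190) (nat_lit 5) (nat_lit 120) (nat_lit 132) (nat_lit 138)) (PT.lf (nat_lit 15200) (nat_lit 6) (nat_lit 200) (nat_lit 5) (nat_lit 121) (nat_lit 132) (nat_lit 137)))) (PT.nd (nat_lit 78) (PT.lf (nat_lit 15884) (nat_lit 6) (nat_lit 209) (nat_lit 5) (nat_lit 122) (nat_lit 132) (nat_lit 136)) (PT.nd (nat_lit 78) (PT.lf (nat_lit 16492) (nat_lit 6) (nat_lit 217) (nat_lit 5) (nat_lit 123) (nat_lit 132) (nat_lit 135)) (PT.lf (nat_lit 17024) (nat_lit 6) (nat_lit 224) (nat_lit 5) (nat_lit 124) (nat_lit 132) (nat_lit 134))))))) (PT.nd (nat_lit 780) (PT.nd (nat_lit 390) (PT.nd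 (nat_lit 156) (PT.nd (nat_lit 78) (PT.lf (nat_lit 17480) (nat_lit 6) (nat_lit 230) (nat_lit 5) (nat_lit 125) (nat_lit 132) (nat_lit 133)) (PT.lf (nat_lit 17860) (nat_lit 3) (nat_lit 235) (nat_lit 4) (nat_lit 126) (nat_lit 132) (nat_lit 132))) (PT.nd (nat_lit 78) (PT.lf (nat_lit 18088) (nat_lit 6) (nat_lit 238) (nat_lit 4) (nat_lit 127) (nat_lit 132) (nat_lit 131)) (PT.nd (nat_lit 78) (PT.lf (nat_lit 18240) (nat_lit 6) (nat_lit 240) (nat_lit 4) (nat_lit 128) (nat_lit 132) (nat_lit 130)) (PT.lf (nat_lit 18164) (nat_lit 3) (nat_lit 239) (nat_lit 2) (nat_lit 129) (nat_lit 132) (nat_lit 129))))) (PT.nd (nat_lit 156) (PT.nd (nat_lit 78) (PT.lf (nat_lit 18240) (nat_lit 6) (nat_lit 240) (nat_lit 2) (nat_lit 130) (nat_lit 132) (nat_lit 128)) (PT.lf (nat_lit 18088) (nat_lit 6) (nat_lit 238) (nat_lit 2) (nat_lit 131) (nat_lit 132) (nat_lit 127))) (PT.nd (nat_lit 78) (PT.lf (nat_lit 17860) (nat_lit 3)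 (nat_lit 235) (nat_lit 0) (nat_lit 132) (nat_lit 132) (nat_lit 126)) (PT.nd (nat_lit 78) (PT.lf (nat_lit 17480) (nat_lit 6) (nat_lit 230) (nat_lit 0) (nat_lit 133) (nat_lit 132) (nat_lit 125)) (PT.lf (nat_lit 17024) (nat_lit 6) (nat_lit 224) (nat_lit 0) (nat_lit 134) (nat_lit 132) (nat_lit 124)))))) (PT.nd (nat_lit 390) (PT.nd (nat_lit 156) (PT.nd (nat_lit 78) (PT.lf (nat_lit 16492) (nat_lit 6) (nat_lit 217) (nat_lit 0) (nat_lit 135) (nat_lit 132) (nat_lit 123)) (PT.lf (nat_lit 15884) (nat_lit 6) (nat_lit 209) (nat_lit 0) (nat_lit 136) (nat_lit 132) (nat_lit 122))) (PT.nd (nat_lit 78) (PT.lf (nat_lit 15200) (nat_lit 6) (nat_lit 200) (nat_lit 0) (nat_lit 137) (nat_lit 132) (nat_lit 121)) (PT.nd (nat_lit 78) (PT.lf (nat_lit 14440) (nat_lit 6) (nat_lit 190) (nat_lit 0) (nat_lit 138) (nat_lit 132) (nat_lit 120)) (PT.lf (nat_lit 13604) (nat_lit 6) (nat_lit 179) (nat_lit 0) (nat_lit 139) (nat_lit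 132) (nat_lit 119))))) (PT.nd (nat_lit 234) (PT.nd (nat_lit 78) (PT.lf (nat_lit 12692) (nat_lit 6) (nat_lit 167) (nat_lit 0) (nat_lit 140) (nat_lit 132) (nat_lit 118)) (PT.nd (nat_lit 78) (PT.lf (nat_lit 11704) (nat_lit 6) (nat_lit 154) (nat_lit 0) (nat_lit 141) (nat_lit 132) (nat_lit 117)) (PT.lf (nat_lit 10640) (nat_lit 6) (nat_lit 140) (nat_lit 0) (nat_lit 142) (nat_lit 132) (nat_lit 116)))) (PT.nd (nat_lit 78) (PT.lf (nat_lit 9500) (nat_lit 6) (nat_lit 125) (nat_lit 0) (nat_lit 143) (nat_lit 132) (nat_lit 115)) (PT.nd (nat_lit 78) (PT.lf (nat_lit 8892) (nat_lit 6) (nat_lit 117) (nat_lit 0) (nat_lit 144) (nat_lit 132) (nat_lit 114)) (PT.lf (nat_lit 8360) (nat_lit 6) (nat_lit 110) (nat_lit 0) (nat_lit 145) (nat_lit 132) (nat_lit 113))))))))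
noncomputable def pc15 : PT := (PT.nd (nat_lit 1638) (PT.nd (nat_lit 780) (PT.nd (nat_lit 390) (PT.nd (nat_lit 156) (PT.nd (nat_lit 78) (PT.lf (nat_lit 7828) (nat_lit 6) (nat_lit 103) (nat_lit 5) (nat_lit 112) (nat_lit 133) (nat_lit 145)) (PT.lf (nat_lit 8436) (nat_lit 6) (nat_lit 111) (nat_lit 5) (nat_lit 113) (nat_lit 133) (nat_lit 144))) (PT.nd (nat_lit 78) (PT.lf (nat_lit 8968) (nat_lit 6) (nat_lit 118) (nat_lit 5) (nat_lit 114) (nat_lit 133) (nat_lit 143)) (PT.nd (nat_lit 78) (PT.lf (nat_lit 9576) (nat_lit 6) (nat_lit 126) (nat_lit 5) (nat_lit 115) (nat_lit 133) (nat_lit 142)) (PT.lf (nat_lit 10716) (nat_lit 6) (nat_lit 141) (nat_lit 5) (nat_lit 116) (nat_lit 133) (nat_lit 141))))) (PT.nd (nat_lit 156) (PT.nd (nat_lit 78) (PT.lf (nat_lit 11780) (nat_lit 6) (nat_lit 155) (nat_lit 5) (nat_lit 117) (nat_lit 133) (nat_lit 140)) (PT.lf (nat_lit 12768) (nat_lit 6) (nat_lit 168) (nat_lit 5) (nat_lit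 118) (nat_lit 133) (nat_lit 139))) (PT.nd (nat_lit 78) (PT.lf (nat_lit 13680) (nat_lit 6) (nat_lit 180) (nat_lit 5) (nat_lit 119) (nat_lit 133) (nat_lit 138)) (PT.nd (nat_lit 78) (PT.lf (nat_lit 14516) (nat_lit 6) (nat_lit 191) (nat_lit 5) (nat_lit 120) (nat_lit 133) (nat_lit 137)) (PT.lf (nat_lit 15276) (nat_lit 6) (nat_lit 201) (nat_lit 5) (nat_lit 121) (nat_lit 133) (nat_lit 136)))))) (PT.nd (nat_lit 390) (PT.nd (nat_lit 156) (PT.nd (nat_lit 78) (PT.lf (nat_lit 15960) (nat_lit 6) (nat_lit 210) (nat_lit 5) (nat_lit 122) (nat_lit 133) (nat_lit 135)) (PT.lf (nat_lit 16568) (nat_lit 6) (nat_lit 218) (nat_lit 5) (nat_lit 123) (nat_lit 133) (nat_lit 134))) (PT.nd (nat_lit 78) (PT.lf (nat_lit 17100) (nat_lit 3) (nat_lit 225) (nat_lit 4) (nat_lit 124) (nat_lit 133) (nat_lit 133)) (PT.nd (nat_lit 78) (PT.lf (nat_lit 17480) (nat_lit 6) (nat_lit 230) (nat_lit 4) (nat_lit 125) (nat_lit 133) (nat_lit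 132)) (PT.lf (nat_lit 17784) (nat_lit 6) (nat_lit 234) (nat_lit 4) (nat_lit 126) (nat_lit 133) (nat_lit 131))))) (PT.nd (nat_lit 234) (PT.nd (nat_lit 78) (PT.lf (nat_lit 18012) (nat_lit 6) (nat_lit 237) (nat_lit 4) (nat_lit 127) (nat_lit 133) (nat_lit 130)) (PT.nd (nat_lit 78) (PT.lf (nat_lit 17936) (nat_lit 6) (nat_lit 236) (nat_lit 4) (nat_lit 128) (nat_lit 133) (nat_lit 129)) (PT.lf (nat_lit 17936) (nat_lit 6) (nat_lit 236) (nat_lit 2) (nat_lit 129) (nat_lit 133) (nat_lit 128)))) (PT.nd (nat_lit 78) (PT.lf (nat_lit 18012) (nat_lit 6) (nat_lit 237) (nat_lit 2) (nat_lit 130) (nat_lit 133) (nat_lit 127)) (PT.nd (nat_lit 78) (PT.lf (nat_lit 17784) (nat_lit 6) (nat_lit 234) (nat_lit 2) (nat_lit 131) (nat_lit 133) (nat_lit 126)) (PT.lf (nat_lit 17480) (nat_lit 6) (nat_lit 230) (nat_lit 2) (nat_lit 132) (nat_lit 133) (nat_lit 125))))))) (PT.nd (nat_lit 858) (PT.nd (nat_lit 390) (PT.nd (nat_lit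 156) (PT.nd (nat_lit 78) (PT.lf (nat_lit 17100) (nat_lit 3) (nat_lit 225) (nat_lit 0) (nat_lit 133) (nat_lit 133) (nat_lit 124)) (PT.lf (nat_lit 16568) (nat_lit 6) (nat_lit 218) (nat_lit 0) (nat_lit 134) (nat_lit 133) (nat_lit 123))) (PT.nd (nat_lit 78) (PT.lf (nat_lit 15960) (nat_lit 6) (nat_lit 210) (nat_lit 0) (nat_lit 135) (nat_lit 133) (nat_lit 122)) (PT.nd (nat_lit 78) (PT.lf (nat_lit 15276) (nat_lit 6) (nat_lit 201) (nat_lit 0) (nat_lit 136) (nat_lit 133) (nat_lit 121)) (PT.lf (nat_lit 14516) (nat_lit 6) (nat_lit 191) (nat_lit 0) (nat_lit 137) (nat_lit 133) (nat_lit 120))))) (PT.nd (nat_lit 234) (PT.nd (nat_lit 78) (PT.lf (nat_lit 13680) (nat_lit 6) (nat_lit 180) (nat_lit 0) (nat_lit 138) (nat_lit 133) (nat_lit 119)) (PT.nd (nat_lit 78) (PT.lf (nat_lit 12768) (nat_lit 6) (nat_lit 168) (nat_lit 0) (nat_lit 139) (nat_lit 133) (nat_lit 118)) (PT.lf (nat_lit 11780) (nat_lit 6) (nat_lit 155)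 (nat_lit 0) (nat_lit 140) (nat_lit 133) (nat_lit 117)))) (PT.nd (nat_lit 78) (PT.lf (nat_lit 10716) (nat_lit 6) (nat_lit 141) (nat_lit 0) (nat_lit 141) (nat_lit 133) (nat_lit 116)) (PT.nd (nat_lit 78) (PT.lf (nat_lit 9576) (nat_lit 6) (nat_lit 126) (nat_lit 0) (nat_lit 142) (nat_lit 133) (nat_lit 115)) (PT.lf (nat_lit 8968) (nat_lit 6) (nat_lit 118) (nat_lit 0) (nat_lit 143) (nat_lit 133) (nat_lit 114)))))) (PT.nd (nat_lit 38298) (PT.nd (nat_lit 38064) (PT.nd (nat_lit 78) (PT.lf (nat_lit 8436) (nat_lit 6) (nat_lit 111) (nat_lit 0) (nat_lit 144) (nat_lit 133) (nat_lit 113)) (PT.lf (nat_lit 7828) (nat_lit 6) (nat_lit 103) (nat_lit 0) (nat_lit 145) (nat_lit 133) (nat_lit 112))) (PT.nd (nat_lit 78) (PT.lf (nat_lit 7372) (nat_lit 6) (nat_lit 97) (nat_lit 5) (nat_lit 111) (nat_lit 134) (nat_lit 145)) (PT.nd (nat_lit 78) (PT.lf (nat_lit 7904) (nat_lit 6) (nat_lit 104) (nat_lit 5) (nat_lit 112) (nat_lit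 134) (nat_lit 144)) (PT.lf (nat_lit 8512) (nat_lit 6) (nat_lit 112) (nat_lit 5) (nat_lit 113) (nat_lit 134) (nat_lit 143))))) (PT.nd (nat_lit 234) (PT.nd (nat_lit 78) (PT.lf (nat_lit 9044) (nat_lit 6) (nat_lit 119) (nat_lit 5) (nat_lit 114) (nat_lit 134) (nat_lit 142)) (PT.nd (nat_lit 78) (PT.lf (nat_lit 9652) (nat_lit 6) (nat_lit 127) (nat_lit 5) (nat_lit 115) (nat_lit 134) (nat_lit 141)) (PT.lf (nat_lit 10792) (nat_lit 6) (nat_lit 142) (nat_lit 5) (nat_lit 116) (nat_lit 134) (nat_lit 140)))) (PT.nd (nat_lit 78) (PT.lf (nat_lit 11856) (nat_lit 6) (nat_lit 156) (nat_lit 5) (nat_lit 117) (nat_lit 134) (nat_lit 139)) (PT.nd (nat_lit 78) (PT.lf (nat_lit 12844) (nat_lit 6) (nat_lit 169) (nat_lit 5) (nat_lit 118) (nat_lit 134) (nat_lit 138)) (PT.lf (nat_lit 13756) (nat_lit 6) (nat_lit 181) (nat_lit 5) (nat_lit 119) (nat_lit 134) (nat_lit 137))))))))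
noncomputable def pc16 : PT := (PT.nd (nat_lit 1638) (PT.nd (nat_lit 780) (PT.nd (nat_lit 390) (PT.nd (nat_lit 156) (PT.nd (nat_lit 78) (PT.lf (nat_lit 14592) (nat_lit 6) (nat_lit 192) (nat_lit 5) (nat_lit 120) (nat_lit 134) (nat_lit 136)) (PT.lf (nat_lit 15352) (nat_lit 6) (nat_lit 202) (nat_lit 5) (nat_lit 121) (nat_lit 134) (nat_lit 135))) (PT.nd (nat_lit 78) (PT.lf (nat_lit 16036) (nat_lit 3) (nat_lit 211) (nat_lit 4) (nat_lit 122) (nat_lit 134) (nat_lit 134)) (PT.nd (nat_lit 78) (PT.lf (nat_lit 16568) (nat_lit 6) (nat_lit 218) (nat_lit 4) (nat_lit 123) (nat_lit 134) (nat_lit 133)) (PT.lf (nat_lit 17024) (nat_lit 6) (nat_lit 224) (nat_lit 4) (nat_lit 124) (nat_lit 134) (nat_lit 132))))) (PT.nd (nat_lit 156) (PT.nd (nat_lit 78) (PT.lf (nat_lit 17404) (nat_lit 6) (nat_lit 229) (nat_lit 4) (nat_lit 125) (nat_lit 134) (nat_lit 131)) (PT.lf (nat_lit 17708) (nat_lit 6) (nat_lit 233) (nat_lit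 4) (nat_lit 126) (nat_lit 134) (nat_lit 130))) (PT.nd (nat_lit 78) (PT.lf (nat_lit 17632) (nat_lit 6) (nat_lit 232) (nat_lit 4) (nat_lit 127) (nat_lit 134) (nat_lit 129)) (PT.nd (nat_lit 78) (PT.lf (nat_lit 17556) (nat_lit 3) (nat_lit 231) (nat_lit 2) (nat_lit 128) (nat_lit 134) (nat_lit 128)) (PT.lf (nat_lit 17632) (nat_lit 6) (nat_lit 232) (nat_lit 2) (nat_lit 129) (nat_lit 134) (nat_lit 127)))))) (PT.nd (nat_lit 390) (PT.nd (nat_lit 156) (PT.nd (nat_lit 78) (PT.lf (nat_lit 17708) (nat_lit 6) (nat_lit 233) (nat_lit 2) (nat_lit 130) (nat_lit 134) (nat_lit 126)) (PT.lf (nat_lit 17404) (nat_lit 6) (nat_lit 229) (nat_lit 2) (nat_lit 131) (nat_lit 134) (nat_lit 125))) (PT.nd (nat_lit 78) (PT.lf (nat_lit 17024) (nat_lit 6) (nat_lit 224) (nat_lit 2) (nat_lit 132) (nat_lit 134) (nat_lit 124)) (PT.nd (nat_lit 78) (PT.lf (nat_lit 16568) (nat_lit 6) (nat_lit 218) (nat_lit 2) (nat_lit 133) (nat_lit 134)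 (nat_lit 123)) (PT.lf (nat_lit 16036) (nat_lit 3) (nat_lit 211) (nat_lit 0) (nat_lit 134) (nat_lit 134) (nat_lit 122))))) (PT.nd (nat_lit 234) (PT.nd (nat_lit 78) (PT.lf (nat_lit 15352) (nat_lit 6) (nat_lit 202) (nat_lit 0) (nat_lit 135) (nat_lit 134) (nat_lit 121)) (PT.nd (nat_lit 78) (PT.lf (nat_lit 14592) (nat_lit 6) (nat_lit 192) (nat_lit 0) (nat_lit 136) (nat_lit 134) (nat_lit 120)) (PT.lf (nat_lit 13756) (nat_lit 6) (nat_lit 181) (nat_lit 0) (nat_lit 137) (nat_lit 134) (nat_lit 119)))) (PT.nd (nat_lit 78) (PT.lf (nat_lit 12844) (nat_lit 6) (nat_lit 169) (nat_lit 0) (nat_lit 138) (nat_lit 134) (nat_lit 118)) (PT.nd (nat_lit 78) (PT.lf (nat_lit 11856) (nat_lit 6) (nat_lit 156) (nat_lit 0) (nat_lit 139) (nat_lit 134) (nat_lit 117)) (PT.lf (nat_lit 10792) (nat_lit 6) (nat_lit 142) (nat_lit 0) (nat_lit 140) (nat_lit 134) (nat_lit 116))))))) (PT.nd (nat_lit 38610) (PT.nd (nat_lit 38220) (PT.nd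 (nat_lit 156) (PT.nd (nat_lit 78) (PT.lf (nat_lit 9652) (nat_lit 6) (nat_lit 127) (nat_lit 0) (nat_lit 141) (nat_lit 134) (nat_lit 115)) (PT.lf (nat_lit 9044) (nat_lit 6) (nat_lit 119) (nat_lit 0) (nat_lit 142) (nat_lit 134) (nat_lit 114))) (PT.nd (nat_lit 78) (PT.lf (nat_lit 8512) (nat_lit 6) (nat_lit 112) (nat_lit 0) (nat_lit 143) (nat_lit 134) (nat_lit 113)) (PT.nd (nat_lit 78) (PT.lf (nat_lit 7904) (nat_lit 6) (nat_lit 104) (nat_lit 0) (nat_lit 144) (nat_lit 134) (nat_lit 112)) (PT.lf (nat_lit 7372) (nat_lit 6) (nat_lit 97) (nat_lit 0) (nat_lit 145) (nat_lit 134) (nat_lit 111))))) (PT.nd (nat_lit 156) (PT.nd (nat_lit 78) (PT.lf (nat_lit 6916) (nat_lit 6) (nat_lit 91) (nat_lit 5) (nat_lit 110) (nat_lit 135) (nat_lit 145)) (PT.lf (nat_lit 7448) (nat_lit 6) (nat_lit 98) (nat_lit 5) (nat_lit 111) (nat_lit 135) (nat_lit 144))) (PT.nd (nat_lit 78) (PT.lf (nat_lit 7980) (nat_lit 6) (nat_lit 105)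 (nat_lit 5) (nat_lit 112) (nat_lit 135) (nat_lit 143)) (PT.nd (nat_lit 78) (PT.lf (nat_lit 8588) (nat_lit 6) (nat_lit 113) (nat_lit 5) (nat_lit 113) (nat_lit 135) (nat_lit 142)) (PT.lf (nat_lit 9120) (nat_lit 6) (nat_lit 120) (nat_lit 5) (nat_lit 114) (nat_lit 135) (nat_lit 141)))))) (PT.nd (nat_lit 390) (PT.nd (nat_lit 156) (PT.nd (nat_lit 78) (PT.lf (nat_lit 9728) (nat_lit 6) (nat_lit 128) (nat_lit 5) (nat_lit 115) (nat_lit 135) (nat_lit 140)) (PT.lf (nat_lit 10868) (nat_lit 6) (nat_lit 143) (nat_lit 5) (nat_lit 116) (nat_lit 135) (nat_lit 139))) (PT.nd (nat_lit 78) (PT.lf (nat_lit 11932) (nat_lit 6) (nat_lit 157) (nat_lit 5) (nat_lit 117) (nat_lit 135) (nat_lit 138)) (PT.nd (nat_lit 78) (PT.lf (nat_lit 12920) (nat_lit 6) (nat_lit 170) (nat_lit 5) (nat_lit 118) (nat_lit 135) (nat_lit 137)) (PT.lf (nat_lit 13832) (nat_lit 6) (nat_lit 182) (nat_lit 5) (nat_lit 119) (nat_lit 135) (nat_lit 136)))))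 (PT.nd (nat_lit 234) (PT.nd (nat_lit 78) (PT.lf (nat_lit 14668) (nat_lit 3) (nat_lit 193) (nat_lit 4) (nat_lit 120) (nat_lit 135) (nat_lit 135)) (PT.nd (nat_lit 78) (PT.lf (nat_lit 15352) (nat_lit 6) (nat_lit 202) (nat_lit 4) (nat_lit 121) (nat_lit 135) (nat_lit 134)) (PT.lf (nat_lit 15960) (nat_lit 6) (nat_lit 210) (nat_lit 4) (nat_lit 122) (nat_lit 135) (nat_lit 133)))) (PT.nd (nat_lit 78) (PT.lf (nat_lit 16492) (nat_lit 6) (nat_lit 217) (nat_lit 4) (nat_lit 123) (nat_lit 135) (nat_lit 132)) (PT.nd (nat_lit 78) (PT.lf (nat_lit 16948) (nat_lit 6) (nat_lit 223) (nat_lit 4) (nat_lit 124) (nat_lit 135) (nat_lit 131)) (PT.lf (nat_lit 17328) (nat_lit 6) (nat_lit 228) (nat_lit 4) (nat_lit 125) (nat_lit 135) (nat_lit 130))))))))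
noncomputable def pc17 : PT := (PT.nd (nat_lit 39312) (PT.nd (nat_lit 780) (PT.nd (nat_lit 390) (PT.nd (nat_lit 156) (PT.nd (nat_lit 78) (PT.lf (nat_lit 17252) (nat_lit 6) (nat_lit 227) (nat_lit 4) (nat_lit 126) (nat_lit 135) (nat_lit 129)) (PT.lf (nat_lit 17176) (nat_lit 6) (nat_lit 226) (nat_lit 4) (nat_lit 127) (nat_lit 135) (nat_lit 128))) (PT.nd (nat_lit 78) (PT.lf (nat_lit 17176) (nat_lit 6) (nat_lit 226) (nat_lit 2) (nat_lit 128) (nat_lit 135) (nat_lit 127)) (PT.nd (nat_lit 78) (PT.lf (nat_lit 17252) (nat_lit 6) (nat_lit 227) (nat_lit 2) (nat_lit 129) (nat_lit 135) (nat_lit 126)) (PT.lf (nat_lit 17328) (nat_lit 6) (nat_lit 228) (nat_lit 2) (nat_lit 130) (nat_lit 135) (nat_lit 125))))) (PT.nd (nat_lit 156) (PT.nd (nat_lit 78) (PT.lf (nat_lit 16948) (nat_lit 6) (nat_lit 223) (nat_lit 2) (nat_lit 131) (nat_lit 135) (nat_lit 124)) (PT.lf (nat_lit 16492) (nat_lit 6) (nat_lit 217) (nat_lit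 2) (nat_lit 132) (nat_lit 135) (nat_lit 123))) (PT.nd (nat_lit 78) (PT.lf (nat_lit 15960) (nat_lit 6) (nat_lit 210) (nat_lit 2) (nat_lit 133) (nat_lit 135) (nat_lit 122)) (PT.nd (nat_lit 78) (PT.lf (nat_lit 15352) (nat_lit 6) (nat_lit 202) (nat_lit 2) (nat_lit 134) (nat_lit 135) (nat_lit 121)) (PT.lf (nat_lit 14668) (nat_lit 3) (nat_lit 193) (nat_lit 0) (nat_lit 135) (nat_lit 135) (nat_lit 120)))))) (PT.nd (nat_lit 390) (PT.nd (nat_lit 156) (PT.nd (nat_lit 78) (PT.lf (nat_lit 13832) (nat_lit 6) (nat_lit 182) (nat_lit 0) (nat_lit 136) (nat_lit 135) (nat_lit 119)) (PT.lf (nat_lit 12920) (nat_lit 6) (nat_lit 170) (nat_lit 0) (nat_lit 137) (nat_lit 135) (nat_lit 118))) (PT.nd (nat_lit 78) (PT.lf (nat_lit 11932) (nat_lit 6) (nat_lit 157) (nat_lit 0) (nat_lit 138) (nat_lit 135) (nat_lit 117)) (PT.nd (nat_lit 78) (PT.lf (nat_lit 10868) (nat_lit 6) (nat_lit 143) (nat_lit 0) (nat_lit 139) (nat_lit 135)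 (nat_lit 116)) (PT.lf (nat_lit 9728) (nat_lit 6) (nat_lit 128) (nat_lit 0) (nat_lit 140) (nat_lit 135) (nat_lit 115))))) (PT.nd (nat_lit 234) (PT.nd (nat_lit 78) (PT.lf (nat_lit 9120) (nat_lit 6) (nat_lit 120) (nat_lit 0) (nat_lit 141) (nat_lit 135) (nat_lit 114)) (PT.nd (nat_lit 78) (PT.lf (nat_lit 8588) (nat_lit 6) (nat_lit 113) (nat_lit 0) (nat_lit 142) (nat_lit 135) (nat_lit 113)) (PT.lf (nat_lit 7980) (nat_lit 6) (nat_lit 105) (nat_lit 0) (nat_lit 143) (nat_lit 135) (nat_lit 112)))) (PT.nd (nat_lit 78) (PT.lf (nat_lit 7448) (nat_lit 6) (nat_lit 98) (nat_lit 0) (nat_lit 144) (nat_lit 135) (nat_lit 111)) (PT.nd (nat_lit 37752) (PT.lf (nat_lit 6916) (nat_lit 6) (nat_lit 91) (nat_lit 0) (nat_lit 145) (nat_lit 135) (nat_lit 110)) (PT.lf (nat_lit 6080) (nat_lit 6) (nat_lit 80) (nat_lit 5) (nat_lit 108) (nat_lit 136) (nat_lit 146))))))) (PT.nd (nat_lit 780) (PT.nd (nat_lit 390) (PT.nd (nat_lit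 156) (PT.nd (nat_lit 78) (PT.lf (nat_lit 6536) (nat_lit 6) (nat_lit 86) (nat_lit 5) (nat_lit 109) (nat_lit 136) (nat_lit 145)) (PT.lf (nat_lit 6992) (nat_lit 6) (nat_lit 92) (nat_lit 5) (nat_lit 110) (nat_lit 136) (nat_lit 144))) (PT.nd (nat_lit 78) (PT.lf (nat_lit 7524) (nat_lit 6) (nat_lit 99) (nat_lit 5) (nat_lit 111) (nat_lit 136) (nat_lit 143)) (PT.nd (nat_lit 78) (PT.lf (nat_lit 8056) (nat_lit 6) (nat_lit 106) (nat_lit 5) (nat_lit 112) (nat_lit 136) (nat_lit 142)) (PT.lf (nat_lit 8664) (nat_lit 6) (nat_lit 114) (nat_lit 5) (nat_lit 113) (nat_lit 136) (nat_lit 141))))) (PT.nd (nat_lit 156) (PT.nd (nat_lit 78) (PT.lf (nat_lit 9196) (nat_lit 6) (nat_lit 121) (nat_lit 5) (nat_lit 114) (nat_lit 136) (nat_lit 140)) (PT.lf (nat_lit 9804) (nat_lit 6) (nat_lit 129) (nat_lit 5) (nat_lit 115) (nat_lit 136) (nat_lit 139))) (PT.nd (nat_lit 78) (PT.lf (nat_lit 10944) (nat_lit 6) (nat_lit 144) (nat_lit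 5) (nat_lit 116) (nat_lit 136) (nat_lit 138)) (PT.nd (nat_lit 78) (PT.lf (nat_lit 12008) (nat_lit 6) (nat_lit 158) (nat_lit 5) (nat_lit 117) (nat_lit 136) (nat_lit 137)) (PT.lf (nat_lit 12996) (nat_lit 3) (nat_lit 171) (nat_lit 4) (nat_lit 118) (nat_lit 136) (nat_lit 136)))))) (PT.nd (nat_lit 390) (PT.nd (nat_lit 156) (PT.nd (nat_lit 78) (PT.lf (nat_lit 13832) (nat_lit 6) (nat_lit 182) (nat_lit 4) (nat_lit 119) (nat_lit 136) (nat_lit 135)) (PT.lf (nat_lit 14592) (nat_lit 6) (nat_lit 192) (nat_lit 4) (nat_lit 120) (nat_lit 136) (nat_lit 134))) (PT.nd (nat_lit 78) (PT.lf (nat_lit 15276) (nat_lit 6) (nat_lit 201) (nat_lit 4) (nat_lit 121) (nat_lit 136) (nat_lit 133)) (PT.nd (nat_lit 78) (PT.lf (nat_lit 15884) (nat_lit 6) (nat_lit 209) (nat_lit 4) (nat_lit 122) (nat_lit 136) (nat_lit 132)) (PT.lf (nat_lit 16416) (nat_lit 6) (nat_lit 216) (nat_lit 4) (nat_lit 123) (nat_lit 136) (nat_lit 131)))))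 (PT.nd (nat_lit 234) (PT.nd (nat_lit 78) (PT.lf (nat_lit 16872) (nat_lit 6) (nat_lit 222) (nat_lit 4) (nat_lit 124) (nat_lit 136) (nat_lit 130)) (PT.nd (nat_lit 78) (PT.lf (nat_lit 16796) (nat_lit 6) (nat_lit 221) (nat_lit 4) (nat_lit 125) (nat_lit 136) (nat_lit 129)) (PT.lf (nat_lit 16720) (nat_lit 6) (nat_lit 220) (nat_lit 4) (nat_lit 126) (nat_lit 136) (nat_lit 128)))) (PT.nd (nat_lit 78) (PT.lf (nat_lit 16644) (nat_lit 3) (nat_lit 219) (nat_lit 2) (nat_lit 127) (nat_lit 136) (nat_lit 127)) (PT.nd (nat_lit 78) (PT.lf (nat_lit 16720) (nat_lit 6) (nat_lit 220) (nat_lit 2) (nat_lit 128) (nat_lit 136) (nat_lit 126)) (PT.lf (nat_lit 16796) (nat_lit 6) (nat_lit 221) (nat_lit 2) (nat_lit 129) (nat_lit 136) (nat_lit 125))))))))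
noncomputable def pc18 : PT := (PT.nd (nat_lit 39156) (PT.nd (nat_lit 780) (PT.nd (nat_lit 390) (PT.nd (nat_lit 156) (PT.nd (nat_lit 78) (PT.lf (nat_lit 16872) (nat_lit 6) (nat_lit 222) (nat_lit 2) (nat_lit 130) (nat_lit 136) (nat_lit 124)) (PT.lf (nat_lit 16416) (nat_lit 6) (nat_lit 216) (nat_lit 2) (nat_lit 131) (nat_lit 136) (nat_lit 123))) (PT.nd (nat_lit 78) (PT.lf (nat_lit 15884) (nat_lit 6) (nat_lit 209) (nat_lit 2) (nat_lit 132) (nat_lit 136) (nat_lit 122)) (PT.nd (nat_lit 78) (PT.lf (nat_lit 15276) (nat_lit 6) (nat_lit 201) (nat_lit 2) (nat_lit 133) (nat_lit 136) (nat_lit 121)) (PT.lf (nat_lit 14592) (nat_lit 6) (nat_lit 192) (nat_lit 2) (nat_lit 134) (nat_lit 136) (nat_lit 120))))) (PT.nd (nat_lit 156) (PT.nd (nat_lit 78) (PT.lf (nat_lit 13832) (nat_lit 6) (nat_lit 182) (nat_lit 2) (nat_lit 135) (nat_lit 136) (nat_lit 119)) (PT.lf (nat_lit 12996) (nat_lit 3) (nat_lit 171) (nat_lit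 0) (nat_lit 136) (nat_lit 136) (nat_lit 118))) (PT.nd (nat_lit 78) (PT.lf (nat_lit 12008) (nat_lit 6) (nat_lit 158) (nat_lit 0) (nat_lit 137) (nat_lit 136) (nat_lit 117)) (PT.nd (nat_lit 78) (PT.lf (nat_lit 10944) (nat_lit 6) (nat_lit 144) (nat_lit 0) (nat_lit 138) (nat_lit 136) (nat_lit 116)) (PT.lf (nat_lit 9804) (nat_lit 6) (nat_lit 129) (nat_lit 0) (nat_lit 139) (nat_lit 136) (nat_lit 115)))))) (PT.nd (nat_lit 390) (PT.nd (nat_lit 156) (PT.nd (nat_lit 78) (PT.lf (nat_lit 9196) (nat_lit 6) (nat_lit 121) (nat_lit 0) (nat_lit 140) (nat_lit 136) (nat_lit 114)) (PT.lf (nat_lit 8664) (nat_lit 6) (nat_lit 114) (nat_lit 0) (nat_lit 141) (nat_lit 136) (nat_lit 113))) (PT.nd (nat_lit 78) (PT.lf (nat_lit 8056) (nat_lit 6) (nat_lit 106) (nat_lit 0) (nat_lit 142) (nat_lit 136) (nat_lit 112)) (PT.nd (nat_lit 78) (PT.lf (nat_lit 7524) (nat_lit 6) (nat_lit 99) (nat_lit 0) (nat_lit 143) (nat_lit 136) (nat_lit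 111)) (PT.lf (nat_lit 6992) (nat_lit 6) (nat_lit 92) (nat_lit 0) (nat_lit 144) (nat_lit 136) (nat_lit 110))))) (PT.nd (nat_lit 37752) (PT.nd (nat_lit 78) (PT.lf (nat_lit 6536) (nat_lit 6) (nat_lit 86) (nat_lit 0) (nat_lit 145) (nat_lit 136) (nat_lit 109)) (PT.nd (nat_lit 37596) (PT.lf (nat_lit 6080) (nat_lit 6) (nat_lit 80) (nat_lit 0) (nat_lit 146) (nat_lit 136) (nat_lit 108)) (PT.lf (nat_lit 5700) (nat_lit 6) (nat_lit 75) (nat_lit 5) (nat_lit 107) (nat_lit 137) (nat_lit 146)))) (PT.nd (nat_lit 78) (PT.lf (nat_lit 6156) (nat_lit 6) (nat_lit 81) (nat_lit 5) (nat_lit 108) (nat_lit 137) (nat_lit 145)) (PT.nd (nat_lit 78) (PT.lf (nat_lit 6612) (nat_lit 6) (nat_lit 87) (nat_lit 5) (nat_lit 109) (nat_lit 137) (nat_lit 144)) (PT.lf (nat_lit 7068) (nat_lit 6) (nat_lit 93) (nat_lit 5) (nat_lit 110) (nat_lit 137) (nat_lit 143))))))) (PT.nd (nat_lit 780) (PT.nd (nat_lit 390) (PT.nd (nat_lit 156) (PT.nd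 (nat_lit 78) (PT.lf (nat_lit 7600) (nat_lit 6) (nat_lit 100) (nat_lit 5) (nat_lit 111) (nat_lit 137) (nat_lit 142)) (PT.lf (nat_lit 8132) (nat_lit 6) (nat_lit 107) (nat_lit 5) (nat_lit 112) (nat_lit 137) (nat_lit 141))) (PT.nd (nat_lit 78) (PT.lf (nat_lit 8740) (nat_lit 6) (nat_lit 115) (nat_lit 5) (nat_lit 113) (nat_lit 137) (nat_lit 140)) (PT.nd (nat_lit 78) (PT.lf (nat_lit 9272) (nat_lit 6) (nat_lit 122) (nat_lit 5) (nat_lit 114) (nat_lit 137) (nat_lit 139)) (PT.lf (nat_lit 9880) (nat_lit 6) (nat_lit 130) (nat_lit 5) (nat_lit 115) (nat_lit 137) (nat_lit 138))))) (PT.nd (nat_lit 156) (PT.nd (nat_lit 78) (PT.lf (nat_lit 11020) (nat_lit 3) (nat_lit 145) (nat_lit 4) (nat_lit 116) (nat_lit 137) (nat_lit 137)) (PT.lf (nat_lit 12008) (nat_lit 6) (nat_lit 158) (nat_lit 4) (nat_lit 117) (nat_lit 137) (nat_lit 136))) (PT.nd (nat_lit 78) (PT.lf (nat_lit 12920) (nat_lit 6) (nat_lit 170) (nat_lit 4)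 (nat_lit 118) (nat_lit 137) (nat_lit 135)) (PT.nd (nat_lit 78) (PT.lf (nat_lit 13756) (nat_lit 6) (nat_lit 181) (nat_lit 4) (nat_lit 119) (nat_lit 137) (nat_lit 134)) (PT.lf (nat_lit 14516) (nat_lit 6) (nat_lit 191) (nat_lit 4) (nat_lit 120) (nat_lit 137) (nat_lit 133)))))) (PT.nd (nat_lit 390) (PT.nd (nat_lit 156) (PT.nd (nat_lit 78) (PT.lf (nat_lit 15200) (nat_lit 6) (nat_lit 200) (nat_lit 4) (nat_lit 121) (nat_lit 137) (nat_lit 132)) (PT.lf (nat_lit 15808) (nat_lit 6) (nat_lit 208) (nat_lit 4) (nat_lit 122) (nat_lit 137) (nat_lit 131))) (PT.nd (nat_lit 78) (PT.lf (nat_lit 16340) (nat_lit 6) (nat_lit 215) (nat_lit 4) (nat_lit 123) (nat_lit 137) (nat_lit 130)) (PT.nd (nat_lit 78) (PT.lf (nat_lit 16264) (nat_lit 6) (nat_lit 214) (nat_lit 4) (nat_lit 124) (nat_lit 137) (nat_lit 129)) (PT.lf (nat_lit 16188) (nat_lit 6) (nat_lit 213) (nat_lit 4) (nat_lit 125) (nat_lit 137) (nat_lit 128))))) (PT.nd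 (nat_lit 234) (PT.nd (nat_lit 78) (PT.lf (nat_lit 16112) (nat_lit 6) (nat_lit 212) (nat_lit 4) (nat_lit 126) (nat_lit 137) (nat_lit 127)) (PT.nd (nat_lit 78) (PT.lf (nat_lit 16112) (nat_lit 6) (nat_lit 212) (nat_lit 2) (nat_lit 127) (nat_lit 137) (nat_lit 126)) (PT.lf (nat_lit 16188) (nat_lit 6) (nat_lit 213) (nat_lit 2) (nat_lit 128) (nat_lit 137) (nat_lit 125)))) (PT.nd (nat_lit 78) (PT.lf (nat_lit 16264) (nat_lit 6) (nat_lit 214) (nat_lit 2) (nat_lit 129) (nat_lit 137) (nat_lit 124)) (PT.nd (nat_lit 78) (PT.lf (nat_lit 16340) (nat_lit 6) (nat_lit 215) (nat_lit 2) (nat_lit 130) (nat_lit 137) (nat_lit 123)) (PT.lf (nat_lit 15808) (nat_lit 6) (nat_lit 208) (nat_lit 2) (nat_lit 131) (nat_lit 137) (nat_lit 122))))))))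
noncomputable def pc19 : PT := (PT.nd (nat_lit 39078) (PT.nd (nat_lit 780) (PT.nd (nat_lit 390) (PT.nd (nat_lit 156) (PT.nd (nat_lit 78) (PT.lf (nat_lit 15200) (nat_lit 6) (nat_lit 200) (nat_lit 2) (nat_lit 132) (nat_lit 137) (nat_lit 121)) (PT.lf (nat_lit 14516) (nat_lit 6) (nat_lit 191) (nat_lit 2) (nat_lit 133) (nat_lit 137) (nat_lit 120))) (PT.nd (nat_lit 78) (PT.lf (nat_lit 13756) (nat_lit 6) (nat_lit 181) (nat_lit 2) (nat_lit 134) (nat_lit 137) (nat_lit 119)) (PT.nd (nat_lit 78) (PT.lf (nat_lit 12920) (nat_lit 6) (nat_lit 170) (nat_lit 2) (nat_lit 135) (nat_lit 137) (nat_lit 118)) (PT.lf (nat_lit 12008) (nat_lit 6) (nat_lit 158) (nat_lit 2) (nat_lit 136) (nat_lit 137) (nat_lit 117))))) (PT.nd (nat_lit 156) (PT.nd (nat_lit 78) (PT.lf (nat_lit 11020) (nat_lit 3) (nat_lit 145) (nat_lit 0) (nat_lit 137) (nat_lit 137) (nat_lit 116)) (PT.lf (nat_lit 9880) (nat_lit 6) (nat_lit 130) (nat_lit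 0) (nat_lit 138) (nat_lit 137) (nat_lit 115))) (PT.nd (nat_lit 78) (PT.lf (nat_lit 9272) (nat_lit 6) (nat_lit 122) (nat_lit 0) (nat_lit 139) (nat_lit 137) (nat_lit 114)) (PT.nd (nat_lit 78) (PT.lf (nat_lit 8740) (nat_lit 6) (nat_lit 115) (nat_lit 0) (nat_lit 140) (nat_lit 137) (nat_lit 113)) (PT.lf (nat_lit 8132) (nat_lit 6) (nat_lit 107) (nat_lit 0) (nat_lit 141) (nat_lit 137) (nat_lit 112)))))) (PT.nd (nat_lit 37830) (PT.nd (nat_lit 156) (PT.nd (nat_lit 78) (PT.lf (nat_lit 7600) (nat_lit 6) (nat_lit 100) (nat_lit 0) (nat_lit 142) (nat_lit 137) (nat_lit 111)) (PT.lf (nat_lit 7068) (nat_lit 6) (nat_lit 93) (nat_lit 0) (nat_lit 143) (nat_lit 137) (nat_lit 110))) (PT.nd (nat_lit 78) (PT.lf (nat_lit 6612) (nat_lit 6) (nat_lit 87) (nat_lit 0) (nat_lit 144) (nat_lit 137) (nat_lit 109)) (PT.nd (nat_lit 78) (PT.lf (nat_lit 6156) (nat_lit 6) (nat_lit 81) (nat_lit 0) (nat_lit 145) (nat_lit 137) (nat_lit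 108)) (PT.lf (nat_lit 5700) (nat_lit 6) (nat_lit 75) (nat_lit 0) (nat_lit 146) (nat_lit 137) (nat_lit 107))))) (PT.nd (nat_lit 234) (PT.nd (nat_lit 78) (PT.lf (nat_lit 5320) (nat_lit 6) (nat_lit 70) (nat_lit 5) (nat_lit 106) (nat_lit 138) (nat_lit 146)) (PT.nd (nat_lit 78) (PT.lf (nat_lit 5776) (nat_lit 6) (nat_lit 76) (nat_lit 5) (nat_lit 107) (nat_lit 138) (nat_lit 145)) (PT.lf (nat_lit 6232) (nat_lit 6) (nat_lit 82) (nat_lit 5) (nat_lit 108) (nat_lit 138) (nat_lit 144)))) (PT.nd (nat_lit 78) (PT.lf (nat_lit 6688) (nat_lit 6) (nat_lit 88) (nat_lit 5) (nat_lit 109) (nat_lit 138) (nat_lit 143)) (PT.nd (nat_lit 78) (PT.lf (nat_lit 7144) (nat_lit 6) (nat_lit 94) (nat_lit 5) (nat_lit 110) (nat_lit 138) (nat_lit 142)) (PT.lf (nat_lit 7676) (nat_lit 6) (nat_lit 101) (nat_lit 5) (nat_lit 111) (nat_lit 138) (nat_lit 141))))))) (PT.nd (nat_lit 858) (PT.nd (nat_lit 390) (PT.nd (nat_lit 156) (PT.nd (nat_lit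 78) (PT.lf (nat_lit 8208) (nat_lit 6) (nat_lit 108) (nat_lit 5) (nat_lit 112) (nat_lit 138) (nat_lit 140)) (PT.lf (nat_lit 8816) (nat_lit 6) (nat_lit 116) (nat_lit 5) (nat_lit 113) (nat_lit 138) (nat_lit 139))) (PT.nd (nat_lit 78) (PT.lf (nat_lit 9348) (nat_lit 3) (nat_lit 123) (nat_lit 4) (nat_lit 114) (nat_lit 138) (nat_lit 138)) (PT.nd (nat_lit 78) (PT.lf (nat_lit 9880) (nat_lit 6) (nat_lit 130) (nat_lit 4) (nat_lit 115) (nat_lit 138) (nat_lit 137)) (PT.lf (nat_lit 10944) (nat_lit 6) (nat_lit 144) (nat_lit 4) (nat_lit 116) (nat_lit 138) (nat_lit 136))))) (PT.nd (nat_lit 234) (PT.nd (nat_lit 78) (PT.lf (nat_lit 11932) (nat_lit 6) (nat_lit 157) (nat_lit 4) (nat_lit 117) (nat_lit 138) (nat_lit 135)) (PT.nd (nat_lit 78) (PT.lf (nat_lit 12844) (nat_lit 6) (nat_lit 169) (nat_lit 4) (nat_lit 118) (nat_lit 138) (nat_lit 134)) (PT.lf (nat_lit 13680) (nat_lit 6) (nat_lit 180) (nat_lit 4) (nat_lit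 119) (nat_lit 138) (nat_lit 133)))) (PT.nd (nat_lit 78) (PT.lf (nat_lit 14440) (nat_lit 6) (nat_lit 190) (nat_lit 4) (nat_lit 120) (nat_lit 138) (nat_lit 132)) (PT.nd (nat_lit 78) (PT.lf (nat_lit 15124) (nat_lit 6) (nat_lit 199) (nat_lit 4) (nat_lit 121) (nat_lit 138) (nat_lit 131)) (PT.lf (nat_lit 15732) (nat_lit 6) (nat_lit 207) (nat_lit 4) (nat_lit 122) (nat_lit 138) (nat_lit 130)))))) (PT.nd (nat_lit 390) (PT.nd (nat_lit 156) (PT.nd (nat_lit 78) (PT.lf (nat_lit 15656) (nat_lit 6) (nat_lit 206) (nat_lit 4) (nat_lit 123) (nat_lit 138) (nat_lit 129)) (PT.lf (nat_lit 15580) (nat_lit 6) (nat_lit 205) (nat_lit 4) (nat_lit 124) (nat_lit 138) (nat_lit 128))) (PT.nd (nat_lit 78) (PT.lf (nat_lit 15504) (nat_lit 6) (nat_lit 204) (nat_lit 4) (nat_lit 125) (nat_lit 138) (nat_lit 127)) (PT.nd (nat_lit 78) (PT.lf (nat_lit 15428) (nat_lit 3) (nat_lit 203) (nat_lit 2) (nat_lit 126) (nat_lit 138) (nat_lit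 126)) (PT.lf (nat_lit 15504) (nat_lit 6) (nat_lit 204) (nat_lit 2) (nat_lit 127) (nat_lit 138) (nat_lit 125))))) (PT.nd (nat_lit 234) (PT.nd (nat_lit 78) (PT.lf (nat_lit 15580) (nat_lit 6) (nat_lit 205) (nat_lit 2) (nat_lit 128) (nat_lit 138) (nat_lit 124)) (PT.nd (nat_lit 78) (PT.lf (nat_lit 15656) (nat_lit 6) (nat_lit 206) (nat_lit 2) (nat_lit 129) (nat_lit 138) (nat_lit 123)) (PT.lf (nat_lit 15732) (nat_lit 6) (nat_lit 207) (nat_lit 2) (nat_lit 130) (nat_lit 138) (nat_lit 122)))) (PT.nd (nat_lit 78) (PT.lf (nat_lit 15124) (nat_lit 6) (nat_lit 199) (nat_lit 2) (nat_lit 131) (nat_lit 138) (nat_lit 121)) (PT.nd (nat_lit 78) (PT.lf (nat_lit 14440) (nat_lit 6) (nat_lit 190) (nat_lit 2) (nat_lit 132) (nat_lit 138) (nat_lit 120)) (PT.lf (nat_lit 13680) (nat_lit 6) (nat_lit 180) (nat_lit 2) (nat_lit 133) (nat_lit 138) (nat_lit 119))))))))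
noncomputable def pc20 : PT := (PT.nd (nat_lit 38922) (PT.nd (nat_lit 780) (PT.nd (nat_lit 390) (PT.nd (nat_lit 156) (PT.nd (nat_lit 78) (PT.lf (nat_lit 12844) (nat_lit 6) (nat_lit 169) (nat_lit 2) (nat_lit 134) (nat_lit 138) (nat_lit 118)) (PT.lf (nat_lit 11932) (nat_lit 6) (nat_lit 157) (nat_lit 2) (nat_lit 135) (nat_lit 138) (nat_lit 117))) (PT.nd (nat_lit 78) (PT.lf (nat_lit 10944) (nat_lit 6) (nat_lit 144) (nat_lit 2) (nat_lit 136) (nat_lit 138) (nat_lit 116)) (PT.nd (nat_lit 78) (PT.lf (nat_lit 9880) (nat_lit 6) (nat_lit 130) (nat_lit 2) (nat_lit 137) (nat_lit 138) (nat_lit 115)) (PT.lf (nat_lit 9348) (nat_lit 3) (nat_lit 123) (nat_lit 0) (nat_lit 138) (nat_lit 138) (nat_lit 114))))) (PT.nd (nat_lit 156) (PT.nd (nat_lit 78) (PT.lf (nat_lit 8816) (nat_lit 6) (nat_lit 116) (nat_lit 0) (nat_lit 139) (nat_lit 138) (nat_lit 113)) (PT.lf (nat_lit 8208) (nat_lit 6) (nat_lit 108) (nat_lit 0)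 (nat_lit 140) (nat_lit 138) (nat_lit 112))) (PT.nd (nat_lit 78) (PT.lf (nat_lit 7676) (nat_lit 6) (nat_lit 101) (nat_lit 0) (nat_lit 141) (nat_lit 138) (nat_lit 111)) (PT.nd (nat_lit 78) (PT.lf (nat_lit 7144) (nat_lit 6) (nat_lit 94) (nat_lit 0) (nat_lit 142) (nat_lit 138) (nat_lit 110)) (PT.lf (nat_lit 6688) (nat_lit 6) (nat_lit 88) (nat_lit 0) (nat_lit 143) (nat_lit 138) (nat_lit 109)))))) (PT.nd (nat_lit 37674) (PT.nd (nat_lit 156) (PT.nd (nat_lit 78) (PT.lf (nat_lit 6232) (nat_lit 6) (nat_lit 82) (nat_lit 0) (nat_lit 144) (nat_lit 138) (nat_lit 108)) (PT.lf (nat_lit 5776) (nat_lit 6) (nat_lit 76) (nat_lit 0) (nat_lit 145) (nat_lit 138) (nat_lit 107))) (PT.nd (nat_lit 37362) (PT.lf (nat_lit 5320) (nat_lit 6) (nat_lit 70) (nat_lit 0) (nat_lit 146) (nat_lit 138) (nat_lit 106)) (PT.nd (nat_lit 78) (PT.lf (nat_lit 4636) (nat_lit 6) (nat_lit 61) (nat_lit 5) (nat_lit 104) (nat_lit 139) (nat_lit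 147)) (PT.lf (nat_lit 5016) (nat_lit 6) (nat_lit 66) (nat_lit 5) (nat_lit 105) (nat_lit 139) (nat_lit 146))))) (PT.nd (nat_lit 234) (PT.nd (nat_lit 78) (PT.lf (nat_lit 5396) (nat_lit 6) (nat_lit 71) (nat_lit 5) (nat_lit 106) (nat_lit 139) (nat_lit 145)) (PT.nd (nat_lit 78) (PT.lf (nat_lit 5852) (nat_lit 6) (nat_lit 77) (nat_lit 5) (nat_lit 107) (nat_lit 139) (nat_lit 144)) (PT.lf (nat_lit 6308) (nat_lit 6) (nat_lit 83) (nat_lit 5) (nat_lit 108) (nat_lit 139) (nat_lit 143)))) (PT.nd (nat_lit 78) (PT.lf (nat_lit 6764) (nat_lit 6) (nat_lit 89) (nat_lit 5) (nat_lit 109) (nat_lit 139) (nat_lit 142)) (PT.nd (nat_lit 78) (PT.lf (nat_lit 7220) (nat_lit 6) (nat_lit 95) (nat_lit 5) (nat_lit 110) (nat_lit 139) (nat_lit 141)) (PT.lf (nat_lit 7752) (nat_lit 6) (nat_lit 102) (nat_lit 5) (nat_lit 111) (nat_lit 139) (nat_lit 140))))))) (PT.nd (nat_lit 780) (PT.nd (nat_lit 390) (PT.nd (nat_lit 156) (PT.nd (nat_lit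 78) (PT.lf (nat_lit 8284) (nat_lit 3) (nat_lit 109) (nat_lit 4) (nat_lit 112) (nat_lit 139) (nat_lit 139)) (PT.lf (nat_lit 8816) (nat_lit 6) (nat_lit 116) (nat_lit 4) (nat_lit 113) (nat_lit 139) (nat_lit 138))) (PT.nd (nat_lit 78) (PT.lf (nat_lit 9272) (nat_lit 6) (nat_lit 122) (nat_lit 4) (nat_lit 114) (nat_lit 139) (nat_lit 137)) (PT.nd (nat_lit 78) (PT.lf (nat_lit 9804) (nat_lit 6) (nat_lit 129) (nat_lit 4) (nat_lit 115) (nat_lit 139) (nat_lit 136)) (PT.lf (nat_lit 10868) (nat_lit 6) (nat_lit 143) (nat_lit 4) (nat_lit 116) (nat_lit 139) (nat_lit 135))))) (PT.nd (nat_lit 156) (PT.nd (nat_lit 78) (PT.lf (nat_lit 11856) (nat_lit 6) (nat_lit 156) (nat_lit 4) (nat_lit 117) (nat_lit 139) (nat_lit 134)) (PT.lf (nat_lit 12768) (nat_lit 6) (nat_lit 168) (nat_lit 4) (nat_lit 118) (nat_lit 139) (nat_lit 133))) (PT.nd (nat_lit 78) (PT.lf (nat_lit 13604) (nat_lit 6) (nat_lit 179) (nat_lit 4) (nat_lit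 119) (nat_lit 139) (nat_lit 132)) (PT.nd (nat_lit 78) (PT.lf (nat_lit 14364) (nat_lit 6) (nat_lit 189) (nat_lit 4) (nat_lit 120) (nat_lit 139) (nat_lit 131)) (PT.lf (nat_lit 15048) (nat_lit 6) (nat_lit 198) (nat_lit 4) (nat_lit 121) (nat_lit 139) (nat_lit 130)))))) (PT.nd (nat_lit 390) (PT.nd (nat_lit 156) (PT.nd (nat_lit 78) (PT.lf (nat_lit 14972) (nat_lit 6) (nat_lit 197) (nat_lit 4) (nat_lit 122) (nat_lit 139) (nat_lit 129)) (PT.lf (nat_lit 14896) (nat_lit 6) (nat_lit 196) (nat_lit 4) (nat_lit 123) (nat_lit 139) (nat_lit 128))) (PT.nd (nat_lit 78) (PT.lf (nat_lit 14820) (nat_lit 6) (nat_lit 195) (nat_lit 4) (nat_lit 124) (nat_lit 139) (nat_lit 127)) (PT.nd (nat_lit 78) (PT.lf (nat_lit 14744) (nat_lit 6) (nat_lit 194) (nat_lit 4) (nat_lit 125) (nat_lit 139) (nat_lit 126)) (PT.lf (nat_lit 14744) (nat_lit 6) (nat_lit 194) (nat_lit 2) (nat_lit 126) (nat_lit 139) (nat_lit 125))))) (PT.nd (nat_lit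 234) (PT.nd (nat_lit 78) (PT.lf (nat_lit 14820) (nat_lit 6) (nat_lit 195) (nat_lit 2) (nat_lit 127) (nat_lit 139) (nat_lit 124)) (PT.nd (nat_lit 78) (PT.lf (nat_lit 14896) (nat_lit 6) (nat_lit 196) (nat_lit 2) (nat_lit 128) (nat_lit 139) (nat_lit 123)) (PT.lf (nat_lit 14972) (nat_lit 6) (nat_lit 197) (nat_lit 2) (nat_lit 129) (nat_lit 139) (nat_lit 122)))) (PT.nd (nat_lit 78) (PT.lf (nat_lit 15048) (nat_lit 6) (nat_lit 198) (nat_lit 2) (nat_lit 130) (nat_lit 139) (nat_lit 121)) (PT.nd (nat_lit 78) (PT.lf (nat_lit 14364) (nat_lit 6) (nat_lit 189) (nat_lit 2) (nat_lit 131) (nat_lit 139) (nat_lit 120)) (PT.lf (nat_lit 13604) (nat_lit 6) (nat_lit 179) (nat_lit 2) (nat_lit 132) (nat_lit 139) (nat_lit 119))))))))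
noncomputable def pc21 : PT := (PT.nd (nat_lit 38766) (PT.nd (nat_lit 780) (PT.nd (nat_lit 390) (PT.nd (nat_lit 156) (PT.nd (nat_lit 78) (PT.lf (nat_lit 12768) (nat_lit 6) (nat_lit 168) (nat_lit 2) (nat_lit 133) (nat_lit 139) (nat_lit 118)) (PT.lf (nat_lit 11856) (nat_lit 6) (nat_lit 156) (nat_lit 2) (nat_lit 134) (nat_lit 139) (nat_lit 117))) (PT.nd (nat_lit 78) (PT.lf (nat_lit 10868) (nat_lit 6) (nat_lit 143) (nat_lit 2) (nat_lit 135) (nat_lit 139) (nat_lit 116)) (PT.nd (nat_lit 78) (PT.lf (nat_lit 9804) (nat_lit 6) (nat_lit 129) (nat_lit 2) (nat_lit 136) (nat_lit 139) (nat_lit 115)) (PT.lf (nat_lit 9272) (nat_lit 6) (nat_lit 122) (nat_lit 2) (nat_lit 137) (nat_lit 139) (nat_lit 114))))) (PT.nd (nat_lit 156) (PT.nd (nat_lit 78) (PT.lf (nat_lit 8816) (nat_lit 6) (nat_lit 116) (nat_lit 2) (nat_lit 138) (nat_lit 139) (nat_lit 113)) (PT.lf (nat_lit 8284) (nat_lit 3) (nat_lit 109) (nat_lit 0)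 (nat_lit 139) (nat_lit 139) (nat_lit 112))) (PT.nd (nat_lit 78) (PT.lf (nat_lit 7752) (nat_lit 6) (nat_lit 102) (nat_lit 0) (nat_lit 140) (nat_lit 139) (nat_lit 111)) (PT.nd (nat_lit 78) (PT.lf (nat_lit 7220) (nat_lit 6) (nat_lit 95) (nat_lit 0) (nat_lit 141) (nat_lit 139) (nat_lit 110)) (PT.lf (nat_lit 6764) (nat_lit 6) (nat_lit 89) (nat_lit 0) (nat_lit 142) (nat_lit 139) (nat_lit 109)))))) (PT.nd (nat_lit 37518) (PT.nd (nat_lit 156) (PT.nd (nat_lit 78) (PT.lf (nat_lit 6308) (nat_lit 6) (nat_lit 83) (nat_lit 0) (nat_lit 143) (nat_lit 139) (nat_lit 108)) (PT.lf (nat_lit 5852) (nat_lit 6) (nat_lit 77) (nat_lit 0) (nat_lit 144) (nat_lit 139) (nat_lit 107))) (PT.nd (nat_lit 78) (PT.lf (nat_lit 5396) (nat_lit 6) (nat_lit 71) (nat_lit 0) (nat_lit 145) (nat_lit 139) (nat_lit 106)) (PT.nd (nat_lit 78) (PT.lf (nat_lit 5016) (nat_lit 6) (nat_lit 66) (nat_lit 0) (nat_lit 146) (nat_lit 139) (nat_lit 105))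 (PT.lf (nat_lit 4636) (nat_lit 6) (nat_lit 61) (nat_lit 0) (nat_lit 147) (nat_lit 139) (nat_lit 104))))) (PT.nd (nat_lit 234) (PT.nd (nat_lit 78) (PT.lf (nat_lit 4332) (nat_lit 6) (nat_lit 57) (nat_lit 5) (nat_lit 103) (nat_lit 140) (nat_lit 147)) (PT.nd (nat_lit 78) (PT.lf (nat_lit 4712) (nat_lit 6) (nat_lit 62) (nat_lit 5) (nat_lit 104) (nat_lit 140) (nat_lit 146)) (PT.lf (nat_lit 5092) (nat_lit 6) (nat_lit 67) (nat_lit 5) (nat_lit 105) (nat_lit 140) (nat_lit 145)))) (PT.nd (nat_lit 78) (PT.lf (nat_lit 5472) (nat_lit 6) (nat_lit 72) (nat_lit 5) (nat_lit 106) (nat_lit 140) (nat_lit 144)) (PT.nd (nat_lit 78) (PT.lf (nat_lit 5928) (nat_lit 6) (nat_lit 78) (nat_lit 5) (nat_lit 107) (nat_lit 140) (nat_lit 143)) (PT.lf (nat_lit 6384) (nat_lit 6) (nat_lit 84) (nat_lit 5) (nat_lit 108) (nat_lit 140) (nat_lit 142))))))) (PT.nd (nat_lit 858) (PT.nd (nat_lit 390) (PT.nd (nat_lit 156) (PT.nd (nat_lit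 78) (PT.lf (nat_lit 6840) (nat_lit 6) (nat_lit 90) (nat_lit 5) (nat_lit 109) (nat_lit 140) (nat_lit 141)) (PT.lf (nat_lit 7296) (nat_lit 3) (nat_lit 96) (nat_lit 4) (nat_lit 110) (nat_lit 140) (nat_lit 140))) (PT.nd (nat_lit 78) (PT.lf (nat_lit 7752) (nat_lit 6) (nat_lit 102) (nat_lit 4) (nat_lit 111) (nat_lit 140) (nat_lit 139)) (PT.nd (nat_lit 78) (PT.lf (nat_lit 8208) (nat_lit 6) (nat_lit 108) (nat_lit 4) (nat_lit 112) (nat_lit 140) (nat_lit 138)) (PT.lf (nat_lit 8740) (nat_lit 6) (nat_lit 115) (nat_lit 4) (nat_lit 113) (nat_lit 140) (nat_lit 137))))) (PT.nd (nat_lit 234) (PT.nd (nat_lit 78) (PT.lf (nat_lit 9196) (nat_lit 6) (nat_lit 121) (nat_lit 4) (nat_lit 114) (nat_lit 140) (nat_lit 136)) (PT.nd (nat_lit 78) (PT.lf (nat_lit 9728) (nat_lit 6) (nat_lit 128) (nat_lit 4) (nat_lit 115) (nat_lit 140) (nat_lit 135)) (PT.lf (nat_lit 10792) (nat_lit 6) (nat_lit 142) (nat_lit 4) (nat_lit 116)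 (nat_lit 140) (nat_lit 134)))) (PT.nd (nat_lit 78) (PT.lf (nat_lit 11780) (nat_lit 6) (nat_lit 155) (nat_lit 4) (nat_lit 117) (nat_lit 140) (nat_lit 133)) (PT.nd (nat_lit 78) (PT.lf (nat_lit 12692) (nat_lit 6) (nat_lit 167) (nat_lit 4) (nat_lit 118) (nat_lit 140) (nat_lit 132)) (PT.lf (nat_lit 13528) (nat_lit 6) (nat_lit 178) (nat_lit 4) (nat_lit 119) (nat_lit 140) (nat_lit 131)))))) (PT.nd (nat_lit 390) (PT.nd (nat_lit 156) (PT.nd (nat_lit 78) (PT.lf (nat_lit 14288) (nat_lit 6) (nat_lit 188) (nat_lit 4) (nat_lit 120) (nat_lit 140) (nat_lit 130)) (PT.lf (nat_lit 14212) (nat_lit 6) (nat_lit 187) (nat_lit 4) (nat_lit 121) (nat_lit 140) (nat_lit 129))) (PT.nd (nat_lit 78) (PT.lf (nat_lit 14136) (nat_lit 6) (nat_lit 186) (nat_lit 4) (nat_lit 122) (nat_lit 140) (nat_lit 128)) (PT.nd (nat_lit 78) (PT.lf (nat_lit 14060) (nat_lit 6) (nat_lit 185) (nat_lit 4) (nat_lit 123) (nat_lit 140) (nat_lit 127))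 (PT.lf (nat_lit 13984) (nat_lit 6) (nat_lit 184) (nat_lit 4) (nat_lit 124) (nat_lit 140) (nat_lit 126))))) (PT.nd (nat_lit 234) (PT.nd (nat_lit 78) (PT.lf (nat_lit 13908) (nat_lit 3) (nat_lit 183) (nat_lit 2) (nat_lit 125) (nat_lit 140) (nat_lit 125)) (PT.nd (nat_lit 78) (PT.lf (nat_lit 13984) (nat_lit 6) (nat_lit 184) (nat_lit 2) (nat_lit 126) (nat_lit 140) (nat_lit 124)) (PT.lf (nat_lit 14060) (nat_lit 6) (nat_lit 185) (nat_lit 2) (nat_lit 127) (nat_lit 140) (nat_lit 123)))) (PT.nd (nat_lit 78) (PT.lf (nat_lit 14136) (nat_lit 6) (nat_lit 186) (nat_lit 2) (nat_lit 128) (nat_lit 140) (nat_lit 122)) (PT.nd (nat_lit 78) (PT.lf (nat_lit 14212) (nat_lit 6) (nat_lit 187) (nat_lit 2) (nat_lit 129) (nat_lit 140) (nat_lit 121)) (PT.lf (nat_lit 14288) (nat_lit 6) (nat_lit 188) (nat_lit 2) (nat_lit 130) (nat_lit 140) (nat_lit 120))))))))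
noncomputable def pc22 : PT := (PT.nd (nat_lit 38610) (PT.nd (nat_lit 780) (PT.nd (nat_lit 390) (PT.nd (nat_lit 156) (PT.nd (nat_lit 78) (PT.lf (nat_lit 13528) (nat_lit 6) (nat_lit 178) (nat_lit 2) (nat_lit 131) (nat_lit 140) (nat_lit 119)) (PT.lf (nat_lit 12692) (nat_lit 6) (nat_lit 167) (nat_lit 2) (nat_lit 132) (nat_lit 140) (nat_lit 118))) (PT.nd (nat_lit 78) (PT.lf (nat_lit 11780) (nat_lit 6) (nat_lit 155) (nat_lit 2) (nat_lit 133) (nat_lit 140) (nat_lit 117)) (PT.nd (nat_lit 78) (PT.lf (nat_lit 10792) (nat_lit 6) (nat_lit 142) (nat_lit 2) (nat_lit 134) (nat_lit 140) (nat_lit 116)) (PT.lf (nat_lit 9728) (nat_lit 6) (nat_lit 128) (nat_lit 2) (nat_lit 135) (nat_lit 140) (nat_lit 115))))) (PT.nd (nat_lit 156) (PT.nd (nat_lit 78) (PT.lf (nat_lit 9196) (nat_lit 6) (nat_lit 121) (nat_lit 2) (nat_lit 136) (nat_lit 140) (nat_lit 114)) (PT.lf (nat_lit 8740) (nat_lit 6) (nat_lit 115) (nat_lit 2)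 (nat_lit 137) (nat_lit 140) (nat_lit 113))) (PT.nd (nat_lit 78) (PT.lf (nat_lit 8208) (nat_lit 6) (nat_lit 108) (nat_lit 2) (nat_lit 138) (nat_lit 140) (nat_lit 112)) (PT.nd (nat_lit 78) (PT.lf (nat_lit 7752) (nat_lit 6) (nat_lit 102) (nat_lit 2) (nat_lit 139) (nat_lit 140) (nat_lit 111)) (PT.lf (nat_lit 7296) (nat_lit 3) (nat_lit 96) (nat_lit 0) (nat_lit 140) (nat_lit 140) (nat_lit 110)))))) (PT.nd (nat_lit 390) (PT.nd (nat_lit 156) (PT.nd (nat_lit 78) (PT.lf (nat_lit 6840) (nat_lit 6) (nat_lit 90) (nat_lit 0) (nat_lit 141) (nat_lit 140) (nat_lit 109)) (PT.lf (nat_lit 6384) (nat_lit 6) (nat_lit 84) (nat_lit 0) (nat_lit 142) (nat_lit 140) (nat_lit 108))) (PT.nd (nat_lit 78) (PT.lf (nat_lit 5928) (nat_lit 6) (nat_lit 78) (nat_lit 0) (nat_lit 143) (nat_lit 140) (nat_lit 107)) (PT.nd (nat_lit 78) (PT.lf (nat_lit 5472) (nat_lit 6) (nat_lit 72) (nat_lit 0) (nat_lit 144) (nat_lit 140) (nat_lit 106))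 (PT.lf (nat_lit 5092) (nat_lit 6) (nat_lit 67) (nat_lit 0) (nat_lit 145) (nat_lit 140) (nat_lit 105))))) (PT.nd (nat_lit 37206) (PT.nd (nat_lit 78) (PT.lf (nat_lit 4712) (nat_lit 6) (nat_lit 62) (nat_lit 0) (nat_lit 146) (nat_lit 140) (nat_lit 104)) (PT.nd (nat_lit 37050) (PT.lf (nat_lit 4332) (nat_lit 6) (nat_lit 57) (nat_lit 0) (nat_lit 147) (nat_lit 140) (nat_lit 103)) (PT.lf (nat_lit 3724) (nat_lit 6) (nat_lit 49) (nat_lit 5) (nat_lit 101) (nat_lit 141) (nat_lit 148)))) (PT.nd (nat_lit 78) (PT.lf (nat_lit 4028) (nat_lit 6) (nat_lit 53) (nat_lit 5) (nat_lit 102) (nat_lit 141) (nat_lit 147)) (PT.nd (nat_lit 78) (PT.lf (nat_lit 4408) (nat_lit 6) (nat_lit 58) (nat_lit 5) (nat_lit 103) (nat_lit 141) (nat_lit 146)) (PT.lf (nat_lit 4788) (nat_lit 6) (nat_lit 63) (nat_lit 5) (nat_lit 104) (nat_lit 141) (nat_lit 145))))))) (PT.nd (nat_lit 780) (PT.nd (nat_lit 390) (PT.nd (nat_lit 156) (PT.nd (nat_lit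 78) (PT.lf (nat_lit 5168) (nat_lit 6) (nat_lit 68) (nat_lit 5) (nat_lit 105) (nat_lit 141) (nat_lit 144)) (PT.lf (nat_lit 5548) (nat_lit 6) (nat_lit 73) (nat_lit 5) (nat_lit 106) (nat_lit 141) (nat_lit 143))) (PT.nd (nat_lit 78) (PT.lf (nat_lit 6004) (nat_lit 6) (nat_lit 79) (nat_lit 5) (nat_lit 107) (nat_lit 141) (nat_lit 142)) (PT.nd (nat_lit 78) (PT.lf (nat_lit 6460) (nat_lit 3) (nat_lit 85) (nat_lit 4) (nat_lit 108) (nat_lit 141) (nat_lit 141)) (PT.lf (nat_lit 6840) (nat_lit 6) (nat_lit 90) (nat_lit 4) (nat_lit 109) (nat_lit 141) (nat_lit 140))))) (PT.nd (nat_lit 156) (PT.nd (nat_lit 78) (PT.lf (nat_lit 7220) (nat_lit 6) (nat_lit 95) (nat_lit 4) (nat_lit 110) (nat_lit 141) (nat_lit 139)) (PT.lf (nat_lit 7676) (nat_lit 6) (nat_lit 101) (nat_lit 4) (nat_lit 111) (nat_lit 141) (nat_lit 138))) (PT.nd (nat_lit 78) (PT.lf (nat_lit 8132) (nat_lit 6) (nat_lit 107) (nat_lit 4) (nat_lit 112) (nat_lit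 141) (nat_lit 137)) (PT.nd (nat_lit 78) (PT.lf (nat_lit 8664) (nat_lit 6) (nat_lit 114) (nat_lit 4) (nat_lit 113) (nat_lit 141) (nat_lit 136)) (PT.lf (nat_lit 9120) (nat_lit 6) (nat_lit 120) (nat_lit 4) (nat_lit 114) (nat_lit 141) (nat_lit 135)))))) (PT.nd (nat_lit 390) (PT.nd (nat_lit 156) (PT.nd (nat_lit 78) (PT.lf (nat_lit 9652) (nat_lit 6) (nat_lit 127) (nat_lit 4) (nat_lit 115) (nat_lit 141) (nat_lit 134)) (PT.lf (nat_lit 10716) (nat_lit 6) (nat_lit 141) (nat_lit 4) (nat_lit 116) (nat_lit 141) (nat_lit 133))) (PT.nd (nat_lit 78) (PT.lf (nat_lit 11704) (nat_lit 6) (nat_lit 154) (nat_lit 4) (nat_lit 117) (nat_lit 141) (nat_lit 132)) (PT.nd (nat_lit 78) (PT.lf (nat_lit 12616) (nat_lit 6) (nat_lit 166) (nat_lit 4) (nat_lit 118) (nat_lit 141) (nat_lit 131)) (PT.lf (nat_lit 13452) (nat_lit 6) (nat_lit 177) (nat_lit 4) (nat_lit 119) (nat_lit 141) (nat_lit 130))))) (PT.nd (nat_lit 234) (PT.nd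 (nat_lit 78) (PT.lf (nat_lit 13376) (nat_lit 6) (nat_lit 176) (nat_lit 4) (nat_lit 120) (nat_lit 141) (nat_lit 129)) (PT.nd (nat_lit 78) (PT.lf (nat_lit 13300) (nat_lit 6) (nat_lit 175) (nat_lit 4) (nat_lit 121) (nat_lit 141) (nat_lit 128)) (PT.lf (nat_lit 13224) (nat_lit 6) (nat_lit 174) (nat_lit 4) (nat_lit 122) (nat_lit 141) (nat_lit 127)))) (PT.nd (nat_lit 78) (PT.lf (nat_lit 13148) (nat_lit 6) (nat_lit 173) (nat_lit 4) (nat_lit 123) (nat_lit 141) (nat_lit 126)) (PT.nd (nat_lit 78) (PT.lf (nat_lit 13072) (nat_lit 6) (nat_lit 172) (nat_lit 4) (nat_lit 124) (nat_lit 141) (nat_lit 125)) (PT.lf (nat_lit 13072) (nat_lit 6) (nat_lit 172) (nat_lit 2) (nat_lit 125) (nat_lit 141) (nat_lit 124))))))))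
noncomputable def pc23 : PT := (PT.nd (nat_lit 1638) (PT.nd (nat_lit 780) (PT.nd (nat_lit 390) (PT.nd (nat_lit 156) (PT.nd (nat_lit 78) (PT.lf (nat_lit 13148) (nat_lit 6) (nat_lit 173) (nat_lit 2) (nat_lit 126) (nat_lit 141) (nat_lit 123)) (PT.lf (nat_lit 13224) (nat_lit 6) (nat_lit 174) (nat_lit 2) (nat_lit 127) (nat_lit 141) (nat_lit 122))) (PT.nd (nat_lit 78) (PT.lf (nat_lit 13300) (nat_lit 6) (nat_lit 175) (nat_lit 2) (nat_lit 128) (nat_lit 141) (nat_lit 121)) (PT.nd (nat_lit 78) (PT.lf (nat_lit 13376) (nat_lit 6) (nat_lit 176) (nat_lit 2) (nat_lit 129) (nat_lit 141) (nat_lit 120)) (PT.lf (nat_lit 13452) (nat_lit 6) (nat_lit 177) (nat_lit 2) (nat_lit 130) (nat_lit 141) (nat_lit 119))))) (PT.nd (nat_lit 156) (PT.nd (nat_lit 78) (PT.lf (nat_lit 12616) (nat_lit 6) (nat_lit 166) (nat_lit 2) (nat_lit 131) (nat_lit 141) (nat_lit 118)) (PT.lf (nat_lit 11704) (nat_lit 6) (nat_lit 154) (nat_lit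 2) (nat_lit 132) (nat_lit 141) (nat_lit 117))) (PT.nd (nat_lit 78) (PT.lf (nat_lit 10716) (nat_lit 6) (nat_lit 141) (nat_lit 2) (nat_lit 133) (nat_lit 141) (nat_lit 116)) (PT.nd (nat_lit 78) (PT.lf (nat_lit 9652) (nat_lit 6) (nat_lit 127) (nat_lit 2) (nat_lit 134) (nat_lit 141) (nat_lit 115)) (PT.lf (nat_lit 9120) (nat_lit 6) (nat_lit 120) (nat_lit 2) (nat_lit 135) (nat_lit 141) (nat_lit 114)))))) (PT.nd (nat_lit 390) (PT.nd (nat_lit 156) (PT.nd (nat_lit 78) (PT.lf (nat_lit 8664) (nat_lit 6) (nat_lit 114) (nat_lit 2) (nat_lit 136) (nat_lit 141) (nat_lit 113)) (PT.lf (nat_lit 8132) (nat_lit 6) (nat_lit 107) (nat_lit 2) (nat_lit 137) (nat_lit 141) (nat_lit 112))) (PT.nd (nat_lit 78) (PT.lf (nat_lit 7676) (nat_lit 6) (nat_lit 101) (nat_lit 2) (nat_lit 138) (nat_lit 141) (nat_lit 111)) (PT.nd (nat_lit 78) (PT.lf (nat_lit 7220) (nat_lit 6) (nat_lit 95) (nat_lit 2) (nat_lit 139) (nat_lit 141) (nat_lit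 110)) (PT.lf (nat_lit 6840) (nat_lit 6) (nat_lit 90) (nat_lit 2) (nat_lit 140) (nat_lit 141) (nat_lit 109))))) (PT.nd (nat_lit 234) (PT.nd (nat_lit 78) (PT.lf (nat_lit 6460) (nat_lit 3) (nat_lit 85) (nat_lit 0) (nat_lit 141) (nat_lit 141) (nat_lit 108)) (PT.nd (nat_lit 78) (PT.lf (nat_lit 6004) (nat_lit 6) (nat_lit 79) (nat_lit 0) (nat_lit 142) (nat_lit 141) (nat_lit 107)) (PT.lf (nat_lit 5548) (nat_lit 6) (nat_lit 73) (nat_lit 0) (nat_lit 143) (nat_lit 141) (nat_lit 106)))) (PT.nd (nat_lit 78) (PT.lf (nat_lit 5168) (nat_lit 6) (nat_lit 68) (nat_lit 0) (nat_lit 144) (nat_lit 141) (nat_lit 105)) (PT.nd (nat_lit 78) (PT.lf (nat_lit 4788) (nat_lit 6) (nat_lit 63) (nat_lit 0) (nat_lit 145) (nat_lit 141) (nat_lit 104)) (PT.lf (nat_lit 4408) (nat_lit 6) (nat_lit 58) (nat_lit 0) (nat_lit 146) (nat_lit 141) (nat_lit 103))))))) (PT.nd (nat_lit 37674) (PT.nd (nat_lit 37206) (PT.nd (nat_lit 36972) (PT.nd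 (nat_lit 78) (PT.lf (nat_lit 4028) (nat_lit 6) (nat_lit 53) (nat_lit 0) (nat_lit 147) (nat_lit 141) (nat_lit 102)) (PT.lf (nat_lit 3724) (nat_lit 6) (nat_lit 49) (nat_lit 0) (nat_lit 148) (nat_lit 141) (nat_lit 101))) (PT.nd (nat_lit 78) (PT.lf (nat_lit 3420) (nat_lit 6) (nat_lit 45) (nat_lit 5) (nat_lit 100) (nat_lit 142) (nat_lit 148)) (PT.nd (nat_lit 78) (PT.lf (nat_lit 3800) (nat_lit 6) (nat_lit 50) (nat_lit 5) (nat_lit 101) (nat_lit 142) (nat_lit 147)) (PT.lf (nat_lit 4104) (nat_lit 6) (nat_lit 54) (nat_lit 5) (nat_lit 102) (nat_lit 142) (nat_lit 146))))) (PT.nd (nat_lit 234) (PT.nd (nat_lit 78) (PT.lf (nat_lit 4484) (nat_lit 6) (nat_lit 59) (nat_lit 5) (nat_lit 103) (nat_lit 142) (nat_lit 145)) (PT.nd (nat_lit 78) (PT.lf (nat_lit 4864) (nat_lit 6) (nat_lit 64) (nat_lit 5) (nat_lit 104) (nat_lit 142) (nat_lit 144)) (PT.lf (nat_lit 5244) (nat_lit 6) (nat_lit 69) (nat_lit 5) (nat_lit 105)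 (nat_lit 142) (nat_lit 143)))) (PT.nd (nat_lit 78) (PT.lf (nat_lit 5624) (nat_lit 3) (nat_lit 74) (nat_lit 4) (nat_lit 106) (nat_lit 142) (nat_lit 142)) (PT.nd (nat_lit 78) (PT.lf (nat_lit 6004) (nat_lit 6) (nat_lit 79) (nat_lit 4) (nat_lit 107) (nat_lit 142) (nat_lit 141)) (PT.lf (nat_lit 6384) (nat_lit 6) (nat_lit 84) (nat_lit 4) (nat_lit 108) (nat_lit 142) (nat_lit 140)))))) (PT.nd (nat_lit 390) (PT.nd (nat_lit 156) (PT.nd (nat_lit 78) (PT.lf (nat_lit 6764) (nat_lit 6) (nat_lit 89) (nat_lit 4) (nat_lit 109) (nat_lit 142) (nat_lit 139)) (PT.lf (nat_lit 7144) (nat_lit 6) (nat_lit 94) (nat_lit 4) (nat_lit 110) (nat_lit 142) (nat_lit 138))) (PT.nd (nat_lit 78) (PT.lf (nat_lit 7600) (nat_lit 6) (nat_lit 100) (nat_lit 4) (nat_lit 111) (nat_lit 142) (nat_lit 137)) (PT.nd (nat_lit 78) (PT.lf (nat_lit 8056) (nat_lit 6) (nat_lit 106) (nat_lit 4) (nat_lit 112) (nat_lit 142) (nat_lit 136)) (PT.lf (nat_lit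 8588) (nat_lit 6) (nat_lit 113) (nat_lit 4) (nat_lit 113) (nat_lit 142) (nat_lit 135))))) (PT.nd (nat_lit 234) (PT.nd (nat_lit 78) (PT.lf (nat_lit 9044) (nat_lit 6) (nat_lit 119) (nat_lit 4) (nat_lit 114) (nat_lit 142) (nat_lit 134)) (PT.nd (nat_lit 78) (PT.lf (nat_lit 9576) (nat_lit 6) (nat_lit 126) (nat_lit 4) (nat_lit 115) (nat_lit 142) (nat_lit 133)) (PT.lf (nat_lit 10640) (nat_lit 6) (nat_lit 140) (nat_lit 4) (nat_lit 116) (nat_lit 142) (nat_lit 132)))) (PT.nd (nat_lit 78) (PT.lf (nat_lit 11628) (nat_lit 6) (nat_lit 153) (nat_lit 4) (nat_lit 117) (nat_lit 142) (nat_lit 131)) (PT.nd (nat_lit 78) (PT.lf (nat_lit 12540) (nat_lit 6) (nat_lit 165) (nat_lit 4) (nat_lit 118) (nat_lit 142) (nat_lit 130)) (PT.lf (nat_lit 12464) (nat_lit 6) (nat_lit 164) (nat_lit 4) (nat_lit 119) (nat_lit 142) (nat_lit 129))))))))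
noncomputable def pc24 : PT := (PT.nd (nat_lit 1638) (PT.nd (nat_lit 780) (PT.nd (nat_lit 390) (PT.nd (nat_lit 156) (PT.nd (nat_lit 78) (PT.lf (nat_lit 12388) (nat_lit 6) (nat_lit 163) (nat_lit 4) (nat_lit 120) (nat_lit 142) (nat_lit 128)) (PT.lf (nat_lit 12312) (nat_lit 6) (nat_lit 162) (nat_lit 4) (nat_lit 121) (nat_lit 142) (nat_lit 127))) (PT.nd (nat_lit 78) (PT.lf (nat_lit 12236) (nat_lit 6) (nat_lit 161) (nat_lit 4) (nat_lit 122) (nat_lit 142) (nat_lit 126)) (PT.nd (nat_lit 78) (PT.lf (nat_lit 12160) (nat_lit 6) (nat_lit 160) (nat_lit 4) (nat_lit 123) (nat_lit 142) (nat_lit 125)) (PT.lf (nat_lit 12084) (nat_lit 3) (nat_lit 159) (nat_lit 2) (nat_lit 124) (nat_lit 142) (nat_lit 124))))) (PT.nd (nat_lit 156) (PT.nd (nat_lit 78) (PT.lf (nat_lit 12160) (nat_lit 6) (nat_lit 160) (nat_lit 2) (nat_lit 125) (nat_lit 142) (nat_lit 123)) (PT.lf (nat_lit 12236) (nat_lit 6) (nat_lit 161) (nat_lit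 2) (nat_lit 126) (nat_lit 142) (nat_lit 122))) (PT.nd (nat_lit 78) (PT.lf (nat_lit 12312) (nat_lit 6) (nat_lit 162) (nat_lit 2) (nat_lit 127) (nat_lit 142) (nat_lit 121)) (PT.nd (nat_lit 78) (PT.lf (nat_lit 12388) (nat_lit 6) (nat_lit 163) (nat_lit 2) (nat_lit 128) (nat_lit 142) (nat_lit 120)) (PT.lf (nat_lit 12464) (nat_lit 6) (nat_lit 164) (nat_lit 2) (nat_lit 129) (nat_lit 142) (nat_lit 119)))))) (PT.nd (nat_lit 390) (PT.nd (nat_lit 156) (PT.nd (nat_lit 78) (PT.lf (nat_lit 12540) (nat_lit 6) (nat_lit 165) (nat_lit 2) (nat_lit 130) (nat_lit 142) (nat_lit 118)) (PT.lf (nat_lit 11628) (nat_lit 6) (nat_lit 153) (nat_lit 2) (nat_lit 131) (nat_lit 142) (nat_lit 117))) (PT.nd (nat_lit 78) (PT.lf (nat_lit 10640) (nat_lit 6) (nat_lit 140) (nat_lit 2) (nat_lit 132) (nat_lit 142) (nat_lit 116)) (PT.nd (nat_lit 78) (PT.lf (nat_lit 9576) (nat_lit 6) (nat_lit 126) (nat_lit 2) (nat_lit 133) (nat_lit 142)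 (nat_lit 115)) (PT.lf (nat_lit 9044) (nat_lit 6) (nat_lit 119) (nat_lit 2) (nat_lit 134) (nat_lit 142) (nat_lit 114))))) (PT.nd (nat_lit 234) (PT.nd (nat_lit 78) (PT.lf (nat_lit 8588) (nat_lit 6) (nat_lit 113) (nat_lit 2) (nat_lit 135) (nat_lit 142) (nat_lit 113)) (PT.nd (nat_lit 78) (PT.lf (nat_lit 8056) (nat_lit 6) (nat_lit 106) (nat_lit 2) (nat_lit 136) (nat_lit 142) (nat_lit 112)) (PT.lf (nat_lit 7600) (nat_lit 6) (nat_lit 100) (nat_lit 2) (nat_lit 137) (nat_lit 142) (nat_lit 111)))) (PT.nd (nat_lit 78) (PT.lf (nat_lit 7144) (nat_lit 6) (nat_lit 94) (nat_lit 2) (nat_lit 138) (nat_lit 142) (nat_lit 110)) (PT.nd (nat_lit 78) (PT.lf (nat_lit 6764) (nat_lit 6) (nat_lit 89) (nat_lit 2) (nat_lit 139) (nat_lit 142) (nat_lit 109)) (PT.lf (nat_lit 6384) (nat_lit 6) (nat_lit 84) (nat_lit 2) (nat_lit 140) (nat_lit 142) (nat_lit 108))))))) (PT.nd (nat_lit 37440) (PT.nd (nat_lit 390) (PT.nd (nat_lit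 156) (PT.nd (nat_lit 78) (PT.lf (nat_lit 6004) (nat_lit 6) (nat_lit 79) (nat_lit 2) (nat_lit 141) (nat_lit 142) (nat_lit 107)) (PT.lf (nat_lit 5624) (nat_lit 3) (nat_lit 74) (nat_lit 0) (nat_lit 142) (nat_lit 142) (nat_lit 106))) (PT.nd (nat_lit 78) (PT.lf (nat_lit 5244) (nat_lit 6) (nat_lit 69) (nat_lit 0) (nat_lit 143) (nat_lit 142) (nat_lit 105)) (PT.nd (nat_lit 78) (PT.lf (nat_lit 4864) (nat_lit 6) (nat_lit 64) (nat_lit 0) (nat_lit 144) (nat_lit 142) (nat_lit 104)) (PT.lf (nat_lit 4484) (nat_lit 6) (nat_lit 59) (nat_lit 0) (nat_lit 145) (nat_lit 142) (nat_lit 103))))) (PT.nd (nat_lit 156) (PT.nd (nat_lit 78) (PT.lf (nat_lit 4104) (nat_lit 6) (nat_lit 54) (nat_lit 0) (nat_lit 146) (nat_lit 142) (nat_lit 102)) (PT.lf (nat_lit 3800) (nat_lit 6) (nat_lit 50) (nat_lit 0) (nat_lit 147) (nat_lit 142) (nat_lit 101))) (PT.nd (nat_lit 36738) (PT.lf (nat_lit 3420) (nat_lit 6) (nat_lit 45) (nat_lit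 0) (nat_lit 148) (nat_lit 142) (nat_lit 100)) (PT.nd (nat_lit 78) (PT.lf (nat_lit 2888) (nat_lit 6) (nat_lit 38) (nat_lit 5) (nat_lit 98) (nat_lit 143) (nat_lit 149)) (PT.lf (nat_lit 3192) (nat_lit 6) (nat_lit 42) (nat_lit 5) (nat_lit 99) (nat_lit 143) (nat_lit 148)))))) (PT.nd (nat_lit 390) (PT.nd (nat_lit 156) (PT.nd (nat_lit 78) (PT.lf (nat_lit 3496) (nat_lit 6) (nat_lit 46) (nat_lit 5) (nat_lit 100) (nat_lit 143) (nat_lit 147)) (PT.lf (nat_lit 3876) (nat_lit 6) (nat_lit 51) (nat_lit 5) (nat_lit 101) (nat_lit 143) (nat_lit 146))) (PT.nd (nat_lit 78) (PT.lf (nat_lit 4180) (nat_lit 6) (nat_lit 55) (nat_lit 5) (nat_lit 102) (nat_lit 143) (nat_lit 145)) (PT.nd (nat_lit 78) (PT.lf (nat_lit 4560) (nat_lit 6) (nat_lit 60) (nat_lit 5) (nat_lit 103) (nat_lit 143) (nat_lit 144)) (PT.lf (nat_lit 4940) (nat_lit 3) (nat_lit 65) (nat_lit 4) (nat_lit 104) (nat_lit 143) (nat_lit 143))))) (PT.nd (nat_lit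 234) (PT.nd (nat_lit 78) (PT.lf (nat_lit 5244) (nat_lit 6) (nat_lit 69) (nat_lit 4) (nat_lit 105) (nat_lit 143) (nat_lit 142)) (PT.nd (nat_lit 78) (PT.lf (nat_lit 5548) (nat_lit 6) (nat_lit 73) (nat_lit 4) (nat_lit 106) (nat_lit 143) (nat_lit 141)) (PT.lf (nat_lit 5928) (nat_lit 6) (nat_lit 78) (nat_lit 4) (nat_lit 107) (nat_lit 143) (nat_lit 140)))) (PT.nd (nat_lit 78) (PT.lf (nat_lit 6308) (nat_lit 6) (nat_lit 83) (nat_lit 4) (nat_lit 108) (nat_lit 143) (nat_lit 139)) (PT.nd (nat_lit 78) (PT.lf (nat_lit 6688) (nat_lit 6) (nat_lit 88) (nat_lit 4) (nat_lit 109) (nat_lit 143) (nat_lit 138)) (PT.lf (nat_lit 7068) (nat_lit 6) (nat_lit 93) (nat_lit 4) (nat_lit 110) (nat_lit 143) (nat_lit 137))))))))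
noncomputable def pc25 : PT := (PT.nd (nat_lit 1638) (PT.nd (nat_lit 780) (PT.nd (nat_lit 390) (PT.nd (nat_lit 156) (PT.nd (nat_lit 78) (PT.lf (nat_lit 7524) (nat_lit 6) (nat_lit 99) (nat_lit 4) (nat_lit 111) (nat_lit 143) (nat_lit 136)) (PT.lf (nat_lit 7980) (nat_lit 6) (nat_lit 105) (nat_lit 4) (nat_lit 112) (nat_lit 143) (nat_lit 135))) (PT.nd (nat_lit 78) (PT.lf (nat_lit 8512) (nat_lit 6) (nat_lit 112) (nat_lit 4) (nat_lit 113) (nat_lit 143) (nat_lit 134)) (PT.nd (nat_lit 78) (PT.lf (nat_lit 8968) (nat_lit 6) (nat_lit 118) (nat_lit 4) (nat_lit 114) (nat_lit 143) (nat_lit 133)) (PT.lf (nat_lit 9500) (nat_lit 6) (nat_lit 125) (nat_lit 4) (nat_lit 115) (nat_lit 143) (nat_lit 132))))) (PT.nd (nat_lit 156) (PT.nd (nat_lit 78) (PT.lf (nat_lit 10564) (nat_lit 6) (nat_lit 139) (nat_lit 4) (nat_lit 116) (nat_lit 143) (nat_lit 131)) (PT.lf (nat_lit 11552) (nat_lit 6) (nat_lit 152) (nat_lit 4) (nat_lit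 117) (nat_lit 143) (nat_lit 130))) (PT.nd (nat_lit 78) (PT.lf (nat_lit 11476) (nat_lit 6) (nat_lit 151) (nat_lit 4) (nat_lit 118) (nat_lit 143) (nat_lit 129)) (PT.nd (nat_lit 78) (PT.lf (nat_lit 11400) (nat_lit 6) (nat_lit 150) (nat_lit 4) (nat_lit 119) (nat_lit 143) (nat_lit 128)) (PT.lf (nat_lit 11324) (nat_lit 6) (nat_lit 149) (nat_lit 4) (nat_lit 120) (nat_lit 143) (nat_lit 127)))))) (PT.nd (nat_lit 390) (PT.nd (nat_lit 156) (PT.nd (nat_lit 78) (PT.lf (nat_lit 11248) (nat_lit 6) (nat_lit 148) (nat_lit 4) (nat_lit 121) (nat_lit 143) (nat_lit 126)) (PT.lf (nat_lit 11172) (nat_lit 6) (nat_lit 147) (nat_lit 4) (nat_lit 122) (nat_lit 143) (nat_lit 125))) (PT.nd (nat_lit 78) (PT.lf (nat_lit 11096) (nat_lit 6) (nat_lit 146) (nat_lit 4) (nat_lit 123) (nat_lit 143) (nat_lit 124)) (PT.nd (nat_lit 78) (PT.lf (nat_lit 11096) (nat_lit 6) (nat_lit 146) (nat_lit 2) (nat_lit 124) (nat_lit 143) (nat_lit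 123)) (PT.lf (nat_lit 11172) (nat_lit 6) (nat_lit 147) (nat_lit 2) (nat_lit 125) (nat_lit 143) (nat_lit 122))))) (PT.nd (nat_lit 234) (PT.nd (nat_lit 78) (PT.lf (nat_lit 11248) (nat_lit 6) (nat_lit 148) (nat_lit 2) (nat_lit 126) (nat_lit 143) (nat_lit 121)) (PT.nd (nat_lit 78) (PT.lf (nat_lit 11324) (nat_lit 6) (nat_lit 149) (nat_lit 2) (nat_lit 127) (nat_lit 143) (nat_lit 120)) (PT.lf (nat_lit 11400) (nat_lit 6) (nat_lit 150) (nat_lit 2) (nat_lit 128) (nat_lit 143) (nat_lit 119)))) (PT.nd (nat_lit 78) (PT.lf (nat_lit 11476) (nat_lit 6) (nat_lit 151) (nat_lit 2) (nat_lit 129) (nat_lit 143) (nat_lit 118)) (PT.nd (nat_lit 78) (PT.lf (nat_lit 11552) (nat_lit 6) (nat_lit 152) (nat_lit 2) (nat_lit 130) (nat_lit 143) (nat_lit 117)) (PT.lf (nat_lit 10564) (nat_lit 6) (nat_lit 139) (nat_lit 2) (nat_lit 131) (nat_lit 143) (nat_lit 116))))))) (PT.nd (nat_lit 858) (PT.nd (nat_lit 390) (PT.nd (nat_lit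 156) (PT.nd (nat_lit 78) (PT.lf (nat_lit 9500) (nat_lit 6) (nat_lit 125) (nat_lit 2) (nat_lit 132) (nat_lit 143) (nat_lit 115)) (PT.lf (nat_lit 8968) (nat_lit 6) (nat_lit 118) (nat_lit 2) (nat_lit 133) (nat_lit 143) (nat_lit 114))) (PT.nd (nat_lit 78) (PT.lf (nat_lit 8512) (nat_lit 6) (nat_lit 112) (nat_lit 2) (nat_lit 134) (nat_lit 143) (nat_lit 113)) (PT.nd (nat_lit 78) (PT.lf (nat_lit 7980) (nat_lit 6) (nat_lit 105) (nat_lit 2) (nat_lit 135) (nat_lit 143) (nat_lit 112)) (PT.lf (nat_lit 7524) (nat_lit 6) (nat_lit 99) (nat_lit 2) (nat_lit 136) (nat_lit 143) (nat_lit 111))))) (PT.nd (nat_lit 234) (PT.nd (nat_lit 78) (PT.lf (nat_lit 7068) (nat_lit 6) (nat_lit 93) (nat_lit 2) (nat_lit 137) (nat_lit 143) (nat_lit 110)) (PT.nd (nat_lit 78) (PT.lf (nat_lit 6688) (nat_lit 6) (nat_lit 88) (nat_lit 2) (nat_lit 138) (nat_lit 143) (nat_lit 109)) (PT.lf (nat_lit 6308) (nat_lit 6) (nat_lit 83) (nat_lit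 2) (nat_lit 139) (nat_lit 143) (nat_lit 108)))) (PT.nd (nat_lit 78) (PT.lf (nat_lit 5928) (nat_lit 6) (nat_lit 78) (nat_lit 2) (nat_lit 140) (nat_lit 143) (nat_lit 107)) (PT.nd (nat_lit 78) (PT.lf (nat_lit 5548) (nat_lit 6) (nat_lit 73) (nat_lit 2) (nat_lit 141) (nat_lit 143) (nat_lit 106)) (PT.lf (nat_lit 5244) (nat_lit 6) (nat_lit 69) (nat_lit 2) (nat_lit 142) (nat_lit 143) (nat_lit 105)))))) (PT.nd (nat_lit 390) (PT.nd (nat_lit 156) (PT.nd (nat_lit 78) (PT.lf (nat_lit 4940) (nat_lit 3) (nat_lit 65) (nat_lit 0) (nat_lit 143) (nat_lit 143) (nat_lit 104)) (PT.lf (nat_lit 4560) (nat_lit 6) (nat_lit 60) (nat_lit 0) (nat_lit 144) (nat_lit 143) (nat_lit 103))) (PT.nd (nat_lit 78) (PT.lf (nat_lit 4180) (nat_lit 6) (nat_lit 55) (nat_lit 0) (nat_lit 145) (nat_lit 143) (nat_lit 102)) (PT.nd (nat_lit 78) (PT.lf (nat_lit 3876) (nat_lit 6) (nat_lit 51) (nat_lit 0) (nat_lit 146) (nat_lit 143) (nat_lit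 101)) (PT.lf (nat_lit 3496) (nat_lit 6) (nat_lit 46) (nat_lit 0) (nat_lit 147) (nat_lit 143) (nat_lit 100))))) (PT.nd (nat_lit 36738) (PT.nd (nat_lit 78) (PT.lf (nat_lit 3192) (nat_lit 6) (nat_lit 42) (nat_lit 0) (nat_lit 148) (nat_lit 143) (nat_lit 99)) (PT.nd (nat_lit 36582) (PT.lf (nat_lit 2888) (nat_lit 6) (nat_lit 38) (nat_lit 0) (nat_lit 149) (nat_lit 143) (nat_lit 98)) (PT.lf (nat_lit 2660) (nat_lit 6) (nat_lit 35) (nat_lit 5) (nat_lit 97) (nat_lit 144) (nat_lit 149)))) (PT.nd (nat_lit 78) (PT.lf (nat_lit 2964) (nat_lit 6) (nat_lit 39) (nat_lit 5) (nat_lit 98) (nat_lit 144) (nat_lit 148)) (PT.nd (nat_lit 78) (PT.lf (nat_lit 3268) (nat_lit 6) (nat_lit 43) (nat_lit 5) (nat_lit 99) (nat_lit 144) (nat_lit 147)) (PT.lf (nat_lit 3572) (nat_lit 6) (nat_lit 47) (nat_lit 5) (nat_lit 100) (nat_lit 144) (nat_lit 146))))))))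
noncomputable def pc26 : PT := (PT.nd (nat_lit 1638) (PT.nd (nat_lit 780) (PT.nd (nat_lit 390) (PT.nd (nat_lit 156) (PT.nd (nat_lit 78) (PT.lf (nat_lit 3952) (nat_lit 6) (nat_lit 52) (nat_lit 5) (nat_lit 101) (nat_lit 144) (nat_lit 145)) (PT.lf (nat_lit 4256) (nat_lit 3) (nat_lit 56) (nat_lit 4) (nat_lit 102) (nat_lit 144) (nat_lit 144))) (PT.nd (nat_lit 78) (PT.lf (nat_lit 4560) (nat_lit 6) (nat_lit 60) (nat_lit 4) (nat_lit 103) (nat_lit 144) (nat_lit 143)) (PT.nd (nat_lit 78) (PT.lf (nat_lit 4864) (nat_lit 6) (nat_lit 64) (nat_lit 4) (nat_lit 104) (nat_lit 144) (nat_lit 142)) (PT.lf (nat_lit 5168) (nat_lit 6) (nat_lit 68) (nat_lit 4) (nat_lit 105) (nat_lit 144) (nat_lit 141))))) (PT.nd (nat_lit 156) (PT.nd (nat_lit 78) (PT.lf (nat_lit 5472) (nat_lit 6) (nat_lit 72) (nat_lit 4) (nat_lit 106) (nat_lit 144) (nat_lit 140)) (PT.lf (nat_lit 5852) (nat_lit 6) (nat_lit 77) (nat_lit 4) (nat_lit 107)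 (nat_lit 144) (nat_lit 139))) (PT.nd (nat_lit 78) (PT.lf (nat_lit 6232) (nat_lit 6) (nat_lit 82) (nat_lit 4) (nat_lit 108) (nat_lit 144) (nat_lit 138)) (PT.nd (nat_lit 78) (PT.lf (nat_lit 6612) (nat_lit 6) (nat_lit 87) (nat_lit 4) (nat_lit 109) (nat_lit 144) (nat_lit 137)) (PT.lf (nat_lit 6992) (nat_lit 6) (nat_lit 92) (nat_lit 4) (nat_lit 110) (nat_lit 144) (nat_lit 136)))))) (PT.nd (nat_lit 390) (PT.nd (nat_lit 156) (PT.nd (nat_lit 78) (PT.lf (nat_lit 7448) (nat_lit 6) (nat_lit 98) (nat_lit 4) (nat_lit 111) (nat_lit 144) (nat_lit 135)) (PT.lf (nat_lit 7904) (nat_lit 6) (nat_lit 104) (nat_lit 4) (nat_lit 112) (nat_lit 144) (nat_lit 134))) (PT.nd (nat_lit 78) (PT.lf (nat_lit 8436) (nat_lit 6) (nat_lit 111) (nat_lit 4) (nat_lit 113) (nat_lit 144) (nat_lit 133)) (PT.nd (nat_lit 78) (PT.lf (nat_lit 8892) (nat_lit 6) (nat_lit 117) (nat_lit 4) (nat_lit 114) (nat_lit 144) (nat_lit 132)) (PT.lf (nat_lit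 9424) (nat_lit 6) (nat_lit 124) (nat_lit 4) (nat_lit 115) (nat_lit 144) (nat_lit 131))))) (PT.nd (nat_lit 234) (PT.nd (nat_lit 78) (PT.lf (nat_lit 10488) (nat_lit 6) (nat_lit 138) (nat_lit 4) (nat_lit 116) (nat_lit 144) (nat_lit 130)) (PT.nd (nat_lit 78) (PT.lf (nat_lit 10412) (nat_lit 6) (nat_lit 137) (nat_lit 4) (nat_lit 117) (nat_lit 144) (nat_lit 129)) (PT.lf (nat_lit 10336) (nat_lit 6) (nat_lit 136) (nat_lit 4) (nat_lit 118) (nat_lit 144) (nat_lit 128)))) (PT.nd (nat_lit 78) (PT.lf (nat_lit 10260) (nat_lit 6) (nat_lit 135) (nat_lit 4) (nat_lit 119) (nat_lit 144) (nat_lit 127)) (PT.nd (nat_lit 78) (PT.lf (nat_lit 10184) (nat_lit 6) (nat_lit 134) (nat_lit 4) (nat_lit 120) (nat_lit 144) (nat_lit 126)) (PT.lf (nat_lit 10108) (nat_lit 6) (nat_lit 133) (nat_lit 4) (nat_lit 121) (nat_lit 144) (nat_lit 125))))))) (PT.nd (nat_lit 780) (PT.nd (nat_lit 390) (PT.nd (nat_lit 156) (PT.nd (nat_lit 78)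 (PT.lf (nat_lit 10032) (nat_lit 6) (nat_lit 132) (nat_lit 4) (nat_lit 122) (nat_lit 144) (nat_lit 124)) (PT.lf (nat_lit 9956) (nat_lit 3) (nat_lit 131) (nat_lit 2) (nat_lit 123) (nat_lit 144) (nat_lit 123))) (PT.nd (nat_lit 78) (PT.lf (nat_lit 10032) (nat_lit 6) (nat_lit 132) (nat_lit 2) (nat_lit 124) (nat_lit 144) (nat_lit 122)) (PT.nd (nat_lit 78) (PT.lf (nat_lit 10108) (nat_lit 6) (nat_lit 133) (nat_lit 2) (nat_lit 125) (nat_lit 144) (nat_lit 121)) (PT.lf (nat_lit 10184) (nat_lit 6) (nat_lit 134) (nat_lit 2) (nat_lit 126) (nat_lit 144) (nat_lit 120))))) (PT.nd (nat_lit 156) (PT.nd (nat_lit 78) (PT.lf (nat_lit 10260) (nat_lit 6) (nat_lit 135) (nat_lit 2) (nat_lit 127) (nat_lit 144) (nat_lit 119)) (PT.lf (nat_lit 10336) (nat_lit 6) (nat_lit 136) (nat_lit 2) (nat_lit 128) (nat_lit 144) (nat_lit 118))) (PT.nd (nat_lit 78) (PT.lf (nat_lit 10412) (nat_lit 6) (nat_lit 137) (nat_lit 2) (nat_lit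 129) (nat_lit 144) (nat_lit 117)) (PT.nd (nat_lit 78) (PT.lf (nat_lit 10488) (nat_lit 6) (nat_lit 138) (nat_lit 2) (nat_lit 130) (nat_lit 144) (nat_lit 116)) (PT.lf (nat_lit 9424) (nat_lit 6) (nat_lit 124) (nat_lit 2) (nat_lit 131) (nat_lit 144) (nat_lit 115)))))) (PT.nd (nat_lit 390) (PT.nd (nat_lit 156) (PT.nd (nat_lit 78) (PT.lf (nat_lit 8892) (nat_lit 6) (nat_lit 117) (nat_lit 2) (nat_lit 132) (nat_lit 144) (nat_lit 114)) (PT.lf (nat_lit 8436) (nat_lit 6) (nat_lit 111) (nat_lit 2) (nat_lit 133) (nat_lit 144) (nat_lit 113))) (PT.nd (nat_lit 78) (PT.lf (nat_lit 7904) (nat_lit 6) (nat_lit 104) (nat_lit 2) (nat_lit 134) (nat_lit 144) (nat_lit 112)) (PT.nd (nat_lit 78) (PT.lf (nat_lit 7448) (nat_lit 6) (nat_lit 98) (nat_lit 2) (nat_lit 135) (nat_lit 144) (nat_lit 111)) (PT.lf (nat_lit 6992) (nat_lit 6) (nat_lit 92) (nat_lit 2) (nat_lit 136) (nat_lit 144) (nat_lit 110))))) (PT.nd (nat_lit 234)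 (PT.nd (nat_lit 78) (PT.lf (nat_lit 6612) (nat_lit 6) (nat_lit 87) (nat_lit 2) (nat_lit 137) (nat_lit 144) (nat_lit 109)) (PT.nd (nat_lit 78) (PT.lf (nat_lit 6232) (nat_lit 6) (nat_lit 82) (nat_lit 2) (nat_lit 138) (nat_lit 144) (nat_lit 108)) (PT.lf (nat_lit 5852) (nat_lit 6) (nat_lit 77) (nat_lit 2) (nat_lit 139) (nat_lit 144) (nat_lit 107)))) (PT.nd (nat_lit 78) (PT.lf (nat_lit 5472) (nat_lit 6) (nat_lit 72) (nat_lit 2) (nat_lit 140) (nat_lit 144) (nat_lit 106)) (PT.nd (nat_lit 78) (PT.lf (nat_lit 5168) (nat_lit 6) (nat_lit 68) (nat_lit 2) (nat_lit 141) (nat_lit 144) (nat_lit 105)) (PT.lf (nat_lit 4864) (nat_lit 6) (nat_lit 64) (nat_lit 2) (nat_lit 142) (nat_lit 144) (nat_lit 104))))))))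
noncomputable def pc27 : PT := (PT.nd (nat_lit 37986) (PT.nd (nat_lit 37128) (PT.nd (nat_lit 390) (PT.nd (nat_lit 156) (PT.nd (nat_lit 78) (PT.lf (nat_lit 4560) (nat_lit 6) (nat_lit 60) (nat_lit 2) (nat_lit 143) (nat_lit 144) (nat_lit 103)) (PT.lf (nat_lit 4256) (nat_lit 3) (nat_lit 56) (nat_lit 0) (nat_lit 144) (nat_lit 144) (nat_lit 102))) (PT.nd (nat_lit 78) (PT.lf (nat_lit 3952) (nat_lit 6) (nat_lit 52) (nat_lit 0) (nat_lit 145) (nat_lit 144) (nat_lit 101)) (PT.nd (nat_lit 78) (PT.lf (nat_lit 3572) (nat_lit 6) (nat_lit 47) (nat_lit 0) (nat_lit 146) (nat_lit 144) (nat_lit 100)) (PT.lf (nat_lit 3268) (nat_lit 6) (nat_lit 43) (nat_lit 0) (nat_lit 147) (nat_lit 144) (nat_lit 99))))) (PT.nd (nat_lit 36504) (PT.nd (nat_lit 78) (PT.lf (nat_lit 2964) (nat_lit 6) (nat_lit 39) (nat_lit 0) (nat_lit 148) (nat_lit 144) (nat_lit 98)) (PT.lf (nat_lit 2660) (nat_lit 6) (nat_lit 35) (nat_lit 0) (nat_lit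 149) (nat_lit 144) (nat_lit 97))) (PT.nd (nat_lit 78) (PT.lf (nat_lit 2204) (nat_lit 6) (nat_lit 29) (nat_lit 5) (nat_lit 95) (nat_lit 145) (nat_lit 150)) (PT.nd (nat_lit 78) (PT.lf (nat_lit 2432) (nat_lit 6) (nat_lit 32) (nat_lit 5) (nat_lit 96) (nat_lit 145) (nat_lit 149)) (PT.lf (nat_lit 2736) (nat_lit 6) (nat_lit 36) (nat_lit 5) (nat_lit 97) (nat_lit 145) (nat_lit 148)))))) (PT.nd (nat_lit 390) (PT.nd (nat_lit 156) (PT.nd (nat_lit 78) (PT.lf (nat_lit 3040) (nat_lit 6) (nat_lit 40) (nat_lit 5) (nat_lit 98) (nat_lit 145) (nat_lit 147)) (PT.lf (nat_lit 3344) (nat_lit 6) (nat_lit 44) (nat_lit 5) (nat_lit 99) (nat_lit 145) (nat_lit 146))) (PT.nd (nat_lit 78) (PT.lf (nat_lit 3648) (nat_lit 3) (nat_lit 48) (nat_lit 4) (nat_lit 100) (nat_lit 145) (nat_lit 145)) (PT.nd (nat_lit 78) (PT.lf (nat_lit 3952) (nat_lit 6) (nat_lit 52) (nat_lit 4) (nat_lit 101) (nat_lit 145) (nat_lit 144)) (PT.lf (nat_lit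 4180) (nat_lit 6) (nat_lit 55) (nat_lit 4) (nat_lit 102) (nat_lit 145) (nat_lit 143))))) (PT.nd (nat_lit 234) (PT.nd (nat_lit 78) (PT.lf (nat_lit 4484) (nat_lit 6) (nat_lit 59) (nat_lit 4) (nat_lit 103) (nat_lit 145) (nat_lit 142)) (PT.nd (nat_lit 78) (PT.lf (nat_lit 4788) (nat_lit 6) (nat_lit 63) (nat_lit 4) (nat_lit 104) (nat_lit 145) (nat_lit 141)) (PT.lf (nat_lit 5092) (nat_lit 6) (nat_lit 67) (nat_lit 4) (nat_lit 105) (nat_lit 145) (nat_lit 140)))) (PT.nd (nat_lit 78) (PT.lf (nat_lit 5396) (nat_lit 6) (nat_lit 71) (nat_lit 4) (nat_lit 106) (nat_lit 145) (nat_lit 139)) (PT.nd (nat_lit 78) (PT.lf (nat_lit 5776) (nat_lit 6) (nat_lit 76) (nat_lit 4) (nat_lit 107) (nat_lit 145) (nat_lit 138)) (PT.lf (nat_lit 6156) (nat_lit 6) (nat_lit 81) (nat_lit 4) (nat_lit 108) (nat_lit 145) (nat_lit 137))))))) (PT.nd (nat_lit 2262) (PT.nd (nat_lit 1794) (PT.nd (nat_lit 156) (PT.nd (nat_lit 78) (PT.lf (nat_lit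 6536) (nat_lit 6) (nat_lit 86) (nat_lit 4) (nat_lit 109) (nat_lit 145) (nat_lit 136)) (PT.lf (nat_lit 6916) (nat_lit 6) (nat_lit 91) (nat_lit 4) (nat_lit 110) (nat_lit 145) (nat_lit 135))) (PT.nd (nat_lit 78) (PT.lf (nat_lit 7372) (nat_lit 6) (nat_lit 97) (nat_lit 4) (nat_lit 111) (nat_lit 145) (nat_lit 134)) (PT.nd (nat_lit 78) (PT.lf (nat_lit 7828) (nat_lit 6) (nat_lit 103) (nat_lit 4) (nat_lit 112) (nat_lit 145) (nat_lit 133)) (PT.lf (nat_lit 8360) (nat_lit 6) (nat_lit 110) (nat_lit 4) (nat_lit 113) (nat_lit 145) (nat_lit 132))))) (PT.nd (nat_lit 234) (PT.nd (nat_lit 78) (PT.lf (nat_lit 8360) (nat_lit 6) (nat_lit 110) (nat_lit 2) (nat_lit 132) (nat_lit 145) (nat_lit 113)) (PT.nd (nat_lit 78) (PT.lf (nat_lit 7828) (nat_lit 6) (nat_lit 103) (nat_lit 2) (nat_lit 133) (nat_lit 145) (nat_lit 112)) (PT.lf (nat_lit 7372) (nat_lit 6) (nat_lit 97) (nat_lit 2) (nat_lit 134) (nat_lit 145) (nat_lit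 111)))) (PT.nd (nat_lit 78) (PT.lf (nat_lit 6916) (nat_lit 6) (nat_lit 91) (nat_lit 2) (nat_lit 135) (nat_lit 145) (nat_lit 110)) (PT.nd (nat_lit 78) (PT.lf (nat_lit 6536) (nat_lit 6) (nat_lit 86) (nat_lit 2) (nat_lit 136) (nat_lit 145) (nat_lit 109)) (PT.lf (nat_lit 6156) (nat_lit 6) (nat_lit 81) (nat_lit 2) (nat_lit 137) (nat_lit 145) (nat_lit 108)))))) (PT.nd (nat_lit 390) (PT.nd (nat_lit 156) (PT.nd (nat_lit 78) (PT.lf (nat_lit 5776) (nat_lit 6) (nat_lit 76) (nat_lit 2) (nat_lit 138) (nat_lit 145) (nat_lit 107)) (PT.lf (nat_lit 5396) (nat_lit 6) (nat_lit 71) (nat_lit 2) (nat_lit 139) (nat_lit 145) (nat_lit 106))) (PT.nd (nat_lit 78) (PT.lf (nat_lit 5092) (nat_lit 6) (nat_lit 67) (nat_lit 2) (nat_lit 140) (nat_lit 145) (nat_lit 105)) (PT.nd (nat_lit 78) (PT.lf (nat_lit 4788) (nat_lit 6) (nat_lit 63) (nat_lit 2) (nat_lit 141) (nat_lit 145) (nat_lit 104)) (PT.lf (nat_lit 4484) (nat_lit 6)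 (nat_lit 59) (nat_lit 2) (nat_lit 142) (nat_lit 145) (nat_lit 103))))) (PT.nd (nat_lit 234) (PT.nd (nat_lit 78) (PT.lf (nat_lit 4180) (nat_lit 6) (nat_lit 55) (nat_lit 2) (nat_lit 143) (nat_lit 145) (nat_lit 102)) (PT.nd (nat_lit 78) (PT.lf (nat_lit 3952) (nat_lit 6) (nat_lit 52) (nat_lit 2) (nat_lit 144) (nat_lit 145) (nat_lit 101)) (PT.lf (nat_lit 3648) (nat_lit 3) (nat_lit 48) (nat_lit 0) (nat_lit 145) (nat_lit 145) (nat_lit 100)))) (PT.nd (nat_lit 78) (PT.lf (nat_lit 3344) (nat_lit 6) (nat_lit 44) (nat_lit 0) (nat_lit 146) (nat_lit 145) (nat_lit 99)) (PT.nd (nat_lit 78) (PT.lf (nat_lit 3040) (nat_lit 6) (nat_lit 40) (nat_lit 0) (nat_lit 147) (nat_lit 145) (nat_lit 98)) (PT.lf (nat_lit 2736) (nat_lit 6) (nat_lit 36) (nat_lit 0) (nat_lit 148) (nat_lit 145) (nat_lit 97))))))))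
noncomputable def pc28 : PT := (PT.nd (nat_lit 39936) (PT.nd (nat_lit 36972) (PT.nd (nat_lit 36582) (PT.nd (nat_lit 36348) (PT.nd (nat_lit 78) (PT.lf (nat_lit 2432) (nat_lit 6) (nat_lit 32) (nat_lit 0) (nat_lit 149) (nat_lit 145) (nat_lit 96)) (PT.lf (nat_lit 2204) (nat_lit 6) (nat_lit 29) (nat_lit 0) (nat_lit 150) (nat_lit 145) (nat_lit 95))) (PT.nd (nat_lit 78) (PT.lf (nat_lit 1976) (nat_lit 6) (nat_lit 26) (nat_lit 5) (nat_lit 94) (nat_lit 146) (nat_lit 150)) (PT.nd (nat_lit 78) (PT.lf (nat_lit 2280) (nat_lit 6) (nat_lit 30) (nat_lit 5) (nat_lit 95) (nat_lit 146) (nat_lit 149)) (PT.lf (nat_lit 2508) (nat_lit 6) (nat_lit 33) (nat_lit 5) (nat_lit 96) (nat_lit 146) (nat_lit 148))))) (PT.nd (nat_lit 156) (PT.nd (nat_lit 78) (PT.lf (nat_lit 2812) (nat_lit 6) (nat_lit 37) (nat_lit 5) (nat_lit 97) (nat_lit 146) (nat_lit 147)) (PT.lf (nat_lit 3116) (nat_lit 3) (nat_lit 41) (nat_lit 4) (nat_lit 98)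 (nat_lit 146) (nat_lit 146))) (PT.nd (nat_lit 78) (PT.lf (nat_lit 3344) (nat_lit 6) (nat_lit 44) (nat_lit 4) (nat_lit 99) (nat_lit 146) (nat_lit 145)) (PT.nd (nat_lit 78) (PT.lf (nat_lit 3572) (nat_lit 6) (nat_lit 47) (nat_lit 4) (nat_lit 100) (nat_lit 146) (nat_lit 144)) (PT.lf (nat_lit 3876) (nat_lit 6) (nat_lit 51) (nat_lit 4) (nat_lit 101) (nat_lit 146) (nat_lit 143)))))) (PT.nd (nat_lit 390) (PT.nd (nat_lit 156) (PT.nd (nat_lit 78) (PT.lf (nat_lit 4104) (nat_lit 6) (nat_lit 54) (nat_lit 4) (nat_lit 102) (nat_lit 146) (nat_lit 142)) (PT.lf (nat_lit 4408) (nat_lit 6) (nat_lit 58) (nat_lit 4) (nat_lit 103) (nat_lit 146) (nat_lit 141))) (PT.nd (nat_lit 78) (PT.lf (nat_lit 4712) (nat_lit 6) (nat_lit 62) (nat_lit 4) (nat_lit 104) (nat_lit 146) (nat_lit 140)) (PT.nd (nat_lit 78) (PT.lf (nat_lit 5016) (nat_lit 6) (nat_lit 66) (nat_lit 4) (nat_lit 105) (nat_lit 146) (nat_lit 139)) (PT.lf (nat_lit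 5320) (nat_lit 6) (nat_lit 70) (nat_lit 4) (nat_lit 106) (nat_lit 146) (nat_lit 138))))) (PT.nd (nat_lit 2340) (PT.nd (nat_lit 78) (PT.lf (nat_lit 5700) (nat_lit 6) (nat_lit 75) (nat_lit 4) (nat_lit 107) (nat_lit 146) (nat_lit 137)) (PT.nd (nat_lit 2184) (PT.lf (nat_lit 6080) (nat_lit 6) (nat_lit 80) (nat_lit 4) (nat_lit 108) (nat_lit 146) (nat_lit 136)) (PT.lf (nat_lit 6080) (nat_lit 6) (nat_lit 80) (nat_lit 2) (nat_lit 136) (nat_lit 146) (nat_lit 108)))) (PT.nd (nat_lit 78) (PT.lf (nat_lit 5700) (nat_lit 6) (nat_lit 75) (nat_lit 2) (nat_lit 137) (nat_lit 146) (nat_lit 107)) (PT.nd (nat_lit 78) (PT.lf (nat_lit 5320) (nat_lit 6) (nat_lit 70) (nat_lit 2) (nat_lit 138) (nat_lit 146) (nat_lit 106)) (PT.lf (nat_lit 5016) (nat_lit 6) (nat_lit 66) (nat_lit 2) (nat_lit 139) (nat_lit 146) (nat_lit 105))))))) (PT.nd (nat_lit 780) (PT.nd (nat_lit 390) (PT.nd (nat_lit 156) (PT.nd (nat_lit 78) (PT.lf (nat_lit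 4712) (nat_lit 6) (nat_lit 62) (nat_lit 2) (nat_lit 140) (nat_lit 146) (nat_lit 104)) (PT.lf (nat_lit 4408) (nat_lit 6) (nat_lit 58) (nat_lit 2) (nat_lit 141) (nat_lit 146) (nat_lit 103))) (PT.nd (nat_lit 78) (PT.lf (nat_lit 4104) (nat_lit 6) (nat_lit 54) (nat_lit 2) (nat_lit 142) (nat_lit 146) (nat_lit 102)) (PT.nd (nat_lit 78) (PT.lf (nat_lit 3876) (nat_lit 6) (nat_lit 51) (nat_lit 2) (nat_lit 143) (nat_lit 146) (nat_lit 101)) (PT.lf (nat_lit 3572) (nat_lit 6) (nat_lit 47) (nat_lit 2) (nat_lit 144) (nat_lit 146) (nat_lit 100))))) (PT.nd (nat_lit 156) (PT.nd (nat_lit 78) (PT.lf (nat_lit 3344) (nat_lit 6) (nat_lit 44) (nat_lit 2) (nat_lit 145) (nat_lit 146) (nat_lit 99)) (PT.lf (nat_lit 3116) (nat_lit 3) (nat_lit 41) (nat_lit 0) (nat_lit 146) (nat_lit 146) (nat_lit 98))) (PT.nd (nat_lit 78) (PT.lf (nat_lit 2812) (nat_lit 6) (nat_lit 37) (nat_lit 0) (nat_lit 147) (nat_lit 146) (nat_lit 97))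 (PT.nd (nat_lit 78) (PT.lf (nat_lit 2508) (nat_lit 6) (nat_lit 33) (nat_lit 0) (nat_lit 148) (nat_lit 146) (nat_lit 96)) (PT.lf (nat_lit 2280) (nat_lit 6) (nat_lit 30) (nat_lit 0) (nat_lit 149) (nat_lit 146) (nat_lit 95)))))) (PT.nd (nat_lit 36426) (PT.nd (nat_lit 36192) (PT.nd (nat_lit 36114) (PT.lf (nat_lit 1976) (nat_lit 6) (nat_lit 26) (nat_lit 0) (nat_lit 150) (nat_lit 146) (nat_lit 94)) (PT.lf (nat_lit 1596) (nat_lit 6) (nat_lit 21) (nat_lit 5) (nat_lit 92) (nat_lit 147) (nat_lit 151))) (PT.nd (nat_lit 78) (PT.lf (nat_lit 1824) (nat_lit 6) (nat_lit 24) (nat_lit 5) (nat_lit 93) (nat_lit 147) (nat_lit 150)) (PT.nd (nat_lit 78) (PT.lf (nat_lit 2052) (nat_lit 6) (nat_lit 27) (nat_lit 5) (nat_lit 94) (nat_lit 147) (nat_lit 149)) (PT.lf (nat_lit 2356) (nat_lit 6) (nat_lit 31) (nat_lit 5) (nat_lit 95) (nat_lit 147) (nat_lit 148))))) (PT.nd (nat_lit 234) (PT.nd (nat_lit 78) (PT.lf (nat_lit 2584)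 (nat_lit 3) (nat_lit 34) (nat_lit 4) (nat_lit 96) (nat_lit 147) (nat_lit 147)) (PT.nd (nat_lit 78) (PT.lf (nat_lit 2812) (nat_lit 6) (nat_lit 37) (nat_lit 4) (nat_lit 97) (nat_lit 147) (nat_lit 146)) (PT.lf (nat_lit 3040) (nat_lit 6) (nat_lit 40) (nat_lit 4) (nat_lit 98) (nat_lit 147) (nat_lit 145)))) (PT.nd (nat_lit 78) (PT.lf (nat_lit 3268) (nat_lit 6) (nat_lit 43) (nat_lit 4) (nat_lit 99) (nat_lit 147) (nat_lit 144)) (PT.nd (nat_lit 78) (PT.lf (nat_lit 3496) (nat_lit 6) (nat_lit 46) (nat_lit 4) (nat_lit 100) (nat_lit 147) (nat_lit 143)) (PT.lf (nat_lit 3800) (nat_lit 6) (nat_lit 50) (nat_lit 4) (nat_lit 101) (nat_lit 147) (nat_lit 142))))))))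
noncomputable def pc29 : PT := (PT.nd (nat_lit 40170) (PT.nd (nat_lit 3432) (PT.nd (nat_lit 3042) (PT.nd (nat_lit 156) (PT.nd (nat_lit 78) (PT.lf (nat_lit 4028) (nat_lit 6) (nat_lit 53) (nat_lit 4) (nat_lit 102) (nat_lit 147) (nat_lit 141)) (PT.lf (nat_lit 4332) (nat_lit 6) (nat_lit 57) (nat_lit 4) (nat_lit 103) (nat_lit 147) (nat_lit 140))) (PT.nd (nat_lit 2730) (PT.lf (nat_lit 4636) (nat_lit 6) (nat_lit 61) (nat_lit 4) (nat_lit 104) (nat_lit 147) (nat_lit 139)) (PT.nd (nat_lit 78) (PT.lf (nat_lit 4636) (nat_lit 6) (nat_lit 61) (nat_lit 2) (nat_lit 139) (nat_lit 147) (nat_lit 104)) (PT.lf (nat_lit 4332) (nat_lit 6) (nat_lit 57) (nat_lit 2) (nat_lit 140) (nat_lit 147) (nat_lit 103))))) (PT.nd (nat_lit 156) (PT.nd (nat_lit 78) (PT.lf (nat_lit 4028) (nat_lit 6) (nat_lit 53) (nat_lit 2) (nat_lit 141) (nat_lit 147) (nat_lit 102)) (PT.lf (nat_lit 3800) (nat_lit 6) (nat_lit 50) (nat_lit 2) (nat_lit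 142) (nat_lit 147) (nat_lit 101))) (PT.nd (nat_lit 78) (PT.lf (nat_lit 3496) (nat_lit 6) (nat_lit 46) (nat_lit 2) (nat_lit 143) (nat_lit 147) (nat_lit 100)) (PT.nd (nat_lit 78) (PT.lf (nat_lit 3268) (nat_lit 6) (nat_lit 43) (nat_lit 2) (nat_lit 144) (nat_lit 147) (nat_lit 99)) (PT.lf (nat_lit 3040) (nat_lit 6) (nat_lit 40) (nat_lit 2) (nat_lit 145) (nat_lit 147) (nat_lit 98)))))) (PT.nd (nat_lit 390) (PT.nd (nat_lit 156) (PT.nd (nat_lit 78) (PT.lf (nat_lit 2812) (nat_lit 6) (nat_lit 37) (nat_lit 2) (nat_lit 146) (nat_lit 147) (nat_lit 97)) (PT.lf (nat_lit 2584) (nat_lit 3) (nat_lit 34) (nat_lit 0) (nat_lit 147) (nat_lit 147) (nat_lit 96))) (PT.nd (nat_lit 78) (PT.lf (nat_lit 2356) (nat_lit 6) (nat_lit 31) (nat_lit 0) (nat_lit 148) (nat_lit 147) (nat_lit 95)) (PT.nd (nat_lit 78) (PT.lf (nat_lit 2052) (nat_lit 6) (nat_lit 27) (nat_lit 0) (nat_lit 149) (nat_lit 147) (nat_lit 94)) (PT.lf (nat_lit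 1824) (nat_lit 6) (nat_lit 24) (nat_lit 0) (nat_lit 150) (nat_lit 147) (nat_lit 93))))) (PT.nd (nat_lit 36114) (PT.nd (nat_lit 35958) (PT.lf (nat_lit 1596) (nat_lit 6) (nat_lit 21) (nat_lit 0) (nat_lit 151) (nat_lit 147) (nat_lit 92)) (PT.nd (nat_lit 78) (PT.lf (nat_lit 1444) (nat_lit 6) (nat_lit 19) (nat_lit 5) (nat_lit 91) (nat_lit 148) (nat_lit 151)) (PT.lf (nat_lit 1672) (nat_lit 6) (nat_lit 22) (nat_lit 5) (nat_lit 92) (nat_lit 148) (nat_lit 150)))) (PT.nd (nat_lit 78) (PT.lf (nat_lit 1900) (nat_lit 6) (nat_lit 25) (nat_lit 5) (nat_lit 93) (nat_lit 148) (nat_lit 149)) (PT.nd (nat_lit 78) (PT.lf (nat_lit 2128) (nat_lit 3) (nat_lit 28) (nat_lit 4) (nat_lit 94) (nat_lit 148) (nat_lit 148)) (PT.lf (nat_lit 2356) (nat_lit 6) (nat_lit 31) (nat_lit 4) (nat_lit 95) (nat_lit 148) (nat_lit 147))))))) (PT.nd (nat_lit 3900) (PT.nd (nat_lit 390) (PT.nd (nat_lit 156) (PT.nd (nat_lit 78) (PT.lf (nat_lit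 2508) (nat_lit 6) (nat_lit 33) (nat_lit 4) (nat_lit 96) (nat_lit 148) (nat_lit 146)) (PT.lf (nat_lit 2736) (nat_lit 6) (nat_lit 36) (nat_lit 4) (nat_lit 97) (nat_lit 148) (nat_lit 145))) (PT.nd (nat_lit 78) (PT.lf (nat_lit 2964) (nat_lit 6) (nat_lit 39) (nat_lit 4) (nat_lit 98) (nat_lit 148) (nat_lit 144)) (PT.nd (nat_lit 78) (PT.lf (nat_lit 3192) (nat_lit 6) (nat_lit 42) (nat_lit 4) (nat_lit 99) (nat_lit 148) (nat_lit 143)) (PT.lf (nat_lit 3420) (nat_lit 6) (nat_lit 45) (nat_lit 4) (nat_lit 100) (nat_lit 148) (nat_lit 142))))) (PT.nd (nat_lit 3276) (PT.nd (nat_lit 3120) (PT.lf (nat_lit 3724) (nat_lit 6) (nat_lit 49) (nat_lit 4) (nat_lit 101) (nat_lit 148) (nat_lit 141)) (PT.nd (nat_lit 78) (PT.lf (nat_lit 3724) (nat_lit 6) (nat_lit 49) (nat_lit 2) (nat_lit 141) (nat_lit 148) (nat_lit 101)) (PT.lf (nat_lit 3420) (nat_lit 6) (nat_lit 45) (nat_lit 2) (nat_lit 142) (nat_lit 148) (nat_lit 100))))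 (PT.nd (nat_lit 78) (PT.lf (nat_lit 3192) (nat_lit 6) (nat_lit 42) (nat_lit 2) (nat_lit 143) (nat_lit 148) (nat_lit 99)) (PT.nd (nat_lit 78) (PT.lf (nat_lit 2964) (nat_lit 6) (nat_lit 39) (nat_lit 2) (nat_lit 144) (nat_lit 148) (nat_lit 98)) (PT.lf (nat_lit 2736) (nat_lit 6) (nat_lit 36) (nat_lit 2) (nat_lit 145) (nat_lit 148) (nat_lit 97)))))) (PT.nd (nat_lit 390) (PT.nd (nat_lit 156) (PT.nd (nat_lit 78) (PT.lf (nat_lit 2508) (nat_lit 6) (nat_lit 33) (nat_lit 2) (nat_lit 146) (nat_lit 148) (nat_lit 96)) (PT.lf (nat_lit 2356) (nat_lit 6) (nat_lit 31) (nat_lit 2) (nat_lit 147) (nat_lit 148) (nat_lit 95))) (PT.nd (nat_lit 78) (PT.lf (nat_lit 2128) (nat_lit 3) (nat_lit 28) (nat_lit 0) (nat_lit 148) (nat_lit 148) (nat_lit 94)) (PT.nd (nat_lit 78) (PT.lf (nat_lit 1900) (nat_lit 6) (nat_lit 25) (nat_lit 0) (nat_lit 149) (nat_lit 148) (nat_lit 93)) (PT.lf (nat_lit 1672) (nat_lit 6) (nat_lit 22) (nat_lit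 0) (nat_lit 150) (nat_lit 148) (nat_lit 92))))) (PT.nd (nat_lit 35958) (PT.nd (nat_lit 35802) (PT.lf (nat_lit 1444) (nat_lit 6) (nat_lit 19) (nat_lit 0) (nat_lit 151) (nat_lit 148) (nat_lit 91)) (PT.nd (nat_lit 78) (PT.lf (nat_lit 1140) (nat_lit 6) (nat_lit 15) (nat_lit 5) (nat_lit 89) (nat_lit 149) (nat_lit 152)) (PT.lf (nat_lit 1292) (nat_lit 6) (nat_lit 17) (nat_lit 5) (nat_lit 90) (nat_lit 149) (nat_lit 151)))) (PT.nd (nat_lit 78) (PT.lf (nat_lit 1520) (nat_lit 6) (nat_lit 20) (nat_lit 5) (nat_lit 91) (nat_lit 149) (nat_lit 150)) (PT.nd (nat_lit 78) (PT.lf (nat_lit 1748) (nat_lit 3) (nat_lit 23) (nat_lit 4) (nat_lit 92) (nat_lit 149) (nat_lit 149)) (PT.lf (nat_lit 1900) (nat_lit 6) (nat_lit 25) (nat_lit 4) (nat_lit 93) (nat_lit 149) (nat_lit 148))))))))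
noncomputable def pc30 : PT := (PT.nd (nat_lit 40560) (PT.nd (nat_lit 4212) (PT.nd (nat_lit 3822) (PT.nd (nat_lit 156) (PT.nd (nat_lit 78) (PT.lf (nat_lit 2052) (nat_lit 6) (nat_lit 27) (nat_lit 4) (nat_lit 94) (nat_lit 149) (nat_lit 147)) (PT.lf (nat_lit 2280) (nat_lit 6) (nat_lit 30) (nat_lit 4) (nat_lit 95) (nat_lit 149) (nat_lit 146))) (PT.nd (nat_lit 78) (PT.lf (nat_lit 2432) (nat_lit 6) (nat_lit 32) (nat_lit 4) (nat_lit 96) (nat_lit 149) (nat_lit 145)) (PT.nd (nat_lit 78) (PT.lf (nat_lit 2660) (nat_lit 6) (nat_lit 35) (nat_lit 4) (nat_lit 97) (nat_lit 149) (nat_lit 144)) (PT.lf (nat_lit 2888) (nat_lit 6) (nat_lit 38) (nat_lit 4) (nat_lit 98) (nat_lit 149) (nat_lit 143))))) (PT.nd (nat_lit 156) (PT.nd (nat_lit 78) (PT.lf (nat_lit 2888) (nat_lit 6) (nat_lit 38) (nat_lit 2) (nat_lit 143) (nat_lit 149) (nat_lit 98)) (PT.lf (nat_lit 2660) (nat_lit 6) (nat_lit 35) (nat_lit 2) (nat_lit 144)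 (nat_lit 149) (nat_lit 97))) (PT.nd (nat_lit 78) (PT.lf (nat_lit 2432) (nat_lit 6) (nat_lit 32) (nat_lit 2) (nat_lit 145) (nat_lit 149) (nat_lit 96)) (PT.nd (nat_lit 78) (PT.lf (nat_lit 2280) (nat_lit 6) (nat_lit 30) (nat_lit 2) (nat_lit 146) (nat_lit 149) (nat_lit 95)) (PT.lf (nat_lit 2052) (nat_lit 6) (nat_lit 27) (nat_lit 2) (nat_lit 147) (nat_lit 149) (nat_lit 94)))))) (PT.nd (nat_lit 35880) (PT.nd (nat_lit 156) (PT.nd (nat_lit 78) (PT.lf (nat_lit 1900) (nat_lit 6) (nat_lit 25) (nat_lit 2) (nat_lit 148) (nat_lit 149) (nat_lit 93)) (PT.lf (nat_lit 1748) (nat_lit 3) (nat_lit 23) (nat_lit 0) (nat_lit 149) (nat_lit 149) (nat_lit 92))) (PT.nd (nat_lit 78) (PT.lf (nat_lit 1520) (nat_lit 6) (nat_lit 20) (nat_lit 0) (nat_lit 150) (nat_lit 149) (nat_lit 91)) (PT.nd (nat_lit 78) (PT.lf (nat_lit 1292) (nat_lit 6) (nat_lit 17) (nat_lit 0) (nat_lit 151) (nat_lit 149) (nat_lit 90)) (PT.lf (nat_lit 1140)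 (nat_lit 6) (nat_lit 15) (nat_lit 0) (nat_lit 152) (nat_lit 149) (nat_lit 89))))) (PT.nd (nat_lit 234) (PT.nd (nat_lit 78) (PT.lf (nat_lit 836) (nat_lit 6) (nat_lit 11) (nat_lit 5) (nat_lit 87) (nat_lit 150) (nat_lit 153)) (PT.nd (nat_lit 78) (PT.lf (nat_lit 988) (nat_lit 6) (nat_lit 13) (nat_lit 5) (nat_lit 88) (nat_lit 150) (nat_lit 152)) (PT.lf (nat_lit 1216) (nat_lit 6) (nat_lit 16) (nat_lit 5) (nat_lit 89) (nat_lit 150) (nat_lit 151)))) (PT.nd (nat_lit 78) (PT.lf (nat_lit 1368) (nat_lit 3) (nat_lit 18) (nat_lit 4) (nat_lit 90) (nat_lit 150) (nat_lit 150)) (PT.nd (nat_lit 78) (PT.lf (nat_lit 1520) (nat_lit 6) (nat_lit 20) (nat_lit 4) (nat_lit 91) (nat_lit 150) (nat_lit 149)) (PT.lf (nat_lit 1672) (nat_lit 6) (nat_lit 22) (nat_lit 4) (nat_lit 92) (nat_lit 150) (nat_lit 148))))))) (PT.nd (nat_lit 4602) (PT.nd (nat_lit 4212) (PT.nd (nat_lit 156) (PT.nd (nat_lit 78) (PT.lf (nat_lit 1824) (nat_lit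 6) (nat_lit 24) (nat_lit 4) (nat_lit 93) (nat_lit 150) (nat_lit 147)) (PT.lf (nat_lit 1976) (nat_lit 6) (nat_lit 26) (nat_lit 4) (nat_lit 94) (nat_lit 150) (nat_lit 146))) (PT.nd (nat_lit 3900) (PT.lf (nat_lit 2204) (nat_lit 6) (nat_lit 29) (nat_lit 4) (nat_lit 95) (nat_lit 150) (nat_lit 145)) (PT.nd (nat_lit 78) (PT.lf (nat_lit 2204) (nat_lit 6) (nat_lit 29) (nat_lit 2) (nat_lit 145) (nat_lit 150) (nat_lit 95)) (PT.lf (nat_lit 1976) (nat_lit 6) (nat_lit 26) (nat_lit 2) (nat_lit 146) (nat_lit 150) (nat_lit 94))))) (PT.nd (nat_lit 156) (PT.nd (nat_lit 78) (PT.lf (nat_lit 1824) (nat_lit 6) (nat_lit 24) (nat_lit 2) (nat_lit 147) (nat_lit 150) (nat_lit 93)) (PT.lf (nat_lit 1672) (nat_lit 6) (nat_lit 22) (nat_lit 2) (nat_lit 148) (nat_lit 150) (nat_lit 92))) (PT.nd (nat_lit 78) (PT.lf (nat_lit 1520) (nat_lit 6) (nat_lit 20) (nat_lit 2) (nat_lit 149) (nat_lit 150) (nat_lit 91)) (PT.nd (nat_lit 78)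 (PT.lf (nat_lit 1368) (nat_lit 3) (nat_lit 18) (nat_lit 0) (nat_lit 150) (nat_lit 150) (nat_lit 90)) (PT.lf (nat_lit 1216) (nat_lit 6) (nat_lit 16) (nat_lit 0) (nat_lit 151) (nat_lit 150) (nat_lit 89)))))) (PT.nd (nat_lit 35724) (PT.nd (nat_lit 35490) (PT.nd (nat_lit 78) (PT.lf (nat_lit 988) (nat_lit 6) (nat_lit 13) (nat_lit 0) (nat_lit 152) (nat_lit 150) (nat_lit 88)) (PT.lf (nat_lit 836) (nat_lit 6) (nat_lit 11) (nat_lit 0) (nat_lit 153) (nat_lit 150) (nat_lit 87))) (PT.nd (nat_lit 78) (PT.lf (nat_lit 684) (nat_lit 6) (nat_lit 9) (nat_lit 5) (nat_lit 86) (nat_lit 151) (nat_lit 153)) (PT.nd (nat_lit 78) (PT.lf (nat_lit 912) (nat_lit 6) (nat_lit 12) (nat_lit 5) (nat_lit 87) (nat_lit 151) (nat_lit 152)) (PT.lf (nat_lit 1064) (nat_lit 3) (nat_lit 14) (nat_lit 4) (nat_lit 88) (nat_lit 151) (nat_lit 151))))) (PT.nd (nat_lit 234) (PT.nd (nat_lit 78) (PT.lf (nat_lit 1216) (nat_lit 6) (nat_lit 16)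 (nat_lit 4) (nat_lit 89) (nat_lit 151) (nat_lit 150)) (PT.nd (nat_lit 78) (PT.lf (nat_lit 1292) (nat_lit 6) (nat_lit 17) (nat_lit 4) (nat_lit 90) (nat_lit 151) (nat_lit 149)) (PT.lf (nat_lit 1444) (nat_lit 6) (nat_lit 19) (nat_lit 4) (nat_lit 91) (nat_lit 151) (nat_lit 148)))) (PT.nd (nat_lit 4290) (PT.lf (nat_lit 1596) (nat_lit 6) (nat_lit 21) (nat_lit 4) (nat_lit 92) (nat_lit 151) (nat_lit 147)) (PT.nd (nat_lit 78) (PT.lf (nat_lit 1596) (nat_lit 6) (nat_lit 21) (nat_lit 2) (nat_lit 147) (nat_lit 151) (nat_lit 92)) (PT.lf (nat_lit 1444) (nat_lit 6) (nat_lit 19) (nat_lit 2) (nat_lit 148) (nat_lit 151) (nat_lit 91))))))))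
noncomputable def pc31 : PT := (PT.nd (nat_lit 76362) (PT.nd (nat_lit 35958) (PT.nd (nat_lit 35568) (PT.nd (nat_lit 156) (PT.nd (nat_lit 78) (PT.lf (nat_lit 1292) (nat_lit 6) (nat_lit 17) (nat_lit 2) (nat_lit 149) (nat_lit 151) (nat_lit 90)) (PT.lf (nat_lit 1216) (nat_lit 6) (nat_lit 16) (nat_lit 2) (nat_lit 150) (nat_lit 151) (nat_lit 89))) (PT.nd (nat_lit 78) (PT.lf (nat_lit 1064) (nat_lit 3) (nat_lit 14) (nat_lit 0) (nat_lit 151) (nat_lit 151) (nat_lit 88)) (PT.nd (nat_lit 78) (PT.lf (nat_lit 912) (nat_lit 6) (nat_lit 12) (nat_lit 0) (nat_lit 152) (nat_lit 151) (nat_lit 87)) (PT.lf (nat_lit 684) (nat_lit 6) (nat_lit 9) (nat_lit 0) (nat_lit 153) (nat_lit 151) (nat_lit 86))))) (PT.nd (nat_lit 156) (PT.nd (nat_lit 78) (PT.lf (nat_lit 456) (nat_lit 6) (nat_lit 6) (nat_lit 5) (nat_lit 84) (nat_lit 152) (nat_lit 154)) (PT.lf (nat_lit 608) (nat_lit 6) (nat_lit 8) (nat_lit 5) (nat_lit 85) (nat_lit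 152) (nat_lit 153))) (PT.nd (nat_lit 78) (PT.lf (nat_lit 760) (nat_lit 3) (nat_lit 10) (nat_lit 4) (nat_lit 86) (nat_lit 152) (nat_lit 152)) (PT.nd (nat_lit 78) (PT.lf (nat_lit 912) (nat_lit 6) (nat_lit 12) (nat_lit 4) (nat_lit 87) (nat_lit 152) (nat_lit 151)) (PT.lf (nat_lit 988) (nat_lit 6) (nat_lit 13) (nat_lit 4) (nat_lit 88) (nat_lit 152) (nat_lit 150)))))) (PT.nd (nat_lit 4992) (PT.nd (nat_lit 4758) (PT.nd (nat_lit 4680) (PT.lf (nat_lit 1140) (nat_lit 6) (nat_lit 15) (nat_lit 4) (nat_lit 89) (nat_lit 152) (nat_lit 149)) (PT.lf (nat_lit 1140) (nat_lit 6) (nat_lit 15) (nat_lit 2) (nat_lit 149) (nat_lit 152) (nat_lit 89))) (PT.nd (nat_lit 78) (PT.lf (nat_lit 988) (nat_lit 6) (nat_lit 13) (nat_lit 2) (nat_lit 150) (nat_lit 152) (nat_lit 88)) (PT.nd (nat_lit 78) (PT.lf (nat_lit 912) (nat_lit 6) (nat_lit 12) (nat_lit 2) (nat_lit 151) (nat_lit 152) (nat_lit 87)) (PT.lf (nat_lit 760) (nat_lit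 3) (nat_lit 10) (nat_lit 0) (nat_lit 152) (nat_lit 152) (nat_lit 86))))) (PT.nd (nat_lit 35178) (PT.nd (nat_lit 78) (PT.lf (nat_lit 608) (nat_lit 6) (nat_lit 8) (nat_lit 0) (nat_lit 153) (nat_lit 152) (nat_lit 85)) (PT.nd (nat_lit 35022) (PT.lf (nat_lit 456) (nat_lit 6) (nat_lit 6) (nat_lit 0) (nat_lit 154) (nat_lit 152) (nat_lit 84)) (PT.lf (nat_lit 228) (nat_lit 6) (nat_lit 3) (nat_lit 5) (nat_lit 82) (nat_lit 153) (nat_lit 155)))) (PT.nd (nat_lit 78) (PT.lf (nat_lit 380) (nat_lit 6) (nat_lit 5) (nat_lit 5) (nat_lit 83) (nat_lit 153) (nat_lit 154)) (PT.nd (nat_lit 78) (PT.lf (nat_lit 532) (nat_lit 3) (nat_lit 7) (nat_lit 4) (nat_lit 84) (nat_lit 153) (nat_lit 153)) (PT.lf (nat_lit 608) (nat_lit 6) (nat_lit 8) (nat_lit 4) (nat_lit 85) (nat_lit 153) (nat_lit 152))))))) (PT.nd (nat_lit 40482) (PT.nd (nat_lit 5226) (PT.nd (nat_lit 4992) (PT.nd (nat_lit 78) (PT.lf (nat_lit 684) (nat_lit 6) (nat_lit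 9) (nat_lit 4) (nat_lit 86) (nat_lit 153) (nat_lit 151)) (PT.lf (nat_lit 836) (nat_lit 6) (nat_lit 11) (nat_lit 4) (nat_lit 87) (nat_lit 153) (nat_lit 150))) (PT.nd (nat_lit 78) (PT.lf (nat_lit 836) (nat_lit 6) (nat_lit 11) (nat_lit 2) (nat_lit 150) (nat_lit 153) (nat_lit 87)) (PT.nd (nat_lit 78) (PT.lf (nat_lit 684) (nat_lit 6) (nat_lit 9) (nat_lit 2) (nat_lit 151) (nat_lit 153) (nat_lit 86)) (PT.lf (nat_lit 608) (nat_lit 6) (nat_lit 8) (nat_lit 2) (nat_lit 152) (nat_lit 153) (nat_lit 85))))) (PT.nd (nat_lit 35022) (PT.nd (nat_lit 78) (PT.lf (nat_lit 532) (nat_lit 3) (nat_lit 7) (nat_lit 0) (nat_lit 153) (nat_lit 153) (nat_lit 84)) (PT.nd (nat_lit 78) (PT.lf (nat_lit 380) (nat_lit 6) (nat_lit 5) (nat_lit 0) (nat_lit 154) (nat_lit 153) (nat_lit 83)) (PT.lf (nat_lit 228) (nat_lit 6) (nat_lit 3) (nat_lit 0) (nat_lit 155) (nat_lit 153) (nat_lit 82)))) (PT.nd (nat_lit 78) (PT.lf (nat_lit 152) (nat_lit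 6) (nat_lit 2) (nat_lit 5) (nat_lit 81) (nat_lit 154) (nat_lit 155)) (PT.nd (nat_lit 78) (PT.lf (nat_lit 304) (nat_lit 3) (nat_lit 4) (nat_lit 4) (nat_lit 82) (nat_lit 154) (nat_lit 154)) (PT.lf (nat_lit 380) (nat_lit 6) (nat_lit 5) (nat_lit 4) (nat_lit 83) (nat_lit 154) (nat_lit 153)))))) (PT.nd (nat_lit 40326) (PT.nd (nat_lit 5382) (PT.nd (nat_lit 5304) (PT.lf (nat_lit 456) (nat_lit 6) (nat_lit 6) (nat_lit 4) (nat_lit 84) (nat_lit 154) (nat_lit 152)) (PT.lf (nat_lit 456) (nat_lit 6) (nat_lit 6) (nat_lit 2) (nat_lit 152) (nat_lit 154) (nat_lit 84))) (PT.nd (nat_lit 78) (PT.lf (nat_lit 380) (nat_lit 6) (nat_lit 5) (nat_lit 2) (nat_lit 153) (nat_lit 154) (nat_lit 83)) (PT.nd (nat_lit 78) (PT.lf (nat_lit 304) (nat_lit 3) (nat_lit 4) (nat_lit 0) (nat_lit 154) (nat_lit 154) (nat_lit 82)) (PT.lf (nat_lit 152) (nat_lit 6) (nat_lit 2) (nat_lit 0) (nat_lit 155) (nat_lit 154) (nat_lit 81))))) (PT.nd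 (nat_lit 5694) (PT.nd (nat_lit 78) (PT.lf (nat_lit 76) (nat_lit 3) (nat_lit 1) (nat_lit 4) (nat_lit 80) (nat_lit 155) (nat_lit 155)) (PT.nd (nat_lit 78) (PT.lf (nat_lit 152) (nat_lit 6) (nat_lit 2) (nat_lit 4) (nat_lit 81) (nat_lit 155) (nat_lit 154)) (PT.lf (nat_lit 228) (nat_lit 6) (nat_lit 3) (nat_lit 4) (nat_lit 82) (nat_lit 155) (nat_lit 153)))) (PT.nd (nat_lit 78) (PT.lf (nat_lit 228) (nat_lit 6) (nat_lit 3) (nat_lit 2) (nat_lit 153) (nat_lit 155) (nat_lit 82)) (PT.nd (nat_lit 78) (PT.lf (nat_lit 152) (nat_lit 6) (nat_lit 2) (nat_lit 2) (nat_lit 154) (nat_lit 155) (nat_lit 81)) (PT.lf (nat_lit 76) (nat_lit 3) (nat_lit 1) (nat_lit 0) (nat_lit 155) (nat_lit 155) (nat_lit 80))))))))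
noncomputable def xc0 : XT := (XT.nd (nat_lit 121992) (nat_lit 0) (nat_lit 0) (XT.nd (nat_lit 81198) (nat_lit 0) (nat_lit 0) (XT.nd (nat_lit 40638) (nat_lit 0) (nat_lit 0) (XT.nd (nat_lit 40404) (nat_lit 0) (nat_lit 0) (XT.nd (nat_lit 78) (nat_lit 0) (nat_lit 0) (XT.lf (nat_lit 0) (nat_lit 25637397900) (nat_lit 152) (nat_lit 45195961360) (nat_lit 0) (nat_lit 25474181399) (nat_lit 2) (nat_lit 5) (nat_lit 4) (nat_lit 4) (nat_lit 2) (nat_lit 4) (nat_lit 401) (nat_lit 190) (nat_lit 189)) (XT.lf (nat_lit 0) (nat_lit 27955086687) (nat_lit 152) (nat_lit 43554906358) (nat_lit 0) (nat_lit 27633407563) (nat_lit 2) (nat_lit 5) (nat_lit 4) (nat_lit 4) (nat_lit 2) (nat_lit 4) (nat_lit 402) (nat_lit 190) (nat_lit 188))) (XT.nd (nat_lit 78) (nat_lit 0) (nat_lit 0) (XT.lf (nat_lit 0) (nat_lit 9535085866) (nat_lit 152) (nat_lit 25075615794) (nat_lit 0) (nat_lit 9535085866) (nat_lit 2) (nat_lit 5) (nat_lit 4)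 (nat_lit 4) (nat_lit 2) (nat_lit 4) (nat_lit 398) (nat_lit 191) (nat_lit 191)) (XT.nd (nat_lit 78) (nat_lit 0) (nat_lit 0) (XT.lf (nat_lit 0) (nat_lit 21272139193) (nat_lit 152) (nat_lit 48508106637) (nat_lit 0) (nat_lit 21104026197) (nat_lit 2) (nat_lit 5) (nat_lit 4) (nat_lit 4) (nat_lit 2) (nat_lit 4) (nat_lit 399) (nat_lit 191) (nat_lit 190)) (XT.lf (nat_lit 0) (nat_lit 23505327224) (nat_lit 152) (nat_lit 46876507978) (nat_lit 0) (nat_lit 23173997727) (nat_lit 2) (nat_lit 5) (nat_lit 4) (nat_lit 4) (nat_lit 2) (nat_lit 4) (nat_lit 400) (nat_lit 191) (nat_lit 189))))) (XT.nd (nat_lit 40326) (nat_lit 0) (nat_lit 0) (XT.nd (nat_lit 78) (nat_lit 0) (nat_lit 0) (XT.lf (nat_lit 0) (nat_lit 25771687155) (nat_lit 152) (nat_lit 45255009945) (nat_lit 0) (nat_lit 25281895035) (nat_lit 2) (nat_lit 5) (nat_lit 4) (nat_lit 4) (nat_lit 2) (nat_lit 4) (nat_lit 401) (nat_lit 191) (nat_lit 188)) (XT.nd (nat_lit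 40170) (nat_lit 0) (nat_lit 0) (XT.lf (nat_lit 0) (nat_lit 28073199299) (nat_lit 152) (nat_lit 43642195694) (nat_lit 0) (nat_lit 27429559973) (nat_lit 2) (nat_lit 5) (nat_lit 4) (nat_lit 4) (nat_lit 2) (nat_lit 4) (nat_lit 402) (nat_lit 191) (nat_lit 187)) (XT.lf (nat_lit 0) (nat_lit 7471795631) (nat_lit 152) (nat_lit 26723014724) (nat_lit 0) (nat_lit 7471795631) (nat_lit 2) (nat_lit 5) (nat_lit 4) (nat_lit 4) (nat_lit 2) (nat_lit 4) (nat_lit 396) (nat_lit 192) (nat_lit 192)))) (XT.nd (nat_lit 78) (nat_lit 0) (nat_lit 0) (XT.lf (nat_lit 0) (nat_lit 17070657178) (nat_lit 152) (nat_lit 51807318575) (nat_lit 0) (nat_lit 16897500792) (nat_lit 2) (nat_lit 5) (nat_lit 4) (nat_lit 4) (nat_lit 2) (nat_lit 4) (nat_lit 397) (nat_lit 192) (nat_lit 191)) (XT.nd (nat_lit 78) (nat_lit 0) (nat_lit 0) (XT.lf (nat_lit 0) (nat_lit 19225651464) (nat_lit 152) (nat_lit 50182091019) (nat_lit 0) (nat_lit 18884382082)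 (nat_lit 2) (nat_lit 5) (nat_lit 4) (nat_lit 4) (nat_lit 2) (nat_lit 4) (nat_lit 398) (nat_lit 192) (nat_lit 190)) (XT.lf (nat_lit 0) (nat_lit 21410457126) (nat_lit 152) (nat_lit 48568926679) (nat_lit 0) (nat_lit 20905971242) (nat_lit 2) (nat_lit 5) (nat_lit 4) (nat_lit 4) (nat_lit 2) (nat_lit 4) (nat_lit 399) (nat_lit 192) (nat_lit 189)))))) (XT.nd (nat_lit 40326) (nat_lit 0) (nat_lit 0) (XT.nd (nat_lit 156) (nat_lit 0) (nat_lit 0) (XT.nd (nat_lit 78) (nat_lit 0) (nat_lit 0) (XT.lf (nat_lit 0) (nat_lit 23626983215) (nat_lit 152) (nat_lit 46966415993) (nat_lit 0) (nat_lit 22964034709) (nat_lit 2) (nat_lit 5) (nat_lit 4) (nat_lit 4) (nat_lit 2) (nat_lit 4) (nat_lit 400) (nat_lit 192) (nat_lit 188)) (XT.lf (nat_lit 0) (nat_lit 25877166503) (nat_lit 152) (nat_lit 45373158710) (nat_lit 0) (nat_lit 25060370791) (nat_lit 2) (nat_lit 5) (nat_lit 4) (nat_lit 4) (nat_lit 2) (nat_lit 4) (nat_lit 401)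 (nat_lit 192) (nat_lit 187))) (XT.nd (nat_lit 40014) (nat_lit 0) (nat_lit 0) (XT.lf (nat_lit 0) (nat_lit 28162973170) (nat_lit 152) (nat_lit 43787762663) (nat_lit 0) (nat_lit 27196811238) (nat_lit 2) (nat_lit 5) (nat_lit 4) (nat_lit 4) (nat_lit 2) (nat_lit 4) (nat_lit 402) (nat_lit 192) (nat_lit 186)) (XT.nd (nat_lit 78) (nat_lit 0) (nat_lit 0) (XT.lf (nat_lit 0) (nat_lit 5481468577) (nat_lit 152) (nat_lit 28368451472) (nat_lit 0) (nat_lit 5481468577) (nat_lit 2) (nat_lit 5) (nat_lit 4) (nat_lit 4) (nat_lit 2) (nat_lit 4) (nat_lit 394) (nat_lit 193) (nat_lit 193)) (XT.lf (nat_lit 0) (nat_lit 13020946192) (nat_lit 152) (nat_lit 55099655523) (nat_lit 0) (nat_lit 12842595114) (nat_lit 2) (nat_lit 5) (nat_lit 4) (nat_lit 4) (nat_lit 2) (nat_lit 4) (nat_lit 395) (nat_lit 193) (nat_lit 192))))) (XT.nd (nat_lit 234) (nat_lit 0) (nat_lit 0) (XT.nd (nat_lit 78) (nat_lit 0) (nat_lit 0) (XT.lf (nat_lit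 0) (nat_lit 15103735386) (nat_lit 152) (nat_lit 53477814662) (nat_lit 0) (nat_lit 14752227922) (nat_lit 2) (nat_lit 5) (nat_lit 4) (nat_lit 4) (nat_lit 2) (nat_lit 4) (nat_lit 396) (nat_lit 193) (nat_lit 191)) (XT.nd (nat_lit 78) (nat_lit 0) (nat_lit 0) (XT.lf (nat_lit 0) (nat_lit 17213124648) (nat_lit 152) (nat_lit 51869963219) (nat_lit 0) (nat_lit 16693504188) (nat_lit 2) (nat_lit 5) (nat_lit 4) (nat_lit 4) (nat_lit 2) (nat_lit 4) (nat_lit 397) (nat_lit 193) (nat_lit 190)) (XT.lf (nat_lit 0) (nat_lit 19350957135) (nat_lit 152) (nat_lit 50274696275) (nat_lit 0) (nat_lit 18668120174) (nat_lit 2) (nat_lit 5) (nat_lit 4) (nat_lit 4) (nat_lit 2) (nat_lit 4) (nat_lit 398) (nat_lit 193) (nat_lit 189)))) (XT.nd (nat_lit 78) (nat_lit 0) (nat_lit 0) (XT.lf (nat_lit 0) (nat_lit 21519100854) (nat_lit 152) (nat_lit 48690619908) (nat_lit 0) (nat_lit 20677801271) (nat_lit 2) (nat_lit 5) (nat_lit 4) (nat_lit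 4) (nat_lit 2) (nat_lit 4) (nat_lit 399) (nat_lit 193) (nat_lit 188)) (XT.nd (nat_lit 78) (nat_lit 0) (nat_lit 0) (XT.lf (nat_lit 0) (nat_lit 23719450302) (nat_lit 152) (nat_lit 47116349972) (nat_lit 0) (nat_lit 22724303512) (nat_lit 2) (nat_lit 5) (nat_lit 4) (nat_lit 4) (nat_lit 2) (nat_lit 4) (nat_lit 400) (nat_lit 193) (nat_lit 187)) (XT.lf (nat_lit 0) (nat_lit 25953928112) (nat_lit 152) (nat_lit 45550510893) (nat_lit 0) (nat_lit 24809415102) (nat_lit 2) (nat_lit 5) (nat_lit 4) (nat_lit 4) (nat_lit 2) (nat_lit 4) (nat_lit 401) (nat_lit 193) (nat_lit 186))))))) (XT.nd (nat_lit 40638) (nat_lit 0) (nat_lit 0) (XT.nd (nat_lit 40170) (nat_lit 0) (nat_lit 0) (XT.nd (nat_lit 39936) (nat_lit 0) (nat_lit 0) (XT.nd (nat_lit 39858) (nat_lit 0) (nat_lit 0) (XT.lf (nat_lit 0) (nat_lit 28224486741) (nat_lit 152) (nat_lit 43991734462) (nat_lit 0) (nat_lit 26934957984) (nat_lit 2) (nat_lit 5) (nat_lit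 4) (nat_lit 4) (nat_lit 2) (nat_lit 4) (nat_lit 402) (nat_lit 193) (nat_lit 185)) (XT.lf (nat_lit 0) (nat_lit 3558551975) (nat_lit 152) (nat_lit 30014816833) (nat_lit 0) (nat_lit 3558551975) (nat_lit 2) (nat_lit 5) (nat_lit 4) (nat_lit 4) (nat_lit 2) (nat_lit 4) (nat_lit 392) (nat_lit 194) (nat_lit 194))) (XT.nd (nat_lit 78) (nat_lit 0) (nat_lit 0) (XT.lf (nat_lit 0) (nat_lit 9111611621) (nat_lit 152) (nat_lit 58390987531) (nat_lit 0) (nat_lit 8927910011) (nat_lit 2) (nat_lit 5) (nat_lit 4) (nat_lit 4) (nat_lit 2) (nat_lit 4) (nat_lit 393) (nat_lit 194) (nat_lit 193)) (XT.nd (nat_lit 78) (nat_lit 0) (nat_lit 0) (XT.lf (nat_lit 0) (nat_lit 11127885602) (nat_lit 152) (nat_lit 56769641714) (nat_lit 0) (nat_lit 10765832914) (nat_lit 2) (nat_lit 5) (nat_lit 4) (nat_lit 4) (nat_lit 2) (nat_lit 4) (nat_lit 394) (nat_lit 194) (nat_lit 192)) (XT.lf (nat_lit 0) (nat_lit 13167687687) (nat_lit 152) (nat_lit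 55164179506) (nat_lit 0) (nat_lit 12632478613) (nat_lit 2) (nat_lit 5) (nat_lit 4) (nat_lit 4) (nat_lit 2) (nat_lit 4) (nat_lit 395) (nat_lit 194) (nat_lit 191))))) (XT.nd (nat_lit 234) (nat_lit 0) (nat_lit 0) (XT.nd (nat_lit 78) (nat_lit 0) (nat_lit 0) (XT.lf (nat_lit 0) (nat_lit 15232800227) (nat_lit 152) (nat_lit 53573198076) (nat_lit 0) (nat_lit 14529478157) (nat_lit 2) (nat_lit 5) (nat_lit 4) (nat_lit 4) (nat_lit 2) (nat_lit 4) (nat_lit 396) (nat_lit 194) (nat_lit 190)) (XT.nd (nat_lit 78) (nat_lit 0) (nat_lit 0) (XT.lf (nat_lit 0) (nat_lit 17325027689) (nat_lit 152) (nat_lit 51995307244) (nat_lit 0) (nat_lit 16458489118) (nat_lit 2) (nat_lit 5) (nat_lit 4) (nat_lit 4) (nat_lit 2) (nat_lit 4) (nat_lit 397) (nat_lit 194) (nat_lit 189)) (XT.lf (nat_lit 0) (nat_lit 19446198234) (nat_lit 152) (nat_lit 50429128273) (nat_lit 0) (nat_lit 18421197040) (nat_lit 2) (nat_lit 5) (nat_lit 4) (nat_lit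 4) (nat_lit 2) (nat_lit 4) (nat_lit 398) (nat_lit 194) (nat_lit 188)))) (XT.nd (nat_lit 78) (nat_lit 0) (nat_lit 0) (XT.lf (nat_lit 0) (nat_lit 21598165311) (nat_lit 152) (nat_lit 48873292656) (nat_lit 0) (nat_lit 20419316911) (nat_lit 2) (nat_lit 5) (nat_lit 4) (nat_lit 4) (nat_lit 2) (nat_lit 4) (nat_lit 399) (nat_lit 194) (nat_lit 187)) (XT.nd (nat_lit 78) (nat_lit 0) (nat_lit 0) (XT.lf (nat_lit 0) (nat_lit 23782809280) (nat_lit 152) (nat_lit 47326440925) (nat_lit 0) (nat_lit 22454594661) (nat_lit 2) (nat_lit 5) (nat_lit 4) (nat_lit 4) (nat_lit 2) (nat_lit 4) (nat_lit 400) (nat_lit 194) (nat_lit 186)) (XT.lf (nat_lit 0) (nat_lit 26002039053) (nat_lit 152) (nat_lit 45787221462) (nat_lit 0) (nat_lit 24528808687) (nat_lit 2) (nat_lit 5) (nat_lit 4) (nat_lit 4) (nat_lit 2) (nat_lit 4) (nat_lit 401) (nat_lit 194) (nat_lit 185)))))) (XT.nd (nat_lit 40014) (nat_lit 0) (nat_lit 0) (XT.nd (nat_lit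 39780) (nat_lit 0) (nat_lit 0) (XT.nd (nat_lit 39702) (nat_lit 0) (nat_lit 0) (XT.lf (nat_lit 0) (nat_lit 28257793764) (nat_lit 152) (nat_lit 44254289318) (nat_lit 0) (nat_lit 26643771409) (nat_lit 2) (nat_lit 5) (nat_lit 4) (nat_lit 4) (nat_lit 2) (nat_lit 4) (nat_lit 402) (nat_lit 194) (nat_lit 184)) (XT.lf (nat_lit 0) (nat_lit 1697770917) (nat_lit 152) (nat_lit 31664919002) (nat_lit 0) (nat_lit 1697770917) (nat_lit 2) (nat_lit 5) (nat_lit 4) (nat_lit 4) (nat_lit 2) (nat_lit 4) (nat_lit 390) (nat_lit 195) (nat_lit 195))) (XT.nd (nat_lit 78) (nat_lit 0) (nat_lit 0) (XT.lf (nat_lit 0) (nat_lit 5331832476) (nat_lit 152) (nat_lit 61687011946) (nat_lit 0) (nat_lit 5142619818) (nat_lit 2) (nat_lit 5) (nat_lit 4) (nat_lit 4) (nat_lit 2) (nat_lit 4) (nat_lit 391) (nat_lit 195) (nat_lit 194)) (XT.nd (nat_lit 78) (nat_lit 0) (nat_lit 0) (XT.lf (nat_lit 0) (nat_lit 7287000852) (nat_lit 152) (nat_lit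 60063354599) (nat_lit 0) (nat_lit 6914086584) (nat_lit 2) (nat_lit 5) (nat_lit 4) (nat_lit 4) (nat_lit 2) (nat_lit 4) (nat_lit 392) (nat_lit 195) (nat_lit 193)) (XT.lf (nat_lit 0) (nat_lit 9262755360) (nat_lit 152) (nat_lit 58457447233) (nat_lit 0) (nat_lit 8711490014) (nat_lit 2) (nat_lit 5) (nat_lit 4) (nat_lit 4) (nat_lit 2) (nat_lit 4) (nat_lit 393) (nat_lit 195) (nat_lit 192))))) (XT.nd (nat_lit 234) (nat_lit 0) (nat_lit 0) (XT.nd (nat_lit 78) (nat_lit 0) (nat_lit 0) (XT.lf (nat_lit 0) (nat_lit 11260822387) (nat_lit 152) (nat_lit 56867886630) (nat_lit 0) (nat_lit 10536400655) (nat_lit 2) (nat_lit 5) (nat_lit 4) (nat_lit 4) (nat_lit 2) (nat_lit 4) (nat_lit 394) (nat_lit 195) (nat_lit 191)) (XT.nd (nat_lit 78) (nat_lit 0) (nat_lit 0) (XT.lf (nat_lit 0) (nat_lit 13282947818) (nat_lit 152) (nat_lit 55293283852) (nat_lit 0) (nat_lit 12390413090) (nat_lit 2) (nat_lit 5) (nat_lit 4) (nat_lit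 4) (nat_lit 2) (nat_lit 4) (nat_lit 395) (nat_lit 195) (nat_lit 190)) (XT.lf (nat_lit 0) (nat_lit 15330898559) (nat_lit 152) (nat_lit 53732263034) (nat_lit 0) (nat_lit 14275147329) (nat_lit 2) (nat_lit 5) (nat_lit 4) (nat_lit 4) (nat_lit 2) (nat_lit 4) (nat_lit 396) (nat_lit 195) (nat_lit 189)))) (XT.nd (nat_lit 78) (nat_lit 0) (nat_lit 0) (XT.lf (nat_lit 0) (nat_lit 17406464079) (nat_lit 152) (nat_lit 52183460176) (nat_lit 0) (nat_lit 16192250228) (nat_lit 2) (nat_lit 5) (nat_lit 4) (nat_lit 4) (nat_lit 2) (nat_lit 4) (nat_lit 397) (nat_lit 195) (nat_lit 188)) (XT.nd (nat_lit 78) (nat_lit 0) (nat_lit 0) (XT.lf (nat_lit 0) (nat_lit 19511457982) (nat_lit 152) (nat_lit 50645521955) (nat_lit 0) (nat_lit 18143396924) (nat_lit 2) (nat_lit 5) (nat_lit 4) (nat_lit 4) (nat_lit 2) (nat_lit 4) (nat_lit 398) (nat_lit 195) (nat_lit 187)) (XT.lf (nat_lit 0) (nat_lit 21647719581) (nat_lit 152) (nat_lit 49117104542)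 (nat_lit 0) (nat_lit 20130292303) (nat_lit 2) (nat_lit 5) (nat_lit 4) (nat_lit 4) (nat_lit 2) (nat_lit 4) (nat_lit 399) (nat_lit 195) (nat_lit 186))))))))
noncomputable def xc1 : XT := (XT.nd (nat_lit 80496) (nat_lit 0) (nat_lit 0) (XT.nd (nat_lit 40326) (nat_lit 0) (nat_lit 0) (XT.nd (nat_lit 39858) (nat_lit 0) (nat_lit 0) (XT.nd (nat_lit 156) (nat_lit 0) (nat_lit 0) (XT.nd (nat_lit 78) (nat_lit 0) (nat_lit 0) (XT.lf (nat_lit 0) (nat_lit 23817115513) (nat_lit 152) (nat_lit 47596872426) (nat_lit 0) (nat_lit 22154672488) (nat_lit 2) (nat_lit 5) (nat_lit 4) (nat_lit 4) (nat_lit 2) (nat_lit 4) (nat_lit 400) (nat_lit 195) (nat_lit 185)) (XT.lf (nat_lit 0) (nat_lit 26021541367) (nat_lit 152) (nat_lit 46083497250) (nat_lit 0) (nat_lit 24218306354) (nat_lit 2) (nat_lit 5) (nat_lit 4) (nat_lit 4) (nat_lit 2) (nat_lit 4) (nat_lit 401) (nat_lit 195) (nat_lit 184))) (XT.nd (nat_lit 39546) (nat_lit 0)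 (nat_lit 0) (XT.lf (nat_lit 0) (nat_lit 28262923340) (nat_lit 152) (nat_lit 44575656647) (nat_lit 0) (nat_lit 26322997077) (nat_lit 2) (nat_lit 5) (nat_lit 4) (nat_lit 4) (nat_lit 2) (nat_lit 4) (nat_lit 402) (nat_lit 195) (nat_lit 183)) (XT.nd (nat_lit 78) (nat_lit 152) (nat_lit 0) (XT.lf (nat_lit 0) (nat_lit 32899888851) (nat_lit 76) (nat_lit 104850739) (nat_lit 76) (nat_lit 104850739) (nat_lit 4) (nat_lit 4) (nat_lit 5) (nat_lit 5) (nat_lit 5) (nat_lit 4) (nat_lit 388) (nat_lit 196) (nat_lit 196)) (XT.lf (nat_lit 0) (nat_lit 1671326057) (nat_lit 152) (nat_lit 64993268255) (nat_lit 0) (nat_lit 1476437019) (nat_lit 2) (nat_lit 5) (nat_lit 4) (nat_lit 4) (nat_lit 2) (nat_lit 4) (nat_lit 389) (nat_lit 196) (nat_lit 195))))) (XT.nd (nat_lit 234) (nat_lit 0) (nat_lit 0) (XT.nd (nat_lit 78) (nat_lit 0) (nat_lit 0) (XT.lf (nat_lit 0) (nat_lit 3570535642) (nat_lit 152) (nat_lit 63364570566) (nat_lit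 0) (nat_lit 3186433946) (nat_lit 2) (nat_lit 5) (nat_lit 4) (nat_lit 4) (nat_lit 2) (nat_lit 4) (nat_lit 390) (nat_lit 196) (nat_lit 194)) (XT.nd (nat_lit 78) (nat_lit 0) (nat_lit 0) (XT.lf (nat_lit 0) (nat_lit 5487510528) (nat_lit 152) (nat_lit 61755465440) (nat_lit 0) (nat_lit 4919707222) (nat_lit 2) (nat_lit 5) (nat_lit 4) (nat_lit 4) (nat_lit 2) (nat_lit 4) (nat_lit 391) (nat_lit 196) (nat_lit 193)) (XT.lf (nat_lit 0) (nat_lit 7423925741) (nat_lit 152) (nat_lit 60164546862) (nat_lit 0) (nat_lit 6677771357) (nat_lit 2) (nat_lit 5) (nat_lit 4) (nat_lit 4) (nat_lit 2) (nat_lit 4) (nat_lit 392) (nat_lit 196) (nat_lit 192)))) (XT.nd (nat_lit 78) (nat_lit 0) (nat_lit 0) (XT.lf (nat_lit 0) (nat_lit 9381473296) (nat_lit 152) (nat_lit 58590424710) (nat_lit 0) (nat_lit 8462162526) (nat_lit 2) (nat_lit 5) (nat_lit 4) (nat_lit 4) (nat_lit 2) (nat_lit 4) (nat_lit 393) (nat_lit 196) (nat_lit 191)) (XT.nd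 (nat_lit 78) (nat_lit 0) (nat_lit 0) (XT.lf (nat_lit 0) (nat_lit 11361863669) (nat_lit 152) (nat_lit 57031723537) (nat_lit 0) (nat_lit 10274439903) (nat_lit 2) (nat_lit 5) (nat_lit 4) (nat_lit 4) (nat_lit 2) (nat_lit 4) (nat_lit 394) (nat_lit 196) (nat_lit 190)) (XT.lf (nat_lit 0) (nat_lit 13366827300) (nat_lit 152) (nat_lit 55487081371) (nat_lit 0) (nat_lit 12116187033) (nat_lit 2) (nat_lit 5) (nat_lit 4) (nat_lit 4) (nat_lit 2) (nat_lit 4) (nat_lit 395) (nat_lit 196) (nat_lit 189)))))) (XT.nd (nat_lit 390) (nat_lit 0) (nat_lit 0) (XT.nd (nat_lit 156) (nat_lit 0) (nat_lit 0) (XT.nd (nat_lit 78) (nat_lit 0) (nat_lit 0) (XT.lf (nat_lit 0) (nat_lit 15398116099) (nat_lit 152) (nat_lit 53955148526) (nat_lit 0) (nat_lit 13989013209) (nat_lit 2) (nat_lit 5) (nat_lit 4) (nat_lit 4) (nat_lit 2) (nat_lit 4) (nat_lit 396) (nat_lit 196) (nat_lit 188)) (XT.lf (nat_lit 0) (nat_lit 17457504977) (nat_lit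 152) (nat_lit 52434586418) (nat_lit 0) (nat_lit 15894554881) (nat_lit 2) (nat_lit 5) (nat_lit 4) (nat_lit 4) (nat_lit 2) (nat_lit 4) (nat_lit 397) (nat_lit 196) (nat_lit 187))) (XT.nd (nat_lit 78) (nat_lit 0) (nat_lit 0) (XT.lf (nat_lit 0) (nat_lit 19546793402) (nat_lit 152) (nat_lit 50924066401) (nat_lit 0) (nat_lit 17834477086) (nat_lit 2) (nat_lit 5) (nat_lit 4) (nat_lit 4) (nat_lit 2) (nat_lit 4) (nat_lit 398) (nat_lit 196) (nat_lit 186)) (XT.nd (nat_lit 78) (nat_lit 0) (nat_lit 0) (XT.lf (nat_lit 0) (nat_lit 21667806964) (nat_lit 152) (nat_lit 49422268604) (nat_lit 0) (nat_lit 19810474901) (nat_lit 2) (nat_lit 5) (nat_lit 4) (nat_lit 4) (nat_lit 2) (nat_lit 4) (nat_lit 399) (nat_lit 196) (nat_lit 185)) (XT.lf (nat_lit 0) (nat_lit 23822398977) (nat_lit 152) (nat_lit 47927880776) (nat_lit 0) (nat_lit 21824274926) (nat_lit 2) (nat_lit 5) (nat_lit 4) (nat_lit 4) (nat_lit 2) (nat_lit 4) (nat_lit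 400) (nat_lit 196) (nat_lit 184))))) (XT.nd (nat_lit 39546) (nat_lit 0) (nat_lit 0) (XT.nd (nat_lit 78) (nat_lit 0) (nat_lit 0) (XT.lf (nat_lit 0) (nat_lit 26012452094) (nat_lit 152) (nat_lit 46439597141) (nat_lit 0) (nat_lit 23877636793) (nat_lit 2) (nat_lit 5) (nat_lit 4) (nat_lit 4) (nat_lit 2) (nat_lit 4) (nat_lit 401) (nat_lit 196) (nat_lit 183)) (XT.nd (nat_lit 39390) (nat_lit 0) (nat_lit 152) (XT.lf (nat_lit 0) (nat_lit 28239879953) (nat_lit 152) (nat_lit 44956117257) (nat_lit 0) (nat_lit 25972354701) (nat_lit 2) (nat_lit 5) (nat_lit 4) (nat_lit 4) (nat_lit 2) (nat_lit 4) (nat_lit 402) (nat_lit 196) (nat_lit 182)) (XT.lf (nat_lit 0) (nat_lit 27592670300) (nat_lit 76) (nat_lit 1838989405) (nat_lit 76) (nat_lit 1838989405) (nat_lit 4) (nat_lit 4) (nat_lit 5) (nat_lit 5) (nat_lit 5) (nat_lit 4) (nat_lit 386) (nat_lit 197) (nat_lit 197)))) (XT.nd (nat_lit 78) (nat_lit 152) (nat_lit 0) (XT.lf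 (nat_lit 0) (nat_lit 60431468060) (nat_lit 76) (nat_lit 2064019899) (nat_lit 76) (nat_lit 1857262119) (nat_lit 4) (nat_lit 4) (nat_lit 5) (nat_lit 5) (nat_lit 5) (nat_lit 4) (nat_lit 387) (nat_lit 197) (nat_lit 196)) (XT.nd (nat_lit 78) (nat_lit 152) (nat_lit 0) (XT.lf (nat_lit 0) (nat_lit 65765601353) (nat_lit 76) (nat_lit 430844731) (nat_lit 76) (nat_lit 23351241) (nat_lit 4) (nat_lit 4) (nat_lit 5) (nat_lit 5) (nat_lit 5) (nat_lit 4) (nat_lit 388) (nat_lit 197) (nat_lit 195)) (XT.lf (nat_lit 0) (nat_lit 1831674450) (nat_lit 152) (nat_lit 65063775354) (nat_lit 0) (nat_lit 1246837044) (nat_lit 2) (nat_lit 5) (nat_lit 4) (nat_lit 4) (nat_lit 2) (nat_lit 4) (nat_lit 389) (nat_lit 197) (nat_lit 194))))))) (XT.nd (nat_lit 858) (nat_lit 0) (nat_lit 0) (XT.nd (nat_lit 390) (nat_lit 0) (nat_lit 0) (XT.nd (nat_lit 156) (nat_lit 0) (nat_lit 0) (XT.nd (nat_lit 78) (nat_lit 0) (nat_lit 0) (XT.lf (nat_lit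 0) (nat_lit 3711568278) (nat_lit 152) (nat_lit 63468798597) (nat_lit 0) (nat_lit 2943029262) (nat_lit 2) (nat_lit 5) (nat_lit 4) (nat_lit 4) (nat_lit 2) (nat_lit 4) (nat_lit 390) (nat_lit 197) (nat_lit 193)) (XT.lf (nat_lit 0) (nat_lit 5609790002) (nat_lit 152) (nat_lit 61892432241) (nat_lit 0) (nat_lit 4662899909) (nat_lit 2) (nat_lit 5) (nat_lit 4) (nat_lit 4) (nat_lit 2) (nat_lit 4) (nat_lit 391) (nat_lit 197) (nat_lit 192))) (XT.nd (nat_lit 78) (nat_lit 0) (nat_lit 0) (XT.lf (nat_lit 0) (nat_lit 7527998262) (nat_lit 152) (nat_lit 60333298876) (nat_lit 0) (nat_lit 6407951783) (nat_lit 2) (nat_lit 5) (nat_lit 4) (nat_lit 4) (nat_lit 2) (nat_lit 4) (nat_lit 392) (nat_lit 197) (nat_lit 191)) (XT.nd (nat_lit 78) (nat_lit 0) (nat_lit 0) (XT.lf (nat_lit 0) (nat_lit 9467869162) (nat_lit 152) (nat_lit 58790036155) (nat_lit 0) (nat_lit 8179709687) (nat_lit 2) (nat_lit 5) (nat_lit 4) (nat_lit 4) (nat_lit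 2) (nat_lit 4) (nat_lit 393) (nat_lit 197) (nat_lit 190)) (XT.lf (nat_lit 0) (nat_lit 11431097736) (nat_lit 152) (nat_lit 57261295594) (nat_lit 0) (nat_lit 9979721760) (nat_lit 2) (nat_lit 5) (nat_lit 4) (nat_lit 4) (nat_lit 2) (nat_lit 4) (nat_lit 394) (nat_lit 197) (nat_lit 189))))) (XT.nd (nat_lit 234) (nat_lit 0) (nat_lit 0) (XT.nd (nat_lit 78) (nat_lit 0) (nat_lit 0) (XT.lf (nat_lit 0) (nat_lit 13419399425) (nat_lit 152) (nat_lit 55745741401) (nat_lit 0) (nat_lit 11809560827) (nat_lit 2) (nat_lit 5) (nat_lit 4) (nat_lit 4) (nat_lit 2) (nat_lit 4) (nat_lit 395) (nat_lit 197) (nat_lit 188)) (XT.nd (nat_lit 78) (nat_lit 0) (nat_lit 0) (XT.lf (nat_lit 0) (nat_lit 15434511582) (nat_lit 152) (nat_lit 54242049305) (nat_lit 0) (nat_lit 13670825776) (nat_lit 2) (nat_lit 5) (nat_lit 4) (nat_lit 4) (nat_lit 2) (nat_lit 4) (nat_lit 396) (nat_lit 197) (nat_lit 187)) (XT.lf (nat_lit 0) (nat_lit 17478194982)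 (nat_lit 152) (nat_lit 52748905402) (nat_lit 0) (nat_lit 15565142957) (nat_lit 2) (nat_lit 5) (nat_lit 4) (nat_lit 4) (nat_lit 2) (nat_lit 4) (nat_lit 397) (nat_lit 197) (nat_lit 186)))) (XT.nd (nat_lit 78) (nat_lit 0) (nat_lit 0) (XT.lf (nat_lit 0) (nat_lit 19552235370) (nat_lit 152) (nat_lit 51265005001) (nat_lit 0) (nat_lit 17494167597) (nat_lit 2) (nat_lit 5) (nat_lit 4) (nat_lit 4) (nat_lit 2) (nat_lit 4) (nat_lit 398) (nat_lit 197) (nat_lit 185)) (XT.nd (nat_lit 78) (nat_lit 0) (nat_lit 0) (XT.lf (nat_lit 0) (nat_lit 21658445013) (nat_lit 152) (nat_lit 49789051491) (nat_lit 0) (nat_lit 19459585253) (nat_lit 2) (nat_lit 5) (nat_lit 4) (nat_lit 4) (nat_lit 2) (nat_lit 4) (nat_lit 399) (nat_lit 197) (nat_lit 184)) (XT.lf (nat_lit 0) (nat_lit 23798664288) (nat_lit 152) (nat_lit 48319755203) (nat_lit 0) (nat_lit 21463113278) (nat_lit 2) (nat_lit 5) (nat_lit 4) (nat_lit 4) (nat_lit 2) (nat_lit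 4) (nat_lit 400) (nat_lit 197) (nat_lit 183)))))) (XT.nd (nat_lit 39546) (nat_lit 0) (nat_lit 0) (XT.nd (nat_lit 39312) (nat_lit 0) (nat_lit 152) (XT.nd (nat_lit 78) (nat_lit 0) (nat_lit 0) (XT.lf (nat_lit 0) (nat_lit 25974763291) (nat_lit 152) (nat_lit 46855832288) (nat_lit 0) (nat_lit 23506502330) (nat_lit 2) (nat_lit 5) (nat_lit 4) (nat_lit 4) (nat_lit 2) (nat_lit 4) (nat_lit 401) (nat_lit 197) (nat_lit 182)) (XT.lf (nat_lit 0) (nat_lit 28188643467) (nat_lit 152) (nat_lit 45396003588) (nat_lit 0) (nat_lit 25591537892) (nat_lit 2) (nat_lit 5) (nat_lit 4) (nat_lit 4) (nat_lit 2) (nat_lit 4) (nat_lit 402) (nat_lit 197) (nat_lit 181))) (XT.nd (nat_lit 78) (nat_lit 0) (nat_lit 0) (XT.lf (nat_lit 0) (nat_lit 22487548895) (nat_lit 76) (nat_lit 3525786143) (nat_lit 76) (nat_lit 3525786143) (nat_lit 4) (nat_lit 4) (nat_lit 5) (nat_lit 5) (nat_lit 5) (nat_lit 4) (nat_lit 384) (nat_lit 198) (nat_lit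 198)) (XT.nd (nat_lit 78) (nat_lit 0) (nat_lit 0) (XT.lf (nat_lit 0) (nat_lit 50022634982) (nat_lit 76) (nat_lit 5487092232) (nat_lit 76) (nat_lit 5274131718) (nat_lit 4) (nat_lit 4) (nat_lit 5) (nat_lit 5) (nat_lit 5) (nat_lit 4) (nat_lit 385) (nat_lit 198) (nat_lit 197)) (XT.lf (nat_lit 0) (nat_lit 55150138961) (nat_lit 76) (nat_lit 3905756360) (nat_lit 76) (nat_lit 3486038066) (nat_lit 4) (nat_lit 4) (nat_lit 5) (nat_lit 5) (nat_lit 5) (nat_lit 4) (nat_lit 386) (nat_lit 198) (nat_lit 196))))) (XT.nd (nat_lit 234) (nat_lit 0) (nat_lit 0) (XT.nd (nat_lit 78) (nat_lit 152) (nat_lit 0) (XT.lf (nat_lit 0) (nat_lit 60362090071) (nat_lit 76) (nat_lit 2306182922) (nat_lit 76) (nat_lit 1685728919) (nat_lit 4) (nat_lit 4) (nat_lit 5) (nat_lit 5) (nat_lit 5) (nat_lit 4) (nat_lit 387) (nat_lit 198) (nat_lit 195)) (XT.nd (nat_lit 78) (nat_lit 76) (nat_lit 0) (XT.lf (nat_lit 0) (nat_lit 125863870) (nat_lit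 152) (nat_lit 559839384) (nat_lit 76) (nat_lit 65535907594) (nat_lit 3) (nat_lit 5) (nat_lit 5) (nat_lit 5) (nat_lit 4) (nat_lit 4) (nat_lit 388) (nat_lit 198) (nat_lit 194)) (XT.lf (nat_lit 0) (nat_lit 1957622308) (nat_lit 152) (nat_lit 65204851159) (nat_lit 0) (nat_lit 982325512) (nat_lit 2) (nat_lit 5) (nat_lit 4) (nat_lit 4) (nat_lit 2) (nat_lit 4) (nat_lit 389) (nat_lit 198) (nat_lit 193)))) (XT.nd (nat_lit 78) (nat_lit 0) (nat_lit 0) (XT.lf (nat_lit 0) (nat_lit 3818762974) (nat_lit 152) (nat_lit 63642613172) (nat_lit 0) (nat_lit 2665115100) (nat_lit 2) (nat_lit 5) (nat_lit 4) (nat_lit 4) (nat_lit 2) (nat_lit 4) (nat_lit 390) (nat_lit 198) (nat_lit 192)) (XT.nd (nat_lit 78) (nat_lit 0) (nat_lit 0) (XT.lf (nat_lit 0) (nat_lit 5698777744) (nat_lit 152) (nat_lit 62098032028) (nat_lit 0) (nat_lit 4371973485) (nat_lit 2) (nat_lit 5) (nat_lit 4) (nat_lit 4) (nat_lit 2) (nat_lit 4) (nat_lit 391)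 (nat_lit 198) (nat_lit 191)) (XT.lf (nat_lit 0) (nat_lit 7599309350) (nat_lit 152) (nat_lit 60569758094) (nat_lit 0) (nat_lit 6104392095) (nat_lit 2) (nat_lit 5) (nat_lit 4) (nat_lit 4) (nat_lit 2) (nat_lit 4) (nat_lit 392) (nat_lit 198) (nat_lit 190))))))))
noncomputable def xc2 : XT := (XT.nd (nat_lit 40716) (nat_lit 0) (nat_lit 0) (XT.nd (nat_lit 39858) (nat_lit 0) (nat_lit 0) (XT.nd (nat_lit 390) (nat_lit 0) (nat_lit 0) (XT.nd (nat_lit 156) (nat_lit 0) (nat_lit 0) (XT.nd (nat_lit 78) (nat_lit 0) (nat_lit 0) (XT.lf (nat_lit 0) (nat_lit 9522018451) (nat_lit 152) (nat_lit 59056455985) (nat_lit 0) (nat_lit 7863884694) (nat_lit 2) (nat_lit 5) (nat_lit 4) (nat_lit 4) (nat_lit 2) (nat_lit 4) (nat_lit 393) (nat_lit 198) (nat_lit 189)) (XT.lf (nat_lit 0) (nat_lit 11468585083) (nat_lit 152) (nat_lit 57556803397) (nat_lit 0) (nat_lit 9651988704) (nat_lit 2) (nat_lit 5) (nat_lit 4) (nat_lit 4) (nat_lit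 2) (nat_lit 4) (nat_lit 394) (nat_lit 198) (nat_lit 188))) (XT.nd (nat_lit 78) (nat_lit 0) (nat_lit 0) (XT.lf (nat_lit 0) (nat_lit 13440710130) (nat_lit 152) (nat_lit 56069489954) (nat_lit 0) (nat_lit 11470266545) (nat_lit 2) (nat_lit 5) (nat_lit 4) (nat_lit 4) (nat_lit 2) (nat_lit 4) (nat_lit 395) (nat_lit 198) (nat_lit 187)) (XT.nd (nat_lit 78) (nat_lit 0) (nat_lit 0) (XT.lf (nat_lit 0) (nat_lit 15440116808) (nat_lit 152) (nat_lit 54593216063) (nat_lit 0) (nat_lit 13320307003) (nat_lit 2) (nat_lit 5) (nat_lit 4) (nat_lit 4) (nat_lit 2) (nat_lit 4) (nat_lit 396) (nat_lit 198) (nat_lit 186)) (XT.lf (nat_lit 0) (nat_lit 17468552172) (nat_lit 152) (nat_lit 53126691775) (nat_lit 0) (nat_lit 15203726619) (nat_lit 2) (nat_lit 5) (nat_lit 4) (nat_lit 4) (nat_lit 2) (nat_lit 4) (nat_lit 397) (nat_lit 198) (nat_lit 185))))) (XT.nd (nat_lit 234) (nat_lit 0) (nat_lit 0) (XT.nd (nat_lit 78) (nat_lit 0)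 (nat_lit 0) (XT.lf (nat_lit 0) (nat_lit 19527788640) (nat_lit 152) (nat_lit 51668635661) (nat_lit 0) (nat_lit 17122171100) (nat_lit 2) (nat_lit 5) (nat_lit 4) (nat_lit 4) (nat_lit 2) (nat_lit 4) (nat_lit 398) (nat_lit 198) (nat_lit 184)) (XT.nd (nat_lit 78) (nat_lit 0) (nat_lit 0) (XT.lf (nat_lit 0) (nat_lit 21619625546) (nat_lit 152) (nat_lit 50217773692) (nat_lit 0) (nat_lit 19077316755) (nat_lit 2) (nat_lit 5) (nat_lit 4) (nat_lit 4) (nat_lit 2) (nat_lit 4) (nat_lit 399) (nat_lit 198) (nat_lit 183)) (XT.lf (nat_lit 0) (nat_lit 23745890708) (nat_lit 152) (nat_lit 48772838124) (nat_lit 0) (nat_lit 21070871966) (nat_lit 2) (nat_lit 5) (nat_lit 4) (nat_lit 4) (nat_lit 2) (nat_lit 4) (nat_lit 400) (nat_lit 198) (nat_lit 182)))) (XT.nd (nat_lit 78) (nat_lit 0) (nat_lit 0) (XT.lf (nat_lit 0) (nat_lit 25908442027) (nat_lit 152) (nat_lit 47332566392) (nat_lit 0) (nat_lit 23104578672) (nat_lit 2)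 (nat_lit 5) (nat_lit 4) (nat_lit 4) (nat_lit 2) (nat_lit 4) (nat_lit 401) (nat_lit 198) (nat_lit 181)) (XT.nd (nat_lit 39078) (nat_lit 0) (nat_lit 152) (XT.lf (nat_lit 0) (nat_lit 28109169113) (nat_lit 152) (nat_lit 45895700007) (nat_lit 0) (nat_lit 25180213900) (nat_lit 2) (nat_lit 5) (nat_lit 4) (nat_lit 4) (nat_lit 2) (nat_lit 4) (nat_lit 402) (nat_lit 198) (nat_lit 180)) (XT.lf (nat_lit 0) (nat_lit 17569846665) (nat_lit 76) (nat_lit 5169524715) (nat_lit 76) (nat_lit 5169524715) (nat_lit 4) (nat_lit 4) (nat_lit 5) (nat_lit 5) (nat_lit 5) (nat_lit 4) (nat_lit 382) (nat_lit 199) (nat_lit 199)))))) (XT.nd (nat_lit 390) (nat_lit 152) (nat_lit 0) (XT.nd (nat_lit 156) (nat_lit 0) (nat_lit 0) (XT.nd (nat_lit 78) (nat_lit 0) (nat_lit 0) (XT.lf (nat_lit 0) (nat_lit 40003116917) (nat_lit 76) (nat_lit 8819912874) (nat_lit 76) (nat_lit 8600563545) (nat_lit 4) (nat_lit 4) (nat_lit 5) (nat_lit 5) (nat_lit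 5) (nat_lit 4) (nat_lit 383) (nat_lit 199) (nat_lit 198)) (XT.lf (nat_lit 0) (nat_lit 44938840102) (nat_lit 76) (nat_lit 7286183163) (nat_lit 76) (nat_lit 6853873320) (nat_lit 4) (nat_lit 4) (nat_lit 5) (nat_lit 5) (nat_lit 5) (nat_lit 4) (nat_lit 384) (nat_lit 199) (nat_lit 197))) (XT.nd (nat_lit 78) (nat_lit 0) (nat_lit 0) (XT.lf (nat_lit 0) (nat_lit 49951175654) (nat_lit 76) (nat_lit 5736520146) (nat_lit 76) (nat_lit 5097452522) (nat_lit 4) (nat_lit 4) (nat_lit 5) (nat_lit 5) (nat_lit 5) (nat_lit 4) (nat_lit 385) (nat_lit 199) (nat_lit 196)) (XT.nd (nat_lit 78) (nat_lit 0) (nat_lit 0) (XT.lf (nat_lit 0) (nat_lit 55044503284) (nat_lit 76) (nat_lit 4169569747) (nat_lit 76) (nat_lit 3329766414) (nat_lit 4) (nat_lit 4) (nat_lit 5) (nat_lit 5) (nat_lit 5) (nat_lit 4) (nat_lit 386) (nat_lit 199) (nat_lit 195)) (XT.lf (nat_lit 0) (nat_lit 60223273472) (nat_lit 76) (nat_lit 2583962788) (nat_lit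 76) (nat_lit 1549270417) (nat_lit 4) (nat_lit 4) (nat_lit 5) (nat_lit 5) (nat_lit 5) (nat_lit 4) (nat_lit 387) (nat_lit 199) (nat_lit 194))))) (XT.nd (nat_lit 234) (nat_lit 0) (nat_lit 0) (XT.nd (nat_lit 78) (nat_lit 76) (nat_lit 0) (XT.lf (nat_lit 0) (nat_lit 240798873) (nat_lit 152) (nat_lit 735083315) (nat_lit 76) (nat_lit 65248780887) (nat_lit 3) (nat_lit 5) (nat_lit 5) (nat_lit 5) (nat_lit 4) (nat_lit 4) (nat_lit 388) (nat_lit 199) (nat_lit 193)) (XT.nd (nat_lit 78) (nat_lit 0) (nat_lit 0) (XT.lf (nat_lit 0) (nat_lit 2049279683) (nat_lit 152) (nat_lit 65416618940) (nat_lit 0) (nat_lit 682671295) (nat_lit 2) (nat_lit 5) (nat_lit 4) (nat_lit 4) (nat_lit 2) (nat_lit 4) (nat_lit 389) (nat_lit 199) (nat_lit 192)) (XT.lf (nat_lit 0) (nat_lit 3892213395) (nat_lit 152) (nat_lit 63886166167) (nat_lit 0) (nat_lit 2352448622) (nat_lit 2) (nat_lit 5) (nat_lit 4) (nat_lit 4) (nat_lit 2) (nat_lit 4)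 (nat_lit 390) (nat_lit 199) (nat_lit 191)))) (XT.nd (nat_lit 78) (nat_lit 0) (nat_lit 0) (XT.lf (nat_lit 0) (nat_lit 5754551512) (nat_lit 152) (nat_lit 62372444454) (nat_lit 0) (nat_lit 4046673742) (nat_lit 2) (nat_lit 5) (nat_lit 4) (nat_lit 4) (nat_lit 2) (nat_lit 4) (nat_lit 391) (nat_lit 199) (nat_lit 190)) (XT.nd (nat_lit 78) (nat_lit 0) (nat_lit 0) (XT.lf (nat_lit 0) (nat_lit 7637921318) (nat_lit 152) (nat_lit 60874131132) (nat_lit 0) (nat_lit 5766827047) (nat_lit 2) (nat_lit 5) (nat_lit 4) (nat_lit 4) (nat_lit 2) (nat_lit 4) (nat_lit 392) (nat_lit 199) (nat_lit 189)) (XT.lf (nat_lit 0) (nat_lit 9543968477) (nat_lit 152) (nat_lit 59389916995) (nat_lit 0) (nat_lit 7514411584) (nat_lit 2) (nat_lit 5) (nat_lit 4) (nat_lit 4) (nat_lit 2) (nat_lit 4) (nat_lit 393) (nat_lit 199) (nat_lit 188))))))) (XT.nd (nat_lit 39702) (nat_lit 0) (nat_lit 0) (XT.nd (nat_lit 390) (nat_lit 0) (nat_lit 0) (XT.nd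 (nat_lit 156) (nat_lit 0) (nat_lit 0) (XT.nd (nat_lit 78) (nat_lit 0) (nat_lit 0) (XT.lf (nat_lit 0) (nat_lit 11474358467) (nat_lit 152) (nat_lit 57918505157) (nat_lit 0) (nat_lit 9290954367) (nat_lit 2) (nat_lit 5) (nat_lit 4) (nat_lit 4) (nat_lit 2) (nat_lit 4) (nat_lit 394) (nat_lit 199) (nat_lit 187)) (XT.lf (nat_lit 0) (nat_lit 13430778036) (nat_lit 152) (nat_lit 56458609919) (nat_lit 0) (nat_lit 11098007717) (nat_lit 2) (nat_lit 5) (nat_lit 4) (nat_lit 4) (nat_lit 2) (nat_lit 4) (nat_lit 395) (nat_lit 199) (nat_lit 186))) (XT.nd (nat_lit 78) (nat_lit 0) (nat_lit 0) (XT.lf (nat_lit 0) (nat_lit 15414936677) (nat_lit 152) (nat_lit 55008955644) (nat_lit 0) (nat_lit 12937150611) (nat_lit 2) (nat_lit 5) (nat_lit 4) (nat_lit 4) (nat_lit 2) (nat_lit 4) (nat_lit 396) (nat_lit 199) (nat_lit 185)) (XT.nd (nat_lit 78) (nat_lit 0) (nat_lit 0) (XT.lf (nat_lit 0) (nat_lit 17428568121) (nat_lit 152)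 (nat_lit 53568275643) (nat_lit 0) (nat_lit 14809990067) (nat_lit 2) (nat_lit 5) (nat_lit 4) (nat_lit 4) (nat_lit 2) (nat_lit 4) (nat_lit 397) (nat_lit 199) (nat_lit 184)) (XT.lf (nat_lit 0) (nat_lit 19473431852) (nat_lit 152) (nat_lit 52135311070) (nat_lit 0) (nat_lit 16718162548) (nat_lit 2) (nat_lit 5) (nat_lit 4) (nat_lit 4) (nat_lit 2) (nat_lit 4) (nat_lit 398) (nat_lit 199) (nat_lit 183))))) (XT.nd (nat_lit 234) (nat_lit 0) (nat_lit 0) (XT.nd (nat_lit 78) (nat_lit 0) (nat_lit 0) (XT.lf (nat_lit 0) (nat_lit 21551314644) (nat_lit 152) (nat_lit 50708809820) (nat_lit 0) (nat_lit 18663335388) (nat_lit 2) (nat_lit 5) (nat_lit 4) (nat_lit 4) (nat_lit 2) (nat_lit 4) (nat_lit 399) (nat_lit 199) (nat_lit 182)) (XT.nd (nat_lit 78) (nat_lit 0) (nat_lit 0) (XT.lf (nat_lit 0) (nat_lit 23664032123) (nat_lit 152) (nat_lit 49287525436) (nat_lit 0) (nat_lit 20647208254) (nat_lit 2) (nat_lit 5) (nat_lit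 4) (nat_lit 4) (nat_lit 2) (nat_lit 4) (nat_lit 400) (nat_lit 199) (nat_lit 181)) (XT.lf (nat_lit 0) (nat_lit 25813430352) (nat_lit 152) (nat_lit 47870216018) (nat_lit 0) (nat_lit 22671514625) (nat_lit 2) (nat_lit 5) (nat_lit 4) (nat_lit 4) (nat_lit 2) (nat_lit 4) (nat_lit 401) (nat_lit 199) (nat_lit 180)))) (XT.nd (nat_lit 38922) (nat_lit 0) (nat_lit 152) (XT.lf (nat_lit 0) (nat_lit 28001387446) (nat_lit 152) (nat_lit 46455643142) (nat_lit 0) (nat_lit 24738023314) (nat_lit 2) (nat_lit 5) (nat_lit 4) (nat_lit 4) (nat_lit 2) (nat_lit 4) (nat_lit 402) (nat_lit 199) (nat_lit 179)) (XT.nd (nat_lit 78) (nat_lit 0) (nat_lit 0) (XT.lf (nat_lit 0) (nat_lit 12825635913) (nat_lit 76) (nat_lit 6774289963) (nat_lit 76) (nat_lit 6774289963) (nat_lit 4) (nat_lit 4) (nat_lit 5) (nat_lit 5) (nat_lit 5) (nat_lit 4) (nat_lit 380) (nat_lit 200) (nat_lit 200)) (XT.lf (nat_lit 0) (nat_lit 30344319751) (nat_lit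 76) (nat_lit 12070850044) (nat_lit 76) (nat_lit 11844920235) (nat_lit 4) (nat_lit 4) (nat_lit 5) (nat_lit 5) (nat_lit 5) (nat_lit 4) (nat_lit 381) (nat_lit 200) (nat_lit 199)))))) (XT.nd (nat_lit 390) (nat_lit 152) (nat_lit 0) (XT.nd (nat_lit 156) (nat_lit 0) (nat_lit 0) (XT.nd (nat_lit 78) (nat_lit 0) (nat_lit 0) (XT.lf (nat_lit 0) (nat_lit 35102347912) (nat_lit 76) (nat_lit 10580698635) (nat_lit 76) (nat_lit 10135419496) (nat_lit 4) (nat_lit 4) (nat_lit 5) (nat_lit 5) (nat_lit 5) (nat_lit 4) (nat_lit 382) (nat_lit 200) (nat_lit 198)) (XT.lf (nat_lit 0) (nat_lit 39929513808) (nat_lit 76) (nat_lit 9076823626) (nat_lit 76) (nat_lit 8418583974) (nat_lit 4) (nat_lit 4) (nat_lit 5) (nat_lit 5) (nat_lit 5) (nat_lit 4) (nat_lit 383) (nat_lit 200) (nat_lit 197))) (XT.nd (nat_lit 78) (nat_lit 0) (nat_lit 0) (XT.lf (nat_lit 0) (nat_lit 44830035354) (nat_lit 76) (nat_lit 7557910952) (nat_lit 76) (nat_lit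 6692913519) (nat_lit 4) (nat_lit 4) (nat_lit 5) (nat_lit 5) (nat_lit 5) (nat_lit 4) (nat_lit 384) (nat_lit 200) (nat_lit 196)) (XT.nd (nat_lit 78) (nat_lit 0) (nat_lit 0) (XT.lf (nat_lit 0) (nat_lit 49808194557) (nat_lit 76) (nat_lit 6022633407) (nat_lit 76) (nat_lit 4956900265) (nat_lit 4) (nat_lit 4) (nat_lit 5) (nat_lit 5) (nat_lit 5) (nat_lit 4) (nat_lit 385) (nat_lit 200) (nat_lit 195)) (XT.lf (nat_lit 0) (nat_lit 54868341265) (nat_lit 76) (nat_lit 4469649487) (nat_lit 76) (nat_lit 3209027307) (nat_lit 4) (nat_lit 4) (nat_lit 5) (nat_lit 5) (nat_lit 5) (nat_lit 4) (nat_lit 386) (nat_lit 200) (nat_lit 194))))) (XT.nd (nat_lit 234) (nat_lit 0) (nat_lit 0) (XT.nd (nat_lit 78) (nat_lit 152) (nat_lit 0) (XT.lf (nat_lit 0) (nat_lit 60014896966) (nat_lit 76) (nat_lit 2897602215) (nat_lit 76) (nat_lit 1447767377) (nat_lit 4) (nat_lit 4) (nat_lit 5) (nat_lit 5) (nat_lit 5) (nat_lit 4) (nat_lit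 387) (nat_lit 200) (nat_lit 193)) (XT.nd (nat_lit 78) (nat_lit 76) (nat_lit 0) (XT.lf (nat_lit 0) (nat_lit 322009862) (nat_lit 152) (nat_lit 979856428) (nat_lit 76) (nat_lit 64927097121) (nat_lit 3) (nat_lit 5) (nat_lit 5) (nat_lit 5) (nat_lit 4) (nat_lit 4) (nat_lit 388) (nat_lit 200) (nat_lit 192)) (XT.lf (nat_lit 0) (nat_lit 2106726663) (nat_lit 152) (nat_lit 65699263738) (nat_lit 0) (nat_lit 347612560) (nat_lit 2) (nat_lit 5) (nat_lit 4) (nat_lit 4) (nat_lit 2) (nat_lit 4) (nat_lit 389) (nat_lit 200) (nat_lit 191)))) (XT.nd (nat_lit 78) (nat_lit 0) (nat_lit 0) (XT.lf (nat_lit 0) (nat_lit 3931983722) (nat_lit 152) (nat_lit 64199670395) (nat_lit 0) (nat_lit 2004756623) (nat_lit 2) (nat_lit 5) (nat_lit 4) (nat_lit 4) (nat_lit 2) (nat_lit 4) (nat_lit 390) (nat_lit 200) (nat_lit 190)) (XT.nd (nat_lit 78) (nat_lit 0) (nat_lit 0) (XT.lf (nat_lit 0) (nat_lit 5777160038) (nat_lit 152) (nat_lit 62715909294)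 (nat_lit 0) (nat_lit 3686716438) (nat_lit 2) (nat_lit 5) (nat_lit 4) (nat_lit 4) (nat_lit 2) (nat_lit 4) (nat_lit 391) (nat_lit 200) (nat_lit 189)) (XT.lf (nat_lit 0) (nat_lit 7643867903) (nat_lit 152) (nat_lit 61246683945) (nat_lit 0) (nat_lit 5394961681) (nat_lit 2) (nat_lit 5) (nat_lit 4) (nat_lit 4) (nat_lit 2) (nat_lit 4) (nat_lit 392) (nat_lit 200) (nat_lit 188))))))))
noncomputable def xc3 : XT := (XT.nd (nat_lit 40404) (nat_lit 0) (nat_lit 0) (XT.nd (nat_lit 39546) (nat_lit 0) (nat_lit 0) (XT.nd (nat_lit 390) (nat_lit 0) (nat_lit 0) (XT.nd (nat_lit 156) (nat_lit 0) (nat_lit 0) (XT.nd (nat_lit 78) (nat_lit 0) (nat_lit 0) (XT.lf (nat_lit 0) (nat_lit 9533738420) (nat_lit 152) (nat_lit 59790710559) (nat_lit 0) (nat_lit 7130984991) (nat_lit 2) (nat_lit 5) (nat_lit 4) (nat_lit 4) (nat_lit 2) (nat_lit 4) (nat_lit 393) (nat_lit 200) (nat_lit 187)) (XT.lf (nat_lit 0) (nat_lit 11448422931) (nat_lit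 152) (nat_lit 58346716925) (nat_lit 0) (nat_lit 8896303283) (nat_lit 2) (nat_lit 5) (nat_lit 4) (nat_lit 4) (nat_lit 2) (nat_lit 4) (nat_lit 394) (nat_lit 200) (nat_lit 186))) (XT.nd (nat_lit 78) (nat_lit 0) (nat_lit 0) (XT.lf (nat_lit 0) (nat_lit 13389594464) (nat_lit 152) (nat_lit 56913441303) (nat_lit 0) (nat_lit 10692459068) (nat_lit 2) (nat_lit 5) (nat_lit 4) (nat_lit 4) (nat_lit 2) (nat_lit 4) (nat_lit 395) (nat_lit 200) (nat_lit 185)) (XT.nd (nat_lit 78) (nat_lit 0) (nat_lit 0) (XT.lf (nat_lit 0) (nat_lit 15358949186) (nat_lit 152) (nat_lit 55489631314) (nat_lit 0) (nat_lit 12521021802) (nat_lit 2) (nat_lit 5) (nat_lit 4) (nat_lit 4) (nat_lit 2) (nat_lit 4) (nat_lit 396) (nat_lit 200) (nat_lit 184)) (XT.lf (nat_lit 0) (nat_lit 17358207893) (nat_lit 152) (nat_lit 54074042854) (nat_lit 0) (nat_lit 14383589259) (nat_lit 2) (nat_lit 5) (nat_lit 4) (nat_lit 4) (nat_lit 2) (nat_lit 4) (nat_lit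 397) (nat_lit 200) (nat_lit 183))))) (XT.nd (nat_lit 234) (nat_lit 0) (nat_lit 0) (XT.nd (nat_lit 78) (nat_lit 0) (nat_lit 0) (XT.lf (nat_lit 0) (nat_lit 19389117510) (nat_lit 152) (nat_lit 52665439001) (nat_lit 0) (nat_lit 16281788925) (nat_lit 2) (nat_lit 5) (nat_lit 4) (nat_lit 4) (nat_lit 2) (nat_lit 4) (nat_lit 398) (nat_lit 200) (nat_lit 182)) (XT.nd (nat_lit 78) (nat_lit 0) (nat_lit 0) (XT.lf (nat_lit 0) (nat_lit 21453452618) (nat_lit 152) (nat_lit 51262588935) (nat_lit 0) (nat_lit 18217279420) (nat_lit 2) (nat_lit 5) (nat_lit 4) (nat_lit 4) (nat_lit 2) (nat_lit 4) (nat_lit 399) (nat_lit 200) (nat_lit 181)) (XT.lf (nat_lit 0) (nat_lit 23553017006) (nat_lit 152) (nat_lit 49864266865) (nat_lit 0) (nat_lit 20191751950) (nat_lit 2) (nat_lit 5) (nat_lit 4) (nat_lit 4) (nat_lit 2) (nat_lit 4) (nat_lit 400) (nat_lit 200) (nat_lit 180)))) (XT.nd (nat_lit 78) (nat_lit 0) (nat_lit 0) (XT.lf (nat_lit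 0) (nat_lit 25689645245) (nat_lit 152) (nat_lit 48469250956) (nat_lit 0) (nat_lit 22206931783) (nat_lit 2) (nat_lit 5) (nat_lit 4) (nat_lit 4) (nat_lit 2) (nat_lit 4) (nat_lit 401) (nat_lit 200) (nat_lit 179)) (XT.nd (nat_lit 38766) (nat_lit 0) (nat_lit 152) (XT.lf (nat_lit 0) (nat_lit 27865204290) (nat_lit 152) (nat_lit 47076322263) (nat_lit 0) (nat_lit 24264579755) (nat_lit 2) (nat_lit 5) (nat_lit 4) (nat_lit 4) (nat_lit 2) (nat_lit 4) (nat_lit 402) (nat_lit 200) (nat_lit 178)) (XT.lf (nat_lit 0) (nat_lit 8241693376) (nat_lit 76) (nat_lit 8343980634) (nat_lit 76) (nat_lit 8343980634) (nat_lit 4) (nat_lit 4) (nat_lit 5) (nat_lit 5) (nat_lit 5) (nat_lit 4) (nat_lit 378) (nat_lit 201) (nat_lit 201)))))) (XT.nd (nat_lit 390) (nat_lit 152) (nat_lit 0) (XT.nd (nat_lit 156) (nat_lit 0) (nat_lit 0) (XT.nd (nat_lit 78) (nat_lit 0) (nat_lit 0) (XT.lf (nat_lit 0) (nat_lit 21019103418) (nat_lit 76) (nat_lit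 15247887208) (nat_lit 76) (nat_lit 15015179505) (nat_lit 4) (nat_lit 4) (nat_lit 5) (nat_lit 5) (nat_lit 5) (nat_lit 4) (nat_lit 379) (nat_lit 201) (nat_lit 200)) (XT.lf (nat_lit 0) (nat_lit 25612806045) (nat_lit 76) (nat_lit 13797478607) (nat_lit 76) (nat_lit 13338841094) (nat_lit 4) (nat_lit 4) (nat_lit 5) (nat_lit 5) (nat_lit 5) (nat_lit 4) (nat_lit 380) (nat_lit 201) (nat_lit 199))) (XT.nd (nat_lit 78) (nat_lit 0) (nat_lit 0) (XT.lf (nat_lit 0) (nat_lit 30268508550) (nat_lit 76) (nat_lit 12335468118) (nat_lit 76) (nat_lit 11657481276) (nat_lit 4) (nat_lit 4) (nat_lit 5) (nat_lit 5) (nat_lit 5) (nat_lit 4) (nat_lit 381) (nat_lit 201) (nat_lit 198)) (XT.nd (nat_lit 78) (nat_lit 0) (nat_lit 0) (XT.lf (nat_lit 0) (nat_lit 34990279021) (nat_lit 76) (nat_lit 10860578257) (nat_lit 76) (nat_lit 9969630901) (nat_lit 4) (nat_lit 4) (nat_lit 5) (nat_lit 5) (nat_lit 5) (nat_lit 4) (nat_lit 382) (nat_lit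 201) (nat_lit 197)) (XT.lf (nat_lit 0) (nat_lit 39782243279) (nat_lit 76) (nat_lit 9371520285) (nat_lit 76) (nat_lit 8273815149) (nat_lit 4) (nat_lit 4) (nat_lit 5) (nat_lit 5) (nat_lit 5) (nat_lit 4) (nat_lit 383) (nat_lit 201) (nat_lit 196))))) (XT.nd (nat_lit 234) (nat_lit 152) (nat_lit 0) (XT.nd (nat_lit 78) (nat_lit 0) (nat_lit 0) (XT.lf (nat_lit 0) (nat_lit 44648588475) (nat_lit 76) (nat_lit 7866993083) (nat_lit 76) (nat_lit 6568552238) (nat_lit 4) (nat_lit 4) (nat_lit 5) (nat_lit 5) (nat_lit 5) (nat_lit 4) (nat_lit 384) (nat_lit 201) (nat_lit 195)) (XT.nd (nat_lit 78) (nat_lit 0) (nat_lit 0) (XT.lf (nat_lit 0) (nat_lit 49593566756) (nat_lit 76) (nat_lit 6345682017) (nat_lit 76) (nat_lit 4852352133) (nat_lit 4) (nat_lit 4) (nat_lit 5) (nat_lit 5) (nat_lit 5) (nat_lit 4) (nat_lit 385) (nat_lit 201) (nat_lit 194)) (XT.lf (nat_lit 0) (nat_lit 54621498978) (nat_lit 76) (nat_lit 4806257784)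 (nat_lit 76) (nat_lit 3123715243) (nat_lit 4) (nat_lit 4) (nat_lit 5) (nat_lit 5) (nat_lit 5) (nat_lit 4) (nat_lit 386) (nat_lit 201) (nat_lit 193)))) (XT.nd (nat_lit 78) (nat_lit 152) (nat_lit 0) (XT.lf (nat_lit 0) (nat_lit 59736778478) (nat_lit 76) (nat_lit 3247375258) (nat_lit 76) (nat_lit 1381131106) (nat_lit 4) (nat_lit 4) (nat_lit 5) (nat_lit 5) (nat_lit 5) (nat_lit 4) (nat_lit 387) (nat_lit 201) (nat_lit 192)) (XT.nd (nat_lit 78) (nat_lit 76) (nat_lit 0) (XT.lf (nat_lit 0) (nat_lit 369567797) (nat_lit 152) (nat_lit 1294372599) (nat_lit 76) (nat_lit 64570575211) (nat_lit 3) (nat_lit 5) (nat_lit 5) (nat_lit 5) (nat_lit 4) (nat_lit 4) (nat_lit 388) (nat_lit 201) (nat_lit 191)) (XT.lf (nat_lit 0) (nat_lit 2106636280) (nat_lit 76) (nat_lit 23604062) (nat_lit 152) (nat_lit 66029655358) (nat_lit 2) (nat_lit 5) (nat_lit 3) (nat_lit 5) (nat_lit 4) (nat_lit 4) (nat_lit 389) (nat_lit 201) (nat_lit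 190))))))) (XT.nd (nat_lit 858) (nat_lit 0) (nat_lit 0) (XT.nd (nat_lit 390) (nat_lit 0) (nat_lit 0) (XT.nd (nat_lit 156) (nat_lit 0) (nat_lit 0) (XT.nd (nat_lit 78) (nat_lit 0) (nat_lit 0) (XT.lf (nat_lit 0) (nat_lit 3938108704) (nat_lit 152) (nat_lit 64583399793) (nat_lit 0) (nat_lit 1621735295) (nat_lit 2) (nat_lit 5) (nat_lit 4) (nat_lit 4) (nat_lit 2) (nat_lit 4) (nat_lit 390) (nat_lit 201) (nat_lit 189)) (XT.lf (nat_lit 0) (nat_lit 5766623079) (nat_lit 152) (nat_lit 63128726665) (nat_lit 0) (nat_lit 3291787048) (nat_lit 2) (nat_lit 5) (nat_lit 4) (nat_lit 4) (nat_lit 2) (nat_lit 4) (nat_lit 391) (nat_lit 201) (nat_lit 188))) (XT.nd (nat_lit 78) (nat_lit 0) (nat_lit 0) (XT.lf (nat_lit 0) (nat_lit 7617154302) (nat_lit 152) (nat_lit 61687742066) (nat_lit 0) (nat_lit 4988471064) (nat_lit 2) (nat_lit 5) (nat_lit 4) (nat_lit 4) (nat_lit 2) (nat_lit 4) (nat_lit 392) (nat_lit 201) (nat_lit 187))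 (XT.nd (nat_lit 78) (nat_lit 0) (nat_lit 0) (XT.lf (nat_lit 0) (nat_lit 9491319340) (nat_lit 152) (nat_lit 60259186884) (nat_lit 0) (nat_lit 6713269883) (nat_lit 2) (nat_lit 5) (nat_lit 4) (nat_lit 4) (nat_lit 2) (nat_lit 4) (nat_lit 393) (nat_lit 201) (nat_lit 186)) (XT.lf (nat_lit 0) (nat_lit 11390755815) (nat_lit 152) (nat_lit 58841812866) (nat_lit 0) (nat_lit 8467690610) (nat_lit 2) (nat_lit 5) (nat_lit 4) (nat_lit 4) (nat_lit 2) (nat_lit 4) (nat_lit 394) (nat_lit 201) (nat_lit 185))))) (XT.nd (nat_lit 234) (nat_lit 0) (nat_lit 0) (XT.nd (nat_lit 78) (nat_lit 0) (nat_lit 0) (XT.lf (nat_lit 0) (nat_lit 13317123428) (nat_lit 152) (nat_lit 57434381531) (nat_lit 0) (nat_lit 10253266235) (nat_lit 2) (nat_lit 5) (nat_lit 4) (nat_lit 4) (nat_lit 2) (nat_lit 4) (nat_lit 395) (nat_lit 201) (nat_lit 184)) (XT.nd (nat_lit 78) (nat_lit 0) (nat_lit 0) (XT.lf (nat_lit 0) (nat_lit 15272105413) (nat_lit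 152) (nat_lit 56035663083) (nat_lit 0) (nat_lit 12071556970) (nat_lit 2) (nat_lit 5) (nat_lit 4) (nat_lit 4) (nat_lit 2) (nat_lit 4) (nat_lit 396) (nat_lit 201) (nat_lit 183)) (XT.lf (nat_lit 0) (nat_lit 17257410006) (nat_lit 152) (nat_lit 54644435342) (nat_lit 0) (nat_lit 13924151612) (nat_lit 2) (nat_lit 5) (nat_lit 4) (nat_lit 4) (nat_lit 2) (nat_lit 4) (nat_lit 397) (nat_lit 201) (nat_lit 182)))) (XT.nd (nat_lit 78) (nat_lit 0) (nat_lit 0) (XT.lf (nat_lit 0) (nat_lit 19274771940) (nat_lit 152) (nat_lit 53259482673) (nat_lit 0) (nat_lit 15812668932) (nat_lit 2) (nat_lit 5) (nat_lit 4) (nat_lit 4) (nat_lit 2) (nat_lit 4) (nat_lit 398) (nat_lit 201) (nat_lit 181)) (XT.nd (nat_lit 78) (nat_lit 0) (nat_lit 0) (XT.lf (nat_lit 0) (nat_lit 21325953958) (nat_lit 152) (nat_lit 51879594921) (nat_lit 0) (nat_lit 17738759093) (nat_lit 2) (nat_lit 5) (nat_lit 4) (nat_lit 4) (nat_lit 2) (nat_lit 4) (nat_lit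 399) (nat_lit 201) (nat_lit 180)) (XT.lf (nat_lit 0) (nat_lit 23412748355) (nat_lit 152) (nat_lit 50503566360) (nat_lit 0) (nat_lit 19704105085) (nat_lit 2) (nat_lit 5) (nat_lit 4) (nat_lit 4) (nat_lit 2) (nat_lit 4) (nat_lit 400) (nat_lit 201) (nat_lit 179)))))) (XT.nd (nat_lit 39000) (nat_lit 0) (nat_lit 152) (XT.nd (nat_lit 38766) (nat_lit 0) (nat_lit 152) (XT.nd (nat_lit 78) (nat_lit 0) (nat_lit 0) (XT.lf (nat_lit 0) (nat_lit 25536978544) (nat_lit 152) (nat_lit 49130194635) (nat_lit 0) (nat_lit 21710424200) (nat_lit 2) (nat_lit 5) (nat_lit 4) (nat_lit 4) (nat_lit 2) (nat_lit 4) (nat_lit 401) (nat_lit 201) (nat_lit 178)) (XT.nd (nat_lit 38610) (nat_lit 0) (nat_lit 152) (XT.lf (nat_lit 0) (nat_lit 27700500648) (nat_lit 152) (nat_lit 47758279713) (nat_lit 0) (nat_lit 23759469534) (nat_lit 2) (nat_lit 5) (nat_lit 4) (nat_lit 4) (nat_lit 2) (nat_lit 4) (nat_lit 402) (nat_lit 201) (nat_lit 177))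 (XT.lf (nat_lit 0) (nat_lit 3805456936) (nat_lit 76) (nat_lit 9882321519) (nat_lit 76) (nat_lit 9882321519) (nat_lit 4) (nat_lit 4) (nat_lit 5) (nat_lit 5) (nat_lit 5) (nat_lit 4) (nat_lit 376) (nat_lit 202) (nat_lit 202)))) (XT.nd (nat_lit 78) (nat_lit 0) (nat_lit 0) (XT.lf (nat_lit 0) (nat_lit 12001692803) (nat_lit 76) (nat_lit 18358648042) (nat_lit 76) (nat_lit 18118959108) (nat_lit 4) (nat_lit 4) (nat_lit 5) (nat_lit 5) (nat_lit 5) (nat_lit 4) (nat_lit 377) (nat_lit 202) (nat_lit 201)) (XT.nd (nat_lit 78) (nat_lit 0) (nat_lit 0) (XT.lf (nat_lit 0) (nat_lit 16443766997) (nat_lit 76) (nat_lit 16944326909) (nat_lit 76) (nat_lit 16471930271) (nat_lit 4) (nat_lit 4) (nat_lit 5) (nat_lit 5) (nat_lit 5) (nat_lit 4) (nat_lit 378) (nat_lit 202) (nat_lit 200)) (XT.lf (nat_lit 0) (nat_lit 20941017880) (nat_lit 76) (nat_lit 15520443824) (nat_lit 76) (nat_lit 14822117377) (nat_lit 4) (nat_lit 4) (nat_lit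 5) (nat_lit 5) (nat_lit 5) (nat_lit 4) (nat_lit 379) (nat_lit 202) (nat_lit 199))))) (XT.nd (nat_lit 234) (nat_lit 0) (nat_lit 0) (XT.nd (nat_lit 78) (nat_lit 0) (nat_lit 0) (XT.lf (nat_lit 0) (nat_lit 25497375088) (nat_lit 76) (nat_lit 14085754617) (nat_lit 76) (nat_lit 13168078841) (nat_lit 4) (nat_lit 4) (nat_lit 5) (nat_lit 5) (nat_lit 5) (nat_lit 4) (nat_lit 380) (nat_lit 202) (nat_lit 198)) (XT.nd (nat_lit 78) (nat_lit 0) (nat_lit 0) (XT.lf (nat_lit 0) (nat_lit 30116819904) (nat_lit 76) (nat_lit 12639005677) (nat_lit 76) (nat_lit 11508369386) (nat_lit 4) (nat_lit 4) (nat_lit 5) (nat_lit 5) (nat_lit 5) (nat_lit 4) (nat_lit 381) (nat_lit 202) (nat_lit 197)) (XT.lf (nat_lit 0) (nat_lit 34803388736) (nat_lit 76) (nat_lit 11178932853) (nat_lit 76) (nat_lit 9841538782) (nat_lit 4) (nat_lit 4) (nat_lit 5) (nat_lit 5) (nat_lit 5) (nat_lit 4) (nat_lit 382) (nat_lit 202) (nat_lit 196)))) (XT.nd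 (nat_lit 78) (nat_lit 0) (nat_lit 0) (XT.lf (nat_lit 0) (nat_lit 39561176644) (nat_lit 76) (nat_lit 9704260353) (nat_lit 76) (nat_lit 8166130573) (nat_lit 4) (nat_lit 4) (nat_lit 5) (nat_lit 5) (nat_lit 5) (nat_lit 4) (nat_lit 383) (nat_lit 202) (nat_lit 195)) (XT.nd (nat_lit 78) (nat_lit 0) (nat_lit 0) (XT.lf (nat_lit 0) (nat_lit 44394340919) (nat_lit 76) (nat_lit 8213699630) (nat_lit 76) (nat_lit 6480680812) (nat_lit 4) (nat_lit 4) (nat_lit 5) (nat_lit 5) (nat_lit 5) (nat_lit 4) (nat_lit 384) (nat_lit 202) (nat_lit 194)) (XT.lf (nat_lit 0) (nat_lit 49307104713) (nat_lit 76) (nat_lit 6705948251) (nat_lit 76) (nat_lit 4783716775) (nat_lit 4) (nat_lit 4) (nat_lit 5) (nat_lit 5) (nat_lit 5) (nat_lit 4) (nat_lit 385) (nat_lit 202) (nat_lit 193))))))))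
noncomputable def xc4 : XT := (XT.nd (nat_lit 40092) (nat_lit 0) (nat_lit 0) (XT.nd (nat_lit 858) (nat_lit 0) (nat_lit 0) (XT.nd (nat_lit 390) (nat_lit 0) (nat_lit 0) (XT.nd (nat_lit 156) (nat_lit 152) (nat_lit 0) (XT.nd (nat_lit 78) (nat_lit 0) (nat_lit 0) (XT.lf (nat_lit 0) (nat_lit 54303760734) (nat_lit 76) (nat_lit 5179688764) (nat_lit 76) (nat_lit 3073755678) (nat_lit 4) (nat_lit 4) (nat_lit 5) (nat_lit 5) (nat_lit 5) (nat_lit 4) (nat_lit 386) (nat_lit 202) (nat_lit 192)) (XT.lf (nat_lit 0) (nat_lit 59388674991) (nat_lit 76) (nat_lit 3633587544) (nat_lit 76) (nat_lit 1349303380) (nat_lit 4) (nat_lit 4) (nat_lit 5) (nat_lit 5) (nat_lit 5) (nat_lit 4) (nat_lit 387) (nat_lit 202) (nat_lit 191))) (XT.nd (nat_lit 78) (nat_lit 76) (nat_lit 0) (XT.lf (nat_lit 0) (nat_lit 383514236) (nat_lit 152) (nat_lit 1678906650) (nat_lit 76) (nat_lit 64178903635) (nat_lit 3) (nat_lit 5) (nat_lit 5) (nat_lit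 5) (nat_lit 4) (nat_lit 4) (nat_lit 388) (nat_lit 202) (nat_lit 190)) (XT.nd (nat_lit 78) (nat_lit 0) (nat_lit 0) (XT.lf (nat_lit 0) (nat_lit 1684898287) (nat_lit 76) (nat_lit 438476999) (nat_lit 152) (nat_lit 66043972325) (nat_lit 2) (nat_lit 5) (nat_lit 3) (nat_lit 5) (nat_lit 4) (nat_lit 4) (nat_lit 389) (nat_lit 202) (nat_lit 189)) (XT.lf (nat_lit 0) (nat_lit 3910593695) (nat_lit 152) (nat_lit 65037689657) (nat_lit 0) (nat_lit 1203049960) (nat_lit 2) (nat_lit 5) (nat_lit 4) (nat_lit 4) (nat_lit 2) (nat_lit 4) (nat_lit 390) (nat_lit 202) (nat_lit 188))))) (XT.nd (nat_lit 234) (nat_lit 0) (nat_lit 0) (XT.nd (nat_lit 78) (nat_lit 0) (nat_lit 0) (XT.lf (nat_lit 0) (nat_lit 5722931428) (nat_lit 152) (nat_lit 63611257279) (nat_lit 0) (nat_lit 2861540486) (nat_lit 2) (nat_lit 5) (nat_lit 4) (nat_lit 4) (nat_lit 2) (nat_lit 4) (nat_lit 391) (nat_lit 202) (nat_lit 187)) (XT.nd (nat_lit 78) (nat_lit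 0) (nat_lit 0) (XT.lf (nat_lit 0) (nat_lit 7557757172) (nat_lit 152) (nat_lit 62197690885) (nat_lit 0) (nat_lit 4547000011) (nat_lit 2) (nat_lit 5) (nat_lit 4) (nat_lit 4) (nat_lit 2) (nat_lit 4) (nat_lit 392) (nat_lit 202) (nat_lit 186)) (XT.lf (nat_lit 0) (nat_lit 9416674174) (nat_lit 152) (nat_lit 60795755318) (nat_lit 0) (nat_lit 6260901265) (nat_lit 2) (nat_lit 5) (nat_lit 4) (nat_lit 4) (nat_lit 2) (nat_lit 4) (nat_lit 393) (nat_lit 202) (nat_lit 185)))) (XT.nd (nat_lit 78) (nat_lit 0) (nat_lit 0) (XT.lf (nat_lit 0) (nat_lit 11301306729) (nat_lit 152) (nat_lit 59404225588) (nat_lit 0) (nat_lit 8004741833) (nat_lit 2) (nat_lit 5) (nat_lit 4) (nat_lit 4) (nat_lit 2) (nat_lit 4) (nat_lit 394) (nat_lit 202) (nat_lit 184)) (XT.nd (nat_lit 78) (nat_lit 0) (nat_lit 0) (XT.lf (nat_lit 0) (nat_lit 13213301605) (nat_lit 152) (nat_lit 58021885793) (nat_lit 0) (nat_lit 9780045459) (nat_lit 2) (nat_lit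 5) (nat_lit 4) (nat_lit 4) (nat_lit 2) (nat_lit 4) (nat_lit 395) (nat_lit 202) (nat_lit 183)) (XT.lf (nat_lit 0) (nat_lit 15154329476) (nat_lit 152) (nat_lit 56647528065) (nat_lit 0) (nat_lit 11588363378) (nat_lit 2) (nat_lit 5) (nat_lit 4) (nat_lit 4) (nat_lit 2) (nat_lit 4) (nat_lit 396) (nat_lit 202) (nat_lit 182)))))) (XT.nd (nat_lit 390) (nat_lit 0) (nat_lit 0) (XT.nd (nat_lit 156) (nat_lit 0) (nat_lit 0) (XT.nd (nat_lit 78) (nat_lit 0) (nat_lit 0) (XT.lf (nat_lit 0) (nat_lit 17126086386) (nat_lit 152) (nat_lit 55279951508) (nat_lit 0) (nat_lit 13431275675) (nat_lit 2) (nat_lit 5) (nat_lit 4) (nat_lit 4) (nat_lit 2) (nat_lit 4) (nat_lit 397) (nat_lit 202) (nat_lit 181)) (XT.lf (nat_lit 0) (nat_lit 19130295229) (nat_lit 152) (nat_lit 53917961153) (nat_lit 0) (nat_lit 15310392660) (nat_lit 2) (nat_lit 5) (nat_lit 4) (nat_lit 4) (nat_lit 2) (nat_lit 4) (nat_lit 398) (nat_lit 202) (nat_lit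 180))) (XT.nd (nat_lit 78) (nat_lit 0) (nat_lit 0) (XT.lf (nat_lit 0) (nat_lit 21168707256) (nat_lit 152) (nat_lit 52560366910) (nat_lit 0) (nat_lit 17227356282) (nat_lit 2) (nat_lit 5) (nat_lit 4) (nat_lit 4) (nat_lit 2) (nat_lit 4) (nat_lit 399) (nat_lit 202) (nat_lit 179)) (XT.nd (nat_lit 78) (nat_lit 0) (nat_lit 0) (XT.lf (nat_lit 0) (nat_lit 23243103604) (nat_lit 152) (nat_lit 51205982533) (nat_lit 0) (nat_lit 19183841557) (nat_lit 2) (nat_lit 5) (nat_lit 4) (nat_lit 4) (nat_lit 2) (nat_lit 4) (nat_lit 400) (nat_lit 202) (nat_lit 178)) (XT.lf (nat_lit 0) (nat_lit 25355296851) (nat_lit 152) (nat_lit 49853624579) (nat_lit 0) (nat_lit 21181558035) (nat_lit 2) (nat_lit 5) (nat_lit 4) (nat_lit 4) (nat_lit 2) (nat_lit 4) (nat_lit 401) (nat_lit 202) (nat_lit 177))))) (XT.nd (nat_lit 38610) (nat_lit 0) (nat_lit 152) (XT.nd (nat_lit 38454) (nat_lit 0) (nat_lit 152) (XT.lf (nat_lit 0) (nat_lit 27507132605)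 (nat_lit 152) (nat_lit 48502111375) (nat_lit 0) (nat_lit 23222251293) (nat_lit 2) (nat_lit 5) (nat_lit 4) (nat_lit 4) (nat_lit 2) (nat_lit 4) (nat_lit 402) (nat_lit 202) (nat_lit 176)) (XT.nd (nat_lit 78) (nat_lit 76) (nat_lit 0) (XT.lf (nat_lit 0) (nat_lit 10902618048) (nat_lit 152) (nat_lit 485355739) (nat_lit 0) (nat_lit 10902618048) (nat_lit 5) (nat_lit 5) (nat_lit 7) (nat_lit 4) (nat_lit 5) (nat_lit 4) (nat_lit 374) (nat_lit 203) (nat_lit 203)) (XT.lf (nat_lit 0) (nat_lit 3267593603) (nat_lit 76) (nat_lit 21410420037) (nat_lit 76) (nat_lit 21163540434) (nat_lit 4) (nat_lit 4) (nat_lit 5) (nat_lit 5) (nat_lit 5) (nat_lit 4) (nat_lit 375) (nat_lit 203) (nat_lit 202)))) (XT.nd (nat_lit 78) (nat_lit 0) (nat_lit 0) (XT.lf (nat_lit 0) (nat_lit 7570105524) (nat_lit 76) (nat_lit 20028699647) (nat_lit 76) (nat_lit 19542131110) (nat_lit 4) (nat_lit 4) (nat_lit 5) (nat_lit 5) (nat_lit 5) (nat_lit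 4) (nat_lit 376) (nat_lit 203) (nat_lit 201)) (XT.nd (nat_lit 78) (nat_lit 0) (nat_lit 0) (XT.lf (nat_lit 0) (nat_lit 11921264699) (nat_lit 76) (nat_lit 18639381357) (nat_lit 76) (nat_lit 17920105117) (nat_lit 4) (nat_lit 4) (nat_lit 5) (nat_lit 5) (nat_lit 5) (nat_lit 4) (nat_lit 377) (nat_lit 203) (nat_lit 200)) (XT.lf (nat_lit 0) (nat_lit 16324873112) (nat_lit 76) (nat_lit 17241251200) (nat_lit 76) (nat_lit 16296045151) (nat_lit 4) (nat_lit 4) (nat_lit 5) (nat_lit 5) (nat_lit 5) (nat_lit 4) (nat_lit 378) (nat_lit 203) (nat_lit 199))))))) (XT.nd (nat_lit 858) (nat_lit 0) (nat_lit 0) (XT.nd (nat_lit 390) (nat_lit 152) (nat_lit 0) (XT.nd (nat_lit 156) (nat_lit 0) (nat_lit 0) (XT.nd (nat_lit 78) (nat_lit 0) (nat_lit 0) (XT.lf (nat_lit 0) (nat_lit 20784778575) (nat_lit 76) (nat_lit 15833087510) (nat_lit 76) (nat_lit 14668532131) (nat_lit 4) (nat_lit 4) (nat_lit 5) (nat_lit 5) (nat_lit 5) (nat_lit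 4) (nat_lit 379) (nat_lit 203) (nat_lit 198)) (XT.lf (nat_lit 0) (nat_lit 25304878094) (nat_lit 76) (nat_lit 14413659851) (nat_lit 76) (nat_lit 13036143958) (nat_lit 4) (nat_lit 4) (nat_lit 5) (nat_lit 5) (nat_lit 5) (nat_lit 4) (nat_lit 380) (nat_lit 203) (nat_lit 197))) (XT.nd (nat_lit 78) (nat_lit 0) (nat_lit 0) (XT.lf (nat_lit 0) (nat_lit 29889121270) (nat_lit 76) (nat_lit 12981727947) (nat_lit 76) (nat_lit 11397454274) (nat_lit 4) (nat_lit 4) (nat_lit 5) (nat_lit 5) (nat_lit 5) (nat_lit 4) (nat_lit 381) (nat_lit 203) (nat_lit 196)) (XT.nd (nat_lit 78) (nat_lit 0) (nat_lit 0) (XT.lf (nat_lit 0) (nat_lit 34541513753) (nat_lit 76) (nat_lit 11536040596) (nat_lit 76) (nat_lit 9751031213) (nat_lit 4) (nat_lit 4) (nat_lit 5) (nat_lit 5) (nat_lit 5) (nat_lit 4) (nat_lit 382) (nat_lit 203) (nat_lit 195)) (XT.lf (nat_lit 0) (nat_lit 39266120740) (nat_lit 76) (nat_lit 10075334575) (nat_lit 76) (nat_lit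 8095436154) (nat_lit 4) (nat_lit 4) (nat_lit 5) (nat_lit 5) (nat_lit 5) (nat_lit 4) (nat_lit 383) (nat_lit 203) (nat_lit 194))))) (XT.nd (nat_lit 234) (nat_lit 152) (nat_lit 0) (XT.nd (nat_lit 78) (nat_lit 0) (nat_lit 0) (XT.lf (nat_lit 0) (nat_lit 44067070527) (nat_lit 76) (nat_lit 8598333539) (nat_lit 76) (nat_lit 6429222460) (nat_lit 4) (nat_lit 4) (nat_lit 5) (nat_lit 5) (nat_lit 5) (nat_lit 4) (nat_lit 384) (nat_lit 203) (nat_lit 193)) (XT.nd (nat_lit 78) (nat_lit 0) (nat_lit 0) (XT.lf (nat_lit 0) (nat_lit 48948558121) (nat_lit 76) (nat_lit 7103746906) (nat_lit 76) (nat_lit 4750934217) (nat_lit 4) (nat_lit 4) (nat_lit 5) (nat_lit 5) (nat_lit 5) (nat_lit 4) (nat_lit 385) (nat_lit 203) (nat_lit 192)) (XT.lf (nat_lit 0) (nat_lit 53914848898) (nat_lit 76) (nat_lit 5590268725) (nat_lit 76) (nat_lit 3059104958) (nat_lit 4) (nat_lit 4) (nat_lit 5) (nat_lit 5) (nat_lit 5) (nat_lit 4) (nat_lit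 386) (nat_lit 203) (nat_lit 191)))) (XT.nd (nat_lit 78) (nat_lit 152) (nat_lit 0) (XT.lf (nat_lit 0) (nat_lit 58970282336) (nat_lit 76) (nat_lit 4056576539) (nat_lit 76) (nat_lit 1352256387) (nat_lit 4) (nat_lit 4) (nat_lit 5) (nat_lit 5) (nat_lit 5) (nat_lit 4) (nat_lit 387) (nat_lit 203) (nat_lit 190)) (XT.nd (nat_lit 78) (nat_lit 76) (nat_lit 0) (XT.lf (nat_lit 0) (nat_lit 363861362) (nat_lit 152) (nat_lit 2133794581) (nat_lit 76) (nat_lit 63751740155) (nat_lit 3) (nat_lit 5) (nat_lit 5) (nat_lit 5) (nat_lit 4) (nat_lit 4) (nat_lit 388) (nat_lit 203) (nat_lit 189)) (XT.lf (nat_lit 0) (nat_lit 1192266941) (nat_lit 76) (nat_lit 890450590) (nat_lit 152) (nat_lit 66093349914) (nat_lit 2) (nat_lit 5) (nat_lit 3) (nat_lit 5) (nat_lit 4) (nat_lit 4) (nat_lit 389) (nat_lit 203) (nat_lit 188)))))) (XT.nd (nat_lit 390) (nat_lit 0) (nat_lit 0) (XT.nd (nat_lit 156) (nat_lit 0) (nat_lit 0) (XT.nd (nat_lit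 78) (nat_lit 0) (nat_lit 0) (XT.lf (nat_lit 0) (nat_lit 3849414651) (nat_lit 152) (nat_lit 65562936941) (nat_lit 0) (nat_lit 748334775) (nat_lit 2) (nat_lit 5) (nat_lit 4) (nat_lit 4) (nat_lit 2) (nat_lit 4) (nat_lit 390) (nat_lit 203) (nat_lit 187)) (XT.lf (nat_lit 0) (nat_lit 5646046906) (nat_lit 152) (nat_lit 64163922767) (nat_lit 0) (nat_lit 2395600810) (nat_lit 2) (nat_lit 5) (nat_lit 4) (nat_lit 4) (nat_lit 2) (nat_lit 4) (nat_lit 391) (nat_lit 203) (nat_lit 186))) (XT.nd (nat_lit 78) (nat_lit 0) (nat_lit 0) (XT.lf (nat_lit 0) (nat_lit 7465624613) (nat_lit 152) (nat_lit 62776975988) (nat_lit 0) (nat_lit 4070162770) (nat_lit 2) (nat_lit 5) (nat_lit 4) (nat_lit 4) (nat_lit 2) (nat_lit 4) (nat_lit 392) (nat_lit 203) (nat_lit 185)) (XT.nd (nat_lit 78) (nat_lit 0) (nat_lit 0) (XT.lf (nat_lit 0) (nat_lit 9309737696) (nat_lit 152) (nat_lit 61400884709) (nat_lit 0) (nat_lit 5773483865) (nat_lit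 2) (nat_lit 5) (nat_lit 4) (nat_lit 4) (nat_lit 2) (nat_lit 4) (nat_lit 393) (nat_lit 203) (nat_lit 184)) (XT.lf (nat_lit 0) (nat_lit 11179997514) (nat_lit 152) (nat_lit 60034446519) (nat_lit 0) (nat_lit 7507052433) (nat_lit 2) (nat_lit 5) (nat_lit 4) (nat_lit 4) (nat_lit 2) (nat_lit 4) (nat_lit 394) (nat_lit 203) (nat_lit 183))))) (XT.nd (nat_lit 234) (nat_lit 0) (nat_lit 0) (XT.nd (nat_lit 78) (nat_lit 0) (nat_lit 0) (XT.lf (nat_lit 0) (nat_lit 13078038276) (nat_lit 152) (nat_lit 58676467444) (nat_lit 0) (nat_lit 9272383244) (nat_lit 2) (nat_lit 5) (nat_lit 4) (nat_lit 4) (nat_lit 2) (nat_lit 4) (nat_lit 395) (nat_lit 203) (nat_lit 182)) (XT.nd (nat_lit 78) (nat_lit 0) (nat_lit 0) (XT.lf (nat_lit 0) (nat_lit 15005518463) (nat_lit 152) (nat_lit 57325760900) (nat_lit 0) (nat_lit 11071018818) (nat_lit 2) (nat_lit 5) (nat_lit 4) (nat_lit 4) (nat_lit 2) (nat_lit 4) (nat_lit 396) (nat_lit 203)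 (nat_lit 181)) (XT.lf (nat_lit 0) (nat_lit 16964122283) (nat_lit 152) (nat_lit 55981146657) (nat_lit 0) (nat_lit 12904530780) (nat_lit 2) (nat_lit 5) (nat_lit 4) (nat_lit 4) (nat_lit 2) (nat_lit 4) (nat_lit 397) (nat_lit 203) (nat_lit 180)))) (XT.nd (nat_lit 78) (nat_lit 0) (nat_lit 0) (XT.lf (nat_lit 0) (nat_lit 18955561135) (nat_lit 152) (nat_lit 54641449811) (nat_lit 0) (nat_lit 14774521227) (nat_lit 2) (nat_lit 5) (nat_lit 4) (nat_lit 4) (nat_lit 2) (nat_lit 4) (nat_lit 398) (nat_lit 203) (nat_lit 179)) (XT.nd (nat_lit 78) (nat_lit 0) (nat_lit 0) (XT.lf (nat_lit 0) (nat_lit 20981575113) (nat_lit 152) (nat_lit 53305499752) (nat_lit 0) (nat_lit 16682624132) (nat_lit 2) (nat_lit 5) (nat_lit 4) (nat_lit 4) (nat_lit 2) (nat_lit 4) (nat_lit 399) (nat_lit 203) (nat_lit 178)) (XT.lf (nat_lit 0) (nat_lit 23043934520) (nat_lit 152) (nat_lit 51972129145) (nat_lit 0) (nat_lit 18630506768) (nat_lit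 2) (nat_lit 5) (nat_lit 4) (nat_lit 4) (nat_lit 2) (nat_lit 4) (nat_lit 400) (nat_lit 203) (nat_lit 177))))))))
noncomputable def xc5 : XT := (XT.nd (nat_lit 39936) (nat_lit 0) (nat_lit 0) (XT.nd (nat_lit 39078) (nat_lit 0) (nat_lit 0) (XT.nd (nat_lit 38610) (nat_lit 0) (nat_lit 152) (XT.nd (nat_lit 38376) (nat_lit 0) (nat_lit 228) (XT.nd (nat_lit 78) (nat_lit 0) (nat_lit 0) (XT.lf (nat_lit 0) (nat_lit 25144441417) (nat_lit 152) (nat_lit 50640172910) (nat_lit 0) (nat_lit 20619871170) (nat_lit 2) (nat_lit 5) (nat_lit 4) (nat_lit 4) (nat_lit 2) (nat_lit 4) (nat_lit 401) (nat_lit 203) (nat_lit 176)) (XT.lf (nat_lit 0) (nat_lit 27284931199) (nat_lit 152) (nat_lit 49308467200) (nat_lit 0) (nat_lit 22652455617) (nat_lit 2) (nat_lit 5) (nat_lit 4) (nat_lit 4) (nat_lit 2) (nat_lit 4) (nat_lit 402) (nat_lit 203) (nat_lit 175))) (XT.nd (nat_lit 78) (nat_lit 0) (nat_lit 0) (XT.lf (nat_lit 0) (nat_lit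 8252869396) (nat_lit 152) (nat_lit 4579933818) (nat_lit 0) (nat_lit 8252869396) (nat_lit 5) (nat_lit 5) (nat_lit 7) (nat_lit 4) (nat_lit 5) (nat_lit 4) (nat_lit 372) (nat_lit 204) (nat_lit 204)) (XT.nd (nat_lit 78) (nat_lit 0) (nat_lit 0) (XT.lf (nat_lit 0) (nat_lit 19253737619) (nat_lit 152) (nat_lit 5104889842) (nat_lit 0) (nat_lit 18999451629) (nat_lit 5) (nat_lit 5) (nat_lit 7) (nat_lit 4) (nat_lit 5) (nat_lit 4) (nat_lit 373) (nat_lit 204) (nat_lit 203)) (XT.lf (nat_lit 0) (nat_lit 22035585848) (nat_lit 152) (nat_lit 1011923869) (nat_lit 0) (nat_lit 21534420254) (nat_lit 5) (nat_lit 5) (nat_lit 7) (nat_lit 4) (nat_lit 5) (nat_lit 4) (nat_lit 374) (nat_lit 204) (nat_lit 202))))) (XT.nd (nat_lit 234) (nat_lit 0) (nat_lit 0) (XT.nd (nat_lit 78) (nat_lit 0) (nat_lit 0) (XT.lf (nat_lit 0) (nat_lit 3184752656) (nat_lit 76) (nat_lit 21699575351) (nat_lit 76) (nat_lit 20958720824) (nat_lit 4)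 (nat_lit 4) (nat_lit 5) (nat_lit 5) (nat_lit 5) (nat_lit 4) (nat_lit 375) (nat_lit 204) (nat_lit 201)) (XT.nd (nat_lit 78) (nat_lit 0) (nat_lit 0) (XT.lf (nat_lit 0) (nat_lit 7447644822) (nat_lit 76) (nat_lit 20334531667) (nat_lit 76) (nat_lit 19360969435) (nat_lit 4) (nat_lit 4) (nat_lit 5) (nat_lit 5) (nat_lit 5) (nat_lit 4) (nat_lit 376) (nat_lit 204) (nat_lit 200)) (XT.lf (nat_lit 0) (nat_lit 11760338215) (nat_lit 76) (nat_lit 18961404353) (nat_lit 76) (nat_lit 17761912313) (nat_lit 4) (nat_lit 4) (nat_lit 5) (nat_lit 5) (nat_lit 5) (nat_lit 4) (nat_lit 377) (nat_lit 204) (nat_lit 199)))) (XT.nd (nat_lit 78) (nat_lit 0) (nat_lit 0) (XT.lf (nat_lit 0) (nat_lit 16126601208) (nat_lit 76) (nat_lit 17578993591) (nat_lit 76) (nat_lit 16160152221) (nat_lit 4) (nat_lit 4) (nat_lit 5) (nat_lit 5) (nat_lit 5) (nat_lit 4) (nat_lit 378) (nat_lit 204) (nat_lit 198)) (XT.nd (nat_lit 78) (nat_lit 0) (nat_lit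 0) (XT.lf (nat_lit 0) (nat_lit 20550248982) (nat_lit 76) (nat_lit 16186091448) (nat_lit 76) (nat_lit 14554289565) (nat_lit 4) (nat_lit 4) (nat_lit 5) (nat_lit 5) (nat_lit 5) (nat_lit 4) (nat_lit 379) (nat_lit 204) (nat_lit 197)) (XT.lf (nat_lit 0) (nat_lit 25035146862) (nat_lit 76) (nat_lit 14781480826) (nat_lit 76) (nat_lit 12942921162) (nat_lit 4) (nat_lit 4) (nat_lit 5) (nat_lit 5) (nat_lit 5) (nat_lit 4) (nat_lit 380) (nat_lit 204) (nat_lit 196)))))) (XT.nd (nat_lit 390) (nat_lit 152) (nat_lit 0) (XT.nd (nat_lit 156) (nat_lit 0) (nat_lit 0) (XT.nd (nat_lit 78) (nat_lit 0) (nat_lit 0) (XT.lf (nat_lit 0) (nat_lit 29585213689) (nat_lit 76) (nat_lit 13363934395) (nat_lit 76) (nat_lit 11324639022) (nat_lit 4) (nat_lit 4) (nat_lit 5) (nat_lit 5) (nat_lit 5) (nat_lit 4) (nat_lit 381) (nat_lit 204) (nat_lit 195)) (XT.lf (nat_lit 0) (nat_lit 34204425250) (nat_lit 76) (nat_lit 11932213522) (nat_lit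 76) (nat_lit 9698029111) (nat_lit 4) (nat_lit 4) (nat_lit 5) (nat_lit 5) (nat_lit 5) (nat_lit 4) (nat_lit 382) (nat_lit 204) (nat_lit 194))) (XT.nd (nat_lit 78) (nat_lit 0) (nat_lit 0) (XT.lf (nat_lit 0) (nat_lit 38896817750) (nat_lit 76) (nat_lit 10485067189) (nat_lit 76) (nat_lit 8061670119) (nat_lit 4) (nat_lit 4) (nat_lit 5) (nat_lit 5) (nat_lit 5) (nat_lit 4) (nat_lit 383) (nat_lit 204) (nat_lit 193)) (XT.nd (nat_lit 78) (nat_lit 0) (nat_lit 0) (XT.lf (nat_lit 0) (nat_lit 43666491337) (nat_lit 76) (nat_lit 9021230898) (nat_lit 76) (nat_lit 6414132219) (nat_lit 4) (nat_lit 4) (nat_lit 5) (nat_lit 5) (nat_lit 5) (nat_lit 4) (nat_lit 384) (nat_lit 204) (nat_lit 192)) (XT.lf (nat_lit 0) (nat_lit 48517613687) (nat_lit 76) (nat_lit 7539425571) (nat_lit 76) (nat_lit 4753975814) (nat_lit 4) (nat_lit 4) (nat_lit 5) (nat_lit 5) (nat_lit 5) (nat_lit 4) (nat_lit 385) (nat_lit 204) (nat_lit 191)))))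 (XT.nd (nat_lit 234) (nat_lit 76) (nat_lit 0) (XT.nd (nat_lit 78) (nat_lit 76) (nat_lit 0) (XT.lf (nat_lit 0) (nat_lit 53454423645) (nat_lit 76) (nat_lit 6038356425) (nat_lit 76) (nat_lit 3079750282) (nat_lit 4) (nat_lit 4) (nat_lit 5) (nat_lit 5) (nat_lit 5) (nat_lit 4) (nat_lit 386) (nat_lit 204) (nat_lit 190)) (XT.nd (nat_lit 78) (nat_lit 76) (nat_lit 0) (XT.lf (nat_lit 0) (nat_lit 58481234929) (nat_lit 76) (nat_lit 4516711847) (nat_lit 76) (nat_lit 1389992708) (nat_lit 4) (nat_lit 4) (nat_lit 5) (nat_lit 5) (nat_lit 5) (nat_lit 4) (nat_lit 387) (nat_lit 204) (nat_lit 189)) (XT.lf (nat_lit 0) (nat_lit 310592006) (nat_lit 152) (nat_lit 2659433868) (nat_lit 76) (nat_lit 63288711521) (nat_lit 3) (nat_lit 5) (nat_lit 5) (nat_lit 5) (nat_lit 4) (nat_lit 4) (nat_lit 388) (nat_lit 204) (nat_lit 188)))) (XT.nd (nat_lit 78) (nat_lit 0) (nat_lit 0) (XT.lf (nat_lit 0) (nat_lit 628311789) (nat_lit 76)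 (nat_lit 1379919763) (nat_lit 152) (nat_lit 66177831270) (nat_lit 2) (nat_lit 5) (nat_lit 3) (nat_lit 5) (nat_lit 4) (nat_lit 4) (nat_lit 389) (nat_lit 204) (nat_lit 187)) (XT.nd (nat_lit 78) (nat_lit 0) (nat_lit 0) (XT.lf (nat_lit 0) (nat_lit 3754518116) (nat_lit 152) (nat_lit 66159600597) (nat_lit 0) (nat_lit 257192418) (nat_lit 2) (nat_lit 5) (nat_lit 4) (nat_lit 4) (nat_lit 2) (nat_lit 4) (nat_lit 390) (nat_lit 204) (nat_lit 186)) (XT.lf (nat_lit 0) (nat_lit 5535902334) (nat_lit 152) (nat_lit 64787206040) (nat_lit 0) (nat_lit 1893560888) (nat_lit 2) (nat_lit 5) (nat_lit 4) (nat_lit 4) (nat_lit 2) (nat_lit 4) (nat_lit 391) (nat_lit 204) (nat_lit 185))))))) (XT.nd (nat_lit 38922) (nat_lit 0) (nat_lit 152) (XT.nd (nat_lit 390) (nat_lit 0) (nat_lit 0) (XT.nd (nat_lit 156) (nat_lit 0) (nat_lit 0) (XT.nd (nat_lit 78) (nat_lit 0) (nat_lit 0) (XT.lf (nat_lit 0) (nat_lit 7340676122) (nat_lit 152)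 (nat_lit 63426103548) (nat_lit 0) (nat_lit 3557542689) (nat_lit 2) (nat_lit 5) (nat_lit 4) (nat_lit 4) (nat_lit 2) (nat_lit 4) (nat_lit 392) (nat_lit 204) (nat_lit 184)) (XT.lf (nat_lit 0) (nat_lit 9170416467) (nat_lit 152) (nat_lit 62075103809) (nat_lit 0) (nat_lit 5250591784) (nat_lit 2) (nat_lit 5) (nat_lit 4) (nat_lit 4) (nat_lit 2) (nat_lit 4) (nat_lit 393) (nat_lit 204) (nat_lit 183))) (XT.nd (nat_lit 78) (nat_lit 0) (nat_lit 0) (XT.lf (nat_lit 0) (nat_lit 11026722171) (nat_lit 152) (nat_lit 60733026339) (nat_lit 0) (nat_lit 6974187537) (nat_lit 2) (nat_lit 5) (nat_lit 4) (nat_lit 4) (nat_lit 2) (nat_lit 4) (nat_lit 394) (nat_lit 204) (nat_lit 182)) (XT.nd (nat_lit 78) (nat_lit 0) (nat_lit 0) (XT.lf (nat_lit 0) (nat_lit 12911215250) (nat_lit 152) (nat_lit 59398698448) (nat_lit 0) (nat_lit 8729836002) (nat_lit 2) (nat_lit 5) (nat_lit 4) (nat_lit 4) (nat_lit 2) (nat_lit 4) (nat_lit 395)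 (nat_lit 204) (nat_lit 181)) (XT.lf (nat_lit 0) (nat_lit 14825542347) (nat_lit 152) (nat_lit 58070954218) (nat_lit 0) (nat_lit 10519071241) (nat_lit 2) (nat_lit 5) (nat_lit 4) (nat_lit 4) (nat_lit 2) (nat_lit 4) (nat_lit 396) (nat_lit 204) (nat_lit 180))))) (XT.nd (nat_lit 234) (nat_lit 0) (nat_lit 0) (XT.nd (nat_lit 78) (nat_lit 0) (nat_lit 0) (XT.lf (nat_lit 0) (nat_lit 16771376175) (nat_lit 152) (nat_lit 56748633484) (nat_lit 0) (nat_lit 12343456665) (nat_lit 2) (nat_lit 5) (nat_lit 4) (nat_lit 4) (nat_lit 2) (nat_lit 4) (nat_lit 397) (nat_lit 204) (nat_lit 179)) (XT.nd (nat_lit 78) (nat_lit 0) (nat_lit 0) (XT.lf (nat_lit 0) (nat_lit 18750416978) (nat_lit 152) (nat_lit 55430580822) (nat_lit 0) (nat_lit 14204586394) (nat_lit 2) (nat_lit 5) (nat_lit 4) (nat_lit 4) (nat_lit 2) (nat_lit 4) (nat_lit 398) (nat_lit 204) (nat_lit 178)) (XT.lf (nat_lit 0) (nat_lit 20764394015) (nat_lit 152) (nat_lit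 54115644533) (nat_lit 0) (nat_lit 16104086661) (nat_lit 2) (nat_lit 5) (nat_lit 4) (nat_lit 4) (nat_lit 2) (nat_lit 4) (nat_lit 399) (nat_lit 204) (nat_lit 177)))) (XT.nd (nat_lit 78) (nat_lit 0) (nat_lit 0) (XT.lf (nat_lit 0) (nat_lit 22815067071) (nat_lit 152) (nat_lit 52802675645) (nat_lit 0) (nat_lit 18043617222) (nat_lit 2) (nat_lit 5) (nat_lit 4) (nat_lit 4) (nat_lit 2) (nat_lit 4) (nat_lit 400) (nat_lit 204) (nat_lit 176)) (XT.nd (nat_lit 78) (nat_lit 0) (nat_lit 0) (XT.lf (nat_lit 0) (nat_lit 24904227997) (nat_lit 152) (nat_lit 51490526904) (nat_lit 0) (nat_lit 20024872812) (nat_lit 2) (nat_lit 5) (nat_lit 4) (nat_lit 4) (nat_lit 2) (nat_lit 4) (nat_lit 401) (nat_lit 204) (nat_lit 175)) (XT.lf (nat_lit 0) (nat_lit 27033702272) (nat_lit 152) (nat_lit 50178051771) (nat_lit 0) (nat_lit 22049584627) (nat_lit 2) (nat_lit 5) (nat_lit 4) (nat_lit 4) (nat_lit 2) (nat_lit 4) (nat_lit 402) (nat_lit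 204) (nat_lit 174)))))) (XT.nd (nat_lit 390) (nat_lit 76) (nat_lit 0) (XT.nd (nat_lit 156) (nat_lit 0) (nat_lit 0) (XT.nd (nat_lit 78) (nat_lit 0) (nat_lit 0) (XT.lf (nat_lit 0) (nat_lit 5694510343) (nat_lit 152) (nat_lit 8563139549) (nat_lit 0) (nat_lit 5694510343) (nat_lit 5) (nat_lit 5) (nat_lit 7) (nat_lit 4) (nat_lit 5) (nat_lit 4) (nat_lit 370) (nat_lit 205) (nat_lit 205)) (XT.lf (nat_lit 0) (nat_lit 14051102770) (nat_lit 152) (nat_lit 13180400434) (nat_lit 0) (nat_lit 13789188200) (nat_lit 5) (nat_lit 5) (nat_lit 7) (nat_lit 4) (nat_lit 5) (nat_lit 4) (nat_lit 371) (nat_lit 205) (nat_lit 204))) (XT.nd (nat_lit 78) (nat_lit 0) (nat_lit 0) (XT.lf (nat_lit 0) (nat_lit 16742999036) (nat_lit 152) (nat_lit 9202316399) (nat_lit 0) (nat_lit 16226798475) (nat_lit 5) (nat_lit 5) (nat_lit 7) (nat_lit 4) (nat_lit 5) (nat_lit 4) (nat_lit 372) (nat_lit 205) (nat_lit 203)) (XT.nd (nat_lit 78) (nat_lit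 0) (nat_lit 0) (XT.lf (nat_lit 0) (nat_lit 19467061625) (nat_lit 152) (nat_lit 5188550996) (nat_lit 0) (nat_lit 18703981462) (nat_lit 5) (nat_lit 5) (nat_lit 7) (nat_lit 4) (nat_lit 5) (nat_lit 4) (nat_lit 373) (nat_lit 205) (nat_lit 202)) (XT.lf (nat_lit 0) (nat_lit 22225670787) (nat_lit 152) (nat_lit 1135597053) (nat_lit 0) (nat_lit 21222901689) (nat_lit 5) (nat_lit 5) (nat_lit 7) (nat_lit 4) (nat_lit 5) (nat_lit 4) (nat_lit 374) (nat_lit 205) (nat_lit 201))))) (XT.nd (nat_lit 234) (nat_lit 0) (nat_lit 0) (XT.nd (nat_lit 78) (nat_lit 0) (nat_lit 0) (XT.lf (nat_lit 0) (nat_lit 3018998377) (nat_lit 76) (nat_lit 22031259037) (nat_lit 76) (nat_lit 20795782236) (nat_lit 4) (nat_lit 4) (nat_lit 5) (nat_lit 5) (nat_lit 5) (nat_lit 4) (nat_lit 375) (nat_lit 205) (nat_lit 200)) (XT.nd (nat_lit 78) (nat_lit 0) (nat_lit 0) (XT.lf (nat_lit 0) (nat_lit 7243424761) (nat_lit 76) (nat_lit 20682406329) (nat_lit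 76) (nat_lit 19220999718) (nat_lit 4) (nat_lit 4) (nat_lit 5) (nat_lit 5) (nat_lit 5) (nat_lit 4) (nat_lit 376) (nat_lit 205) (nat_lit 199)) (XT.lf (nat_lit 0) (nat_lit 11518772734) (nat_lit 76) (nat_lit 19324998410) (nat_lit 76) (nat_lit 17644242470) (nat_lit 4) (nat_lit 4) (nat_lit 5) (nat_lit 5) (nat_lit 5) (nat_lit 4) (nat_lit 377) (nat_lit 205) (nat_lit 198)))) (XT.nd (nat_lit 78) (nat_lit 0) (nat_lit 0) (XT.lf (nat_lit 0) (nat_lit 15848778038) (nat_lit 76) (nat_lit 17957849196) (nat_lit 76) (nat_lit 16064132742) (nat_lit 4) (nat_lit 4) (nat_lit 5) (nat_lit 5) (nat_lit 5) (nat_lit 4) (nat_lit 378) (nat_lit 205) (nat_lit 197)) (XT.nd (nat_lit 78) (nat_lit 0) (nat_lit 0) (XT.lf (nat_lit 0) (nat_lit 20237224173) (nat_lit 76) (nat_lit 16579764090) (nat_lit 76) (nat_lit 14479289855) (nat_lit 4) (nat_lit 4) (nat_lit 5) (nat_lit 5) (nat_lit 5) (nat_lit 4) (nat_lit 379) (nat_lit 205) (nat_lit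 196)) (XT.lf (nat_lit 0) (nat_lit 24687945704) (nat_lit 76) (nat_lit 15189538940) (nat_lit 76) (nat_lit 12888328997) (nat_lit 4) (nat_lit 4) (nat_lit 5) (nat_lit 5) (nat_lit 5) (nat_lit 4) (nat_lit 380) (nat_lit 205) (nat_lit 195))))))))
noncomputable def xc6 : XT := (XT.nd (nat_lit 39624) (nat_lit 0) (nat_lit 76) (XT.nd (nat_lit 858) (nat_lit 0) (nat_lit 0) (XT.nd (nat_lit 390) (nat_lit 152) (nat_lit 0) (XT.nd (nat_lit 156) (nat_lit 0) (nat_lit 0) (XT.nd (nat_lit 78) (nat_lit 0) (nat_lit 0) (XT.lf (nat_lit 0) (nat_lit 29204831609) (nat_lit 76) (nat_lit 13785958987) (nat_lit 76) (nat_lit 11289860006) (nat_lit 4) (nat_lit 4) (nat_lit 5) (nat_lit 5) (nat_lit 5) (nat_lit 4) (nat_lit 381) (nat_lit 205) (nat_lit 194)) (XT.lf (nat_lit 0) (nat_lit 33791828684) (nat_lit 76) (nat_lit 12367797802) (nat_lit 76) (nat_lit 9682486162) (nat_lit 4) (nat_lit 4) (nat_lit 5) (nat_lit 5) (nat_lit 5) (nat_lit 4)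 (nat_lit 382) (nat_lit 205) (nat_lit 193))) (XT.nd (nat_lit 78) (nat_lit 0) (nat_lit 0) (XT.lf (nat_lit 0) (nat_lit 38452944983) (nat_lit 76) (nat_lit 10933816214) (nat_lit 76) (nat_lit 8064802964) (nat_lit 4) (nat_lit 4) (nat_lit 5) (nat_lit 5) (nat_lit 5) (nat_lit 4) (nat_lit 383) (nat_lit 205) (nat_lit 192)) (XT.nd (nat_lit 78) (nat_lit 0) (nat_lit 0) (XT.lf (nat_lit 0) (nat_lit 43192253326) (nat_lit 76) (nat_lit 9482761230) (nat_lit 76) (nat_lit 6435396903) (nat_lit 4) (nat_lit 4) (nat_lit 5) (nat_lit 5) (nat_lit 5) (nat_lit 4) (nat_lit 384) (nat_lit 205) (nat_lit 191)) (XT.lf (nat_lit 0) (nat_lit 48013894857) (nat_lit 76) (nat_lit 8013364938) (nat_lit 76) (nat_lit 4792844225) (nat_lit 4) (nat_lit 4) (nat_lit 5) (nat_lit 5) (nat_lit 5) (nat_lit 4) (nat_lit 385) (nat_lit 205) (nat_lit 190))))) (XT.nd (nat_lit 234) (nat_lit 76) (nat_lit 0) (XT.nd (nat_lit 78) (nat_lit 76) (nat_lit 0) (XT.lf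 (nat_lit 0) (nat_lit 52922082661) (nat_lit 76) (nat_lit 6524343399) (nat_lit 76) (nat_lit 3135709689) (nat_lit 4) (nat_lit 4) (nat_lit 5) (nat_lit 5) (nat_lit 5) (nat_lit 4) (nat_lit 386) (nat_lit 205) (nat_lit 189)) (XT.nd (nat_lit 78) (nat_lit 76) (nat_lit 0) (XT.lf (nat_lit 0) (nat_lit 57921105445) (nat_lit 76) (nat_lit 5014395526) (nat_lit 76) (nat_lit 1462545316) (nat_lit 4) (nat_lit 4) (nat_lit 5) (nat_lit 5) (nat_lit 5) (nat_lit 4) (nat_lit 387) (nat_lit 205) (nat_lit 188)) (XT.lf (nat_lit 0) (nat_lit 223659619) (nat_lit 152) (nat_lit 3256283805) (nat_lit 76) (nat_lit 62789413145) (nat_lit 3) (nat_lit 5) (nat_lit 5) (nat_lit 5) (nat_lit 4) (nat_lit 4) (nat_lit 388) (nat_lit 205) (nat_lit 187)))) (XT.nd (nat_lit 78) (nat_lit 76) (nat_lit 0) (XT.lf (nat_lit 0) (nat_lit 1899923971) (nat_lit 152) (nat_lit 7314377) (nat_lit 76) (nat_lit 66290101976) (nat_lit 3) (nat_lit 5) (nat_lit 5) (nat_lit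 5) (nat_lit 4) (nat_lit 4) (nat_lit 389) (nat_lit 205) (nat_lit 186)) (XT.nd (nat_lit 78) (nat_lit 0) (nat_lit 0) (XT.lf (nat_lit 0) (nat_lit 3352280291) (nat_lit 76) (nat_lit 276195841) (nat_lit 152) (nat_lit 66554661106) (nat_lit 2) (nat_lit 5) (nat_lit 3) (nat_lit 5) (nat_lit 4) (nat_lit 4) (nat_lit 390) (nat_lit 205) (nat_lit 185)) (XT.lf (nat_lit 0) (nat_lit 5392401468) (nat_lit 152) (nat_lit 65481651713) (nat_lit 0) (nat_lit 1354982044) (nat_lit 2) (nat_lit 5) (nat_lit 4) (nat_lit 4) (nat_lit 2) (nat_lit 4) (nat_lit 391) (nat_lit 205) (nat_lit 184)))))) (XT.nd (nat_lit 390) (nat_lit 0) (nat_lit 0) (XT.nd (nat_lit 156) (nat_lit 0) (nat_lit 0) (XT.nd (nat_lit 78) (nat_lit 0) (nat_lit 0) (XT.lf (nat_lit 0) (nat_lit 7182802519) (nat_lit 152) (nat_lit 64145640762) (nat_lit 0) (nat_lit 3008691845) (nat_lit 2) (nat_lit 5) (nat_lit 4) (nat_lit 4) (nat_lit 2) (nat_lit 4) (nat_lit 392) (nat_lit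 205) (nat_lit 183)) (XT.lf (nat_lit 0) (nat_lit 8998588750) (nat_lit 152) (nat_lit 62819001743) (nat_lit 0) (nat_lit 4691768125) (nat_lit 2) (nat_lit 5) (nat_lit 4) (nat_lit 4) (nat_lit 2) (nat_lit 4) (nat_lit 393) (nat_lit 205) (nat_lit 182))) (XT.nd (nat_lit 78) (nat_lit 0) (nat_lit 0) (XT.lf (nat_lit 0) (nat_lit 10841346771) (nat_lit 152) (nat_lit 61500575457) (nat_lit 0) (nat_lit 6405681533) (nat_lit 2) (nat_lit 5) (nat_lit 4) (nat_lit 4) (nat_lit 2) (nat_lit 4) (nat_lit 394) (nat_lit 205) (nat_lit 181)) (XT.nd (nat_lit 78) (nat_lit 0) (nat_lit 0) (XT.lf (nat_lit 0) (nat_lit 12712686759) (nat_lit 152) (nat_lit 60189209880) (nat_lit 0) (nat_lit 8151929663) (nat_lit 2) (nat_lit 5) (nat_lit 4) (nat_lit 4) (nat_lit 2) (nat_lit 4) (nat_lit 395) (nat_lit 205) (nat_lit 180)) (XT.lf (nat_lit 0) (nat_lit 14614243866) (nat_lit 152) (nat_lit 58883759159) (nat_lit 0) (nat_lit 9932038364) (nat_lit 2)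 (nat_lit 5) (nat_lit 4) (nat_lit 4) (nat_lit 2) (nat_lit 4) (nat_lit 396) (nat_lit 205) (nat_lit 179))))) (XT.nd (nat_lit 234) (nat_lit 0) (nat_lit 0) (XT.nd (nat_lit 78) (nat_lit 0) (nat_lit 0) (XT.lf (nat_lit 0) (nat_lit 16547679645) (nat_lit 152) (nat_lit 57583082609) (nat_lit 0) (nat_lit 11747563070) (nat_lit 2) (nat_lit 5) (nat_lit 4) (nat_lit 4) (nat_lit 2) (nat_lit 4) (nat_lit 397) (nat_lit 205) (nat_lit 178)) (XT.nd (nat_lit 78) (nat_lit 0) (nat_lit 0) (XT.lf (nat_lit 0) (nat_lit 18514683507) (nat_lit 152) (nat_lit 56286043717) (nat_lit 0) (nat_lit 13600090162) (nat_lit 2) (nat_lit 5) (nat_lit 4) (nat_lit 4) (nat_lit 2) (nat_lit 4) (nat_lit 398) (nat_lit 205) (nat_lit 177)) (XT.lf (nat_lit 0) (nat_lit 20516974193) (nat_lit 152) (nat_lit 54991509147) (nat_lit 0) (nat_lit 15491238353) (nat_lit 2) (nat_lit 5) (nat_lit 4) (nat_lit 4) (nat_lit 2) (nat_lit 4) (nat_lit 399) (nat_lit 205) (nat_lit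 176)))) (XT.nd (nat_lit 78) (nat_lit 0) (nat_lit 0) (XT.lf (nat_lit 0) (nat_lit 22556301277) (nat_lit 152) (nat_lit 53698347753) (nat_lit 0) (nat_lit 17422660102) (nat_lit 2) (nat_lit 5) (nat_lit 4) (nat_lit 4) (nat_lit 2) (nat_lit 4) (nat_lit 400) (nat_lit 205) (nat_lit 175)) (XT.nd (nat_lit 78) (nat_lit 0) (nat_lit 0) (XT.lf (nat_lit 0) (nat_lit 24634446696) (nat_lit 152) (nat_lit 52405429589) (nat_lit 0) (nat_lit 19396043060) (nat_lit 2) (nat_lit 5) (nat_lit 4) (nat_lit 4) (nat_lit 2) (nat_lit 4) (nat_lit 401) (nat_lit 205) (nat_lit 174)) (XT.lf (nat_lit 0) (nat_lit 26753226306) (nat_lit 152) (nat_lit 51111624919) (nat_lit 0) (nat_lit 21413111542) (nat_lit 2) (nat_lit 5) (nat_lit 4) (nat_lit 4) (nat_lit 2) (nat_lit 4) (nat_lit 402) (nat_lit 205) (nat_lit 173))))))) (XT.nd (nat_lit 858) (nat_lit 76) (nat_lit 0) (XT.nd (nat_lit 390) (nat_lit 76) (nat_lit 0) (XT.nd (nat_lit 156) (nat_lit 0)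 (nat_lit 0) (XT.nd (nat_lit 78) (nat_lit 0) (nat_lit 0) (XT.lf (nat_lit 0) (nat_lit 3220473248) (nat_lit 152) (nat_lit 12445076357) (nat_lit 0) (nat_lit 3220473248) (nat_lit 5) (nat_lit 5) (nat_lit 7) (nat_lit 4) (nat_lit 5) (nat_lit 4) (nat_lit 368) (nat_lit 206) (nat_lit 206)) (XT.lf (nat_lit 0) (nat_lit 9024198699) (nat_lit 152) (nat_lit 21043400247) (nat_lit 0) (nat_lit 8754426691) (nat_lit 5) (nat_lit 5) (nat_lit 7) (nat_lit 4) (nat_lit 5) (nat_lit 4) (nat_lit 369) (nat_lit 206) (nat_lit 205))) (XT.nd (nat_lit 78) (nat_lit 0) (nat_lit 0) (XT.lf (nat_lit 0) (nat_lit 11633398738) (nat_lit 152) (nat_lit 17170001324) (nat_lit 0) (nat_lit 11101712160) (nat_lit 5) (nat_lit 5) (nat_lit 7) (nat_lit 4) (nat_lit 5) (nat_lit 4) (nat_lit 370) (nat_lit 206) (nat_lit 204)) (XT.nd (nat_lit 78) (nat_lit 0) (nat_lit 0) (XT.lf (nat_lit 0) (nat_lit 14270826496) (nat_lit 152) (nat_lit 13266571423) (nat_lit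 0) (nat_lit 13484853928) (nat_lit 5) (nat_lit 5) (nat_lit 7) (nat_lit 4) (nat_lit 5) (nat_lit 4) (nat_lit 371) (nat_lit 206) (nat_lit 203)) (XT.lf (nat_lit 0) (nat_lit 16938786523) (nat_lit 152) (nat_lit 9329699779) (nat_lit 0) (nat_lit 15905934352) (nat_lit 5) (nat_lit 5) (nat_lit 7) (nat_lit 4) (nat_lit 5) (nat_lit 4) (nat_lit 372) (nat_lit 206) (nat_lit 202))))) (XT.nd (nat_lit 234) (nat_lit 0) (nat_lit 0) (XT.nd (nat_lit 78) (nat_lit 76) (nat_lit 0) (XT.lf (nat_lit 0) (nat_lit 19639610046) (nat_lit 152) (nat_lit 5355946407) (nat_lit 0) (nat_lit 18367068940) (nat_lit 5) (nat_lit 5) (nat_lit 7) (nat_lit 4) (nat_lit 5) (nat_lit 4) (nat_lit 373) (nat_lit 206) (nat_lit 201)) (XT.nd (nat_lit 78) (nat_lit 76) (nat_lit 0) (XT.lf (nat_lit 0) (nat_lit 22375657007) (nat_lit 152) (nat_lit 1341839095) (nat_lit 0) (nat_lit 20870408198) (nat_lit 5) (nat_lit 5) (nat_lit 7) (nat_lit 4) (nat_lit 5) (nat_lit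 4) (nat_lit 374) (nat_lit 206) (nat_lit 200)) (XT.lf (nat_lit 0) (nat_lit 2770185932) (nat_lit 76) (nat_lit 22405760916) (nat_lit 76) (nat_lit 20674582297) (nat_lit 4) (nat_lit 4) (nat_lit 5) (nat_lit 5) (nat_lit 5) (nat_lit 4) (nat_lit 375) (nat_lit 206) (nat_lit 199)))) (XT.nd (nat_lit 78) (nat_lit 0) (nat_lit 0) (XT.lf (nat_lit 0) (nat_lit 6957266896) (nat_lit 76) (nat_lit 21072627601) (nat_lit 76) (nat_lit 19122099654) (nat_lit 4) (nat_lit 4) (nat_lit 5) (nat_lit 5) (nat_lit 5) (nat_lit 4) (nat_lit 376) (nat_lit 206) (nat_lit 198)) (XT.nd (nat_lit 78) (nat_lit 0) (nat_lit 0) (XT.lf (nat_lit 0) (nat_lit 11196357181) (nat_lit 76) (nat_lit 19730481230) (nat_lit 76) (nat_lit 17566992769) (nat_lit 4) (nat_lit 4) (nat_lit 5) (nat_lit 5) (nat_lit 5) (nat_lit 4) (nat_lit 377) (nat_lit 206) (nat_lit 197)) (XT.lf (nat_lit 0) (nat_lit 15491160846) (nat_lit 76) (nat_lit 18378149053) (nat_lit 76) (nat_lit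 16007902811) (nat_lit 4) (nat_lit 4) (nat_lit 5) (nat_lit 5) (nat_lit 5) (nat_lit 4) (nat_lit 378) (nat_lit 206) (nat_lit 196)))))) (XT.nd (nat_lit 390) (nat_lit 76) (nat_lit 0) (XT.nd (nat_lit 156) (nat_lit 0) (nat_lit 0) (XT.nd (nat_lit 78) (nat_lit 0) (nat_lit 0) (XT.lf (nat_lit 0) (nat_lit 19845430632) (nat_lit 76) (nat_lit 17014449420) (nat_lit 76) (nat_lit 14443467469) (nat_lit 4) (nat_lit 4) (nat_lit 5) (nat_lit 5) (nat_lit 5) (nat_lit 4) (nat_lit 379) (nat_lit 206) (nat_lit 195)) (XT.lf (nat_lit 0) (nat_lit 24262971240) (nat_lit 76) (nat_lit 15638190749) (nat_lit 76) (nat_lit 12872319760) (nat_lit 4) (nat_lit 4) (nat_lit 5) (nat_lit 5) (nat_lit 5) (nat_lit 4) (nat_lit 380) (nat_lit 206) (nat_lit 194))) (XT.nd (nat_lit 78) (nat_lit 0) (nat_lit 0) (XT.lf (nat_lit 0) (nat_lit 28747642659) (nat_lit 76) (nat_lit 14248170484) (nat_lit 76) (nat_lit 11293086837) (nat_lit 4) (nat_lit 4) (nat_lit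 5) (nat_lit 5) (nat_lit 5) (nat_lit 4) (nat_lit 381) (nat_lit 206) (nat_lit 193)) (XT.nd (nat_lit 78) (nat_lit 0) (nat_lit 0) (XT.lf (nat_lit 0) (nat_lit 33303363533) (nat_lit 76) (nat_lit 12843174044) (nat_lit 76) (nat_lit 9704388787) (nat_lit 4) (nat_lit 4) (nat_lit 5) (nat_lit 5) (nat_lit 5) (nat_lit 4) (nat_lit 382) (nat_lit 206) (nat_lit 192)) (XT.lf (nat_lit 0) (nat_lit 37934114588) (nat_lit 76) (nat_lit 11421973762) (nat_lit 76) (nat_lit 8104837427) (nat_lit 4) (nat_lit 4) (nat_lit 5) (nat_lit 5) (nat_lit 5) (nat_lit 4) (nat_lit 383) (nat_lit 206) (nat_lit 191))))) (XT.nd (nat_lit 234) (nat_lit 76) (nat_lit 0) (XT.nd (nat_lit 78) (nat_lit 0) (nat_lit 0) (XT.lf (nat_lit 0) (nat_lit 42643942112) (nat_lit 76) (nat_lit 9983327813) (nat_lit 76) (nat_lit 6493035092) (nat_lit 4) (nat_lit 4) (nat_lit 5) (nat_lit 5) (nat_lit 5) (nat_lit 4) (nat_lit 384) (nat_lit 206) (nat_lit 190)) (XT.nd (nat_lit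 78) (nat_lit 0) (nat_lit 0) (XT.lf (nat_lit 0) (nat_lit 47436961489) (nat_lit 76) (nat_lit 8525979128) (nat_lit 76) (nat_lit 4867573411) (nat_lit 4) (nat_lit 4) (nat_lit 5) (nat_lit 5) (nat_lit 5) (nat_lit 4) (nat_lit 385) (nat_lit 206) (nat_lit 189)) (XT.lf (nat_lit 0) (nat_lit 52317360794) (nat_lit 76) (nat_lit 7048654294) (nat_lit 76) (nat_lit 3227032076) (nat_lit 4) (nat_lit 4) (nat_lit 5) (nat_lit 5) (nat_lit 5) (nat_lit 4) (nat_lit 386) (nat_lit 206) (nat_lit 188)))) (XT.nd (nat_lit 78) (nat_lit 76) (nat_lit 0) (XT.lf (nat_lit 0) (nat_lit 57289404452) (nat_lit 76) (nat_lit 5550062447) (nat_lit 76) (nat_lit 1569977606) (nat_lit 4) (nat_lit 4) (nat_lit 5) (nat_lit 5) (nat_lit 5) (nat_lit 4) (nat_lit 387) (nat_lit 206) (nat_lit 187)) (XT.nd (nat_lit 78) (nat_lit 0) (nat_lit 0) (XT.lf (nat_lit 0) (nat_lit 102988242) (nat_lit 152) (nat_lit 3924865914) (nat_lit 76) (nat_lit 62253408747) (nat_lit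 3) (nat_lit 5) (nat_lit 5) (nat_lit 5) (nat_lit 4) (nat_lit 4) (nat_lit 388) (nat_lit 206) (nat_lit 186)) (XT.lf (nat_lit 0) (nat_lit 1764363782) (nat_lit 152) (nat_lit 701639788) (nat_lit 76) (nat_lit 65743706325) (nat_lit 3) (nat_lit 5) (nat_lit 5) (nat_lit 5) (nat_lit 4) (nat_lit 4) (nat_lit 389) (nat_lit 206) (nat_lit 185))))))))
noncomputable def xc7 : XT := (XT.nd (nat_lit 39468) (nat_lit 0) (nat_lit 0) (XT.nd (nat_lit 858) (nat_lit 0) (nat_lit 0) (XT.nd (nat_lit 390) (nat_lit 0) (nat_lit 0) (XT.nd (nat_lit 156) (nat_lit 0) (nat_lit 0) (XT.nd (nat_lit 78) (nat_lit 0) (nat_lit 0) (XT.lf (nat_lit 0) (nat_lit 2618645525) (nat_lit 76) (nat_lit 852763114) (nat_lit 152) (nat_lit 66724759480) (nat_lit 2) (nat_lit 5) (nat_lit 3) (nat_lit 5) (nat_lit 4) (nat_lit 4) (nat_lit 390) (nat_lit 206) (nat_lit 184)) (XT.lf (nat_lit 0) (nat_lit 5215418920) (nat_lit 152) (nat_lit 66247866585) (nat_lit 0)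 (nat_lit 779393676) (nat_lit 2) (nat_lit 5) (nat_lit 4) (nat_lit 4) (nat_lit 2) (nat_lit 4) (nat_lit 391) (nat_lit 206) (nat_lit 183))) (XT.nd (nat_lit 78) (nat_lit 0) (nat_lit 0) (XT.lf (nat_lit 0) (nat_lit 6991865857) (nat_lit 152) (nat_lit 64936216353) (nat_lit 0) (nat_lit 2423130661) (nat_lit 2) (nat_lit 5) (nat_lit 4) (nat_lit 4) (nat_lit 2) (nat_lit 4) (nat_lit 392) (nat_lit 206) (nat_lit 182)) (XT.nd (nat_lit 78) (nat_lit 0) (nat_lit 0) (XT.lf (nat_lit 0) (nat_lit 8794104405) (nat_lit 152) (nat_lit 63633228518) (nat_lit 0) (nat_lit 4096524596) (nat_lit 2) (nat_lit 5) (nat_lit 4) (nat_lit 4) (nat_lit 2) (nat_lit 4) (nat_lit 393) (nat_lit 206) (nat_lit 181)) (XT.lf (nat_lit 0) (nat_lit 10623709336) (nat_lit 152) (nat_lit 62337764546) (nat_lit 0) (nat_lit 5801037669) (nat_lit 2) (nat_lit 5) (nat_lit 4) (nat_lit 4) (nat_lit 2) (nat_lit 4) (nat_lit 394) (nat_lit 206) (nat_lit 180))))) (XT.nd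 (nat_lit 234) (nat_lit 0) (nat_lit 0) (XT.nd (nat_lit 78) (nat_lit 0) (nat_lit 0) (XT.lf (nat_lit 0) (nat_lit 12482279333) (nat_lit 152) (nat_lit 61048692478) (nat_lit 0) (nat_lit 7538159261) (nat_lit 2) (nat_lit 5) (nat_lit 4) (nat_lit 4) (nat_lit 2) (nat_lit 4) (nat_lit 395) (nat_lit 206) (nat_lit 179)) (XT.nd (nat_lit 78) (nat_lit 0) (nat_lit 0) (XT.lf (nat_lit 0) (nat_lit 14371438389) (nat_lit 152) (nat_lit 59764885940) (nat_lit 0) (nat_lit 9309407244) (nat_lit 2) (nat_lit 5) (nat_lit 4) (nat_lit 4) (nat_lit 2) (nat_lit 4) (nat_lit 396) (nat_lit 206) (nat_lit 178)) (XT.lf (nat_lit 0) (nat_lit 16292837227) (nat_lit 152) (nat_lit 58485223161) (nat_lit 0) (nat_lit 11116329312) (nat_lit 2) (nat_lit 5) (nat_lit 4) (nat_lit 4) (nat_lit 2) (nat_lit 4) (nat_lit 397) (nat_lit 206) (nat_lit 177)))) (XT.nd (nat_lit 78) (nat_lit 0) (nat_lit 0) (XT.lf (nat_lit 0) (nat_lit 18248154739) (nat_lit 152)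 (nat_lit 57208585988) (nat_lit 0) (nat_lit 12960504329) (nat_lit 2) (nat_lit 5) (nat_lit 4) (nat_lit 4) (nat_lit 2) (nat_lit 4) (nat_lit 398) (nat_lit 206) (nat_lit 176)) (XT.nd (nat_lit 78) (nat_lit 0) (nat_lit 0) (XT.lf (nat_lit 0) (nat_lit 20239099453) (nat_lit 152) (nat_lit 55933858912) (nat_lit 0) (nat_lit 14843543708) (nat_lit 2) (nat_lit 5) (nat_lit 4) (nat_lit 4) (nat_lit 2) (nat_lit 4) (nat_lit 399) (nat_lit 206) (nat_lit 175)) (XT.lf (nat_lit 0) (nat_lit 22267411031) (nat_lit 152) (nat_lit 54659928096) (nat_lit 0) (nat_lit 16767092825) (nat_lit 2) (nat_lit 5) (nat_lit 4) (nat_lit 4) (nat_lit 2) (nat_lit 4) (nat_lit 400) (nat_lit 206) (nat_lit 174)))))) (XT.nd (nat_lit 38142) (nat_lit 0) (nat_lit 228) (XT.nd (nat_lit 37908) (nat_lit 0) (nat_lit 228) (XT.nd (nat_lit 78) (nat_lit 0) (nat_lit 0) (XT.lf (nat_lit 0) (nat_lit 24334861784) (nat_lit 152) (nat_lit 53385680394) (nat_lit 0) (nat_lit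 18732832450) (nat_lit 2) (nat_lit 5) (nat_lit 4) (nat_lit 4) (nat_lit 2) (nat_lit 4) (nat_lit 401) (nat_lit 206) (nat_lit 173)) (XT.lf (nat_lit 0) (nat_lit 26443258223) (nat_lit 152) (nat_lit 52110002387) (nat_lit 0) (nat_lit 20742480221) (nat_lit 2) (nat_lit 5) (nat_lit 4) (nat_lit 4) (nat_lit 2) (nat_lit 4) (nat_lit 402) (nat_lit 206) (nat_lit 172))) (XT.nd (nat_lit 78) (nat_lit 0) (nat_lit 0) (XT.lf (nat_lit 0) (nat_lit 824041536) (nat_lit 152) (nat_lit 16235378993) (nat_lit 0) (nat_lit 824041536) (nat_lit 5) (nat_lit 5) (nat_lit 7) (nat_lit 4) (nat_lit 5) (nat_lit 4) (nat_lit 366) (nat_lit 207) (nat_lit 207)) (XT.nd (nat_lit 78) (nat_lit 0) (nat_lit 0) (XT.lf (nat_lit 0) (nat_lit 4159250086) (nat_lit 152) (nat_lit 28713619965) (nat_lit 0) (nat_lit 3881384919) (nat_lit 5) (nat_lit 5) (nat_lit 7) (nat_lit 4) (nat_lit 5) (nat_lit 4) (nat_lit 367) (nat_lit 207) (nat_lit 206)) (XT.lf (nat_lit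 0) (nat_lit 6692655889) (nat_lit 152) (nat_lit 24935186606) (nat_lit 0) (nat_lit 6145018714) (nat_lit 5) (nat_lit 5) (nat_lit 7) (nat_lit 4) (nat_lit 5) (nat_lit 4) (nat_lit 368) (nat_lit 207) (nat_lit 205))))) (XT.nd (nat_lit 234) (nat_lit 0) (nat_lit 0) (XT.nd (nat_lit 78) (nat_lit 0) (nat_lit 0) (XT.lf (nat_lit 0) (nat_lit 9250514137) (nat_lit 152) (nat_lit 21132156365) (nat_lit 0) (nat_lit 8440962391) (nat_lit 5) (nat_lit 5) (nat_lit 7) (nat_lit 4) (nat_lit 5) (nat_lit 4) (nat_lit 369) (nat_lit 207) (nat_lit 204)) (XT.nd (nat_lit 78) (nat_lit 0) (nat_lit 0) (XT.lf (nat_lit 0) (nat_lit 11835059850) (nat_lit 152) (nat_lit 17301206206) (nat_lit 0) (nat_lit 10771222114) (nat_lit 5) (nat_lit 5) (nat_lit 7) (nat_lit 4) (nat_lit 5) (nat_lit 4) (nat_lit 370) (nat_lit 207) (nat_lit 203)) (XT.lf (nat_lit 0) (nat_lit 14448551370) (nat_lit 152) (nat_lit 13438988696) (nat_lit 0) (nat_lit 13137834031)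 (nat_lit 5) (nat_lit 5) (nat_lit 7) (nat_lit 4) (nat_lit 5) (nat_lit 4) (nat_lit 371) (nat_lit 207) (nat_lit 202)))) (XT.nd (nat_lit 78) (nat_lit 0) (nat_lit 0) (XT.lf (nat_lit 0) (nat_lit 17093272330) (nat_lit 152) (nat_lit 9542129082) (nat_lit 0) (nat_lit 15542866057) (nat_lit 5) (nat_lit 5) (nat_lit 7) (nat_lit 4) (nat_lit 5) (nat_lit 4) (nat_lit 372) (nat_lit 207) (nat_lit 201)) (XT.nd (nat_lit 78) (nat_lit 0) (nat_lit 0) (XT.lf (nat_lit 0) (nat_lit 19771533652) (nat_lit 152) (nat_lit 5607222341) (nat_lit 0) (nat_lit 17988419675) (nat_lit 5) (nat_lit 5) (nat_lit 7) (nat_lit 4) (nat_lit 5) (nat_lit 4) (nat_lit 373) (nat_lit 207) (nat_lit 200)) (XT.lf (nat_lit 0) (nat_lit 22485675564) (nat_lit 152) (nat_lit 1630830206) (nat_lit 0) (nat_lit 20476631778) (nat_lit 5) (nat_lit 5) (nat_lit 7) (nat_lit 4) (nat_lit 5) (nat_lit 4) (nat_lit 374) (nat_lit 207) (nat_lit 199))))))) (XT.nd (nat_lit 858)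 (nat_lit 152) (nat_lit 0) (XT.nd (nat_lit 390) (nat_lit 0) (nat_lit 0) (XT.nd (nat_lit 156) (nat_lit 0) (nat_lit 0) (XT.nd (nat_lit 78) (nat_lit 0) (nat_lit 0) (XT.lf (nat_lit 0) (nat_lit 2438097913) (nat_lit 76) (nat_lit 22823408221) (nat_lit 76) (nat_lit 20595015106) (nat_lit 4) (nat_lit 4) (nat_lit 5) (nat_lit 5) (nat_lit 5) (nat_lit 4) (nat_lit 375) (nat_lit 207) (nat_lit 198)) (XT.lf (nat_lit 0) (nat_lit 6588921188) (nat_lit 76) (nat_lit 21505536455) (nat_lit 76) (nat_lit 19064182826) (nat_lit 4) (nat_lit 4) (nat_lit 5) (nat_lit 5) (nat_lit 5) (nat_lit 4) (nat_lit 376) (nat_lit 207) (nat_lit 197))) (XT.nd (nat_lit 78) (nat_lit 0) (nat_lit 0) (XT.lf (nat_lit 0) (nat_lit 10792809833) (nat_lit 76) (nat_lit 20178207121) (nat_lit 76) (nat_lit 17530095711) (nat_lit 4) (nat_lit 4) (nat_lit 5) (nat_lit 5) (nat_lit 5) (nat_lit 4) (nat_lit 377) (nat_lit 207) (nat_lit 196)) (XT.nd (nat_lit 78) (nat_lit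 0) (nat_lit 0) (XT.lf (nat_lit 0) (nat_lit 15053437148) (nat_lit 76) (nat_lit 18840260416) (nat_lit 76) (nat_lit 15991413297) (nat_lit 4) (nat_lit 4) (nat_lit 5) (nat_lit 5) (nat_lit 5) (nat_lit 4) (nat_lit 378) (nat_lit 207) (nat_lit 195)) (XT.lf (nat_lit 0) (nat_lit 19374526013) (nat_lit 76) (nat_lit 17490527261) (nat_lit 76) (nat_lit 14446791105) (nat_lit 4) (nat_lit 4) (nat_lit 5) (nat_lit 5) (nat_lit 5) (nat_lit 4) (nat_lit 379) (nat_lit 207) (nat_lit 194))))) (XT.nd (nat_lit 234) (nat_lit 0) (nat_lit 0) (XT.nd (nat_lit 78) (nat_lit 0) (nat_lit 0) (XT.lf (nat_lit 0) (nat_lit 23759852135) (nat_lit 76) (nat_lit 16127828278) (nat_lit 76) (nat_lit 12894879463) (nat_lit 4) (nat_lit 4) (nat_lit 5) (nat_lit 5) (nat_lit 5) (nat_lit 4) (nat_lit 380) (nat_lit 207) (nat_lit 193)) (XT.nd (nat_lit 78) (nat_lit 0) (nat_lit 0) (XT.lf (nat_lit 0) (nat_lit 28213247353) (nat_lit 76) (nat_lit 14750972758)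 (nat_lit 76) (nat_lit 11334322333) (nat_lit 4) (nat_lit 4) (nat_lit 5) (nat_lit 5) (nat_lit 5) (nat_lit 4) (nat_lit 381) (nat_lit 207) (nat_lit 192)) (XT.lf (nat_lit 0) (nat_lit 32738602983) (nat_lit 76) (nat_lit 13358757624) (nat_lit 76) (nat_lit 9763756122) (nat_lit 4) (nat_lit 4) (nat_lit 5) (nat_lit 5) (nat_lit 5) (nat_lit 4) (nat_lit 382) (nat_lit 207) (nat_lit 191)))) (XT.nd (nat_lit 78) (nat_lit 0) (nat_lit 0) (XT.lf (nat_lit 0) (nat_lit 37339873219) (nat_lit 76) (nat_lit 11949966378) (nat_lit 76) (nat_lit 8181808489) (nat_lit 4) (nat_lit 4) (nat_lit 5) (nat_lit 5) (nat_lit 5) (nat_lit 4) (nat_lit 383) (nat_lit 207) (nat_lit 190)) (XT.nd (nat_lit 78) (nat_lit 0) (nat_lit 0) (XT.lf (nat_lit 0) (nat_lit 42021078589) (nat_lit 76) (nat_lit 10523368036) (nat_lit 76) (nat_lit 6587097151) (nat_lit 4) (nat_lit 4) (nat_lit 5) (nat_lit 5) (nat_lit 5) (nat_lit 4) (nat_lit 384) (nat_lit 207) (nat_lit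 189)) (XT.lf (nat_lit 0) (nat_lit 46786309466) (nat_lit 76) (nat_lit 9077716056) (nat_lit 76) (nat_lit 4978228670) (nat_lit 4) (nat_lit 4) (nat_lit 5) (nat_lit 5) (nat_lit 5) (nat_lit 4) (nat_lit 385) (nat_lit 207) (nat_lit 188)))))) (XT.nd (nat_lit 468) (nat_lit 0) (nat_lit 0) (XT.nd (nat_lit 234) (nat_lit 152) (nat_lit 0) (XT.nd (nat_lit 78) (nat_lit 0) (nat_lit 0) (XT.lf (nat_lit 0) (nat_lit 51639729645) (nat_lit 76) (nat_lit 7611747248) (nat_lit 76) (nat_lit 3353797239) (nat_lit 4) (nat_lit 4) (nat_lit 5) (nat_lit 5) (nat_lit 5) (nat_lit 4) (nat_lit 386) (nat_lit 207) (nat_lit 187)) (XT.nd (nat_lit 78) (nat_lit 0) (nat_lit 0) (XT.lf (nat_lit 0) (nat_lit 56585579978) (nat_lit 76) (nat_lit 6124180667) (nat_lit 76) (nat_lit 1712383452) (nat_lit 4) (nat_lit 4) (nat_lit 5) (nat_lit 5) (nat_lit 5) (nat_lit 4) (nat_lit 387) (nat_lit 207) (nat_lit 186)) (XT.lf (nat_lit 0) (nat_lit 61628182081)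 (nat_lit 76) (nat_lit 4613716499) (nat_lit 76) (nat_lit 52553064) (nat_lit 4) (nat_lit 4) (nat_lit 5) (nat_lit 5) (nat_lit 5) (nat_lit 4) (nat_lit 388) (nat_lit 207) (nat_lit 185)))) (XT.nd (nat_lit 78) (nat_lit 76) (nat_lit 0) (XT.lf (nat_lit 0) (nat_lit 1595392816) (nat_lit 152) (nat_lit 1467531764) (nat_lit 76) (nat_lit 65160438957) (nat_lit 3) (nat_lit 5) (nat_lit 5) (nat_lit 5) (nat_lit 4) (nat_lit 4) (nat_lit 389) (nat_lit 207) (nat_lit 184)) (XT.nd (nat_lit 78) (nat_lit 0) (nat_lit 0) (XT.lf (nat_lit 0) (nat_lit 1812762333) (nat_lit 76) (nat_lit 1467894564) (nat_lit 152) (nat_lit 66929833909) (nat_lit 2) (nat_lit 5) (nat_lit 3) (nat_lit 5) (nat_lit 4) (nat_lit 4) (nat_lit 390) (nat_lit 207) (nat_lit 183)) (XT.lf (nat_lit 0) (nat_lit 5004800044) (nat_lit 152) (nat_lit 67086520163) (nat_lit 0) (nat_lit 166292841) (nat_lit 2) (nat_lit 5) (nat_lit 4) (nat_lit 4) (nat_lit 2) (nat_lit 4) (nat_lit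 391) (nat_lit 207) (nat_lit 182))))) (XT.nd (nat_lit 234) (nat_lit 0) (nat_lit 0) (XT.nd (nat_lit 78) (nat_lit 0) (nat_lit 0) (XT.lf (nat_lit 0) (nat_lit 6767699298) (nat_lit 152) (nat_lit 65798521115) (nat_lit 0) (nat_lit 1800347481) (nat_lit 2) (nat_lit 5) (nat_lit 4) (nat_lit 4) (nat_lit 2) (nat_lit 4) (nat_lit 392) (nat_lit 207) (nat_lit 181)) (XT.nd (nat_lit 78) (nat_lit 0) (nat_lit 0) (XT.lf (nat_lit 0) (nat_lit 8556784755) (nat_lit 152) (nat_lit 64518495594) (nat_lit 0) (nat_lit 3464341081) (nat_lit 2) (nat_lit 5) (nat_lit 4) (nat_lit 4) (nat_lit 2) (nat_lit 4) (nat_lit 393) (nat_lit 207) (nat_lit 180)) (XT.lf (nat_lit 0) (nat_lit 10373619695) (nat_lit 152) (nat_lit 63245325131) (nat_lit 0) (nat_lit 5159727616) (nat_lit 2) (nat_lit 5) (nat_lit 4) (nat_lit 4) (nat_lit 2) (nat_lit 4) (nat_lit 394) (nat_lit 207) (nat_lit 179)))) (XT.nd (nat_lit 78) (nat_lit 0) (nat_lit 0) (XT.lf (nat_lit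 0) (nat_lit 12219791643) (nat_lit 152) (nat_lit 61977897247) (nat_lit 0) (nat_lit 6887988490) (nat_lit 2) (nat_lit 5) (nat_lit 4) (nat_lit 4) (nat_lit 2) (nat_lit 4) (nat_lit 395) (nat_lit 207) (nat_lit 178)) (XT.nd (nat_lit 78) (nat_lit 0) (nat_lit 0) (XT.lf (nat_lit 0) (nat_lit 14096913759) (nat_lit 152) (nat_lit 60715104480) (nat_lit 0) (nat_lit 8650633836) (nat_lit 2) (nat_lit 5) (nat_lit 4) (nat_lit 4) (nat_lit 2) (nat_lit 4) (nat_lit 396) (nat_lit 207) (nat_lit 177)) (XT.lf (nat_lit 0) (nat_lit 16006626246) (nat_lit 152) (nat_lit 59455843419) (nat_lit 0) (nat_lit 10449203828) (nat_lit 2) (nat_lit 5) (nat_lit 4) (nat_lit 4) (nat_lit 2) (nat_lit 4) (nat_lit 397) (nat_lit 207) (nat_lit 176))))))))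
noncomputable def xc8 : XT := (XT.nd (nat_lit 39312) (nat_lit 0) (nat_lit 0) (XT.nd (nat_lit 38454) (nat_lit 0) (nat_lit 152) (XT.nd (nat_lit 37986) (nat_lit 0) (nat_lit 228) (XT.nd (nat_lit 156) (nat_lit 0) (nat_lit 0) (XT.nd (nat_lit 78) (nat_lit 0) (nat_lit 0) (XT.lf (nat_lit 0) (nat_lit 17950597786) (nat_lit 152) (nat_lit 58199013740) (nat_lit 0) (nat_lit 12285270033) (nat_lit 2) (nat_lit 5) (nat_lit 4) (nat_lit 4) (nat_lit 2) (nat_lit 4) (nat_lit 398) (nat_lit 207) (nat_lit 175)) (XT.lf (nat_lit 0) (nat_lit 19930526994) (nat_lit 152) (nat_lit 56943517242) (nat_lit 0) (nat_lit 14160436780) (nat_lit 2) (nat_lit 5) (nat_lit 4) (nat_lit 4) (nat_lit 2) (nat_lit 4) (nat_lit 399) (nat_lit 207) (nat_lit 174))) (XT.nd (nat_lit 78) (nat_lit 0) (nat_lit 0) (XT.lf (nat_lit 0) (nat_lit 21948143906) (nat_lit 152) (nat_lit 55688256888) (nat_lit 0) (nat_lit 16076342564) (nat_lit 2) (nat_lit 5) (nat_lit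 4) (nat_lit 4) (nat_lit 2) (nat_lit 4) (nat_lit 400) (nat_lit 207) (nat_lit 173)) (XT.nd (nat_lit 78) (nat_lit 0) (nat_lit 0) (XT.lf (nat_lit 0) (nat_lit 24005211488) (nat_lit 152) (nat_lit 54432135849) (nat_lit 0) (nat_lit 18034661479) (nat_lit 2) (nat_lit 5) (nat_lit 4) (nat_lit 4) (nat_lit 2) (nat_lit 4) (nat_lit 401) (nat_lit 207) (nat_lit 172)) (XT.lf (nat_lit 0) (nat_lit 26103527177) (nat_lit 152) (nat_lit 53174056544) (nat_lit 0) (nat_lit 20037104675) (nat_lit 2) (nat_lit 5) (nat_lit 4) (nat_lit 4) (nat_lit 2) (nat_lit 4) (nat_lit 402) (nat_lit 207) (nat_lit 171))))) (XT.nd (nat_lit 234) (nat_lit 0) (nat_lit 0) (XT.nd (nat_lit 78) (nat_lit 152) (nat_lit 0) (XT.lf (nat_lit 0) (nat_lit 13966249789) (nat_lit 76) (nat_lit 1486454719) (nat_lit 76) (nat_lit 1486454719) (nat_lit 7) (nat_lit 4) (nat_lit 8) (nat_lit 5) (nat_lit 8) (nat_lit 4) (nat_lit 364) (nat_lit 208) (nat_lit 208)) (XT.nd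 (nat_lit 78) (nat_lit 152) (nat_lit 0) (XT.lf (nat_lit 0) (nat_lit 33423041167) (nat_lit 76) (nat_lit 840470248) (nat_lit 76) (nat_lit 545683091) (nat_lit 7) (nat_lit 4) (nat_lit 8) (nat_lit 5) (nat_lit 8) (nat_lit 4) (nat_lit 365) (nat_lit 208) (nat_lit 207)) (XT.lf (nat_lit 0) (nat_lit 1907343747) (nat_lit 152) (nat_lit 32517142895) (nat_lit 0) (nat_lit 1343277457) (nat_lit 5) (nat_lit 5) (nat_lit 7) (nat_lit 4) (nat_lit 5) (nat_lit 4) (nat_lit 366) (nat_lit 208) (nat_lit 206)))) (XT.nd (nat_lit 78) (nat_lit 0) (nat_lit 0) (XT.lf (nat_lit 0) (nat_lit 4392354987) (nat_lit 152) (nat_lit 28805038767) (nat_lit 0) (nat_lit 3558516689) (nat_lit 5) (nat_lit 5) (nat_lit 7) (nat_lit 4) (nat_lit 5) (nat_lit 4) (nat_lit 367) (nat_lit 208) (nat_lit 205)) (XT.nd (nat_lit 78) (nat_lit 0) (nat_lit 0) (XT.lf (nat_lit 0) (nat_lit 6900366835) (nat_lit 152) (nat_lit 25070327634) (nat_lit 0) (nat_lit 5804613966)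 (nat_lit 5) (nat_lit 5) (nat_lit 7) (nat_lit 4) (nat_lit 5) (nat_lit 4) (nat_lit 368) (nat_lit 208) (nat_lit 204)) (XT.lf (nat_lit 0) (nat_lit 9433570756) (nat_lit 152) (nat_lit 21309746156) (nat_lit 0) (nat_lit 8083531897) (nat_lit 5) (nat_lit 5) (nat_lit 7) (nat_lit 4) (nat_lit 5) (nat_lit 4) (nat_lit 369) (nat_lit 208) (nat_lit 203)))))) (XT.nd (nat_lit 390) (nat_lit 76) (nat_lit 0) (XT.nd (nat_lit 156) (nat_lit 0) (nat_lit 0) (XT.nd (nat_lit 78) (nat_lit 0) (nat_lit 0) (XT.lf (nat_lit 0) (nat_lit 11994180231) (nat_lit 152) (nat_lit 17520008388) (nat_lit 0) (nat_lit 10397261769) (nat_lit 5) (nat_lit 5) (nat_lit 7) (nat_lit 4) (nat_lit 5) (nat_lit 4) (nat_lit 370) (nat_lit 208) (nat_lit 202)) (XT.lf (nat_lit 0) (nat_lit 14584432684) (nat_lit 152) (nat_lit 13697802908) (nat_lit 0) (nat_lit 12747825288) (nat_lit 5) (nat_lit 5) (nat_lit 7) (nat_lit 4) (nat_lit 5) (nat_lit 4) (nat_lit 371) (nat_lit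 208) (nat_lit 201))) (XT.nd (nat_lit 78) (nat_lit 0) (nat_lit 0) (XT.lf (nat_lit 0) (nat_lit 17206591444) (nat_lit 152) (nat_lit 9839789925) (nat_lit 0) (nat_lit 15137276344) (nat_lit 5) (nat_lit 5) (nat_lit 7) (nat_lit 4) (nat_lit 5) (nat_lit 4) (nat_lit 372) (nat_lit 208) (nat_lit 200)) (XT.nd (nat_lit 78) (nat_lit 0) (nat_lit 0) (XT.lf (nat_lit 0) (nat_lit 19862947716) (nat_lit 152) (nat_lit 5942598361) (nat_lit 0) (nat_lit 17567702808) (nat_lit 5) (nat_lit 5) (nat_lit 7) (nat_lit 4) (nat_lit 5) (nat_lit 4) (nat_lit 373) (nat_lit 208) (nat_lit 199)) (XT.lf (nat_lit 0) (nat_lit 22555822590) (nat_lit 152) (nat_lit 2002822901) (nat_lit 0) (nat_lit 20041228352) (nat_lit 5) (nat_lit 5) (nat_lit 7) (nat_lit 4) (nat_lit 5) (nat_lit 4) (nat_lit 374) (nat_lit 208) (nat_lit 198))))) (XT.nd (nat_lit 234) (nat_lit 0) (nat_lit 0) (XT.nd (nat_lit 78) (nat_lit 0) (nat_lit 0) (XT.lf (nat_lit 0) (nat_lit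 2022444144) (nat_lit 76) (nat_lit 23284565888) (nat_lit 76) (nat_lit 20557011136) (nat_lit 4) (nat_lit 4) (nat_lit 5) (nat_lit 5) (nat_lit 5) (nat_lit 4) (nat_lit 375) (nat_lit 208) (nat_lit 197)) (XT.nd (nat_lit 78) (nat_lit 0) (nat_lit 0) (XT.lf (nat_lit 0) (nat_lit 6138065780) (nat_lit 76) (nat_lit 21981511158) (nat_lit 76) (nat_lit 19047198626) (nat_lit 4) (nat_lit 4) (nat_lit 5) (nat_lit 5) (nat_lit 5) (nat_lit 4) (nat_lit 376) (nat_lit 208) (nat_lit 196)) (XT.lf (nat_lit 0) (nat_lit 10307778076) (nat_lit 76) (nat_lit 20668567297) (nat_lit 76) (nat_lit 17533519056) (nat_lit 4) (nat_lit 4) (nat_lit 5) (nat_lit 5) (nat_lit 5) (nat_lit 4) (nat_lit 377) (nat_lit 208) (nat_lit 195)))) (XT.nd (nat_lit 78) (nat_lit 0) (nat_lit 0) (XT.lf (nat_lit 0) (nat_lit 14535224470) (nat_lit 76) (nat_lit 19344587071) (nat_lit 76) (nat_lit 16014649791) (nat_lit 4) (nat_lit 4) (nat_lit 5) (nat_lit 5) (nat_lit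 5) (nat_lit 4) (nat_lit 378) (nat_lit 208) (nat_lit 194)) (XT.nd (nat_lit 78) (nat_lit 0) (nat_lit 0) (XT.lf (nat_lit 0) (nat_lit 18824098847) (nat_lit 76) (nat_lit 18008413604) (nat_lit 76) (nat_lit 14489263666) (nat_lit 4) (nat_lit 4) (nat_lit 5) (nat_lit 5) (nat_lit 5) (nat_lit 4) (nat_lit 379) (nat_lit 208) (nat_lit 193)) (XT.lf (nat_lit 0) (nat_lit 23178148768) (nat_lit 76) (nat_lit 16658879366) (nat_lit 76) (nat_lit 12956027818) (nat_lit 4) (nat_lit 4) (nat_lit 5) (nat_lit 5) (nat_lit 5) (nat_lit 4) (nat_lit 380) (nat_lit 208) (nat_lit 192))))))) (XT.nd (nat_lit 858) (nat_lit 0) (nat_lit 0) (XT.nd (nat_lit 390) (nat_lit 152) (nat_lit 0) (XT.nd (nat_lit 156) (nat_lit 0) (nat_lit 0) (XT.nd (nat_lit 78) (nat_lit 0) (nat_lit 0) (XT.lf (nat_lit 0) (nat_lit 27601178743) (nat_lit 76) (nat_lit 15294805152) (nat_lit 76) (nat_lit 11413602527) (nat_lit 4) (nat_lit 4) (nat_lit 5) (nat_lit 5) (nat_lit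 5) (nat_lit 4) (nat_lit 381) (nat_lit 208) (nat_lit 191)) (XT.lf (nat_lit 0) (nat_lit 32097053554) (nat_lit 76) (nat_lit 13914999053) (nat_lit 76) (nat_lit 9860640042) (nat_lit 4) (nat_lit 4) (nat_lit 5) (nat_lit 5) (nat_lit 5) (nat_lit 4) (nat_lit 382) (nat_lit 208) (nat_lit 190))) (XT.nd (nat_lit 78) (nat_lit 0) (nat_lit 0) (XT.lf (nat_lit 0) (nat_lit 36669701635) (nat_lit 76) (nat_lit 12518255414) (nat_lit 76) (nat_lit 8295783406) (nat_lit 4) (nat_lit 4) (nat_lit 5) (nat_lit 5) (nat_lit 5) (nat_lit 4) (nat_lit 383) (nat_lit 208) (nat_lit 189)) (XT.nd (nat_lit 78) (nat_lit 0) (nat_lit 0) (XT.lf (nat_lit 0) (nat_lit 41323118506) (nat_lit 76) (nat_lit 11103353777) (nat_lit 76) (nat_lit 6717665269) (nat_lit 4) (nat_lit 4) (nat_lit 5) (nat_lit 5) (nat_lit 5) (nat_lit 4) (nat_lit 384) (nat_lit 208) (nat_lit 188)) (XT.lf (nat_lit 0) (nat_lit 46061370258) (nat_lit 76) (nat_lit 9669057823) (nat_lit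 76) (nat_lit 5124906692) (nat_lit 4) (nat_lit 4) (nat_lit 5) (nat_lit 5) (nat_lit 5) (nat_lit 4) (nat_lit 385) (nat_lit 208) (nat_lit 187))))) (XT.nd (nat_lit 234) (nat_lit 152) (nat_lit 0) (XT.nd (nat_lit 78) (nat_lit 0) (nat_lit 0) (XT.lf (nat_lit 0) (nat_lit 50888597111) (nat_lit 76) (nat_lit 8214114281) (nat_lit 76) (nat_lit 3516115944) (nat_lit 4) (nat_lit 4) (nat_lit 5) (nat_lit 5) (nat_lit 5) (nat_lit 4) (nat_lit 386) (nat_lit 208) (nat_lit 186)) (XT.nd (nat_lit 78) (nat_lit 0) (nat_lit 0) (XT.lf (nat_lit 0) (nat_lit 55809017030) (nat_lit 76) (nat_lit 6737251843) (nat_lit 76) (nat_lit 1889887286) (nat_lit 4) (nat_lit 4) (nat_lit 5) (nat_lit 5) (nat_lit 5) (nat_lit 4) (nat_lit 387) (nat_lit 208) (nat_lit 185)) (XT.lf (nat_lit 0) (nat_lit 60826929412) (nat_lit 76) (nat_lit 5237180047) (nat_lit 76) (nat_lit 244799742) (nat_lit 4) (nat_lit 4) (nat_lit 5) (nat_lit 5) (nat_lit 5) (nat_lit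 4) (nat_lit 388) (nat_lit 208) (nat_lit 184)))) (XT.nd (nat_lit 78) (nat_lit 76) (nat_lit 0) (XT.lf (nat_lit 0) (nat_lit 1392863429) (nat_lit 152) (nat_lit 2305659530) (nat_lit 76) (nat_lit 64539790220) (nat_lit 3) (nat_lit 5) (nat_lit 5) (nat_lit 5) (nat_lit 4) (nat_lit 4) (nat_lit 389) (nat_lit 208) (nat_lit 183)) (XT.nd (nat_lit 78) (nat_lit 0) (nat_lit 0) (XT.lf (nat_lit 0) (nat_lit 933926547) (nat_lit 76) (nat_lit 2122127684) (nat_lit 152) (nat_lit 67170063583) (nat_lit 2) (nat_lit 5) (nat_lit 3) (nat_lit 5) (nat_lit 4) (nat_lit 4) (nat_lit 390) (nat_lit 208) (nat_lit 182)) (XT.lf (nat_lit 0) (nat_lit 4270608530) (nat_lit 76) (nat_lit 494505767) (nat_lit 152) (nat_lit 67508592976) (nat_lit 2) (nat_lit 5) (nat_lit 3) (nat_lit 5) (nat_lit 4) (nat_lit 4) (nat_lit 391) (nat_lit 208) (nat_lit 181)))))) (XT.nd (nat_lit 390) (nat_lit 0) (nat_lit 0) (XT.nd (nat_lit 156) (nat_lit 0) (nat_lit 0)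 (XT.nd (nat_lit 78) (nat_lit 0) (nat_lit 0) (XT.lf (nat_lit 0) (nat_lit 6510106968) (nat_lit 152) (nat_lit 66733308518) (nat_lit 0) (nat_lit 1139798127) (nat_lit 2) (nat_lit 5) (nat_lit 4) (nat_lit 4) (nat_lit 2) (nat_lit 4) (nat_lit 392) (nat_lit 208) (nat_lit 180)) (XT.lf (nat_lit 0) (nat_lit 8286422435) (nat_lit 152) (nat_lit 65475576506) (nat_lit 0) (nat_lit 2794665188) (nat_lit 2) (nat_lit 5) (nat_lit 4) (nat_lit 4) (nat_lit 2) (nat_lit 4) (nat_lit 393) (nat_lit 208) (nat_lit 179))) (XT.nd (nat_lit 78) (nat_lit 0) (nat_lit 0) (XT.lf (nat_lit 0) (nat_lit 10090859325) (nat_lit 152) (nat_lit 64224050226) (nat_lit 0) (nat_lit 4481191005) (nat_lit 2) (nat_lit 5) (nat_lit 4) (nat_lit 4) (nat_lit 2) (nat_lit 4) (nat_lit 394) (nat_lit 208) (nat_lit 178)) (XT.nd (nat_lit 78) (nat_lit 0) (nat_lit 0) (XT.lf (nat_lit 0) (nat_lit 11924994332) (nat_lit 152) (nat_lit 62977636113) (nat_lit 0) (nat_lit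 6200849242) (nat_lit 2) (nat_lit 5) (nat_lit 4) (nat_lit 4) (nat_lit 2) (nat_lit 4) (nat_lit 395) (nat_lit 208) (nat_lit 177)) (XT.lf (nat_lit 0) (nat_lit 13790430097) (nat_lit 152) (nat_lit 61735245065) (nat_lit 0) (nat_lit 7955142512) (nat_lit 2) (nat_lit 5) (nat_lit 4) (nat_lit 4) (nat_lit 2) (nat_lit 4) (nat_lit 396) (nat_lit 208) (nat_lit 176))))) (XT.nd (nat_lit 234) (nat_lit 0) (nat_lit 0) (XT.nd (nat_lit 78) (nat_lit 0) (nat_lit 0) (XT.lf (nat_lit 0) (nat_lit 15688796613) (nat_lit 152) (nat_lit 60495791498) (nat_lit 0) (nat_lit 9745603692) (nat_lit 2) (nat_lit 5) (nat_lit 4) (nat_lit 4) (nat_lit 2) (nat_lit 4) (nat_lit 397) (nat_lit 208) (nat_lit 175)) (XT.nd (nat_lit 78) (nat_lit 0) (nat_lit 0) (XT.lf (nat_lit 0) (nat_lit 17621752646) (nat_lit 152) (nat_lit 59258192396) (nat_lit 0) (nat_lit 11573797265) (nat_lit 2) (nat_lit 5) (nat_lit 4) (nat_lit 4) (nat_lit 2) (nat_lit 4) (nat_lit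 398) (nat_lit 208) (nat_lit 174)) (XT.lf (nat_lit 0) (nat_lit 19590987188) (nat_lit 152) (nat_lit 58021366360) (nat_lit 0) (nat_lit 13441320679) (nat_lit 2) (nat_lit 5) (nat_lit 4) (nat_lit 4) (nat_lit 2) (nat_lit 4) (nat_lit 399) (nat_lit 208) (nat_lit 173)))) (XT.nd (nat_lit 78) (nat_lit 0) (nat_lit 0) (XT.lf (nat_lit 0) (nat_lit 21598220929) (nat_lit 152) (nat_lit 56784232669) (nat_lit 0) (nat_lit 15349805752) (nat_lit 2) (nat_lit 5) (nat_lit 4) (nat_lit 4) (nat_lit 2) (nat_lit 4) (nat_lit 400) (nat_lit 208) (nat_lit 172)) (XT.nd (nat_lit 78) (nat_lit 0) (nat_lit 0) (XT.lf (nat_lit 0) (nat_lit 23645207762) (nat_lit 152) (nat_lit 55545710332) (nat_lit 0) (nat_lit 17300920093) (nat_lit 2) (nat_lit 5) (nat_lit 4) (nat_lit 4) (nat_lit 2) (nat_lit 4) (nat_lit 401) (nat_lit 208) (nat_lit 171)) (XT.lf (nat_lit 0) (nat_lit 25733736317) (nat_lit 152) (nat_lit 54304717146) (nat_lit 0) (nat_lit 19296368558)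 (nat_lit 2) (nat_lit 5) (nat_lit 4) (nat_lit 4) (nat_lit 2) (nat_lit 4) (nat_lit 402) (nat_lit 208) (nat_lit 170))))))))
noncomputable def xc9 : XT := (XT.nd (nat_lit 1716) (nat_lit 152) (nat_lit 0) (XT.nd (nat_lit 858) (nat_lit 76) (nat_lit 0) (XT.nd (nat_lit 390) (nat_lit 0) (nat_lit 0) (XT.nd (nat_lit 156) (nat_lit 152) (nat_lit 0) (XT.nd (nat_lit 78) (nat_lit 0) (nat_lit 0) (XT.lf (nat_lit 0) (nat_lit 8601861566) (nat_lit 76) (nat_lit 3724371292) (nat_lit 76) (nat_lit 3724371292) (nat_lit 7) (nat_lit 4) (nat_lit 8) (nat_lit 5) (nat_lit 8) (nat_lit 4) (nat_lit 362) (nat_lit 209) (nat_lit 209)) (XT.lf (nat_lit 0) (nat_lit 22511978425) (nat_lit 76) (nat_lit 5383929595) (nat_lit 76) (nat_lit 5080298824) (nat_lit 7) (nat_lit 4) (nat_lit 8) (nat_lit 5) (nat_lit 8) (nat_lit 4) (nat_lit 363) (nat_lit 209) (nat_lit 208))) (XT.nd (nat_lit 78) (nat_lit 152) (nat_lit 0) (XT.lf (nat_lit 0) (nat_lit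 27886886180) (nat_lit 76) (nat_lit 3295344089) (nat_lit 76) (nat_lit 2696926162) (nat_lit 7) (nat_lit 4) (nat_lit 8) (nat_lit 5) (nat_lit 8) (nat_lit 4) (nat_lit 364) (nat_lit 209) (nat_lit 207)) (XT.nd (nat_lit 78) (nat_lit 152) (nat_lit 0) (XT.lf (nat_lit 0) (nat_lit 33333142917) (nat_lit 76) (nat_lit 1181161092) (nat_lit 76) (nat_lit 296542042) (nat_lit 7) (nat_lit 4) (nat_lit 8) (nat_lit 5) (nat_lit 8) (nat_lit 4) (nat_lit 365) (nat_lit 209) (nat_lit 206)) (XT.lf (nat_lit 0) (nat_lit 2121286021) (nat_lit 152) (nat_lit 32656338154) (nat_lit 0) (nat_lit 992660567) (nat_lit 5) (nat_lit 5) (nat_lit 7) (nat_lit 4) (nat_lit 5) (nat_lit 4) (nat_lit 366) (nat_lit 209) (nat_lit 205))))) (XT.nd (nat_lit 234) (nat_lit 0) (nat_lit 0) (XT.nd (nat_lit 78) (nat_lit 0) (nat_lit 0) (XT.lf (nat_lit 0) (nat_lit 4580903305) (nat_lit 152) (nat_lit 28987956252) (nat_lit 0) (nat_lit 3190363281) (nat_lit 5) (nat_lit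 5) (nat_lit 7) (nat_lit 4) (nat_lit 5) (nat_lit 4) (nat_lit 367) (nat_lit 209) (nat_lit 204)) (XT.nd (nat_lit 78) (nat_lit 0) (nat_lit 0) (XT.lf (nat_lit 0) (nat_lit 7064260827) (nat_lit 152) (nat_lit 25295693882) (nat_lit 0) (nat_lit 5419434812) (nat_lit 5) (nat_lit 5) (nat_lit 7) (nat_lit 4) (nat_lit 5) (nat_lit 4) (nat_lit 368) (nat_lit 209) (nat_lit 203)) (XT.lf (nat_lit 0) (nat_lit 9573528510) (nat_lit 152) (nat_lit 21576324795) (nat_lit 0) (nat_lit 7681822892) (nat_lit 5) (nat_lit 5) (nat_lit 7) (nat_lit 4) (nat_lit 5) (nat_lit 4) (nat_lit 369) (nat_lit 209) (nat_lit 202)))) (XT.nd (nat_lit 78) (nat_lit 0) (nat_lit 0) (XT.lf (nat_lit 0) (nat_lit 12110898918) (nat_lit 152) (nat_lit 17826599057) (nat_lit 0) (nat_lit 9979504365) (nat_lit 5) (nat_lit 5) (nat_lit 7) (nat_lit 4) (nat_lit 5) (nat_lit 4) (nat_lit 370) (nat_lit 209) (nat_lit 201)) (XT.nd (nat_lit 78) (nat_lit 0) (nat_lit 0) (XT.lf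 (nat_lit 0) (nat_lit 14678589170) (nat_lit 152) (nat_lit 14043240208) (nat_lit 0) (nat_lit 12314486914) (nat_lit 5) (nat_lit 5) (nat_lit 7) (nat_lit 4) (nat_lit 5) (nat_lit 4) (nat_lit 371) (nat_lit 209) (nat_lit 200)) (XT.lf (nat_lit 0) (nat_lit 17278842881) (nat_lit 152) (nat_lit 10222942402) (nat_lit 0) (nat_lit 14688810816) (nat_lit 5) (nat_lit 5) (nat_lit 7) (nat_lit 4) (nat_lit 5) (nat_lit 4) (nat_lit 372) (nat_lit 209) (nat_lit 199)))))) (XT.nd (nat_lit 390) (nat_lit 0) (nat_lit 0) (XT.nd (nat_lit 156) (nat_lit 76) (nat_lit 0) (XT.nd (nat_lit 78) (nat_lit 0) (nat_lit 0) (XT.lf (nat_lit 0) (nat_lit 19913932115) (nat_lit 152) (nat_lit 6362367513) (nat_lit 0) (nat_lit 17104550721) (nat_lit 5) (nat_lit 5) (nat_lit 7) (nat_lit 4) (nat_lit 5) (nat_lit 4) (nat_lit 373) (nat_lit 209) (nat_lit 198)) (XT.lf (nat_lit 0) (nat_lit 22586159379) (nat_lit 152) (nat_lit 2458142224) (nat_lit 0) (nat_lit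 19563817471) (nat_lit 5) (nat_lit 5) (nat_lit 7) (nat_lit 4) (nat_lit 5) (nat_lit 4) (nat_lit 374) (nat_lit 209) (nat_lit 197))) (XT.nd (nat_lit 78) (nat_lit 0) (nat_lit 0) (XT.lf (nat_lit 0) (nat_lit 1522861434) (nat_lit 76) (nat_lit 23789636869) (nat_lit 76) (nat_lit 20560537181) (nat_lit 4) (nat_lit 4) (nat_lit 5) (nat_lit 5) (nat_lit 5) (nat_lit 4) (nat_lit 375) (nat_lit 209) (nat_lit 196)) (XT.nd (nat_lit 78) (nat_lit 0) (nat_lit 0) (XT.lf (nat_lit 0) (nat_lit 5604306721) (nat_lit 76) (nat_lit 22500967613) (nat_lit 76) (nat_lit 19071132215) (nat_lit 4) (nat_lit 4) (nat_lit 5) (nat_lit 5) (nat_lit 5) (nat_lit 4) (nat_lit 376) (nat_lit 209) (nat_lit 195)) (XT.lf (nat_lit 0) (nat_lit 9740838095) (nat_lit 76) (nat_lit 21201990230) (nat_lit 76) (nat_lit 17577265794) (nat_lit 4) (nat_lit 4) (nat_lit 5) (nat_lit 5) (nat_lit 5) (nat_lit 4) (nat_lit 377) (nat_lit 209) (nat_lit 194))))) (XT.nd (nat_lit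 234) (nat_lit 0) (nat_lit 0) (XT.nd (nat_lit 78) (nat_lit 0) (nat_lit 0) (XT.lf (nat_lit 0) (nat_lit 13936070002) (nat_lit 76) (nat_lit 19891569691) (nat_lit 76) (nat_lit 16077632597) (nat_lit 4) (nat_lit 4) (nat_lit 5) (nat_lit 5) (nat_lit 5) (nat_lit 4) (nat_lit 378) (nat_lit 209) (nat_lit 193)) (XT.nd (nat_lit 78) (nat_lit 0) (nat_lit 0) (XT.lf (nat_lit 0) (nat_lit 18193668179) (nat_lit 76) (nat_lit 18568560969) (nat_lit 76) (nat_lit 14570922265) (nat_lit 4) (nat_lit 4) (nat_lit 5) (nat_lit 5) (nat_lit 5) (nat_lit 4) (nat_lit 379) (nat_lit 209) (nat_lit 192)) (XT.lf (nat_lit 0) (nat_lit 22517352856) (nat_lit 76) (nat_lit 17231808038) (nat_lit 76) (nat_lit 13055818256) (nat_lit 4) (nat_lit 4) (nat_lit 5) (nat_lit 5) (nat_lit 5) (nat_lit 4) (nat_lit 380) (nat_lit 209) (nat_lit 191)))) (XT.nd (nat_lit 78) (nat_lit 0) (nat_lit 0) (XT.lf (nat_lit 0) (nat_lit 26910902012) (nat_lit 76) (nat_lit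 15880142859) (nat_lit 76) (nat_lit 11530996691) (nat_lit 4) (nat_lit 4) (nat_lit 5) (nat_lit 5) (nat_lit 5) (nat_lit 4) (nat_lit 381) (nat_lit 209) (nat_lit 190)) (XT.nd (nat_lit 78) (nat_lit 0) (nat_lit 0) (XT.lf (nat_lit 0) (nat_lit 31378154668) (nat_lit 76) (nat_lit 14512384367) (nat_lit 76) (nat_lit 9995125203) (nat_lit 4) (nat_lit 4) (nat_lit 5) (nat_lit 5) (nat_lit 5) (nat_lit 4) (nat_lit 382) (nat_lit 209) (nat_lit 189)) (XT.lf (nat_lit 0) (nat_lit 35923014251) (nat_lit 76) (nat_lit 13127337433) (nat_lit 76) (nat_lit 8446861768) (nat_lit 4) (nat_lit 4) (nat_lit 5) (nat_lit 5) (nat_lit 5) (nat_lit 4) (nat_lit 383) (nat_lit 209) (nat_lit 188))))))) (XT.nd (nat_lit 858) (nat_lit 0) (nat_lit 0) (XT.nd (nat_lit 390) (nat_lit 152) (nat_lit 0) (XT.nd (nat_lit 156) (nat_lit 0) (nat_lit 0) (XT.nd (nat_lit 78) (nat_lit 0) (nat_lit 0) (XT.lf (nat_lit 0) (nat_lit 40549451996) (nat_lit 76) (nat_lit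 11723791822) (nat_lit 76) (nat_lit 6884853534) (nat_lit 4) (nat_lit 4) (nat_lit 5) (nat_lit 5) (nat_lit 5) (nat_lit 4) (nat_lit 384) (nat_lit 209) (nat_lit 187)) (XT.lf (nat_lit 0) (nat_lit 45261510422) (nat_lit 76) (nat_lit 10300521134) (nat_lit 76) (nat_lit 5307735641) (nat_lit 4) (nat_lit 4) (nat_lit 5) (nat_lit 5) (nat_lit 5) (nat_lit 4) (nat_lit 385) (nat_lit 209) (nat_lit 186))) (XT.nd (nat_lit 78) (nat_lit 0) (nat_lit 0) (XT.lf (nat_lit 0) (nat_lit 50063306861) (nat_lit 76) (nat_lit 8856281736) (nat_lit 76) (nat_lit 3714130022) (nat_lit 4) (nat_lit 4) (nat_lit 5) (nat_lit 5) (nat_lit 5) (nat_lit 4) (nat_lit 386) (nat_lit 209) (nat_lit 185)) (XT.nd (nat_lit 78) (nat_lit 0) (nat_lit 0) (XT.lf (nat_lit 0) (nat_lit 54959037059) (nat_lit 76) (nat_lit 7389811669) (nat_lit 76) (nat_lit 2102644209) (nat_lit 4) (nat_lit 4) (nat_lit 5) (nat_lit 5) (nat_lit 5) (nat_lit 4) (nat_lit 387) (nat_lit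 209) (nat_lit 184)) (XT.lf (nat_lit 0) (nat_lit 59952978837) (nat_lit 76) (nat_lit 5899829554) (nat_lit 76) (nat_lit 471870105) (nat_lit 4) (nat_lit 4) (nat_lit 5) (nat_lit 5) (nat_lit 5) (nat_lit 4) (nat_lit 388) (nat_lit 209) (nat_lit 183))))) (XT.nd (nat_lit 234) (nat_lit 0) (nat_lit 0) (XT.nd (nat_lit 78) (nat_lit 76) (nat_lit 0) (XT.lf (nat_lit 0) (nat_lit 1156598654) (nat_lit 152) (nat_lit 3216755430) (nat_lit 76) (nat_lit 63881217801) (nat_lit 3) (nat_lit 5) (nat_lit 5) (nat_lit 5) (nat_lit 4) (nat_lit 4) (nat_lit 389) (nat_lit 209) (nat_lit 182)) (XT.nd (nat_lit 78) (nat_lit 76) (nat_lit 0) (XT.lf (nat_lit 0) (nat_lit 2797583465) (nat_lit 152) (nat_lit 18266215) (nat_lit 76) (nat_lit 67427207744) (nat_lit 3) (nat_lit 5) (nat_lit 5) (nat_lit 5) (nat_lit 4) (nat_lit 4) (nat_lit 390) (nat_lit 209) (nat_lit 181)) (XT.lf (nat_lit 0) (nat_lit 3295403884) (nat_lit 76) (nat_lit 1197999636)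 (nat_lit 152) (nat_lit 67797654859) (nat_lit 2) (nat_lit 5) (nat_lit 3) (nat_lit 5) (nat_lit 4) (nat_lit 4) (nat_lit 391) (nat_lit 209) (nat_lit 180)))) (XT.nd (nat_lit 78) (nat_lit 0) (nat_lit 0) (XT.lf (nat_lit 0) (nat_lit 6218863787) (nat_lit 152) (nat_lit 67741395366) (nat_lit 0) (nat_lit 440905418) (nat_lit 2) (nat_lit 5) (nat_lit 4) (nat_lit 4) (nat_lit 2) (nat_lit 4) (nat_lit 392) (nat_lit 209) (nat_lit 179)) (XT.nd (nat_lit 78) (nat_lit 0) (nat_lit 0) (XT.lf (nat_lit 0) (nat_lit 7982781205) (nat_lit 152) (nat_lit 66505307538) (nat_lit 0) (nat_lit 2086911762) (nat_lit 2) (nat_lit 5) (nat_lit 4) (nat_lit 4) (nat_lit 2) (nat_lit 4) (nat_lit 393) (nat_lit 209) (nat_lit 178)) (XT.lf (nat_lit 0) (nat_lit 9775181154) (nat_lit 152) (nat_lit 65274795029) (nat_lit 0) (nat_lit 3764834941) (nat_lit 2) (nat_lit 5) (nat_lit 4) (nat_lit 4) (nat_lit 2) (nat_lit 4) (nat_lit 394) (nat_lit 209) (nat_lit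 177)))))) (XT.nd (nat_lit 390) (nat_lit 0) (nat_lit 0) (XT.nd (nat_lit 156) (nat_lit 0) (nat_lit 0) (XT.nd (nat_lit 78) (nat_lit 0) (nat_lit 0) (XT.lf (nat_lit 0) (nat_lit 11597629810) (nat_lit 152) (nat_lit 64048782634) (nat_lit 0) (nat_lit 5476141102) (nat_lit 2) (nat_lit 5) (nat_lit 4) (nat_lit 4) (nat_lit 2) (nat_lit 4) (nat_lit 395) (nat_lit 209) (nat_lit 176)) (XT.lf (nat_lit 0) (nat_lit 13451719603) (nat_lit 152) (nat_lit 62826199080) (nat_lit 0) (nat_lit 7222325560) (nat_lit 2) (nat_lit 5) (nat_lit 4) (nat_lit 4) (nat_lit 2) (nat_lit 4) (nat_lit 396) (nat_lit 209) (nat_lit 175))) (XT.nd (nat_lit 78) (nat_lit 0) (nat_lit 0) (XT.lf (nat_lit 0) (nat_lit 15339070613) (nat_lit 152) (nat_lit 61605976091) (nat_lit 0) (nat_lit 9004914108) (nat_lit 2) (nat_lit 5) (nat_lit 4) (nat_lit 4) (nat_lit 2) (nat_lit 4) (nat_lit 397) (nat_lit 209) (nat_lit 174)) (XT.nd (nat_lit 78) (nat_lit 0) (nat_lit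 0) (XT.lf (nat_lit 0) (nat_lit 17261331980) (nat_lit 152) (nat_lit 60387047451) (nat_lit 0) (nat_lit 10825464348) (nat_lit 2) (nat_lit 5) (nat_lit 4) (nat_lit 4) (nat_lit 2) (nat_lit 4) (nat_lit 398) (nat_lit 209) (nat_lit 173)) (XT.lf (nat_lit 0) (nat_lit 19220183351) (nat_lit 152) (nat_lit 59168348078) (nat_lit 0) (nat_lit 12685567052) (nat_lit 2) (nat_lit 5) (nat_lit 4) (nat_lit 4) (nat_lit 2) (nat_lit 4) (nat_lit 399) (nat_lit 209) (nat_lit 172))))) (XT.nd (nat_lit 37518) (nat_lit 0) (nat_lit 380) (XT.nd (nat_lit 78) (nat_lit 0) (nat_lit 0) (XT.lf (nat_lit 0) (nat_lit 21217336343) (nat_lit 152) (nat_lit 57948813089) (nat_lit 0) (nat_lit 14586847551) (nat_lit 2) (nat_lit 5) (nat_lit 4) (nat_lit 4) (nat_lit 2) (nat_lit 4) (nat_lit 400) (nat_lit 209) (nat_lit 171)) (XT.nd (nat_lit 78) (nat_lit 0) (nat_lit 0) (XT.lf (nat_lit 0) (nat_lit 23254536041) (nat_lit 152) (nat_lit 56727376871) (nat_lit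 0) (nat_lit 16530967160) (nat_lit 2) (nat_lit 5) (nat_lit 4) (nat_lit 4) (nat_lit 2) (nat_lit 4) (nat_lit 401) (nat_lit 209) (nat_lit 170)) (XT.lf (nat_lit 0) (nat_lit 25333562524) (nat_lit 152) (nat_lit 55502972149) (nat_lit 0) (nat_lit 18519624622) (nat_lit 2) (nat_lit 5) (nat_lit 4) (nat_lit 4) (nat_lit 2) (nat_lit 4) (nat_lit 402) (nat_lit 209) (nat_lit 169)))) (XT.nd (nat_lit 78) (nat_lit 0) (nat_lit 0) (XT.lf (nat_lit 0) (nat_lit 3408531121) (nat_lit 76) (nat_lit 5903519654) (nat_lit 76) (nat_lit 5903519654) (nat_lit 7) (nat_lit 4) (nat_lit 8) (nat_lit 5) (nat_lit 8) (nat_lit 4) (nat_lit 360) (nat_lit 210) (nat_lit 210)) (XT.nd (nat_lit 78) (nat_lit 0) (nat_lit 0) (XT.lf (nat_lit 0) (nat_lit 11957482017) (nat_lit 76) (nat_lit 9804326962) (nat_lit 76) (nat_lit 9491587267) (nat_lit 7) (nat_lit 4) (nat_lit 8) (nat_lit 5) (nat_lit 8) (nat_lit 4) (nat_lit 361) (nat_lit 210) (nat_lit 209))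 (XT.lf (nat_lit 0) (nat_lit 17156741332) (nat_lit 76) (nat_lit 7780850275) (nat_lit 76) (nat_lit 7164479810) (nat_lit 7) (nat_lit 4) (nat_lit 8) (nat_lit 5) (nat_lit 8) (nat_lit 4) (nat_lit 362) (nat_lit 210) (nat_lit 208))))))))
noncomputable def xc10 : XT := (XT.nd (nat_lit 1716) (nat_lit 152) (nat_lit 0) (XT.nd (nat_lit 858) (nat_lit 76) (nat_lit 0) (XT.nd (nat_lit 390) (nat_lit 0) (nat_lit 0) (XT.nd (nat_lit 156) (nat_lit 152) (nat_lit 0) (XT.nd (nat_lit 78) (nat_lit 0) (nat_lit 0) (XT.lf (nat_lit 0) (nat_lit 22419383227) (nat_lit 76) (nat_lit 5734841164) (nat_lit 76) (nat_lit 4823683542) (nat_lit 7) (nat_lit 4) (nat_lit 8) (nat_lit 5) (nat_lit 8) (nat_lit 4) (nat_lit 363) (nat_lit 210) (nat_lit 207)) (XT.lf (nat_lit 0) (nat_lit 27750006129) (nat_lit 76) (nat_lit 3664511852) (nat_lit 76) (nat_lit 2467153108) (nat_lit 7) (nat_lit 4) (nat_lit 8) (nat_lit 5) (nat_lit 8) (nat_lit 4) (nat_lit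 364) (nat_lit 210) (nat_lit 206))) (XT.nd (nat_lit 78) (nat_lit 152) (nat_lit 0) (XT.lf (nat_lit 0) (nat_lit 33153267864) (nat_lit 76) (nat_lit 1568053315) (nat_lit 76) (nat_lit 92829403) (nat_lit 7) (nat_lit 4) (nat_lit 8) (nat_lit 5) (nat_lit 8) (nat_lit 4) (nat_lit 365) (nat_lit 210) (nat_lit 205)) (XT.nd (nat_lit 78) (nat_lit 0) (nat_lit 0) (XT.lf (nat_lit 0) (nat_lit 2290096833) (nat_lit 152) (nat_lit 32888465389) (nat_lit 0) (nat_lit 595926037) (nat_lit 5) (nat_lit 5) (nat_lit 7) (nat_lit 4) (nat_lit 5) (nat_lit 4) (nat_lit 366) (nat_lit 210) (nat_lit 204)) (XT.lf (nat_lit 0) (nat_lit 4725059792) (nat_lit 152) (nat_lit 29262532250) (nat_lit 0) (nat_lit 2776603005) (nat_lit 5) (nat_lit 5) (nat_lit 7) (nat_lit 4) (nat_lit 5) (nat_lit 4) (nat_lit 367) (nat_lit 210) (nat_lit 203))))) (XT.nd (nat_lit 234) (nat_lit 0) (nat_lit 0) (XT.nd (nat_lit 78) (nat_lit 0) (nat_lit 0) (XT.lf (nat_lit 0)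 (nat_lit 7184481075) (nat_lit 152) (nat_lit 25611482271) (nat_lit 0) (nat_lit 4989144686) (nat_lit 5) (nat_lit 5) (nat_lit 7) (nat_lit 4) (nat_lit 5) (nat_lit 4) (nat_lit 368) (nat_lit 210) (nat_lit 202)) (XT.nd (nat_lit 78) (nat_lit 0) (nat_lit 0) (XT.lf (nat_lit 0) (nat_lit 9670509691) (nat_lit 152) (nat_lit 21932125214) (nat_lit 0) (nat_lit 7235484367) (nat_lit 5) (nat_lit 5) (nat_lit 7) (nat_lit 4) (nat_lit 5) (nat_lit 4) (nat_lit 369) (nat_lit 210) (nat_lit 201)) (XT.lf (nat_lit 0) (nat_lit 12185317898) (nat_lit 152) (nat_lit 18221246108) (nat_lit 0) (nat_lit 9517584871) (nat_lit 5) (nat_lit 5) (nat_lit 7) (nat_lit 4) (nat_lit 5) (nat_lit 4) (nat_lit 370) (nat_lit 210) (nat_lit 200)))) (XT.nd (nat_lit 78) (nat_lit 0) (nat_lit 0) (XT.lf (nat_lit 0) (nat_lit 14731103101) (nat_lit 152) (nat_lit 14475602435) (nat_lit 0) (nat_lit 11837440265) (nat_lit 5) (nat_lit 5) (nat_lit 7) (nat_lit 4)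 (nat_lit 5) (nat_lit 4) (nat_lit 371) (nat_lit 210) (nat_lit 199)) (XT.nd (nat_lit 78) (nat_lit 0) (nat_lit 0) (XT.lf (nat_lit 0) (nat_lit 17310089774) (nat_lit 152) (nat_lit 10691921305) (nat_lit 0) (nat_lit 14197077608) (nat_lit 5) (nat_lit 5) (nat_lit 7) (nat_lit 4) (nat_lit 5) (nat_lit 4) (nat_lit 372) (nat_lit 210) (nat_lit 198)) (XT.lf (nat_lit 0) (nat_lit 19924531399) (nat_lit 152) (nat_lit 6866896587) (nat_lit 0) (nat_lit 16598558720) (nat_lit 5) (nat_lit 5) (nat_lit 7) (nat_lit 4) (nat_lit 5) (nat_lit 4) (nat_lit 373) (nat_lit 210) (nat_lit 197)))))) (XT.nd (nat_lit 390) (nat_lit 0) (nat_lit 0) (XT.nd (nat_lit 156) (nat_lit 0) (nat_lit 0) (XT.nd (nat_lit 78) (nat_lit 76) (nat_lit 0) (XT.lf (nat_lit 0) (nat_lit 22576712440) (nat_lit 152) (nat_lit 2997186027) (nat_lit 0) (nat_lit 19043981980) (nat_lit 5) (nat_lit 5) (nat_lit 7) (nat_lit 4) (nat_lit 5) (nat_lit 4) (nat_lit 374) (nat_lit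 210) (nat_lit 196)) (XT.lf (nat_lit 0) (nat_lit 938913254) (nat_lit 76) (nat_lit 24339062490) (nat_lit 76) (nat_lit 20605596321) (nat_lit 4) (nat_lit 4) (nat_lit 5) (nat_lit 5) (nat_lit 5) (nat_lit 4) (nat_lit 375) (nat_lit 210) (nat_lit 195))) (XT.nd (nat_lit 78) (nat_lit 0) (nat_lit 0) (XT.lf (nat_lit 0) (nat_lit 4987177619) (nat_lit 76) (nat_lit 23064359712) (nat_lit 76) (nat_lit 19136004505) (nat_lit 4) (nat_lit 4) (nat_lit 5) (nat_lit 5) (nat_lit 5) (nat_lit 4) (nat_lit 376) (nat_lit 210) (nat_lit 194)) (XT.nd (nat_lit 78) (nat_lit 0) (nat_lit 0) (XT.lf (nat_lit 0) (nat_lit 9091494506) (nat_lit 76) (nat_lit 21778942017) (nat_lit 76) (nat_lit 17661374151) (nat_lit 4) (nat_lit 4) (nat_lit 5) (nat_lit 5) (nat_lit 5) (nat_lit 4) (nat_lit 377) (nat_lit 210) (nat_lit 193)) (XT.lf (nat_lit 0) (nat_lit 13255450213) (nat_lit 76) (nat_lit 20481686223) (nat_lit 76) (nat_lit 16180416748) (nat_lit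 4) (nat_lit 4) (nat_lit 5) (nat_lit 5) (nat_lit 5) (nat_lit 4) (nat_lit 378) (nat_lit 210) (nat_lit 192))))) (XT.nd (nat_lit 234) (nat_lit 0) (nat_lit 0) (XT.nd (nat_lit 78) (nat_lit 0) (nat_lit 0) (XT.lf (nat_lit 0) (nat_lit 17482683146) (nat_lit 76) (nat_lit 19171458808) (nat_lit 76) (nat_lit 14691838255) (nat_lit 4) (nat_lit 4) (nat_lit 5) (nat_lit 5) (nat_lit 5) (nat_lit 4) (nat_lit 379) (nat_lit 210) (nat_lit 191)) (XT.nd (nat_lit 78) (nat_lit 0) (nat_lit 0) (XT.lf (nat_lit 0) (nat_lit 21776887004) (nat_lit 76) (nat_lit 17847114911) (nat_lit 76) (nat_lit 13194337972) (nat_lit 4) (nat_lit 4) (nat_lit 5) (nat_lit 5) (nat_lit 5) (nat_lit 4) (nat_lit 380) (nat_lit 210) (nat_lit 190)) (XT.lf (nat_lit 0) (nat_lit 26141814005) (nat_lit 76) (nat_lit 16507497339) (nat_lit 76) (nat_lit 11686607404) (nat_lit 4) (nat_lit 4) (nat_lit 5) (nat_lit 5) (nat_lit 5) (nat_lit 4) (nat_lit 381) (nat_lit 210)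 (nat_lit 189)))) (XT.nd (nat_lit 78) (nat_lit 0) (nat_lit 0) (XT.lf (nat_lit 0) (nat_lit 30581278163) (nat_lit 76) (nat_lit 15151435553) (nat_lit 76) (nat_lit 10167329117) (nat_lit 4) (nat_lit 4) (nat_lit 5) (nat_lit 5) (nat_lit 5) (nat_lit 4) (nat_lit 382) (nat_lit 210) (nat_lit 188)) (XT.nd (nat_lit 78) (nat_lit 0) (nat_lit 0) (XT.lf (nat_lit 0) (nat_lit 35099158620) (nat_lit 76) (nat_lit 13777744644) (nat_lit 76) (nat_lit 8635175586) (nat_lit 4) (nat_lit 4) (nat_lit 5) (nat_lit 5) (nat_lit 5) (nat_lit 4) (nat_lit 383) (nat_lit 210) (nat_lit 187)) (XT.lf (nat_lit 0) (nat_lit 39699403039) (nat_lit 76) (nat_lit 12385224300) (nat_lit 76) (nat_lit 7088808035) (nat_lit 4) (nat_lit 4) (nat_lit 5) (nat_lit 5) (nat_lit 5) (nat_lit 4) (nat_lit 384) (nat_lit 210) (nat_lit 186))))))) (XT.nd (nat_lit 858) (nat_lit 0) (nat_lit 0) (XT.nd (nat_lit 390) (nat_lit 76) (nat_lit 0) (XT.nd (nat_lit 156) (nat_lit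 76) (nat_lit 0) (XT.nd (nat_lit 78) (nat_lit 0) (nat_lit 0) (XT.lf (nat_lit 0) (nat_lit 44386031051) (nat_lit 76) (nat_lit 10972657755) (nat_lit 76) (nat_lit 5526875270) (nat_lit 4) (nat_lit 4) (nat_lit 5) (nat_lit 5) (nat_lit 5) (nat_lit 4) (nat_lit 385) (nat_lit 210) (nat_lit 185)) (XT.lf (nat_lit 0) (nat_lit 49163137769) (nat_lit 76) (nat_lit 9538810728) (nat_lit 76) (nat_lit 3948012496) (nat_lit 4) (nat_lit 4) (nat_lit 5) (nat_lit 5) (nat_lit 5) (nat_lit 4) (nat_lit 386) (nat_lit 210) (nat_lit 184))) (XT.nd (nat_lit 78) (nat_lit 76) (nat_lit 0) (XT.lf (nat_lit 0) (nat_lit 54034897363) (nat_lit 76) (nat_lit 8082430343) (nat_lit 76) (nat_lit 2350840123) (nat_lit 4) (nat_lit 4) (nat_lit 5) (nat_lit 5) (nat_lit 5) (nat_lit 4) (nat_lit 387) (nat_lit 210) (nat_lit 183)) (XT.nd (nat_lit 78) (nat_lit 76) (nat_lit 0) (XT.lf (nat_lit 0) (nat_lit 59005566710) (nat_lit 76) (nat_lit 6602244034) (nat_lit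 76) (nat_lit 733962564) (nat_lit 4) (nat_lit 4) (nat_lit 5) (nat_lit 5) (nat_lit 5) (nat_lit 4) (nat_lit 388) (nat_lit 210) (nat_lit 182)) (XT.lf (nat_lit 0) (nat_lit 886392046) (nat_lit 152) (nat_lit 4201615567) (nat_lit 76) (nat_lit 63184146246) (nat_lit 3) (nat_lit 5) (nat_lit 5) (nat_lit 5) (nat_lit 4) (nat_lit 4) (nat_lit 389) (nat_lit 210) (nat_lit 181))))) (XT.nd (nat_lit 234) (nat_lit 0) (nat_lit 0) (XT.nd (nat_lit 78) (nat_lit 76) (nat_lit 0) (XT.lf (nat_lit 0) (nat_lit 2514533636) (nat_lit 152) (nat_lit 1025332752) (nat_lit 76) (nat_lit 66721172603) (nat_lit 3) (nat_lit 5) (nat_lit 5) (nat_lit 5) (nat_lit 4) (nat_lit 4) (nat_lit 390) (nat_lit 210) (nat_lit 180)) (XT.nd (nat_lit 78) (nat_lit 0) (nat_lit 0) (XT.lf (nat_lit 0) (nat_lit 2246306058) (nat_lit 76) (nat_lit 1941493916) (nat_lit 152) (nat_lit 68121930464) (nat_lit 2) (nat_lit 5) (nat_lit 3) (nat_lit 5) (nat_lit 4) (nat_lit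 4) (nat_lit 391) (nat_lit 210) (nat_lit 179)) (XT.lf (nat_lit 0) (nat_lit 5593775418) (nat_lit 76) (nat_lit 302851042) (nat_lit 152) (nat_lit 68523722660) (nat_lit 2) (nat_lit 5) (nat_lit 3) (nat_lit 5) (nat_lit 4) (nat_lit 4) (nat_lit 392) (nat_lit 210) (nat_lit 178)))) (XT.nd (nat_lit 78) (nat_lit 0) (nat_lit 0) (XT.lf (nat_lit 0) (nat_lit 7645595747) (nat_lit 152) (nat_lit 67608588455) (nat_lit 0) (nat_lit 1340462378) (nat_lit 2) (nat_lit 5) (nat_lit 4) (nat_lit 4) (nat_lit 2) (nat_lit 4) (nat_lit 393) (nat_lit 210) (nat_lit 177)) (XT.nd (nat_lit 78) (nat_lit 0) (nat_lit 0) (XT.lf (nat_lit 0) (nat_lit 9426309346) (nat_lit 152) (nat_lit 66398477665) (nat_lit 0) (nat_lit 3010033481) (nat_lit 2) (nat_lit 5) (nat_lit 4) (nat_lit 4) (nat_lit 2) (nat_lit 4) (nat_lit 394) (nat_lit 210) (nat_lit 176)) (XT.lf (nat_lit 0) (nat_lit 11237412030) (nat_lit 152) (nat_lit 65192272764) (nat_lit 0) (nat_lit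 4713230830) (nat_lit 2) (nat_lit 5) (nat_lit 4) (nat_lit 4) (nat_lit 2) (nat_lit 4) (nat_lit 395) (nat_lit 210) (nat_lit 175)))))) (XT.nd (nat_lit 390) (nat_lit 0) (nat_lit 0) (XT.nd (nat_lit 156) (nat_lit 0) (nat_lit 0) (XT.nd (nat_lit 78) (nat_lit 0) (nat_lit 0) (XT.lf (nat_lit 0) (nat_lit 13080486317) (nat_lit 152) (nat_lit 63988919787) (nat_lit 0) (nat_lit 6451542656) (nat_lit 2) (nat_lit 5) (nat_lit 4) (nat_lit 4) (nat_lit 2) (nat_lit 4) (nat_lit 396) (nat_lit 210) (nat_lit 174)) (XT.lf (nat_lit 0) (nat_lit 14957142661) (nat_lit 152) (nat_lit 62787367260) (nat_lit 0) (nat_lit 8226487872) (nat_lit 2) (nat_lit 5) (nat_lit 4) (nat_lit 4) (nat_lit 2) (nat_lit 4) (nat_lit 397) (nat_lit 210) (nat_lit 173))) (XT.nd (nat_lit 78) (nat_lit 0) (nat_lit 0) (XT.lf (nat_lit 0) (nat_lit 16869020857) (nat_lit 152) (nat_lit 61586565284) (nat_lit 0) (nat_lit 10039617401) (nat_lit 2) (nat_lit 5) (nat_lit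 4) (nat_lit 4) (nat_lit 2) (nat_lit 4) (nat_lit 398) (nat_lit 210) (nat_lit 172)) (XT.nd (nat_lit 78) (nat_lit 0) (nat_lit 0) (XT.lf (nat_lit 0) (nat_lit 18817791479) (nat_lit 152) (nat_lit 60385464613) (nat_lit 0) (nat_lit 11892515530) (nat_lit 2) (nat_lit 5) (nat_lit 4) (nat_lit 4) (nat_lit 2) (nat_lit 4) (nat_lit 399) (nat_lit 210) (nat_lit 171)) (XT.lf (nat_lit 0) (nat_lit 20805157336) (nat_lit 152) (nat_lit 59183015742) (nat_lit 0) (nat_lit 13786801298) (nat_lit 2) (nat_lit 5) (nat_lit 4) (nat_lit 4) (nat_lit 2) (nat_lit 4) (nat_lit 400) (nat_lit 210) (nat_lit 170))))) (XT.nd (nat_lit 37362) (nat_lit 0) (nat_lit 380) (XT.nd (nat_lit 78) (nat_lit 0) (nat_lit 0) (XT.lf (nat_lit 0) (nat_lit 22832854962) (nat_lit 152) (nat_lit 57978167988) (nat_lit 0) (nat_lit 15724129904) (nat_lit 2) (nat_lit 5) (nat_lit 4) (nat_lit 4) (nat_lit 2) (nat_lit 4) (nat_lit 401) (nat_lit 210) (nat_lit 169)) (XT.nd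 (nat_lit 37206) (nat_lit 0) (nat_lit 456) (XT.lf (nat_lit 0) (nat_lit 24902656131) (nat_lit 152) (nat_lit 56769868572) (nat_lit 0) (nat_lit 17706194161) (nat_lit 2) (nat_lit 5) (nat_lit 4) (nat_lit 4) (nat_lit 2) (nat_lit 4) (nat_lit 402) (nat_lit 210) (nat_lit 168)) (XT.lf (nat_lit 0) (nat_lit 6417343032) (nat_lit 152) (nat_lit 1595905709) (nat_lit 0) (nat_lit 6417343032) (nat_lit 8) (nat_lit 5) (nat_lit 10) (nat_lit 4) (nat_lit 8) (nat_lit 4) (nat_lit 358) (nat_lit 211) (nat_lit 211)))) (XT.nd (nat_lit 78) (nat_lit 0) (nat_lit 0) (XT.lf (nat_lit 0) (nat_lit 1730990377) (nat_lit 76) (nat_lit 14112859145) (nat_lit 76) (nat_lit 13790737260) (nat_lit 7) (nat_lit 4) (nat_lit 8) (nat_lit 5) (nat_lit 8) (nat_lit 4) (nat_lit 359) (nat_lit 211) (nat_lit 210)) (XT.nd (nat_lit 78) (nat_lit 0) (nat_lit 0) (XT.lf (nat_lit 0) (nat_lit 6768670988) (nat_lit 76) (nat_lit 12149110229) (nat_lit 76) (nat_lit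 11514248650) (nat_lit 7) (nat_lit 4) (nat_lit 8) (nat_lit 5) (nat_lit 8) (nat_lit 4) (nat_lit 360) (nat_lit 211) (nat_lit 209)) (XT.lf (nat_lit 0) (nat_lit 11862108963) (nat_lit 76) (nat_lit 10165765878) (nat_lit 76) (nat_lit 9227273528) (nat_lit 7) (nat_lit 4) (nat_lit 8) (nat_lit 5) (nat_lit 8) (nat_lit 4) (nat_lit 361) (nat_lit 211) (nat_lit 208))))))))
noncomputable def xc11 : XT := (XT.nd (nat_lit 1716) (nat_lit 152) (nat_lit 0) (XT.nd (nat_lit 858) (nat_lit 76) (nat_lit 0) (XT.nd (nat_lit 390) (nat_lit 0) (nat_lit 0) (XT.nd (nat_lit 156) (nat_lit 152) (nat_lit 0) (XT.nd (nat_lit 78) (nat_lit 0) (nat_lit 0) (XT.lf (nat_lit 0) (nat_lit 17015754880) (nat_lit 76) (nat_lit 8161093071) (nat_lit 76) (nat_lit 6927813565) (nat_lit 7) (nat_lit 4) (nat_lit 8) (nat_lit 5) (nat_lit 8) (nat_lit 4) (nat_lit 362) (nat_lit 211) (nat_lit 207)) (XT.lf (nat_lit 0) (nat_lit 22234111923) (nat_lit 76) (nat_lit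 6133340154) (nat_lit 76) (nat_lit 4613859524) (nat_lit 7) (nat_lit 4) (nat_lit 8) (nat_lit 5) (nat_lit 8) (nat_lit 4) (nat_lit 363) (nat_lit 211) (nat_lit 206))) (XT.nd (nat_lit 78) (nat_lit 152) (nat_lit 0) (XT.lf (nat_lit 0) (nat_lit 27521739823) (nat_lit 76) (nat_lit 4080735302) (nat_lit 76) (nat_lit 2283389505) (nat_lit 7) (nat_lit 4) (nat_lit 8) (nat_lit 5) (nat_lit 8) (nat_lit 4) (nat_lit 364) (nat_lit 211) (nat_lit 205)) (XT.nd (nat_lit 78) (nat_lit 76) (nat_lit 0) (XT.lf (nat_lit 0) (nat_lit 64352093) (nat_lit 152) (nat_lit 1936483054) (nat_lit 76) (nat_lit 32818256913) (nat_lit 6) (nat_lit 5) (nat_lit 8) (nat_lit 5) (nat_lit 7) (nat_lit 4) (nat_lit 365) (nat_lit 211) (nat_lit 204)) (XT.lf (nat_lit 0) (nat_lit 2413923688) (nat_lit 152) (nat_lit 33213727430) (nat_lit 0) (nat_lit 152727207) (nat_lit 5) (nat_lit 5) (nat_lit 7) (nat_lit 4) (nat_lit 5) (nat_lit 4) (nat_lit 366) (nat_lit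 211) (nat_lit 203))))) (XT.nd (nat_lit 234) (nat_lit 0) (nat_lit 0) (XT.nd (nat_lit 78) (nat_lit 0) (nat_lit 0) (XT.lf (nat_lit 0) (nat_lit 4824950408) (nat_lit 152) (nat_lit 29629006682) (nat_lit 0) (nat_lit 2316874325) (nat_lit 5) (nat_lit 5) (nat_lit 7) (nat_lit 4) (nat_lit 5) (nat_lit 4) (nat_lit 367) (nat_lit 211) (nat_lit 202)) (XT.nd (nat_lit 78) (nat_lit 0) (nat_lit 0) (XT.lf (nat_lit 0) (nat_lit 7261132624) (nat_lit 152) (nat_lit 26017968733) (nat_lit 0) (nat_lit 4513367606) (nat_lit 5) (nat_lit 5) (nat_lit 7) (nat_lit 4) (nat_lit 5) (nat_lit 4) (nat_lit 368) (nat_lit 211) (nat_lit 201)) (XT.lf (nat_lit 0) (nat_lit 9724599040) (nat_lit 152) (nat_lit 22377458308) (nat_lit 0) (nat_lit 6744126318) (nat_lit 5) (nat_lit 5) (nat_lit 7) (nat_lit 4) (nat_lit 5) (nat_lit 4) (nat_lit 369) (nat_lit 211) (nat_lit 200)))) (XT.nd (nat_lit 78) (nat_lit 0) (nat_lit 0) (XT.lf (nat_lit 0) (nat_lit 12217502198)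 (nat_lit 152) (nat_lit 18704294378) (nat_lit 0) (nat_lit 9011099667) (nat_lit 5) (nat_lit 5) (nat_lit 7) (nat_lit 4) (nat_lit 5) (nat_lit 4) (nat_lit 370) (nat_lit 211) (nat_lit 199)) (XT.nd (nat_lit 78) (nat_lit 0) (nat_lit 0) (XT.lf (nat_lit 0) (nat_lit 14742020363) (nat_lit 152) (nat_lit 14995267381) (nat_lit 0) (nat_lit 11316268504) (nat_lit 5) (nat_lit 5) (nat_lit 7) (nat_lit 4) (nat_lit 5) (nat_lit 4) (nat_lit 371) (nat_lit 211) (nat_lit 198)) (XT.lf (nat_lit 0) (nat_lit 17300359426) (nat_lit 152) (nat_lit 11247136421) (nat_lit 0) (nat_lit 13661647052) (nat_lit 5) (nat_lit 5) (nat_lit 7) (nat_lit 4) (nat_lit 5) (nat_lit 4) (nat_lit 372) (nat_lit 211) (nat_lit 197)))))) (XT.nd (nat_lit 390) (nat_lit 0) (nat_lit 0) (XT.nd (nat_lit 156) (nat_lit 76) (nat_lit 0) (XT.nd (nat_lit 78) (nat_lit 0) (nat_lit 0) (XT.lf (nat_lit 0) (nat_lit 19894754828) (nat_lit 152) (nat_lit 7456626432) (nat_lit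 0) (nat_lit 16049284674) (nat_lit 5) (nat_lit 5) (nat_lit 7) (nat_lit 4) (nat_lit 5) (nat_lit 4) (nat_lit 373) (nat_lit 211) (nat_lit 196)) (XT.lf (nat_lit 0) (nat_lit 22527473516) (nat_lit 152) (nat_lit 3620425318) (nat_lit 0) (nat_lit 18481267653) (nat_lit 5) (nat_lit 5) (nat_lit 7) (nat_lit 4) (nat_lit 5) (nat_lit 4) (nat_lit 374) (nat_lit 211) (nat_lit 195))) (XT.nd (nat_lit 78) (nat_lit 0) (nat_lit 0) (XT.lf (nat_lit 0) (nat_lit 270089358) (nat_lit 76) (nat_lit 24933322831) (nat_lit 76) (nat_lit 20692227929) (nat_lit 4) (nat_lit 4) (nat_lit 5) (nat_lit 5) (nat_lit 5) (nat_lit 4) (nat_lit 375) (nat_lit 211) (nat_lit 194)) (XT.nd (nat_lit 78) (nat_lit 0) (nat_lit 0) (XT.lf (nat_lit 0) (nat_lit 4286139236) (nat_lit 76) (nat_lit 23672179740) (nat_lit 76) (nat_lit 19241872181) (nat_lit 4) (nat_lit 4) (nat_lit 5) (nat_lit 5) (nat_lit 5) (nat_lit 4) (nat_lit 376) (nat_lit 211) (nat_lit 193))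 (XT.lf (nat_lit 0) (nat_lit 8359179923) (nat_lit 76) (nat_lit 22399926790) (nat_lit 76) (nat_lit 17785917621) (nat_lit 4) (nat_lit 4) (nat_lit 5) (nat_lit 5) (nat_lit 5) (nat_lit 4) (nat_lit 377) (nat_lit 211) (nat_lit 192))))) (XT.nd (nat_lit 234) (nat_lit 0) (nat_lit 0) (XT.nd (nat_lit 78) (nat_lit 0) (nat_lit 0) (XT.lf (nat_lit 0) (nat_lit 12492770385) (nat_lit 76) (nat_lit 21115452303) (nat_lit 76) (nat_lit 16323092056) (nat_lit 4) (nat_lit 4) (nat_lit 5) (nat_lit 5) (nat_lit 5) (nat_lit 4) (nat_lit 378) (nat_lit 211) (nat_lit 191)) (XT.nd (nat_lit 78) (nat_lit 0) (nat_lit 0) (XT.lf (nat_lit 0) (nat_lit 16690522499) (nat_lit 76) (nat_lit 19817633922) (nat_lit 76) (nat_lit 14852117289) (nat_lit 4) (nat_lit 4) (nat_lit 5) (nat_lit 5) (nat_lit 5) (nat_lit 4) (nat_lit 379) (nat_lit 211) (nat_lit 190)) (XT.lf (nat_lit 0) (nat_lit 20956104204) (nat_lit 76) (nat_lit 18505337633) (nat_lit 76) (nat_lit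 13371708003) (nat_lit 4) (nat_lit 4) (nat_lit 5) (nat_lit 5) (nat_lit 5) (nat_lit 4) (nat_lit 380) (nat_lit 211) (nat_lit 189)))) (XT.nd (nat_lit 78) (nat_lit 0) (nat_lit 0) (XT.lf (nat_lit 0) (nat_lit 25293242705) (nat_lit 76) (nat_lit 17177416767) (nat_lit 76) (nat_lit 11880570636) (nat_lit 4) (nat_lit 4) (nat_lit 5) (nat_lit 5) (nat_lit 5) (nat_lit 4) (nat_lit 381) (nat_lit 211) (nat_lit 188)) (XT.nd (nat_lit 78) (nat_lit 0) (nat_lit 0) (XT.lf (nat_lit 0) (nat_lit 29705727737) (nat_lit 76) (nat_lit 15832711006) (nat_lit 76) (nat_lit 10377402253) (nat_lit 4) (nat_lit 4) (nat_lit 5) (nat_lit 5) (nat_lit 5) (nat_lit 4) (nat_lit 382) (nat_lit 211) (nat_lit 187)) (XT.lf (nat_lit 0) (nat_lit 34197414868) (nat_lit 76) (nat_lit 14470045364) (nat_lit 76) (nat_lit 8860889404) (nat_lit 4) (nat_lit 4) (nat_lit 5) (nat_lit 5) (nat_lit 5) (nat_lit 4) (nat_lit 383) (nat_lit 211) (nat_lit 186))))))) (XT.nd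 (nat_lit 858) (nat_lit 0) (nat_lit 0) (XT.nd (nat_lit 390) (nat_lit 152) (nat_lit 0) (XT.nd (nat_lit 156) (nat_lit 0) (nat_lit 0) (XT.nd (nat_lit 78) (nat_lit 0) (nat_lit 0) (XT.lf (nat_lit 0) (nat_lit 38772228874) (nat_lit 76) (nat_lit 13088229162) (nat_lit 76) (nat_lit 7329706983) (nat_lit 4) (nat_lit 4) (nat_lit 5) (nat_lit 5) (nat_lit 5) (nat_lit 4) (nat_lit 384) (nat_lit 211) (nat_lit 185)) (XT.lf (nat_lit 0) (nat_lit 43434167165) (nat_lit 76) (nat_lit 11686054989) (nat_lit 76) (nat_lit 5782517062) (nat_lit 4) (nat_lit 4) (nat_lit 5) (nat_lit 5) (nat_lit 5) (nat_lit 4) (nat_lit 385) (nat_lit 211) (nat_lit 184))) (XT.nd (nat_lit 78) (nat_lit 0) (nat_lit 0) (XT.lf (nat_lit 0) (nat_lit 48187303279) (nat_lit 76) (nat_lit 10262297643) (nat_lit 76) (nat_lit 4217967729) (nat_lit 4) (nat_lit 4) (nat_lit 5) (nat_lit 5) (nat_lit 5) (nat_lit 4) (nat_lit 386) (nat_lit 211) (nat_lit 183)) (XT.nd (nat_lit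 78) (nat_lit 0) (nat_lit 0) (XT.lf (nat_lit 0) (nat_lit 53035790442) (nat_lit 76) (nat_lit 8815713064) (nat_lit 76) (nat_lit 2634691900) (nat_lit 4) (nat_lit 4) (nat_lit 5) (nat_lit 5) (nat_lit 5) (nat_lit 4) (nat_lit 387) (nat_lit 211) (nat_lit 182)) (XT.lf (nat_lit 0) (nat_lit 57983865196) (nat_lit 76) (nat_lit 7345037248) (nat_lit 76) (nat_lit 1031306132) (nat_lit 4) (nat_lit 4) (nat_lit 5) (nat_lit 5) (nat_lit 5) (nat_lit 4) (nat_lit 388) (nat_lit 211) (nat_lit 181))))) (XT.nd (nat_lit 234) (nat_lit 0) (nat_lit 0) (XT.nd (nat_lit 78) (nat_lit 76) (nat_lit 0) (XT.lf (nat_lit 0) (nat_lit 582007501) (nat_lit 152) (nat_lit 5261100500) (nat_lit 76) (nat_lit 62447966466) (nat_lit 3) (nat_lit 5) (nat_lit 5) (nat_lit 5) (nat_lit 4) (nat_lit 4) (nat_lit 389) (nat_lit 211) (nat_lit 180)) (XT.nd (nat_lit 78) (nat_lit 76) (nat_lit 0) (XT.lf (nat_lit 0) (nat_lit 2197679945) (nat_lit 152) (nat_lit 2106377296)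 (nat_lit 76) (nat_lit 65976290312) (nat_lit 3) (nat_lit 5) (nat_lit 5) (nat_lit 5) (nat_lit 4) (nat_lit 4) (nat_lit 390) (nat_lit 211) (nat_lit 179)) (XT.lf (nat_lit 0) (nat_lit 1122398366) (nat_lit 76) (nat_lit 2725638263) (nat_lit 152) (nat_lit 68481703137) (nat_lit 2) (nat_lit 5) (nat_lit 3) (nat_lit 5) (nat_lit 4) (nat_lit 4) (nat_lit 391) (nat_lit 211) (nat_lit 178)))) (XT.nd (nat_lit 78) (nat_lit 0) (nat_lit 0) (XT.lf (nat_lit 0) (nat_lit 4449141276) (nat_lit 76) (nat_lit 1095769236) (nat_lit 152) (nat_lit 68895819596) (nat_lit 2) (nat_lit 5) (nat_lit 3) (nat_lit 5) (nat_lit 4) (nat_lit 4) (nat_lit 392) (nat_lit 211) (nat_lit 177)) (XT.nd (nat_lit 78) (nat_lit 0) (nat_lit 0) (XT.lf (nat_lit 0) (nat_lit 7274571434) (nat_lit 152) (nat_lit 68786383289) (nat_lit 0) (nat_lit 554664798) (nat_lit 2) (nat_lit 5) (nat_lit 4) (nat_lit 4) (nat_lit 2) (nat_lit 4) (nat_lit 393) (nat_lit 211) (nat_lit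 176)) (XT.lf (nat_lit 0) (nat_lit 9043939061) (nat_lit 152) (nat_lit 67596079993) (nat_lit 0) (nat_lit 2216127090) (nat_lit 2) (nat_lit 5) (nat_lit 4) (nat_lit 4) (nat_lit 2) (nat_lit 4) (nat_lit 394) (nat_lit 211) (nat_lit 175)))))) (XT.nd (nat_lit 468) (nat_lit 0) (nat_lit 0) (XT.nd (nat_lit 234) (nat_lit 0) (nat_lit 0) (XT.nd (nat_lit 78) (nat_lit 0) (nat_lit 0) (XT.lf (nat_lit 0) (nat_lit 10844026239) (nat_lit 152) (nat_lit 66409105669) (nat_lit 0) (nat_lit 3911451807) (nat_lit 2) (nat_lit 5) (nat_lit 4) (nat_lit 4) (nat_lit 2) (nat_lit 4) (nat_lit 395) (nat_lit 211) (nat_lit 174)) (XT.nd (nat_lit 78) (nat_lit 0) (nat_lit 0) (XT.lf (nat_lit 0) (nat_lit 12676405860) (nat_lit 152) (nat_lit 65224423155) (nat_lit 0) (nat_lit 5642120301) (nat_lit 2) (nat_lit 5) (nat_lit 4) (nat_lit 4) (nat_lit 2) (nat_lit 4) (nat_lit 396) (nat_lit 211) (nat_lit 173)) (XT.lf (nat_lit 0) (nat_lit 14542679032)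 (nat_lit 152) (nat_lit 64040997291) (nat_lit 0) (nat_lit 7409644805) (nat_lit 2) (nat_lit 5) (nat_lit 4) (nat_lit 4) (nat_lit 2) (nat_lit 4) (nat_lit 397) (nat_lit 211) (nat_lit 172)))) (XT.nd (nat_lit 78) (nat_lit 0) (nat_lit 0) (XT.lf (nat_lit 0) (nat_lit 16444476479) (nat_lit 152) (nat_lit 62857794016) (nat_lit 0) (nat_lit 9215569760) (nat_lit 2) (nat_lit 5) (nat_lit 4) (nat_lit 4) (nat_lit 2) (nat_lit 4) (nat_lit 398) (nat_lit 211) (nat_lit 171)) (XT.nd (nat_lit 78) (nat_lit 0) (nat_lit 0) (XT.lf (nat_lit 0) (nat_lit 18383459967) (nat_lit 152) (nat_lit 61673779464) (nat_lit 0) (nat_lit 11061473157) (nat_lit 2) (nat_lit 5) (nat_lit 4) (nat_lit 4) (nat_lit 2) (nat_lit 4) (nat_lit 399) (nat_lit 211) (nat_lit 170)) (XT.lf (nat_lit 0) (nat_lit 20361323752) (nat_lit 152) (nat_lit 60487919058) (nat_lit 0) (nat_lit 12948967923) (nat_lit 2) (nat_lit 5) (nat_lit 4) (nat_lit 4) (nat_lit 2) (nat_lit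 4) (nat_lit 400) (nat_lit 211) (nat_lit 169))))) (XT.nd (nat_lit 37206) (nat_lit 0) (nat_lit 380) (XT.nd (nat_lit 78) (nat_lit 0) (nat_lit 0) (XT.lf (nat_lit 0) (nat_lit 22379796065) (nat_lit 152) (nat_lit 59299176609) (nat_lit 0) (nat_lit 14879703324) (nat_lit 2) (nat_lit 5) (nat_lit 4) (nat_lit 4) (nat_lit 2) (nat_lit 4) (nat_lit 401) (nat_lit 211) (nat_lit 168)) (XT.nd (nat_lit 37050) (nat_lit 0) (nat_lit 456) (XT.lf (nat_lit 0) (nat_lit 24440640619) (nat_lit 152) (nat_lit 58106513411) (nat_lit 0) (nat_lit 16855366410) (nat_lit 2) (nat_lit 5) (nat_lit 4) (nat_lit 4) (nat_lit 2) (nat_lit 4) (nat_lit 402) (nat_lit 211) (nat_lit 167)) (XT.lf (nat_lit 0) (nat_lit 3649809186) (nat_lit 152) (nat_lit 6392755134) (nat_lit 0) (nat_lit 3649809186) (nat_lit 8) (nat_lit 5) (nat_lit 10) (nat_lit 4) (nat_lit 8) (nat_lit 4) (nat_lit 356) (nat_lit 212) (nat_lit 212)))) (XT.nd (nat_lit 78) (nat_lit 76) (nat_lit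 0) (XT.lf (nat_lit 0) (nat_lit 10204314968) (nat_lit 152) (nat_lit 8034753946) (nat_lit 0) (nat_lit 9872529427) (nat_lit 8) (nat_lit 5) (nat_lit 10) (nat_lit 4) (nat_lit 8) (nat_lit 4) (nat_lit 357) (nat_lit 212) (nat_lit 211)) (XT.nd (nat_lit 78) (nat_lit 76) (nat_lit 0) (XT.lf (nat_lit 0) (nat_lit 13137655243) (nat_lit 152) (nat_lit 3240681794) (nat_lit 0) (nat_lit 12483747816) (nat_lit 8) (nat_lit 5) (nat_lit 10) (nat_lit 4) (nat_lit 8) (nat_lit 4) (nat_lit 358) (nat_lit 212) (nat_lit 210)) (XT.lf (nat_lit 0) (nat_lit 1632756132) (nat_lit 76) (nat_lit 14485141229) (nat_lit 76) (nat_lit 13518494108) (nat_lit 7) (nat_lit 4) (nat_lit 8) (nat_lit 5) (nat_lit 8) (nat_lit 4) (nat_lit 359) (nat_lit 212) (nat_lit 209))))))))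
noncomputable def xc12 : XT := (XT.nd (nat_lit 1716) (nat_lit 152) (nat_lit 0) (XT.nd (nat_lit 858) (nat_lit 76) (nat_lit 0) (XT.nd (nat_lit 390) (nat_lit 152) (nat_lit 0) (XT.nd (nat_lit 156) (nat_lit 0) (nat_lit 0) (XT.nd (nat_lit 78) (nat_lit 0) (nat_lit 0) (XT.lf (nat_lit 0) (nat_lit 6623454943) (nat_lit 76) (nat_lit 12540760309) (nat_lit 76) (nat_lit 11270482417) (nat_lit 7) (nat_lit 4) (nat_lit 8) (nat_lit 5) (nat_lit 8) (nat_lit 4) (nat_lit 360) (nat_lit 212) (nat_lit 208)) (XT.lf (nat_lit 0) (nat_lit 11671279520) (nat_lit 76) (nat_lit 10576219837) (nat_lit 76) (nat_lit 9011154789) (nat_lit 7) (nat_lit 4) (nat_lit 8) (nat_lit 5) (nat_lit 8) (nat_lit 4) (nat_lit 361) (nat_lit 212) (nat_lit 207))) (XT.nd (nat_lit 78) (nat_lit 0) (nat_lit 0) (XT.lf (nat_lit 0) (nat_lit 16780640583) (nat_lit 76) (nat_lit 8589803224) (nat_lit 76) (nat_lit 6738537053) (nat_lit 7) (nat_lit 4) (nat_lit 8) (nat_lit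 5) (nat_lit 8) (nat_lit 4) (nat_lit 362) (nat_lit 212) (nat_lit 206)) (XT.nd (nat_lit 78) (nat_lit 0) (nat_lit 0) (XT.lf (nat_lit 0) (nat_lit 21956002624) (nat_lit 76) (nat_lit 6579774767) (nat_lit 76) (nat_lit 4450643428) (nat_lit 7) (nat_lit 4) (nat_lit 8) (nat_lit 5) (nat_lit 8) (nat_lit 4) (nat_lit 363) (nat_lit 212) (nat_lit 205)) (XT.lf (nat_lit 0) (nat_lit 27201887803) (nat_lit 76) (nat_lit 4544378128) (nat_lit 76) (nat_lit 2145474782) (nat_lit 7) (nat_lit 4) (nat_lit 8) (nat_lit 5) (nat_lit 8) (nat_lit 4) (nat_lit 364) (nat_lit 212) (nat_lit 204))))) (XT.nd (nat_lit 234) (nat_lit 0) (nat_lit 0) (XT.nd (nat_lit 78) (nat_lit 76) (nat_lit 0) (XT.lf (nat_lit 0) (nat_lit 175490503) (nat_lit 152) (nat_lit 2304572194) (nat_lit 76) (nat_lit 32345617290) (nat_lit 6) (nat_lit 5) (nat_lit 8) (nat_lit 5) (nat_lit 7) (nat_lit 4) (nat_lit 365) (nat_lit 212) (nat_lit 203)) (XT.nd (nat_lit 78) (nat_lit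 0) (nat_lit 0) (XT.lf (nat_lit 0) (nat_lit 2152145298) (nat_lit 76) (nat_lit 344036576) (nat_lit 152) (nat_lit 33291679000) (nat_lit 5) (nat_lit 5) (nat_lit 6) (nat_lit 5) (nat_lit 7) (nat_lit 4) (nat_lit 366) (nat_lit 212) (nat_lit 202)) (XT.lf (nat_lit 0) (nat_lit 4880662437) (nat_lit 152) (nat_lit 30087699769) (nat_lit 0) (nat_lit 1810775535) (nat_lit 5) (nat_lit 5) (nat_lit 7) (nat_lit 4) (nat_lit 5) (nat_lit 4) (nat_lit 367) (nat_lit 212) (nat_lit 201)))) (XT.nd (nat_lit 78) (nat_lit 0) (nat_lit 0) (XT.lf (nat_lit 0) (nat_lit 7294282453) (nat_lit 152) (nat_lit 26515508451) (nat_lit 0) (nat_lit 3991687847) (nat_lit 5) (nat_lit 5) (nat_lit 7) (nat_lit 4) (nat_lit 5) (nat_lit 4) (nat_lit 368) (nat_lit 212) (nat_lit 200)) (XT.nd (nat_lit 78) (nat_lit 0) (nat_lit 0) (XT.lf (nat_lit 0) (nat_lit 9735843819) (nat_lit 152) (nat_lit 22912713202) (nat_lit 0) (nat_lit 6207319404) (nat_lit 5) (nat_lit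 5) (nat_lit 7) (nat_lit 4) (nat_lit 5) (nat_lit 4) (nat_lit 369) (nat_lit 212) (nat_lit 199)) (XT.lf (nat_lit 0) (nat_lit 12207479939) (nat_lit 152) (nat_lit 19276165948) (nat_lit 0) (nat_lit 8459606195) (nat_lit 5) (nat_lit 5) (nat_lit 7) (nat_lit 4) (nat_lit 5) (nat_lit 4) (nat_lit 370) (nat_lit 212) (nat_lit 198)))))) (XT.nd (nat_lit 390) (nat_lit 76) (nat_lit 0) (XT.nd (nat_lit 156) (nat_lit 0) (nat_lit 0) (XT.nd (nat_lit 78) (nat_lit 0) (nat_lit 0) (XT.lf (nat_lit 0) (nat_lit 14711350495) (nat_lit 152) (nat_lit 15602689122) (nat_lit 0) (nat_lit 10750516237) (nat_lit 5) (nat_lit 5) (nat_lit 7) (nat_lit 4) (nat_lit 5) (nat_lit 4) (nat_lit 371) (nat_lit 212) (nat_lit 197)) (XT.lf (nat_lit 0) (nat_lit 17249643335) (nat_lit 152) (nat_lit 11889072891) (nat_lit 0) (nat_lit 13082051296) (nat_lit 5) (nat_lit 5) (nat_lit 7) (nat_lit 4) (nat_lit 5) (nat_lit 4) (nat_lit 372) (nat_lit 212) (nat_lit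 196))) (XT.nd (nat_lit 78) (nat_lit 0) (nat_lit 0) (XT.lf (nat_lit 0) (nat_lit 19824576384) (nat_lit 152) (nat_lit 8132072347) (nat_lit 0) (nat_lit 15456248636) (nat_lit 5) (nat_lit 5) (nat_lit 7) (nat_lit 4) (nat_lit 5) (nat_lit 4) (nat_lit 373) (nat_lit 212) (nat_lit 195)) (XT.nd (nat_lit 78) (nat_lit 0) (nat_lit 0) (XT.lf (nat_lit 0) (nat_lit 22438399585) (nat_lit 152) (nat_lit 4328404675) (nat_lit 0) (nat_lit 17875182799) (nat_lit 5) (nat_lit 5) (nat_lit 7) (nat_lit 4) (nat_lit 5) (nat_lit 4) (nat_lit 374) (nat_lit 212) (nat_lit 194)) (XT.lf (nat_lit 0) (nat_lit 25093396860) (nat_lit 152) (nat_lit 474746281) (nat_lit 0) (nat_lit 20340967415) (nat_lit 5) (nat_lit 5) (nat_lit 7) (nat_lit 4) (nat_lit 5) (nat_lit 4) (nat_lit 375) (nat_lit 212) (nat_lit 193))))) (XT.nd (nat_lit 234) (nat_lit 0) (nat_lit 0) (XT.nd (nat_lit 78) (nat_lit 0) (nat_lit 0) (XT.lf (nat_lit 0) (nat_lit 3500579014) (nat_lit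 76) (nat_lit 24324958802) (nat_lit 76) (nat_lit 19388827748) (nat_lit 4) (nat_lit 4) (nat_lit 5) (nat_lit 5) (nat_lit 5) (nat_lit 4) (nat_lit 376) (nat_lit 212) (nat_lit 192)) (XT.nd (nat_lit 78) (nat_lit 0) (nat_lit 0) (XT.lf (nat_lit 0) (nat_lit 7543254457) (nat_lit 76) (nat_lit 23065487158) (nat_lit 76) (nat_lit 17951005026) (nat_lit 4) (nat_lit 4) (nat_lit 5) (nat_lit 5) (nat_lit 5) (nat_lit 4) (nat_lit 377) (nat_lit 212) (nat_lit 191)) (XT.lf (nat_lit 0) (nat_lit 11647364101) (nat_lit 76) (nat_lit 21793421706) (nat_lit 76) (nat_lit 16505783188) (nat_lit 4) (nat_lit 4) (nat_lit 5) (nat_lit 5) (nat_lit 5) (nat_lit 4) (nat_lit 378) (nat_lit 212) (nat_lit 190)))) (XT.nd (nat_lit 78) (nat_lit 0) (nat_lit 0) (XT.lf (nat_lit 0) (nat_lit 15816494060) (nat_lit 76) (nat_lit 20507650933) (nat_lit 76) (nat_lit 15051899418) (nat_lit 4) (nat_lit 4) (nat_lit 5) (nat_lit 5) (nat_lit 5) (nat_lit 4) (nat_lit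 379) (nat_lit 212) (nat_lit 189)) (XT.nd (nat_lit 78) (nat_lit 0) (nat_lit 0) (XT.lf (nat_lit 0) (nat_lit 20054287265) (nat_lit 76) (nat_lit 19207051349) (nat_lit 76) (nat_lit 13588083333) (nat_lit 4) (nat_lit 4) (nat_lit 5) (nat_lit 5) (nat_lit 5) (nat_lit 4) (nat_lit 380) (nat_lit 212) (nat_lit 188)) (XT.lf (nat_lit 0) (nat_lit 24364446641) (nat_lit 76) (nat_lit 17890486508) (nat_lit 76) (nat_lit 12113055870) (nat_lit 4) (nat_lit 4) (nat_lit 5) (nat_lit 5) (nat_lit 5) (nat_lit 4) (nat_lit 381) (nat_lit 212) (nat_lit 187))))))) (XT.nd (nat_lit 858) (nat_lit 0) (nat_lit 0) (XT.nd (nat_lit 390) (nat_lit 152) (nat_lit 0) (XT.nd (nat_lit 156) (nat_lit 0) (nat_lit 0) (XT.nd (nat_lit 78) (nat_lit 0) (nat_lit 0) (XT.lf (nat_lit 0) (nat_lit 28750738347) (nat_lit 76) (nat_lit 16556806013) (nat_lit 76) (nat_lit 10625528169) (nat_lit 4) (nat_lit 4) (nat_lit 5) (nat_lit 5) (nat_lit 5) (nat_lit 4) (nat_lit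 382) (nat_lit 212) (nat_lit 186)) (XT.lf (nat_lit 0) (nat_lit 33216995065) (nat_lit 76) (nat_lit 15204844514) (nat_lit 76) (nat_lit 9124200450) (nat_lit 4) (nat_lit 4) (nat_lit 5) (nat_lit 5) (nat_lit 5) (nat_lit 4) (nat_lit 383) (nat_lit 212) (nat_lit 185))) (XT.nd (nat_lit 78) (nat_lit 0) (nat_lit 0) (XT.lf (nat_lit 0) (nat_lit 37767119349) (nat_lit 76) (nat_lit 13833420684) (nat_lit 76) (nat_lit 7607760873) (nat_lit 4) (nat_lit 4) (nat_lit 5) (nat_lit 5) (nat_lit 5) (nat_lit 4) (nat_lit 384) (nat_lit 212) (nat_lit 184)) (XT.nd (nat_lit 78) (nat_lit 0) (nat_lit 0) (XT.lf (nat_lit 0) (nat_lit 42405087036) (nat_lit 76) (nat_lit 12441336192) (nat_lit 76) (nat_lit 6074884393) (nat_lit 4) (nat_lit 4) (nat_lit 5) (nat_lit 5) (nat_lit 5) (nat_lit 4) (nat_lit 385) (nat_lit 212) (nat_lit 183)) (XT.lf (nat_lit 0) (nat_lit 47134950719) (nat_lit 76) (nat_lit 11027374653) (nat_lit 76) (nat_lit 4524231604)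 (nat_lit 4) (nat_lit 4) (nat_lit 5) (nat_lit 5) (nat_lit 5) (nat_lit 4) (nat_lit 386) (nat_lit 212) (nat_lit 182))))) (XT.nd (nat_lit 234) (nat_lit 76) (nat_lit 0) (XT.nd (nat_lit 78) (nat_lit 76) (nat_lit 0) (XT.lf (nat_lit 0) (nat_lit 51960843289) (nat_lit 76) (nat_lit 9590300567) (nat_lit 76) (nat_lit 2954447566) (nat_lit 4) (nat_lit 4) (nat_lit 5) (nat_lit 5) (nat_lit 5) (nat_lit 4) (nat_lit 387) (nat_lit 212) (nat_lit 181)) (XT.nd (nat_lit 78) (nat_lit 76) (nat_lit 0) (XT.lf (nat_lit 0) (nat_lit 56886981545) (nat_lit 76) (nat_lit 8128858237) (nat_lit 76) (nat_lit 1364160624) (nat_lit 4) (nat_lit 4) (nat_lit 5) (nat_lit 5) (nat_lit 5) (nat_lit 4) (nat_lit 388) (nat_lit 212) (nat_lit 180)) (XT.lf (nat_lit 0) (nat_lit 243179053) (nat_lit 152) (nat_lit 6396135992) (nat_lit 76) (nat_lit 61672035195) (nat_lit 3) (nat_lit 5) (nat_lit 5) (nat_lit 5) (nat_lit 4) (nat_lit 4) (nat_lit 389) (nat_lit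 212) (nat_lit 179)))) (XT.nd (nat_lit 78) (nat_lit 76) (nat_lit 0) (XT.lf (nat_lit 0) (nat_lit 1846745530) (nat_lit 152) (nat_lit 3262344449) (nat_lit 76) (nat_lit 65191910002) (nat_lit 3) (nat_lit 5) (nat_lit 5) (nat_lit 5) (nat_lit 4) (nat_lit 4) (nat_lit 390) (nat_lit 212) (nat_lit 178)) (XT.nd (nat_lit 78) (nat_lit 76) (nat_lit 0) (XT.lf (nat_lit 0) (nat_lit 3474559668) (nat_lit 152) (nat_lit 75792822) (nat_lit 76) (nat_lit 68800729062) (nat_lit 3) (nat_lit 5) (nat_lit 5) (nat_lit 5) (nat_lit 4) (nat_lit 4) (nat_lit 391) (nat_lit 212) (nat_lit 177)) (XT.lf (nat_lit 0) (nat_lit 3229318896) (nat_lit 76) (nat_lit 1929767121) (nat_lit 152) (nat_lit 69303369006) (nat_lit 2) (nat_lit 5) (nat_lit 3) (nat_lit 5) (nat_lit 4) (nat_lit 4) (nat_lit 392) (nat_lit 212) (nat_lit 176)))))) (XT.nd (nat_lit 390) (nat_lit 0) (nat_lit 0) (XT.nd (nat_lit 156) (nat_lit 0) (nat_lit 0) (XT.nd (nat_lit 78) (nat_lit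 0) (nat_lit 0) (XT.lf (nat_lit 0) (nat_lit 6595478213) (nat_lit 76) (nat_lit 276564362) (nat_lit 152) (nat_lit 69765815324) (nat_lit 2) (nat_lit 5) (nat_lit 3) (nat_lit 5) (nat_lit 4) (nat_lit 4) (nat_lit 393) (nat_lit 212) (nat_lit 175)) (XT.lf (nat_lit 0) (nat_lit 8627736190) (nat_lit 152) (nat_lit 68868648462) (nat_lit 0) (nat_lit 1382422064) (nat_lit 2) (nat_lit 5) (nat_lit 4) (nat_lit 4) (nat_lit 2) (nat_lit 4) (nat_lit 394) (nat_lit 212) (nat_lit 174))) (XT.nd (nat_lit 78) (nat_lit 0) (nat_lit 0) (XT.lf (nat_lit 0) (nat_lit 10417128702) (nat_lit 152) (nat_lit 67700344600) (nat_lit 0) (nat_lit 3070103448) (nat_lit 2) (nat_lit 5) (nat_lit 4) (nat_lit 4) (nat_lit 2) (nat_lit 4) (nat_lit 395) (nat_lit 212) (nat_lit 173)) (XT.nd (nat_lit 78) (nat_lit 0) (nat_lit 0) (XT.lf (nat_lit 0) (nat_lit 12239125152) (nat_lit 152) (nat_lit 66533788749) (nat_lit 0) (nat_lit 4793351230) (nat_lit 2) (nat_lit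 5) (nat_lit 4) (nat_lit 4) (nat_lit 2) (nat_lit 4) (nat_lit 396) (nat_lit 212) (nat_lit 172)) (XT.lf (nat_lit 0) (nat_lit 14095317575) (nat_lit 152) (nat_lit 65367961588) (nat_lit 0) (nat_lit 6553671161) (nat_lit 2) (nat_lit 5) (nat_lit 4) (nat_lit 4) (nat_lit 2) (nat_lit 4) (nat_lit 397) (nat_lit 212) (nat_lit 171))))) (XT.nd (nat_lit 234) (nat_lit 0) (nat_lit 0) (XT.nd (nat_lit 78) (nat_lit 0) (nat_lit 0) (XT.lf (nat_lit 0) (nat_lit 15987327888) (nat_lit 152) (nat_lit 64201844431) (nat_lit 0) (nat_lit 8352601384) (nat_lit 2) (nat_lit 5) (nat_lit 4) (nat_lit 4) (nat_lit 2) (nat_lit 4) (nat_lit 398) (nat_lit 212) (nat_lit 170)) (XT.nd (nat_lit 78) (nat_lit 0) (nat_lit 0) (XT.lf (nat_lit 0) (nat_lit 17916809303) (nat_lit 152) (nat_lit 63034418343) (nat_lit 0) (nat_lit 10191713779) (nat_lit 2) (nat_lit 5) (nat_lit 4) (nat_lit 4) (nat_lit 2) (nat_lit 4) (nat_lit 399) (nat_lit 212) (nat_lit 169))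 (XT.lf (nat_lit 0) (nat_lit 19885447774) (nat_lit 152) (nat_lit 61864663243) (nat_lit 0) (nat_lit 12072615339) (nat_lit 2) (nat_lit 5) (nat_lit 4) (nat_lit 4) (nat_lit 2) (nat_lit 4) (nat_lit 400) (nat_lit 212) (nat_lit 168)))) (XT.nd (nat_lit 78) (nat_lit 0) (nat_lit 0) (XT.lf (nat_lit 0) (nat_lit 21894963473) (nat_lit 152) (nat_lit 60691557013) (nat_lit 0) (nat_lit 13996949569) (nat_lit 2) (nat_lit 5) (nat_lit 4) (nat_lit 4) (nat_lit 2) (nat_lit 4) (nat_lit 401) (nat_lit 212) (nat_lit 167)) (XT.nd (nat_lit 36894) (nat_lit 0) (nat_lit 456) (XT.lf (nat_lit 0) (nat_lit 23947112285) (nat_lit 152) (nat_lit 59514074610) (nat_lit 0) (nat_lit 15966397927) (nat_lit 2) (nat_lit 5) (nat_lit 4) (nat_lit 4) (nat_lit 2) (nat_lit 4) (nat_lit 402) (nat_lit 212) (nat_lit 166)) (XT.lf (nat_lit 0) (nat_lit 969168542) (nat_lit 152) (nat_lit 11060899607) (nat_lit 0) (nat_lit 969168542) (nat_lit 8) (nat_lit 5)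 (nat_lit 10) (nat_lit 4) (nat_lit 8) (nat_lit 4) (nat_lit 354) (nat_lit 213) (nat_lit 213))))))))
noncomputable def xc13 : XT := (XT.nd (nat_lit 1716) (nat_lit 152) (nat_lit 0) (XT.nd (nat_lit 858) (nat_lit 152) (nat_lit 0) (XT.nd (nat_lit 390) (nat_lit 76) (nat_lit 0) (XT.nd (nat_lit 156) (nat_lit 76) (nat_lit 0) (XT.nd (nat_lit 78) (nat_lit 0) (nat_lit 0) (XT.lf (nat_lit 0) (nat_lit 4762766482) (nat_lit 152) (nat_lit 17497101911) (nat_lit 0) (nat_lit 4421027374) (nat_lit 8) (nat_lit 5) (nat_lit 10) (nat_lit 4) (nat_lit 8) (nat_lit 4) (nat_lit 355) (nat_lit 213) (nat_lit 212)) (XT.lf (nat_lit 0) (nat_lit 7611676627) (nat_lit 152) (nat_lit 12835846756) (nat_lit 0) (nat_lit 6938151977) (nat_lit 8) (nat_lit 5) (nat_lit 10) (nat_lit 4) (nat_lit 8) (nat_lit 4) (nat_lit 356) (nat_lit 213) (nat_lit 211))) (XT.nd (nat_lit 78) (nat_lit 76) (nat_lit 0) (XT.lf (nat_lit 0) (nat_lit 10487556858) (nat_lit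 152) (nat_lit 8133960808) (nat_lit 0) (nat_lit 9491910324) (nat_lit 8) (nat_lit 5) (nat_lit 10) (nat_lit 4) (nat_lit 8) (nat_lit 4) (nat_lit 357) (nat_lit 213) (nat_lit 210)) (XT.nd (nat_lit 78) (nat_lit 76) (nat_lit 0) (XT.lf (nat_lit 0) (nat_lit 13392920081) (nat_lit 152) (nat_lit 3387335623) (nat_lit 0) (nat_lit 12084533852) (nat_lit 8) (nat_lit 5) (nat_lit 10) (nat_lit 4) (nat_lit 8) (nat_lit 4) (nat_lit 358) (nat_lit 213) (nat_lit 209)) (XT.lf (nat_lit 0) (nat_lit 1436201805) (nat_lit 76) (nat_lit 14907908807) (nat_lit 76) (nat_lit 13295891807) (nat_lit 7) (nat_lit 4) (nat_lit 8) (nat_lit 5) (nat_lit 8) (nat_lit 4) (nat_lit 359) (nat_lit 213) (nat_lit 208))))) (XT.nd (nat_lit 234) (nat_lit 76) (nat_lit 0) (XT.nd (nat_lit 78) (nat_lit 0) (nat_lit 0) (XT.lf (nat_lit 0) (nat_lit 6381287218) (nat_lit 76) (nat_lit 12982331767) (nat_lit 76) (nat_lit 11075527611) (nat_lit 7) (nat_lit 4) (nat_lit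 8) (nat_lit 5) (nat_lit 8) (nat_lit 4) (nat_lit 360) (nat_lit 213) (nat_lit 207)) (XT.nd (nat_lit 78) (nat_lit 0) (nat_lit 0) (XT.lf (nat_lit 0) (nat_lit 11384826942) (nat_lit 76) (nat_lit 11036047489) (nat_lit 76) (nat_lit 8843042210) (nat_lit 7) (nat_lit 4) (nat_lit 8) (nat_lit 5) (nat_lit 8) (nat_lit 4) (nat_lit 361) (nat_lit 213) (nat_lit 206)) (XT.lf (nat_lit 0) (nat_lit 16451193004) (nat_lit 76) (nat_lit 9067355336) (nat_lit 76) (nat_lit 6596484889) (nat_lit 7) (nat_lit 4) (nat_lit 8) (nat_lit 5) (nat_lit 8) (nat_lit 4) (nat_lit 362) (nat_lit 213) (nat_lit 205)))) (XT.nd (nat_lit 78) (nat_lit 76) (nat_lit 0) (XT.lf (nat_lit 0) (nat_lit 21584812324) (nat_lit 76) (nat_lit 7074535091) (nat_lit 76) (nat_lit 4333892637) (nat_lit 7) (nat_lit 4) (nat_lit 8) (nat_lit 5) (nat_lit 8) (nat_lit 4) (nat_lit 363) (nat_lit 213) (nat_lit 204)) (XT.nd (nat_lit 78) (nat_lit 76) (nat_lit 0) (XT.lf (nat_lit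 0) (nat_lit 26790170589) (nat_lit 76) (nat_lit 5055845456) (nat_lit 76) (nat_lit 2053288432) (nat_lit 7) (nat_lit 4) (nat_lit 8) (nat_lit 5) (nat_lit 8) (nat_lit 4) (nat_lit 364) (nat_lit 213) (nat_lit 203)) (XT.lf (nat_lit 0) (nat_lit 242494374) (nat_lit 152) (nat_lit 2764579435) (nat_lit 76) (nat_lit 31826873079) (nat_lit 6) (nat_lit 5) (nat_lit 8) (nat_lit 5) (nat_lit 7) (nat_lit 4) (nat_lit 365) (nat_lit 213) (nat_lit 202)))))) (XT.nd (nat_lit 390) (nat_lit 76) (nat_lit 0) (XT.nd (nat_lit 156) (nat_lit 0) (nat_lit 0) (XT.nd (nat_lit 78) (nat_lit 0) (nat_lit 0) (XT.lf (nat_lit 0) (nat_lit 1643533488) (nat_lit 76) (nat_lit 892060652) (nat_lit 152) (nat_lit 33261388776) (nat_lit 5) (nat_lit 5) (nat_lit 6) (nat_lit 5) (nat_lit 7) (nat_lit 4) (nat_lit 366) (nat_lit 213) (nat_lit 201)) (XT.lf (nat_lit 0) (nat_lit 4892244560) (nat_lit 152) (nat_lit 30639012309) (nat_lit 0) (nat_lit 1257864413)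 (nat_lit 5) (nat_lit 5) (nat_lit 7) (nat_lit 4) (nat_lit 5) (nat_lit 4) (nat_lit 367) (nat_lit 213) (nat_lit 200))) (XT.nd (nat_lit 78) (nat_lit 0) (nat_lit 0) (XT.lf (nat_lit 0) (nat_lit 7283959527) (nat_lit 152) (nat_lit 27104536168) (nat_lit 0) (nat_lit 3423649570) (nat_lit 5) (nat_lit 5) (nat_lit 7) (nat_lit 4) (nat_lit 5) (nat_lit 4) (nat_lit 368) (nat_lit 213) (nat_lit 199)) (XT.nd (nat_lit 78) (nat_lit 0) (nat_lit 0) (XT.lf (nat_lit 0) (nat_lit 9704253855) (nat_lit 152) (nat_lit 23538357595) (nat_lit 0) (nat_lit 5624594569) (nat_lit 5) (nat_lit 5) (nat_lit 7) (nat_lit 4) (nat_lit 5) (nat_lit 4) (nat_lit 369) (nat_lit 213) (nat_lit 198)) (XT.lf (nat_lit 0) (nat_lit 12155242365) (nat_lit 152) (nat_lit 19937360511) (nat_lit 0) (nat_lit 7862622565) (nat_lit 5) (nat_lit 5) (nat_lit 7) (nat_lit 4) (nat_lit 5) (nat_lit 4) (nat_lit 370) (nat_lit 213) (nat_lit 197))))) (XT.nd (nat_lit 234) (nat_lit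 76) (nat_lit 0) (XT.nd (nat_lit 78) (nat_lit 0) (nat_lit 0) (XT.lf (nat_lit 0) (nat_lit 14639066698) (nat_lit 152) (nat_lit 16298398414) (nat_lit 0) (nat_lit 10139689118) (nat_lit 5) (nat_lit 5) (nat_lit 7) (nat_lit 4) (nat_lit 5) (nat_lit 4) (nat_lit 371) (nat_lit 213) (nat_lit 196)) (XT.nd (nat_lit 78) (nat_lit 0) (nat_lit 0) (XT.lf (nat_lit 0) (nat_lit 17157897185) (nat_lit 152) (nat_lit 12618291628) (nat_lit 0) (nat_lit 12457783896) (nat_lit 5) (nat_lit 5) (nat_lit 7) (nat_lit 4) (nat_lit 5) (nat_lit 4) (nat_lit 372) (nat_lit 213) (nat_lit 195)) (XT.lf (nat_lit 0) (nat_lit 19713934747) (nat_lit 152) (nat_lit 8893824527) (nat_lit 0) (nat_lit 14818932419) (nat_lit 5) (nat_lit 5) (nat_lit 7) (nat_lit 4) (nat_lit 5) (nat_lit 4) (nat_lit 373) (nat_lit 213) (nat_lit 194)))) (XT.nd (nat_lit 78) (nat_lit 76) (nat_lit 0) (XT.lf (nat_lit 0) (nat_lit 22309412814) (nat_lit 152) (nat_lit 5121742721)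 (nat_lit 0) (nat_lit 17225197828) (nat_lit 5) (nat_lit 5) (nat_lit 7) (nat_lit 4) (nat_lit 5) (nat_lit 4) (nat_lit 374) (nat_lit 213) (nat_lit 193)) (XT.nd (nat_lit 78) (nat_lit 76) (nat_lit 0) (XT.lf (nat_lit 0) (nat_lit 24946599279) (nat_lit 152) (nat_lit 1298750216) (nat_lit 0) (nat_lit 19678682683) (nat_lit 5) (nat_lit 5) (nat_lit 7) (nat_lit 4) (nat_lit 5) (nat_lit 4) (nat_lit 375) (nat_lit 213) (nat_lit 192)) (XT.lf (nat_lit 0) (nat_lit 2629810540) (nat_lit 76) (nat_lit 25023267287) (nat_lit 76) (nat_lit 19576999614) (nat_lit 4) (nat_lit 4) (nat_lit 5) (nat_lit 5) (nat_lit 5) (nat_lit 4) (nat_lit 376) (nat_lit 213) (nat_lit 191))))))) (XT.nd (nat_lit 858) (nat_lit 152) (nat_lit 0) (XT.nd (nat_lit 390) (nat_lit 0) (nat_lit 0) (XT.nd (nat_lit 156) (nat_lit 0) (nat_lit 0) (XT.nd (nat_lit 78) (nat_lit 0) (nat_lit 0) (XT.lf (nat_lit 0) (nat_lit 6643005164) (nat_lit 76) (nat_lit 23776204679)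 (nat_lit 76) (nat_lit 18156780619) (nat_lit 4) (nat_lit 4) (nat_lit 5) (nat_lit 5) (nat_lit 5) (nat_lit 4) (nat_lit 377) (nat_lit 213) (nat_lit 190)) (XT.lf (nat_lit 0) (nat_lit 10718492654) (nat_lit 76) (nat_lit 22516186834) (nat_lit 76) (nat_lit 16728649778) (nat_lit 4) (nat_lit 4) (nat_lit 5) (nat_lit 5) (nat_lit 5) (nat_lit 4) (nat_lit 378) (nat_lit 213) (nat_lit 189))) (XT.nd (nat_lit 78) (nat_lit 0) (nat_lit 0) (XT.lf (nat_lit 0) (nat_lit 14859834114) (nat_lit 76) (nat_lit 21242112766) (nat_lit 76) (nat_lit 15291359209) (nat_lit 4) (nat_lit 4) (nat_lit 5) (nat_lit 5) (nat_lit 5) (nat_lit 4) (nat_lit 379) (nat_lit 213) (nat_lit 188)) (XT.nd (nat_lit 78) (nat_lit 0) (nat_lit 0) (XT.lf (nat_lit 0) (nat_lit 19070648193) (nat_lit 76) (nat_lit 19952869207) (nat_lit 76) (nat_lit 13843653027) (nat_lit 4) (nat_lit 4) (nat_lit 5) (nat_lit 5) (nat_lit 5) (nat_lit 4) (nat_lit 380) (nat_lit 213) (nat_lit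 187)) (XT.lf (nat_lit 0) (nat_lit 23354614243) (nat_lit 76) (nat_lit 18647329633) (nat_lit 76) (nat_lit 12384266247) (nat_lit 4) (nat_lit 4) (nat_lit 5) (nat_lit 5) (nat_lit 5) (nat_lit 4) (nat_lit 381) (nat_lit 213) (nat_lit 186))))) (XT.nd (nat_lit 234) (nat_lit 0) (nat_lit 0) (XT.nd (nat_lit 78) (nat_lit 0) (nat_lit 0) (XT.lf (nat_lit 0) (nat_lit 27715475536) (nat_lit 76) (nat_lit 17324353281) (nat_lit 76) (nat_lit 10911923676) (nat_lit 4) (nat_lit 4) (nat_lit 5) (nat_lit 5) (nat_lit 5) (nat_lit 4) (nat_lit 382) (nat_lit 213) (nat_lit 185)) (XT.nd (nat_lit 78) (nat_lit 0) (nat_lit 0) (XT.lf (nat_lit 0) (nat_lit 32157042532) (nat_lit 76) (nat_lit 15982784153) (nat_lit 76) (nat_lit 9425338801) (nat_lit 4) (nat_lit 4) (nat_lit 5) (nat_lit 5) (nat_lit 5) (nat_lit 4) (nat_lit 383) (nat_lit 213) (nat_lit 184)) (XT.lf (nat_lit 0) (nat_lit 36683196212) (nat_lit 76) (nat_lit 14621450005) (nat_lit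 76) (nat_lit 7923212664) (nat_lit 4) (nat_lit 4) (nat_lit 5) (nat_lit 5) (nat_lit 5) (nat_lit 4) (nat_lit 384) (nat_lit 213) (nat_lit 183)))) (XT.nd (nat_lit 78) (nat_lit 0) (nat_lit 0) (XT.lf (nat_lit 0) (nat_lit 41297891469) (nat_lit 76) (nat_lit 13239161319) (nat_lit 76) (nat_lit 6404232729) (nat_lit 4) (nat_lit 4) (nat_lit 5) (nat_lit 5) (nat_lit 5) (nat_lit 4) (nat_lit 385) (nat_lit 213) (nat_lit 182)) (XT.nd (nat_lit 78) (nat_lit 0) (nat_lit 0) (XT.lf (nat_lit 0) (nat_lit 46005160559) (nat_lit 76) (nat_lit 11834710272) (nat_lit 76) (nat_lit 4867071730) (nat_lit 4) (nat_lit 4) (nat_lit 5) (nat_lit 5) (nat_lit 5) (nat_lit 4) (nat_lit 386) (nat_lit 213) (nat_lit 181)) (XT.lf (nat_lit 0) (nat_lit 50809116631) (nat_lit 76) (nat_lit 10406869674) (nat_lit 76) (nat_lit 3310386518) (nat_lit 4) (nat_lit 4) (nat_lit 5) (nat_lit 5) (nat_lit 5) (nat_lit 4) (nat_lit 387) (nat_lit 213) (nat_lit 180))))))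 (XT.nd (nat_lit 468) (nat_lit 0) (nat_lit 0) (XT.nd (nat_lit 234) (nat_lit 76) (nat_lit 0) (XT.nd (nat_lit 78) (nat_lit 76) (nat_lit 0) (XT.lf (nat_lit 0) (nat_lit 55713957316) (nat_lit 76) (nat_lit 8954391895) (nat_lit 76) (nat_lit 1732816883) (nat_lit 4) (nat_lit 4) (nat_lit 5) (nat_lit 5) (nat_lit 5) (nat_lit 4) (nat_lit 388) (nat_lit 213) (nat_lit 179)) (XT.nd (nat_lit 78) (nat_lit 76) (nat_lit 0) (XT.lf (nat_lit 0) (nat_lit 60723968398) (nat_lit 76) (nat_lit 7476007783) (nat_lit 76) (nat_lit 132984364) (nat_lit 4) (nat_lit 4) (nat_lit 5) (nat_lit 5) (nat_lit 5) (nat_lit 4) (nat_lit 389) (nat_lit 213) (nat_lit 178)) (XT.lf (nat_lit 0) (nat_lit 1461423749) (nat_lit 152) (nat_lit 4494244279) (nat_lit 76) (nat_lit 64367346292) (nat_lit 3) (nat_lit 5) (nat_lit 5) (nat_lit 5) (nat_lit 4) (nat_lit 4) (nat_lit 390) (nat_lit 213) (nat_lit 177)))) (XT.nd (nat_lit 78) (nat_lit 76) (nat_lit 0) (XT.lf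 (nat_lit 0) (nat_lit 3077826852) (nat_lit 152) (nat_lit 1327422751) (nat_lit 76) (nat_lit 67968201322) (nat_lit 3) (nat_lit 5) (nat_lit 5) (nat_lit 5) (nat_lit 4) (nat_lit 4) (nat_lit 391) (nat_lit 213) (nat_lit 176)) (XT.nd (nat_lit 78) (nat_lit 0) (nat_lit 0) (XT.lf (nat_lit 0) (nat_lit 1933242412) (nat_lit 76) (nat_lit 2805573434) (nat_lit 152) (nat_lit 69746727002) (nat_lit 2) (nat_lit 5) (nat_lit 3) (nat_lit 5) (nat_lit 4) (nat_lit 4) (nat_lit 392) (nat_lit 213) (nat_lit 175)) (XT.lf (nat_lit 0) (nat_lit 5280434092) (nat_lit 76) (nat_lit 1160399988) (nat_lit 152) (nat_lit 70220451766) (nat_lit 2) (nat_lit 5) (nat_lit 3) (nat_lit 5) (nat_lit 4) (nat_lit 4) (nat_lit 393) (nat_lit 213) (nat_lit 174))))) (XT.nd (nat_lit 234) (nat_lit 0) (nat_lit 0) (XT.nd (nat_lit 78) (nat_lit 0) (nat_lit 0) (XT.lf (nat_lit 0) (nat_lit 8177337060) (nat_lit 152) (nat_lit 70217295024) (nat_lit 0) (nat_lit 508189921)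 (nat_lit 2) (nat_lit 5) (nat_lit 4) (nat_lit 4) (nat_lit 2) (nat_lit 4) (nat_lit 394) (nat_lit 213) (nat_lit 173)) (XT.nd (nat_lit 78) (nat_lit 0) (nat_lit 0) (XT.lf (nat_lit 0) (nat_lit 9956346401) (nat_lit 152) (nat_lit 69067117826) (nat_lit 0) (nat_lit 2188450595) (nat_lit 2) (nat_lit 5) (nat_lit 4) (nat_lit 4) (nat_lit 2) (nat_lit 4) (nat_lit 395) (nat_lit 213) (nat_lit 172)) (XT.lf (nat_lit 0) (nat_lit 11768262102) (nat_lit 152) (nat_lit 67918160677) (nat_lit 0) (nat_lit 3904493803) (nat_lit 2) (nat_lit 5) (nat_lit 4) (nat_lit 4) (nat_lit 2) (nat_lit 4) (nat_lit 396) (nat_lit 213) (nat_lit 171)))) (XT.nd (nat_lit 78) (nat_lit 0) (nat_lit 0) (XT.lf (nat_lit 0) (nat_lit 13614667391) (nat_lit 152) (nat_lit 66769419633) (nat_lit 0) (nat_lit 5657819002) (nat_lit 2) (nat_lit 5) (nat_lit 4) (nat_lit 4) (nat_lit 2) (nat_lit 4) (nat_lit 397) (nat_lit 213) (nat_lit 170)) (XT.nd (nat_lit 78) (nat_lit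 0) (nat_lit 0) (XT.lf (nat_lit 0) (nat_lit 15497175631) (nat_lit 152) (nat_lit 65619890942) (nat_lit 0) (nat_lit 7449958223) (nat_lit 2) (nat_lit 5) (nat_lit 4) (nat_lit 4) (nat_lit 2) (nat_lit 4) (nat_lit 398) (nat_lit 213) (nat_lit 169)) (XT.lf (nat_lit 0) (nat_lit 17417431733) (nat_lit 152) (nat_lit 64468570159) (nat_lit 0) (nat_lit 9282477413) (nat_lit 2) (nat_lit 5) (nat_lit 4) (nat_lit 4) (nat_lit 2) (nat_lit 4) (nat_lit 399) (nat_lit 213) (nat_lit 168))))))))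
noncomputable def xc14 : XT := (XT.nd (nat_lit 38376) (nat_lit 0) (nat_lit 0) (XT.nd (nat_lit 37518) (nat_lit 0) (nat_lit 228) (XT.nd (nat_lit 37050) (nat_lit 0) (nat_lit 380) (XT.nd (nat_lit 156) (nat_lit 0) (nat_lit 0) (XT.nd (nat_lit 78) (nat_lit 0) (nat_lit 0) (XT.lf (nat_lit 0) (nat_lit 19377113590) (nat_lit 152) (nat_lit 63314451277) (nat_lit 0) (nat_lit 11156977802) (nat_lit 2) (nat_lit 5) (nat_lit 4) (nat_lit 4) (nat_lit 2) (nat_lit 4) (nat_lit 400) (nat_lit 213) (nat_lit 167)) (XT.lf (nat_lit 0) (nat_lit 21377933546) (nat_lit 152) (nat_lit 62156525842) (nat_lit 0) (nat_lit 13075097303) (nat_lit 2) (nat_lit 5) (nat_lit 4) (nat_lit 4) (nat_lit 2) (nat_lit 4) (nat_lit 401) (nat_lit 213) (nat_lit 166))) (XT.nd (nat_lit 36738) (nat_lit 0) (nat_lit 608) (XT.lf (nat_lit 0) (nat_lit 23421639889) (nat_lit 152) (nat_lit 60993782075) (nat_lit 0) (nat_lit 15038511944) (nat_lit 2) (nat_lit 5) (nat_lit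 4) (nat_lit 4) (nat_lit 2) (nat_lit 4) (nat_lit 402) (nat_lit 213) (nat_lit 165)) (XT.nd (nat_lit 78) (nat_lit 0) (nat_lit 0) (XT.lf (nat_lit 0) (nat_lit 9115325192) (nat_lit 152) (nat_lit 1615728847) (nat_lit 152) (nat_lit 1615728847) (nat_lit 10) (nat_lit 4) (nat_lit 12) (nat_lit 5) (nat_lit 12) (nat_lit 4) (nat_lit 352) (nat_lit 214) (nat_lit 214)) (XT.lf (nat_lit 0) (nat_lit 23974338295) (nat_lit 152) (nat_lit 862613462) (nat_lit 152) (nat_lit 500062442) (nat_lit 10) (nat_lit 4) (nat_lit 12) (nat_lit 5) (nat_lit 12) (nat_lit 4) (nat_lit 353) (nat_lit 214) (nat_lit 213))))) (XT.nd (nat_lit 234) (nat_lit 76) (nat_lit 0) (XT.nd (nat_lit 78) (nat_lit 0) (nat_lit 0) (XT.lf (nat_lit 0) (nat_lit 2259757085) (nat_lit 152) (nat_lit 22173645797) (nat_lit 0) (nat_lit 1566026697) (nat_lit 8) (nat_lit 5) (nat_lit 10) (nat_lit 4) (nat_lit 8) (nat_lit 4) (nat_lit 354) (nat_lit 214) (nat_lit 212)) (XT.nd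 (nat_lit 78) (nat_lit 0) (nat_lit 0) (XT.lf (nat_lit 0) (nat_lit 5054505629) (nat_lit 152) (nat_lit 17599284979) (nat_lit 0) (nat_lit 4028989698) (nat_lit 8) (nat_lit 5) (nat_lit 10) (nat_lit 4) (nat_lit 8) (nat_lit 4) (nat_lit 355) (nat_lit 214) (nat_lit 211)) (XT.lf (nat_lit 0) (nat_lit 7874599410) (nat_lit 152) (nat_lit 12986900199) (nat_lit 0) (nat_lit 6526961594) (nat_lit 8) (nat_lit 5) (nat_lit 10) (nat_lit 4) (nat_lit 8) (nat_lit 4) (nat_lit 356) (nat_lit 214) (nat_lit 210)))) (XT.nd (nat_lit 78) (nat_lit 76) (nat_lit 0) (XT.lf (nat_lit 0) (nat_lit 10722502589) (nat_lit 152) (nat_lit 8332461217) (nat_lit 0) (nat_lit 9062125079) (nat_lit 8) (nat_lit 5) (nat_lit 10) (nat_lit 4) (nat_lit 8) (nat_lit 4) (nat_lit 357) (nat_lit 214) (nat_lit 209)) (XT.nd (nat_lit 78) (nat_lit 76) (nat_lit 0) (XT.lf (nat_lit 0) (nat_lit 13600703626) (nat_lit 152) (nat_lit 3631901048) (nat_lit 0) (nat_lit 11636695345)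 (nat_lit 8) (nat_lit 5) (nat_lit 10) (nat_lit 4) (nat_lit 8) (nat_lit 4) (nat_lit 358) (nat_lit 214) (nat_lit 208)) (XT.lf (nat_lit 0) (nat_lit 1141155650) (nat_lit 76) (nat_lit 15381531288) (nat_lit 76) (nat_lit 13122735850) (nat_lit 7) (nat_lit 4) (nat_lit 8) (nat_lit 5) (nat_lit 8) (nat_lit 4) (nat_lit 359) (nat_lit 214) (nat_lit 207)))))) (XT.nd (nat_lit 390) (nat_lit 152) (nat_lit 0) (XT.nd (nat_lit 156) (nat_lit 0) (nat_lit 0) (XT.nd (nat_lit 78) (nat_lit 0) (nat_lit 0) (XT.lf (nat_lit 0) (nat_lit 6041956210) (nat_lit 76) (nat_lit 13474210441) (nat_lit 76) (nat_lit 10929213881) (nat_lit 7) (nat_lit 4) (nat_lit 8) (nat_lit 5) (nat_lit 8) (nat_lit 4) (nat_lit 360) (nat_lit 214) (nat_lit 206)) (XT.lf (nat_lit 0) (nat_lit 11002500932) (nat_lit 76) (nat_lit 11545650623) (nat_lit 76) (nat_lit 8722788895) (nat_lit 7) (nat_lit 4) (nat_lit 8) (nat_lit 5) (nat_lit 8) (nat_lit 4) (nat_lit 361) (nat_lit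 214) (nat_lit 205))) (XT.nd (nat_lit 78) (nat_lit 0) (nat_lit 0) (XT.lf (nat_lit 0) (nat_lit 16027124273) (nat_lit 76) (nat_lit 9594166683) (nat_lit 76) (nat_lit 6501532948) (nat_lit 7) (nat_lit 4) (nat_lit 8) (nat_lit 5) (nat_lit 8) (nat_lit 4) (nat_lit 362) (nat_lit 214) (nat_lit 204)) (XT.nd (nat_lit 78) (nat_lit 0) (nat_lit 0) (XT.lf (nat_lit 0) (nat_lit 21120216680) (nat_lit 76) (nat_lit 7618053442) (nat_lit 76) (nat_lit 4263505136) (nat_lit 7) (nat_lit 4) (nat_lit 8) (nat_lit 5) (nat_lit 8) (nat_lit 4) (nat_lit 363) (nat_lit 214) (nat_lit 203)) (XT.lf (nat_lit 0) (nat_lit 26286228427) (nat_lit 76) (nat_lit 5615584199) (nat_lit 76) (nat_lit 2006749902) (nat_lit 7) (nat_lit 4) (nat_lit 8) (nat_lit 5) (nat_lit 8) (nat_lit 4) (nat_lit 364) (nat_lit 214) (nat_lit 202))))) (XT.nd (nat_lit 234) (nat_lit 0) (nat_lit 0) (XT.nd (nat_lit 78) (nat_lit 76) (nat_lit 0) (XT.lf (nat_lit 0) (nat_lit 265422252)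 (nat_lit 152) (nat_lit 3316906726) (nat_lit 76) (nat_lit 31261571010) (nat_lit 6) (nat_lit 5) (nat_lit 8) (nat_lit 5) (nat_lit 7) (nat_lit 4) (nat_lit 365) (nat_lit 214) (nat_lit 201)) (XT.nd (nat_lit 78) (nat_lit 0) (nat_lit 0) (XT.lf (nat_lit 0) (nat_lit 1041913294) (nat_lit 76) (nat_lit 1488784305) (nat_lit 152) (nat_lit 33277099744) (nat_lit 5) (nat_lit 5) (nat_lit 6) (nat_lit 5) (nat_lit 7) (nat_lit 4) (nat_lit 366) (nat_lit 214) (nat_lit 200)) (XT.lf (nat_lit 0) (nat_lit 4859706897) (nat_lit 152) (nat_lit 31283426034) (nat_lit 0) (nat_lit 657657833) (nat_lit 5) (nat_lit 5) (nat_lit 7) (nat_lit 4) (nat_lit 5) (nat_lit 4) (nat_lit 367) (nat_lit 214) (nat_lit 199)))) (XT.nd (nat_lit 78) (nat_lit 0) (nat_lit 0) (XT.lf (nat_lit 0) (nat_lit 7230154826) (nat_lit 152) (nat_lit 27785566569) (nat_lit 0) (nat_lit 2808756432) (nat_lit 5) (nat_lit 5) (nat_lit 7) (nat_lit 4) (nat_lit 5) (nat_lit 4)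 (nat_lit 368) (nat_lit 214) (nat_lit 198)) (XT.nd (nat_lit 78) (nat_lit 0) (nat_lit 0) (XT.lf (nat_lit 0) (nat_lit 9629801544) (nat_lit 152) (nat_lit 24254938166) (nat_lit 0) (nat_lit 4995442636) (nat_lit 5) (nat_lit 5) (nat_lit 7) (nat_lit 4) (nat_lit 5) (nat_lit 4) (nat_lit 369) (nat_lit 214) (nat_lit 197)) (XT.lf (nat_lit 0) (nat_lit 12060743831) (nat_lit 152) (nat_lit 20688455811) (nat_lit 0) (nat_lit 7219627143) (nat_lit 5) (nat_lit 5) (nat_lit 7) (nat_lit 4) (nat_lit 5) (nat_lit 4) (nat_lit 370) (nat_lit 214) (nat_lit 196))))))) (XT.nd (nat_lit 858) (nat_lit 152) (nat_lit 0) (XT.nd (nat_lit 390) (nat_lit 76) (nat_lit 0) (XT.nd (nat_lit 156) (nat_lit 0) (nat_lit 0) (XT.nd (nat_lit 78) (nat_lit 0) (nat_lit 0) (XT.lf (nat_lit 0) (nat_lit 14525105812) (nat_lit 152) (nat_lit 17083003160) (nat_lit 0) (nat_lit 9483253414) (nat_lit 5) (nat_lit 5) (nat_lit 7) (nat_lit 4) (nat_lit 5) (nat_lit 4)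 (nat_lit 371) (nat_lit 214) (nat_lit 195)) (XT.lf (nat_lit 0) (nat_lit 17025040811) (nat_lit 152) (nat_lit 13435429816) (nat_lit 0) (nat_lit 11788299375) (nat_lit 5) (nat_lit 5) (nat_lit 7) (nat_lit 4) (nat_lit 5) (nat_lit 4) (nat_lit 372) (nat_lit 214) (nat_lit 194))) (XT.nd (nat_lit 78) (nat_lit 0) (nat_lit 0) (XT.lf (nat_lit 0) (nat_lit 19562733239) (nat_lit 152) (nat_lit 9742548581) (nat_lit 0) (nat_lit 14136779145) (nat_lit 5) (nat_lit 5) (nat_lit 7) (nat_lit 4) (nat_lit 5) (nat_lit 4) (nat_lit 373) (nat_lit 214) (nat_lit 193)) (XT.nd (nat_lit 78) (nat_lit 0) (nat_lit 0) (XT.lf (nat_lit 0) (nat_lit 22140400496) (nat_lit 152) (nat_lit 6001132664) (nat_lit 0) (nat_lit 16530744792) (nat_lit 5) (nat_lit 5) (nat_lit 7) (nat_lit 4) (nat_lit 5) (nat_lit 4) (nat_lit 374) (nat_lit 214) (nat_lit 192)) (XT.lf (nat_lit 0) (nat_lit 24760294913) (nat_lit 152) (nat_lit 2207912868) (nat_lit 0) (nat_lit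 18972288132) (nat_lit 5) (nat_lit 5) (nat_lit 7) (nat_lit 4) (nat_lit 5) (nat_lit 4) (nat_lit 375) (nat_lit 214) (nat_lit 191))))) (XT.nd (nat_lit 234) (nat_lit 0) (nat_lit 0) (XT.nd (nat_lit 78) (nat_lit 0) (nat_lit 0) (XT.lf (nat_lit 0) (nat_lit 1673072950) (nat_lit 76) (nat_lit 25767715369) (nat_lit 76) (nat_lit 19806552201) (nat_lit 4) (nat_lit 4) (nat_lit 5) (nat_lit 5) (nat_lit 5) (nat_lit 4) (nat_lit 376) (nat_lit 214) (nat_lit 190)) (XT.nd (nat_lit 78) (nat_lit 0) (nat_lit 0) (XT.lf (nat_lit 0) (nat_lit 5657645420) (nat_lit 76) (nat_lit 24532700367) (nat_lit 76) (nat_lit 18403424203) (nat_lit 4) (nat_lit 4) (nat_lit 5) (nat_lit 5) (nat_lit 5) (nat_lit 4) (nat_lit 377) (nat_lit 214) (nat_lit 189)) (XT.lf (nat_lit 0) (nat_lit 9705344410) (nat_lit 76) (nat_lit 23284379227) (nat_lit 76) (nat_lit 16991886562) (nat_lit 4) (nat_lit 4) (nat_lit 5) (nat_lit 5) (nat_lit 5) (nat_lit 4) (nat_lit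 378) (nat_lit 214) (nat_lit 188)))) (XT.nd (nat_lit 78) (nat_lit 0) (nat_lit 0) (XT.lf (nat_lit 0) (nat_lit 13819706745) (nat_lit 76) (nat_lit 22021661185) (nat_lit 76) (nat_lit 15570705897) (nat_lit 4) (nat_lit 4) (nat_lit 5) (nat_lit 5) (nat_lit 5) (nat_lit 4) (nat_lit 379) (nat_lit 214) (nat_lit 187)) (XT.nd (nat_lit 78) (nat_lit 0) (nat_lit 0) (XT.lf (nat_lit 0) (nat_lit 18004327498) (nat_lit 76) (nat_lit 20743442892) (nat_lit 76) (nat_lit 14138640399) (nat_lit 4) (nat_lit 4) (nat_lit 5) (nat_lit 5) (nat_lit 5) (nat_lit 4) (nat_lit 380) (nat_lit 214) (nat_lit 186)) (XT.lf (nat_lit 0) (nat_lit 22262863135) (nat_lit 76) (nat_lit 19448607461) (nat_lit 76) (nat_lit 12694438748) (nat_lit 4) (nat_lit 4) (nat_lit 5) (nat_lit 5) (nat_lit 5) (nat_lit 4) (nat_lit 381) (nat_lit 214) (nat_lit 185)))))) (XT.nd (nat_lit 390) (nat_lit 152) (nat_lit 0) (XT.nd (nat_lit 156) (nat_lit 0) (nat_lit 0) (XT.nd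 (nat_lit 78) (nat_lit 0) (nat_lit 0) (XT.lf (nat_lit 0) (nat_lit 26599034705) (nat_lit 76) (nat_lit 18136023481) (nat_lit 76) (nat_lit 11236839021) (nat_lit 4) (nat_lit 4) (nat_lit 5) (nat_lit 5) (nat_lit 5) (nat_lit 4) (nat_lit 382) (nat_lit 214) (nat_lit 184)) (XT.lf (nat_lit 0) (nat_lit 31016631098) (nat_lit 76) (nat_lit 16804544035) (nat_lit 76) (nat_lit 9764567586) (nat_lit 4) (nat_lit 4) (nat_lit 5) (nat_lit 5) (nat_lit 5) (nat_lit 4) (nat_lit 383) (nat_lit 214) (nat_lit 183))) (XT.nd (nat_lit 78) (nat_lit 0) (nat_lit 0) (XT.lf (nat_lit 0) (nat_lit 35519512347) (nat_lit 76) (nat_lit 15453005693) (nat_lit 76) (nat_lit 8276337994) (nat_lit 4) (nat_lit 4) (nat_lit 5) (nat_lit 5) (nat_lit 5) (nat_lit 4) (nat_lit 384) (nat_lit 214) (nat_lit 182)) (XT.nd (nat_lit 78) (nat_lit 0) (nat_lit 0) (XT.lf (nat_lit 0) (nat_lit 40111613011) (nat_lit 76) (nat_lit 14080227499) (nat_lit 76) (nat_lit 6770849849)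 (nat_lit 4) (nat_lit 4) (nat_lit 5) (nat_lit 5) (nat_lit 5) (nat_lit 4) (nat_lit 385) (nat_lit 214) (nat_lit 181)) (XT.lf (nat_lit 0) (nat_lit 44796945603) (nat_lit 76) (nat_lit 12685009940) (nat_lit 76) (nat_lit 5246787677) (nat_lit 4) (nat_lit 4) (nat_lit 5) (nat_lit 5) (nat_lit 5) (nat_lit 4) (nat_lit 386) (nat_lit 214) (nat_lit 180))))) (XT.nd (nat_lit 234) (nat_lit 152) (nat_lit 0) (XT.nd (nat_lit 78) (nat_lit 0) (nat_lit 0) (XT.lf (nat_lit 0) (nat_lit 49579604104) (nat_lit 76) (nat_lit 11266133892) (nat_lit 76) (nat_lit 3702819772) (nat_lit 4) (nat_lit 4) (nat_lit 5) (nat_lit 5) (nat_lit 5) (nat_lit 4) (nat_lit 387) (nat_lit 214) (nat_lit 179)) (XT.nd (nat_lit 78) (nat_lit 0) (nat_lit 0) (XT.lf (nat_lit 0) (nat_lit 54463767536) (nat_lit 76) (nat_lit 9822359562) (nat_lit 76) (nat_lit 2137597036) (nat_lit 4) (nat_lit 4) (nat_lit 5) (nat_lit 5) (nat_lit 5) (nat_lit 4) (nat_lit 388) (nat_lit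 214) (nat_lit 178)) (XT.lf (nat_lit 0) (nat_lit 59453703615) (nat_lit 76) (nat_lit 8352425398) (nat_lit 76) (nat_lit 549751799) (nat_lit 4) (nat_lit 4) (nat_lit 5) (nat_lit 5) (nat_lit 5) (nat_lit 4) (nat_lit 389) (nat_lit 214) (nat_lit 177)))) (XT.nd (nat_lit 78) (nat_lit 76) (nat_lit 0) (XT.lf (nat_lit 0) (nat_lit 1041377914) (nat_lit 152) (nat_lit 5803153203) (nat_lit 76) (nat_lit 63501878689) (nat_lit 3) (nat_lit 5) (nat_lit 5) (nat_lit 5) (nat_lit 4) (nat_lit 4) (nat_lit 390) (nat_lit 214) (nat_lit 176)) (XT.nd (nat_lit 78) (nat_lit 76) (nat_lit 0) (XT.lf (nat_lit 0) (nat_lit 2646702341) (nat_lit 152) (nat_lit 2655487110) (nat_lit 76) (nat_lit 67095001652) (nat_lit 3) (nat_lit 5) (nat_lit 5) (nat_lit 5) (nat_lit 4) (nat_lit 4) (nat_lit 391) (nat_lit 214) (nat_lit 175)) (XT.lf (nat_lit 0) (nat_lit 559779330) (nat_lit 76) (nat_lit 3723953442) (nat_lit 152) (nat_lit 70226280983) (nat_lit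 2) (nat_lit 5) (nat_lit 3) (nat_lit 5) (nat_lit 4) (nat_lit 4) (nat_lit 392) (nat_lit 214) (nat_lit 174))))))))
noncomputable def xc15 : XT := (XT.nd (nat_lit 38220) (nat_lit 0) (nat_lit 152) (XT.nd (nat_lit 37362) (nat_lit 0) (nat_lit 380) (XT.nd (nat_lit 390) (nat_lit 0) (nat_lit 0) (XT.nd (nat_lit 156) (nat_lit 0) (nat_lit 0) (XT.nd (nat_lit 78) (nat_lit 0) (nat_lit 0) (XT.lf (nat_lit 0) (nat_lit 3888555829) (nat_lit 76) (nat_lit 2086575446) (nat_lit 152) (nat_lit 70710955696) (nat_lit 2) (nat_lit 5) (nat_lit 3) (nat_lit 5) (nat_lit 4) (nat_lit 4) (nat_lit 393) (nat_lit 214) (nat_lit 173)) (XT.lf (nat_lit 0) (nat_lit 7280901624) (nat_lit 76) (nat_lit 415439958) (nat_lit 152) (nat_lit 71231751614) (nat_lit 2) (nat_lit 5) (nat_lit 3) (nat_lit 5) (nat_lit 4) (nat_lit 4) (nat_lit 394) (nat_lit 214) (nat_lit 172))) (XT.nd (nat_lit 78) (nat_lit 0) (nat_lit 0) (XT.lf (nat_lit 0) (nat_lit 9461276711)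 (nat_lit 152) (nat_lit 70510619613) (nat_lit 0) (nat_lit 1265722871) (nat_lit 2) (nat_lit 5) (nat_lit 4) (nat_lit 4) (nat_lit 2) (nat_lit 4) (nat_lit 395) (nat_lit 214) (nat_lit 171)) (XT.nd (nat_lit 78) (nat_lit 0) (nat_lit 0) (XT.lf (nat_lit 0) (nat_lit 11263405277) (nat_lit 152) (nat_lit 69378748582) (nat_lit 0) (nat_lit 2974771347) (nat_lit 2) (nat_lit 5) (nat_lit 4) (nat_lit 4) (nat_lit 2) (nat_lit 4) (nat_lit 396) (nat_lit 214) (nat_lit 170)) (XT.lf (nat_lit 0) (nat_lit 13100308494) (nat_lit 152) (nat_lit 68246596003) (nat_lit 0) (nat_lit 4721305544) (nat_lit 2) (nat_lit 5) (nat_lit 4) (nat_lit 4) (nat_lit 2) (nat_lit 4) (nat_lit 397) (nat_lit 214) (nat_lit 169))))) (XT.nd (nat_lit 234) (nat_lit 0) (nat_lit 0) (XT.nd (nat_lit 78) (nat_lit 0) (nat_lit 0) (XT.lf (nat_lit 0) (nat_lit 14973591421) (nat_lit 152) (nat_lit 67113172617) (nat_lit 0) (nat_lit 6506851559) (nat_lit 2) (nat_lit 5)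 (nat_lit 4) (nat_lit 4) (nat_lit 2) (nat_lit 4) (nat_lit 398) (nat_lit 214) (nat_lit 168)) (XT.nd (nat_lit 78) (nat_lit 0) (nat_lit 0) (XT.lf (nat_lit 0) (nat_lit 16884890908) (nat_lit 152) (nat_lit 65977488053) (nat_lit 0) (nat_lit 8332969578) (nat_lit 2) (nat_lit 5) (nat_lit 4) (nat_lit 4) (nat_lit 2) (nat_lit 4) (nat_lit 399) (nat_lit 214) (nat_lit 167)) (XT.lf (nat_lit 0) (nat_lit 18835877023) (nat_lit 152) (nat_lit 64838549966) (nat_lit 0) (nat_lit 10201255239) (nat_lit 2) (nat_lit 5) (nat_lit 4) (nat_lit 4) (nat_lit 2) (nat_lit 4) (nat_lit 400) (nat_lit 214) (nat_lit 166)))) (XT.nd (nat_lit 78) (nat_lit 0) (nat_lit 0) (XT.lf (nat_lit 0) (nat_lit 20828254510) (nat_lit 152) (nat_lit 63695363167) (nat_lit 0) (nat_lit 12113341023) (nat_lit 2) (nat_lit 5) (nat_lit 4) (nat_lit 4) (nat_lit 2) (nat_lit 4) (nat_lit 401) (nat_lit 214) (nat_lit 165)) (XT.nd (nat_lit 36582) (nat_lit 0) (nat_lit 608)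 (XT.lf (nat_lit 0) (nat_lit 22863764283) (nat_lit 152) (nat_lit 62546928755) (nat_lit 0) (nat_lit 14070897686) (nat_lit 2) (nat_lit 5) (nat_lit 4) (nat_lit 4) (nat_lit 2) (nat_lit 4) (nat_lit 402) (nat_lit 214) (nat_lit 164)) (XT.lf (nat_lit 0) (nat_lit 3495713314) (nat_lit 152) (nat_lit 4118895542) (nat_lit 152) (nat_lit 4118895542) (nat_lit 10) (nat_lit 4) (nat_lit 12) (nat_lit 5) (nat_lit 12) (nat_lit 4) (nat_lit 350) (nat_lit 215) (nat_lit 215)))))) (XT.nd (nat_lit 390) (nat_lit 76) (nat_lit 0) (XT.nd (nat_lit 156) (nat_lit 152) (nat_lit 0) (XT.nd (nat_lit 78) (nat_lit 0) (nat_lit 0) (XT.lf (nat_lit 0) (nat_lit 12553840878) (nat_lit 152) (nat_lit 5945163214) (nat_lit 152) (nat_lit 5571735663) (nat_lit 10) (nat_lit 4) (nat_lit 12) (nat_lit 5) (nat_lit 12) (nat_lit 4) (nat_lit 351) (nat_lit 215) (nat_lit 214)) (XT.lf (nat_lit 0) (nat_lit 18179701675) (nat_lit 152) (nat_lit 3625398582) (nat_lit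 152) (nat_lit 2889420012) (nat_lit 10) (nat_lit 4) (nat_lit 12) (nat_lit 5) (nat_lit 12) (nat_lit 4) (nat_lit 352) (nat_lit 215) (nat_lit 213))) (XT.nd (nat_lit 78) (nat_lit 152) (nat_lit 0) (XT.lf (nat_lit 0) (nat_lit 23873924818) (nat_lit 152) (nat_lit 1276470211) (nat_lit 152) (nat_lit 188500360) (nat_lit 10) (nat_lit 4) (nat_lit 12) (nat_lit 5) (nat_lit 12) (nat_lit 4) (nat_lit 353) (nat_lit 215) (nat_lit 212)) (XT.nd (nat_lit 78) (nat_lit 0) (nat_lit 0) (XT.lf (nat_lit 0) (nat_lit 2530567552) (nat_lit 152) (nat_lit 22329230843) (nat_lit 0) (nat_lit 1142500602) (nat_lit 8) (nat_lit 5) (nat_lit 10) (nat_lit 4) (nat_lit 8) (nat_lit 4) (nat_lit 354) (nat_lit 215) (nat_lit 211)) (XT.lf (nat_lit 0) (nat_lit 5296499732) (nat_lit 152) (nat_lit 17803740401) (nat_lit 0) (nat_lit 3586310896) (nat_lit 8) (nat_lit 5) (nat_lit 10) (nat_lit 4) (nat_lit 8) (nat_lit 4) (nat_lit 355) (nat_lit 215) (nat_lit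 210))))) (XT.nd (nat_lit 234) (nat_lit 76) (nat_lit 0) (XT.nd (nat_lit 78) (nat_lit 0) (nat_lit 0) (XT.lf (nat_lit 0) (nat_lit 8088616461) (nat_lit 152) (nat_lit 13238802587) (nat_lit 0) (nat_lit 6065687932) (nat_lit 8) (nat_lit 5) (nat_lit 10) (nat_lit 4) (nat_lit 8) (nat_lit 4) (nat_lit 356) (nat_lit 215) (nat_lit 209)) (XT.nd (nat_lit 78) (nat_lit 0) (nat_lit 0) (XT.lf (nat_lit 0) (nat_lit 10909357454) (nat_lit 152) (nat_lit 8630428621) (nat_lit 0) (nat_lit 8582798154) (nat_lit 8) (nat_lit 5) (nat_lit 10) (nat_lit 4) (nat_lit 8) (nat_lit 4) (nat_lit 357) (nat_lit 215) (nat_lit 208)) (XT.lf (nat_lit 0) (nat_lit 13761187436) (nat_lit 152) (nat_lit 3974591768) (nat_lit 0) (nat_lit 11139840979) (nat_lit 8) (nat_lit 5) (nat_lit 10) (nat_lit 4) (nat_lit 8) (nat_lit 4) (nat_lit 358) (nat_lit 215) (nat_lit 207)))) (XT.nd (nat_lit 78) (nat_lit 0) (nat_lit 0) (XT.lf (nat_lit 0) (nat_lit 747359860)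 (nat_lit 76) (nat_lit 15906422516) (nat_lit 76) (nat_lit 12998874936) (nat_lit 7) (nat_lit 4) (nat_lit 8) (nat_lit 5) (nat_lit 8) (nat_lit 4) (nat_lit 359) (nat_lit 215) (nat_lit 206)) (XT.nd (nat_lit 78) (nat_lit 0) (nat_lit 0) (XT.lf (nat_lit 0) (nat_lit 5605165418) (nat_lit 76) (nat_lit 14016826129) (nat_lit 76) (nat_lit 10831413382) (nat_lit 7) (nat_lit 4) (nat_lit 8) (nat_lit 5) (nat_lit 8) (nat_lit 4) (nat_lit 360) (nat_lit 215) (nat_lit 205)) (XT.lf (nat_lit 0) (nat_lit 10523967419) (nat_lit 76) (nat_lit 12105474524) (nat_lit 76) (nat_lit 8650289770) (nat_lit 7) (nat_lit 4) (nat_lit 8) (nat_lit 5) (nat_lit 8) (nat_lit 4) (nat_lit 361) (nat_lit 215) (nat_lit 204))))))) (XT.nd (nat_lit 858) (nat_lit 76) (nat_lit 0) (XT.nd (nat_lit 390) (nat_lit 0) (nat_lit 0) (XT.nd (nat_lit 156) (nat_lit 152) (nat_lit 0) (XT.nd (nat_lit 78) (nat_lit 0) (nat_lit 0) (XT.lf (nat_lit 0) (nat_lit 15508063846)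 (nat_lit 76) (nat_lit 10170697588) (nat_lit 76) (nat_lit 6453598263) (nat_lit 7) (nat_lit 4) (nat_lit 8) (nat_lit 5) (nat_lit 8) (nat_lit 4) (nat_lit 362) (nat_lit 215) (nat_lit 203)) (XT.lf (nat_lit 0) (nat_lit 20561809735) (nat_lit 76) (nat_lit 8210804738) (nat_lit 76) (nat_lit 4239419423) (nat_lit 7) (nat_lit 4) (nat_lit 8) (nat_lit 5) (nat_lit 8) (nat_lit 4) (nat_lit 363) (nat_lit 215) (nat_lit 202))) (XT.nd (nat_lit 78) (nat_lit 152) (nat_lit 0) (XT.lf (nat_lit 0) (nat_lit 25689620980) (nat_lit 76) (nat_lit 6224083448) (nat_lit 76) (nat_lit 2005818530) (nat_lit 7) (nat_lit 4) (nat_lit 8) (nat_lit 5) (nat_lit 8) (nat_lit 4) (nat_lit 364) (nat_lit 215) (nat_lit 201)) (XT.nd (nat_lit 78) (nat_lit 76) (nat_lit 0) (XT.lf (nat_lit 0) (nat_lit 244294172) (nat_lit 152) (nat_lit 3962036682) (nat_lit 76) (nat_lit 30649217128) (nat_lit 6) (nat_lit 5) (nat_lit 8) (nat_lit 5) (nat_lit 7) (nat_lit 4)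 (nat_lit 365) (nat_lit 215) (nat_lit 200)) (XT.lf (nat_lit 0) (nat_lit 346759028) (nat_lit 76) (nat_lit 2134728944) (nat_lit 152) (nat_lit 33338825633) (nat_lit 5) (nat_lit 5) (nat_lit 6) (nat_lit 5) (nat_lit 7) (nat_lit 4) (nat_lit 366) (nat_lit 215) (nat_lit 199))))) (XT.nd (nat_lit 234) (nat_lit 0) (nat_lit 0) (XT.nd (nat_lit 78) (nat_lit 0) (nat_lit 0) (XT.lf (nat_lit 0) (nat_lit 4783021017) (nat_lit 152) (nat_lit 32021504022) (nat_lit 0) (nat_lit 9631342) (nat_lit 5) (nat_lit 5) (nat_lit 7) (nat_lit 4) (nat_lit 5) (nat_lit 4) (nat_lit 367) (nat_lit 215) (nat_lit 198)) (XT.nd (nat_lit 78) (nat_lit 0) (nat_lit 0) (XT.lf (nat_lit 0) (nat_lit 7132821336) (nat_lit 152) (nat_lit 28559194728) (nat_lit 0) (nat_lit 2146471147) (nat_lit 5) (nat_lit 5) (nat_lit 7) (nat_lit 4) (nat_lit 5) (nat_lit 4) (nat_lit 368) (nat_lit 215) (nat_lit 197)) (XT.lf (nat_lit 0) (nat_lit 9512421831) (nat_lit 152) (nat_lit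 25063081054) (nat_lit 0) (nat_lit 4319313862) (nat_lit 5) (nat_lit 5) (nat_lit 7) (nat_lit 4) (nat_lit 5) (nat_lit 4) (nat_lit 369) (nat_lit 215) (nat_lit 196)))) (XT.nd (nat_lit 78) (nat_lit 0) (nat_lit 0) (XT.lf (nat_lit 0) (nat_lit 11923901766) (nat_lit 152) (nat_lit 21530108144) (nat_lit 0) (nat_lit 6530058087) (nat_lit 5) (nat_lit 5) (nat_lit 7) (nat_lit 4) (nat_lit 5) (nat_lit 4) (nat_lit 370) (nat_lit 215) (nat_lit 195)) (XT.nd (nat_lit 78) (nat_lit 0) (nat_lit 0) (XT.lf (nat_lit 0) (nat_lit 14369368258) (nat_lit 152) (nat_lit 17957188935) (nat_lit 0) (nat_lit 8780635542) (nat_lit 5) (nat_lit 5) (nat_lit 7) (nat_lit 4) (nat_lit 5) (nat_lit 4) (nat_lit 371) (nat_lit 215) (nat_lit 194)) (XT.lf (nat_lit 0) (nat_lit 16850958124) (nat_lit 152) (nat_lit 14341201458) (nat_lit 0) (nat_lit 11073012749) (nat_lit 5) (nat_lit 5) (nat_lit 7) (nat_lit 4) (nat_lit 5) (nat_lit 4) (nat_lit 372) (nat_lit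 215) (nat_lit 193)))))) (XT.nd (nat_lit 468) (nat_lit 0) (nat_lit 0) (XT.nd (nat_lit 234) (nat_lit 76) (nat_lit 0) (XT.nd (nat_lit 78) (nat_lit 0) (nat_lit 0) (XT.lf (nat_lit 0) (nat_lit 19370839742) (nat_lit 152) (nat_lit 10678986112) (nat_lit 0) (nat_lit 13409192757) (nat_lit 5) (nat_lit 5) (nat_lit 7) (nat_lit 4) (nat_lit 5) (nat_lit 4) (nat_lit 373) (nat_lit 215) (nat_lit 192)) (XT.nd (nat_lit 78) (nat_lit 0) (nat_lit 0) (XT.lf (nat_lit 0) (nat_lit 21931214951) (nat_lit 152) (nat_lit 6967342904) (nat_lit 0) (nat_lit 15791216889) (nat_lit 5) (nat_lit 5) (nat_lit 7) (nat_lit 4) (nat_lit 5) (nat_lit 4) (nat_lit 374) (nat_lit 215) (nat_lit 191)) (XT.lf (nat_lit 0) (nat_lit 24534320972) (nat_lit 152) (nat_lit 3203028650) (nat_lit 0) (nat_lit 18221166524) (nat_lit 5) (nat_lit 5) (nat_lit 7) (nat_lit 4) (nat_lit 5) (nat_lit 4) (nat_lit 375) (nat_lit 215) (nat_lit 190)))) (XT.nd (nat_lit 78) (nat_lit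 0) (nat_lit 0) (XT.lf (nat_lit 0) (nat_lit 629530259) (nat_lit 76) (nat_lit 26558953534) (nat_lit 76) (nat_lit 20077686089) (nat_lit 4) (nat_lit 4) (nat_lit 5) (nat_lit 5) (nat_lit 5) (nat_lit 4) (nat_lit 376) (nat_lit 215) (nat_lit 189)) (XT.nd (nat_lit 78) (nat_lit 0) (nat_lit 0) (XT.lf (nat_lit 0) (nat_lit 4586314229) (nat_lit 76) (nat_lit 25335635238) (nat_lit 76) (nat_lit 18691151292) (nat_lit 4) (nat_lit 4) (nat_lit 5) (nat_lit 5) (nat_lit 5) (nat_lit 4) (nat_lit 377) (nat_lit 215) (nat_lit 188)) (XT.lf (nat_lit 0) (nat_lit 8607034094) (nat_lit 76) (nat_lit 24098670124) (nat_lit 76) (nat_lit 17295723555) (nat_lit 4) (nat_lit 4) (nat_lit 5) (nat_lit 5) (nat_lit 5) (nat_lit 4) (nat_lit 378) (nat_lit 215) (nat_lit 187))))) (XT.nd (nat_lit 234) (nat_lit 0) (nat_lit 0) (XT.nd (nat_lit 78) (nat_lit 0) (nat_lit 0) (XT.lf (nat_lit 0) (nat_lit 12695203103) (nat_lit 76) (nat_lit 22846977348) (nat_lit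 76) (nat_lit 15890183573) (nat_lit 4) (nat_lit 4) (nat_lit 5) (nat_lit 5) (nat_lit 5) (nat_lit 4) (nat_lit 379) (nat_lit 215) (nat_lit 186)) (XT.nd (nat_lit 78) (nat_lit 0) (nat_lit 0) (XT.lf (nat_lit 0) (nat_lit 16854393443) (nat_lit 76) (nat_lit 21579463199) (nat_lit 76) (nat_lit 14473303204) (nat_lit 4) (nat_lit 4) (nat_lit 5) (nat_lit 5) (nat_lit 5) (nat_lit 4) (nat_lit 380) (nat_lit 215) (nat_lit 185)) (XT.lf (nat_lit 0) (nat_lit 21088239358) (nat_lit 76) (nat_lit 20295020139) (nat_lit 76) (nat_lit 13043844397) (nat_lit 4) (nat_lit 4) (nat_lit 5) (nat_lit 5) (nat_lit 5) (nat_lit 4) (nat_lit 381) (nat_lit 215) (nat_lit 184)))) (XT.nd (nat_lit 78) (nat_lit 0) (nat_lit 0) (XT.lf (nat_lit 0) (nat_lit 25400440325) (nat_lit 76) (nat_lit 18992525840) (nat_lit 76) (nat_lit 11600558111) (nat_lit 4) (nat_lit 4) (nat_lit 5) (nat_lit 5) (nat_lit 5) (nat_lit 4) (nat_lit 382) (nat_lit 215) (nat_lit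 183)) (XT.nd (nat_lit 78) (nat_lit 0) (nat_lit 0) (XT.lf (nat_lit 0) (nat_lit 29794764286) (nat_lit 76) (nat_lit 17670842200) (nat_lit 76) (nat_lit 10142183221) (nat_lit 4) (nat_lit 4) (nat_lit 5) (nat_lit 5) (nat_lit 5) (nat_lit 4) (nat_lit 383) (nat_lit 215) (nat_lit 182)) (XT.lf (nat_lit 0) (nat_lit 34275050943) (nat_lit 76) (nat_lit 16328814350) (nat_lit 76) (nat_lit 8667445419) (nat_lit 4) (nat_lit 4) (nat_lit 5) (nat_lit 5) (nat_lit 5) (nat_lit 4) (nat_lit 384) (nat_lit 215) (nat_lit 181))))))))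
noncomputable def xc16 : XT := (XT.nd (nat_lit 38064) (nat_lit 0) (nat_lit 228) (XT.nd (nat_lit 858) (nat_lit 0) (nat_lit 0) (XT.nd (nat_lit 390) (nat_lit 152) (nat_lit 0) (XT.nd (nat_lit 156) (nat_lit 0) (nat_lit 0) (XT.nd (nat_lit 78) (nat_lit 0) (nat_lit 0) (XT.lf (nat_lit 0) (nat_lit 38845215108) (nat_lit 76) (nat_lit 14965269645) (nat_lit 76) (nat_lit 7175056100) (nat_lit 4) (nat_lit 4) (nat_lit 5) (nat_lit 5) (nat_lit 5) (nat_lit 4) (nat_lit 385) (nat_lit 215) (nat_lit 180)) (XT.lf (nat_lit 0) (nat_lit 43509250130) (nat_lit 76) (nat_lit 13579016636) (nat_lit 76) (nat_lit 5663711234) (nat_lit 4) (nat_lit 4) (nat_lit 5) (nat_lit 5) (nat_lit 5) (nat_lit 4) (nat_lit 386) (nat_lit 215) (nat_lit 179))) (XT.nd (nat_lit 78) (nat_lit 0) (nat_lit 0) (XT.lf (nat_lit 0) (nat_lit 48271231378) (nat_lit 76) (nat_lit 12168844036) (nat_lit 76) (nat_lit 4132090229) (nat_lit 4) (nat_lit 4) (nat_lit 5) (nat_lit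 5) (nat_lit 5) (nat_lit 4) (nat_lit 387) (nat_lit 215) (nat_lit 178)) (XT.nd (nat_lit 78) (nat_lit 0) (nat_lit 0) (XT.lf (nat_lit 0) (nat_lit 53135319806) (nat_lit 76) (nat_lit 10733519655) (nat_lit 76) (nat_lit 2578854774) (nat_lit 4) (nat_lit 4) (nat_lit 5) (nat_lit 5) (nat_lit 5) (nat_lit 4) (nat_lit 388) (nat_lit 215) (nat_lit 177)) (XT.lf (nat_lit 0) (nat_lit 58105765591) (nat_lit 76) (nat_lit 9271789325) (nat_lit 76) (nat_lit 1002647675) (nat_lit 4) (nat_lit 4) (nat_lit 5) (nat_lit 5) (nat_lit 5) (nat_lit 4) (nat_lit 389) (nat_lit 215) (nat_lit 176))))) (XT.nd (nat_lit 234) (nat_lit 76) (nat_lit 0) (XT.nd (nat_lit 78) (nat_lit 0) (nat_lit 0) (XT.lf (nat_lit 0) (nat_lit 586240993) (nat_lit 152) (nat_lit 7190214929) (nat_lit 76) (nat_lit 62594750961) (nat_lit 3) (nat_lit 5) (nat_lit 5) (nat_lit 5) (nat_lit 4) (nat_lit 4) (nat_lit 390) (nat_lit 215) (nat_lit 175)) (XT.nd (nat_lit 78) (nat_lit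 0) (nat_lit 0) (XT.lf (nat_lit 0) (nat_lit 2180809425) (nat_lit 152) (nat_lit 4061146346) (nat_lit 76) (nat_lit 66180367061) (nat_lit 3) (nat_lit 5) (nat_lit 5) (nat_lit 5) (nat_lit 4) (nat_lit 4) (nat_lit 391) (nat_lit 215) (nat_lit 174)) (XT.lf (nat_lit 0) (nat_lit 3802016202) (nat_lit 152) (nat_lit 874859051) (nat_lit 76) (nat_lit 69858756566) (nat_lit 3) (nat_lit 5) (nat_lit 5) (nat_lit 5) (nat_lit 4) (nat_lit 4) (nat_lit 392) (nat_lit 215) (nat_lit 173)))) (XT.nd (nat_lit 78) (nat_lit 0) (nat_lit 0) (XT.lf (nat_lit 0) (nat_lit 2418627219) (nat_lit 76) (nat_lit 3055900016) (nat_lit 152) (nat_lit 71237755708) (nat_lit 2) (nat_lit 5) (nat_lit 3) (nat_lit 5) (nat_lit 4) (nat_lit 4) (nat_lit 393) (nat_lit 215) (nat_lit 172)) (XT.nd (nat_lit 78) (nat_lit 0) (nat_lit 0) (XT.lf (nat_lit 0) (nat_lit 5793614940) (nat_lit 76) (nat_lit 1392112486) (nat_lit 152) (nat_lit 71768873002) (nat_lit 2) (nat_lit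 5) (nat_lit 3) (nat_lit 5) (nat_lit 4) (nat_lit 4) (nat_lit 394) (nat_lit 215) (nat_lit 171)) (XT.lf (nat_lit 0) (nat_lit 8931487047) (nat_lit 152) (nat_lit 72032111274) (nat_lit 0) (nat_lit 301114009) (nat_lit 2) (nat_lit 5) (nat_lit 4) (nat_lit 4) (nat_lit 2) (nat_lit 4) (nat_lit 395) (nat_lit 215) (nat_lit 170)))))) (XT.nd (nat_lit 390) (nat_lit 0) (nat_lit 0) (XT.nd (nat_lit 156) (nat_lit 0) (nat_lit 0) (XT.nd (nat_lit 78) (nat_lit 0) (nat_lit 0) (XT.lf (nat_lit 0) (nat_lit 10724113541) (nat_lit 152) (nat_lit 70916828708) (nat_lit 0) (nat_lit 2003371484) (nat_lit 2) (nat_lit 5) (nat_lit 4) (nat_lit 4) (nat_lit 2) (nat_lit 4) (nat_lit 396) (nat_lit 215) (nat_lit 169)) (XT.lf (nat_lit 0) (nat_lit 12551791444) (nat_lit 152) (nat_lit 69800781434) (nat_lit 0) (nat_lit 3743312475) (nat_lit 2) (nat_lit 5) (nat_lit 4) (nat_lit 4) (nat_lit 2) (nat_lit 4) (nat_lit 397) (nat_lit 215) (nat_lit 168)))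 (XT.nd (nat_lit 78) (nat_lit 0) (nat_lit 0) (XT.lf (nat_lit 0) (nat_lit 14416117757) (nat_lit 152) (nat_lit 68682994267) (nat_lit 0) (nat_lit 5522457319) (nat_lit 2) (nat_lit 5) (nat_lit 4) (nat_lit 4) (nat_lit 2) (nat_lit 4) (nat_lit 398) (nat_lit 215) (nat_lit 167)) (XT.nd (nat_lit 78) (nat_lit 0) (nat_lit 0) (XT.lf (nat_lit 0) (nat_lit 16318721501) (nat_lit 152) (nat_lit 67562490498) (nat_lit 0) (nat_lit 7342360610) (nat_lit 2) (nat_lit 5) (nat_lit 4) (nat_lit 4) (nat_lit 2) (nat_lit 4) (nat_lit 399) (nat_lit 215) (nat_lit 166)) (XT.lf (nat_lit 0) (nat_lit 18261265148) (nat_lit 152) (nat_lit 66438291046) (nat_lit 0) (nat_lit 9204612553) (nat_lit 2) (nat_lit 5) (nat_lit 4) (nat_lit 4) (nat_lit 2) (nat_lit 4) (nat_lit 400) (nat_lit 215) (nat_lit 165))))) (XT.nd (nat_lit 36582) (nat_lit 0) (nat_lit 608) (XT.nd (nat_lit 78) (nat_lit 0) (nat_lit 0) (XT.lf (nat_lit 0) (nat_lit 20245446064) (nat_lit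 152) (nat_lit 65309413602) (nat_lit 0) (nat_lit 11110840359) (nat_lit 2) (nat_lit 5) (nat_lit 4) (nat_lit 4) (nat_lit 2) (nat_lit 4) (nat_lit 401) (nat_lit 215) (nat_lit 164)) (XT.nd (nat_lit 36426) (nat_lit 0) (nat_lit 760) (XT.lf (nat_lit 0) (nat_lit 22272998001) (nat_lit 152) (nat_lit 64174871768) (nat_lit 0) (nat_lit 13062709664) (nat_lit 2) (nat_lit 5) (nat_lit 4) (nat_lit 4) (nat_lit 2) (nat_lit 4) (nat_lit 402) (nat_lit 215) (nat_lit 163)) (XT.lf (nat_lit 0) (nat_lit 4620832183) (nat_lit 152) (nat_lit 1916067009) (nat_lit 0) (nat_lit 4620832183) (nat_lit 12) (nat_lit 5) (nat_lit 14) (nat_lit 4) (nat_lit 12) (nat_lit 4) (nat_lit 348) (nat_lit 216) (nat_lit 216)))) (XT.nd (nat_lit 78) (nat_lit 0) (nat_lit 0) (XT.lf (nat_lit 0) (nat_lit 1487598564) (nat_lit 152) (nat_lit 10889915837) (nat_lit 152) (nat_lit 10505285460) (nat_lit 10) (nat_lit 4) (nat_lit 12) (nat_lit 5) (nat_lit 12) (nat_lit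 4) (nat_lit 349) (nat_lit 216) (nat_lit 215)) (XT.nd (nat_lit 78) (nat_lit 0) (nat_lit 0) (XT.lf (nat_lit 0) (nat_lit 6938949458) (nat_lit 152) (nat_lit 8643550198) (nat_lit 152) (nat_lit 7885492271) (nat_lit 10) (nat_lit 4) (nat_lit 12) (nat_lit 5) (nat_lit 12) (nat_lit 4) (nat_lit 350) (nat_lit 216) (nat_lit 214)) (XT.lf (nat_lit 0) (nat_lit 12450414998) (nat_lit 152) (nat_lit 6371435665) (nat_lit 152) (nat_lit 5250826719) (nat_lit 10) (nat_lit 4) (nat_lit 12) (nat_lit 5) (nat_lit 12) (nat_lit 4) (nat_lit 351) (nat_lit 216) (nat_lit 213))))))) (XT.nd (nat_lit 858) (nat_lit 152) (nat_lit 0) (XT.nd (nat_lit 390) (nat_lit 76) (nat_lit 0) (XT.nd (nat_lit 156) (nat_lit 76) (nat_lit 0) (XT.nd (nat_lit 78) (nat_lit 76) (nat_lit 0) (XT.lf (nat_lit 0) (nat_lit 18026811027) (nat_lit 152) (nat_lit 4071586895) (nat_lit 152) (nat_lit 2598986668) (nat_lit 10) (nat_lit 4) (nat_lit 12) (nat_lit 5) (nat_lit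 12) (nat_lit 4) (nat_lit 352) (nat_lit 216) (nat_lit 212)) (XT.lf (nat_lit 0) (nat_lit 70933311) (nat_lit 228) (nat_lit 1670344713) (nat_lit 76) (nat_lit 23601360527) (nat_lit 9) (nat_lit 5) (nat_lit 12) (nat_lit 5) (nat_lit 10) (nat_lit 4) (nat_lit 353) (nat_lit 216) (nat_lit 211))) (XT.nd (nat_lit 78) (nat_lit 0) (nat_lit 0) (XT.lf (nat_lit 0) (nat_lit 2751005115) (nat_lit 152) (nat_lit 22588690303) (nat_lit 0) (nat_lit 667388729) (nat_lit 8) (nat_lit 5) (nat_lit 10) (nat_lit 4) (nat_lit 8) (nat_lit 4) (nat_lit 354) (nat_lit 216) (nat_lit 210)) (XT.nd (nat_lit 78) (nat_lit 0) (nat_lit 0) (XT.lf (nat_lit 0) (nat_lit 5488960242) (nat_lit 152) (nat_lit 18110646827) (nat_lit 0) (nat_lit 3092604163) (nat_lit 8) (nat_lit 5) (nat_lit 10) (nat_lit 4) (nat_lit 8) (nat_lit 4) (nat_lit 355) (nat_lit 216) (nat_lit 209)) (XT.lf (nat_lit 0) (nat_lit 8253914785) (nat_lit 152) (nat_lit 13591774029) (nat_lit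 0) (nat_lit 5553927935) (nat_lit 8) (nat_lit 5) (nat_lit 10) (nat_lit 4) (nat_lit 8) (nat_lit 4) (nat_lit 356) (nat_lit 216) (nat_lit 208))))) (XT.nd (nat_lit 234) (nat_lit 0) (nat_lit 0) (XT.nd (nat_lit 78) (nat_lit 76) (nat_lit 0) (XT.lf (nat_lit 0) (nat_lit 11048284724) (nat_lit 152) (nat_lit 9028123379) (nat_lit 0) (nat_lit 8053510717) (nat_lit 8) (nat_lit 5) (nat_lit 10) (nat_lit 4) (nat_lit 8) (nat_lit 4) (nat_lit 357) (nat_lit 216) (nat_lit 207)) (XT.nd (nat_lit 78) (nat_lit 76) (nat_lit 0) (XT.lf (nat_lit 0) (nat_lit 13874511740) (nat_lit 152) (nat_lit 4415707222) (nat_lit 0) (nat_lit 10593536610) (nat_lit 8) (nat_lit 5) (nat_lit 10) (nat_lit 4) (nat_lit 8) (nat_lit 4) (nat_lit 358) (nat_lit 216) (nat_lit 206)) (XT.lf (nat_lit 0) (nat_lit 254470341) (nat_lit 76) (nat_lit 16483041135) (nat_lit 76) (nat_lit 12924200837) (nat_lit 7) (nat_lit 4) (nat_lit 8) (nat_lit 5) (nat_lit 8) (nat_lit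 4) (nat_lit 359) (nat_lit 216) (nat_lit 205)))) (XT.nd (nat_lit 78) (nat_lit 0) (nat_lit 0) (XT.lf (nat_lit 0) (nat_lit 5070533178) (nat_lit 76) (nat_lit 14610652961) (nat_lit 76) (nat_lit 10782040656) (nat_lit 7) (nat_lit 4) (nat_lit 8) (nat_lit 5) (nat_lit 8) (nat_lit 4) (nat_lit 360) (nat_lit 216) (nat_lit 204)) (XT.nd (nat_lit 78) (nat_lit 0) (nat_lit 0) (XT.lf (nat_lit 0) (nat_lit 9948808266) (nat_lit 76) (nat_lit 12716008360) (nat_lit 76) (nat_lit 8625481484) (nat_lit 7) (nat_lit 4) (nat_lit 8) (nat_lit 5) (nat_lit 8) (nat_lit 4) (nat_lit 361) (nat_lit 216) (nat_lit 203)) (XT.lf (nat_lit 0) (nat_lit 14893558176) (nat_lit 76) (nat_lit 10797451815) (nat_lit 76) (nat_lit 6452638949) (nat_lit 7) (nat_lit 4) (nat_lit 8) (nat_lit 5) (nat_lit 8) (nat_lit 4) (nat_lit 362) (nat_lit 216) (nat_lit 202)))))) (XT.nd (nat_lit 390) (nat_lit 0) (nat_lit 0) (XT.nd (nat_lit 156) (nat_lit 152) (nat_lit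 0) (XT.nd (nat_lit 78) (nat_lit 0) (nat_lit 0) (XT.lf (nat_lit 0) (nat_lit 19909103562) (nat_lit 76) (nat_lit 8853306918) (nat_lit 76) (nat_lit 4261614450) (nat_lit 7) (nat_lit 4) (nat_lit 8) (nat_lit 5) (nat_lit 8) (nat_lit 4) (nat_lit 363) (nat_lit 216) (nat_lit 201)) (XT.lf (nat_lit 0) (nat_lit 24999826940) (nat_lit 76) (nat_lit 6881874903) (nat_lit 76) (nat_lit 2050493500) (nat_lit 7) (nat_lit 4) (nat_lit 8) (nat_lit 5) (nat_lit 8) (nat_lit 4) (nat_lit 364) (nat_lit 216) (nat_lit 200))) (XT.nd (nat_lit 78) (nat_lit 76) (nat_lit 0) (XT.lf (nat_lit 0) (nat_lit 179091673) (nat_lit 152) (nat_lit 4700533010) (nat_lit 76) (nat_lit 29989276367) (nat_lit 6) (nat_lit 5) (nat_lit 8) (nat_lit 5) (nat_lit 7) (nat_lit 4) (nat_lit 365) (nat_lit 216) (nat_lit 199)) (XT.nd (nat_lit 78) (nat_lit 76) (nat_lit 0) (XT.lf (nat_lit 0) (nat_lit 2392176194) (nat_lit 152) (nat_lit 433901240) (nat_lit 76) (nat_lit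 33008337584) (nat_lit 6) (nat_lit 5) (nat_lit 8) (nat_lit 5) (nat_lit 7) (nat_lit 4) (nat_lit 366) (nat_lit 216) (nat_lit 198)) (XT.lf (nat_lit 0) (nat_lit 3968403473) (nat_lit 76) (nat_lit 700449589) (nat_lit 152) (nat_lit 32160174757) (nat_lit 5) (nat_lit 5) (nat_lit 6) (nat_lit 5) (nat_lit 7) (nat_lit 4) (nat_lit 367) (nat_lit 216) (nat_lit 197))))) (XT.nd (nat_lit 234) (nat_lit 0) (nat_lit 0) (XT.nd (nat_lit 78) (nat_lit 0) (nat_lit 0) (XT.lf (nat_lit 0) (nat_lit 6991874008) (nat_lit 152) (nat_lit 29426096631) (nat_lit 0) (nat_lit 1436215019) (nat_lit 5) (nat_lit 5) (nat_lit 7) (nat_lit 4) (nat_lit 5) (nat_lit 4) (nat_lit 368) (nat_lit 216) (nat_lit 196)) (XT.nd (nat_lit 78) (nat_lit 0) (nat_lit 0) (XT.lf (nat_lit 0) (nat_lit 9352012151) (nat_lit 152) (nat_lit 25963492403) (nat_lit 0) (nat_lit 3595617453) (nat_lit 5) (nat_lit 5) (nat_lit 7) (nat_lit 4) (nat_lit 5) (nat_lit 4) (nat_lit 369)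 (nat_lit 216) (nat_lit 195)) (XT.lf (nat_lit 0) (nat_lit 11744596598) (nat_lit 152) (nat_lit 22463052935) (nat_lit 0) (nat_lit 5793312862) (nat_lit 5) (nat_lit 5) (nat_lit 7) (nat_lit 4) (nat_lit 5) (nat_lit 4) (nat_lit 370) (nat_lit 216) (nat_lit 194)))) (XT.nd (nat_lit 78) (nat_lit 0) (nat_lit 0) (XT.lf (nat_lit 0) (nat_lit 14171717957) (nat_lit 152) (nat_lit 18921719592) (nat_lit 0) (nat_lit 8031221562) (nat_lit 5) (nat_lit 5) (nat_lit 7) (nat_lit 4) (nat_lit 5) (nat_lit 4) (nat_lit 371) (nat_lit 216) (nat_lit 193)) (XT.nd (nat_lit 78) (nat_lit 0) (nat_lit 0) (XT.lf (nat_lit 0) (nat_lit 16635497013) (nat_lit 152) (nat_lit 15336398005) (nat_lit 0) (nat_lit 10311299008) (nat_lit 5) (nat_lit 5) (nat_lit 7) (nat_lit 4) (nat_lit 5) (nat_lit 4) (nat_lit 372) (nat_lit 216) (nat_lit 192)) (XT.lf (nat_lit 0) (nat_lit 19138086583) (nat_lit 152) (nat_lit 11703955367) (nat_lit 0) (nat_lit 12635537501)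 (nat_lit 5) (nat_lit 5) (nat_lit 7) (nat_lit 4) (nat_lit 5) (nat_lit 4) (nat_lit 373) (nat_lit 216) (nat_lit 191))))))))
noncomputable def xc17 : XT := (XT.nd (nat_lit 1716) (nat_lit 0) (nat_lit 0) (XT.nd (nat_lit 858) (nat_lit 152) (nat_lit 0) (XT.nd (nat_lit 390) (nat_lit 0) (nat_lit 0) (XT.nd (nat_lit 156) (nat_lit 76) (nat_lit 0) (XT.nd (nat_lit 78) (nat_lit 0) (nat_lit 0) (XT.lf (nat_lit 0) (nat_lit 21681673396) (nat_lit 152) (nat_lit 8021217701) (nat_lit 0) (nat_lit 15005967928) (nat_lit 5) (nat_lit 5) (nat_lit 7) (nat_lit 4) (nat_lit 5) (nat_lit 4) (nat_lit 374) (nat_lit 216) (nat_lit 190)) (XT.lf (nat_lit 0) (nat_lit 24268480003) (nat_lit 152) (nat_lit 4284967080) (nat_lit 0) (nat_lit 17424661539) (nat_lit 5) (nat_lit 5) (nat_lit 7) (nat_lit 4) (nat_lit 5) (nat_lit 4) (nat_lit 375) (nat_lit 216) (nat_lit 189))) (XT.nd (nat_lit 78) (nat_lit 76) (nat_lit 0) (XT.lf (nat_lit 0) (nat_lit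 26900766721) (nat_lit 152) (nat_lit 491938818) (nat_lit 0) (nat_lit 19893731756) (nat_lit 5) (nat_lit 5) (nat_lit 7) (nat_lit 4) (nat_lit 5) (nat_lit 4) (nat_lit 376) (nat_lit 216) (nat_lit 188)) (XT.nd (nat_lit 78) (nat_lit 0) (nat_lit 0) (XT.lf (nat_lit 0) (nat_lit 3428075478) (nat_lit 76) (nat_lit 26185710886) (nat_lit 76) (nat_lit 19020213298) (nat_lit 4) (nat_lit 4) (nat_lit 5) (nat_lit 5) (nat_lit 5) (nat_lit 4) (nat_lit 377) (nat_lit 216) (nat_lit 187)) (XT.lf (nat_lit 0) (nat_lit 7422602017) (nat_lit 76) (nat_lit 24959771039) (nat_lit 76) (nat_lit 17640426245) (nat_lit 4) (nat_lit 4) (nat_lit 5) (nat_lit 5) (nat_lit 5) (nat_lit 4) (nat_lit 378) (nat_lit 216) (nat_lit 186))))) (XT.nd (nat_lit 234) (nat_lit 0) (nat_lit 0) (XT.nd (nat_lit 78) (nat_lit 0) (nat_lit 0) (XT.lf (nat_lit 0) (nat_lit 11485340612) (nat_lit 76) (nat_lit 23718782406) (nat_lit 76) (nat_lit 16250071392) (nat_lit 4)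 (nat_lit 4) (nat_lit 5) (nat_lit 5) (nat_lit 5) (nat_lit 4) (nat_lit 379) (nat_lit 216) (nat_lit 185)) (XT.nd (nat_lit 78) (nat_lit 0) (nat_lit 0) (XT.lf (nat_lit 0) (nat_lit 15619841230) (nat_lit 76) (nat_lit 22461660628) (nat_lit 76) (nat_lit 14847933867) (nat_lit 4) (nat_lit 4) (nat_lit 5) (nat_lit 5) (nat_lit 5) (nat_lit 4) (nat_lit 380) (nat_lit 216) (nat_lit 184)) (XT.lf (nat_lit 0) (nat_lit 19829716542) (nat_lit 76) (nat_lit 21187307249) (nat_lit 76) (nat_lit 13432788500) (nat_lit 4) (nat_lit 4) (nat_lit 5) (nat_lit 5) (nat_lit 5) (nat_lit 4) (nat_lit 381) (nat_lit 216) (nat_lit 183)))) (XT.nd (nat_lit 78) (nat_lit 0) (nat_lit 0) (XT.lf (nat_lit 0) (nat_lit 24118645078) (nat_lit 76) (nat_lit 19894608758) (nat_lit 76) (nat_lit 12003398758) (nat_lit 4) (nat_lit 4) (nat_lit 5) (nat_lit 5) (nat_lit 5) (nat_lit 4) (nat_lit 382) (nat_lit 216) (nat_lit 182)) (XT.nd (nat_lit 78) (nat_lit 0)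 (nat_lit 0) (XT.lf (nat_lit 0) (nat_lit 28490374446) (nat_lit 76) (nat_lit 18582435610) (nat_lit 76) (nat_lit 10558515659) (nat_lit 4) (nat_lit 4) (nat_lit 5) (nat_lit 5) (nat_lit 5) (nat_lit 4) (nat_lit 383) (nat_lit 216) (nat_lit 181)) (XT.lf (nat_lit 0) (nat_lit 32948724605) (nat_lit 76) (nat_lit 17249641247) (nat_lit 76) (nat_lit 9096876684) (nat_lit 4) (nat_lit 4) (nat_lit 5) (nat_lit 5) (nat_lit 5) (nat_lit 4) (nat_lit 384) (nat_lit 216) (nat_lit 180)))))) (XT.nd (nat_lit 390) (nat_lit 152) (nat_lit 0) (XT.nd (nat_lit 156) (nat_lit 0) (nat_lit 0) (XT.nd (nat_lit 78) (nat_lit 0) (nat_lit 0) (XT.lf (nat_lit 0) (nat_lit 37497591200) (nat_lit 76) (nat_lit 15895061093) (nat_lit 76) (nat_lit 7617204671) (nat_lit 4) (nat_lit 4) (nat_lit 5) (nat_lit 5) (nat_lit 5) (nat_lit 4) (nat_lit 385) (nat_lit 216) (nat_lit 179)) (XT.lf (nat_lit 0) (nat_lit 42140948968) (nat_lit 76) (nat_lit 14517511532)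 (nat_lit 76) (nat_lit 6118206705) (nat_lit 4) (nat_lit 4) (nat_lit 5) (nat_lit 5) (nat_lit 5) (nat_lit 4) (nat_lit 386) (nat_lit 216) (nat_lit 178))) (XT.nd (nat_lit 78) (nat_lit 0) (nat_lit 0) (XT.lf (nat_lit 0) (nat_lit 46882855213) (nat_lit 76) (nat_lit 13115788881) (nat_lit 76) (nat_lit 4598572981) (nat_lit 4) (nat_lit 4) (nat_lit 5) (nat_lit 5) (nat_lit 5) (nat_lit 4) (nat_lit 387) (nat_lit 216) (nat_lit 177)) (XT.nd (nat_lit 78) (nat_lit 0) (nat_lit 0) (XT.lf (nat_lit 0) (nat_lit 51727453347) (nat_lit 76) (nat_lit 11688668333) (nat_lit 76) (nat_lit 3056975664) (nat_lit 4) (nat_lit 4) (nat_lit 5) (nat_lit 5) (nat_lit 5) (nat_lit 4) (nat_lit 388) (nat_lit 216) (nat_lit 176)) (XT.lf (nat_lit 0) (nat_lit 56678976515) (nat_lit 76) (nat_lit 10234902891) (nat_lit 76) (nat_lit 1492067726) (nat_lit 4) (nat_lit 4) (nat_lit 5) (nat_lit 5) (nat_lit 5) (nat_lit 4) (nat_lit 389) (nat_lit 216) (nat_lit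 175))))) (XT.nd (nat_lit 234) (nat_lit 76) (nat_lit 0) (XT.nd (nat_lit 78) (nat_lit 0) (nat_lit 0) (XT.lf (nat_lit 0) (nat_lit 95615294) (nat_lit 152) (nat_lit 8656641452) (nat_lit 76) (nat_lit 61645170470) (nat_lit 3) (nat_lit 5) (nat_lit 5) (nat_lit 5) (nat_lit 4) (nat_lit 4) (nat_lit 390) (nat_lit 216) (nat_lit 174)) (XT.nd (nat_lit 78) (nat_lit 0) (nat_lit 0) (XT.lf (nat_lit 0) (nat_lit 1679741013) (nat_lit 152) (nat_lit 5545628704) (nat_lit 76) (nat_lit 65223498354) (nat_lit 3) (nat_lit 5) (nat_lit 5) (nat_lit 5) (nat_lit 4) (nat_lit 4) (nat_lit 391) (nat_lit 216) (nat_lit 173)) (XT.lf (nat_lit 0) (nat_lit 3290809232) (nat_lit 152) (nat_lit 2376871345) (nat_lit 76) (nat_lit 68894811922) (nat_lit 3) (nat_lit 5) (nat_lit 5) (nat_lit 5) (nat_lit 4) (nat_lit 4) (nat_lit 392) (nat_lit 216) (nat_lit 172)))) (XT.nd (nat_lit 78) (nat_lit 0) (nat_lit 0) (XT.lf (nat_lit 0) (nat_lit 869363860) (nat_lit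 76) (nat_lit 4069220679) (nat_lit 152) (nat_lit 71801312113) (nat_lit 2) (nat_lit 5) (nat_lit 3) (nat_lit 5) (nat_lit 4) (nat_lit 4) (nat_lit 393) (nat_lit 216) (nat_lit 171)) (XT.nd (nat_lit 78) (nat_lit 0) (nat_lit 0) (XT.lf (nat_lit 0) (nat_lit 4227499081) (nat_lit 76) (nat_lit 2412567091) (nat_lit 152) (nat_lit 72342450161) (nat_lit 2) (nat_lit 5) (nat_lit 3) (nat_lit 5) (nat_lit 4) (nat_lit 4) (nat_lit 394) (nat_lit 216) (nat_lit 170)) (XT.lf (nat_lit 0) (nat_lit 7653164209) (nat_lit 76) (nat_lit 720273991) (nat_lit 152) (nat_lit 72919571990) (nat_lit 2) (nat_lit 5) (nat_lit 3) (nat_lit 5) (nat_lit 4) (nat_lit 4) (nat_lit 395) (nat_lit 216) (nat_lit 169))))))) (XT.nd (nat_lit 37050) (nat_lit 0) (nat_lit 380) (XT.nd (nat_lit 390) (nat_lit 0) (nat_lit 0) (XT.nd (nat_lit 156) (nat_lit 0) (nat_lit 0) (XT.nd (nat_lit 78) (nat_lit 0) (nat_lit 0) (XT.lf (nat_lit 0) (nat_lit 10149915667) (nat_lit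 152) (nat_lit 72533745007) (nat_lit 0) (nat_lit 989445416) (nat_lit 2) (nat_lit 5) (nat_lit 4) (nat_lit 4) (nat_lit 2) (nat_lit 4) (nat_lit 396) (nat_lit 216) (nat_lit 168)) (XT.lf (nat_lit 0) (nat_lit 11968636956) (nat_lit 152) (nat_lit 71433333952) (nat_lit 0) (nat_lit 2722985237) (nat_lit 2) (nat_lit 5) (nat_lit 4) (nat_lit 4) (nat_lit 2) (nat_lit 4) (nat_lit 397) (nat_lit 216) (nat_lit 167))) (XT.nd (nat_lit 78) (nat_lit 0) (nat_lit 0) (XT.lf (nat_lit 0) (nat_lit 13824267526) (nat_lit 152) (nat_lit 70330727579) (nat_lit 0) (nat_lit 4495915353) (nat_lit 2) (nat_lit 5) (nat_lit 4) (nat_lit 4) (nat_lit 2) (nat_lit 4) (nat_lit 398) (nat_lit 216) (nat_lit 166)) (XT.nd (nat_lit 78) (nat_lit 0) (nat_lit 0) (XT.lf (nat_lit 0) (nat_lit 15718428802) (nat_lit 152) (nat_lit 69224962446) (nat_lit 0) (nat_lit 6309784926) (nat_lit 2) (nat_lit 5) (nat_lit 4) (nat_lit 4) (nat_lit 2) (nat_lit 4) (nat_lit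 399) (nat_lit 216) (nat_lit 165)) (XT.lf (nat_lit 0) (nat_lit 17652775877) (nat_lit 152) (nat_lit 68115072350) (nat_lit 0) (nat_lit 8166178891) (nat_lit 2) (nat_lit 5) (nat_lit 4) (nat_lit 4) (nat_lit 2) (nat_lit 4) (nat_lit 400) (nat_lit 216) (nat_lit 164))))) (XT.nd (nat_lit 36426) (nat_lit 0) (nat_lit 608) (XT.nd (nat_lit 78) (nat_lit 0) (nat_lit 0) (XT.lf (nat_lit 0) (nat_lit 19628998957) (nat_lit 152) (nat_lit 67000087484) (nat_lit 0) (nat_lit 10066719340) (nat_lit 2) (nat_lit 5) (nat_lit 4) (nat_lit 4) (nat_lit 2) (nat_lit 4) (nat_lit 401) (nat_lit 216) (nat_lit 163)) (XT.nd (nat_lit 36270) (nat_lit 0) (nat_lit 760) (XT.lf (nat_lit 0) (nat_lit 21648824839) (nat_lit 152) (nat_lit 65879033589) (nat_lit 0) (nat_lit 12013066940) (nat_lit 2) (nat_lit 5) (nat_lit 4) (nat_lit 4) (nat_lit 2) (nat_lit 4) (nat_lit 402) (nat_lit 216) (nat_lit 162)) (XT.lf (nat_lit 0) (nat_lit 1754834737) (nat_lit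 152) (nat_lit 7107295223) (nat_lit 0) (nat_lit 1754834737) (nat_lit 12) (nat_lit 5) (nat_lit 14) (nat_lit 4) (nat_lit 12) (nat_lit 4) (nat_lit 346) (nat_lit 217) (nat_lit 217)))) (XT.nd (nat_lit 78) (nat_lit 152) (nat_lit 0) (XT.lf (nat_lit 0) (nat_lit 6544588967) (nat_lit 152) (nat_lit 9073189915) (nat_lit 0) (nat_lit 6148419679) (nat_lit 12) (nat_lit 5) (nat_lit 14) (nat_lit 4) (nat_lit 12) (nat_lit 4) (nat_lit 347) (nat_lit 217) (nat_lit 216)) (XT.nd (nat_lit 78) (nat_lit 152) (nat_lit 0) (XT.lf (nat_lit 0) (nat_lit 9606064343) (nat_lit 152) (nat_lit 3885130766) (nat_lit 0) (nat_lit 8825264679) (nat_lit 12) (nat_lit 5) (nat_lit 14) (nat_lit 4) (nat_lit 12) (nat_lit 4) (nat_lit 348) (nat_lit 217) (nat_lit 215)) (XT.lf (nat_lit 0) (nat_lit 1381069906) (nat_lit 152) (nat_lit 11328976462) (nat_lit 152) (nat_lit 10174749247) (nat_lit 10) (nat_lit 4) (nat_lit 12) (nat_lit 5) (nat_lit 12) (nat_lit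 4) (nat_lit 349) (nat_lit 217) (nat_lit 214)))))) (XT.nd (nat_lit 390) (nat_lit 76) (nat_lit 0) (XT.nd (nat_lit 156) (nat_lit 152) (nat_lit 0) (XT.nd (nat_lit 78) (nat_lit 0) (nat_lit 0) (XT.lf (nat_lit 0) (nat_lit 6781472091) (nat_lit 152) (nat_lit 9103124160) (nat_lit 152) (nat_lit 7586345926) (nat_lit 10) (nat_lit 4) (nat_lit 12) (nat_lit 5) (nat_lit 12) (nat_lit 4) (nat_lit 350) (nat_lit 217) (nat_lit 213)) (XT.lf (nat_lit 0) (nat_lit 12243472864) (nat_lit 152) (nat_lit 6850925489) (nat_lit 152) (nat_lit 4982155974) (nat_lit 10) (nat_lit 4) (nat_lit 12) (nat_lit 5) (nat_lit 12) (nat_lit 4) (nat_lit 351) (nat_lit 217) (nat_lit 212))) (XT.nd (nat_lit 78) (nat_lit 152) (nat_lit 0) (XT.lf (nat_lit 0) (nat_lit 17771844848) (nat_lit 152) (nat_lit 4570412507) (nat_lit 152) (nat_lit 2359903884) (nat_lit 10) (nat_lit 4) (nat_lit 12) (nat_lit 5) (nat_lit 12) (nat_lit 4) (nat_lit 352) (nat_lit 217)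 (nat_lit 211)) (XT.nd (nat_lit 78) (nat_lit 76) (nat_lit 0) (XT.lf (nat_lit 0) (nat_lit 277185104) (nat_lit 228) (nat_lit 1979608403) (nat_lit 76) (nat_lit 23091434529) (nat_lit 9) (nat_lit 5) (nat_lit 12) (nat_lit 5) (nat_lit 10) (nat_lit 4) (nat_lit 353) (nat_lit 217) (nat_lit 210)) (XT.lf (nat_lit 0) (nat_lit 2921262389) (nat_lit 152) (nat_lit 22952250888) (nat_lit 0) (nat_lit 140275933) (nat_lit 8) (nat_lit 5) (nat_lit 10) (nat_lit 4) (nat_lit 8) (nat_lit 4) (nat_lit 354) (nat_lit 217) (nat_lit 209))))) (XT.nd (nat_lit 234) (nat_lit 76) (nat_lit 0) (XT.nd (nat_lit 78) (nat_lit 0) (nat_lit 0) (XT.lf (nat_lit 0) (nat_lit 5632055330) (nat_lit 152) (nat_lit 18520272428) (nat_lit 0) (nat_lit 2547438103) (nat_lit 8) (nat_lit 5) (nat_lit 10) (nat_lit 4) (nat_lit 8) (nat_lit 4) (nat_lit 355) (nat_lit 217) (nat_lit 208)) (XT.nd (nat_lit 78) (nat_lit 0) (nat_lit 0) (XT.lf (nat_lit 0) (nat_lit 8370638818)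 (nat_lit 152) (nat_lit 14046122946) (nat_lit 0) (nat_lit 4991234435) (nat_lit 8) (nat_lit 5) (nat_lit 10) (nat_lit 4) (nat_lit 8) (nat_lit 4) (nat_lit 356) (nat_lit 217) (nat_lit 207)) (XT.lf (nat_lit 0) (nat_lit 11139405791) (nat_lit 152) (nat_lit 9525892992) (nat_lit 0) (nat_lit 7473800284) (nat_lit 8) (nat_lit 5) (nat_lit 10) (nat_lit 4) (nat_lit 8) (nat_lit 4) (nat_lit 357) (nat_lit 217) (nat_lit 206)))) (XT.nd (nat_lit 78) (nat_lit 76) (nat_lit 0) (XT.lf (nat_lit 0) (nat_lit 13940775558) (nat_lit 152) (nat_lit 4955632850) (nat_lit 0) (nat_lit 9997304884) (nat_lit 8) (nat_lit 5) (nat_lit 10) (nat_lit 4) (nat_lit 8) (nat_lit 4) (nat_lit 358) (nat_lit 217) (nat_lit 205)) (XT.nd (nat_lit 78) (nat_lit 76) (nat_lit 0) (XT.lf (nat_lit 0) (nat_lit 16777195920) (nat_lit 152) (nat_lit 331349088) (nat_lit 0) (nat_lit 12563953238) (nat_lit 8) (nat_lit 5) (nat_lit 10) (nat_lit 4) (nat_lit 8) (nat_lit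 4) (nat_lit 359) (nat_lit 217) (nat_lit 204)) (XT.lf (nat_lit 0) (nat_lit 4437592338) (nat_lit 76) (nat_lit 15256209815) (nat_lit 76) (nat_lit 10781052563) (nat_lit 7) (nat_lit 4) (nat_lit 8) (nat_lit 5) (nat_lit 8) (nat_lit 4) (nat_lit 360) (nat_lit 217) (nat_lit 203))))))))
noncomputable def xc18 : XT := (XT.nd (nat_lit 1716) (nat_lit 152) (nat_lit 0) (XT.nd (nat_lit 858) (nat_lit 76) (nat_lit 0) (XT.nd (nat_lit 390) (nat_lit 76) (nat_lit 0) (XT.nd (nat_lit 156) (nat_lit 76) (nat_lit 0) (XT.nd (nat_lit 78) (nat_lit 0) (nat_lit 0) (XT.lf (nat_lit 0) (nat_lit 9276520908) (nat_lit 76) (nat_lit 13377785605) (nat_lit 76) (nat_lit 8648342362) (nat_lit 7) (nat_lit 4) (nat_lit 8) (nat_lit 5) (nat_lit 8) (nat_lit 4) (nat_lit 361) (nat_lit 217) (nat_lit 202)) (XT.lf (nat_lit 0) (nat_lit 14183070314) (nat_lit 76) (nat_lit 11474977013) (nat_lit 76) (nat_lit 6498654168) (nat_lit 7) (nat_lit 4) (nat_lit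 8) (nat_lit 5) (nat_lit 8) (nat_lit 4) (nat_lit 362) (nat_lit 217) (nat_lit 201))) (XT.nd (nat_lit 78) (nat_lit 76) (nat_lit 0) (XT.lf (nat_lit 0) (nat_lit 19161527834) (nat_lit 76) (nat_lit 9546121391) (nat_lit 76) (nat_lit 4330109612) (nat_lit 7) (nat_lit 4) (nat_lit 8) (nat_lit 5) (nat_lit 8) (nat_lit 4) (nat_lit 363) (nat_lit 217) (nat_lit 200)) (XT.nd (nat_lit 78) (nat_lit 76) (nat_lit 0) (XT.lf (nat_lit 0) (nat_lit 24216243574) (nat_lit 76) (nat_lit 7589533332) (nat_lit 76) (nat_lit 2140813849) (nat_lit 7) (nat_lit 4) (nat_lit 8) (nat_lit 5) (nat_lit 8) (nat_lit 4) (nat_lit 364) (nat_lit 217) (nat_lit 199)) (XT.lf (nat_lit 0) (nat_lit 69757780) (nat_lit 152) (nat_lit 5533040997) (nat_lit 76) (nat_lit 29281172080) (nat_lit 6) (nat_lit 5) (nat_lit 8) (nat_lit 5) (nat_lit 7) (nat_lit 4) (nat_lit 365) (nat_lit 217) (nat_lit 198))))) (XT.nd (nat_lit 234) (nat_lit 0) (nat_lit 0) (XT.nd (nat_lit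 78) (nat_lit 76) (nat_lit 0) (XT.lf (nat_lit 0) (nat_lit 2262671410) (nat_lit 152) (nat_lit 1300775658) (nat_lit 76) (nat_lit 32286667224) (nat_lit 6) (nat_lit 5) (nat_lit 8) (nat_lit 5) (nat_lit 7) (nat_lit 4) (nat_lit 366) (nat_lit 217) (nat_lit 197)) (XT.nd (nat_lit 78) (nat_lit 0) (nat_lit 0) (XT.lf (nat_lit 0) (nat_lit 3050247050) (nat_lit 76) (nat_lit 1460691957) (nat_lit 152) (nat_lit 32334663993) (nat_lit 5) (nat_lit 5) (nat_lit 6) (nat_lit 5) (nat_lit 7) (nat_lit 4) (nat_lit 367) (nat_lit 217) (nat_lit 196)) (XT.lf (nat_lit 0) (nat_lit 6807189686) (nat_lit 152) (nat_lit 30387029766) (nat_lit 0) (nat_lit 677367437) (nat_lit 5) (nat_lit 5) (nat_lit 7) (nat_lit 4) (nat_lit 5) (nat_lit 4) (nat_lit 368) (nat_lit 217) (nat_lit 195)))) (XT.nd (nat_lit 78) (nat_lit 0) (nat_lit 0) (XT.lf (nat_lit 0) (nat_lit 9148432341) (nat_lit 152) (nat_lit 26956958980) (nat_lit 0) (nat_lit 2823721054) (nat_lit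 5) (nat_lit 5) (nat_lit 7) (nat_lit 4) (nat_lit 5) (nat_lit 4) (nat_lit 369) (nat_lit 217) (nat_lit 194)) (XT.nd (nat_lit 78) (nat_lit 0) (nat_lit 0) (XT.lf (nat_lit 0) (nat_lit 11522671654) (nat_lit 152) (nat_lit 23488105378) (nat_lit 0) (nat_lit 5008747709) (nat_lit 5) (nat_lit 5) (nat_lit 7) (nat_lit 4) (nat_lit 5) (nat_lit 4) (nat_lit 370) (nat_lit 217) (nat_lit 193)) (XT.lf (nat_lit 0) (nat_lit 13931982203) (nat_lit 152) (nat_lit 19977437925) (nat_lit 0) (nat_lit 7234356648) (nat_lit 5) (nat_lit 5) (nat_lit 7) (nat_lit 4) (nat_lit 5) (nat_lit 4) (nat_lit 371) (nat_lit 217) (nat_lit 192)))))) (XT.nd (nat_lit 390) (nat_lit 76) (nat_lit 0) (XT.nd (nat_lit 156) (nat_lit 0) (nat_lit 0) (XT.nd (nat_lit 78) (nat_lit 0) (nat_lit 0) (XT.lf (nat_lit 0) (nat_lit 16378469211) (nat_lit 152) (nat_lit 16421889045) (nat_lit 0) (nat_lit 9502492579) (nat_lit 5) (nat_lit 5) (nat_lit 7) (nat_lit 4) (nat_lit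 5) (nat_lit 4) (nat_lit 372) (nat_lit 217) (nat_lit 191)) (XT.lf (nat_lit 0) (nat_lit 18864270385) (nat_lit 152) (nat_lit 12818351950) (nat_lit 0) (nat_lit 11815137366) (nat_lit 5) (nat_lit 5) (nat_lit 7) (nat_lit 4) (nat_lit 5) (nat_lit 4) (nat_lit 373) (nat_lit 217) (nat_lit 190))) (XT.nd (nat_lit 78) (nat_lit 0) (nat_lit 0) (XT.lf (nat_lit 0) (nat_lit 21391557784) (nat_lit 152) (nat_lit 9163677917) (nat_lit 0) (nat_lit 14174311769) (nat_lit 5) (nat_lit 5) (nat_lit 7) (nat_lit 4) (nat_lit 5) (nat_lit 4) (nat_lit 374) (nat_lit 217) (nat_lit 189)) (XT.nd (nat_lit 78) (nat_lit 0) (nat_lit 0) (XT.lf (nat_lit 0) (nat_lit 23962539717) (nat_lit 152) (nat_lit 5454673541) (nat_lit 0) (nat_lit 16582077202) (nat_lit 5) (nat_lit 5) (nat_lit 7) (nat_lit 4) (nat_lit 5) (nat_lit 4) (nat_lit 375) (nat_lit 217) (nat_lit 188)) (XT.lf (nat_lit 0) (nat_lit 26579462675) (nat_lit 152) (nat_lit 1688097946) (nat_lit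 0) (nat_lit 19040537537) (nat_lit 5) (nat_lit 5) (nat_lit 7) (nat_lit 4) (nat_lit 5) (nat_lit 4) (nat_lit 376) (nat_lit 217) (nat_lit 187))))) (XT.nd (nat_lit 234) (nat_lit 0) (nat_lit 0) (XT.nd (nat_lit 78) (nat_lit 0) (nat_lit 0) (XT.lf (nat_lit 0) (nat_lit 2181917113) (nat_lit 76) (nat_lit 27083670096) (nat_lit 76) (nat_lit 19390897752) (nat_lit 4) (nat_lit 4) (nat_lit 5) (nat_lit 5) (nat_lit 5) (nat_lit 4) (nat_lit 377) (nat_lit 217) (nat_lit 186)) (XT.nd (nat_lit 78) (nat_lit 0) (nat_lit 0) (XT.lf (nat_lit 0) (nat_lit 6151013238) (nat_lit 76) (nat_lit 25868434391) (nat_lit 76) (nat_lit 18026295827) (nat_lit 4) (nat_lit 4) (nat_lit 5) (nat_lit 5) (nat_lit 5) (nat_lit 4) (nat_lit 378) (nat_lit 217) (nat_lit 185)) (XT.lf (nat_lit 0) (nat_lit 10189062112) (nat_lit 76) (nat_lit 24637838130) (nat_lit 76) (nat_lit 16650683818) (nat_lit 4) (nat_lit 4) (nat_lit 5) (nat_lit 5) (nat_lit 5) (nat_lit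 4) (nat_lit 379) (nat_lit 217) (nat_lit 184)))) (XT.nd (nat_lit 78) (nat_lit 0) (nat_lit 0) (XT.lf (nat_lit 0) (nat_lit 14299592126) (nat_lit 76) (nat_lit 23390806033) (nat_lit 76) (nat_lit 15262859734) (nat_lit 4) (nat_lit 4) (nat_lit 5) (nat_lit 5) (nat_lit 5) (nat_lit 4) (nat_lit 380) (nat_lit 217) (nat_lit 183)) (XT.nd (nat_lit 78) (nat_lit 0) (nat_lit 0) (XT.lf (nat_lit 0) (nat_lit 18486195007) (nat_lit 76) (nat_lit 22126248461) (nat_lit 76) (nat_lit 13861610912) (nat_lit 4) (nat_lit 4) (nat_lit 5) (nat_lit 5) (nat_lit 5) (nat_lit 4) (nat_lit 381) (nat_lit 217) (nat_lit 182)) (XT.lf (nat_lit 0) (nat_lit 22752528950) (nat_lit 76) (nat_lit 20843060462) (nat_lit 76) (nat_lit 12445712961) (nat_lit 4) (nat_lit 4) (nat_lit 5) (nat_lit 5) (nat_lit 5) (nat_lit 4) (nat_lit 382) (nat_lit 217) (nat_lit 181))))))) (XT.nd (nat_lit 858) (nat_lit 76) (nat_lit 0) (XT.nd (nat_lit 390) (nat_lit 76) (nat_lit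 0) (XT.nd (nat_lit 156) (nat_lit 0) (nat_lit 0) (XT.nd (nat_lit 78) (nat_lit 0) (nat_lit 0) (XT.lf (nat_lit 0) (nat_lit 27102321821) (nat_lit 76) (nat_lit 19540120801) (nat_lit 76) (nat_lit 11013928687) (nat_lit 4) (nat_lit 4) (nat_lit 5) (nat_lit 5) (nat_lit 5) (nat_lit 4) (nat_lit 383) (nat_lit 217) (nat_lit 180)) (XT.lf (nat_lit 0) (nat_lit 31539374408) (nat_lit 76) (nat_lit 18216290990) (nat_lit 76) (nat_lit 9565007019) (nat_lit 4) (nat_lit 4) (nat_lit 5) (nat_lit 5) (nat_lit 5) (nat_lit 4) (nat_lit 384) (nat_lit 217) (nat_lit 179))) (XT.nd (nat_lit 78) (nat_lit 0) (nat_lit 0) (XT.lf (nat_lit 0) (nat_lit 36067563750) (nat_lit 76) (nat_lit 16870414283) (nat_lit 76) (nat_lit 8097681906) (nat_lit 4) (nat_lit 4) (nat_lit 5) (nat_lit 5) (nat_lit 5) (nat_lit 4) (nat_lit 385) (nat_lit 217) (nat_lit 178)) (XT.nd (nat_lit 78) (nat_lit 0) (nat_lit 0) (XT.lf (nat_lit 0) (nat_lit 40690846515) (nat_lit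 76) (nat_lit 15501314671) (nat_lit 76) (nat_lit 6610671221) (nat_lit 4) (nat_lit 4) (nat_lit 5) (nat_lit 5) (nat_lit 5) (nat_lit 4) (nat_lit 386) (nat_lit 217) (nat_lit 177)) (XT.lf (nat_lit 0) (nat_lit 45413262465) (nat_lit 76) (nat_lit 14107795854) (nat_lit 76) (nat_lit 5102675634) (nat_lit 4) (nat_lit 4) (nat_lit 5) (nat_lit 5) (nat_lit 5) (nat_lit 4) (nat_lit 387) (nat_lit 217) (nat_lit 176))))) (XT.nd (nat_lit 234) (nat_lit 76) (nat_lit 0) (XT.nd (nat_lit 78) (nat_lit 0) (nat_lit 0) (XT.lf (nat_lit 0) (nat_lit 50238937984) (nat_lit 76) (nat_lit 12688640194) (nat_lit 76) (nat_lit 3572377479) (nat_lit 4) (nat_lit 4) (nat_lit 5) (nat_lit 5) (nat_lit 5) (nat_lit 4) (nat_lit 388) (nat_lit 217) (nat_lit 175)) (XT.nd (nat_lit 78) (nat_lit 0) (nat_lit 0) (XT.lf (nat_lit 0) (nat_lit 55172089680) (nat_lit 76) (nat_lit 11242607652) (nat_lit 76) (nat_lit 2018439602) (nat_lit 4) (nat_lit 4) (nat_lit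 5) (nat_lit 5) (nat_lit 5) (nat_lit 4) (nat_lit 389) (nat_lit 217) (nat_lit 174)) (XT.lf (nat_lit 0) (nat_lit 60217028076) (nat_lit 76) (nat_lit 9768434705) (nat_lit 76) (nat_lit 439504193) (nat_lit 4) (nat_lit 4) (nat_lit 5) (nat_lit 5) (nat_lit 5) (nat_lit 4) (nat_lit 390) (nat_lit 217) (nat_lit 173)))) (XT.nd (nat_lit 78) (nat_lit 0) (nat_lit 0) (XT.lf (nat_lit 0) (nat_lit 1143059277) (nat_lit 152) (nat_lit 7110231304) (nat_lit 76) (nat_lit 64223559433) (nat_lit 3) (nat_lit 5) (nat_lit 5) (nat_lit 5) (nat_lit 4) (nat_lit 4) (nat_lit 391) (nat_lit 217) (nat_lit 172)) (XT.nd (nat_lit 78) (nat_lit 0) (nat_lit 0) (XT.lf (nat_lit 0) (nat_lit 2744284238) (nat_lit 152) (nat_lit 3958493302) (nat_lit 76) (nat_lit 67888003159) (nat_lit 3) (nat_lit 5) (nat_lit 5) (nat_lit 5) (nat_lit 4) (nat_lit 4) (nat_lit 392) (nat_lit 217) (nat_lit 171)) (XT.lf (nat_lit 0) (nat_lit 4374146126) (nat_lit 152) (nat_lit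 745746162) (nat_lit 76) (nat_lit 71648840604) (nat_lit 3) (nat_lit 5) (nat_lit 5) (nat_lit 5) (nat_lit 4) (nat_lit 4) (nat_lit 393) (nat_lit 217) (nat_lit 170)))))) (XT.nd (nat_lit 390) (nat_lit 0) (nat_lit 0) (XT.nd (nat_lit 156) (nat_lit 0) (nat_lit 0) (XT.nd (nat_lit 78) (nat_lit 0) (nat_lit 0) (XT.lf (nat_lit 0) (nat_lit 2581185597) (nat_lit 76) (nat_lit 3477695430) (nat_lit 152) (nat_lit 72952984275) (nat_lit 2) (nat_lit 5) (nat_lit 3) (nat_lit 5) (nat_lit 4) (nat_lit 4) (nat_lit 394) (nat_lit 217) (nat_lit 169)) (XT.lf (nat_lit 0) (nat_lit 5990965627) (nat_lit 76) (nat_lit 1792126754) (nat_lit 152) (nat_lit 73539551625) (nat_lit 2) (nat_lit 5) (nat_lit 3) (nat_lit 5) (nat_lit 4) (nat_lit 4) (nat_lit 395) (nat_lit 217) (nat_lit 168))) (XT.nd (nat_lit 78) (nat_lit 0) (nat_lit 0) (XT.lf (nat_lit 0) (nat_lit 9471731536) (nat_lit 76) (nat_lit 69244008) (nat_lit 152) (nat_lit 74162331926) (nat_lit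 2) (nat_lit 5) (nat_lit 3) (nat_lit 5) (nat_lit 4) (nat_lit 4) (nat_lit 396) (nat_lit 217) (nat_lit 167)) (XT.nd (nat_lit 78) (nat_lit 0) (nat_lit 0) (XT.lf (nat_lit 0) (nat_lit 11350335475) (nat_lit 152) (nat_lit 73145680059) (nat_lit 0) (nat_lit 1659432283) (nat_lit 2) (nat_lit 5) (nat_lit 4) (nat_lit 4) (nat_lit 2) (nat_lit 4) (nat_lit 397) (nat_lit 217) (nat_lit 166)) (XT.lf (nat_lit 0) (nat_lit 13197523577) (nat_lit 152) (nat_lit 72057812322) (nat_lit 0) (nat_lit 3426328681) (nat_lit 2) (nat_lit 5) (nat_lit 4) (nat_lit 4) (nat_lit 2) (nat_lit 4) (nat_lit 398) (nat_lit 217) (nat_lit 165))))) (XT.nd (nat_lit 234) (nat_lit 0) (nat_lit 0) (XT.nd (nat_lit 78) (nat_lit 0) (nat_lit 0) (XT.lf (nat_lit 0) (nat_lit 15083488282) (nat_lit 152) (nat_lit 70966356544) (nat_lit 0) (nat_lit 5234340276) (nat_lit 2) (nat_lit 5) (nat_lit 4) (nat_lit 4) (nat_lit 2) (nat_lit 4) (nat_lit 399) (nat_lit 217) (nat_lit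 164)) (XT.nd (nat_lit 78) (nat_lit 0) (nat_lit 0) (XT.lf (nat_lit 0) (nat_lit 17009877521) (nat_lit 152) (nat_lit 69870359026) (nat_lit 0) (nat_lit 7085046884) (nat_lit 2) (nat_lit 5) (nat_lit 4) (nat_lit 4) (nat_lit 2) (nat_lit 4) (nat_lit 400) (nat_lit 217) (nat_lit 163)) (XT.lf (nat_lit 0) (nat_lit 18978374547) (nat_lit 152) (nat_lit 68768862099) (nat_lit 0) (nat_lit 8980065628) (nat_lit 2) (nat_lit 5) (nat_lit 4) (nat_lit 4) (nat_lit 2) (nat_lit 4) (nat_lit 401) (nat_lit 217) (nat_lit 162)))) (XT.nd (nat_lit 36114) (nat_lit 0) (nat_lit 760) (XT.lf (nat_lit 0) (nat_lit 20990699405) (nat_lit 152) (nat_lit 67660903292) (nat_lit 0) (nat_lit 10921052347) (nat_lit 2) (nat_lit 5) (nat_lit 4) (nat_lit 4) (nat_lit 2) (nat_lit 4) (nat_lit 402) (nat_lit 217) (nat_lit 161)) (XT.nd (nat_lit 78) (nat_lit 152) (nat_lit 0) (XT.lf (nat_lit 0) (nat_lit 8079805732) (nat_lit 152) (nat_lit 1014619278) (nat_lit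 152) (nat_lit 1014619278) (nat_lit 14) (nat_lit 4) (nat_lit 16) (nat_lit 5) (nat_lit 16) (nat_lit 4) (nat_lit 344) (nat_lit 218) (nat_lit 218)) (XT.lf (nat_lit 0) (nat_lit 906708361) (nat_lit 152) (nat_lit 19313824843) (nat_lit 0) (nat_lit 498653995) (nat_lit 12) (nat_lit 5) (nat_lit 14) (nat_lit 4) (nat_lit 12) (nat_lit 4) (nat_lit 345) (nat_lit 218) (nat_lit 217))))))))
noncomputable def xc19 : XT := (XT.nd (nat_lit 1716) (nat_lit 76) (nat_lit 0) (XT.nd (nat_lit 858) (nat_lit 228) (nat_lit 0) (XT.nd (nat_lit 390) (nat_lit 152) (nat_lit 0) (XT.nd (nat_lit 156) (nat_lit 152) (nat_lit 0) (XT.nd (nat_lit 78) (nat_lit 0) (nat_lit 0) (XT.lf (nat_lit 0) (nat_lit 3885001451) (nat_lit 152) (nat_lit 14269177095) (nat_lit 0) (nat_lit 3080777797) (nat_lit 12) (nat_lit 5) (nat_lit 14) (nat_lit 4) (nat_lit 12) (nat_lit 4) (nat_lit 346) (nat_lit 218) (nat_lit 216)) (XT.lf (nat_lit 0) (nat_lit 6888151633)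 (nat_lit 152) (nat_lit 9180773312) (nat_lit 0) (nat_lit 5699297602) (nat_lit 12) (nat_lit 5) (nat_lit 14) (nat_lit 4) (nat_lit 12) (nat_lit 4) (nat_lit 347) (nat_lit 218) (nat_lit 215))) (XT.nd (nat_lit 78) (nat_lit 152) (nat_lit 0) (XT.lf (nat_lit 0) (nat_lit 9918783019) (nat_lit 152) (nat_lit 4044167315) (nat_lit 0) (nat_lit 8356501437) (nat_lit 12) (nat_lit 5) (nat_lit 14) (nat_lit 4) (nat_lit 12) (nat_lit 4) (nat_lit 348) (nat_lit 218) (nat_lit 214)) (XT.nd (nat_lit 78) (nat_lit 0) (nat_lit 0) (XT.lf (nat_lit 0) (nat_lit 1167919509) (nat_lit 152) (nat_lit 11822850980) (nat_lit 152) (nat_lit 9898018380) (nat_lit 10) (nat_lit 4) (nat_lit 12) (nat_lit 5) (nat_lit 12) (nat_lit 4) (nat_lit 349) (nat_lit 218) (nat_lit 213)) (XT.lf (nat_lit 0) (nat_lit 6518856926) (nat_lit 152) (nat_lit 9616914541) (nat_lit 152) (nat_lit 7340090659) (nat_lit 10) (nat_lit 4) (nat_lit 12) (nat_lit 5) (nat_lit 12)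 (nat_lit 4) (nat_lit 350) (nat_lit 218) (nat_lit 212))))) (XT.nd (nat_lit 234) (nat_lit 76) (nat_lit 0) (XT.nd (nat_lit 78) (nat_lit 76) (nat_lit 0) (XT.lf (nat_lit 0) (nat_lit 11932833654) (nat_lit 152) (nat_lit 7384051657) (nat_lit 152) (nat_lit 4765488668) (nat_lit 10) (nat_lit 4) (nat_lit 12) (nat_lit 5) (nat_lit 12) (nat_lit 4) (nat_lit 351) (nat_lit 218) (nat_lit 211)) (XT.nd (nat_lit 78) (nat_lit 76) (nat_lit 0) (XT.lf (nat_lit 0) (nat_lit 17414580351) (nat_lit 152) (nat_lit 5122311285) (nat_lit 152) (nat_lit 2171962754) (nat_lit 10) (nat_lit 4) (nat_lit 12) (nat_lit 5) (nat_lit 12) (nat_lit 4) (nat_lit 352) (nat_lit 218) (nat_lit 210)) (XT.lf (nat_lit 0) (nat_lit 434113559) (nat_lit 228) (nat_lit 2391219890) (nat_lit 76) (nat_lit 22530389638) (nat_lit 9) (nat_lit 5) (nat_lit 12) (nat_lit 5) (nat_lit 10) (nat_lit 4) (nat_lit 353) (nat_lit 218) (nat_lit 209)))) (XT.nd (nat_lit 78) (nat_lit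 0) (nat_lit 0) (XT.lf (nat_lit 0) (nat_lit 2597753718) (nat_lit 76) (nat_lit 448041270) (nat_lit 152) (nat_lit 22976495849) (nat_lit 8) (nat_lit 5) (nat_lit 9) (nat_lit 5) (nat_lit 10) (nat_lit 4) (nat_lit 354) (nat_lit 218) (nat_lit 208)) (XT.nd (nat_lit 78) (nat_lit 0) (nat_lit 0) (XT.lf (nat_lit 0) (nat_lit 5725910029) (nat_lit 152) (nat_lit 19032975129) (nat_lit 0) (nat_lit 1950336358) (nat_lit 8) (nat_lit 5) (nat_lit 10) (nat_lit 4) (nat_lit 8) (nat_lit 4) (nat_lit 355) (nat_lit 218) (nat_lit 207)) (XT.lf (nat_lit 0) (nat_lit 8438890552) (nat_lit 152) (nat_lit 14602246343) (nat_lit 0) (nat_lit 4377115757) (nat_lit 8) (nat_lit 5) (nat_lit 10) (nat_lit 4) (nat_lit 8) (nat_lit 4) (nat_lit 356) (nat_lit 218) (nat_lit 206)))))) (XT.nd (nat_lit 390) (nat_lit 152) (nat_lit 0) (XT.nd (nat_lit 156) (nat_lit 76) (nat_lit 0) (XT.nd (nat_lit 78) (nat_lit 0) (nat_lit 0) (XT.lf (nat_lit 0) (nat_lit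 11182800276) (nat_lit 152) (nat_lit 10124172404) (nat_lit 0) (nat_lit 6843160314) (nat_lit 8) (nat_lit 5) (nat_lit 10) (nat_lit 4) (nat_lit 8) (nat_lit 4) (nat_lit 357) (nat_lit 218) (nat_lit 205)) (XT.lf (nat_lit 0) (nat_lit 13960036793) (nat_lit 152) (nat_lit 5594840432) (nat_lit 0) (nat_lit 9350624823) (nat_lit 8) (nat_lit 5) (nat_lit 10) (nat_lit 4) (nat_lit 8) (nat_lit 4) (nat_lit 358) (nat_lit 218) (nat_lit 204))) (XT.nd (nat_lit 78) (nat_lit 76) (nat_lit 0) (XT.lf (nat_lit 0) (nat_lit 16773026814) (nat_lit 152) (nat_lit 1010292758) (nat_lit 0) (nat_lit 11901700274) (nat_lit 8) (nat_lit 5) (nat_lit 10) (nat_lit 4) (nat_lit 8) (nat_lit 4) (nat_lit 359) (nat_lit 218) (nat_lit 203)) (XT.nd (nat_lit 78) (nat_lit 0) (nat_lit 0) (XT.lf (nat_lit 0) (nat_lit 3705789840) (nat_lit 76) (nat_lit 15954060769) (nat_lit 76) (nat_lit 10828448239) (nat_lit 7) (nat_lit 4) (nat_lit 8) (nat_lit 5) (nat_lit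 8) (nat_lit 4) (nat_lit 360) (nat_lit 218) (nat_lit 202)) (XT.lf (nat_lit 0) (nat_lit 8506517908) (nat_lit 76) (nat_lit 14091384512) (nat_lit 76) (nat_lit 8718892379) (nat_lit 7) (nat_lit 4) (nat_lit 8) (nat_lit 5) (nat_lit 8) (nat_lit 4) (nat_lit 361) (nat_lit 218) (nat_lit 201))))) (XT.nd (nat_lit 234) (nat_lit 152) (nat_lit 0) (XT.nd (nat_lit 78) (nat_lit 0) (nat_lit 0) (XT.lf (nat_lit 0) (nat_lit 13375979448) (nat_lit 76) (nat_lit 12203865195) (nat_lit 76) (nat_lit 6591684128) (nat_lit 7) (nat_lit 4) (nat_lit 8) (nat_lit 5) (nat_lit 8) (nat_lit 4) (nat_lit 362) (nat_lit 218) (nat_lit 200)) (XT.nd (nat_lit 78) (nat_lit 0) (nat_lit 0) (XT.lf (nat_lit 0) (nat_lit 18318429329) (nat_lit 76) (nat_lit 10289853530) (nat_lit 76) (nat_lit 4444964759) (nat_lit 7) (nat_lit 4) (nat_lit 8) (nat_lit 5) (nat_lit 8) (nat_lit 4) (nat_lit 363) (nat_lit 218) (nat_lit 199)) (XT.lf (nat_lit 0) (nat_lit 23338186198)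 (nat_lit 76) (nat_lit 8347677078) (nat_lit 76) (nat_lit 2276858498) (nat_lit 7) (nat_lit 4) (nat_lit 8) (nat_lit 5) (nat_lit 8) (nat_lit 4) (nat_lit 364) (nat_lit 218) (nat_lit 198)))) (XT.nd (nat_lit 78) (nat_lit 152) (nat_lit 0) (XT.lf (nat_lit 0) (nat_lit 28439636250) (nat_lit 76) (nat_lit 6375638793) (nat_lit 76) (nat_lit 85470883) (nat_lit 7) (nat_lit 4) (nat_lit 8) (nat_lit 5) (nat_lit 8) (nat_lit 4) (nat_lit 365) (nat_lit 218) (nat_lit 197)) (XT.nd (nat_lit 78) (nat_lit 76) (nat_lit 0) (XT.lf (nat_lit 0) (nat_lit 2089527200) (nat_lit 152) (nat_lit 2261388205) (nat_lit 76) (nat_lit 31516609734) (nat_lit 6) (nat_lit 5) (nat_lit 8) (nat_lit 5) (nat_lit 7) (nat_lit 4) (nat_lit 366) (nat_lit 218) (nat_lit 196)) (XT.lf (nat_lit 0) (nat_lit 2037478075) (nat_lit 76) (nat_lit 2271568367) (nat_lit 152) (nat_lit 32554852797) (nat_lit 5) (nat_lit 5) (nat_lit 6) (nat_lit 5) (nat_lit 7) (nat_lit 4)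 (nat_lit 367) (nat_lit 218) (nat_lit 195))))))) (XT.nd (nat_lit 858) (nat_lit 0) (nat_lit 0) (XT.nd (nat_lit 390) (nat_lit 76) (nat_lit 0) (XT.nd (nat_lit 156) (nat_lit 0) (nat_lit 0) (XT.nd (nat_lit 78) (nat_lit 0) (nat_lit 0) (XT.lf (nat_lit 0) (nat_lit 6446552159) (nat_lit 76) (nat_lit 133336545) (nat_lit 152) (nat_lit 31310778949) (nat_lit 5) (nat_lit 5) (nat_lit 6) (nat_lit 5) (nat_lit 7) (nat_lit 4) (nat_lit 368) (nat_lit 218) (nat_lit 194)) (XT.lf (nat_lit 0) (nat_lit 8901504514) (nat_lit 152) (nat_lit 28044348862) (nat_lit 0) (nat_lit 2002950193) (nat_lit 5) (nat_lit 5) (nat_lit 7) (nat_lit 4) (nat_lit 5) (nat_lit 4) (nat_lit 369) (nat_lit 218) (nat_lit 193))) (XT.nd (nat_lit 78) (nat_lit 0) (nat_lit 0) (XT.lf (nat_lit 0) (nat_lit 11257933018) (nat_lit 152) (nat_lit 24606161150) (nat_lit 0) (nat_lit 4175677086) (nat_lit 5) (nat_lit 5) (nat_lit 7) (nat_lit 4) (nat_lit 5) (nat_lit 4)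 (nat_lit 370) (nat_lit 218) (nat_lit 192)) (XT.nd (nat_lit 78) (nat_lit 0) (nat_lit 0) (XT.lf (nat_lit 0) (nat_lit 13649951519) (nat_lit 152) (nat_lit 21125266405) (nat_lit 0) (nat_lit 6389344510) (nat_lit 5) (nat_lit 5) (nat_lit 7) (nat_lit 4) (nat_lit 5) (nat_lit 4) (nat_lit 371) (nat_lit 218) (nat_lit 191)) (XT.lf (nat_lit 0) (nat_lit 16079650130) (nat_lit 152) (nat_lit 17598623068) (nat_lit 0) (nat_lit 8645886735) (nat_lit 5) (nat_lit 5) (nat_lit 7) (nat_lit 4) (nat_lit 5) (nat_lit 4) (nat_lit 372) (nat_lit 218) (nat_lit 190))))) (XT.nd (nat_lit 234) (nat_lit 76) (nat_lit 0) (XT.nd (nat_lit 78) (nat_lit 0) (nat_lit 0) (XT.lf (nat_lit 0) (nat_lit 18549151890) (nat_lit 152) (nat_lit 14023149605) (nat_lit 0) (nat_lit 10947275499) (nat_lit 5) (nat_lit 5) (nat_lit 7) (nat_lit 4) (nat_lit 5) (nat_lit 4) (nat_lit 373) (nat_lit 218) (nat_lit 189)) (XT.nd (nat_lit 78) (nat_lit 0) (nat_lit 0) (XT.lf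 (nat_lit 0) (nat_lit 21060614616) (nat_lit 152) (nat_lit 10395721818) (nat_lit 0) (nat_lit 13295521724) (nat_lit 5) (nat_lit 5) (nat_lit 7) (nat_lit 4) (nat_lit 5) (nat_lit 4) (nat_lit 374) (nat_lit 218) (nat_lit 188)) (XT.lf (nat_lit 0) (nat_lit 23616232789) (nat_lit 152) (nat_lit 6713170108) (nat_lit 0) (nat_lit 15692677274) (nat_lit 5) (nat_lit 5) (nat_lit 7) (nat_lit 4) (nat_lit 5) (nat_lit 4) (nat_lit 375) (nat_lit 218) (nat_lit 187)))) (XT.nd (nat_lit 78) (nat_lit 76) (nat_lit 0) (XT.lf (nat_lit 0) (nat_lit 26218239474) (nat_lit 152) (nat_lit 2972276712) (nat_lit 0) (nat_lit 18140836753) (nat_lit 5) (nat_lit 5) (nat_lit 7) (nat_lit 4) (nat_lit 5) (nat_lit 4) (nat_lit 376) (nat_lit 218) (nat_lit 186)) (XT.nd (nat_lit 78) (nat_lit 0) (nat_lit 0) (XT.lf (nat_lit 0) (nat_lit 846750258) (nat_lit 76) (nat_lit 28030297492) (nat_lit 76) (nat_lit 19803528551) (nat_lit 4) (nat_lit 4) (nat_lit 5)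 (nat_lit 5) (nat_lit 5) (nat_lit 4) (nat_lit 377) (nat_lit 218) (nat_lit 185)) (XT.lf (nat_lit 0) (nat_lit 4791156661) (nat_lit 76) (nat_lit 26825454159) (nat_lit 76) (nat_lit 18453669470) (nat_lit 4) (nat_lit 4) (nat_lit 5) (nat_lit 5) (nat_lit 5) (nat_lit 4) (nat_lit 378) (nat_lit 218) (nat_lit 184)))))) (XT.nd (nat_lit 468) (nat_lit 0) (nat_lit 0) (XT.nd (nat_lit 234) (nat_lit 0) (nat_lit 0) (XT.nd (nat_lit 78) (nat_lit 0) (nat_lit 0) (XT.lf (nat_lit 0) (nat_lit 8805234931) (nat_lit 76) (nat_lit 25604947578) (nat_lit 76) (nat_lit 17092370902) (nat_lit 4) (nat_lit 4) (nat_lit 5) (nat_lit 5) (nat_lit 5) (nat_lit 4) (nat_lit 379) (nat_lit 218) (nat_lit 183)) (XT.nd (nat_lit 78) (nat_lit 0) (nat_lit 0) (XT.lf (nat_lit 0) (nat_lit 12892492515) (nat_lit 76) (nat_lit 24367711288) (nat_lit 76) (nat_lit 15718443362) (nat_lit 4) (nat_lit 4) (nat_lit 5) (nat_lit 5) (nat_lit 5) (nat_lit 4) (nat_lit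 380) (nat_lit 218) (nat_lit 182)) (XT.lf (nat_lit 0) (nat_lit 17056500802) (nat_lit 76) (nat_lit 23112664209) (nat_lit 76) (nat_lit 14330686331) (nat_lit 4) (nat_lit 4) (nat_lit 5) (nat_lit 5) (nat_lit 5) (nat_lit 4) (nat_lit 381) (nat_lit 218) (nat_lit 181)))) (XT.nd (nat_lit 78) (nat_lit 0) (nat_lit 0) (XT.lf (nat_lit 0) (nat_lit 21300898248) (nat_lit 76) (nat_lit 21838709696) (nat_lit 76) (nat_lit 12927887206) (nat_lit 4) (nat_lit 4) (nat_lit 5) (nat_lit 5) (nat_lit 5) (nat_lit 4) (nat_lit 382) (nat_lit 218) (nat_lit 180)) (XT.nd (nat_lit 78) (nat_lit 0) (nat_lit 0) (XT.lf (nat_lit 0) (nat_lit 25629393547) (nat_lit 76) (nat_lit 20544734587) (nat_lit 76) (nat_lit 11508820239) (nat_lit 4) (nat_lit 4) (nat_lit 5) (nat_lit 5) (nat_lit 5) (nat_lit 4) (nat_lit 383) (nat_lit 218) (nat_lit 179)) (XT.lf (nat_lit 0) (nat_lit 30045768882) (nat_lit 76) (nat_lit 19229608223) (nat_lit 76) (nat_lit 10072245470)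 (nat_lit 4) (nat_lit 4) (nat_lit 5) (nat_lit 5) (nat_lit 5) (nat_lit 4) (nat_lit 384) (nat_lit 218) (nat_lit 178))))) (XT.nd (nat_lit 234) (nat_lit 0) (nat_lit 0) (XT.nd (nat_lit 78) (nat_lit 0) (nat_lit 0) (XT.lf (nat_lit 0) (nat_lit 34553883220) (nat_lit 76) (nat_lit 17892181465) (nat_lit 76) (nat_lit 8616907639) (nat_lit 4) (nat_lit 4) (nat_lit 5) (nat_lit 5) (nat_lit 5) (nat_lit 4) (nat_lit 385) (nat_lit 218) (nat_lit 177)) (XT.nd (nat_lit 78) (nat_lit 0) (nat_lit 0) (XT.lf (nat_lit 0) (nat_lit 39157675690) (nat_lit 76) (nat_lit 16531285688) (nat_lit 76) (nat_lit 7141535091) (nat_lit 4) (nat_lit 4) (nat_lit 5) (nat_lit 5) (nat_lit 5) (nat_lit 4) (nat_lit 386) (nat_lit 218) (nat_lit 176)) (XT.lf (nat_lit 0) (nat_lit 43861169025) (nat_lit 76) (nat_lit 15145731758) (nat_lit 76) (nat_lit 5644838666) (nat_lit 4) (nat_lit 4) (nat_lit 5) (nat_lit 5) (nat_lit 5) (nat_lit 4) (nat_lit 387) (nat_lit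 218) (nat_lit 175)))) (XT.nd (nat_lit 78) (nat_lit 0) (nat_lit 0) (XT.lf (nat_lit 0) (nat_lit 48668473072) (nat_lit 76) (nat_lit 13734308999) (nat_lit 76) (nat_lit 4125510572) (nat_lit 4) (nat_lit 4) (nat_lit 5) (nat_lit 5) (nat_lit 5) (nat_lit 4) (nat_lit 388) (nat_lit 218) (nat_lit 174)) (XT.nd (nat_lit 78) (nat_lit 0) (nat_lit 0) (XT.lf (nat_lit 0) (nat_lit 53583788388) (nat_lit 76) (nat_lit 12295784127) (nat_lit 76) (nat_lit 2582223239) (nat_lit 4) (nat_lit 4) (nat_lit 5) (nat_lit 5) (nat_lit 5) (nat_lit 4) (nat_lit 389) (nat_lit 218) (nat_lit 173)) (XT.lf (nat_lit 0) (nat_lit 58611409909) (nat_lit 76) (nat_lit 10828900180) (nat_lit 76) (nat_lit 1013628164) (nat_lit 4) (nat_lit 4) (nat_lit 5) (nat_lit 5) (nat_lit 5) (nat_lit 4) (nat_lit 390) (nat_lit 218) (nat_lit 172))))))))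
noncomputable def xc20 : XT := (XT.nd (nat_lit 37596) (nat_lit 0) (nat_lit 228) (XT.nd (nat_lit 858) (nat_lit 0) (nat_lit 0) (XT.nd (nat_lit 390) (nat_lit 0) (nat_lit 0) (XT.nd (nat_lit 156) (nat_lit 76) (nat_lit 0) (XT.nd (nat_lit 78) (nat_lit 0) (nat_lit 0) (XT.lf (nat_lit 0) (nat_lit 570295274) (nat_lit 152) (nat_lit 8756321276) (nat_lit 76) (nat_lit 63179676565) (nat_lit 3) (nat_lit 5) (nat_lit 5) (nat_lit 5) (nat_lit 4) (nat_lit 4) (nat_lit 391) (nat_lit 218) (nat_lit 171)) (XT.lf (nat_lit 0) (nat_lit 2161963672) (nat_lit 152) (nat_lit 5621106920) (nat_lit 76) (nat_lit 66837450540) (nat_lit 3) (nat_lit 5) (nat_lit 5) (nat_lit 5) (nat_lit 4) (nat_lit 4) (nat_lit 392) (nat_lit 218) (nat_lit 170))) (XT.nd (nat_lit 78) (nat_lit 76) (nat_lit 0) (XT.lf (nat_lit 0) (nat_lit 3782547344) (nat_lit 152) (nat_lit 2424402156) (nat_lit 76) (nat_lit 70591812500) (nat_lit 3) (nat_lit 5) (nat_lit 5) (nat_lit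 5) (nat_lit 4) (nat_lit 4) (nat_lit 393) (nat_lit 218) (nat_lit 169)) (XT.nd (nat_lit 78) (nat_lit 0) (nat_lit 0) (XT.lf (nat_lit 0) (nat_lit 853235960) (nat_lit 76) (nat_lit 4588428199) (nat_lit 152) (nat_lit 73601008820) (nat_lit 2) (nat_lit 5) (nat_lit 3) (nat_lit 5) (nat_lit 4) (nat_lit 4) (nat_lit 394) (nat_lit 218) (nat_lit 168)) (XT.lf (nat_lit 0) (nat_lit 4247593566) (nat_lit 76) (nat_lit 2909388090) (nat_lit 152) (nat_lit 74196746579) (nat_lit 2) (nat_lit 5) (nat_lit 3) (nat_lit 5) (nat_lit 4) (nat_lit 4) (nat_lit 395) (nat_lit 218) (nat_lit 167))))) (XT.nd (nat_lit 234) (nat_lit 0) (nat_lit 0) (XT.nd (nat_lit 78) (nat_lit 0) (nat_lit 0) (XT.lf (nat_lit 0) (nat_lit 7713386247) (nat_lit 76) (nat_lit 1192843758) (nat_lit 152) (nat_lit 74828430190) (nat_lit 2) (nat_lit 5) (nat_lit 3) (nat_lit 5) (nat_lit 4) (nat_lit 4) (nat_lit 396) (nat_lit 218) (nat_lit 166)) (XT.nd (nat_lit 78) (nat_lit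 0) (nat_lit 0) (XT.lf (nat_lit 0) (nat_lit 10696346740) (nat_lit 152) (nat_lit 74939315980) (nat_lit 0) (nat_lit 551724294) (nat_lit 2) (nat_lit 5) (nat_lit 4) (nat_lit 4) (nat_lit 2) (nat_lit 4) (nat_lit 397) (nat_lit 218) (nat_lit 165)) (XT.lf (nat_lit 0) (nat_lit 12535338270) (nat_lit 152) (nat_lit 73865757598) (nat_lit 0) (nat_lit 2312762714) (nat_lit 2) (nat_lit 5) (nat_lit 4) (nat_lit 4) (nat_lit 2) (nat_lit 4) (nat_lit 398) (nat_lit 218) (nat_lit 164)))) (XT.nd (nat_lit 78) (nat_lit 0) (nat_lit 0) (XT.lf (nat_lit 0) (nat_lit 14413345139) (nat_lit 152) (nat_lit 72788194398) (nat_lit 0) (nat_lit 4115086952) (nat_lit 2) (nat_lit 5) (nat_lit 4) (nat_lit 4) (nat_lit 2) (nat_lit 4) (nat_lit 399) (nat_lit 218) (nat_lit 163)) (XT.nd (nat_lit 78) (nat_lit 0) (nat_lit 0) (XT.lf (nat_lit 0) (nat_lit 16332008324) (nat_lit 152) (nat_lit 71705684819) (nat_lit 0) (nat_lit 5960271855) (nat_lit 2) (nat_lit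 5) (nat_lit 4) (nat_lit 4) (nat_lit 2) (nat_lit 4) (nat_lit 400) (nat_lit 218) (nat_lit 162)) (XT.lf (nat_lit 0) (nat_lit 18293004326) (nat_lit 152) (nat_lit 70617282980) (nat_lit 0) (nat_lit 7849929718) (nat_lit 2) (nat_lit 5) (nat_lit 4) (nat_lit 4) (nat_lit 2) (nat_lit 4) (nat_lit 401) (nat_lit 218) (nat_lit 161)))))) (XT.nd (nat_lit 36270) (nat_lit 0) (nat_lit 608) (XT.nd (nat_lit 36036) (nat_lit 0) (nat_lit 760) (XT.nd (nat_lit 35958) (nat_lit 0) (nat_lit 912) (XT.lf (nat_lit 0) (nat_lit 20298046637) (nat_lit 152) (nat_lit 69522037849) (nat_lit 0) (nat_lit 9785711700) (nat_lit 2) (nat_lit 5) (nat_lit 4) (nat_lit 4) (nat_lit 2) (nat_lit 4) (nat_lit 402) (nat_lit 218) (nat_lit 160)) (XT.lf (nat_lit 0) (nat_lit 2254444069) (nat_lit 152) (nat_lit 3688453717) (nat_lit 152) (nat_lit 3688453717) (nat_lit 14) (nat_lit 4) (nat_lit 16) (nat_lit 5) (nat_lit 16) (nat_lit 4) (nat_lit 342) (nat_lit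 219) (nat_lit 219))) (XT.nd (nat_lit 78) (nat_lit 152) (nat_lit 0) (XT.lf (nat_lit 0) (nat_lit 10275356703) (nat_lit 152) (nat_lit 4945181998) (nat_lit 152) (nat_lit 4512277121) (nat_lit 14) (nat_lit 4) (nat_lit 16) (nat_lit 5) (nat_lit 16) (nat_lit 4) (nat_lit 343) (nat_lit 219) (nat_lit 218)) (XT.nd (nat_lit 78) (nat_lit 152) (nat_lit 0) (XT.lf (nat_lit 0) (nat_lit 16106011598) (nat_lit 152) (nat_lit 2483151816) (nat_lit 152) (nat_lit 1629950941) (nat_lit 14) (nat_lit 4) (nat_lit 16) (nat_lit 5) (nat_lit 16) (nat_lit 4) (nat_lit 344) (nat_lit 219) (nat_lit 217)) (XT.lf (nat_lit 0) (nat_lit 1260577907) (nat_lit 152) (nat_lit 19424635741) (nat_lit 0) (nat_lit 36058255) (nat_lit 12) (nat_lit 5) (nat_lit 14) (nat_lit 4) (nat_lit 12) (nat_lit 4) (nat_lit 345) (nat_lit 219) (nat_lit 216))))) (XT.nd (nat_lit 234) (nat_lit 152) (nat_lit 0) (XT.nd (nat_lit 78) (nat_lit 0) (nat_lit 0) (XT.lf (nat_lit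 0) (nat_lit 4207101686) (nat_lit 152) (nat_lit 14432984741) (nat_lit 0) (nat_lit 2597951658) (nat_lit 12) (nat_lit 5) (nat_lit 14) (nat_lit 4) (nat_lit 12) (nat_lit 4) (nat_lit 346) (nat_lit 219) (nat_lit 215)) (XT.nd (nat_lit 78) (nat_lit 0) (nat_lit 0) (XT.lf (nat_lit 0) (nat_lit 7179407877) (nat_lit 152) (nat_lit 9396034110) (nat_lit 0) (nat_lit 5196830298) (nat_lit 12) (nat_lit 5) (nat_lit 14) (nat_lit 4) (nat_lit 12) (nat_lit 4) (nat_lit 347) (nat_lit 219) (nat_lit 214)) (XT.lf (nat_lit 0) (nat_lit 10180093641) (nat_lit 152) (nat_lit 4309382629) (nat_lit 0) (nat_lit 7834965042) (nat_lit 12) (nat_lit 5) (nat_lit 14) (nat_lit 4) (nat_lit 12) (nat_lit 4) (nat_lit 348) (nat_lit 219) (nat_lit 213)))) (XT.nd (nat_lit 78) (nat_lit 0) (nat_lit 0) (XT.lf (nat_lit 0) (nat_lit 847961122) (nat_lit 152) (nat_lit 12371970934) (nat_lit 152) (nat_lit 9674851054) (nat_lit 10) (nat_lit 4) (nat_lit 12) (nat_lit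 5) (nat_lit 12) (nat_lit 4) (nat_lit 349) (nat_lit 219) (nat_lit 212)) (XT.nd (nat_lit 78) (nat_lit 0) (nat_lit 0) (XT.lf (nat_lit 0) (nat_lit 6150874494) (nat_lit 152) (nat_lit 10185370282) (nat_lit 152) (nat_lit 7146511295) (nat_lit 10) (nat_lit 4) (nat_lit 12) (nat_lit 5) (nat_lit 12) (nat_lit 4) (nat_lit 350) (nat_lit 219) (nat_lit 211)) (XT.lf (nat_lit 0) (nat_lit 11518225935) (nat_lit 152) (nat_lit 7971280008) (nat_lit 152) (nat_lit 4600635479) (nat_lit 10) (nat_lit 4) (nat_lit 12) (nat_lit 5) (nat_lit 12) (nat_lit 4) (nat_lit 351) (nat_lit 219) (nat_lit 210))))))) (XT.nd (nat_lit 858) (nat_lit 152) (nat_lit 0) (XT.nd (nat_lit 390) (nat_lit 76) (nat_lit 0) (XT.nd (nat_lit 156) (nat_lit 76) (nat_lit 0) (XT.nd (nat_lit 78) (nat_lit 76) (nat_lit 0) (XT.lf (nat_lit 0) (nat_lit 16954705363) (nat_lit 152) (nat_lit 5727765470) (nat_lit 152) (nat_lit 2034999056) (nat_lit 10) (nat_lit 4) (nat_lit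 12) (nat_lit 5) (nat_lit 12) (nat_lit 4) (nat_lit 352) (nat_lit 219) (nat_lit 209)) (XT.lf (nat_lit 0) (nat_lit 541855799) (nat_lit 228) (nat_lit 2905538836) (nat_lit 76) (nat_lit 21917735621) (nat_lit 9) (nat_lit 5) (nat_lit 12) (nat_lit 5) (nat_lit 10) (nat_lit 4) (nat_lit 353) (nat_lit 219) (nat_lit 208))) (XT.nd (nat_lit 78) (nat_lit 0) (nat_lit 0) (XT.lf (nat_lit 0) (nat_lit 2029123330) (nat_lit 76) (nat_lit 1093172339) (nat_lit 152) (nat_lit 22910373273) (nat_lit 8) (nat_lit 5) (nat_lit 9) (nat_lit 5) (nat_lit 10) (nat_lit 4) (nat_lit 354) (nat_lit 219) (nat_lit 207)) (XT.nd (nat_lit 78) (nat_lit 0) (nat_lit 0) (XT.lf (nat_lit 0) (nat_lit 5770606349) (nat_lit 152) (nat_lit 19649202923) (nat_lit 0) (nat_lit 1300777188) (nat_lit 8) (nat_lit 5) (nat_lit 10) (nat_lit 4) (nat_lit 8) (nat_lit 4) (nat_lit 355) (nat_lit 219) (nat_lit 206)) (XT.lf (nat_lit 0) (nat_lit 8458729623) (nat_lit 152)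 (nat_lit 15260630152) (nat_lit 0) (nat_lit 3711035295) (nat_lit 8) (nat_lit 5) (nat_lit 10) (nat_lit 4) (nat_lit 8) (nat_lit 4) (nat_lit 356) (nat_lit 219) (nat_lit 205))))) (XT.nd (nat_lit 234) (nat_lit 76) (nat_lit 0) (XT.nd (nat_lit 78) (nat_lit 0) (nat_lit 0) (XT.lf (nat_lit 0) (nat_lit 11178506096) (nat_lit 152) (nat_lit 10823484383) (nat_lit 0) (nat_lit 6161039760) (nat_lit 8) (nat_lit 5) (nat_lit 10) (nat_lit 4) (nat_lit 8) (nat_lit 4) (nat_lit 357) (nat_lit 219) (nat_lit 204)) (XT.nd (nat_lit 78) (nat_lit 0) (nat_lit 0) (XT.lf (nat_lit 0) (nat_lit 13932312273) (nat_lit 152) (nat_lit 6333888498) (nat_lit 0) (nat_lit 8652931366) (nat_lit 8) (nat_lit 5) (nat_lit 10) (nat_lit 4) (nat_lit 8) (nat_lit 4) (nat_lit 358) (nat_lit 219) (nat_lit 203)) (XT.lf (nat_lit 0) (nat_lit 16722554390) (nat_lit 152) (nat_lit 1787919550) (nat_lit 0) (nat_lit 11188887493) (nat_lit 8) (nat_lit 5) (nat_lit 10)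 (nat_lit 4) (nat_lit 8) (nat_lit 4) (nat_lit 359) (nat_lit 219) (nat_lit 202)))) (XT.nd (nat_lit 78) (nat_lit 0) (nat_lit 0) (XT.lf (nat_lit 0) (nat_lit 2874486248) (nat_lit 76) (nat_lit 16704815597) (nat_lit 76) (nat_lit 10924269097) (nat_lit 7) (nat_lit 4) (nat_lit 8) (nat_lit 5) (nat_lit 8) (nat_lit 4) (nat_lit 360) (nat_lit 219) (nat_lit 201)) (XT.nd (nat_lit 78) (nat_lit 0) (nat_lit 0) (XT.lf (nat_lit 0) (nat_lit 7638126448) (nat_lit 76) (nat_lit 14857428614) (nat_lit 76) (nat_lit 8837193180) (nat_lit 7) (nat_lit 4) (nat_lit 8) (nat_lit 5) (nat_lit 8) (nat_lit 4) (nat_lit 361) (nat_lit 219) (nat_lit 200)) (XT.lf (nat_lit 0) (nat_lit 12471580350) (nat_lit 76) (nat_lit 12984753254) (nat_lit 76) (nat_lit 6731810116) (nat_lit 7) (nat_lit 4) (nat_lit 8) (nat_lit 5) (nat_lit 8) (nat_lit 4) (nat_lit 362) (nat_lit 219) (nat_lit 199)))))) (XT.nd (nat_lit 390) (nat_lit 0) (nat_lit 0) (XT.nd (nat_lit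 156) (nat_lit 152) (nat_lit 0) (XT.nd (nat_lit 78) (nat_lit 0) (nat_lit 0) (XT.lf (nat_lit 0) (nat_lit 17379071361) (nat_lit 76) (nat_lit 11085153196) (nat_lit 76) (nat_lit 4606280249) (nat_lit 7) (nat_lit 4) (nat_lit 8) (nat_lit 5) (nat_lit 8) (nat_lit 4) (nat_lit 363) (nat_lit 219) (nat_lit 198)) (XT.lf (nat_lit 0) (nat_lit 22364887578) (nat_lit 76) (nat_lit 9156968596) (nat_lit 76) (nat_lit 2458746320) (nat_lit 7) (nat_lit 4) (nat_lit 8) (nat_lit 5) (nat_lit 8) (nat_lit 4) (nat_lit 364) (nat_lit 219) (nat_lit 197))) (XT.nd (nat_lit 78) (nat_lit 152) (nat_lit 0) (XT.lf (nat_lit 0) (nat_lit 27433385540) (nat_lit 76) (nat_lit 7198514634) (nat_lit 76) (nat_lit 287331844) (nat_lit 7) (nat_lit 4) (nat_lit 8) (nat_lit 5) (nat_lit 8) (nat_lit 4) (nat_lit 365) (nat_lit 219) (nat_lit 196)) (XT.nd (nat_lit 78) (nat_lit 76) (nat_lit 0) (XT.lf (nat_lit 0) (nat_lit 1872592274) (nat_lit 152) (nat_lit 3316578253)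 (nat_lit 76) (nat_lit 30697492248) (nat_lit 6) (nat_lit 5) (nat_lit 8) (nat_lit 5) (nat_lit 7) (nat_lit 4) (nat_lit 366) (nat_lit 219) (nat_lit 195)) (XT.lf (nat_lit 0) (nat_lit 929211605) (nat_lit 76) (nat_lit 3133787352) (nat_lit 152) (nat_lit 32820933568) (nat_lit 5) (nat_lit 5) (nat_lit 6) (nat_lit 5) (nat_lit 7) (nat_lit 4) (nat_lit 367) (nat_lit 219) (nat_lit 194))))) (XT.nd (nat_lit 234) (nat_lit 0) (nat_lit 0) (XT.nd (nat_lit 78) (nat_lit 0) (nat_lit 0) (XT.lf (nat_lit 0) (nat_lit 5307143872) (nat_lit 76) (nat_lit 1008476418) (nat_lit 152) (nat_lit 31595648901) (nat_lit 5) (nat_lit 5) (nat_lit 6) (nat_lit 5) (nat_lit 7) (nat_lit 4) (nat_lit 368) (nat_lit 219) (nat_lit 193)) (XT.nd (nat_lit 78) (nat_lit 0) (nat_lit 0) (XT.lf (nat_lit 0) (nat_lit 8611012909) (nat_lit 152) (nat_lit 29226612197) (nat_lit 0) (nat_lit 1132587690) (nat_lit 5) (nat_lit 5) (nat_lit 7) (nat_lit 4) (nat_lit 5)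 (nat_lit 4) (nat_lit 369) (nat_lit 219) (nat_lit 192)) (XT.lf (nat_lit 0) (nat_lit 10950149365) (nat_lit 152) (nat_lit 25818197194) (nat_lit 0) (nat_lit 3293373068) (nat_lit 5) (nat_lit 5) (nat_lit 7) (nat_lit 4) (nat_lit 5) (nat_lit 4) (nat_lit 370) (nat_lit 219) (nat_lit 191)))) (XT.nd (nat_lit 78) (nat_lit 0) (nat_lit 0) (XT.lf (nat_lit 0) (nat_lit 13325379470) (nat_lit 152) (nat_lit 22366207990) (nat_lit 0) (nat_lit 5495446787) (nat_lit 5) (nat_lit 5) (nat_lit 7) (nat_lit 4) (nat_lit 5) (nat_lit 4) (nat_lit 371) (nat_lit 219) (nat_lit 190)) (XT.nd (nat_lit 78) (nat_lit 0) (nat_lit 0) (XT.lf (nat_lit 0) (nat_lit 15738778668) (nat_lit 152) (nat_lit 18867628286) (nat_lit 0) (nat_lit 7740732988) (nat_lit 5) (nat_lit 5) (nat_lit 7) (nat_lit 4) (nat_lit 5) (nat_lit 4) (nat_lit 372) (nat_lit 219) (nat_lit 189)) (XT.lf (nat_lit 0) (nat_lit 18192455754) (nat_lit 152) (nat_lit 15319401069) (nat_lit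 0) (nat_lit 10031193574) (nat_lit 5) (nat_lit 5) (nat_lit 7) (nat_lit 4) (nat_lit 5) (nat_lit 4) (nat_lit 373) (nat_lit 219) (nat_lit 188))))))))
noncomputable def xc21 : XT := (XT.nd (nat_lit 1716) (nat_lit 0) (nat_lit 0) (XT.nd (nat_lit 858) (nat_lit 152) (nat_lit 0) (XT.nd (nat_lit 390) (nat_lit 0) (nat_lit 0) (XT.nd (nat_lit 156) (nat_lit 76) (nat_lit 0) (XT.nd (nat_lit 78) (nat_lit 0) (nat_lit 0) (XT.lf (nat_lit 0) (nat_lit 20688554719) (nat_lit 152) (nat_lit 11718425947) (nat_lit 0) (nat_lit 12368829916) (nat_lit 5) (nat_lit 5) (nat_lit 7) (nat_lit 4) (nat_lit 5) (nat_lit 4) (nat_lit 374) (nat_lit 219) (nat_lit 187)) (XT.lf (nat_lit 0) (nat_lit 23229256619) (nat_lit 152) (nat_lit 8061556437) (nat_lit 0) (nat_lit 14755684610) (nat_lit 5) (nat_lit 5) (nat_lit 7) (nat_lit 4) (nat_lit 5) (nat_lit 4) (nat_lit 375) (nat_lit 219) (nat_lit 186))) (XT.nd (nat_lit 78) (nat_lit 76) (nat_lit 0) (XT.lf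 (nat_lit 0) (nat_lit 25816781486) (nat_lit 152) (nat_lit 4345597216) (nat_lit 0) (nat_lit 17193843257) (nat_lit 5) (nat_lit 5) (nat_lit 7) (nat_lit 4) (nat_lit 5) (nat_lit 4) (nat_lit 376) (nat_lit 219) (nat_lit 185)) (XT.nd (nat_lit 78) (nat_lit 76) (nat_lit 0) (XT.lf (nat_lit 0) (nat_lit 28453390263) (nat_lit 152) (nat_lit 567301329) (nat_lit 0) (nat_lit 19685436287) (nat_lit 5) (nat_lit 5) (nat_lit 7) (nat_lit 4) (nat_lit 5) (nat_lit 4) (nat_lit 377) (nat_lit 219) (nat_lit 184)) (XT.lf (nat_lit 0) (nat_lit 3341844061) (nat_lit 76) (nat_lit 27831666571) (nat_lit 76) (nat_lit 18922920608) (nat_lit 4) (nat_lit 4) (nat_lit 5) (nat_lit 5) (nat_lit 5) (nat_lit 4) (nat_lit 378) (nat_lit 219) (nat_lit 183))))) (XT.nd (nat_lit 234) (nat_lit 0) (nat_lit 0) (XT.nd (nat_lit 78) (nat_lit 0) (nat_lit 0) (XT.lf (nat_lit 0) (nat_lit 7332649900) (nat_lit 76) (nat_lit 26620955798) (nat_lit 76) (nat_lit 17575518584)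 (nat_lit 4) (nat_lit 4) (nat_lit 5) (nat_lit 5) (nat_lit 5) (nat_lit 4) (nat_lit 379) (nat_lit 219) (nat_lit 182)) (XT.nd (nat_lit 78) (nat_lit 0) (nat_lit 0) (XT.lf (nat_lit 0) (nat_lit 11397312891) (nat_lit 76) (nat_lit 25393230000) (nat_lit 76) (nat_lit 16215082835) (nat_lit 4) (nat_lit 4) (nat_lit 5) (nat_lit 5) (nat_lit 5) (nat_lit 4) (nat_lit 380) (nat_lit 219) (nat_lit 181)) (XT.lf (nat_lit 0) (nat_lit 15539384681) (nat_lit 76) (nat_lit 24147416408) (nat_lit 76) (nat_lit 14840424630) (nat_lit 4) (nat_lit 4) (nat_lit 5) (nat_lit 5) (nat_lit 5) (nat_lit 4) (nat_lit 381) (nat_lit 219) (nat_lit 180)))) (XT.nd (nat_lit 78) (nat_lit 0) (nat_lit 0) (XT.lf (nat_lit 0) (nat_lit 19762484555) (nat_lit 76) (nat_lit 22882426447) (nat_lit 76) (nat_lit 13450342811) (nat_lit 4) (nat_lit 4) (nat_lit 5) (nat_lit 5) (nat_lit 5) (nat_lit 4) (nat_lit 382) (nat_lit 219) (nat_lit 179)) (XT.nd (nat_lit 78)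 (nat_lit 0) (nat_lit 0) (XT.lf (nat_lit 0) (nat_lit 24070302601) (nat_lit 76) (nat_lit 21597154785) (nat_lit 76) (nat_lit 12043622744) (nat_lit 4) (nat_lit 4) (nat_lit 5) (nat_lit 5) (nat_lit 5) (nat_lit 4) (nat_lit 383) (nat_lit 219) (nat_lit 178)) (XT.lf (nat_lit 0) (nat_lit 28466602933) (nat_lit 76) (nat_lit 20290478370) (nat_lit 76) (nat_lit 10619035256) (nat_lit 4) (nat_lit 4) (nat_lit 5) (nat_lit 5) (nat_lit 5) (nat_lit 4) (nat_lit 384) (nat_lit 219) (nat_lit 177)))))) (XT.nd (nat_lit 390) (nat_lit 152) (nat_lit 0) (XT.nd (nat_lit 156) (nat_lit 0) (nat_lit 0) (XT.nd (nat_lit 78) (nat_lit 0) (nat_lit 0) (XT.lf (nat_lit 0) (nat_lit 32955226976) (nat_lit 76) (nat_lit 18961255446) (nat_lit 76) (nat_lit 9175335562) (nat_lit 4) (nat_lit 4) (nat_lit 5) (nat_lit 5) (nat_lit 5) (nat_lit 4) (nat_lit 385) (nat_lit 219) (nat_lit 176)) (XT.lf (nat_lit 0) (nat_lit 37540096831) (nat_lit 76) (nat_lit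 17608324556) (nat_lit 76) (nat_lit 7711262177) (nat_lit 4) (nat_lit 4) (nat_lit 5) (nat_lit 5) (nat_lit 5) (nat_lit 4) (nat_lit 386) (nat_lit 219) (nat_lit 175))) (XT.nd (nat_lit 78) (nat_lit 0) (nat_lit 0) (XT.lf (nat_lit 0) (nat_lit 42225218694) (nat_lit 76) (nat_lit 16230503527) (nat_lit 76) (nat_lit 6225535812) (nat_lit 4) (nat_lit 4) (nat_lit 5) (nat_lit 5) (nat_lit 5) (nat_lit 4) (nat_lit 387) (nat_lit 219) (nat_lit 174)) (XT.nd (nat_lit 78) (nat_lit 0) (nat_lit 0) (XT.lf (nat_lit 0) (nat_lit 47014686360) (nat_lit 76) (nat_lit 14826588438) (nat_lit 76) (nat_lit 4716858262) (nat_lit 4) (nat_lit 4) (nat_lit 5) (nat_lit 5) (nat_lit 5) (nat_lit 4) (nat_lit 388) (nat_lit 219) (nat_lit 173)) (XT.lf (nat_lit 0) (nat_lit 51912684803) (nat_lit 76) (nat_lit 13395352567) (nat_lit 76) (nat_lit 3183911263) (nat_lit 4) (nat_lit 4) (nat_lit 5) (nat_lit 5) (nat_lit 5) (nat_lit 4) (nat_lit 389) (nat_lit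 219) (nat_lit 172))))) (XT.nd (nat_lit 234) (nat_lit 76) (nat_lit 0) (XT.nd (nat_lit 78) (nat_lit 76) (nat_lit 0) (XT.lf (nat_lit 0) (nat_lit 56923493825) (nat_lit 76) (nat_lit 11935545319) (nat_lit 76) (nat_lit 1625355348) (nat_lit 4) (nat_lit 4) (nat_lit 5) (nat_lit 5) (nat_lit 5) (nat_lit 4) (nat_lit 390) (nat_lit 219) (nat_lit 171)) (XT.nd (nat_lit 78) (nat_lit 76) (nat_lit 0) (XT.lf (nat_lit 0) (nat_lit 62051491804) (nat_lit 76) (nat_lit 10445891135) (nat_lit 76) (nat_lit 39828671) (nat_lit 4) (nat_lit 4) (nat_lit 5) (nat_lit 5) (nat_lit 5) (nat_lit 4) (nat_lit 391) (nat_lit 219) (nat_lit 170)) (XT.lf (nat_lit 0) (nat_lit 1543338711) (nat_lit 152) (nat_lit 7366164969) (nat_lit 76) (nat_lit 65742236108) (nat_lit 3) (nat_lit 5) (nat_lit 5) (nat_lit 5) (nat_lit 4) (nat_lit 4) (nat_lit 392) (nat_lit 219) (nat_lit 169)))) (XT.nd (nat_lit 78) (nat_lit 76) (nat_lit 0) (XT.lf (nat_lit 0) (nat_lit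 3154914406) (nat_lit 152) (nat_lit 4185035326) (nat_lit 76) (nat_lit 69490311189) (nat_lit 3) (nat_lit 5) (nat_lit 5) (nat_lit 5) (nat_lit 4) (nat_lit 4) (nat_lit 393) (nat_lit 219) (nat_lit 168)) (XT.nd (nat_lit 78) (nat_lit 76) (nat_lit 0) (XT.lf (nat_lit 0) (nat_lit 4797083788) (nat_lit 152) (nat_lit 939168394) (nat_lit 76) (nat_lit 73338437878) (nat_lit 3) (nat_lit 5) (nat_lit 5) (nat_lit 5) (nat_lit 4) (nat_lit 4) (nat_lit 394) (nat_lit 219) (nat_lit 167)) (XT.lf (nat_lit 0) (nat_lit 2421524691) (nat_lit 76) (nat_lit 4073034246) (nat_lit 152) (nat_lit 74891731100) (nat_lit 2) (nat_lit 5) (nat_lit 3) (nat_lit 5) (nat_lit 4) (nat_lit 4) (nat_lit 395) (nat_lit 219) (nat_lit 166))))))) (XT.nd (nat_lit 36582) (nat_lit 0) (nat_lit 456) (XT.nd (nat_lit 390) (nat_lit 0) (nat_lit 0) (XT.nd (nat_lit 156) (nat_lit 0) (nat_lit 0) (XT.nd (nat_lit 78) (nat_lit 0) (nat_lit 0) (XT.lf (nat_lit 0) (nat_lit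 5872780258) (nat_lit 76) (nat_lit 2362643714) (nat_lit 152) (nat_lit 75532058701) (nat_lit 2) (nat_lit 5) (nat_lit 3) (nat_lit 5) (nat_lit 4) (nat_lit 4) (nat_lit 396) (nat_lit 219) (nat_lit 165)) (XT.lf (nat_lit 0) (nat_lit 9398922675) (nat_lit 76) (nat_lit 613069830) (nat_lit 152) (nat_lit 76208632342) (nat_lit 2) (nat_lit 5) (nat_lit 3) (nat_lit 5) (nat_lit 4) (nat_lit 4) (nat_lit 397) (nat_lit 219) (nat_lit 164))) (XT.nd (nat_lit 78) (nat_lit 0) (nat_lit 0) (XT.lf (nat_lit 0) (nat_lit 11837132997) (nat_lit 152) (nat_lit 75756143166) (nat_lit 0) (nat_lit 1154244433) (nat_lit 2) (nat_lit 5) (nat_lit 4) (nat_lit 4) (nat_lit 2) (nat_lit 4) (nat_lit 398) (nat_lit 219) (nat_lit 163)) (XT.nd (nat_lit 78) (nat_lit 0) (nat_lit 0) (XT.lf (nat_lit 0) (nat_lit 13707413812) (nat_lit 152) (nat_lit 74692067905) (nat_lit 0) (nat_lit 2951046966) (nat_lit 2) (nat_lit 5) (nat_lit 4) (nat_lit 4) (nat_lit 2)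 (nat_lit 4) (nat_lit 399) (nat_lit 219) (nat_lit 162)) (XT.lf (nat_lit 0) (nat_lit 15618575972) (nat_lit 152) (nat_lit 73622653413) (nat_lit 0) (nat_lit 4790870988) (nat_lit 2) (nat_lit 5) (nat_lit 4) (nat_lit 4) (nat_lit 2) (nat_lit 4) (nat_lit 400) (nat_lit 219) (nat_lit 161))))) (XT.nd (nat_lit 35958) (nat_lit 0) (nat_lit 912) (XT.nd (nat_lit 78) (nat_lit 0) (nat_lit 0) (XT.lf (nat_lit 0) (nat_lit 17572289427) (nat_lit 152) (nat_lit 72546965251) (nat_lit 0) (nat_lit 6675324114) (nat_lit 2) (nat_lit 5) (nat_lit 4) (nat_lit 4) (nat_lit 2) (nat_lit 4) (nat_lit 401) (nat_lit 219) (nat_lit 160)) (XT.nd (nat_lit 35802) (nat_lit 0) (nat_lit 1064) (XT.lf (nat_lit 0) (nat_lit 19570261303) (nat_lit 152) (nat_lit 71464063495) (nat_lit 0) (nat_lit 8606052953) (nat_lit 2) (nat_lit 5) (nat_lit 4) (nat_lit 4) (nat_lit 2) (nat_lit 4) (nat_lit 402) (nat_lit 219) (nat_lit 159)) (XT.lf (nat_lit 0) (nat_lit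 2926054561) (nat_lit 152) (nat_lit 3331069619) (nat_lit 0) (nat_lit 2926054561) (nat_lit 16) (nat_lit 5) (nat_lit 18) (nat_lit 4) (nat_lit 16) (nat_lit 4) (nat_lit 340) (nat_lit 220) (nat_lit 220)))) (XT.nd (nat_lit 78) (nat_lit 152) (nat_lit 0) (XT.lf (nat_lit 0) (nat_lit 9039432263) (nat_lit 152) (nat_lit 1175047019) (nat_lit 0) (nat_lit 8593540239) (nat_lit 16) (nat_lit 5) (nat_lit 18) (nat_lit 4) (nat_lit 16) (nat_lit 4) (nat_lit 341) (nat_lit 220) (nat_lit 219)) (XT.nd (nat_lit 78) (nat_lit 0) (nat_lit 0) (XT.lf (nat_lit 0) (nat_lit 4453680276) (nat_lit 152) (nat_lit 7844438091) (nat_lit 152) (nat_lit 6965641190) (nat_lit 14) (nat_lit 4) (nat_lit 16) (nat_lit 5) (nat_lit 16) (nat_lit 4) (nat_lit 342) (nat_lit 220) (nat_lit 218)) (XT.lf (nat_lit 0) (nat_lit 10166548976) (nat_lit 152) (nat_lit 5433721038) (nat_lit 152) (nat_lit 4134628139) (nat_lit 14) (nat_lit 4) (nat_lit 16) (nat_lit 5)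 (nat_lit 16) (nat_lit 4) (nat_lit 343) (nat_lit 220) (nat_lit 217)))))) (XT.nd (nat_lit 390) (nat_lit 304) (nat_lit 0) (XT.nd (nat_lit 156) (nat_lit 0) (nat_lit 0) (XT.nd (nat_lit 78) (nat_lit 152) (nat_lit 0) (XT.lf (nat_lit 0) (nat_lit 15945165165) (nat_lit 152) (nat_lit 2992087343) (nat_lit 152) (nat_lit 1284940078) (nat_lit 14) (nat_lit 4) (nat_lit 16) (nat_lit 5) (nat_lit 16) (nat_lit 4) (nat_lit 344) (nat_lit 220) (nat_lit 216)) (XT.lf (nat_lit 0) (nat_lit 1074226737) (nat_lit 76) (nat_lit 491065523) (nat_lit 152) (nat_lit 19160009261) (nat_lit 12) (nat_lit 5) (nat_lit 13) (nat_lit 5) (nat_lit 14) (nat_lit 4) (nat_lit 345) (nat_lit 220) (nat_lit 215))) (XT.nd (nat_lit 78) (nat_lit 0) (nat_lit 0) (XT.lf (nat_lit 0) (nat_lit 4476251627) (nat_lit 152) (nat_lit 14706156515) (nat_lit 0) (nat_lit 2060769171) (nat_lit 12) (nat_lit 5) (nat_lit 14) (nat_lit 4) (nat_lit 12) (nat_lit 4) (nat_lit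 346) (nat_lit 220) (nat_lit 214)) (XT.nd (nat_lit 78) (nat_lit 0) (nat_lit 0) (XT.lf (nat_lit 0) (nat_lit 7418612196) (nat_lit 152) (nat_lit 9719160401) (nat_lit 0) (nat_lit 4640578720) (nat_lit 12) (nat_lit 5) (nat_lit 14) (nat_lit 4) (nat_lit 12) (nat_lit 4) (nat_lit 347) (nat_lit 220) (nat_lit 213)) (XT.lf (nat_lit 0) (nat_lit 10390224540) (nat_lit 152) (nat_lit 4681008452) (nat_lit 0) (nat_lit 7260199783) (nat_lit 12) (nat_lit 5) (nat_lit 14) (nat_lit 4) (nat_lit 12) (nat_lit 4) (nat_lit 348) (nat_lit 220) (nat_lit 212))))) (XT.nd (nat_lit 234) (nat_lit 152) (nat_lit 0) (XT.nd (nat_lit 78) (nat_lit 0) (nat_lit 0) (XT.lf (nat_lit 0) (nat_lit 420915172) (nat_lit 152) (nat_lit 12976816135) (nat_lit 152) (nat_lit 9505052270) (nat_lit 10) (nat_lit 4) (nat_lit 12) (nat_lit 5) (nat_lit 12) (nat_lit 4) (nat_lit 349) (nat_lit 220) (nat_lit 211)) (XT.nd (nat_lit 78) (nat_lit 0) (nat_lit 0) (XT.lf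 (nat_lit 0) (nat_lit 5677203257) (nat_lit 152) (nat_lit 10808988093) (nat_lit 152) (nat_lit 7005438686) (nat_lit 10) (nat_lit 4) (nat_lit 12) (nat_lit 5) (nat_lit 12) (nat_lit 4) (nat_lit 350) (nat_lit 220) (nat_lit 210)) (XT.lf (nat_lit 0) (nat_lit 10999287429) (nat_lit 152) (nat_lit 8613123654) (nat_lit 152) (nat_lit 4487452362) (nat_lit 10) (nat_lit 4) (nat_lit 12) (nat_lit 5) (nat_lit 12) (nat_lit 4) (nat_lit 351) (nat_lit 220) (nat_lit 209)))) (XT.nd (nat_lit 78) (nat_lit 152) (nat_lit 0) (XT.lf (nat_lit 0) (nat_lit 16391818053) (nat_lit 152) (nat_lit 6387304101) (nat_lit 152) (nat_lit 1948893115) (nat_lit 10) (nat_lit 4) (nat_lit 12) (nat_lit 5) (nat_lit 12) (nat_lit 4) (nat_lit 352) (nat_lit 220) (nat_lit 208)) (XT.nd (nat_lit 78) (nat_lit 76) (nat_lit 0) (XT.lf (nat_lit 0) (nat_lit 600505966) (nat_lit 228) (nat_lit 3523014644) (nat_lit 76) (nat_lit 21252937149) (nat_lit 9) (nat_lit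 5) (nat_lit 12) (nat_lit 5) (nat_lit 10) (nat_lit 4) (nat_lit 353) (nat_lit 220) (nat_lit 207)) (XT.lf (nat_lit 0) (nat_lit 1356566807) (nat_lit 76) (nat_lit 1792889212) (nat_lit 152) (nat_lit 22895517830) (nat_lit 8) (nat_lit 5) (nat_lit 9) (nat_lit 5) (nat_lit 10) (nat_lit 4) (nat_lit 354) (nat_lit 220) (nat_lit 206))))))))
noncomputable def xc22 : XT := (XT.nd (nat_lit 1716) (nat_lit 228) (nat_lit 0) (XT.nd (nat_lit 858) (nat_lit 152) (nat_lit 0) (XT.nd (nat_lit 390) (nat_lit 76) (nat_lit 0) (XT.nd (nat_lit 156) (nat_lit 0) (nat_lit 0) (XT.nd (nat_lit 78) (nat_lit 0) (nat_lit 0) (XT.lf (nat_lit 0) (nat_lit 5766183344) (nat_lit 152) (nat_lit 20369494262) (nat_lit 0) (nat_lit 598193018) (nat_lit 8) (nat_lit 5) (nat_lit 10) (nat_lit 4) (nat_lit 8) (nat_lit 4) (nat_lit 355) (nat_lit 220) (nat_lit 205)) (XT.lf (nat_lit 0) (nat_lit 8430173367) (nat_lit 152) (nat_lit 16021849661) (nat_lit 0) (nat_lit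 2992411034) (nat_lit 8) (nat_lit 5) (nat_lit 10) (nat_lit 4) (nat_lit 8) (nat_lit 4) (nat_lit 356) (nat_lit 220) (nat_lit 204))) (XT.nd (nat_lit 78) (nat_lit 0) (nat_lit 0) (XT.lf (nat_lit 0) (nat_lit 11126519500) (nat_lit 152) (nat_lit 11624439979) (nat_lit 0) (nat_lit 5426842596) (nat_lit 8) (nat_lit 5) (nat_lit 10) (nat_lit 4) (nat_lit 8) (nat_lit 4) (nat_lit 357) (nat_lit 220) (nat_lit 203)) (XT.nd (nat_lit 78) (nat_lit 0) (nat_lit 0) (XT.lf (nat_lit 0) (nat_lit 13857577773) (nat_lit 152) (nat_lit 7173422820) (nat_lit 0) (nat_lit 7903614879) (nat_lit 8) (nat_lit 5) (nat_lit 10) (nat_lit 4) (nat_lit 8) (nat_lit 4) (nat_lit 358) (nat_lit 220) (nat_lit 202)) (XT.lf (nat_lit 0) (nat_lit 16625734547) (nat_lit 152) (nat_lit 2664908944) (nat_lit 0) (nat_lit 10424892050) (nat_lit 8) (nat_lit 5) (nat_lit 10) (nat_lit 4) (nat_lit 8) (nat_lit 4) (nat_lit 359) (nat_lit 220) (nat_lit 201))))) (XT.nd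 (nat_lit 234) (nat_lit 0) (nat_lit 0) (XT.nd (nat_lit 78) (nat_lit 0) (nat_lit 0) (XT.lf (nat_lit 0) (nat_lit 1942955178) (nat_lit 76) (nat_lit 17509130297) (nat_lit 76) (nat_lit 11068598865) (nat_lit 7) (nat_lit 4) (nat_lit 8) (nat_lit 5) (nat_lit 8) (nat_lit 4) (nat_lit 360) (nat_lit 220) (nat_lit 200)) (XT.nd (nat_lit 78) (nat_lit 0) (nat_lit 0) (XT.lf (nat_lit 0) (nat_lit 6670587741) (nat_lit 76) (nat_lit 15676587271) (nat_lit 76) (nat_lit 9003348136) (nat_lit 7) (nat_lit 4) (nat_lit 8) (nat_lit 5) (nat_lit 8) (nat_lit 4) (nat_lit 361) (nat_lit 220) (nat_lit 199)) (XT.lf (nat_lit 0) (nat_lit 11469082771) (nat_lit 76) (nat_lit 13818323517) (nat_lit 76) (nat_lit 6919154573) (nat_lit 7) (nat_lit 4) (nat_lit 8) (nat_lit 5) (nat_lit 8) (nat_lit 4) (nat_lit 362) (nat_lit 220) (nat_lit 198)))) (XT.nd (nat_lit 78) (nat_lit 0) (nat_lit 0) (XT.lf (nat_lit 0) (nat_lit 16342633130) (nat_lit 76) (nat_lit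 11932715312) (nat_lit 76) (nat_lit 4814197038) (nat_lit 7) (nat_lit 4) (nat_lit 8) (nat_lit 5) (nat_lit 8) (nat_lit 4) (nat_lit 363) (nat_lit 220) (nat_lit 197)) (XT.nd (nat_lit 78) (nat_lit 0) (nat_lit 0) (XT.lf (nat_lit 0) (nat_lit 21295497257) (nat_lit 76) (nat_lit 10018115035) (nat_lit 76) (nat_lit 2686636248) (nat_lit 7) (nat_lit 4) (nat_lit 8) (nat_lit 5) (nat_lit 8) (nat_lit 4) (nat_lit 364) (nat_lit 220) (nat_lit 196)) (XT.lf (nat_lit 0) (nat_lit 26332002900) (nat_lit 76) (nat_lit 8072849735) (nat_lit 76) (nat_lit 534613167) (nat_lit 7) (nat_lit 4) (nat_lit 8) (nat_lit 5) (nat_lit 8) (nat_lit 4) (nat_lit 365) (nat_lit 220) (nat_lit 195)))))) (XT.nd (nat_lit 390) (nat_lit 0) (nat_lit 0) (XT.nd (nat_lit 156) (nat_lit 76) (nat_lit 0) (XT.nd (nat_lit 78) (nat_lit 0) (nat_lit 0) (XT.lf (nat_lit 0) (nat_lit 1611677076) (nat_lit 152) (nat_lit 4467267811) (nat_lit 76) (nat_lit 29828599033)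 (nat_lit 6) (nat_lit 5) (nat_lit 8) (nat_lit 5) (nat_lit 7) (nat_lit 4) (nat_lit 366) (nat_lit 220) (nat_lit 194)) (XT.lf (nat_lit 0) (nat_lit 3775230033) (nat_lit 152) (nat_lit 270144346) (nat_lit 76) (nat_lit 32860266526) (nat_lit 6) (nat_lit 5) (nat_lit 8) (nat_lit 5) (nat_lit 7) (nat_lit 4) (nat_lit 367) (nat_lit 220) (nat_lit 193))) (XT.nd (nat_lit 78) (nat_lit 0) (nat_lit 0) (XT.lf (nat_lit 0) (nat_lit 4072176744) (nat_lit 76) (nat_lit 1935335924) (nat_lit 152) (nat_lit 31926096060) (nat_lit 5) (nat_lit 5) (nat_lit 6) (nat_lit 5) (nat_lit 7) (nat_lit 4) (nat_lit 368) (nat_lit 220) (nat_lit 192)) (XT.nd (nat_lit 78) (nat_lit 0) (nat_lit 0) (XT.lf (nat_lit 0) (nat_lit 8276703699) (nat_lit 152) (nat_lit 30504782030) (nat_lit 0) (nat_lit 211873036) (nat_lit 5) (nat_lit 5) (nat_lit 7) (nat_lit 4) (nat_lit 5) (nat_lit 4) (nat_lit 369) (nat_lit 220) (nat_lit 191)) (XT.lf (nat_lit 0) (nat_lit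 10599051758) (nat_lit 152) (nat_lit 27125272568) (nat_lit 0) (nat_lit 2361064709) (nat_lit 5) (nat_lit 5) (nat_lit 7) (nat_lit 4) (nat_lit 5) (nat_lit 4) (nat_lit 370) (nat_lit 220) (nat_lit 190))))) (XT.nd (nat_lit 234) (nat_lit 0) (nat_lit 0) (XT.nd (nat_lit 78) (nat_lit 0) (nat_lit 0) (XT.lf (nat_lit 0) (nat_lit 12957982449) (nat_lit 152) (nat_lit 23701346998) (nat_lit 0) (nat_lit 4551882403) (nat_lit 5) (nat_lit 5) (nat_lit 7) (nat_lit 4) (nat_lit 5) (nat_lit 4) (nat_lit 371) (nat_lit 220) (nat_lit 189)) (XT.nd (nat_lit 78) (nat_lit 0) (nat_lit 0) (XT.lf (nat_lit 0) (nat_lit 15355556973) (nat_lit 152) (nat_lit 20230013539) (nat_lit 0) (nat_lit 6786240427) (nat_lit 5) (nat_lit 5) (nat_lit 7) (nat_lit 4) (nat_lit 5) (nat_lit 4) (nat_lit 372) (nat_lit 220) (nat_lit 188)) (XT.lf (nat_lit 0) (nat_lit 17793870299) (nat_lit 152) (nat_lit 16708238988) (nat_lit 0) (nat_lit 9066091130) (nat_lit 5)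 (nat_lit 5) (nat_lit 7) (nat_lit 4) (nat_lit 5) (nat_lit 4) (nat_lit 373) (nat_lit 220) (nat_lit 187)))) (XT.nd (nat_lit 78) (nat_lit 0) (nat_lit 0) (XT.lf (nat_lit 0) (nat_lit 20275052991) (nat_lit 152) (nat_lit 13132946066) (nat_lit 0) (nat_lit 11393426616) (nat_lit 5) (nat_lit 5) (nat_lit 7) (nat_lit 4) (nat_lit 5) (nat_lit 4) (nat_lit 374) (nat_lit 220) (nat_lit 186)) (XT.nd (nat_lit 78) (nat_lit 0) (nat_lit 0) (XT.lf (nat_lit 0) (nat_lit 22801273074) (nat_lit 152) (nat_lit 9501010731) (nat_lit 0) (nat_lit 13770280478) (nat_lit 5) (nat_lit 5) (nat_lit 7) (nat_lit 4) (nat_lit 5) (nat_lit 4) (nat_lit 375) (nat_lit 220) (nat_lit 185)) (XT.lf (nat_lit 0) (nat_lit 25374737923) (nat_lit 152) (nat_lit 5809259446) (nat_lit 0) (nat_lit 16198729580) (nat_lit 5) (nat_lit 5) (nat_lit 7) (nat_lit 4) (nat_lit 5) (nat_lit 4) (nat_lit 376) (nat_lit 220) (nat_lit 184))))))) (XT.nd (nat_lit 858) (nat_lit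 152) (nat_lit 0) (XT.nd (nat_lit 390) (nat_lit 0) (nat_lit 0) (XT.nd (nat_lit 156) (nat_lit 0) (nat_lit 0) (XT.nd (nat_lit 78) (nat_lit 76) (nat_lit 0) (XT.lf (nat_lit 0) (nat_lit 27997696197) (nat_lit 152) (nat_lit 2054466409) (nat_lit 0) (nat_lit 18680895867) (nat_lit 5) (nat_lit 5) (nat_lit 7) (nat_lit 4) (nat_lit 5) (nat_lit 4) (nat_lit 377) (nat_lit 220) (nat_lit 183)) (XT.lf (nat_lit 0) (nat_lit 1801809049) (nat_lit 76) (nat_lit 28887950845) (nat_lit 76) (nat_lit 19434459264) (nat_lit 4) (nat_lit 4) (nat_lit 5) (nat_lit 5) (nat_lit 5) (nat_lit 4) (nat_lit 378) (nat_lit 220) (nat_lit 182))) (XT.nd (nat_lit 78) (nat_lit 0) (nat_lit 0) (XT.lf (nat_lit 0) (nat_lit 5770020295) (nat_lit 76) (nat_lit 27686750563) (nat_lit 76) (nat_lit 18100549031) (nat_lit 4) (nat_lit 4) (nat_lit 5) (nat_lit 5) (nat_lit 5) (nat_lit 4) (nat_lit 379) (nat_lit 220) (nat_lit 181)) (XT.nd (nat_lit 78) (nat_lit 0)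 (nat_lit 0) (XT.lf (nat_lit 0) (nat_lit 9812746788) (nat_lit 76) (nat_lit 26468258253) (nat_lit 76) (nat_lit 16753212108) (nat_lit 4) (nat_lit 4) (nat_lit 5) (nat_lit 5) (nat_lit 5) (nat_lit 4) (nat_lit 380) (nat_lit 220) (nat_lit 180)) (XT.lf (nat_lit 0) (nat_lit 13933521006) (nat_lit 76) (nat_lit 25231409212) (nat_lit 76) (nat_lit 15391271209) (nat_lit 4) (nat_lit 4) (nat_lit 5) (nat_lit 5) (nat_lit 5) (nat_lit 4) (nat_lit 381) (nat_lit 220) (nat_lit 179))))) (XT.nd (nat_lit 234) (nat_lit 0) (nat_lit 0) (XT.nd (nat_lit 78) (nat_lit 0) (nat_lit 0) (XT.lf (nat_lit 0) (nat_lit 18135943628) (nat_lit 76) (nat_lit 23975122698) (nat_lit 76) (nat_lit 14013536290) (nat_lit 4) (nat_lit 4) (nat_lit 5) (nat_lit 5) (nat_lit 5) (nat_lit 4) (nat_lit 382) (nat_lit 220) (nat_lit 178)) (XT.nd (nat_lit 78) (nat_lit 0) (nat_lit 0) (XT.lf (nat_lit 0) (nat_lit 22423686671) (nat_lit 76) (nat_lit 22698300986) (nat_lit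 76) (nat_lit 12618803505) (nat_lit 4) (nat_lit 4) (nat_lit 5) (nat_lit 5) (nat_lit 5) (nat_lit 4) (nat_lit 383) (nat_lit 220) (nat_lit 177)) (XT.lf (nat_lit 0) (nat_lit 26800496708) (nat_lit 76) (nat_lit 21399828405) (nat_lit 76) (nat_lit 11205854154) (nat_lit 4) (nat_lit 4) (nat_lit 5) (nat_lit 5) (nat_lit 5) (nat_lit 4) (nat_lit 384) (nat_lit 220) (nat_lit 176)))) (XT.nd (nat_lit 78) (nat_lit 0) (nat_lit 0) (XT.lf (nat_lit 0) (nat_lit 31270198135) (nat_lit 76) (nat_lit 20078570368) (nat_lit 76) (nat_lit 9773453622) (nat_lit 4) (nat_lit 4) (nat_lit 5) (nat_lit 5) (nat_lit 5) (nat_lit 4) (nat_lit 385) (nat_lit 220) (nat_lit 175)) (XT.nd (nat_lit 78) (nat_lit 0) (nat_lit 0) (XT.lf (nat_lit 0) (nat_lit 35836696518) (nat_lit 76) (nat_lit 18733372379) (nat_lit 76) (nat_lit 8320350297) (nat_lit 4) (nat_lit 4) (nat_lit 5) (nat_lit 5) (nat_lit 5) (nat_lit 4) (nat_lit 386) (nat_lit 220) (nat_lit 174))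 (XT.lf (nat_lit 0) (nat_lit 40503982001) (nat_lit 76) (nat_lit 17363059020) (nat_lit 76) (nat_lit 6845274477) (nat_lit 4) (nat_lit 4) (nat_lit 5) (nat_lit 5) (nat_lit 5) (nat_lit 4) (nat_lit 387) (nat_lit 220) (nat_lit 173)))))) (XT.nd (nat_lit 390) (nat_lit 76) (nat_lit 0) (XT.nd (nat_lit 156) (nat_lit 76) (nat_lit 0) (XT.nd (nat_lit 78) (nat_lit 0) (nat_lit 0) (XT.lf (nat_lit 0) (nat_lit 45276132793) (nat_lit 76) (nat_lit 15966432931) (nat_lit 76) (nat_lit 5346937261) (nat_lit 4) (nat_lit 4) (nat_lit 5) (nat_lit 5) (nat_lit 5) (nat_lit 4) (nat_lit 388) (nat_lit 220) (nat_lit 172)) (XT.lf (nat_lit 0) (nat_lit 50157318736) (nat_lit 76) (nat_lit 14542273759) (nat_lit 76) (nat_lit 3824029422) (nat_lit 4) (nat_lit 4) (nat_lit 5) (nat_lit 5) (nat_lit 5) (nat_lit 4) (nat_lit 389) (nat_lit 220) (nat_lit 171))) (XT.nd (nat_lit 78) (nat_lit 76) (nat_lit 0) (XT.lf (nat_lit 0) (nat_lit 55151804944) (nat_lit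 76) (nat_lit 13089337093) (nat_lit 76) (nat_lit 2275220263) (nat_lit 4) (nat_lit 4) (nat_lit 5) (nat_lit 5) (nat_lit 5) (nat_lit 4) (nat_lit 390) (nat_lit 220) (nat_lit 170)) (XT.nd (nat_lit 78) (nat_lit 76) (nat_lit 0) (XT.lf (nat_lit 0) (nat_lit 60263955530) (nat_lit 76) (nat_lit 11606353377) (nat_lit 76) (nat_lit 699156457) (nat_lit 4) (nat_lit 4) (nat_lit 5) (nat_lit 5) (nat_lit 5) (nat_lit 4) (nat_lit 391) (nat_lit 220) (nat_lit 169)) (XT.lf (nat_lit 0) (nat_lit 887868809) (nat_lit 152) (nat_lit 9195192256) (nat_lit 76) (nat_lit 64601402879) (nat_lit 3) (nat_lit 5) (nat_lit 5) (nat_lit 5) (nat_lit 4) (nat_lit 4) (nat_lit 392) (nat_lit 220) (nat_lit 168))))) (XT.nd (nat_lit 234) (nat_lit 0) (nat_lit 0) (XT.nd (nat_lit 78) (nat_lit 76) (nat_lit 0) (XT.lf (nat_lit 0) (nat_lit 2490698896) (nat_lit 152) (nat_lit 6029184091) (nat_lit 76) (nat_lit 68343374194) (nat_lit 3) (nat_lit 5) (nat_lit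 5) (nat_lit 5) (nat_lit 4) (nat_lit 4) (nat_lit 393) (nat_lit 220) (nat_lit 167)) (XT.nd (nat_lit 78) (nat_lit 76) (nat_lit 0) (XT.lf (nat_lit 0) (nat_lit 4124377395) (nat_lit 152) (nat_lit 2797998205) (nat_lit 76) (nat_lit 72185574896) (nat_lit 3) (nat_lit 5) (nat_lit 5) (nat_lit 5) (nat_lit 4) (nat_lit 4) (nat_lit 394) (nat_lit 220) (nat_lit 166)) (XT.lf (nat_lit 0) (nat_lit 511163407) (nat_lit 76) (nat_lit 5284082001) (nat_lit 152) (nat_lit 75625112456) (nat_lit 2) (nat_lit 5) (nat_lit 3) (nat_lit 5) (nat_lit 4) (nat_lit 4) (nat_lit 395) (nat_lit 220) (nat_lit 165)))) (XT.nd (nat_lit 78) (nat_lit 0) (nat_lit 0) (XT.lf (nat_lit 0) (nat_lit 3948305271) (nat_lit 76) (nat_lit 3579666033) (nat_lit 152) (nat_lit 76273832280) (nat_lit 2) (nat_lit 5) (nat_lit 3) (nat_lit 5) (nat_lit 4) (nat_lit 4) (nat_lit 396) (nat_lit 220) (nat_lit 164)) (XT.nd (nat_lit 78) (nat_lit 0) (nat_lit 0) (XT.lf (nat_lit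 0) (nat_lit 7460745064) (nat_lit 76) (nat_lit 1835892695) (nat_lit 152) (nat_lit 76958553711) (nat_lit 2) (nat_lit 5) (nat_lit 3) (nat_lit 5) (nat_lit 4) (nat_lit 4) (nat_lit 397) (nat_lit 220) (nat_lit 163)) (XT.lf (nat_lit 0) (nat_lit 11051551906) (nat_lit 76) (nat_lit 51238302) (nat_lit 152) (nat_lit 77679875049) (nat_lit 2) (nat_lit 5) (nat_lit 3) (nat_lit 5) (nat_lit 4) (nat_lit 4) (nat_lit 398) (nat_lit 220) (nat_lit 162))))))))
noncomputable def xc23 : XT := (XT.nd (nat_lit 37284) (nat_lit 0) (nat_lit 152) (XT.nd (nat_lit 36426) (nat_lit 0) (nat_lit 456) (XT.nd (nat_lit 35958) (nat_lit 0) (nat_lit 912) (XT.nd (nat_lit 156) (nat_lit 0) (nat_lit 0) (XT.nd (nat_lit 78) (nat_lit 0) (nat_lit 0) (XT.lf (nat_lit 0) (nat_lit 12965077466) (nat_lit 152) (nat_lit 76679640644) (nat_lit 0) (nat_lit 1741203193) (nat_lit 2) (nat_lit 5) (nat_lit 4) (nat_lit 4) (nat_lit 2) (nat_lit 4) (nat_lit 399) (nat_lit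 220) (nat_lit 161)) (XT.lf (nat_lit 0) (nat_lit 14868957079) (nat_lit 152) (nat_lit 75622939829) (nat_lit 0) (nat_lit 3575822478) (nat_lit 2) (nat_lit 5) (nat_lit 4) (nat_lit 4) (nat_lit 2) (nat_lit 4) (nat_lit 400) (nat_lit 220) (nat_lit 160))) (XT.nd (nat_lit 78) (nat_lit 0) (nat_lit 0) (XT.lf (nat_lit 0) (nat_lit 16815600099) (nat_lit 152) (nat_lit 74559595042) (nat_lit 0) (nat_lit 5455222461) (nat_lit 2) (nat_lit 5) (nat_lit 4) (nat_lit 4) (nat_lit 2) (nat_lit 4) (nat_lit 401) (nat_lit 220) (nat_lit 159)) (XT.nd (nat_lit 35646) (nat_lit 0) (nat_lit 1064) (XT.lf (nat_lit 0) (nat_lit 18806707477) (nat_lit 152) (nat_lit 73488677146) (nat_lit 0) (nat_lit 7381045336) (nat_lit 2) (nat_lit 5) (nat_lit 4) (nat_lit 4) (nat_lit 2) (nat_lit 4) (nat_lit 402) (nat_lit 220) (nat_lit 158)) (XT.lf (nat_lit 0) (nat_lit 23159481) (nat_lit 152) (nat_lit 8716923959) (nat_lit 0) (nat_lit 23159481) (nat_lit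 16) (nat_lit 5) (nat_lit 18) (nat_lit 4) (nat_lit 16) (nat_lit 4) (nat_lit 338) (nat_lit 221) (nat_lit 221))))) (XT.nd (nat_lit 234) (nat_lit 152) (nat_lit 0) (XT.nd (nat_lit 78) (nat_lit 0) (nat_lit 0) (XT.lf (nat_lit 0) (nat_lit 3149821193) (nat_lit 152) (nat_lit 12099298268) (nat_lit 0) (nat_lit 2690552408) (nat_lit 16) (nat_lit 5) (nat_lit 18) (nat_lit 4) (nat_lit 16) (nat_lit 4) (nat_lit 339) (nat_lit 221) (nat_lit 220)) (XT.nd (nat_lit 78) (nat_lit 0) (nat_lit 0) (XT.lf (nat_lit 0) (nat_lit 6277348215) (nat_lit 152) (nat_lit 6717893712) (nat_lit 0) (nat_lit 5372187407) (nat_lit 16) (nat_lit 5) (nat_lit 18) (nat_lit 4) (nat_lit 16) (nat_lit 4) (nat_lit 340) (nat_lit 221) (nat_lit 219)) (XT.lf (nat_lit 0) (nat_lit 9431632819) (nat_lit 152) (nat_lit 1284932051) (nat_lit 0) (nat_lit 8093567133) (nat_lit 16) (nat_lit 5) (nat_lit 18) (nat_lit 4) (nat_lit 16) (nat_lit 4) (nat_lit 341) (nat_lit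 221) (nat_lit 218)))) (XT.nd (nat_lit 78) (nat_lit 0) (nat_lit 0) (XT.lf (nat_lit 0) (nat_lit 4288008450) (nat_lit 152) (nat_lit 8368641684) (nat_lit 152) (nat_lit 6610280001) (nat_lit 14) (nat_lit 4) (nat_lit 16) (nat_lit 5) (nat_lit 16) (nat_lit 4) (nat_lit 342) (nat_lit 221) (nat_lit 217)) (XT.nd (nat_lit 78) (nat_lit 0) (nat_lit 0) (XT.lf (nat_lit 0) (nat_lit 9948838445) (nat_lit 152) (nat_lit 5978321119) (nat_lit 152) (nat_lit 3811905069) (nat_lit 14) (nat_lit 4) (nat_lit 16) (nat_lit 5) (nat_lit 16) (nat_lit 4) (nat_lit 343) (nat_lit 221) (nat_lit 216)) (XT.lf (nat_lit 0) (nat_lit 15676931620) (nat_lit 152) (nat_lit 3556489839) (nat_lit 152) (nat_lit 993904501) (nat_lit 14) (nat_lit 4) (nat_lit 16) (nat_lit 5) (nat_lit 16) (nat_lit 4) (nat_lit 344) (nat_lit 221) (nat_lit 215)))))) (XT.nd (nat_lit 390) (nat_lit 304) (nat_lit 0) (XT.nd (nat_lit 156) (nat_lit 0) (nat_lit 0) (XT.nd (nat_lit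 78) (nat_lit 0) (nat_lit 0) (XT.lf (nat_lit 0) (nat_lit 741882498) (nat_lit 76) (nat_lit 1075407261) (nat_lit 152) (nat_lit 18914104654) (nat_lit 12) (nat_lit 5) (nat_lit 13) (nat_lit 5) (nat_lit 14) (nat_lit 4) (nat_lit 345) (nat_lit 221) (nat_lit 214)) (XT.lf (nat_lit 0) (nat_lit 4692686453) (nat_lit 152) (nat_lit 15088931112) (nat_lit 0) (nat_lit 1468760954) (nat_lit 12) (nat_lit 5) (nat_lit 14) (nat_lit 4) (nat_lit 12) (nat_lit 4) (nat_lit 346) (nat_lit 221) (nat_lit 213))) (XT.nd (nat_lit 78) (nat_lit 0) (nat_lit 0) (XT.lf (nat_lit 0) (nat_lit 7605973602) (nat_lit 152) (nat_lit 10150434529) (nat_lit 0) (nat_lit 4030056821) (nat_lit 12) (nat_lit 5) (nat_lit 14) (nat_lit 4) (nat_lit 12) (nat_lit 4) (nat_lit 347) (nat_lit 221) (nat_lit 212)) (XT.nd (nat_lit 78) (nat_lit 0) (nat_lit 0) (XT.lf (nat_lit 0) (nat_lit 10549359325) (nat_lit 152) (nat_lit 5159369503) (nat_lit 0) (nat_lit 6631703436)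 (nat_lit 12) (nat_lit 5) (nat_lit 14) (nat_lit 4) (nat_lit 12) (nat_lit 4) (nat_lit 348) (nat_lit 221) (nat_lit 211)) (XT.lf (nat_lit 0) (nat_lit 13525415512) (nat_lit 152) (nat_lit 111374909) (nat_lit 0) (nat_lit 9275974082) (nat_lit 12) (nat_lit 5) (nat_lit 14) (nat_lit 4) (nat_lit 12) (nat_lit 4) (nat_lit 349) (nat_lit 221) (nat_lit 210))))) (XT.nd (nat_lit 234) (nat_lit 152) (nat_lit 0) (XT.nd (nat_lit 78) (nat_lit 0) (nat_lit 0) (XT.lf (nat_lit 0) (nat_lit 5097429327) (nat_lit 152) (nat_lit 11488312882) (nat_lit 152) (nat_lit 6916749567) (nat_lit 10) (nat_lit 4) (nat_lit 12) (nat_lit 5) (nat_lit 12) (nat_lit 4) (nat_lit 350) (nat_lit 221) (nat_lit 209)) (XT.nd (nat_lit 78) (nat_lit 0) (nat_lit 0) (XT.lf (nat_lit 0) (nat_lit 10375564695) (nat_lit 152) (nat_lit 9310143428) (nat_lit 152) (nat_lit 4425840419) (nat_lit 10) (nat_lit 4) (nat_lit 12) (nat_lit 5) (nat_lit 12) (nat_lit 4) (nat_lit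 351) (nat_lit 221) (nat_lit 208)) (XT.lf (nat_lit 0) (nat_lit 15725426576) (nat_lit 152) (nat_lit 7101503472) (nat_lit 152) (nat_lit 1913569692) (nat_lit 10) (nat_lit 4) (nat_lit 12) (nat_lit 5) (nat_lit 12) (nat_lit 4) (nat_lit 352) (nat_lit 221) (nat_lit 207)))) (XT.nd (nat_lit 78) (nat_lit 76) (nat_lit 0) (XT.lf (nat_lit 0) (nat_lit 610115310) (nat_lit 228) (nat_lit 4244186857) (nat_lit 76) (nat_lit 20535413330) (nat_lit 9) (nat_lit 5) (nat_lit 12) (nat_lit 5) (nat_lit 10) (nat_lit 4) (nat_lit 353) (nat_lit 221) (nat_lit 206)) (XT.nd (nat_lit 78) (nat_lit 0) (nat_lit 0) (XT.lf (nat_lit 0) (nat_lit 579496478) (nat_lit 76) (nat_lit 2547803293) (nat_lit 152) (nat_lit 22931916539) (nat_lit 8) (nat_lit 5) (nat_lit 9) (nat_lit 5) (nat_lit 10) (nat_lit 4) (nat_lit 354) (nat_lit 221) (nat_lit 205)) (XT.lf (nat_lit 0) (nat_lit 5553011296) (nat_lit 76) (nat_lit 161175168) (nat_lit 152) (nat_lit 21034852671)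 (nat_lit 8) (nat_lit 5) (nat_lit 9) (nat_lit 5) (nat_lit 10) (nat_lit 4) (nat_lit 355) (nat_lit 221) (nat_lit 204))))))) (XT.nd (nat_lit 858) (nat_lit 152) (nat_lit 0) (XT.nd (nat_lit 390) (nat_lit 76) (nat_lit 0) (XT.nd (nat_lit 156) (nat_lit 76) (nat_lit 0) (XT.nd (nat_lit 78) (nat_lit 0) (nat_lit 0) (XT.lf (nat_lit 0) (nat_lit 8353196833) (nat_lit 152) (nat_lit 16886570012) (nat_lit 0) (nat_lit 2220615051) (nat_lit 8) (nat_lit 5) (nat_lit 10) (nat_lit 4) (nat_lit 8) (nat_lit 4) (nat_lit 356) (nat_lit 221) (nat_lit 203)) (XT.lf (nat_lit 0) (nat_lit 11026795062) (nat_lit 152) (nat_lit 12527739056) (nat_lit 0) (nat_lit 4639927290) (nat_lit 8) (nat_lit 5) (nat_lit 10) (nat_lit 4) (nat_lit 8) (nat_lit 4) (nat_lit 357) (nat_lit 221) (nat_lit 202))) (XT.nd (nat_lit 78) (nat_lit 76) (nat_lit 0) (XT.lf (nat_lit 0) (nat_lit 13735767992) (nat_lit 152) (nat_lit 8114176970) (nat_lit 0) (nat_lit 7102020617)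 (nat_lit 8) (nat_lit 5) (nat_lit 10) (nat_lit 4) (nat_lit 8) (nat_lit 4) (nat_lit 358) (nat_lit 221) (nat_lit 201)) (XT.nd (nat_lit 78) (nat_lit 76) (nat_lit 0) (XT.lf (nat_lit 0) (nat_lit 16482482686) (nat_lit 152) (nat_lit 3642027243) (nat_lit 0) (nat_lit 9609046376) (nat_lit 8) (nat_lit 5) (nat_lit 10) (nat_lit 4) (nat_lit 8) (nat_lit 4) (nat_lit 359) (nat_lit 221) (nat_lit 200)) (XT.lf (nat_lit 0) (nat_lit 910382671) (nat_lit 76) (nat_lit 18367707669) (nat_lit 76) (nat_lit 11261563656) (nat_lit 7) (nat_lit 4) (nat_lit 8) (nat_lit 5) (nat_lit 8) (nat_lit 4) (nat_lit 360) (nat_lit 221) (nat_lit 199))))) (XT.nd (nat_lit 234) (nat_lit 76) (nat_lit 0) (XT.nd (nat_lit 78) (nat_lit 0) (nat_lit 0) (XT.lf (nat_lit 0) (nat_lit 5603056363) (nat_lit 76) (nat_lit 16549576250) (nat_lit 76) (nat_lit 9217502429) (nat_lit 7) (nat_lit 4) (nat_lit 8) (nat_lit 5) (nat_lit 8) (nat_lit 4) (nat_lit 361) (nat_lit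 221) (nat_lit 198)) (XT.nd (nat_lit 78) (nat_lit 0) (nat_lit 0) (XT.lf (nat_lit 0) (nat_lit 10367610741) (nat_lit 76) (nat_lit 14705304349) (nat_lit 76) (nat_lit 7153881198) (nat_lit 7) (nat_lit 4) (nat_lit 8) (nat_lit 5) (nat_lit 8) (nat_lit 4) (nat_lit 362) (nat_lit 221) (nat_lit 197)) (XT.lf (nat_lit 0) (nat_lit 15208209010) (nat_lit 76) (nat_lit 12833280466) (nat_lit 76) (nat_lit 5068896802) (nat_lit 7) (nat_lit 4) (nat_lit 8) (nat_lit 5) (nat_lit 8) (nat_lit 4) (nat_lit 363) (nat_lit 221) (nat_lit 196)))) (XT.nd (nat_lit 78) (nat_lit 76) (nat_lit 0) (XT.lf (nat_lit 0) (nat_lit 20129080818) (nat_lit 76) (nat_lit 10931868852) (nat_lit 76) (nat_lit 2960727407) (nat_lit 7) (nat_lit 4) (nat_lit 8) (nat_lit 5) (nat_lit 8) (nat_lit 4) (nat_lit 364) (nat_lit 221) (nat_lit 195)) (XT.nd (nat_lit 78) (nat_lit 76) (nat_lit 0) (XT.lf (nat_lit 0) (nat_lit 25134525957) (nat_lit 76) (nat_lit 8999408079)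 (nat_lit 76) (nat_lit 827530925) (nat_lit 7) (nat_lit 4) (nat_lit 8) (nat_lit 5) (nat_lit 8) (nat_lit 4) (nat_lit 365) (nat_lit 221) (nat_lit 194)) (XT.lf (nat_lit 0) (nat_lit 1306553623) (nat_lit 152) (nat_lit 5714462336) (nat_lit 76) (nat_lit 28909170861) (nat_lit 6) (nat_lit 5) (nat_lit 8) (nat_lit 5) (nat_lit 7) (nat_lit 4) (nat_lit 366) (nat_lit 221) (nat_lit 193)))))) (XT.nd (nat_lit 468) (nat_lit 76) (nat_lit 0) (XT.nd (nat_lit 234) (nat_lit 0) (nat_lit 0) (XT.nd (nat_lit 78) (nat_lit 76) (nat_lit 0) (XT.lf (nat_lit 0) (nat_lit 3452706991) (nat_lit 152) (nat_lit 1546983657) (nat_lit 76) (nat_lit 31929136141) (nat_lit 6) (nat_lit 5) (nat_lit 8) (nat_lit 5) (nat_lit 7) (nat_lit 4) (nat_lit 367) (nat_lit 221) (nat_lit 192)) (XT.nd (nat_lit 78) (nat_lit 0) (nat_lit 0) (XT.lf (nat_lit 0) (nat_lit 2740571677) (nat_lit 76) (nat_lit 2914724942) (nat_lit 152) (nat_lit 32302409165) (nat_lit 5)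 (nat_lit 5) (nat_lit 6) (nat_lit 5) (nat_lit 7) (nat_lit 4) (nat_lit 368) (nat_lit 221) (nat_lit 191)) (XT.lf (nat_lit 0) (nat_lit 7130611997) (nat_lit 76) (nat_lit 775123734) (nat_lit 152) (nat_lit 31112302437) (nat_lit 5) (nat_lit 5) (nat_lit 6) (nat_lit 5) (nat_lit 7) (nat_lit 4) (nat_lit 369) (nat_lit 221) (nat_lit 190)))) (XT.nd (nat_lit 78) (nat_lit 0) (nat_lit 0) (XT.lf (nat_lit 0) (nat_lit 10204333413) (nat_lit 152) (nat_lit 28528529379) (nat_lit 0) (nat_lit 1377937370) (nat_lit 5) (nat_lit 5) (nat_lit 7) (nat_lit 4) (nat_lit 5) (nat_lit 4) (nat_lit 370) (nat_lit 221) (nat_lit 189)) (XT.nd (nat_lit 78) (nat_lit 0) (nat_lit 0) (XT.lf (nat_lit 0) (nat_lit 12547439431) (nat_lit 152) (nat_lit 25131850055) (nat_lit 0) (nat_lit 3557826886) (nat_lit 5) (nat_lit 5) (nat_lit 7) (nat_lit 4) (nat_lit 5) (nat_lit 4) (nat_lit 371) (nat_lit 221) (nat_lit 188)) (XT.lf (nat_lit 0) (nat_lit 14929650194)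 (nat_lit 152) (nat_lit 21686969262) (nat_lit 0) (nat_lit 5781575027) (nat_lit 5) (nat_lit 5) (nat_lit 7) (nat_lit 4) (nat_lit 5) (nat_lit 4) (nat_lit 372) (nat_lit 221) (nat_lit 187))))) (XT.nd (nat_lit 234) (nat_lit 76) (nat_lit 0) (XT.nd (nat_lit 78) (nat_lit 0) (nat_lit 0) (XT.lf (nat_lit 0) (nat_lit 17353047247) (nat_lit 152) (nat_lit 18190876910) (nat_lit 0) (nat_lit 8051124874) (nat_lit 5) (nat_lit 5) (nat_lit 7) (nat_lit 4) (nat_lit 5) (nat_lit 4) (nat_lit 373) (nat_lit 221) (nat_lit 186)) (XT.nd (nat_lit 78) (nat_lit 0) (nat_lit 0) (XT.lf (nat_lit 0) (nat_lit 19819748121) (nat_lit 152) (nat_lit 14640518163) (nat_lit 0) (nat_lit 10368459529) (nat_lit 5) (nat_lit 5) (nat_lit 7) (nat_lit 4) (nat_lit 5) (nat_lit 4) (nat_lit 374) (nat_lit 221) (nat_lit 185)) (XT.lf (nat_lit 0) (nat_lit 22331908186) (nat_lit 152) (nat_lit 11032790763) (nat_lit 0) (nat_lit 12735603846) (nat_lit 5) (nat_lit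 5) (nat_lit 7) (nat_lit 4) (nat_lit 5) (nat_lit 4) (nat_lit 375) (nat_lit 221) (nat_lit 184)))) (XT.nd (nat_lit 78) (nat_lit 76) (nat_lit 0) (XT.lf (nat_lit 0) (nat_lit 24891722533) (nat_lit 152) (nat_lit 7364542329) (nat_lit 0) (nat_lit 15154626205) (nat_lit 5) (nat_lit 5) (nat_lit 7) (nat_lit 4) (nat_lit 5) (nat_lit 4) (nat_lit 376) (nat_lit 221) (nat_lit 183)) (XT.nd (nat_lit 78) (nat_lit 76) (nat_lit 0) (XT.lf (nat_lit 0) (nat_lit 27501427893) (nat_lit 152) (nat_lit 3632567595) (nat_lit 0) (nat_lit 17627640315) (nat_lit 5) (nat_lit 5) (nat_lit 7) (nat_lit 4) (nat_lit 5) (nat_lit 4) (nat_lit 377) (nat_lit 221) (nat_lit 182)) (XT.lf (nat_lit 0) (nat_lit 169705962) (nat_lit 76) (nat_lit 29995229945) (nat_lit 76) (nat_lit 19988732416) (nat_lit 4) (nat_lit 4) (nat_lit 5) (nat_lit 5) (nat_lit 5) (nat_lit 4) (nat_lit 378) (nat_lit 221) (nat_lit 181))))))))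
noncomputable def xc24 : XT := (XT.nd (nat_lit 1716) (nat_lit 0) (nat_lit 0) (XT.nd (nat_lit 858) (nat_lit 152) (nat_lit 0) (XT.nd (nat_lit 390) (nat_lit 0) (nat_lit 0) (XT.nd (nat_lit 156) (nat_lit 0) (nat_lit 0) (XT.nd (nat_lit 78) (nat_lit 0) (nat_lit 0) (XT.lf (nat_lit 0) (nat_lit 4115980711) (nat_lit 76) (nat_lit 28803263151) (nat_lit 76) (nat_lit 18667921009) (nat_lit 4) (nat_lit 4) (nat_lit 5) (nat_lit 5) (nat_lit 5) (nat_lit 4) (nat_lit 379) (nat_lit 221) (nat_lit 180)) (XT.lf (nat_lit 0) (nat_lit 8137409632) (nat_lit 76) (nat_lit 27593735392) (nat_lit 76) (nat_lit 17333301392) (nat_lit 4) (nat_lit 4) (nat_lit 5) (nat_lit 5) (nat_lit 5) (nat_lit 4) (nat_lit 380) (nat_lit 221) (nat_lit 179))) (XT.nd (nat_lit 78) (nat_lit 0) (nat_lit 0) (XT.lf (nat_lit 0) (nat_lit 12237506598) (nat_lit 76) (nat_lit 26365589798) (nat_lit 76) (nat_lit 15983707393) (nat_lit 4) (nat_lit 4) (nat_lit 5) (nat_lit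 5) (nat_lit 5) (nat_lit 4) (nat_lit 381) (nat_lit 221) (nat_lit 178)) (XT.nd (nat_lit 78) (nat_lit 0) (nat_lit 0) (XT.lf (nat_lit 0) (nat_lit 16419854216) (nat_lit 76) (nat_lit 25117753234) (nat_lit 76) (nat_lit 14617959755) (nat_lit 4) (nat_lit 4) (nat_lit 5) (nat_lit 5) (nat_lit 5) (nat_lit 4) (nat_lit 382) (nat_lit 221) (nat_lit 177)) (XT.lf (nat_lit 0) (nat_lit 20688106965) (nat_lit 76) (nat_lit 23849135355) (nat_lit 76) (nat_lit 13234865107) (nat_lit 4) (nat_lit 4) (nat_lit 5) (nat_lit 5) (nat_lit 5) (nat_lit 4) (nat_lit 383) (nat_lit 221) (nat_lit 176))))) (XT.nd (nat_lit 234) (nat_lit 0) (nat_lit 0) (XT.nd (nat_lit 78) (nat_lit 0) (nat_lit 0) (XT.lf (nat_lit 0) (nat_lit 25045994386) (nat_lit 76) (nat_lit 22558627662) (nat_lit 76) (nat_lit 11833214918) (nat_lit 4) (nat_lit 4) (nat_lit 5) (nat_lit 5) (nat_lit 5) (nat_lit 4) (nat_lit 384) (nat_lit 221) (nat_lit 175)) (XT.nd (nat_lit 78)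 (nat_lit 0) (nat_lit 0) (XT.lf (nat_lit 0) (nat_lit 29497324342) (nat_lit 76) (nat_lit 21245102526) (nat_lit 76) (nat_lit 10411784447) (nat_lit 4) (nat_lit 4) (nat_lit 5) (nat_lit 5) (nat_lit 5) (nat_lit 4) (nat_lit 385) (nat_lit 221) (nat_lit 174)) (XT.lf (nat_lit 0) (nat_lit 34045986344) (nat_lit 76) (nat_lit 19907412207) (nat_lit 76) (nat_lit 8969331666) (nat_lit 4) (nat_lit 4) (nat_lit 5) (nat_lit 5) (nat_lit 5) (nat_lit 4) (nat_lit 386) (nat_lit 221) (nat_lit 173)))) (XT.nd (nat_lit 78) (nat_lit 0) (nat_lit 0) (XT.lf (nat_lit 0) (nat_lit 38695954953) (nat_lit 76) (nat_lit 18544387848) (nat_lit 76) (nat_lit 7504596180) (nat_lit 4) (nat_lit 4) (nat_lit 5) (nat_lit 5) (nat_lit 5) (nat_lit 4) (nat_lit 387) (nat_lit 221) (nat_lit 172)) (XT.nd (nat_lit 78) (nat_lit 0) (nat_lit 0) (XT.lf (nat_lit 0) (nat_lit 43451293246) (nat_lit 76) (nat_lit 17154838458) (nat_lit 76) (nat_lit 6016298123) (nat_lit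 4) (nat_lit 4) (nat_lit 5) (nat_lit 5) (nat_lit 5) (nat_lit 4) (nat_lit 388) (nat_lit 221) (nat_lit 171)) (XT.lf (nat_lit 0) (nat_lit 48316156374) (nat_lit 76) (nat_lit 15737549868) (nat_lit 76) (nat_lit 4503137041) (nat_lit 4) (nat_lit 4) (nat_lit 5) (nat_lit 5) (nat_lit 5) (nat_lit 4) (nat_lit 389) (nat_lit 221) (nat_lit 170)))))) (XT.nd (nat_lit 390) (nat_lit 76) (nat_lit 0) (XT.nd (nat_lit 156) (nat_lit 76) (nat_lit 0) (XT.nd (nat_lit 78) (nat_lit 0) (nat_lit 0) (XT.lf (nat_lit 0) (nat_lit 53294795189) (nat_lit 76) (nat_lit 14291283670) (nat_lit 76) (nat_lit 2963790753) (nat_lit 4) (nat_lit 4) (nat_lit 5) (nat_lit 5) (nat_lit 5) (nat_lit 4) (nat_lit 390) (nat_lit 221) (nat_lit 169)) (XT.lf (nat_lit 0) (nat_lit 58391559957) (nat_lit 76) (nat_lit 12814776137) (nat_lit 76) (nat_lit 1396914200) (nat_lit 4) (nat_lit 4) (nat_lit 5) (nat_lit 5) (nat_lit 5) (nat_lit 4) (nat_lit 391) (nat_lit 221)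 (nat_lit 168))) (XT.nd (nat_lit 78) (nat_lit 0) (nat_lit 0) (XT.lf (nat_lit 0) (nat_lit 194981224) (nat_lit 152) (nat_lit 11109786962) (nat_lit 76) (nat_lit 63413954008) (nat_lit 3) (nat_lit 5) (nat_lit 5) (nat_lit 5) (nat_lit 4) (nat_lit 4) (nat_lit 392) (nat_lit 221) (nat_lit 167)) (XT.nd (nat_lit 78) (nat_lit 0) (nat_lit 0) (XT.lf (nat_lit 0) (nat_lit 1789320430) (nat_lit 152) (nat_lit 7958459843) (nat_lit 76) (nat_lit 67149999337) (nat_lit 3) (nat_lit 5) (nat_lit 5) (nat_lit 5) (nat_lit 4) (nat_lit 4) (nat_lit 393) (nat_lit 221) (nat_lit 166)) (XT.lf (nat_lit 0) (nat_lit 3414755355) (nat_lit 152) (nat_lit 4741527400) (nat_lit 76) (nat_lit 70986446654) (nat_lit 3) (nat_lit 5) (nat_lit 5) (nat_lit 5) (nat_lit 4) (nat_lit 4) (nat_lit 394) (nat_lit 221) (nat_lit 165))))) (XT.nd (nat_lit 234) (nat_lit 0) (nat_lit 0) (XT.nd (nat_lit 78) (nat_lit 76) (nat_lit 0) (XT.lf (nat_lit 0) (nat_lit 5072706282)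 (nat_lit 152) (nat_lit 1456178720) (nat_lit 76) (nat_lit 74926648196) (nat_lit 3) (nat_lit 5) (nat_lit 5) (nat_lit 5) (nat_lit 4) (nat_lit 4) (nat_lit 395) (nat_lit 221) (nat_lit 164)) (XT.nd (nat_lit 78) (nat_lit 0) (nat_lit 0) (XT.lf (nat_lit 0) (nat_lit 1938279707) (nat_lit 76) (nat_lit 4844974130) (nat_lit 152) (nat_lit 77054399079) (nat_lit 2) (nat_lit 5) (nat_lit 3) (nat_lit 5) (nat_lit 4) (nat_lit 4) (nat_lit 396) (nat_lit 221) (nat_lit 163)) (XT.lf (nat_lit 0) (nat_lit 5437415981) (nat_lit 76) (nat_lit 3106832391) (nat_lit 152) (nat_lit 77747030985) (nat_lit 2) (nat_lit 5) (nat_lit 3) (nat_lit 5) (nat_lit 4) (nat_lit 4) (nat_lit 397) (nat_lit 221) (nat_lit 162)))) (XT.nd (nat_lit 78) (nat_lit 0) (nat_lit 0) (XT.lf (nat_lit 0) (nat_lit 9015306786) (nat_lit 76) (nat_lit 1327645570) (nat_lit 152) (nat_lit 78476032397) (nat_lit 2) (nat_lit 5) (nat_lit 3) (nat_lit 5) (nat_lit 4) (nat_lit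 4) (nat_lit 398) (nat_lit 221) (nat_lit 161)) (XT.nd (nat_lit 78) (nat_lit 0) (nat_lit 0) (XT.lf (nat_lit 0) (nat_lit 12185687458) (nat_lit 152) (nat_lit 78752649329) (nat_lit 0) (nat_lit 484498491) (nat_lit 2) (nat_lit 5) (nat_lit 4) (nat_lit 4) (nat_lit 2) (nat_lit 4) (nat_lit 399) (nat_lit 221) (nat_lit 160)) (XT.lf (nat_lit 0) (nat_lit 14082496638) (nat_lit 152) (nat_lit 77708291889) (nat_lit 0) (nat_lit 2314064633) (nat_lit 2) (nat_lit 5) (nat_lit 4) (nat_lit 4) (nat_lit 2) (nat_lit 4) (nat_lit 400) (nat_lit 221) (nat_lit 159))))))) (XT.nd (nat_lit 36270) (nat_lit 0) (nat_lit 456) (XT.nd (nat_lit 35802) (nat_lit 0) (nat_lit 912) (XT.nd (nat_lit 35568) (nat_lit 0) (nat_lit 1064) (XT.nd (nat_lit 78) (nat_lit 0) (nat_lit 0) (XT.lf (nat_lit 0) (nat_lit 16022275159) (nat_lit 152) (nat_lit 76656930962) (nat_lit 0) (nat_lit 4188558651) (nat_lit 2) (nat_lit 5) (nat_lit 4) (nat_lit 4) (nat_lit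 2) (nat_lit 4) (nat_lit 401) (nat_lit 221) (nat_lit 158)) (XT.lf (nat_lit 0) (nat_lit 18006717973) (nat_lit 152) (nat_lit 75597647881) (nat_lit 0) (nat_lit 6109618454) (nat_lit 2) (nat_lit 5) (nat_lit 4) (nat_lit 4) (nat_lit 2) (nat_lit 4) (nat_lit 402) (nat_lit 221) (nat_lit 157))) (XT.nd (nat_lit 78) (nat_lit 152) (nat_lit 0) (XT.lf (nat_lit 0) (nat_lit 2831905127) (nat_lit 152) (nat_lit 2767741988) (nat_lit 152) (nat_lit 2767741988) (nat_lit 18) (nat_lit 4) (nat_lit 20) (nat_lit 5) (nat_lit 20) (nat_lit 4) (nat_lit 336) (nat_lit 222) (nat_lit 222)) (XT.nd (nat_lit 78) (nat_lit 152) (nat_lit 0) (XT.lf (nat_lit 0) (nat_lit 11580460276) (nat_lit 152) (nat_lit 3015521402) (nat_lit 152) (nat_lit 2528283148) (nat_lit 18) (nat_lit 4) (nat_lit 20) (nat_lit 5) (nat_lit 20) (nat_lit 4) (nat_lit 337) (nat_lit 222) (nat_lit 221)) (XT.lf (nat_lit 0) (nat_lit 31790895) (nat_lit 76) (nat_lit 456916492)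 (nat_lit 152) (nat_lit 17038750695) (nat_lit 16) (nat_lit 5) (nat_lit 17) (nat_lit 5) (nat_lit 18) (nat_lit 4) (nat_lit 338) (nat_lit 222) (nat_lit 220))))) (XT.nd (nat_lit 234) (nat_lit 152) (nat_lit 0) (XT.nd (nat_lit 78) (nat_lit 0) (nat_lit 0) (XT.lf (nat_lit 0) (nat_lit 3553787765) (nat_lit 152) (nat_lit 12212479852) (nat_lit 0) (nat_lit 2175580108) (nat_lit 16) (nat_lit 5) (nat_lit 18) (nat_lit 4) (nat_lit 16) (nat_lit 4) (nat_lit 339) (nat_lit 222) (nat_lit 219)) (XT.nd (nat_lit 78) (nat_lit 0) (nat_lit 0) (XT.lf (nat_lit 0) (nat_lit 6648276250) (nat_lit 152) (nat_lit 6885205853) (nat_lit 0) (nat_lit 4837163717) (nat_lit 16) (nat_lit 5) (nat_lit 18) (nat_lit 4) (nat_lit 16) (nat_lit 4) (nat_lit 340) (nat_lit 222) (nat_lit 218)) (XT.lf (nat_lit 0) (nat_lit 9770484605) (nat_lit 152) (nat_lit 1504798132) (nat_lit 0) (nat_lit 7539076074) (nat_lit 16) (nat_lit 5) (nat_lit 18) (nat_lit 4)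 (nat_lit 16) (nat_lit 4) (nat_lit 341) (nat_lit 222) (nat_lit 217)))) (XT.nd (nat_lit 78) (nat_lit 0) (nat_lit 0) (XT.lf (nat_lit 0) (nat_lit 4011727899) (nat_lit 152) (nat_lit 8949976255) (nat_lit 152) (nat_lit 6310513357) (nat_lit 14) (nat_lit 4) (nat_lit 16) (nat_lit 5) (nat_lit 16) (nat_lit 4) (nat_lit 342) (nat_lit 222) (nat_lit 216)) (XT.nd (nat_lit 78) (nat_lit 0) (nat_lit 0) (XT.lf (nat_lit 0) (nat_lit 9622034879) (nat_lit 152) (nat_lit 6579458105) (nat_lit 152) (nat_lit 3543825919) (nat_lit 14) (nat_lit 4) (nat_lit 16) (nat_lit 5) (nat_lit 16) (nat_lit 4) (nat_lit 343) (nat_lit 222) (nat_lit 215)) (XT.lf (nat_lit 0) (nat_lit 15301076584) (nat_lit 152) (nat_lit 4176852471) (nat_lit 152) (nat_lit 756589908) (nat_lit 14) (nat_lit 4) (nat_lit 16) (nat_lit 5) (nat_lit 16) (nat_lit 4) (nat_lit 344) (nat_lit 222) (nat_lit 214)))))) (XT.nd (nat_lit 390) (nat_lit 304) (nat_lit 0) (XT.nd (nat_lit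 156) (nat_lit 0) (nat_lit 0) (XT.nd (nat_lit 78) (nat_lit 0) (nat_lit 0) (XT.lf (nat_lit 0) (nat_lit 299677165) (nat_lit 76) (nat_lit 1716759917) (nat_lit 152) (nat_lit 18723129424) (nat_lit 12) (nat_lit 5) (nat_lit 13) (nat_lit 5) (nat_lit 14) (nat_lit 4) (nat_lit 345) (nat_lit 222) (nat_lit 213)) (XT.lf (nat_lit 0) (nat_lit 4856595282) (nat_lit 152) (nat_lit 15581642995) (nat_lit 0) (nat_lit 821409717) (nat_lit 12) (nat_lit 5) (nat_lit 14) (nat_lit 4) (nat_lit 12) (nat_lit 4) (nat_lit 346) (nat_lit 222) (nat_lit 212))) (XT.nd (nat_lit 78) (nat_lit 0) (nat_lit 0) (XT.lf (nat_lit 0) (nat_lit 7741655810) (nat_lit 152) (nat_lit 10690233335) (nat_lit 0) (nat_lit 3364731137) (nat_lit 12) (nat_lit 5) (nat_lit 14) (nat_lit 4) (nat_lit 12) (nat_lit 4) (nat_lit 347) (nat_lit 222) (nat_lit 211)) (XT.nd (nat_lit 78) (nat_lit 0) (nat_lit 0) (XT.lf (nat_lit 0) (nat_lit 10657637046) (nat_lit 152) (nat_lit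 5744883769) (nat_lit 0) (nat_lit 5948926832) (nat_lit 12) (nat_lit 5) (nat_lit 14) (nat_lit 4) (nat_lit 12) (nat_lit 4) (nat_lit 348) (nat_lit 222) (nat_lit 210)) (XT.lf (nat_lit 0) (nat_lit 13607086936) (nat_lit 152) (nat_lit 741273116) (nat_lit 0) (nat_lit 8576254836) (nat_lit 12) (nat_lit 5) (nat_lit 14) (nat_lit 4) (nat_lit 12) (nat_lit 4) (nat_lit 349) (nat_lit 222) (nat_lit 209))))) (XT.nd (nat_lit 234) (nat_lit 152) (nat_lit 0) (XT.nd (nat_lit 78) (nat_lit 0) (nat_lit 0) (XT.lf (nat_lit 0) (nat_lit 4411046106) (nat_lit 152) (nat_lit 12223938235) (nat_lit 152) (nat_lit 6880366441) (nat_lit 10) (nat_lit 4) (nat_lit 12) (nat_lit 5) (nat_lit 12) (nat_lit 4) (nat_lit 350) (nat_lit 222) (nat_lit 208)) (XT.nd (nat_lit 78) (nat_lit 0) (nat_lit 0) (XT.lf (nat_lit 0) (nat_lit 9646512731) (nat_lit 152) (nat_lit 10062948378) (nat_lit 152) (nat_lit 4415745813) (nat_lit 10) (nat_lit 4) (nat_lit 12)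 (nat_lit 5) (nat_lit 12) (nat_lit 4) (nat_lit 351) (nat_lit 222) (nat_lit 207)) (XT.lf (nat_lit 0) (nat_lit 14954948649) (nat_lit 152) (nat_lit 7870987643) (nat_lit 152) (nat_lit 1928997921) (nat_lit 10) (nat_lit 4) (nat_lit 12) (nat_lit 5) (nat_lit 12) (nat_lit 4) (nat_lit 352) (nat_lit 222) (nat_lit 206)))) (XT.nd (nat_lit 78) (nat_lit 76) (nat_lit 0) (XT.lf (nat_lit 0) (nat_lit 570692225) (nat_lit 228) (nat_lit 5069685626) (nat_lit 76) (nat_lit 19764537201) (nat_lit 9) (nat_lit 5) (nat_lit 12) (nat_lit 5) (nat_lit 10) (nat_lit 4) (nat_lit 353) (nat_lit 222) (nat_lit 205)) (XT.nd (nat_lit 78) (nat_lit 76) (nat_lit 0) (XT.lf (nat_lit 0) (nat_lit 3058717946) (nat_lit 228) (nat_lit 296858580) (nat_lit 76) (nat_lit 22719744933) (nat_lit 9) (nat_lit 5) (nat_lit 12) (nat_lit 5) (nat_lit 10) (nat_lit 4) (nat_lit 354) (nat_lit 222) (nat_lit 204)) (XT.lf (nat_lit 0) (nat_lit 4631587668) (nat_lit 76)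 (nat_lit 987828926) (nat_lit 152) (nat_lit 21146543264) (nat_lit 8) (nat_lit 5) (nat_lit 9) (nat_lit 5) (nat_lit 10) (nat_lit 4) (nat_lit 355) (nat_lit 222) (nat_lit 203))))))))
noncomputable def xc25 : XT := (XT.nd (nat_lit 1716) (nat_lit 228) (nat_lit 0) (XT.nd (nat_lit 858) (nat_lit 76) (nat_lit 0) (XT.nd (nat_lit 390) (nat_lit 152) (nat_lit 0) (XT.nd (nat_lit 156) (nat_lit 0) (nat_lit 0) (XT.nd (nat_lit 78) (nat_lit 0) (nat_lit 0) (XT.lf (nat_lit 0) (nat_lit 8227732758) (nat_lit 152) (nat_lit 17855546786) (nat_lit 0) (nat_lit 1394972962) (nat_lit 8) (nat_lit 5) (nat_lit 10) (nat_lit 4) (nat_lit 8) (nat_lit 4) (nat_lit 356) (nat_lit 222) (nat_lit 202)) (XT.lf (nat_lit 0) (nat_lit 10879245644) (nat_lit 152) (nat_lit 13534170903) (nat_lit 0) (nat_lit 3799606246) (nat_lit 8) (nat_lit 5) (nat_lit 10) (nat_lit 4) (nat_lit 8) (nat_lit 4) (nat_lit 357) (nat_lit 222) (nat_lit 201))) (XT.nd (nat_lit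 78) (nat_lit 0) (nat_lit 0) (XT.lf (nat_lit 0) (nat_lit 13566776493) (nat_lit 152) (nat_lit 9156972966) (nat_lit 0) (nat_lit 6247448160) (nat_lit 8) (nat_lit 5) (nat_lit 10) (nat_lit 4) (nat_lit 8) (nat_lit 4) (nat_lit 358) (nat_lit 222) (nat_lit 200)) (XT.nd (nat_lit 78) (nat_lit 0) (nat_lit 0) (XT.lf (nat_lit 0) (nat_lit 16292673633) (nat_lit 152) (nat_lit 4720128239) (nat_lit 0) (nat_lit 8740637596) (nat_lit 8) (nat_lit 5) (nat_lit 10) (nat_lit 4) (nat_lit 8) (nat_lit 4) (nat_lit 359) (nat_lit 222) (nat_lit 199)) (XT.lf (nat_lit 0) (nat_lit 19059318915) (nat_lit 152) (nat_lit 219759867) (nat_lit 0) (nat_lit 11281353069) (nat_lit 8) (nat_lit 5) (nat_lit 10) (nat_lit 4) (nat_lit 8) (nat_lit 4) (nat_lit 360) (nat_lit 222) (nat_lit 198))))) (XT.nd (nat_lit 234) (nat_lit 76) (nat_lit 0) (XT.nd (nat_lit 78) (nat_lit 0) (nat_lit 0) (XT.lf (nat_lit 0) (nat_lit 4434599520) (nat_lit 76) (nat_lit 17477158359)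 (nat_lit 76) (nat_lit 9479843185) (nat_lit 7) (nat_lit 4) (nat_lit 8) (nat_lit 5) (nat_lit 8) (nat_lit 4) (nat_lit 361) (nat_lit 222) (nat_lit 197)) (XT.nd (nat_lit 78) (nat_lit 0) (nat_lit 0) (XT.lf (nat_lit 0) (nat_lit 9166201809) (nat_lit 76) (nat_lit 15646470781) (nat_lit 76) (nat_lit 7436195093) (nat_lit 7) (nat_lit 4) (nat_lit 8) (nat_lit 5) (nat_lit 8) (nat_lit 4) (nat_lit 362) (nat_lit 222) (nat_lit 196)) (XT.lf (nat_lit 0) (nat_lit 13974807759) (nat_lit 76) (nat_lit 13787635561) (nat_lit 76) (nat_lit 5370602092) (nat_lit 7) (nat_lit 4) (nat_lit 8) (nat_lit 5) (nat_lit 8) (nat_lit 4) (nat_lit 363) (nat_lit 222) (nat_lit 195)))) (XT.nd (nat_lit 78) (nat_lit 76) (nat_lit 0) (XT.lf (nat_lit 0) (nat_lit 18864619062) (nat_lit 76) (nat_lit 11899028474) (nat_lit 76) (nat_lit 3281259295) (nat_lit 7) (nat_lit 4) (nat_lit 8) (nat_lit 5) (nat_lit 8) (nat_lit 4) (nat_lit 364) (nat_lit 222) (nat_lit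 194)) (XT.nd (nat_lit 78) (nat_lit 76) (nat_lit 0) (XT.lf (nat_lit 0) (nat_lit 23839908371) (nat_lit 76) (nat_lit 9978999280) (nat_lit 76) (nat_lit 1166341064) (nat_lit 7) (nat_lit 4) (nat_lit 8) (nat_lit 5) (nat_lit 8) (nat_lit 4) (nat_lit 365) (nat_lit 222) (nat_lit 193)) (XT.lf (nat_lit 0) (nat_lit 956955302) (nat_lit 152) (nat_lit 7059251611) (nat_lit 76) (nat_lit 27938404350) (nat_lit 6) (nat_lit 5) (nat_lit 8) (nat_lit 5) (nat_lit 7) (nat_lit 4) (nat_lit 366) (nat_lit 222) (nat_lit 192)))))) (XT.nd (nat_lit 390) (nat_lit 0) (nat_lit 0) (XT.nd (nat_lit 156) (nat_lit 0) (nat_lit 0) (XT.nd (nat_lit 78) (nat_lit 76) (nat_lit 0) (XT.lf (nat_lit 0) (nat_lit 3086215866) (nat_lit 152) (nat_lit 2920554276) (nat_lit 76) (nat_lit 30947008256) (nat_lit 6) (nat_lit 5) (nat_lit 8) (nat_lit 5) (nat_lit 7) (nat_lit 4) (nat_lit 367) (nat_lit 222) (nat_lit 191)) (XT.lf (nat_lit 0) (nat_lit 1311165135)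 (nat_lit 76) (nat_lit 3947499247) (nat_lit 152) (nat_lit 32724917033) (nat_lit 5) (nat_lit 5) (nat_lit 6) (nat_lit 5) (nat_lit 7) (nat_lit 4) (nat_lit 368) (nat_lit 222) (nat_lit 190))) (XT.nd (nat_lit 78) (nat_lit 0) (nat_lit 0) (XT.lf (nat_lit 0) (nat_lit 5673536353) (nat_lit 76) (nat_lit 1819378080) (nat_lit 152) (nat_lit 31551504250) (nat_lit 5) (nat_lit 5) (nat_lit 6) (nat_lit 5) (nat_lit 7) (nat_lit 4) (nat_lit 369) (nat_lit 222) (nat_lit 189)) (XT.nd (nat_lit 78) (nat_lit 0) (nat_lit 0) (XT.lf (nat_lit 0) (nat_lit 9765649431) (nat_lit 152) (nat_lit 30029193773) (nat_lit 0) (nat_lit 343132009) (nat_lit 5) (nat_lit 5) (nat_lit 7) (nat_lit 4) (nat_lit 5) (nat_lit 4) (nat_lit 370) (nat_lit 222) (nat_lit 188)) (XT.lf (nat_lit 0) (nat_lit 12093391687) (nat_lit 152) (nat_lit 26658967115) (nat_lit 0) (nat_lit 2512411643) (nat_lit 5) (nat_lit 5) (nat_lit 7) (nat_lit 4) (nat_lit 5) (nat_lit 4)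 (nat_lit 371) (nat_lit 222) (nat_lit 187))))) (XT.nd (nat_lit 234) (nat_lit 0) (nat_lit 0) (XT.nd (nat_lit 78) (nat_lit 0) (nat_lit 0) (XT.lf (nat_lit 0) (nat_lit 14460686178) (nat_lit 152) (nat_lit 23239768521) (nat_lit 0) (nat_lit 4725858928) (nat_lit 5) (nat_lit 5) (nat_lit 7) (nat_lit 4) (nat_lit 5) (nat_lit 4) (nat_lit 372) (nat_lit 222) (nat_lit 186)) (XT.nd (nat_lit 78) (nat_lit 0) (nat_lit 0) (XT.lf (nat_lit 0) (nat_lit 16869601413) (nat_lit 152) (nat_lit 19768610344) (nat_lit 0) (nat_lit 6985407943) (nat_lit 5) (nat_lit 5) (nat_lit 7) (nat_lit 4) (nat_lit 5) (nat_lit 4) (nat_lit 373) (nat_lit 222) (nat_lit 185)) (XT.lf (nat_lit 0) (nat_lit 19322242270) (nat_lit 152) (nat_lit 16242459533) (nat_lit 0) (nat_lit 9293033052) (nat_lit 5) (nat_lit 5) (nat_lit 7) (nat_lit 4) (nat_lit 5) (nat_lit 4) (nat_lit 374) (nat_lit 222) (nat_lit 184)))) (XT.nd (nat_lit 78) (nat_lit 0) (nat_lit 0) (XT.lf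 (nat_lit 0) (nat_lit 21820751832) (nat_lit 152) (nat_lit 12658234985) (nat_lit 0) (nat_lit 11650750627) (nat_lit 5) (nat_lit 5) (nat_lit 7) (nat_lit 4) (nat_lit 5) (nat_lit 4) (nat_lit 375) (nat_lit 222) (nat_lit 183)) (XT.nd (nat_lit 78) (nat_lit 0) (nat_lit 0) (XT.lf (nat_lit 0) (nat_lit 24367313264) (nat_lit 152) (nat_lit 9012804852) (nat_lit 0) (nat_lit 14060620809) (nat_lit 5) (nat_lit 5) (nat_lit 7) (nat_lit 4) (nat_lit 5) (nat_lit 4) (nat_lit 376) (nat_lit 222) (nat_lit 182)) (XT.lf (nat_lit 0) (nat_lit 26964151716) (nat_lit 152) (nat_lit 5302983809) (nat_lit 0) (nat_lit 16524749309) (nat_lit 5) (nat_lit 5) (nat_lit 7) (nat_lit 4) (nat_lit 5) (nat_lit 4) (nat_lit 377) (nat_lit 222) (nat_lit 181))))))) (XT.nd (nat_lit 858) (nat_lit 152) (nat_lit 0) (XT.nd (nat_lit 390) (nat_lit 0) (nat_lit 0) (XT.nd (nat_lit 156) (nat_lit 0) (nat_lit 0) (XT.nd (nat_lit 78) (nat_lit 76) (nat_lit 0) (XT.lf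 (nat_lit 0) (nat_lit 29613536270) (nat_lit 152) (nat_lit 1525530263) (nat_lit 0) (nat_lit 19045289250) (nat_lit 5) (nat_lit 5) (nat_lit 7) (nat_lit 4) (nat_lit 5) (nat_lit 4) (nat_lit 378) (nat_lit 222) (nat_lit 180)) (XT.lf (nat_lit 0) (nat_lit 2369085870) (nat_lit 76) (nat_lit 29971469155) (nat_lit 76) (nat_lit 19278130278) (nat_lit 4) (nat_lit 4) (nat_lit 5) (nat_lit 5) (nat_lit 5) (nat_lit 4) (nat_lit 379) (nat_lit 222) (nat_lit 179))) (XT.nd (nat_lit 78) (nat_lit 0) (nat_lit 0) (XT.lf (nat_lit 0) (nat_lit 6369837538) (nat_lit 76) (nat_lit 28770644844) (nat_lit 76) (nat_lit 17955857561) (nat_lit 4) (nat_lit 4) (nat_lit 5) (nat_lit 5) (nat_lit 5) (nat_lit 4) (nat_lit 380) (nat_lit 222) (nat_lit 178)) (XT.nd (nat_lit 78) (nat_lit 0) (nat_lit 0) (XT.lf (nat_lit 0) (nat_lit 10449859501) (nat_lit 76) (nat_lit 27550949199) (nat_lit 76) (nat_lit 16618250843) (nat_lit 4) (nat_lit 4) (nat_lit 5)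 (nat_lit 5) (nat_lit 5) (nat_lit 4) (nat_lit 381) (nat_lit 222) (nat_lit 177)) (XT.lf (nat_lit 0) (nat_lit 14612716824) (nat_lit 76) (nat_lit 26311316469) (nat_lit 76) (nat_lit 15264141343) (nat_lit 4) (nat_lit 4) (nat_lit 5) (nat_lit 5) (nat_lit 5) (nat_lit 4) (nat_lit 382) (nat_lit 222) (nat_lit 176))))) (XT.nd (nat_lit 234) (nat_lit 0) (nat_lit 0) (XT.nd (nat_lit 78) (nat_lit 0) (nat_lit 0) (XT.lf (nat_lit 0) (nat_lit 18862046957) (nat_lit 76) (nat_lit 25050663478) (nat_lit 76) (nat_lit 13892345857) (nat_lit 4) (nat_lit 4) (nat_lit 5) (nat_lit 5) (nat_lit 5) (nat_lit 4) (nat_lit 383) (nat_lit 222) (nat_lit 175)) (XT.nd (nat_lit 78) (nat_lit 0) (nat_lit 0) (XT.lf (nat_lit 0) (nat_lit 23201562906) (nat_lit 76) (nat_lit 23767888685) (nat_lit 76) (nat_lit 12501665729) (nat_lit 4) (nat_lit 4) (nat_lit 5) (nat_lit 5) (nat_lit 5) (nat_lit 4) (nat_lit 384) (nat_lit 222) (nat_lit 174)) (XT.lf (nat_lit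 0) (nat_lit 27635056482) (nat_lit 76) (nat_lit 22461871219) (nat_lit 76) (nat_lit 11090885801) (nat_lit 4) (nat_lit 4) (nat_lit 5) (nat_lit 5) (nat_lit 5) (nat_lit 4) (nat_lit 385) (nat_lit 222) (nat_lit 173)))) (XT.nd (nat_lit 78) (nat_lit 0) (nat_lit 0) (XT.lf (nat_lit 0) (nat_lit 32166401611) (nat_lit 76) (nat_lit 21131469900) (nat_lit 76) (nat_lit 9658773355) (nat_lit 4) (nat_lit 4) (nat_lit 5) (nat_lit 5) (nat_lit 5) (nat_lit 4) (nat_lit 386) (nat_lit 222) (nat_lit 172)) (XT.nd (nat_lit 78) (nat_lit 0) (nat_lit 0) (XT.lf (nat_lit 0) (nat_lit 36799557720) (nat_lit 76) (nat_lit 19775522241) (nat_lit 76) (nat_lit 8204077028) (nat_lit 4) (nat_lit 4) (nat_lit 5) (nat_lit 5) (nat_lit 5) (nat_lit 4) (nat_lit 387) (nat_lit 222) (nat_lit 171)) (XT.lf (nat_lit 0) (nat_lit 41538573198) (nat_lit 76) (nat_lit 18392843433) (nat_lit 76) (nat_lit 6725525728) (nat_lit 4) (nat_lit 4) (nat_lit 5) (nat_lit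 5) (nat_lit 5) (nat_lit 4) (nat_lit 388) (nat_lit 222) (nat_lit 170)))))) (XT.nd (nat_lit 390) (nat_lit 76) (nat_lit 0) (XT.nd (nat_lit 156) (nat_lit 76) (nat_lit 0) (XT.nd (nat_lit 78) (nat_lit 0) (nat_lit 0) (XT.lf (nat_lit 0) (nat_lit 46387588934) (nat_lit 76) (nat_lit 16982225311) (nat_lit 76) (nat_lit 5221827516) (nat_lit 4) (nat_lit 4) (nat_lit 5) (nat_lit 5) (nat_lit 5) (nat_lit 4) (nat_lit 389) (nat_lit 222) (nat_lit 169)) (XT.lf (nat_lit 0) (nat_lit 51350841930) (nat_lit 76) (nat_lit 15542435295) (nat_lit 76) (nat_lit 3691668481) (nat_lit 4) (nat_lit 4) (nat_lit 5) (nat_lit 5) (nat_lit 5) (nat_lit 4) (nat_lit 390) (nat_lit 222) (nat_lit 168))) (XT.nd (nat_lit 78) (nat_lit 76) (nat_lit 0) (XT.lf (nat_lit 0) (nat_lit 56432669010) (nat_lit 76) (nat_lit 14072215317) (nat_lit 76) (nat_lit 2133711591) (nat_lit 4) (nat_lit 4) (nat_lit 5) (nat_lit 5) (nat_lit 5) (nat_lit 4) (nat_lit 391) (nat_lit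 222) (nat_lit 167)) (XT.nd (nat_lit 78) (nat_lit 76) (nat_lit 0) (XT.lf (nat_lit 0) (nat_lit 61637510606) (nat_lit 76) (nat_lit 12570280718) (nat_lit 76) (nat_lit 546595524) (nat_lit 4) (nat_lit 4) (nat_lit 5) (nat_lit 5) (nat_lit 5) (nat_lit 4) (nat_lit 392) (nat_lit 222) (nat_lit 166)) (XT.lf (nat_lit 0) (nat_lit 1050166153) (nat_lit 152) (nat_lit 9974548356) (nat_lit 76) (nat_lit 65909143863) (nat_lit 3) (nat_lit 5) (nat_lit 5) (nat_lit 5) (nat_lit 4) (nat_lit 4) (nat_lit 393) (nat_lit 222) (nat_lit 165))))) (XT.nd (nat_lit 234) (nat_lit 76) (nat_lit 0) (XT.nd (nat_lit 78) (nat_lit 0) (nat_lit 0) (XT.lf (nat_lit 0) (nat_lit 2667597608) (nat_lit 152) (nat_lit 6771454207) (nat_lit 76) (nat_lit 69740005370) (nat_lit 3) (nat_lit 5) (nat_lit 5) (nat_lit 5) (nat_lit 4) (nat_lit 4) (nat_lit 394) (nat_lit 222) (nat_lit 164)) (XT.nd (nat_lit 78) (nat_lit 0) (nat_lit 0) (XT.lf (nat_lit 0) (nat_lit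 4317778176) (nat_lit 152) (nat_lit 3499540764) (nat_lit 76) (nat_lit 73674783795) (nat_lit 3) (nat_lit 5) (nat_lit 5) (nat_lit 5) (nat_lit 4) (nat_lit 4) (nat_lit 395) (nat_lit 222) (nat_lit 163)) (XT.lf (nat_lit 0) (nat_lit 6002149762) (nat_lit 152) (nat_lit 155949074) (nat_lit 76) (nat_lit 77716917293) (nat_lit 3) (nat_lit 5) (nat_lit 5) (nat_lit 5) (nat_lit 4) (nat_lit 4) (nat_lit 396) (nat_lit 222) (nat_lit 162)))) (XT.nd (nat_lit 78) (nat_lit 0) (nat_lit 0) (XT.lf (nat_lit 0) (nat_lit 3327167469) (nat_lit 76) (nat_lit 4426999449) (nat_lit 152) (nat_lit 78574753126) (nat_lit 2) (nat_lit 5) (nat_lit 3) (nat_lit 5) (nat_lit 4) (nat_lit 4) (nat_lit 397) (nat_lit 222) (nat_lit 161)) (XT.nd (nat_lit 78) (nat_lit 0) (nat_lit 0) (XT.lf (nat_lit 0) (nat_lit 6892518431) (nat_lit 76) (nat_lit 2653120950) (nat_lit 152) (nat_lit 79311210919) (nat_lit 2) (nat_lit 5) (nat_lit 3) (nat_lit 5) (nat_lit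 4) (nat_lit 4) (nat_lit 398) (nat_lit 222) (nat_lit 160)) (XT.lf (nat_lit 0) (nat_lit 10540115476) (nat_lit 76) (nat_lit 836488128) (nat_lit 152) (nat_lit 80084458033) (nat_lit 2) (nat_lit 5) (nat_lit 3) (nat_lit 5) (nat_lit 4) (nat_lit 4) (nat_lit 399) (nat_lit 222) (nat_lit 159))))))))
noncomputable def xc26 : XT := (XT.nd (nat_lit 36972) (nat_lit 0) (nat_lit 228) (XT.nd (nat_lit 36114) (nat_lit 0) (nat_lit 608) (XT.nd (nat_lit 35646) (nat_lit 0) (nat_lit 1064) (XT.nd (nat_lit 156) (nat_lit 0) (nat_lit 0) (XT.nd (nat_lit 78) (nat_lit 0) (nat_lit 0) (XT.lf (nat_lit 0) (nat_lit 13258507449) (nat_lit 152) (nat_lit 79880531747) (nat_lit 0) (nat_lit 1004494944) (nat_lit 2) (nat_lit 5) (nat_lit 4) (nat_lit 4) (nat_lit 2) (nat_lit 4) (nat_lit 400) (nat_lit 222) (nat_lit 158)) (XT.lf (nat_lit 0) (nat_lit 15191621408) (nat_lit 152) (nat_lit 78840805634) (nat_lit 0) (nat_lit 2874225891) (nat_lit 2)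 (nat_lit 5) (nat_lit 4) (nat_lit 4) (nat_lit 2) (nat_lit 4) (nat_lit 401) (nat_lit 222) (nat_lit 157))) (XT.nd (nat_lit 35334) (nat_lit 0) (nat_lit 1368) (XT.lf (nat_lit 0) (nat_lit 17169593773) (nat_lit 152) (nat_lit 77792818491) (nat_lit 0) (nat_lit 4790661352) (nat_lit 2) (nat_lit 5) (nat_lit 4) (nat_lit 4) (nat_lit 2) (nat_lit 4) (nat_lit 402) (nat_lit 222) (nat_lit 156)) (XT.nd (nat_lit 78) (nat_lit 0) (nat_lit 0) (XT.lf (nat_lit 0) (nat_lit 2544061999) (nat_lit 228) (nat_lit 2908469180) (nat_lit 0) (nat_lit 2544061999) (nat_lit 20) (nat_lit 5) (nat_lit 23) (nat_lit 4) (nat_lit 20) (nat_lit 4) (nat_lit 334) (nat_lit 223) (nat_lit 223)) (XT.lf (nat_lit 0) (nat_lit 8336399224) (nat_lit 228) (nat_lit 187812424) (nat_lit 0) (nat_lit 7834543823) (nat_lit 20) (nat_lit 5) (nat_lit 23) (nat_lit 4) (nat_lit 20) (nat_lit 4) (nat_lit 335) (nat_lit 223) (nat_lit 222))))) (XT.nd (nat_lit 234) (nat_lit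 76) (nat_lit 0) (XT.nd (nat_lit 78) (nat_lit 76) (nat_lit 0) (XT.lf (nat_lit 0) (nat_lit 5607469708) (nat_lit 152) (nat_lit 6058752825) (nat_lit 152) (nat_lit 5069659170) (nat_lit 18) (nat_lit 4) (nat_lit 20) (nat_lit 5) (nat_lit 20) (nat_lit 4) (nat_lit 336) (nat_lit 223) (nat_lit 221)) (XT.nd (nat_lit 78) (nat_lit 76) (nat_lit 0) (XT.lf (nat_lit 0) (nat_lit 11469420170) (nat_lit 152) (nat_lit 3559580006) (nat_lit 152) (nat_lit 2097439503) (nat_lit 18) (nat_lit 4) (nat_lit 20) (nat_lit 5) (nat_lit 20) (nat_lit 4) (nat_lit 337) (nat_lit 223) (nat_lit 220)) (XT.lf (nat_lit 0) (nat_lit 877538562) (nat_lit 228) (nat_lit 140006005) (nat_lit 76) (nat_lit 16513023237) (nat_lit 17) (nat_lit 5) (nat_lit 20) (nat_lit 5) (nat_lit 18) (nat_lit 4) (nat_lit 338) (nat_lit 223) (nat_lit 219)))) (XT.nd (nat_lit 78) (nat_lit 0) (nat_lit 0) (XT.lf (nat_lit 0) (nat_lit 3902805105) (nat_lit 152) (nat_lit 12438941914)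 (nat_lit 0) (nat_lit 1604454317) (nat_lit 16) (nat_lit 5) (nat_lit 18) (nat_lit 4) (nat_lit 16) (nat_lit 4) (nat_lit 339) (nat_lit 223) (nat_lit 218)) (XT.nd (nat_lit 78) (nat_lit 0) (nat_lit 0) (XT.lf (nat_lit 0) (nat_lit 6965217341) (nat_lit 152) (nat_lit 7164221855) (nat_lit 0) (nat_lit 4246570556) (nat_lit 16) (nat_lit 5) (nat_lit 18) (nat_lit 4) (nat_lit 16) (nat_lit 4) (nat_lit 340) (nat_lit 223) (nat_lit 217)) (XT.lf (nat_lit 0) (nat_lit 10056283706) (nat_lit 152) (nat_lit 1834837377) (nat_lit 0) (nat_lit 6929582555) (nat_lit 16) (nat_lit 5) (nat_lit 18) (nat_lit 4) (nat_lit 16) (nat_lit 4) (nat_lit 341) (nat_lit 223) (nat_lit 216)))))) (XT.nd (nat_lit 390) (nat_lit 152) (nat_lit 0) (XT.nd (nat_lit 156) (nat_lit 152) (nat_lit 0) (XT.nd (nat_lit 78) (nat_lit 0) (nat_lit 0) (XT.lf (nat_lit 0) (nat_lit 3624597212) (nat_lit 152) (nat_lit 9588949765) (nat_lit 152) (nat_lit 6066079326) (nat_lit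 14) (nat_lit 4) (nat_lit 16) (nat_lit 5) (nat_lit 16) (nat_lit 4) (nat_lit 342) (nat_lit 223) (nat_lit 215)) (XT.lf (nat_lit 0) (nat_lit 9185852722) (nat_lit 152) (nat_lit 7237657261) (nat_lit 152) (nat_lit 3330156445) (nat_lit 14) (nat_lit 4) (nat_lit 16) (nat_lit 5) (nat_lit 16) (nat_lit 4) (nat_lit 343) (nat_lit 223) (nat_lit 214))) (XT.nd (nat_lit 78) (nat_lit 152) (nat_lit 0) (XT.lf (nat_lit 0) (nat_lit 14817271640) (nat_lit 152) (nat_lit 4853717302) (nat_lit 152) (nat_lit 572788936) (nat_lit 14) (nat_lit 4) (nat_lit 16) (nat_lit 5) (nat_lit 16) (nat_lit 4) (nat_lit 344) (nat_lit 223) (nat_lit 213)) (XT.nd (nat_lit 78) (nat_lit 76) (nat_lit 0) (XT.lf (nat_lit 0) (nat_lit 2165338075) (nat_lit 228) (nat_lit 247843091) (nat_lit 76) (nat_lit 18336570878) (nat_lit 13) (nat_lit 5) (nat_lit 16) (nat_lit 5) (nat_lit 14) (nat_lit 4) (nat_lit 345) (nat_lit 223) (nat_lit 212)) (XT.lf (nat_lit 0)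 (nat_lit 4968121335) (nat_lit 152) (nat_lit 16184722688) (nat_lit 0) (nat_lit 118149814) (nat_lit 12) (nat_lit 5) (nat_lit 14) (nat_lit 4) (nat_lit 12) (nat_lit 4) (nat_lit 346) (nat_lit 223) (nat_lit 211))))) (XT.nd (nat_lit 234) (nat_lit 152) (nat_lit 0) (XT.nd (nat_lit 78) (nat_lit 0) (nat_lit 0) (XT.lf (nat_lit 0) (nat_lit 7825777377) (nat_lit 152) (nat_lit 11339028488) (nat_lit 0) (nat_lit 2644020314) (nat_lit 12) (nat_lit 5) (nat_lit 14) (nat_lit 4) (nat_lit 12) (nat_lit 4) (nat_lit 347) (nat_lit 223) (nat_lit 210)) (XT.nd (nat_lit 78) (nat_lit 0) (nat_lit 0) (XT.lf (nat_lit 0) (nat_lit 10715152316) (nat_lit 152) (nat_lit 6438062863) (nat_lit 0) (nat_lit 5211273368) (nat_lit 12) (nat_lit 5) (nat_lit 14) (nat_lit 4) (nat_lit 12) (nat_lit 4) (nat_lit 348) (nat_lit 223) (nat_lit 209)) (XT.lf (nat_lit 0) (nat_lit 13638770848) (nat_lit 152) (nat_lit 1477543416) (nat_lit 0) (nat_lit 7822152206)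 (nat_lit 12) (nat_lit 5) (nat_lit 14) (nat_lit 4) (nat_lit 12) (nat_lit 4) (nat_lit 349) (nat_lit 223) (nat_lit 208)))) (XT.nd (nat_lit 78) (nat_lit 0) (nat_lit 0) (XT.lf (nat_lit 0) (nat_lit 3617453842) (nat_lit 152) (nat_lit 13016506930) (nat_lit 152) (nat_lit 6896257517) (nat_lit 10) (nat_lit 4) (nat_lit 12) (nat_lit 5) (nat_lit 12) (nat_lit 4) (nat_lit 350) (nat_lit 223) (nat_lit 207)) (XT.nd (nat_lit 78) (nat_lit 0) (nat_lit 0) (XT.lf (nat_lit 0) (nat_lit 8811494503) (nat_lit 152) (nat_lit 10872196294) (nat_lit 152) (nat_lit 4457159724) (nat_lit 10) (nat_lit 4) (nat_lit 12) (nat_lit 5) (nat_lit 12) (nat_lit 4) (nat_lit 351) (nat_lit 223) (nat_lit 206)) (XT.lf (nat_lit 0) (nat_lit 14079711039) (nat_lit 152) (nat_lit 8696428976) (nat_lit 152) (nat_lit 1995191284) (nat_lit 10) (nat_lit 4) (nat_lit 12) (nat_lit 5) (nat_lit 12) (nat_lit 4) (nat_lit 352) (nat_lit 223) (nat_lit 205))))))) (XT.nd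 (nat_lit 858) (nat_lit 152) (nat_lit 0) (XT.nd (nat_lit 390) (nat_lit 76) (nat_lit 0) (XT.nd (nat_lit 156) (nat_lit 76) (nat_lit 0) (XT.nd (nat_lit 78) (nat_lit 0) (nat_lit 0) (XT.lf (nat_lit 0) (nat_lit 482202266) (nat_lit 228) (nat_lit 6000232259) (nat_lit 76) (nat_lit 18939635182) (nat_lit 9) (nat_lit 5) (nat_lit 12) (nat_lit 5) (nat_lit 10) (nat_lit 4) (nat_lit 353) (nat_lit 223) (nat_lit 204)) (XT.lf (nat_lit 0) (nat_lit 2947326756) (nat_lit 228) (nat_lit 1265801551) (nat_lit 76) (nat_lit 21880064777) (nat_lit 9) (nat_lit 5) (nat_lit 12) (nat_lit 5) (nat_lit 10) (nat_lit 4) (nat_lit 354) (nat_lit 223) (nat_lit 203))) (XT.nd (nat_lit 78) (nat_lit 0) (nat_lit 0) (XT.lf (nat_lit 0) (nat_lit 3605340930) (nat_lit 76) (nat_lit 1870585359) (nat_lit 152) (nat_lit 21308897229) (nat_lit 8) (nat_lit 5) (nat_lit 9) (nat_lit 5) (nat_lit 10) (nat_lit 4) (nat_lit 355) (nat_lit 223) (nat_lit 202)) (XT.nd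 (nat_lit 78) (nat_lit 0) (nat_lit 0) (XT.lf (nat_lit 0) (nat_lit 8053671515) (nat_lit 152) (nat_lit 18929626663) (nat_lit 0) (nat_lit 514763332) (nat_lit 8) (nat_lit 5) (nat_lit 10) (nat_lit 4) (nat_lit 8) (nat_lit 4) (nat_lit 356) (nat_lit 223) (nat_lit 201)) (XT.lf (nat_lit 0) (nat_lit 10683742320) (nat_lit 152) (nat_lit 14644614929) (nat_lit 0) (nat_lit 2905145203) (nat_lit 8) (nat_lit 5) (nat_lit 10) (nat_lit 4) (nat_lit 8) (nat_lit 4) (nat_lit 357) (nat_lit 223) (nat_lit 200))))) (XT.nd (nat_lit 234) (nat_lit 76) (nat_lit 0) (XT.nd (nat_lit 78) (nat_lit 0) (nat_lit 0) (XT.lf (nat_lit 0) (nat_lit 13350455615) (nat_lit 152) (nat_lit 10302721991) (nat_lit 0) (nat_lit 5339150794) (nat_lit 8) (nat_lit 5) (nat_lit 10) (nat_lit 4) (nat_lit 8) (nat_lit 4) (nat_lit 358) (nat_lit 223) (nat_lit 199)) (XT.nd (nat_lit 78) (nat_lit 0) (nat_lit 0) (XT.lf (nat_lit 0) (nat_lit 16056141537) (nat_lit 152)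 (nat_lit 5900153961) (nat_lit 0) (nat_lit 7818906907) (nat_lit 8) (nat_lit 5) (nat_lit 10) (nat_lit 4) (nat_lit 8) (nat_lit 4) (nat_lit 359) (nat_lit 223) (nat_lit 198)) (XT.lf (nat_lit 0) (nat_lit 18803164277) (nat_lit 152) (nat_lit 1433063937) (nat_lit 0) (nat_lit 10346580318) (nat_lit 8) (nat_lit 5) (nat_lit 10) (nat_lit 4) (nat_lit 8) (nat_lit 4) (nat_lit 360) (nat_lit 223) (nat_lit 197)))) (XT.nd (nat_lit 78) (nat_lit 0) (nat_lit 0) (XT.lf (nat_lit 0) (nat_lit 3164196230) (nat_lit 76) (nat_lit 18460144107) (nat_lit 76) (nat_lit 9790599634) (nat_lit 7) (nat_lit 4) (nat_lit 8) (nat_lit 5) (nat_lit 8) (nat_lit 4) (nat_lit 361) (nat_lit 223) (nat_lit 196)) (XT.nd (nat_lit 78) (nat_lit 0) (nat_lit 0) (XT.lf (nat_lit 0) (nat_lit 7863806200) (nat_lit 76) (nat_lit 16642645191) (nat_lit 76) (nat_lit 7766342938) (nat_lit 7) (nat_lit 4) (nat_lit 8) (nat_lit 5) (nat_lit 8) (nat_lit 4) (nat_lit 362)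 (nat_lit 223) (nat_lit 195)) (XT.lf (nat_lit 0) (nat_lit 12641351645) (nat_lit 76) (nat_lit 14796614498) (nat_lit 76) (nat_lit 5719576535) (nat_lit 7) (nat_lit 4) (nat_lit 8) (nat_lit 5) (nat_lit 8) (nat_lit 4) (nat_lit 363) (nat_lit 223) (nat_lit 194)))))) (XT.nd (nat_lit 390) (nat_lit 76) (nat_lit 0) (XT.nd (nat_lit 156) (nat_lit 76) (nat_lit 0) (XT.nd (nat_lit 78) (nat_lit 0) (nat_lit 0) (XT.lf (nat_lit 0) (nat_lit 17501007119) (nat_lit 76) (nat_lit 12920438990) (nat_lit 76) (nat_lit 3648511989) (nat_lit 7) (nat_lit 4) (nat_lit 8) (nat_lit 5) (nat_lit 8) (nat_lit 4) (nat_lit 364) (nat_lit 223) (nat_lit 193)) (XT.lf (nat_lit 0) (nat_lit 22447018923) (nat_lit 76) (nat_lit 11012479291) (nat_lit 76) (nat_lit 1551339632) (nat_lit 7) (nat_lit 4) (nat_lit 8) (nat_lit 5) (nat_lit 8) (nat_lit 4) (nat_lit 365) (nat_lit 223) (nat_lit 192))) (XT.nd (nat_lit 78) (nat_lit 0) (nat_lit 0) (XT.lf (nat_lit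 0) (nat_lit 562576638) (nat_lit 152) (nat_lit 8502810693) (nat_lit 76) (nat_lit 26915451256) (nat_lit 6) (nat_lit 5) (nat_lit 8) (nat_lit 5) (nat_lit 7) (nat_lit 4) (nat_lit 366) (nat_lit 223) (nat_lit 191)) (XT.nd (nat_lit 78) (nat_lit 0) (nat_lit 0) (XT.lf (nat_lit 0) (nat_lit 2675436421) (nat_lit 152) (nat_lit 4392056411) (nat_lit 76) (nat_lit 29913024703) (nat_lit 6) (nat_lit 5) (nat_lit 8) (nat_lit 5) (nat_lit 7) (nat_lit 4) (nat_lit 367) (nat_lit 223) (nat_lit 190)) (XT.lf (nat_lit 0) (nat_lit 4819358128) (nat_lit 152) (nat_lit 213051731) (nat_lit 76) (nat_lit 32978785710) (nat_lit 6) (nat_lit 5) (nat_lit 8) (nat_lit 5) (nat_lit 7) (nat_lit 4) (nat_lit 368) (nat_lit 223) (nat_lit 189))))) (XT.nd (nat_lit 234) (nat_lit 0) (nat_lit 0) (XT.nd (nat_lit 78) (nat_lit 0) (nat_lit 0) (XT.lf (nat_lit 0) (nat_lit 4118216133) (nat_lit 76) (nat_lit 2917585769) (nat_lit 152) (nat_lit 32036783778)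 (nat_lit 5) (nat_lit 5) (nat_lit 6) (nat_lit 5) (nat_lit 7) (nat_lit 4) (nat_lit 369) (nat_lit 223) (nat_lit 188)) (XT.nd (nat_lit 78) (nat_lit 0) (nat_lit 0) (XT.lf (nat_lit 0) (nat_lit 8530845399) (nat_lit 76) (nat_lit 759067718) (nat_lit 152) (nat_lit 30876805915) (nat_lit 5) (nat_lit 5) (nat_lit 6) (nat_lit 5) (nat_lit 7) (nat_lit 4) (nat_lit 370) (nat_lit 223) (nat_lit 187)) (XT.lf (nat_lit 0) (nat_lit 11595442478) (nat_lit 152) (nat_lit 28284032551) (nat_lit 0) (nat_lit 1414723204) (nat_lit 5) (nat_lit 5) (nat_lit 7) (nat_lit 4) (nat_lit 5) (nat_lit 4) (nat_lit 371) (nat_lit 223) (nat_lit 186)))) (XT.nd (nat_lit 78) (nat_lit 0) (nat_lit 0) (XT.lf (nat_lit 0) (nat_lit 13948255151) (nat_lit 152) (nat_lit 24889768133) (nat_lit 0) (nat_lit 3618169657) (nat_lit 5) (nat_lit 5) (nat_lit 7) (nat_lit 4) (nat_lit 5) (nat_lit 4) (nat_lit 372) (nat_lit 223) (nat_lit 185)) (XT.nd (nat_lit 78) (nat_lit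 0) (nat_lit 0) (XT.lf (nat_lit 0) (nat_lit 16343110369) (nat_lit 152) (nat_lit 21442817892) (nat_lit 0) (nat_lit 5868009127) (nat_lit 5) (nat_lit 5) (nat_lit 7) (nat_lit 4) (nat_lit 5) (nat_lit 4) (nat_lit 373) (nat_lit 223) (nat_lit 184)) (XT.lf (nat_lit 0) (nat_lit 18782100723) (nat_lit 152) (nat_lit 17940169932) (nat_lit 0) (nat_lit 8166207494) (nat_lit 5) (nat_lit 5) (nat_lit 7) (nat_lit 4) (nat_lit 5) (nat_lit 4) (nat_lit 374) (nat_lit 223) (nat_lit 183))))))))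
noncomputable def xc27 : XT := (XT.nd (nat_lit 1716) (nat_lit 76) (nat_lit 0) (XT.nd (nat_lit 858) (nat_lit 76) (nat_lit 0) (XT.nd (nat_lit 390) (nat_lit 0) (nat_lit 0) (XT.nd (nat_lit 156) (nat_lit 76) (nat_lit 0) (XT.nd (nat_lit 78) (nat_lit 0) (nat_lit 0) (XT.lf (nat_lit 0) (nat_lit 21267357370) (nat_lit 152) (nat_lit 14378763685) (nat_lit 0) (nat_lit 10514772891) (nat_lit 5) (nat_lit 5) (nat_lit 7) (nat_lit 4) (nat_lit 5) (nat_lit 4) (nat_lit 375) (nat_lit 223) (nat_lit 182)) (XT.lf (nat_lit 0) (nat_lit 23801051894) (nat_lit 152) (nat_lit 10755487244) (nat_lit 0) (nat_lit 12915757463) (nat_lit 5) (nat_lit 5) (nat_lit 7) (nat_lit 4) (nat_lit 5) (nat_lit 4) (nat_lit 376) (nat_lit 223) (nat_lit 181))) (XT.nd (nat_lit 78) (nat_lit 76) (nat_lit 0) (XT.lf (nat_lit 0) (nat_lit 26385398202) (nat_lit 152) (nat_lit 7067174638) (nat_lit 0) (nat_lit 15371259159) (nat_lit 5) (nat_lit 5) (nat_lit 7)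 (nat_lit 4) (nat_lit 5) (nat_lit 4) (nat_lit 377) (nat_lit 223) (nat_lit 180)) (XT.nd (nat_lit 78) (nat_lit 76) (nat_lit 0) (XT.lf (nat_lit 0) (nat_lit 29022654462) (nat_lit 152) (nat_lit 3310603071) (nat_lit 0) (nat_lit 17883423561) (nat_lit 5) (nat_lit 5) (nat_lit 7) (nat_lit 4) (nat_lit 5) (nat_lit 4) (nat_lit 378) (nat_lit 223) (nat_lit 179)) (XT.lf (nat_lit 0) (nat_lit 527809359) (nat_lit 76) (nat_lit 31192389338) (nat_lit 76) (nat_lit 19931710031) (nat_lit 4) (nat_lit 4) (nat_lit 5) (nat_lit 5) (nat_lit 5) (nat_lit 4) (nat_lit 379) (nat_lit 223) (nat_lit 178))))) (XT.nd (nat_lit 234) (nat_lit 0) (nat_lit 0) (XT.nd (nat_lit 78) (nat_lit 0) (nat_lit 0) (XT.lf (nat_lit 0) (nat_lit 4508486025) (nat_lit 76) (nat_lit 30000014976) (nat_lit 76) (nat_lit 18621424596) (nat_lit 4) (nat_lit 4) (nat_lit 5) (nat_lit 5) (nat_lit 5) (nat_lit 4) (nat_lit 380) (nat_lit 223) (nat_lit 177)) (XT.nd (nat_lit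 78) (nat_lit 0) (nat_lit 0) (XT.lf (nat_lit 0) (nat_lit 8569017693) (nat_lit 76) (nat_lit 28788523165) (nat_lit 76) (nat_lit 17295456015) (nat_lit 4) (nat_lit 4) (nat_lit 5) (nat_lit 5) (nat_lit 5) (nat_lit 4) (nat_lit 381) (nat_lit 223) (nat_lit 176)) (XT.lf (nat_lit 0) (nat_lit 12712952400) (nat_lit 76) (nat_lit 27556855322) (nat_lit 76) (nat_lit 15952645677) (nat_lit 4) (nat_lit 4) (nat_lit 5) (nat_lit 5) (nat_lit 5) (nat_lit 4) (nat_lit 382) (nat_lit 223) (nat_lit 175)))) (XT.nd (nat_lit 78) (nat_lit 0) (nat_lit 0) (XT.lf (nat_lit 0) (nat_lit 16943911061) (nat_lit 76) (nat_lit 26303935232) (nat_lit 76) (nat_lit 14591820251) (nat_lit 4) (nat_lit 4) (nat_lit 5) (nat_lit 5) (nat_lit 5) (nat_lit 4) (nat_lit 383) (nat_lit 223) (nat_lit 174)) (XT.nd (nat_lit 78) (nat_lit 0) (nat_lit 0) (XT.lf (nat_lit 0) (nat_lit 21265590630) (nat_lit 76) (nat_lit 25028668109) (nat_lit 76) (nat_lit 13211790668)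 (nat_lit 4) (nat_lit 4) (nat_lit 5) (nat_lit 5) (nat_lit 5) (nat_lit 4) (nat_lit 384) (nat_lit 223) (nat_lit 173)) (XT.lf (nat_lit 0) (nat_lit 25681767332) (nat_lit 76) (nat_lit 23729939644) (nat_lit 76) (nat_lit 11811351075) (nat_lit 4) (nat_lit 4) (nat_lit 5) (nat_lit 5) (nat_lit 5) (nat_lit 4) (nat_lit 385) (nat_lit 223) (nat_lit 172)))))) (XT.nd (nat_lit 390) (nat_lit 76) (nat_lit 0) (XT.nd (nat_lit 156) (nat_lit 0) (nat_lit 0) (XT.nd (nat_lit 78) (nat_lit 0) (nat_lit 0) (XT.lf (nat_lit 0) (nat_lit 30196299962) (nat_lit 76) (nat_lit 22406615024) (nat_lit 76) (nat_lit 10389277787) (nat_lit 4) (nat_lit 4) (nat_lit 5) (nat_lit 5) (nat_lit 5) (nat_lit 4) (nat_lit 386) (nat_lit 223) (nat_lit 171)) (XT.lf (nat_lit 0) (nat_lit 34813133256) (nat_lit 76) (nat_lit 21057537946) (nat_lit 76) (nat_lit 8944328217) (nat_lit 4) (nat_lit 4) (nat_lit 5) (nat_lit 5) (nat_lit 5) (nat_lit 4) (nat_lit 387) (nat_lit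 223) (nat_lit 170))) (XT.nd (nat_lit 78) (nat_lit 0) (nat_lit 0) (XT.lf (nat_lit 0) (nat_lit 39536301342) (nat_lit 76) (nat_lit 19681529607) (nat_lit 76) (nat_lit 7475239788) (nat_lit 4) (nat_lit 4) (nat_lit 5) (nat_lit 5) (nat_lit 5) (nat_lit 4) (nat_lit 388) (nat_lit 223) (nat_lit 169)) (XT.nd (nat_lit 78) (nat_lit 0) (nat_lit 0) (XT.lf (nat_lit 0) (nat_lit 44369931259) (nat_lit 76) (nat_lit 18277387667) (nat_lit 76) (nat_lit 5980728828) (nat_lit 4) (nat_lit 4) (nat_lit 5) (nat_lit 5) (nat_lit 5) (nat_lit 4) (nat_lit 389) (nat_lit 223) (nat_lit 168)) (XT.lf (nat_lit 0) (nat_lit 49318246567) (nat_lit 76) (nat_lit 16843885207) (nat_lit 76) (nat_lit 4459489456) (nat_lit 4) (nat_lit 4) (nat_lit 5) (nat_lit 5) (nat_lit 5) (nat_lit 4) (nat_lit 390) (nat_lit 223) (nat_lit 167))))) (XT.nd (nat_lit 234) (nat_lit 0) (nat_lit 0) (XT.nd (nat_lit 78) (nat_lit 76) (nat_lit 0) (XT.lf (nat_lit 0) (nat_lit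 54385571038) (nat_lit 76) (nat_lit 15379769652) (nat_lit 76) (nat_lit 2910192433) (nat_lit 4) (nat_lit 4) (nat_lit 5) (nat_lit 5) (nat_lit 5) (nat_lit 4) (nat_lit 391) (nat_lit 223) (nat_lit 166)) (XT.nd (nat_lit 78) (nat_lit 76) (nat_lit 0) (XT.lf (nat_lit 0) (nat_lit 59576332430) (nat_lit 76) (nat_lit 13883761677) (nat_lit 76) (nat_lit 1331484005) (nat_lit 4) (nat_lit 4) (nat_lit 5) (nat_lit 5) (nat_lit 5) (nat_lit 4) (nat_lit 392) (nat_lit 223) (nat_lit 165)) (XT.lf (nat_lit 0) (nat_lit 272590203) (nat_lit 152) (nat_lit 12079211261) (nat_lit 76) (nat_lit 64619723530) (nat_lit 3) (nat_lit 5) (nat_lit 5) (nat_lit 5) (nat_lit 4) (nat_lit 4) (nat_lit 393) (nat_lit 223) (nat_lit 164)))) (XT.nd (nat_lit 78) (nat_lit 0) (nat_lit 0) (XT.lf (nat_lit 0) (nat_lit 1882251298) (nat_lit 152) (nat_lit 8889552349) (nat_lit 76) (nat_lit 68445161920) (nat_lit 3) (nat_lit 5) (nat_lit 5) (nat_lit 5) (nat_lit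 4) (nat_lit 4) (nat_lit 394) (nat_lit 223) (nat_lit 163)) (XT.nd (nat_lit 78) (nat_lit 0) (nat_lit 0) (XT.lf (nat_lit 0) (nat_lit 3524887828) (nat_lit 152) (nat_lit 5630682825) (nat_lit 76) (nat_lit 72374675182) (nat_lit 3) (nat_lit 5) (nat_lit 5) (nat_lit 5) (nat_lit 4) (nat_lit 4) (nat_lit 395) (nat_lit 223) (nat_lit 162)) (XT.lf (nat_lit 0) (nat_lit 5201935105) (nat_lit 152) (nat_lit 2299755135) (nat_lit 76) (nat_lit 76411696873) (nat_lit 3) (nat_lit 5) (nat_lit 5) (nat_lit 5) (nat_lit 4) (nat_lit 4) (nat_lit 396) (nat_lit 223) (nat_lit 161))))))) (XT.nd (nat_lit 35958) (nat_lit 0) (nat_lit 760) (XT.nd (nat_lit 390) (nat_lit 0) (nat_lit 0) (XT.nd (nat_lit 156) (nat_lit 0) (nat_lit 0) (XT.nd (nat_lit 78) (nat_lit 0) (nat_lit 0) (XT.lf (nat_lit 0) (nat_lit 1128155621) (nat_lit 76) (nat_lit 5797547412) (nat_lit 152) (nat_lit 79442443386) (nat_lit 2) (nat_lit 5) (nat_lit 3) (nat_lit 5) (nat_lit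 4) (nat_lit 4) (nat_lit 397) (nat_lit 223) (nat_lit 160)) (XT.lf (nat_lit 0) (nat_lit 4681331979) (nat_lit 76) (nat_lit 4028822624) (nat_lit 152) (nat_lit 80186140385) (nat_lit 2) (nat_lit 5) (nat_lit 3) (nat_lit 5) (nat_lit 4) (nat_lit 4) (nat_lit 398) (nat_lit 223) (nat_lit 159))) (XT.nd (nat_lit 78) (nat_lit 0) (nat_lit 0) (XT.lf (nat_lit 0) (nat_lit 8317109020) (nat_lit 76) (nat_lit 2217193405) (nat_lit 152) (nat_lit 80966415853) (nat_lit 2) (nat_lit 5) (nat_lit 3) (nat_lit 5) (nat_lit 4) (nat_lit 4) (nat_lit 399) (nat_lit 223) (nat_lit 158)) (XT.nd (nat_lit 78) (nat_lit 0) (nat_lit 0) (XT.lf (nat_lit 0) (nat_lit 12038663635) (nat_lit 76) (nat_lit 361076779) (nat_lit 152) (nat_lit 81783951586) (nat_lit 2) (nat_lit 5) (nat_lit 3) (nat_lit 5) (nat_lit 4) (nat_lit 4) (nat_lit 400) (nat_lit 223) (nat_lit 157)) (XT.lf (nat_lit 0) (nat_lit 14322913033) (nat_lit 152) (nat_lit 81113127299) (nat_lit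 0) (nat_lit 1511075734) (nat_lit 2) (nat_lit 5) (nat_lit 4) (nat_lit 4) (nat_lit 2) (nat_lit 4) (nat_lit 401) (nat_lit 223) (nat_lit 156))))) (XT.nd (nat_lit 35334) (nat_lit 0) (nat_lit 1216) (XT.nd (nat_lit 35178) (nat_lit 0) (nat_lit 1368) (XT.lf (nat_lit 0) (nat_lit 16294603409) (nat_lit 152) (nat_lit 80076107085) (nat_lit 0) (nat_lit 3423021542) (nat_lit 2) (nat_lit 5) (nat_lit 4) (nat_lit 4) (nat_lit 2) (nat_lit 4) (nat_lit 402) (nat_lit 223) (nat_lit 155)) (XT.nd (nat_lit 78) (nat_lit 228) (nat_lit 0) (XT.lf (nat_lit 0) (nat_lit 6873371590) (nat_lit 152) (nat_lit 387874828) (nat_lit 152) (nat_lit 387874828) (nat_lit 23) (nat_lit 4) (nat_lit 25) (nat_lit 5) (nat_lit 25) (nat_lit 4) (nat_lit 332) (nat_lit 224) (nat_lit 224)) (XT.lf (nat_lit 0) (nat_lit 2381567192) (nat_lit 228) (nat_lit 11394248684) (nat_lit 0) (nat_lit 1864656129) (nat_lit 20) (nat_lit 5) (nat_lit 23) (nat_lit 4) (nat_lit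 20) (nat_lit 4) (nat_lit 333) (nat_lit 224) (nat_lit 223)))) (XT.nd (nat_lit 78) (nat_lit 152) (nat_lit 0) (XT.lf (nat_lit 0) (nat_lit 5569617978) (nat_lit 228) (nat_lit 5873836733) (nat_lit 0) (nat_lit 4550851514) (nat_lit 20) (nat_lit 5) (nat_lit 23) (nat_lit 4) (nat_lit 20) (nat_lit 4) (nat_lit 334) (nat_lit 224) (nat_lit 222)) (XT.nd (nat_lit 78) (nat_lit 152) (nat_lit 0) (XT.lf (nat_lit 0) (nat_lit 8783507685) (nat_lit 228) (nat_lit 299951936) (nat_lit 0) (nat_lit 7277502967) (nat_lit 20) (nat_lit 5) (nat_lit 23) (nat_lit 4) (nat_lit 20) (nat_lit 4) (nat_lit 335) (nat_lit 224) (nat_lit 221)) (XT.lf (nat_lit 0) (nat_lit 5438398840) (nat_lit 152) (nat_lit 6639922942) (nat_lit 152) (nat_lit 4660871377) (nat_lit 18) (nat_lit 4) (nat_lit 20) (nat_lit 5) (nat_lit 20) (nat_lit 4) (nat_lit 336) (nat_lit 224) (nat_lit 220)))))) (XT.nd (nat_lit 468) (nat_lit 152) (nat_lit 0) (XT.nd (nat_lit 234)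 (nat_lit 152) (nat_lit 0) (XT.nd (nat_lit 78) (nat_lit 152) (nat_lit 0) (XT.lf (nat_lit 0) (nat_lit 11247242933) (nat_lit 152) (nat_lit 4160934352) (nat_lit 152) (nat_lit 1722614002) (nat_lit 18) (nat_lit 4) (nat_lit 20) (nat_lit 5) (nat_lit 20) (nat_lit 4) (nat_lit 337) (nat_lit 224) (nat_lit 219)) (XT.nd (nat_lit 78) (nat_lit 76) (nat_lit 0) (XT.lf (nat_lit 0) (nat_lit 1212720192) (nat_lit 228) (nat_lit 422390382) (nat_lit 76) (nat_lit 15900720111) (nat_lit 17) (nat_lit 5) (nat_lit 20) (nat_lit 5) (nat_lit 18) (nat_lit 4) (nat_lit 338) (nat_lit 224) (nat_lit 218)) (XT.lf (nat_lit 0) (nat_lit 4197178179) (nat_lit 152) (nat_lit 12778882336) (nat_lit 0) (nat_lit 976675993) (nat_lit 16) (nat_lit 5) (nat_lit 18) (nat_lit 4) (nat_lit 16) (nat_lit 4) (nat_lit 339) (nat_lit 224) (nat_lit 217)))) (XT.nd (nat_lit 78) (nat_lit 152) (nat_lit 0) (XT.lf (nat_lit 0) (nat_lit 7228448426) (nat_lit 152) (nat_lit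 7555185520) (nat_lit 0) (nat_lit 3599891874) (nat_lit 16) (nat_lit 5) (nat_lit 18) (nat_lit 4) (nat_lit 16) (nat_lit 4) (nat_lit 340) (nat_lit 224) (nat_lit 216)) (XT.nd (nat_lit 78) (nat_lit 152) (nat_lit 0) (XT.lf (nat_lit 0) (nat_lit 10289279850) (nat_lit 152) (nat_lit 2275338169) (nat_lit 0) (nat_lit 6264554010) (nat_lit 16) (nat_lit 5) (nat_lit 18) (nat_lit 4) (nat_lit 16) (nat_lit 4) (nat_lit 341) (nat_lit 224) (nat_lit 215)) (XT.lf (nat_lit 0) (nat_lit 3126278119) (nat_lit 152) (nat_lit 10286120542) (nat_lit 152) (nat_lit 5876764325) (nat_lit 14) (nat_lit 4) (nat_lit 16) (nat_lit 5) (nat_lit 16) (nat_lit 4) (nat_lit 342) (nat_lit 224) (nat_lit 214))))) (XT.nd (nat_lit 234) (nat_lit 76) (nat_lit 0) (XT.nd (nat_lit 78) (nat_lit 76) (nat_lit 0) (XT.lf (nat_lit 0) (nat_lit 8639910842) (nat_lit 152) (nat_lit 7953493713) (nat_lit 152) (nat_lit 3170709946) (nat_lit 14) (nat_lit 4) (nat_lit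 16) (nat_lit 5) (nat_lit 16) (nat_lit 4) (nat_lit 343) (nat_lit 224) (nat_lit 213)) (XT.nd (nat_lit 78) (nat_lit 76) (nat_lit 0) (XT.lf (nat_lit 0) (nat_lit 14225094045) (nat_lit 152) (nat_lit 5587675770) (nat_lit 152) (nat_lit 442340983) (nat_lit 14) (nat_lit 4) (nat_lit 16) (nat_lit 5) (nat_lit 16) (nat_lit 4) (nat_lit 344) (nat_lit 224) (nat_lit 212)) (XT.lf (nat_lit 0) (nat_lit 2265635976) (nat_lit 228) (nat_lit 898085035) (nat_lit 76) (nat_lit 17598193527) (nat_lit 13) (nat_lit 5) (nat_lit 16) (nat_lit 5) (nat_lit 14) (nat_lit 4) (nat_lit 345) (nat_lit 224) (nat_lit 211)))) (XT.nd (nat_lit 78) (nat_lit 0) (nat_lit 0) (XT.lf (nat_lit 0) (nat_lit 4379249571) (nat_lit 76) (nat_lit 654403013) (nat_lit 152) (nat_lit 16250584664) (nat_lit 12) (nat_lit 5) (nat_lit 13) (nat_lit 5) (nat_lit 14) (nat_lit 4) (nat_lit 346) (nat_lit 224) (nat_lit 210)) (XT.nd (nat_lit 78) (nat_lit 0) (nat_lit 0) (XT.lf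 (nat_lit 0) (nat_lit 7858411806) (nat_lit 152) (nat_lit 12097386897) (nat_lit 0) (nat_lit 1867294605) (nat_lit 12) (nat_lit 5) (nat_lit 14) (nat_lit 4) (nat_lit 12) (nat_lit 4) (nat_lit 347) (nat_lit 224) (nat_lit 209)) (XT.lf (nat_lit 0) (nat_lit 10721955388) (nat_lit 152) (nat_lit 7239512477) (nat_lit 0) (nat_lit 4418098493) (nat_lit 12) (nat_lit 5) (nat_lit 14) (nat_lit 4) (nat_lit 12) (nat_lit 4) (nat_lit 348) (nat_lit 224) (nat_lit 208))))))))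
noncomputable def xc28 : XT := (XT.nd (nat_lit 1716) (nat_lit 76) (nat_lit 0) (XT.nd (nat_lit 858) (nat_lit 228) (nat_lit 0) (XT.nd (nat_lit 390) (nat_lit 76) (nat_lit 0) (XT.nd (nat_lit 156) (nat_lit 76) (nat_lit 0) (XT.nd (nat_lit 78) (nat_lit 152) (nat_lit 0) (XT.lf (nat_lit 0) (nat_lit 13620494934) (nat_lit 152) (nat_lit 2320829151) (nat_lit 0) (nat_lit 7013007267) (nat_lit 12) (nat_lit 5) (nat_lit 14) (nat_lit 4) (nat_lit 12) (nat_lit 4) (nat_lit 349) (nat_lit 224) (nat_lit 207)) (XT.lf (nat_lit 0) (nat_lit 2715959103) (nat_lit 152) (nat_lit 13866711504) (nat_lit 152) (nat_lit 6964436681) (nat_lit 10) (nat_lit 4) (nat_lit 12) (nat_lit 5) (nat_lit 12) (nat_lit 4) (nat_lit 350) (nat_lit 224) (nat_lit 206))) (XT.nd (nat_lit 78) (nat_lit 76) (nat_lit 0) (XT.lf (nat_lit 0) (nat_lit 7869780383) (nat_lit 152) (nat_lit 11738594286) (nat_lit 152) (nat_lit 4550118340) (nat_lit 10) (nat_lit 4) (nat_lit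 12) (nat_lit 5) (nat_lit 12) (nat_lit 4) (nat_lit 351) (nat_lit 224) (nat_lit 205)) (XT.nd (nat_lit 78) (nat_lit 76) (nat_lit 0) (XT.lf (nat_lit 0) (nat_lit 13098948975) (nat_lit 152) (nat_lit 9578548733) (nat_lit 152) (nat_lit 2112207620) (nat_lit 10) (nat_lit 4) (nat_lit 12) (nat_lit 5) (nat_lit 12) (nat_lit 4) (nat_lit 352) (nat_lit 224) (nat_lit 204)) (XT.lf (nat_lit 0) (nat_lit 344568110) (nat_lit 228) (nat_lit 7036639856) (nat_lit 76) (nat_lit 18059986484) (nat_lit 9) (nat_lit 5) (nat_lit 12) (nat_lit 5) (nat_lit 10) (nat_lit 4) (nat_lit 353) (nat_lit 224) (nat_lit 203))))) (XT.nd (nat_lit 234) (nat_lit 0) (nat_lit 0) (XT.nd (nat_lit 78) (nat_lit 76) (nat_lit 0) (XT.lf (nat_lit 0) (nat_lit 2787458396) (nat_lit 228) (nat_lit 2339487146) (nat_lit 76) (nat_lit 20986068373) (nat_lit 9) (nat_lit 5) (nat_lit 12) (nat_lit 5) (nat_lit 10) (nat_lit 4) (nat_lit 354) (nat_lit 224) (nat_lit 202))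 (XT.nd (nat_lit 78) (nat_lit 0) (nat_lit 0) (XT.lf (nat_lit 0) (nat_lit 2473374359) (nat_lit 76) (nat_lit 2810215808) (nat_lit 152) (nat_lit 21522056429) (nat_lit 8) (nat_lit 5) (nat_lit 9) (nat_lit 5) (nat_lit 10) (nat_lit 4) (nat_lit 355) (nat_lit 224) (nat_lit 201)) (XT.lf (nat_lit 0) (nat_lit 7405828972) (nat_lit 76) (nat_lit 429157360) (nat_lit 152) (nat_lit 19684716120) (nat_lit 8) (nat_lit 5) (nat_lit 9) (nat_lit 5) (nat_lit 10) (nat_lit 4) (nat_lit 356) (nat_lit 224) (nat_lit 200)))) (XT.nd (nat_lit 78) (nat_lit 0) (nat_lit 0) (XT.lf (nat_lit 0) (nat_lit 10440114261) (nat_lit 152) (nat_lit 15860041423) (nat_lit 0) (nat_lit 1955762592) (nat_lit 8) (nat_lit 5) (nat_lit 10) (nat_lit 4) (nat_lit 8) (nat_lit 4) (nat_lit 357) (nat_lit 224) (nat_lit 199)) (XT.nd (nat_lit 78) (nat_lit 0) (nat_lit 0) (XT.lf (nat_lit 0) (nat_lit 13086616338) (nat_lit 152) (nat_lit 11552425183) (nat_lit 0) (nat_lit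 4376334860) (nat_lit 8) (nat_lit 5) (nat_lit 10) (nat_lit 4) (nat_lit 8) (nat_lit 4) (nat_lit 358) (nat_lit 224) (nat_lit 198)) (XT.lf (nat_lit 0) (nat_lit 15772679719) (nat_lit 152) (nat_lit 7183135501) (nat_lit 0) (nat_lit 6843048912) (nat_lit 8) (nat_lit 5) (nat_lit 10) (nat_lit 4) (nat_lit 8) (nat_lit 4) (nat_lit 359) (nat_lit 224) (nat_lit 197)))))) (XT.nd (nat_lit 390) (nat_lit 152) (nat_lit 0) (XT.nd (nat_lit 156) (nat_lit 0) (nat_lit 0) (XT.nd (nat_lit 78) (nat_lit 76) (nat_lit 0) (XT.lf (nat_lit 0) (nat_lit 18500651449) (nat_lit 152) (nat_lit 2748354552) (nat_lit 0) (nat_lit 9358060127) (nat_lit 8) (nat_lit 5) (nat_lit 10) (nat_lit 4) (nat_lit 8) (nat_lit 4) (nat_lit 360) (nat_lit 224) (nat_lit 196)) (XT.lf (nat_lit 0) (nat_lit 1790736434) (nat_lit 76) (nat_lit 19499392412) (nat_lit 76) (nat_lit 10150043310) (nat_lit 7) (nat_lit 4) (nat_lit 8) (nat_lit 5) (nat_lit 8) (nat_lit 4) (nat_lit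 361) (nat_lit 224) (nat_lit 195))) (XT.nd (nat_lit 78) (nat_lit 0) (nat_lit 0) (XT.lf (nat_lit 0) (nat_lit 6459285899) (nat_lit 76) (nat_lit 17694698023) (nat_lit 76) (nat_lit 8144613212) (nat_lit 7) (nat_lit 4) (nat_lit 8) (nat_lit 5) (nat_lit 8) (nat_lit 4) (nat_lit 362) (nat_lit 224) (nat_lit 194)) (XT.nd (nat_lit 78) (nat_lit 0) (nat_lit 0) (XT.lf (nat_lit 0) (nat_lit 11206675514) (nat_lit 76) (nat_lit 15861098909) (nat_lit 76) (nat_lit 6116125060) (nat_lit 7) (nat_lit 4) (nat_lit 8) (nat_lit 5) (nat_lit 8) (nat_lit 4) (nat_lit 363) (nat_lit 224) (nat_lit 193)) (XT.lf (nat_lit 0) (nat_lit 16037053483) (nat_lit 76) (nat_lit 13996992896) (nat_lit 76) (nat_lit 4062806389) (nat_lit 7) (nat_lit 4) (nat_lit 8) (nat_lit 5) (nat_lit 8) (nat_lit 4) (nat_lit 364) (nat_lit 224) (nat_lit 192))))) (XT.nd (nat_lit 234) (nat_lit 76) (nat_lit 0) (XT.nd (nat_lit 78) (nat_lit 76) (nat_lit 0) (XT.lf (nat_lit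 0) (nat_lit 20954640526) (nat_lit 76) (nat_lit 12100751153) (nat_lit 76) (nat_lit 1982863036) (nat_lit 7) (nat_lit 4) (nat_lit 8) (nat_lit 5) (nat_lit 8) (nat_lit 4) (nat_lit 365) (nat_lit 224) (nat_lit 191)) (XT.nd (nat_lit 78) (nat_lit 0) (nat_lit 0) (XT.lf (nat_lit 0) (nat_lit 123073029) (nat_lit 152) (nat_lit 10046400945) (nat_lit 76) (nat_lit 25839417737) (nat_lit 6) (nat_lit 5) (nat_lit 8) (nat_lit 5) (nat_lit 7) (nat_lit 4) (nat_lit 366) (nat_lit 224) (nat_lit 190)) (XT.lf (nat_lit 0) (nat_lit 2220009723) (nat_lit 152) (nat_lit 5962775841) (nat_lit 76) (nat_lit 28826282000) (nat_lit 6) (nat_lit 5) (nat_lit 8) (nat_lit 5) (nat_lit 7) (nat_lit 4) (nat_lit 367) (nat_lit 224) (nat_lit 189)))) (XT.nd (nat_lit 78) (nat_lit 76) (nat_lit 0) (XT.lf (nat_lit 0) (nat_lit 4348472122) (nat_lit 152) (nat_lit 1810110168) (nat_lit 76) (nat_lit 31881645741) (nat_lit 6) (nat_lit 5) (nat_lit 8) (nat_lit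 5) (nat_lit 7) (nat_lit 4) (nat_lit 368) (nat_lit 224) (nat_lit 188)) (XT.nd (nat_lit 78) (nat_lit 0) (nat_lit 0) (XT.lf (nat_lit 0) (nat_lit 2463292319) (nat_lit 76) (nat_lit 4070706398) (nat_lit 152) (nat_lit 32568565049) (nat_lit 5) (nat_lit 5) (nat_lit 6) (nat_lit 5) (nat_lit 7) (nat_lit 4) (nat_lit 369) (nat_lit 224) (nat_lit 187)) (XT.lf (nat_lit 0) (nat_lit 6850600437) (nat_lit 76) (nat_lit 1922694211) (nat_lit 152) (nat_lit 31423864512) (nat_lit 5) (nat_lit 5) (nat_lit 6) (nat_lit 5) (nat_lit 7) (nat_lit 4) (nat_lit 370) (nat_lit 224) (nat_lit 186))))))) (XT.nd (nat_lit 858) (nat_lit 0) (nat_lit 0) (XT.nd (nat_lit 390) (nat_lit 76) (nat_lit 0) (XT.nd (nat_lit 156) (nat_lit 0) (nat_lit 0) (XT.nd (nat_lit 78) (nat_lit 0) (nat_lit 0) (XT.lf (nat_lit 0) (nat_lit 11053156702) (nat_lit 152) (nat_lit 30008466326) (nat_lit 0) (nat_lit 263802424) (nat_lit 5) (nat_lit 5) (nat_lit 7) (nat_lit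 4) (nat_lit 5) (nat_lit 4) (nat_lit 371) (nat_lit 224) (nat_lit 185)) (XT.lf (nat_lit 0) (nat_lit 13391909358) (nat_lit 152) (nat_lit 26638409843) (nat_lit 0) (nat_lit 2457539332) (nat_lit 5) (nat_lit 5) (nat_lit 7) (nat_lit 4) (nat_lit 5) (nat_lit 4) (nat_lit 372) (nat_lit 224) (nat_lit 184))) (XT.nd (nat_lit 78) (nat_lit 0) (nat_lit 0) (XT.lf (nat_lit 0) (nat_lit 15773114073) (nat_lit 152) (nat_lit 23214962454) (nat_lit 0) (nat_lit 4697952059) (nat_lit 5) (nat_lit 5) (nat_lit 7) (nat_lit 4) (nat_lit 5) (nat_lit 4) (nat_lit 373) (nat_lit 224) (nat_lit 183)) (XT.nd (nat_lit 78) (nat_lit 0) (nat_lit 0) (XT.lf (nat_lit 0) (nat_lit 18198851512) (nat_lit 152) (nat_lit 19735132795) (nat_lit 0) (nat_lit 6986998248) (nat_lit 5) (nat_lit 5) (nat_lit 7) (nat_lit 4) (nat_lit 5) (nat_lit 4) (nat_lit 374) (nat_lit 224) (nat_lit 182)) (XT.lf (nat_lit 0) (nat_lit 20671241251) (nat_lit 152) (nat_lit 16195880239)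 (nat_lit 0) (nat_lit 9326678036) (nat_lit 5) (nat_lit 5) (nat_lit 7) (nat_lit 4) (nat_lit 5) (nat_lit 4) (nat_lit 375) (nat_lit 224) (nat_lit 181))))) (XT.nd (nat_lit 234) (nat_lit 76) (nat_lit 0) (XT.nd (nat_lit 78) (nat_lit 0) (nat_lit 0) (XT.lf (nat_lit 0) (nat_lit 23192443632) (nat_lit 152) (nat_lit 12594112236) (nat_lit 0) (nat_lit 11719035803) (nat_lit 5) (nat_lit 5) (nat_lit 7) (nat_lit 4) (nat_lit 5) (nat_lit 4) (nat_lit 376) (nat_lit 224) (nat_lit 180)) (XT.nd (nat_lit 78) (nat_lit 0) (nat_lit 0) (XT.lf (nat_lit 0) (nat_lit 25764661646) (nat_lit 152) (nat_lit 8926681609) (nat_lit 0) (nat_lit 14166161960) (nat_lit 5) (nat_lit 5) (nat_lit 7) (nat_lit 4) (nat_lit 5) (nat_lit 4) (nat_lit 377) (nat_lit 224) (nat_lit 179)) (XT.lf (nat_lit 0) (nat_lit 28390142862) (nat_lit 152) (nat_lit 5190383808) (nat_lit 0) (nat_lit 16670194771) (nat_lit 5) (nat_lit 5) (nat_lit 7) (nat_lit 4) (nat_lit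 5) (nat_lit 4) (nat_lit 378) (nat_lit 224) (nat_lit 178)))) (XT.nd (nat_lit 78) (nat_lit 76) (nat_lit 0) (XT.lf (nat_lit 0) (nat_lit 31071181391) (nat_lit 152) (nat_lit 1381954105) (nat_lit 0) (nat_lit 19233322226) (nat_lit 5) (nat_lit 5) (nat_lit 7) (nat_lit 4) (nat_lit 5) (nat_lit 4) (nat_lit 379) (nat_lit 224) (nat_lit 177)) (XT.nd (nat_lit 78) (nat_lit 0) (nat_lit 0) (XT.lf (nat_lit 0) (nat_lit 2551728668) (nat_lit 76) (nat_lit 31282919995) (nat_lit 76) (nat_lit 19330584060) (nat_lit 4) (nat_lit 4) (nat_lit 5) (nat_lit 5) (nat_lit 5) (nat_lit 4) (nat_lit 380) (nat_lit 224) (nat_lit 176)) (XT.lf (nat_lit 0) (nat_lit 6593337720) (nat_lit 76) (nat_lit 30079393072) (nat_lit 76) (nat_lit 18015914642) (nat_lit 4) (nat_lit 4) (nat_lit 5) (nat_lit 5) (nat_lit 5) (nat_lit 4) (nat_lit 381) (nat_lit 224) (nat_lit 175)))))) (XT.nd (nat_lit 390) (nat_lit 0) (nat_lit 0) (XT.nd (nat_lit 156) (nat_lit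 0) (nat_lit 0) (XT.nd (nat_lit 78) (nat_lit 0) (nat_lit 0) (XT.lf (nat_lit 0) (nat_lit 10718900956) (nat_lit 76) (nat_lit 28855458129) (nat_lit 76) (nat_lit 16684074364) (nat_lit 4) (nat_lit 4) (nat_lit 5) (nat_lit 5) (nat_lit 5) (nat_lit 4) (nat_lit 382) (nat_lit 224) (nat_lit 174)) (XT.lf (nat_lit 0) (nat_lit 14932023237) (nat_lit 76) (nat_lit 27610045709) (nat_lit 76) (nat_lit 15333899483) (nat_lit 4) (nat_lit 4) (nat_lit 5) (nat_lit 5) (nat_lit 5) (nat_lit 4) (nat_lit 383) (nat_lit 224) (nat_lit 173))) (XT.nd (nat_lit 78) (nat_lit 0) (nat_lit 0) (XT.lf (nat_lit 0) (nat_lit 19236385932) (nat_lit 76) (nat_lit 26342067587) (nat_lit 76) (nat_lit 13964210233) (nat_lit 4) (nat_lit 4) (nat_lit 5) (nat_lit 5) (nat_lit 5) (nat_lit 4) (nat_lit 384) (nat_lit 224) (nat_lit 172)) (XT.nd (nat_lit 78) (nat_lit 0) (nat_lit 0) (XT.lf (nat_lit 0) (nat_lit 23635750134) (nat_lit 76) (nat_lit 25050415820) (nat_lit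 76) (nat_lit 12573809800) (nat_lit 4) (nat_lit 4) (nat_lit 5) (nat_lit 5) (nat_lit 5) (nat_lit 4) (nat_lit 385) (nat_lit 224) (nat_lit 171)) (XT.lf (nat_lit 0) (nat_lit 28133959949) (nat_lit 76) (nat_lit 23733961782) (nat_lit 76) (nat_lit 11161483269) (nat_lit 4) (nat_lit 4) (nat_lit 5) (nat_lit 5) (nat_lit 5) (nat_lit 4) (nat_lit 386) (nat_lit 224) (nat_lit 170))))) (XT.nd (nat_lit 234) (nat_lit 0) (nat_lit 0) (XT.nd (nat_lit 78) (nat_lit 0) (nat_lit 0) (XT.lf (nat_lit 0) (nat_lit 32734945851) (nat_lit 76) (nat_lit 22391555173) (nat_lit 76) (nat_lit 9725996570) (nat_lit 4) (nat_lit 4) (nat_lit 5) (nat_lit 5) (nat_lit 5) (nat_lit 4) (nat_lit 387) (nat_lit 224) (nat_lit 169)) (XT.nd (nat_lit 78) (nat_lit 0) (nat_lit 0) (XT.lf (nat_lit 0) (nat_lit 37442728118) (nat_lit 76) (nat_lit 21022023015) (nat_lit 76) (nat_lit 8266095393) (nat_lit 4) (nat_lit 4) (nat_lit 5) (nat_lit 5) (nat_lit 5) (nat_lit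 4) (nat_lit 388) (nat_lit 224) (nat_lit 168)) (XT.lf (nat_lit 0) (nat_lit 42261420348) (nat_lit 76) (nat_lit 19624168631) (nat_lit 76) (nat_lit 6780504097) (nat_lit 4) (nat_lit 4) (nat_lit 5) (nat_lit 5) (nat_lit 5) (nat_lit 4) (nat_lit 389) (nat_lit 224) (nat_lit 167)))) (XT.nd (nat_lit 78) (nat_lit 0) (nat_lit 0) (XT.lf (nat_lit 0) (nat_lit 47195233047) (nat_lit 76) (nat_lit 18196770594) (nat_lit 76) (nat_lit 5267924592) (nat_lit 4) (nat_lit 4) (nat_lit 5) (nat_lit 5) (nat_lit 5) (nat_lit 4) (nat_lit 390) (nat_lit 224) (nat_lit 166)) (XT.nd (nat_lit 78) (nat_lit 0) (nat_lit 0) (XT.lf (nat_lit 0) (nat_lit 52248477314) (nat_lit 76) (nat_lit 16738581664) (nat_lit 76) (nat_lit 3727035206) (nat_lit 4) (nat_lit 4) (nat_lit 5) (nat_lit 5) (nat_lit 5) (nat_lit 4) (nat_lit 391) (nat_lit 224) (nat_lit 165)) (XT.lf (nat_lit 0) (nat_lit 57425568606) (nat_lit 76) (nat_lit 15248327693) (nat_lit 76) (nat_lit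 2156489533) (nat_lit 4) (nat_lit 4) (nat_lit 5) (nat_lit 5) (nat_lit 5) (nat_lit 4) (nat_lit 392) (nat_lit 224) (nat_lit 164))))))))
noncomputable def xc29 : XT := (XT.nd (nat_lit 36660) (nat_lit 0) (nat_lit 380) (XT.nd (nat_lit 35802) (nat_lit 0) (nat_lit 1064) (XT.nd (nat_lit 390) (nat_lit 76) (nat_lit 0) (XT.nd (nat_lit 156) (nat_lit 0) (nat_lit 0) (XT.nd (nat_lit 78) (nat_lit 76) (nat_lit 0) (XT.lf (nat_lit 0) (nat_lit 62731030594) (nat_lit 76) (nat_lit 13724706520) (nat_lit 76) (nat_lit 554915249) (nat_lit 4) (nat_lit 4) (nat_lit 5) (nat_lit 5) (nat_lit 5) (nat_lit 4) (nat_lit 393) (nat_lit 224) (nat_lit 163)) (XT.lf (nat_lit 0) (nat_lit 1058030201) (nat_lit 152) (nat_lit 11097672592) (nat_lit 76) (nat_lit 67100784887) (nat_lit 3) (nat_lit 5) (nat_lit 5) (nat_lit 5) (nat_lit 4) (nat_lit 4) (nat_lit 394) (nat_lit 224) (nat_lit 162))) (XT.nd (nat_lit 78) (nat_lit 0) (nat_lit 0) (XT.lf (nat_lit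 0) (nat_lit 2693342421) (nat_lit 152) (nat_lit 7851467067) (nat_lit 76) (nat_lit 71025186341) (nat_lit 3) (nat_lit 5) (nat_lit 5) (nat_lit 5) (nat_lit 4) (nat_lit 4) (nat_lit 395) (nat_lit 224) (nat_lit 161)) (XT.nd (nat_lit 78) (nat_lit 0) (nat_lit 0) (XT.lf (nat_lit 0) (nat_lit 4363278719) (nat_lit 152) (nat_lit 4532834522) (nat_lit 76) (nat_lit 75057245112) (nat_lit 3) (nat_lit 5) (nat_lit 5) (nat_lit 5) (nat_lit 4) (nat_lit 4) (nat_lit 396) (nat_lit 224) (nat_lit 160)) (XT.lf (nat_lit 0) (nat_lit 6069298261) (nat_lit 152) (nat_lit 1138875178) (nat_lit 76) (nat_lit 79200484356) (nat_lit 3) (nat_lit 5) (nat_lit 5) (nat_lit 5) (nat_lit 4) (nat_lit 4) (nat_lit 397) (nat_lit 224) (nat_lit 159))))) (XT.nd (nat_lit 234) (nat_lit 0) (nat_lit 0) (XT.nd (nat_lit 78) (nat_lit 0) (nat_lit 0) (XT.lf (nat_lit 0) (nat_lit 2379815325) (nat_lit 76) (nat_lit 5455952661) (nat_lit 152) (nat_lit 81101585294)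 (nat_lit 2) (nat_lit 5) (nat_lit 3) (nat_lit 5) (nat_lit 4) (nat_lit 4) (nat_lit 398) (nat_lit 224) (nat_lit 158)) (XT.nd (nat_lit 78) (nat_lit 0) (nat_lit 0) (XT.lf (nat_lit 0) (nat_lit 6004116634) (nat_lit 76) (nat_lit 3649181309) (nat_lit 152) (nat_lit 81888684408) (nat_lit 2) (nat_lit 5) (nat_lit 3) (nat_lit 5) (nat_lit 4) (nat_lit 4) (nat_lit 399) (nat_lit 224) (nat_lit 157)) (XT.lf (nat_lit 0) (nat_lit 9714529761) (nat_lit 76) (nat_lit 1797781058) (nat_lit 152) (nat_lit 82712845040) (nat_lit 2) (nat_lit 5) (nat_lit 3) (nat_lit 5) (nat_lit 4) (nat_lit 4) (nat_lit 400) (nat_lit 224) (nat_lit 156)))) (XT.nd (nat_lit 78) (nat_lit 0) (nat_lit 0) (XT.lf (nat_lit 0) (nat_lit 13415390968) (nat_lit 152) (nat_lit 83475881481) (nat_lit 0) (nat_lit 97917077) (nat_lit 2) (nat_lit 5) (nat_lit 4) (nat_lit 4) (nat_lit 2) (nat_lit 4) (nat_lit 401) (nat_lit 224) (nat_lit 155)) (XT.nd (nat_lit 35022) (nat_lit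 0) (nat_lit 1596) (XT.lf (nat_lit 0) (nat_lit 15380982326) (nat_lit 152) (nat_lit 82449508770) (nat_lit 0) (nat_lit 2005504000) (nat_lit 2) (nat_lit 5) (nat_lit 4) (nat_lit 4) (nat_lit 2) (nat_lit 4) (nat_lit 402) (nat_lit 224) (nat_lit 154)) (XT.lf (nat_lit 0) (nat_lit 900342897) (nat_lit 152) (nat_lit 3210868082) (nat_lit 152) (nat_lit 3210868082) (nat_lit 23) (nat_lit 4) (nat_lit 25) (nat_lit 5) (nat_lit 25) (nat_lit 4) (nat_lit 330) (nat_lit 225) (nat_lit 225)))))) (XT.nd (nat_lit 390) (nat_lit 304) (nat_lit 0) (XT.nd (nat_lit 156) (nat_lit 228) (nat_lit 0) (XT.nd (nat_lit 78) (nat_lit 0) (nat_lit 0) (XT.lf (nat_lit 0) (nat_lit 7713739433) (nat_lit 152) (nat_lit 3900225165) (nat_lit 152) (nat_lit 3351834218) (nat_lit 23) (nat_lit 4) (nat_lit 25) (nat_lit 5) (nat_lit 25) (nat_lit 4) (nat_lit 331) (nat_lit 225) (nat_lit 224)) (XT.lf (nat_lit 0) (nat_lit 13690974733) (nat_lit 152) (nat_lit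 1344598632) (nat_lit 152) (nat_lit 263789290) (nat_lit 23) (nat_lit 4) (nat_lit 25) (nat_lit 5) (nat_lit 25) (nat_lit 4) (nat_lit 332) (nat_lit 225) (nat_lit 223))) (XT.nd (nat_lit 78) (nat_lit 0) (nat_lit 0) (XT.lf (nat_lit 0) (nat_lit 2842088907) (nat_lit 228) (nat_lit 11509752382) (nat_lit 0) (nat_lit 1290904048) (nat_lit 20) (nat_lit 5) (nat_lit 23) (nat_lit 4) (nat_lit 20) (nat_lit 4) (nat_lit 333) (nat_lit 225) (nat_lit 222)) (XT.nd (nat_lit 78) (nat_lit 0) (nat_lit 0) (XT.lf (nat_lit 0) (nat_lit 5995754174) (nat_lit 228) (nat_lit 6044581570) (nat_lit 0) (nat_lit 3957331061) (nat_lit 20) (nat_lit 5) (nat_lit 23) (nat_lit 4) (nat_lit 20) (nat_lit 4) (nat_lit 334) (nat_lit 225) (nat_lit 221)) (XT.lf (nat_lit 0) (nat_lit 9176259883) (nat_lit 228) (nat_lit 524328948) (nat_lit 0) (nat_lit 6664789922) (nat_lit 20) (nat_lit 5) (nat_lit 23) (nat_lit 4) (nat_lit 20) (nat_lit 4) (nat_lit 335) (nat_lit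 225) (nat_lit 220))))) (XT.nd (nat_lit 234) (nat_lit 76) (nat_lit 0) (XT.nd (nat_lit 78) (nat_lit 76) (nat_lit 0) (XT.lf (nat_lit 0) (nat_lit 5156449918) (nat_lit 152) (nat_lit 7279502148) (nat_lit 152) (nat_lit 4308763402) (nat_lit 18) (nat_lit 4) (nat_lit 20) (nat_lit 5) (nat_lit 20) (nat_lit 4) (nat_lit 336) (nat_lit 225) (nat_lit 219)) (XT.nd (nat_lit 78) (nat_lit 76) (nat_lit 0) (XT.lf (nat_lit 0) (nat_lit 10913734430) (nat_lit 152) (nat_lit 4820109896) (nat_lit 152) (nat_lit 1403479126) (nat_lit 18) (nat_lit 4) (nat_lit 20) (nat_lit 5) (nat_lit 20) (nat_lit 4) (nat_lit 337) (nat_lit 225) (nat_lit 218)) (XT.lf (nat_lit 0) (nat_lit 1494239563) (nat_lit 228) (nat_lit 816229333) (nat_lit 76) (nat_lit 15232791598) (nat_lit 17) (nat_lit 5) (nat_lit 20) (nat_lit 5) (nat_lit 18) (nat_lit 4) (nat_lit 338) (nat_lit 225) (nat_lit 217)))) (XT.nd (nat_lit 78) (nat_lit 0) (nat_lit 0) (XT.lf (nat_lit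 0) (nat_lit 4437164207) (nat_lit 152) (nat_lit 13232598153) (nat_lit 0) (nat_lit 291696592) (nat_lit 16) (nat_lit 5) (nat_lit 18) (nat_lit 4) (nat_lit 16) (nat_lit 4) (nat_lit 339) (nat_lit 225) (nat_lit 216)) (XT.nd (nat_lit 78) (nat_lit 0) (nat_lit 0) (XT.lf (nat_lit 0) (nat_lit 7438199513) (nat_lit 152) (nat_lit 8058438465) (nat_lit 0) (nat_lit 2896562610) (nat_lit 16) (nat_lit 5) (nat_lit 18) (nat_lit 4) (nat_lit 16) (nat_lit 4) (nat_lit 340) (nat_lit 225) (nat_lit 215)) (XT.lf (nat_lit 0) (nat_lit 10469676625) (nat_lit 152) (nat_lit 2826685414) (nat_lit 0) (nat_lit 5543409345) (nat_lit 16) (nat_lit 5) (nat_lit 18) (nat_lit 4) (nat_lit 16) (nat_lit 4) (nat_lit 341) (nat_lit 225) (nat_lit 214))))))) (XT.nd (nat_lit 858) (nat_lit 228) (nat_lit 0) (XT.nd (nat_lit 390) (nat_lit 152) (nat_lit 0) (XT.nd (nat_lit 156) (nat_lit 152) (nat_lit 0) (XT.nd (nat_lit 78) (nat_lit 0) (nat_lit 0) (XT.lf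 (nat_lit 0) (nat_lit 2516335197) (nat_lit 152) (nat_lit 11042097763) (nat_lit 152) (nat_lit 5742402933) (nat_lit 14) (nat_lit 4) (nat_lit 16) (nat_lit 5) (nat_lit 16) (nat_lit 4) (nat_lit 342) (nat_lit 225) (nat_lit 213)) (XT.lf (nat_lit 0) (nat_lit 7983732205) (nat_lit 152) (nat_lit 8727592949) (nat_lit 152) (nat_lit 3065347099) (nat_lit 14) (nat_lit 4) (nat_lit 16) (nat_lit 5) (nat_lit 16) (nat_lit 4) (nat_lit 343) (nat_lit 225) (nat_lit 212))) (XT.nd (nat_lit 78) (nat_lit 152) (nat_lit 0) (XT.lf (nat_lit 0) (nat_lit 13524026364) (nat_lit 152) (nat_lit 6379369195) (nat_lit 152) (nat_lit 365132064) (nat_lit 14) (nat_lit 4) (nat_lit 16) (nat_lit 5) (nat_lit 16) (nat_lit 4) (nat_lit 344) (nat_lit 225) (nat_lit 211)) (XT.nd (nat_lit 78) (nat_lit 76) (nat_lit 0) (XT.lf (nat_lit 0) (nat_lit 2314537743) (nat_lit 228) (nat_lit 1657464618) (nat_lit 76) (nat_lit 16804148671) (nat_lit 13) (nat_lit 5)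 (nat_lit 16) (nat_lit 5) (nat_lit 14) (nat_lit 4) (nat_lit 345) (nat_lit 225) (nat_lit 210)) (XT.lf (nat_lit 0) (nat_lit 3561036819) (nat_lit 76) (nat_lit 1487632441) (nat_lit 152) (nat_lit 16250857849) (nat_lit 12) (nat_lit 5) (nat_lit 13) (nat_lit 5) (nat_lit 14) (nat_lit 4) (nat_lit 346) (nat_lit 225) (nat_lit 209))))) (XT.nd (nat_lit 234) (nat_lit 152) (nat_lit 0) (XT.nd (nat_lit 78) (nat_lit 0) (nat_lit 0) (XT.lf (nat_lit 0) (nat_lit 7839587615) (nat_lit 152) (nat_lit 12965971204) (nat_lit 0) (nat_lit 1033875318) (nat_lit 12) (nat_lit 5) (nat_lit 14) (nat_lit 4) (nat_lit 12) (nat_lit 4) (nat_lit 347) (nat_lit 225) (nat_lit 208)) (XT.nd (nat_lit 78) (nat_lit 0) (nat_lit 0) (XT.lf (nat_lit 0) (nat_lit 10678052210) (nat_lit 152) (nat_lit 8149932906) (nat_lit 0) (nat_lit 3568709142) (nat_lit 12) (nat_lit 5) (nat_lit 14) (nat_lit 4) (nat_lit 12) (nat_lit 4) (nat_lit 348) (nat_lit 225) (nat_lit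 207)) (XT.lf (nat_lit 0) (nat_lit 13552243224) (nat_lit 152) (nat_lit 3271867173) (nat_lit 0) (nat_lit 6148113000) (nat_lit 12) (nat_lit 5) (nat_lit 14) (nat_lit 4) (nat_lit 12) (nat_lit 4) (nat_lit 349) (nat_lit 225) (nat_lit 206)))) (XT.nd (nat_lit 78) (nat_lit 0) (nat_lit 0) (XT.lf (nat_lit 0) (nat_lit 1705774177) (nat_lit 152) (nat_lit 14775294854) (nat_lit 152) (nat_lit 7084963507) (nat_lit 10) (nat_lit 4) (nat_lit 12) (nat_lit 5) (nat_lit 12) (nat_lit 4) (nat_lit 350) (nat_lit 225) (nat_lit 205)) (XT.nd (nat_lit 78) (nat_lit 0) (nat_lit 0) (XT.lf (nat_lit 0) (nat_lit 6820547513) (nat_lit 152) (nat_lit 12662899400) (nat_lit 152) (nat_lit 4694702886) (nat_lit 10) (nat_lit 4) (nat_lit 12) (nat_lit 5) (nat_lit 12) (nat_lit 4) (nat_lit 351) (nat_lit 225) (nat_lit 204)) (XT.lf (nat_lit 0) (nat_lit 12011805481) (nat_lit 152) (nat_lit 10518117697) (nat_lit 152) (nat_lit 2280149175) (nat_lit 10)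 (nat_lit 4) (nat_lit 12) (nat_lit 5) (nat_lit 12) (nat_lit 4) (nat_lit 352) (nat_lit 225) (nat_lit 203)))))) (XT.nd (nat_lit 468) (nat_lit 76) (nat_lit 0) (XT.nd (nat_lit 234) (nat_lit 0) (nat_lit 0) (XT.nd (nat_lit 78) (nat_lit 76) (nat_lit 0) (XT.lf (nat_lit 0) (nat_lit 157669495) (nat_lit 228) (nat_lit 8179814017) (nat_lit 76) (nat_lit 17124822482) (nat_lit 9) (nat_lit 5) (nat_lit 12) (nat_lit 5) (nat_lit 10) (nat_lit 4) (nat_lit 353) (nat_lit 225) (nat_lit 202)) (XT.nd (nat_lit 78) (nat_lit 76) (nat_lit 0) (XT.lf (nat_lit 0) (nat_lit 2578973175) (nat_lit 228) (nat_lit 3518853537) (nat_lit 76) (nat_lit 20036974560) (nat_lit 9) (nat_lit 5) (nat_lit 12) (nat_lit 5) (nat_lit 10) (nat_lit 4) (nat_lit 354) (nat_lit 225) (nat_lit 201)) (XT.lf (nat_lit 0) (nat_lit 1234698860) (nat_lit 76) (nat_lit 3807541309) (nat_lit 152) (nat_lit 21786207119) (nat_lit 8) (nat_lit 5) (nat_lit 9) (nat_lit 5) (nat_lit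 10) (nat_lit 4) (nat_lit 355) (nat_lit 225) (nat_lit 200)))) (XT.nd (nat_lit 78) (nat_lit 0) (nat_lit 0) (XT.lf (nat_lit 0) (nat_lit 6132359876) (nat_lit 76) (nat_lit 1440594555) (nat_lit 152) (nat_lit 19970195767) (nat_lit 8) (nat_lit 5) (nat_lit 9) (nat_lit 5) (nat_lit 10) (nat_lit 4) (nat_lit 356) (nat_lit 225) (nat_lit 199)) (XT.nd (nat_lit 78) (nat_lit 0) (nat_lit 0) (XT.lf (nat_lit 0) (nat_lit 10148148589) (nat_lit 152) (nat_lit 17181512409) (nat_lit 0) (nat_lit 950628857) (nat_lit 8) (nat_lit 5) (nat_lit 10) (nat_lit 4) (nat_lit 8) (nat_lit 4) (nat_lit 357) (nat_lit 225) (nat_lit 198)) (XT.lf (nat_lit 0) (nat_lit 12775028125) (nat_lit 152) (nat_lit 12907174516) (nat_lit 0) (nat_lit 3358159064) (nat_lit 8) (nat_lit 5) (nat_lit 10) (nat_lit 4) (nat_lit 8) (nat_lit 4) (nat_lit 358) (nat_lit 225) (nat_lit 197))))) (XT.nd (nat_lit 234) (nat_lit 0) (nat_lit 0) (XT.nd (nat_lit 78) (nat_lit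 76) (nat_lit 0) (XT.lf (nat_lit 0) (nat_lit 15442040494) (nat_lit 152) (nat_lit 8570193910) (nat_lit 0) (nat_lit 5812210920) (nat_lit 8) (nat_lit 5) (nat_lit 10) (nat_lit 4) (nat_lit 8) (nat_lit 4) (nat_lit 359) (nat_lit 225) (nat_lit 196)) (XT.nd (nat_lit 78) (nat_lit 76) (nat_lit 0) (XT.lf (nat_lit 0) (nat_lit 18151516097) (nat_lit 152) (nat_lit 4166780995) (nat_lit 0) (nat_lit 8314928742) (nat_lit 8) (nat_lit 5) (nat_lit 10) (nat_lit 4) (nat_lit 8) (nat_lit 4) (nat_lit 360) (nat_lit 225) (nat_lit 195)) (XT.lf (nat_lit 0) (nat_lit 313020019) (nat_lit 76) (nat_lit 20595811356) (nat_lit 76) (nat_lit 10558488291) (nat_lit 7) (nat_lit 4) (nat_lit 8) (nat_lit 5) (nat_lit 8) (nat_lit 4) (nat_lit 361) (nat_lit 225) (nat_lit 194)))) (XT.nd (nat_lit 78) (nat_lit 0) (nat_lit 0) (XT.lf (nat_lit 0) (nat_lit 4951413654) (nat_lit 76) (nat_lit 18803548547) (nat_lit 76) (nat_lit 8571336444) (nat_lit 7) (nat_lit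 4) (nat_lit 8) (nat_lit 5) (nat_lit 8) (nat_lit 4) (nat_lit 362) (nat_lit 225) (nat_lit 193)) (XT.nd (nat_lit 78) (nat_lit 0) (nat_lit 0) (XT.lf (nat_lit 0) (nat_lit 9669525765) (nat_lit 76) (nat_lit 16982018927) (nat_lit 76) (nat_lit 6560594167) (nat_lit 7) (nat_lit 4) (nat_lit 8) (nat_lit 5) (nat_lit 8) (nat_lit 4) (nat_lit 363) (nat_lit 225) (nat_lit 192)) (XT.lf (nat_lit 0) (nat_lit 14471478973) (nat_lit 76) (nat_lit 15129630870) (nat_lit 76) (nat_lit 4524504500) (nat_lit 7) (nat_lit 4) (nat_lit 8) (nat_lit 5) (nat_lit 8) (nat_lit 4) (nat_lit 364) (nat_lit 225) (nat_lit 191))))))))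
noncomputable def xc30 : XT := (XT.nd (nat_lit 1716) (nat_lit 152) (nat_lit 0) (XT.nd (nat_lit 858) (nat_lit 76) (nat_lit 0) (XT.nd (nat_lit 390) (nat_lit 0) (nat_lit 0) (XT.nd (nat_lit 156) (nat_lit 152) (nat_lit 0) (XT.nd (nat_lit 78) (nat_lit 0) (nat_lit 0) (XT.lf (nat_lit 0) (nat_lit 19361469159) (nat_lit 76) (nat_lit 13244765784) (nat_lit 76) (nat_lit 2461288335) (nat_lit 7) (nat_lit 4) (nat_lit 8) (nat_lit 5) (nat_lit 8) (nat_lit 4) (nat_lit 365) (nat_lit 225) (nat_lit 190)) (XT.lf (nat_lit 0) (nat_lit 24343769131) (nat_lit 76) (nat_lit 11325776698) (nat_lit 76) (nat_lit 369142864) (nat_lit 7) (nat_lit 4) (nat_lit 8) (nat_lit 5) (nat_lit 8) (nat_lit 4) (nat_lit 366) (nat_lit 225) (nat_lit 189))) (XT.nd (nat_lit 78) (nat_lit 76) (nat_lit 0) (XT.lf (nat_lit 0) (nat_lit 1719537828) (nat_lit 152) (nat_lit 7634085039) (nat_lit 76) (nat_lit 27685830566) (nat_lit 6) (nat_lit 5) (nat_lit 8) (nat_lit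 5) (nat_lit 7) (nat_lit 4) (nat_lit 367) (nat_lit 225) (nat_lit 188)) (XT.nd (nat_lit 78) (nat_lit 76) (nat_lit 0) (XT.lf (nat_lit 0) (nat_lit 3832991188) (nat_lit 152) (nat_lit 3506991218) (nat_lit 76) (nat_lit 30731099875) (nat_lit 6) (nat_lit 5) (nat_lit 8) (nat_lit 5) (nat_lit 7) (nat_lit 4) (nat_lit 368) (nat_lit 225) (nat_lit 187)) (XT.lf (nat_lit 0) (nat_lit 707318862) (nat_lit 76) (nat_lit 5279747549) (nat_lit 152) (nat_lit 33147312729) (nat_lit 5) (nat_lit 5) (nat_lit 6) (nat_lit 5) (nat_lit 7) (nat_lit 4) (nat_lit 369) (nat_lit 225) (nat_lit 186))))) (XT.nd (nat_lit 234) (nat_lit 0) (nat_lit 0) (XT.nd (nat_lit 78) (nat_lit 0) (nat_lit 0) (XT.lf (nat_lit 0) (nat_lit 5070043342) (nat_lit 76) (nat_lit 3141935230) (nat_lit 152) (nat_lit 32017444545) (nat_lit 5) (nat_lit 5) (nat_lit 6) (nat_lit 5) (nat_lit 7) (nat_lit 4) (nat_lit 370) (nat_lit 225) (nat_lit 185)) (XT.nd (nat_lit 78) (nat_lit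 0) (nat_lit 0) (XT.lf (nat_lit 0) (nat_lit 9515198308) (nat_lit 76) (nat_lit 960091193) (nat_lit 152) (nat_lit 30882913014) (nat_lit 5) (nat_lit 5) (nat_lit 6) (nat_lit 5) (nat_lit 7) (nat_lit 4) (nat_lit 371) (nat_lit 225) (nat_lit 184)) (XT.lf (nat_lit 0) (nat_lit 12791162670) (nat_lit 152) (nat_lit 28487221592) (nat_lit 0) (nat_lit 1242953809) (nat_lit 5) (nat_lit 5) (nat_lit 7) (nat_lit 4) (nat_lit 5) (nat_lit 4) (nat_lit 372) (nat_lit 225) (nat_lit 183)))) (XT.nd (nat_lit 78) (nat_lit 0) (nat_lit 0) (XT.lf (nat_lit 0) (nat_lit 15159114470) (nat_lit 152) (nat_lit 25086592504) (nat_lit 0) (nat_lit 3474214359) (nat_lit 5) (nat_lit 5) (nat_lit 7) (nat_lit 4) (nat_lit 5) (nat_lit 4) (nat_lit 373) (nat_lit 225) (nat_lit 182)) (XT.nd (nat_lit 78) (nat_lit 0) (nat_lit 0) (XT.lf (nat_lit 0) (nat_lit 17571985002) (nat_lit 152) (nat_lit 21628916537) (nat_lit 0) (nat_lit 5754374938) (nat_lit 5) (nat_lit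 5) (nat_lit 7) (nat_lit 4) (nat_lit 5) (nat_lit 4) (nat_lit 374) (nat_lit 225) (nat_lit 181)) (XT.lf (nat_lit 0) (nat_lit 20031882598) (nat_lit 152) (nat_lit 18111172419) (nat_lit 0) (nat_lit 8085427921) (nat_lit 5) (nat_lit 5) (nat_lit 7) (nat_lit 4) (nat_lit 5) (nat_lit 4) (nat_lit 375) (nat_lit 225) (nat_lit 180)))))) (XT.nd (nat_lit 390) (nat_lit 0) (nat_lit 0) (XT.nd (nat_lit 156) (nat_lit 76) (nat_lit 0) (XT.nd (nat_lit 78) (nat_lit 0) (nat_lit 0) (XT.lf (nat_lit 0) (nat_lit 22540956684) (nat_lit 152) (nat_lit 14530286394) (nat_lit 0) (nat_lit 10469410150) (nat_lit 5) (nat_lit 5) (nat_lit 7) (nat_lit 4) (nat_lit 5) (nat_lit 4) (nat_lit 376) (nat_lit 225) (nat_lit 179)) (XT.lf (nat_lit 0) (nat_lit 25101399654) (nat_lit 152) (nat_lit 10883129533) (nat_lit 0) (nat_lit 12908404715) (nat_lit 5) (nat_lit 5) (nat_lit 7) (nat_lit 4) (nat_lit 5) (nat_lit 4) (nat_lit 377) (nat_lit 225) (nat_lit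 178))) (XT.nd (nat_lit 78) (nat_lit 76) (nat_lit 0) (XT.lf (nat_lit 0) (nat_lit 27715448790) (nat_lit 152) (nat_lit 7166514999) (nat_lit 0) (nat_lit 15404542777) (nat_lit 5) (nat_lit 5) (nat_lit 7) (nat_lit 4) (nat_lit 5) (nat_lit 4) (nat_lit 378) (nat_lit 225) (nat_lit 177)) (XT.nd (nat_lit 78) (nat_lit 76) (nat_lit 0) (XT.lf (nat_lit 0) (nat_lit 30385388211) (nat_lit 152) (nat_lit 3377195265) (nat_lit 0) (nat_lit 17960005428) (nat_lit 5) (nat_lit 5) (nat_lit 7) (nat_lit 4) (nat_lit 5) (nat_lit 4) (nat_lit 379) (nat_lit 225) (nat_lit 176)) (XT.lf (nat_lit 0) (nat_lit 497855681) (nat_lit 76) (nat_lit 32620480886) (nat_lit 76) (nat_lit 20083955608) (nat_lit 4) (nat_lit 4) (nat_lit 5) (nat_lit 5) (nat_lit 5) (nat_lit 4) (nat_lit 380) (nat_lit 225) (nat_lit 175))))) (XT.nd (nat_lit 234) (nat_lit 0) (nat_lit 0) (XT.nd (nat_lit 78) (nat_lit 0) (nat_lit 0) (XT.lf (nat_lit 0) (nat_lit 4521093261)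 (nat_lit 76) (nat_lit 31424686863) (nat_lit 76) (nat_lit 18780256250) (nat_lit 4) (nat_lit 4) (nat_lit 5) (nat_lit 5) (nat_lit 5) (nat_lit 4) (nat_lit 381) (nat_lit 225) (nat_lit 174)) (XT.nd (nat_lit 78) (nat_lit 0) (nat_lit 0) (XT.lf (nat_lit 0) (nat_lit 8628820117) (nat_lit 76) (nat_lit 30208259591) (nat_lit 76) (nat_lit 17459066517) (nat_lit 4) (nat_lit 4) (nat_lit 5) (nat_lit 5) (nat_lit 5) (nat_lit 4) (nat_lit 382) (nat_lit 225) (nat_lit 173)) (XT.lf (nat_lit 0) (nat_lit 12824625524) (nat_lit 76) (nat_lit 28970136171) (nat_lit 76) (nat_lit 16119231969) (nat_lit 4) (nat_lit 4) (nat_lit 5) (nat_lit 5) (nat_lit 5) (nat_lit 4) (nat_lit 383) (nat_lit 225) (nat_lit 172)))) (XT.nd (nat_lit 78) (nat_lit 0) (nat_lit 0) (XT.lf (nat_lit 0) (nat_lit 17112175719) (nat_lit 76) (nat_lit 27709234748) (nat_lit 76) (nat_lit 14759581879) (nat_lit 4) (nat_lit 4) (nat_lit 5) (nat_lit 5) (nat_lit 5) (nat_lit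 4) (nat_lit 384) (nat_lit 225) (nat_lit 171)) (XT.nd (nat_lit 78) (nat_lit 0) (nat_lit 0) (XT.lf (nat_lit 0) (nat_lit 21495217107) (nat_lit 76) (nat_lit 26424453564) (nat_lit 76) (nat_lit 13378928202) (nat_lit 4) (nat_lit 4) (nat_lit 5) (nat_lit 5) (nat_lit 5) (nat_lit 4) (nat_lit 385) (nat_lit 225) (nat_lit 170)) (XT.lf (nat_lit 0) (nat_lit 25977579529) (nat_lit 76) (nat_lit 25114669994) (nat_lit 76) (nat_lit 11976064542) (nat_lit 4) (nat_lit 4) (nat_lit 5) (nat_lit 5) (nat_lit 5) (nat_lit 4) (nat_lit 386) (nat_lit 225) (nat_lit 169))))))) (XT.nd (nat_lit 858) (nat_lit 76) (nat_lit 0) (XT.nd (nat_lit 390) (nat_lit 76) (nat_lit 0) (XT.nd (nat_lit 156) (nat_lit 0) (nat_lit 0) (XT.nd (nat_lit 78) (nat_lit 0) (nat_lit 0) (XT.lf (nat_lit 0) (nat_lit 30563179612) (nat_lit 76) (nat_lit 23778739567) (nat_lit 76) (nat_lit 10549765096) (nat_lit 4) (nat_lit 4) (nat_lit 5) (nat_lit 5) (nat_lit 5) (nat_lit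 4) (nat_lit 387) (nat_lit 225) (nat_lit 168)) (XT.lf (nat_lit 0) (nat_lit 35256024192) (nat_lit 76) (nat_lit 22415494965) (nat_lit 76) (nat_lit 9098783582) (nat_lit 4) (nat_lit 4) (nat_lit 5) (nat_lit 5) (nat_lit 5) (nat_lit 4) (nat_lit 388) (nat_lit 225) (nat_lit 167))) (XT.nd (nat_lit 78) (nat_lit 0) (nat_lit 0) (XT.lf (nat_lit 0) (nat_lit 40060213812) (nat_lit 76) (nat_lit 21023745004) (nat_lit 76) (nat_lit 7621852153) (nat_lit 4) (nat_lit 4) (nat_lit 5) (nat_lit 5) (nat_lit 5) (nat_lit 4) (nat_lit 389) (nat_lit 225) (nat_lit 166)) (XT.nd (nat_lit 78) (nat_lit 0) (nat_lit 0) (XT.lf (nat_lit 0) (nat_lit 44979946308) (nat_lit 76) (nat_lit 19602273591) (nat_lit 76) (nat_lit 6117680286) (nat_lit 4) (nat_lit 4) (nat_lit 5) (nat_lit 5) (nat_lit 5) (nat_lit 4) (nat_lit 390) (nat_lit 225) (nat_lit 165)) (XT.lf (nat_lit 0) (nat_lit 50019520475) (nat_lit 76) (nat_lit 18149838664) (nat_lit 76) (nat_lit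 4584953656) (nat_lit 4) (nat_lit 4) (nat_lit 5) (nat_lit 5) (nat_lit 5) (nat_lit 4) (nat_lit 391) (nat_lit 225) (nat_lit 164))))) (XT.nd (nat_lit 234) (nat_lit 0) (nat_lit 0) (XT.nd (nat_lit 78) (nat_lit 76) (nat_lit 0) (XT.lf (nat_lit 0) (nat_lit 55183339824) (nat_lit 76) (nat_lit 16665171106) (nat_lit 76) (nat_lit 3022332987) (nat_lit 4) (nat_lit 4) (nat_lit 5) (nat_lit 5) (nat_lit 5) (nat_lit 4) (nat_lit 392) (nat_lit 225) (nat_lit 163)) (XT.nd (nat_lit 78) (nat_lit 76) (nat_lit 0) (XT.lf (nat_lit 0) (nat_lit 60475916432) (nat_lit 76) (nat_lit 15146973633) (nat_lit 76) (nat_lit 1428452884) (nat_lit 4) (nat_lit 4) (nat_lit 5) (nat_lit 5) (nat_lit 5) (nat_lit 4) (nat_lit 393) (nat_lit 225) (nat_lit 162)) (XT.lf (nat_lit 0) (nat_lit 194214123) (nat_lit 152) (nat_lit 13397744360) (nat_lit 76) (nat_lit 65705699573) (nat_lit 3) (nat_lit 5) (nat_lit 5) (nat_lit 5) (nat_lit 4) (nat_lit 4) (nat_lit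 394) (nat_lit 225) (nat_lit 161)))) (XT.nd (nat_lit 78) (nat_lit 0) (nat_lit 0) (XT.lf (nat_lit 0) (nat_lit 1822415363) (nat_lit 152) (nat_lit 10163833981) (nat_lit 76) (nat_lit 69625138107) (nat_lit 3) (nat_lit 5) (nat_lit 5) (nat_lit 5) (nat_lit 4) (nat_lit 4) (nat_lit 395) (nat_lit 225) (nat_lit 160)) (XT.nd (nat_lit 78) (nat_lit 0) (nat_lit 0) (XT.lf (nat_lit 0) (nat_lit 3485447797) (nat_lit 152) (nat_lit 6857138469) (nat_lit 76) (nat_lit 73652378508) (nat_lit 3) (nat_lit 5) (nat_lit 5) (nat_lit 5) (nat_lit 4) (nat_lit 4) (nat_lit 396) (nat_lit 225) (nat_lit 159)) (XT.lf (nat_lit 0) (nat_lit 5184764559) (nat_lit 152) (nat_lit 3474768479) (nat_lit 76) (nat_lit 77790939724) (nat_lit 3) (nat_lit 5) (nat_lit 5) (nat_lit 5) (nat_lit 4) (nat_lit 4) (nat_lit 397) (nat_lit 225) (nat_lit 158)))))) (XT.nd (nat_lit 35178) (nat_lit 0) (nat_lit 1368) (XT.nd (nat_lit 156) (nat_lit 0) (nat_lit 0) (XT.nd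 (nat_lit 78) (nat_lit 76) (nat_lit 0) (XT.lf (nat_lit 0) (nat_lit 6921850490) (nat_lit 152) (nat_lit 13768543) (nat_lit 76) (nat_lit 82044437972) (nat_lit 3) (nat_lit 5) (nat_lit 5) (nat_lit 5) (nat_lit 4) (nat_lit 4) (nat_lit 398) (nat_lit 225) (nat_lit 157)) (XT.lf (nat_lit 0) (nat_lit 3599117256) (nat_lit 76) (nat_lit 5133703091) (nat_lit 152) (nat_lit 82852069564) (nat_lit 2) (nat_lit 5) (nat_lit 3) (nat_lit 5) (nat_lit 4) (nat_lit 4) (nat_lit 399) (nat_lit 225) (nat_lit 156))) (XT.nd (nat_lit 78) (nat_lit 0) (nat_lit 0) (XT.lf (nat_lit 0) (nat_lit 7298713405) (nat_lit 76) (nat_lit 3286881846) (nat_lit 152) (nat_lit 83682662135) (nat_lit 2) (nat_lit 5) (nat_lit 3) (nat_lit 5) (nat_lit 4) (nat_lit 4) (nat_lit 400) (nat_lit 225) (nat_lit 155)) (XT.nd (nat_lit 78) (nat_lit 0) (nat_lit 0) (XT.lf (nat_lit 0) (nat_lit 11087978540) (nat_lit 76) (nat_lit 1393680604) (nat_lit 152) (nat_lit 84550849027)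 (nat_lit 2) (nat_lit 5) (nat_lit 3) (nat_lit 5) (nat_lit 4) (nat_lit 4) (nat_lit 401) (nat_lit 225) (nat_lit 154)) (XT.lf (nat_lit 0) (nat_lit 14427932214) (nat_lit 152) (nat_lit 84915097393) (nat_lit 0) (nat_lit 536870119) (nat_lit 2) (nat_lit 5) (nat_lit 4) (nat_lit 4) (nat_lit 2) (nat_lit 4) (nat_lit 402) (nat_lit 225) (nat_lit 153))))) (XT.nd (nat_lit 234) (nat_lit 228) (nat_lit 0) (XT.nd (nat_lit 78) (nat_lit 152) (nat_lit 0) (XT.lf (nat_lit 0) (nat_lit 1107078687) (nat_lit 228) (nat_lit 4801602285) (nat_lit 0) (nat_lit 1107078687) (nat_lit 25) (nat_lit 5) (nat_lit 28) (nat_lit 4) (nat_lit 25) (nat_lit 4) (nat_lit 328) (nat_lit 226) (nat_lit 226)) (XT.nd (nat_lit 78) (nat_lit 152) (nat_lit 0) (XT.lf (nat_lit 0) (nat_lit 5461787947) (nat_lit 228) (nat_lit 3974257413) (nat_lit 0) (nat_lit 4896945272) (nat_lit 25) (nat_lit 5) (nat_lit 28) (nat_lit 4) (nat_lit 25) (nat_lit 4) (nat_lit 329)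 (nat_lit 226) (nat_lit 225)) (XT.lf (nat_lit 0) (nat_lit 1743244293) (nat_lit 152) (nat_lit 7007650609) (nat_lit 152) (nat_lit 5894416987) (nat_lit 23) (nat_lit 4) (nat_lit 25) (nat_lit 5) (nat_lit 25) (nat_lit 4) (nat_lit 330) (nat_lit 226) (nat_lit 224)))) (XT.nd (nat_lit 78) (nat_lit 228) (nat_lit 0) (XT.lf (nat_lit 0) (nat_lit 7600529485) (nat_lit 152) (nat_lit 4506597637) (nat_lit 152) (nat_lit 2860945620) (nat_lit 23) (nat_lit 4) (nat_lit 25) (nat_lit 5) (nat_lit 25) (nat_lit 4) (nat_lit 331) (nat_lit 226) (nat_lit 223)) (XT.nd (nat_lit 78) (nat_lit 152) (nat_lit 0) (XT.lf (nat_lit 0) (nat_lit 187988473) (nat_lit 228) (nat_lit 1780946478) (nat_lit 76) (nat_lit 13333733873) (nat_lit 22) (nat_lit 5) (nat_lit 25) (nat_lit 5) (nat_lit 23) (nat_lit 4) (nat_lit 332) (nat_lit 226) (nat_lit 222)) (XT.lf (nat_lit 0) (nat_lit 3246623670) (nat_lit 228) (nat_lit 11740860704) (nat_lit 0) (nat_lit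 659809611) (nat_lit 20) (nat_lit 5) (nat_lit 23) (nat_lit 4) (nat_lit 20) (nat_lit 4) (nat_lit 333) (nat_lit 226) (nat_lit 221))))))))
noncomputable def xc31 : XT := (XT.nd (nat_lit 1716) (nat_lit 304) (nat_lit 0) (XT.nd (nat_lit 858) (nat_lit 380) (nat_lit 0) (XT.nd (nat_lit 390) (nat_lit 228) (nat_lit 0) (XT.nd (nat_lit 156) (nat_lit 228) (nat_lit 0) (XT.nd (nat_lit 78) (nat_lit 0) (nat_lit 0) (XT.lf (nat_lit 0) (nat_lit 6366904939) (nat_lit 228) (nat_lit 6329322066) (nat_lit 0) (nat_lit 3307044031) (nat_lit 20) (nat_lit 5) (nat_lit 23) (nat_lit 4) (nat_lit 20) (nat_lit 4) (nat_lit 334) (nat_lit 226) (nat_lit 220)) (XT.lf (nat_lit 0) (nat_lit 9514998999) (nat_lit 228) (nat_lit 861139515) (nat_lit 0) (nat_lit 5995869306) (nat_lit 20) (nat_lit 5) (nat_lit 23) (nat_lit 4) (nat_lit 20) (nat_lit 4) (nat_lit 335) (nat_lit 226) (nat_lit 219))) (XT.nd (nat_lit 78) (nat_lit 76) (nat_lit 0) (XT.lf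 (nat_lit 0) (nat_lit 4761376579) (nat_lit 152) (nat_lit 7978049296) (nat_lit 152) (nat_lit 4013027580) (nat_lit 18) (nat_lit 4) (nat_lit 20) (nat_lit 5) (nat_lit 20) (nat_lit 4) (nat_lit 336) (nat_lit 226) (nat_lit 218)) (XT.nd (nat_lit 78) (nat_lit 76) (nat_lit 0) (XT.lf (nat_lit 0) (nat_lit 10468603246) (nat_lit 152) (nat_lit 5537682615) (nat_lit 152) (nat_lit 1139756021) (nat_lit 18) (nat_lit 4) (nat_lit 20) (nat_lit 5) (nat_lit 20) (nat_lit 4) (nat_lit 337) (nat_lit 226) (nat_lit 217)) (XT.lf (nat_lit 0) (nat_lit 1722342661) (nat_lit 228) (nat_lit 1321866988) (nat_lit 76) (nat_lit 14508654072) (nat_lit 17) (nat_lit 5) (nat_lit 20) (nat_lit 5) (nat_lit 18) (nat_lit 4) (nat_lit 338) (nat_lit 226) (nat_lit 216))))) (XT.nd (nat_lit 234) (nat_lit 152) (nat_lit 0) (XT.nd (nat_lit 78) (nat_lit 0) (nat_lit 0) (XT.lf (nat_lit 0) (nat_lit 4167335426) (nat_lit 76) (nat_lit 460059836) (nat_lit 152)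 (nat_lit 13344848355) (nat_lit 16) (nat_lit 5) (nat_lit 17) (nat_lit 5) (nat_lit 18) (nat_lit 4) (nat_lit 339) (nat_lit 226) (nat_lit 215)) (XT.nd (nat_lit 78) (nat_lit 0) (nat_lit 0) (XT.lf (nat_lit 0) (nat_lit 7594653880) (nat_lit 152) (nat_lit 8674420426) (nat_lit 0) (nat_lit 2135968205) (nat_lit 16) (nat_lit 5) (nat_lit 18) (nat_lit 4) (nat_lit 16) (nat_lit 4) (nat_lit 340) (nat_lit 226) (nat_lit 214)) (XT.lf (nat_lit 0) (nat_lit 10597631660) (nat_lit 152) (nat_lit 3489360869) (nat_lit 0) (nat_lit 4765518435) (nat_lit 16) (nat_lit 5) (nat_lit 18) (nat_lit 4) (nat_lit 16) (nat_lit 4) (nat_lit 341) (nat_lit 226) (nat_lit 213)))) (XT.nd (nat_lit 78) (nat_lit 0) (nat_lit 0) (XT.lf (nat_lit 0) (nat_lit 1794235485) (nat_lit 152) (nat_lit 11857541991) (nat_lit 152) (nat_lit 5662877746) (nat_lit 14) (nat_lit 4) (nat_lit 16) (nat_lit 5) (nat_lit 16) (nat_lit 4) (nat_lit 342) (nat_lit 226) (nat_lit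 212)) (XT.nd (nat_lit 78) (nat_lit 0) (nat_lit 0) (XT.lf (nat_lit 0) (nat_lit 7216743449) (nat_lit 152) (nat_lit 9560631367) (nat_lit 152) (nat_lit 3013975841) (nat_lit 14) (nat_lit 4) (nat_lit 16) (nat_lit 5) (nat_lit 16) (nat_lit 4) (nat_lit 343) (nat_lit 226) (nat_lit 211)) (XT.lf (nat_lit 0) (nat_lit 12713456012) (nat_lit 152) (nat_lit 7229489350) (nat_lit 152) (nat_lit 341094716) (nat_lit 14) (nat_lit 4) (nat_lit 16) (nat_lit 5) (nat_lit 16) (nat_lit 4) (nat_lit 344) (nat_lit 226) (nat_lit 210)))))) (XT.nd (nat_lit 390) (nat_lit 228) (nat_lit 0) (XT.nd (nat_lit 156) (nat_lit 0) (nat_lit 0) (XT.nd (nat_lit 78) (nat_lit 76) (nat_lit 0) (XT.lf (nat_lit 0) (nat_lit 2312086106) (nat_lit 228) (nat_lit 2526645378) (nat_lit 76) (nat_lit 15953742483) (nat_lit 13) (nat_lit 5) (nat_lit 16) (nat_lit 5) (nat_lit 14) (nat_lit 4) (nat_lit 345) (nat_lit 226) (nat_lit 209)) (XT.lf (nat_lit 0) (nat_lit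 2632111031) (nat_lit 76) (nat_lit 2379915122) (nat_lit 152) (nat_lit 16304885377) (nat_lit 12) (nat_lit 5) (nat_lit 13) (nat_lit 5) (nat_lit 14) (nat_lit 4) (nat_lit 346) (nat_lit 226) (nat_lit 208))) (XT.nd (nat_lit 78) (nat_lit 0) (nat_lit 0) (XT.lf (nat_lit 0) (nat_lit 7769288353) (nat_lit 152) (nat_lit 13945540367) (nat_lit 0) (nat_lit 143034222) (nat_lit 12) (nat_lit 5) (nat_lit 14) (nat_lit 4) (nat_lit 12) (nat_lit 4) (nat_lit 347) (nat_lit 226) (nat_lit 207)) (XT.nd (nat_lit 78) (nat_lit 0) (nat_lit 0) (XT.lf (nat_lit 0) (nat_lit 10583404417) (nat_lit 152) (nat_lit 9170119663) (nat_lit 0) (nat_lit 2662363130) (nat_lit 12) (nat_lit 5) (nat_lit 14) (nat_lit 4) (nat_lit 12) (nat_lit 4) (nat_lit 348) (nat_lit 226) (nat_lit 206)) (XT.lf (nat_lit 0) (nat_lit 13433956081) (nat_lit 152) (nat_lit 4331488487) (nat_lit 0) (nat_lit 5226713671) (nat_lit 12) (nat_lit 5) (nat_lit 14) (nat_lit 4) (nat_lit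 12) (nat_lit 4) (nat_lit 349) (nat_lit 226) (nat_lit 205))))) (XT.nd (nat_lit 234) (nat_lit 76) (nat_lit 0) (XT.nd (nat_lit 78) (nat_lit 0) (nat_lit 0) (XT.lf (nat_lit 0) (nat_lit 586016378) (nat_lit 152) (nat_lit 15743050887) (nat_lit 152) (nat_lit 7257943309) (nat_lit 10) (nat_lit 4) (nat_lit 12) (nat_lit 5) (nat_lit 12) (nat_lit 4) (nat_lit 350) (nat_lit 226) (nat_lit 204)) (XT.nd (nat_lit 78) (nat_lit 0) (nat_lit 0) (XT.lf (nat_lit 0) (nat_lit 5662879089) (nat_lit 152) (nat_lit 13645919283) (nat_lit 152) (nat_lit 4891039698) (nat_lit 10) (nat_lit 4) (nat_lit 12) (nat_lit 5) (nat_lit 12) (nat_lit 4) (nat_lit 351) (nat_lit 226) (nat_lit 203)) (XT.lf (nat_lit 0) (nat_lit 10817330625) (nat_lit 152) (nat_lit 11515956851) (nat_lit 152) (nat_lit 2499162696) (nat_lit 10) (nat_lit 4) (nat_lit 12) (nat_lit 5) (nat_lit 12) (nat_lit 4) (nat_lit 352) (nat_lit 226) (nat_lit 202)))) (XT.nd (nat_lit 78)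 (nat_lit 76) (nat_lit 0) (XT.lf (nat_lit 0) (nat_lit 16053874874) (nat_lit 152) (nat_lit 9351302461) (nat_lit 152) (nat_lit 80222315) (nat_lit 10) (nat_lit 4) (nat_lit 12) (nat_lit 5) (nat_lit 12) (nat_lit 4) (nat_lit 353) (nat_lit 226) (nat_lit 201)) (XT.nd (nat_lit 78) (nat_lit 0) (nat_lit 0) (XT.lf (nat_lit 0) (nat_lit 2321688921) (nat_lit 228) (nat_lit 4804931238) (nat_lit 76) (nat_lit 19031954032) (nat_lit 9) (nat_lit 5) (nat_lit 12) (nat_lit 5) (nat_lit 10) (nat_lit 4) (nat_lit 354) (nat_lit 226) (nat_lit 200)) (XT.lf (nat_lit 0) (nat_lit 4752739789) (nat_lit 228) (nat_lit 109586910) (nat_lit 76) (nat_lit 21990886588) (nat_lit 9) (nat_lit 5) (nat_lit 12) (nat_lit 5) (nat_lit 10) (nat_lit 4) (nat_lit 355) (nat_lit 226) (nat_lit 199))))))) (XT.nd (nat_lit 858) (nat_lit 152) (nat_lit 0) (XT.nd (nat_lit 390) (nat_lit 76) (nat_lit 0) (XT.nd (nat_lit 156) (nat_lit 0) (nat_lit 0) (XT.nd (nat_lit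 78) (nat_lit 0) (nat_lit 0) (XT.lf (nat_lit 0) (nat_lit 4752112919) (nat_lit 76) (nat_lit 2510187231) (nat_lit 152) (nat_lit 20306276483) (nat_lit 8) (nat_lit 5) (nat_lit 9) (nat_lit 5) (nat_lit 10) (nat_lit 4) (nat_lit 356) (nat_lit 226) (nat_lit 198)) (XT.lf (nat_lit 0) (nat_lit 9695333675) (nat_lit 76) (nat_lit 113346063) (nat_lit 152) (nat_lit 18497926058) (nat_lit 8) (nat_lit 5) (nat_lit 9) (nat_lit 5) (nat_lit 10) (nat_lit 4) (nat_lit 357) (nat_lit 226) (nat_lit 197))) (XT.nd (nat_lit 78) (nat_lit 0) (nat_lit 0) (XT.lf (nat_lit 0) (nat_lit 12415418712) (nat_lit 152) (nat_lit 14368153753) (nat_lit 0) (nat_lit 2283733736) (nat_lit 8) (nat_lit 5) (nat_lit 10) (nat_lit 4) (nat_lit 8) (nat_lit 4) (nat_lit 358) (nat_lit 226) (nat_lit 196)) (XT.nd (nat_lit 78) (nat_lit 0) (nat_lit 0) (XT.lf (nat_lit 0) (nat_lit 15063934955) (nat_lit 152) (nat_lit 10062541180) (nat_lit 0) (nat_lit 4725492198)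 (nat_lit 8) (nat_lit 5) (nat_lit 10) (nat_lit 4) (nat_lit 8) (nat_lit 4) (nat_lit 359) (nat_lit 226) (nat_lit 195)) (XT.lf (nat_lit 0) (nat_lit 17755453152) (nat_lit 152) (nat_lit 5689582667) (nat_lit 0) (nat_lit 7216274686) (nat_lit 8) (nat_lit 5) (nat_lit 10) (nat_lit 4) (nat_lit 8) (nat_lit 4) (nat_lit 360) (nat_lit 226) (nat_lit 194))))) (XT.nd (nat_lit 234) (nat_lit 0) (nat_lit 0) (XT.nd (nat_lit 78) (nat_lit 76) (nat_lit 0) (XT.lf (nat_lit 0) (nat_lit 20492325116) (nat_lit 152) (nat_lit 1245457182) (nat_lit 0) (nat_lit 9758257613) (nat_lit 8) (nat_lit 5) (nat_lit 10) (nat_lit 4) (nat_lit 8) (nat_lit 4) (nat_lit 361) (nat_lit 226) (nat_lit 193)) (XT.nd (nat_lit 78) (nat_lit 0) (nat_lit 0) (XT.lf (nat_lit 0) (nat_lit 3338871908) (nat_lit 76) (nat_lit 19970165660) (nat_lit 76) (nat_lit 9046885498) (nat_lit 7) (nat_lit 4) (nat_lit 8) (nat_lit 5) (nat_lit 8) (nat_lit 4) (nat_lit 362) (nat_lit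 226) (nat_lit 192)) (XT.lf (nat_lit 0) (nat_lit 8028559257) (nat_lit 76) (nat_lit 18160353997) (nat_lit 76) (nat_lit 7053372225) (nat_lit 7) (nat_lit 4) (nat_lit 8) (nat_lit 5) (nat_lit 8) (nat_lit 4) (nat_lit 363) (nat_lit 226) (nat_lit 191)))) (XT.nd (nat_lit 78) (nat_lit 0) (nat_lit 0) (XT.lf (nat_lit 0) (nat_lit 12802915609) (nat_lit 76) (nat_lit 16319342596) (nat_lit 76) (nat_lit 5034009746) (nat_lit 7) (nat_lit 4) (nat_lit 8) (nat_lit 5) (nat_lit 8) (nat_lit 4) (nat_lit 364) (nat_lit 226) (nat_lit 190)) (XT.nd (nat_lit 78) (nat_lit 0) (nat_lit 0) (XT.lf (nat_lit 0) (nat_lit 17666112731) (nat_lit 76) (nat_lit 14445522807) (nat_lit 76) (nat_lit 2987033571) (nat_lit 7) (nat_lit 4) (nat_lit 8) (nat_lit 5) (nat_lit 8) (nat_lit 4) (nat_lit 365) (nat_lit 226) (nat_lit 189)) (XT.lf (nat_lit 0) (nat_lit 22622400020) (nat_lit 76) (nat_lit 12537257311) (nat_lit 76) (nat_lit 910655079) (nat_lit 7)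 (nat_lit 4) (nat_lit 8) (nat_lit 5) (nat_lit 8) (nat_lit 4) (nat_lit 366) (nat_lit 226) (nat_lit 188)))))) (XT.nd (nat_lit 468) (nat_lit 0) (nat_lit 0) (XT.nd (nat_lit 234) (nat_lit 76) (nat_lit 0) (XT.nd (nat_lit 78) (nat_lit 0) (nat_lit 0) (XT.lf (nat_lit 0) (nat_lit 1173583428) (nat_lit 152) (nat_lit 9407444372) (nat_lit 76) (nat_lit 26490673891) (nat_lit 6) (nat_lit 5) (nat_lit 8) (nat_lit 5) (nat_lit 7) (nat_lit 4) (nat_lit 367) (nat_lit 226) (nat_lit 187)) (XT.nd (nat_lit 78) (nat_lit 0) (nat_lit 0) (XT.lf (nat_lit 0) (nat_lit 3272464907) (nat_lit 152) (nat_lit 5305177592) (nat_lit 76) (nat_lit 29526142779) (nat_lit 6) (nat_lit 5) (nat_lit 8) (nat_lit 5) (nat_lit 7) (nat_lit 4) (nat_lit 368) (nat_lit 226) (nat_lit 186)) (XT.lf (nat_lit 0) (nat_lit 5405593491) (nat_lit 152) (nat_lit 1128773772) (nat_lit 76) (nat_lit 32633360343) (nat_lit 6) (nat_lit 5) (nat_lit 8) (nat_lit 5) (nat_lit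 7) (nat_lit 4) (nat_lit 369) (nat_lit 226) (nat_lit 185)))) (XT.nd (nat_lit 78) (nat_lit 0) (nat_lit 0) (XT.lf (nat_lit 0) (nat_lit 3187618285) (nat_lit 76) (nat_lit 4417856131) (nat_lit 152) (nat_lit 32658064678) (nat_lit 5) (nat_lit 5) (nat_lit 6) (nat_lit 5) (nat_lit 7) (nat_lit 4) (nat_lit 370) (nat_lit 226) (nat_lit 184)) (XT.nd (nat_lit 78) (nat_lit 0) (nat_lit 0) (XT.lf (nat_lit 0) (nat_lit 7609600814) (nat_lit 76) (nat_lit 2245626448) (nat_lit 152) (nat_lit 31537514063) (nat_lit 5) (nat_lit 5) (nat_lit 6) (nat_lit 5) (nat_lit 7) (nat_lit 4) (nat_lit 371) (nat_lit 226) (nat_lit 183)) (XT.lf (nat_lit 0) (nat_lit 12118572871) (nat_lit 76) (nat_lit 27178551) (nat_lit 152) (nat_lit 30410901552) (nat_lit 5) (nat_lit 5) (nat_lit 6) (nat_lit 5) (nat_lit 7) (nat_lit 4) (nat_lit 372) (nat_lit 226) (nat_lit 182))))) (XT.nd (nat_lit 234) (nat_lit 0) (nat_lit 0) (XT.nd (nat_lit 78) (nat_lit 0) (nat_lit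 0) (XT.lf (nat_lit 0) (nat_lit 14500575057) (nat_lit 152) (nat_lit 27059343450) (nat_lit 0) (nat_lit 2195726741) (nat_lit 5) (nat_lit 5) (nat_lit 7) (nat_lit 4) (nat_lit 5) (nat_lit 4) (nat_lit 373) (nat_lit 226) (nat_lit 181)) (XT.nd (nat_lit 78) (nat_lit 0) (nat_lit 0) (XT.lf (nat_lit 0) (nat_lit 16900953445) (nat_lit 152) (nat_lit 23623175920) (nat_lit 0) (nat_lit 4467260515) (nat_lit 5) (nat_lit 5) (nat_lit 7) (nat_lit 4) (nat_lit 5) (nat_lit 4) (nat_lit 374) (nat_lit 226) (nat_lit 180)) (XT.lf (nat_lit 0) (nat_lit 19348722747) (nat_lit 152) (nat_lit 20126313781) (nat_lit 0) (nat_lit 6789937959) (nat_lit 5) (nat_lit 5) (nat_lit 7) (nat_lit 4) (nat_lit 5) (nat_lit 4) (nat_lit 375) (nat_lit 226) (nat_lit 179)))) (XT.nd (nat_lit 78) (nat_lit 0) (nat_lit 0) (XT.lf (nat_lit 0) (nat_lit 21846021789) (nat_lit 152) (nat_lit 16565701522) (nat_lit 0) (nat_lit 9165788596) (nat_lit 5) (nat_lit 5) (nat_lit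 7) (nat_lit 4) (nat_lit 5) (nat_lit 4) (nat_lit 376) (nat_lit 226) (nat_lit 178)) (XT.nd (nat_lit 78) (nat_lit 0) (nat_lit 0) (XT.lf (nat_lit 0) (nat_lit 24395032679) (nat_lit 152) (nat_lit 12938227928) (nat_lit 0) (nat_lit 11596888413) (nat_lit 5) (nat_lit 5) (nat_lit 7) (nat_lit 4) (nat_lit 5) (nat_lit 4) (nat_lit 377) (nat_lit 226) (nat_lit 177)) (XT.lf (nat_lit 0) (nat_lit 26997982707) (nat_lit 152) (nat_lit 9240723363) (nat_lit 0) (nat_lit 14085361671) (nat_lit 5) (nat_lit 5) (nat_lit 7) (nat_lit 4) (nat_lit 5) (nat_lit 4) (nat_lit 378) (nat_lit 226) (nat_lit 176))))))))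
noncomputable def xc32 : XT := (XT.nd (nat_lit 1716) (nat_lit 0) (nat_lit 0) (XT.nd (nat_lit 858) (nat_lit 152) (nat_lit 0) (XT.nd (nat_lit 390) (nat_lit 0) (nat_lit 0) (XT.nd (nat_lit 156) (nat_lit 76) (nat_lit 0) (XT.nd (nat_lit 78) (nat_lit 0) (nat_lit 0) (XT.lf (nat_lit 0) (nat_lit 29657146295) (nat_lit 152) (nat_lit 5469956996) (nat_lit 0) (nat_lit 16633382764) (nat_lit 5) (nat_lit 5) (nat_lit 7) (nat_lit 4) (nat_lit 5) (nat_lit 4) (nat_lit 379) (nat_lit 226) (nat_lit 175)) (XT.lf (nat_lit 0) (nat_lit 32374846985) (nat_lit 152) (nat_lit 1622633985) (nat_lit 0) (nat_lit 19243178118) (nat_lit 5) (nat_lit 5) (nat_lit 7) (nat_lit 4) (nat_lit 5) (nat_lit 4) (nat_lit 380) (nat_lit 226) (nat_lit 174))) (XT.nd (nat_lit 78) (nat_lit 0) (nat_lit 0) (XT.lf (nat_lit 0) (nat_lit 2350473616) (nat_lit 76) (nat_lit 32825580039) (nat_lit 76) (nat_lit 19589148712) (nat_lit 4) (nat_lit 4) (nat_lit 5) (nat_lit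 5) (nat_lit 5) (nat_lit 4) (nat_lit 381) (nat_lit 226) (nat_lit 173)) (XT.nd (nat_lit 78) (nat_lit 0) (nat_lit 0) (XT.lf (nat_lit 0) (nat_lit 6440883598) (nat_lit 76) (nat_lit 31616441767) (nat_lit 76) (nat_lit 18278299312) (nat_lit 4) (nat_lit 4) (nat_lit 5) (nat_lit 5) (nat_lit 5) (nat_lit 4) (nat_lit 382) (nat_lit 226) (nat_lit 172)) (XT.lf (nat_lit 0) (nat_lit 10619876505) (nat_lit 76) (nat_lit 30385395047) (nat_lit 76) (nat_lit 16948503924) (nat_lit 4) (nat_lit 4) (nat_lit 5) (nat_lit 5) (nat_lit 5) (nat_lit 4) (nat_lit 383) (nat_lit 226) (nat_lit 171))))) (XT.nd (nat_lit 234) (nat_lit 0) (nat_lit 0) (XT.nd (nat_lit 78) (nat_lit 0) (nat_lit 0) (XT.lf (nat_lit 0) (nat_lit 14891103886) (nat_lit 76) (nat_lit 29131364206) (nat_lit 76) (nat_lit 15598600591) (nat_lit 4) (nat_lit 4) (nat_lit 5) (nat_lit 5) (nat_lit 5) (nat_lit 4) (nat_lit 384) (nat_lit 226) (nat_lit 170)) (XT.nd (nat_lit 78)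 (nat_lit 0) (nat_lit 0) (XT.lf (nat_lit 0) (nat_lit 19258297881) (nat_lit 76) (nat_lit 27853253489) (nat_lit 76) (nat_lit 14227409784) (nat_lit 4) (nat_lit 4) (nat_lit 5) (nat_lit 5) (nat_lit 5) (nat_lit 4) (nat_lit 385) (nat_lit 226) (nat_lit 169)) (XT.lf (nat_lit 0) (nat_lit 23725274485) (nat_lit 76) (nat_lit 26549946101) (nat_lit 76) (nat_lit 12833733377) (nat_lit 4) (nat_lit 4) (nat_lit 5) (nat_lit 5) (nat_lit 5) (nat_lit 4) (nat_lit 386) (nat_lit 226) (nat_lit 168)))) (XT.nd (nat_lit 78) (nat_lit 0) (nat_lit 0) (XT.lf (nat_lit 0) (nat_lit 28295936880) (nat_lit 76) (nat_lit 25220303230) (nat_lit 76) (nat_lit 11416353594) (nat_lit 4) (nat_lit 4) (nat_lit 5) (nat_lit 5) (nat_lit 5) (nat_lit 4) (nat_lit 387) (nat_lit 226) (nat_lit 167)) (XT.nd (nat_lit 78) (nat_lit 0) (nat_lit 0) (XT.lf (nat_lit 0) (nat_lit 32974278851) (nat_lit 76) (nat_lit 23863163051) (nat_lit 76) (nat_lit 9974031947) (nat_lit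 4) (nat_lit 4) (nat_lit 5) (nat_lit 5) (nat_lit 5) (nat_lit 4) (nat_lit 388) (nat_lit 226) (nat_lit 166)) (XT.lf (nat_lit 0) (nat_lit 37764388267) (nat_lit 76) (nat_lit 22477339714) (nat_lit 76) (nat_lit 8505508156) (nat_lit 4) (nat_lit 4) (nat_lit 5) (nat_lit 5) (nat_lit 5) (nat_lit 4) (nat_lit 389) (nat_lit 226) (nat_lit 165)))))) (XT.nd (nat_lit 390) (nat_lit 152) (nat_lit 0) (XT.nd (nat_lit 156) (nat_lit 0) (nat_lit 0) (XT.nd (nat_lit 78) (nat_lit 0) (nat_lit 0) (XT.lf (nat_lit 0) (nat_lit 42670450663) (nat_lit 76) (nat_lit 21061622306) (nat_lit 76) (nat_lit 7009499044) (nat_lit 4) (nat_lit 4) (nat_lit 5) (nat_lit 5) (nat_lit 5) (nat_lit 4) (nat_lit 390) (nat_lit 226) (nat_lit 164)) (XT.lf (nat_lit 0) (nat_lit 47696752888) (nat_lit 76) (nat_lit 19614773791) (nat_lit 76) (nat_lit 5484697419) (nat_lit 4) (nat_lit 4) (nat_lit 5) (nat_lit 5) (nat_lit 5) (nat_lit 4) (nat_lit 391) (nat_lit 226)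 (nat_lit 163))) (XT.nd (nat_lit 78) (nat_lit 0) (nat_lit 0) (XT.lf (nat_lit 0) (nat_lit 52847686857) (nat_lit 76) (nat_lit 18135529933) (nat_lit 76) (nat_lit 3929770930) (nat_lit 4) (nat_lit 4) (nat_lit 5) (nat_lit 5) (nat_lit 5) (nat_lit 4) (nat_lit 392) (nat_lit 226) (nat_lit 162)) (XT.nd (nat_lit 78) (nat_lit 0) (nat_lit 0) (XT.lf (nat_lit 0) (nat_lit 58127753386) (nat_lit 76) (nat_lit 16622598189) (nat_lit 76) (nat_lit 2343360904) (nat_lit 4) (nat_lit 4) (nat_lit 5) (nat_lit 5) (nat_lit 5) (nat_lit 4) (nat_lit 393) (nat_lit 226) (nat_lit 161)) (XT.lf (nat_lit 0) (nat_lit 63541566125) (nat_lit 76) (nat_lit 15074656580) (nat_lit 76) (nat_lit 724081157) (nat_lit 4) (nat_lit 4) (nat_lit 5) (nat_lit 5) (nat_lit 5) (nat_lit 4) (nat_lit 394) (nat_lit 226) (nat_lit 160))))) (XT.nd (nat_lit 234) (nat_lit 76) (nat_lit 0) (XT.nd (nat_lit 78) (nat_lit 0) (nat_lit 0) (XT.lf (nat_lit 0) (nat_lit 911345650)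 (nat_lit 152) (nat_lit 12569804081) (nat_lit 76) (nat_lit 68173307137) (nat_lit 3) (nat_lit 5) (nat_lit 5) (nat_lit 5) (nat_lit 4) (nat_lit 4) (nat_lit 395) (nat_lit 226) (nat_lit 159)) (XT.nd (nat_lit 78) (nat_lit 0) (nat_lit 0) (XT.lf (nat_lit 0) (nat_lit 2567675303) (nat_lit 152) (nat_lit 9274697923) (nat_lit 76) (nat_lit 72195869509) (nat_lit 3) (nat_lit 5) (nat_lit 5) (nat_lit 5) (nat_lit 4) (nat_lit 4) (nat_lit 396) (nat_lit 226) (nat_lit 158)) (XT.lf (nat_lit 0) (nat_lit 4260484511) (nat_lit 152) (nat_lit 5903579732) (nat_lit 76) (nat_lit 76329888950) (nat_lit 3) (nat_lit 5) (nat_lit 5) (nat_lit 5) (nat_lit 4) (nat_lit 4) (nat_lit 397) (nat_lit 226) (nat_lit 157)))) (XT.nd (nat_lit 78) (nat_lit 76) (nat_lit 0) (XT.lf (nat_lit 0) (nat_lit 5991252429) (nat_lit 152) (nat_lit 2453503873) (nat_lit 76) (nat_lit 80578977708) (nat_lit 3) (nat_lit 5) (nat_lit 5) (nat_lit 5) (nat_lit 4) (nat_lit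 4) (nat_lit 398) (nat_lit 226) (nat_lit 156)) (XT.nd (nat_lit 78) (nat_lit 0) (nat_lit 0) (XT.lf (nat_lit 0) (nat_lit 1100009431) (nat_lit 76) (nat_lit 6672055908) (nat_lit 152) (nat_lit 83857413112) (nat_lit 2) (nat_lit 5) (nat_lit 3) (nat_lit 5) (nat_lit 4) (nat_lit 4) (nat_lit 399) (nat_lit 226) (nat_lit 155)) (XT.lf (nat_lit 0) (nat_lit 4789103659) (nat_lit 76) (nat_lit 4829680299) (nat_lit 152) (nat_lit 84694250286) (nat_lit 2) (nat_lit 5) (nat_lit 3) (nat_lit 5) (nat_lit 4) (nat_lit 4) (nat_lit 400) (nat_lit 226) (nat_lit 154))))))) (XT.nd (nat_lit 35490) (nat_lit 0) (nat_lit 836) (XT.nd (nat_lit 35022) (nat_lit 0) (nat_lit 1368) (XT.nd (nat_lit 34788) (nat_lit 0) (nat_lit 1748) (XT.nd (nat_lit 78) (nat_lit 0) (nat_lit 0) (XT.lf (nat_lit 0) (nat_lit 8568172755) (nat_lit 76) (nat_lit 2940795208) (nat_lit 152) (nat_lit 85568499898) (nat_lit 2) (nat_lit 5) (nat_lit 3) (nat_lit 5) (nat_lit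 4) (nat_lit 4) (nat_lit 401) (nat_lit 226) (nat_lit 153)) (XT.lf (nat_lit 0) (nat_lit 12440518816) (nat_lit 76) (nat_lit 1003750155) (nat_lit 152) (nat_lit 86480925856) (nat_lit 2) (nat_lit 5) (nat_lit 3) (nat_lit 5) (nat_lit 4) (nat_lit 4) (nat_lit 402) (nat_lit 226) (nat_lit 152))) (XT.nd (nat_lit 78) (nat_lit 228) (nat_lit 0) (XT.lf (nat_lit 0) (nat_lit 3164894474) (nat_lit 228) (nat_lit 1781605848) (nat_lit 228) (nat_lit 1781605848) (nat_lit 28) (nat_lit 4) (nat_lit 31) (nat_lit 5) (nat_lit 31) (nat_lit 4) (nat_lit 326) (nat_lit 227) (nat_lit 227)) (XT.nd (nat_lit 78) (nat_lit 228) (nat_lit 0) (XT.lf (nat_lit 0) (nat_lit 12313037631) (nat_lit 228) (nat_lit 1013252836) (nat_lit 228) (nat_lit 414011242) (nat_lit 28) (nat_lit 4) (nat_lit 31) (nat_lit 5) (nat_lit 31) (nat_lit 4) (nat_lit 327) (nat_lit 227) (nat_lit 226)) (XT.lf (nat_lit 0) (nat_lit 2759053234) (nat_lit 228) (nat_lit 9661214798)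 (nat_lit 0) (nat_lit 1612422603) (nat_lit 25) (nat_lit 5) (nat_lit 28) (nat_lit 4) (nat_lit 25) (nat_lit 4) (nat_lit 328) (nat_lit 227) (nat_lit 225))))) (XT.nd (nat_lit 234) (nat_lit 228) (nat_lit 0) (XT.nd (nat_lit 78) (nat_lit 152) (nat_lit 0) (XT.lf (nat_lit 0) (nat_lit 5970866238) (nat_lit 228) (nat_lit 4088588252) (nat_lit 0) (nat_lit 4275844660) (nat_lit 25) (nat_lit 5) (nat_lit 28) (nat_lit 4) (nat_lit 25) (nat_lit 4) (nat_lit 329) (nat_lit 227) (nat_lit 224)) (XT.nd (nat_lit 78) (nat_lit 0) (nat_lit 0) (XT.lf (nat_lit 0) (nat_lit 1570869600) (nat_lit 152) (nat_lit 7652672283) (nat_lit 152) (nat_lit 5425232310) (nat_lit 23) (nat_lit 4) (nat_lit 25) (nat_lit 5) (nat_lit 25) (nat_lit 4) (nat_lit 330) (nat_lit 227) (nat_lit 223)) (XT.lf (nat_lit 0) (nat_lit 7374010668) (nat_lit 152) (nat_lit 5171481474) (nat_lit 152) (nat_lit 2427130438) (nat_lit 23) (nat_lit 4) (nat_lit 25) (nat_lit 5)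 (nat_lit 25) (nat_lit 4) (nat_lit 331) (nat_lit 227) (nat_lit 222)))) (XT.nd (nat_lit 78) (nat_lit 152) (nat_lit 0) (XT.lf (nat_lit 0) (nat_lit 579669127) (nat_lit 228) (nat_lit 2069478108) (nat_lit 76) (nat_lit 12659012085) (nat_lit 22) (nat_lit 5) (nat_lit 25) (nat_lit 5) (nat_lit 23) (nat_lit 4) (nat_lit 332) (nat_lit 227) (nat_lit 221)) (XT.nd (nat_lit 78) (nat_lit 0) (nat_lit 0) (XT.lf (nat_lit 0) (nat_lit 3566051690) (nat_lit 152) (nat_lit 29759334) (nat_lit 228) (nat_lit 12058302319) (nat_lit 20) (nat_lit 5) (nat_lit 22) (nat_lit 5) (nat_lit 23) (nat_lit 4) (nat_lit 333) (nat_lit 227) (nat_lit 220)) (XT.lf (nat_lit 0) (nat_lit 6683394580) (nat_lit 228) (nat_lit 6728307022) (nat_lit 0) (nat_lit 2599422212) (nat_lit 20) (nat_lit 5) (nat_lit 23) (nat_lit 4) (nat_lit 20) (nat_lit 4) (nat_lit 334) (nat_lit 227) (nat_lit 219)))))) (XT.nd (nat_lit 390) (nat_lit 228) (nat_lit 0) (XT.nd (nat_lit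 156) (nat_lit 152) (nat_lit 0) (XT.nd (nat_lit 78) (nat_lit 152) (nat_lit 0) (XT.lf (nat_lit 0) (nat_lit 9800021019) (nat_lit 228) (nat_lit 1310677939) (nat_lit 0) (nat_lit 5270156627) (nat_lit 20) (nat_lit 5) (nat_lit 23) (nat_lit 4) (nat_lit 20) (nat_lit 4) (nat_lit 335) (nat_lit 227) (nat_lit 218)) (XT.lf (nat_lit 0) (nat_lit 4252833613) (nat_lit 152) (nat_lit 8736174767) (nat_lit 152) (nat_lit 3773405499) (nat_lit 18) (nat_lit 4) (nat_lit 20) (nat_lit 5) (nat_lit 20) (nat_lit 4) (nat_lit 336) (nat_lit 227) (nat_lit 217))) (XT.nd (nat_lit 78) (nat_lit 152) (nat_lit 0) (XT.lf (nat_lit 0) (nat_lit 9911460430) (nat_lit 152) (nat_lit 6314279515) (nat_lit 152) (nat_lit 931214249) (nat_lit 18) (nat_lit 4) (nat_lit 20) (nat_lit 5) (nat_lit 20) (nat_lit 4) (nat_lit 337) (nat_lit 227) (nat_lit 216)) (XT.nd (nat_lit 78) (nat_lit 76) (nat_lit 0) (XT.lf (nat_lit 0) (nat_lit 1897228800) (nat_lit 228)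 (nat_lit 1939745168) (nat_lit 76) (nat_lit 13727674789) (nat_lit 17) (nat_lit 5) (nat_lit 20) (nat_lit 5) (nat_lit 18) (nat_lit 4) (nat_lit 338) (nat_lit 227) (nat_lit 215)) (XT.lf (nat_lit 0) (nat_lit 3489810646) (nat_lit 76) (nat_lit 1277233475) (nat_lit 152) (nat_lit 13218085608) (nat_lit 16) (nat_lit 5) (nat_lit 17) (nat_lit 5) (nat_lit 18) (nat_lit 4) (nat_lit 339) (nat_lit 227) (nat_lit 214))))) (XT.nd (nat_lit 234) (nat_lit 76) (nat_lit 0) (XT.nd (nat_lit 78) (nat_lit 152) (nat_lit 0) (XT.lf (nat_lit 0) (nat_lit 7697948234) (nat_lit 152) (nat_lit 9403669640) (nat_lit 0) (nat_lit 1317444062) (nat_lit 16) (nat_lit 5) (nat_lit 18) (nat_lit 4) (nat_lit 16) (nat_lit 4) (nat_lit 340) (nat_lit 227) (nat_lit 213)) (XT.nd (nat_lit 78) (nat_lit 152) (nat_lit 0) (XT.lf (nat_lit 0) (nat_lit 10673256760) (nat_lit 152) (nat_lit 4263943573) (nat_lit 0) (nat_lit 3930201568) (nat_lit 16) (nat_lit 5)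 (nat_lit 18) (nat_lit 4) (nat_lit 16) (nat_lit 4) (nat_lit 341) (nat_lit 227) (nat_lit 212)) (XT.lf (nat_lit 0) (nat_lit 959348023) (nat_lit 152) (nat_lit 12733165751) (nat_lit 152) (nat_lit 5638119278) (nat_lit 14) (nat_lit 4) (nat_lit 16) (nat_lit 5) (nat_lit 16) (nat_lit 4) (nat_lit 342) (nat_lit 227) (nat_lit 211)))) (XT.nd (nat_lit 78) (nat_lit 76) (nat_lit 0) (XT.lf (nat_lit 0) (nat_lit 6338274390) (nat_lit 152) (nat_lit 10453336864) (nat_lit 152) (nat_lit 3016551283) (nat_lit 14) (nat_lit 4) (nat_lit 16) (nat_lit 5) (nat_lit 16) (nat_lit 4) (nat_lit 343) (nat_lit 227) (nat_lit 210)) (XT.nd (nat_lit 78) (nat_lit 76) (nat_lit 0) (XT.lf (nat_lit 0) (nat_lit 11792674724) (nat_lit 152) (nat_lit 8138779058) (nat_lit 152) (nat_lit 370207935) (nat_lit 14) (nat_lit 4) (nat_lit 16) (nat_lit 5) (nat_lit 16) (nat_lit 4) (nat_lit 344) (nat_lit 227) (nat_lit 209)) (XT.lf (nat_lit 0) (nat_lit 2258278923)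 (nat_lit 228) (nat_lit 3506386791) (nat_lit 76) (nat_lit 15046231891) (nat_lit 13) (nat_lit 5) (nat_lit 16) (nat_lit 5) (nat_lit 14) (nat_lit 4) (nat_lit 345) (nat_lit 227) (nat_lit 208))))))))
noncomputable def xc33 : XT := (XT.nd (nat_lit 1716) (nat_lit 152) (nat_lit 0) (XT.nd (nat_lit 858) (nat_lit 152) (nat_lit 0) (XT.nd (nat_lit 390) (nat_lit 304) (nat_lit 0) (XT.nd (nat_lit 156) (nat_lit 0) (nat_lit 0) (XT.nd (nat_lit 78) (nat_lit 0) (nat_lit 0) (XT.lf (nat_lit 0) (nat_lit 1591660525) (nat_lit 76) (nat_lit 3332030719) (nat_lit 152) (nat_lit 16412714457) (nat_lit 12) (nat_lit 5) (nat_lit 13) (nat_lit 5) (nat_lit 14) (nat_lit 4) (nat_lit 346) (nat_lit 227) (nat_lit 207)) (XT.lf (nat_lit 0) (nat_lit 6833306418) (nat_lit 76) (nat_lit 822048207) (nat_lit 152) (nat_lit 14222804143) (nat_lit 12) (nat_lit 5) (nat_lit 13) (nat_lit 5) (nat_lit 14) (nat_lit 4) (nat_lit 347) (nat_lit 227) (nat_lit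 206))) (XT.nd (nat_lit 78) (nat_lit 0) (nat_lit 0) (XT.lf (nat_lit 0) (nat_lit 10437929308) (nat_lit 152) (nat_lit 10300964173) (nat_lit 0) (nat_lit 1698268503) (nat_lit 12) (nat_lit 5) (nat_lit 14) (nat_lit 4) (nat_lit 12) (nat_lit 4) (nat_lit 348) (nat_lit 227) (nat_lit 205)) (XT.nd (nat_lit 78) (nat_lit 0) (nat_lit 0) (XT.lf (nat_lit 0) (nat_lit 13265530146) (nat_lit 152) (nat_lit 5500618975) (nat_lit 0) (nat_lit 4248004173) (nat_lit 12) (nat_lit 5) (nat_lit 14) (nat_lit 4) (nat_lit 12) (nat_lit 4) (nat_lit 349) (nat_lit 227) (nat_lit 204)) (XT.lf (nat_lit 0) (nat_lit 16132725828) (nat_lit 152) (nat_lit 631720251) (nat_lit 0) (nat_lit 6845427848) (nat_lit 12) (nat_lit 5) (nat_lit 14) (nat_lit 4) (nat_lit 12) (nat_lit 4) (nat_lit 350) (nat_lit 227) (nat_lit 203))))) (XT.nd (nat_lit 234) (nat_lit 152) (nat_lit 0) (XT.nd (nat_lit 78) (nat_lit 0) (nat_lit 0) (XT.lf (nat_lit 0) (nat_lit 4395763555)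 (nat_lit 152) (nat_lit 14688512883) (nat_lit 152) (nat_lit 5139300332) (nat_lit 10) (nat_lit 4) (nat_lit 12) (nat_lit 5) (nat_lit 12) (nat_lit 4) (nat_lit 351) (nat_lit 227) (nat_lit 202)) (XT.nd (nat_lit 78) (nat_lit 0) (nat_lit 0) (XT.lf (nat_lit 0) (nat_lit 9514480691) (nat_lit 152) (nat_lit 12572938093) (nat_lit 152) (nat_lit 2769439552) (nat_lit 10) (nat_lit 4) (nat_lit 12) (nat_lit 5) (nat_lit 12) (nat_lit 4) (nat_lit 352) (nat_lit 227) (nat_lit 201)) (XT.lf (nat_lit 0) (nat_lit 14716331348) (nat_lit 152) (nat_lit 10422252287) (nat_lit 152) (nat_lit 371874144) (nat_lit 10) (nat_lit 4) (nat_lit 12) (nat_lit 5) (nat_lit 12) (nat_lit 4) (nat_lit 353) (nat_lit 227) (nat_lit 200)))) (XT.nd (nat_lit 78) (nat_lit 76) (nat_lit 0) (XT.lf (nat_lit 0) (nat_lit 2015380823) (nat_lit 228) (nat_lit 6198844006) (nat_lit 76) (nat_lit 17970128616) (nat_lit 9) (nat_lit 5) (nat_lit 12) (nat_lit 5) (nat_lit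 10) (nat_lit 4) (nat_lit 354) (nat_lit 227) (nat_lit 199)) (XT.nd (nat_lit 78) (nat_lit 76) (nat_lit 0) (XT.lf (nat_lit 0) (nat_lit 4426676888) (nat_lit 228) (nat_lit 1536620697) (nat_lit 76) (nat_lit 20916313421) (nat_lit 9) (nat_lit 5) (nat_lit 12) (nat_lit 5) (nat_lit 10) (nat_lit 4) (nat_lit 355) (nat_lit 227) (nat_lit 198)) (XT.lf (nat_lit 0) (nat_lit 3263882060) (nat_lit 76) (nat_lit 3638869984) (nat_lit 152) (nat_lit 20693251933) (nat_lit 8) (nat_lit 5) (nat_lit 9) (nat_lit 5) (nat_lit 10) (nat_lit 4) (nat_lit 356) (nat_lit 227) (nat_lit 197)))))) (XT.nd (nat_lit 390) (nat_lit 152) (nat_lit 0) (XT.nd (nat_lit 156) (nat_lit 0) (nat_lit 0) (XT.nd (nat_lit 78) (nat_lit 0) (nat_lit 0) (XT.lf (nat_lit 0) (nat_lit 8175261746) (nat_lit 76) (nat_lit 1254943015) (nat_lit 152) (nat_lit 18904420523) (nat_lit 8) (nat_lit 5) (nat_lit 9) (nat_lit 5) (nat_lit 10) (nat_lit 4) (nat_lit 357) (nat_lit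 227) (nat_lit 196)) (XT.lf (nat_lit 0) (nat_lit 12007473879) (nat_lit 152) (nat_lit 15936639476) (nat_lit 0) (nat_lit 1152120060) (nat_lit 8) (nat_lit 5) (nat_lit 10) (nat_lit 4) (nat_lit 8) (nat_lit 4) (nat_lit 358) (nat_lit 227) (nat_lit 195))) (XT.nd (nat_lit 78) (nat_lit 0) (nat_lit 0) (XT.lf (nat_lit 0) (nat_lit 14638032716) (nat_lit 152) (nat_lit 11661481305) (nat_lit 0) (nat_lit 3581943188) (nat_lit 8) (nat_lit 5) (nat_lit 10) (nat_lit 4) (nat_lit 8) (nat_lit 4) (nat_lit 359) (nat_lit 227) (nat_lit 194)) (XT.nd (nat_lit 78) (nat_lit 0) (nat_lit 0) (XT.lf (nat_lit 0) (nat_lit 17312116540) (nat_lit 152) (nat_lit 7318090173) (nat_lit 0) (nat_lit 6061137973) (nat_lit 8) (nat_lit 5) (nat_lit 10) (nat_lit 4) (nat_lit 8) (nat_lit 4) (nat_lit 360) (nat_lit 227) (nat_lit 193)) (XT.lf (nat_lit 0) (nat_lit 20032061928) (nat_lit 152) (nat_lit 2902670883) (nat_lit 0) (nat_lit 8591870703) (nat_lit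 8) (nat_lit 5) (nat_lit 10) (nat_lit 4) (nat_lit 8) (nat_lit 4) (nat_lit 361) (nat_lit 227) (nat_lit 192))))) (XT.nd (nat_lit 234) (nat_lit 76) (nat_lit 0) (XT.nd (nat_lit 78) (nat_lit 0) (nat_lit 0) (XT.lf (nat_lit 0) (nat_lit 1620251644) (nat_lit 76) (nat_lit 21195568737) (nat_lit 76) (nat_lit 9571675902) (nat_lit 7) (nat_lit 4) (nat_lit 8) (nat_lit 5) (nat_lit 8) (nat_lit 4) (nat_lit 362) (nat_lit 227) (nat_lit 191)) (XT.nd (nat_lit 78) (nat_lit 0) (nat_lit 0) (XT.lf (nat_lit 0) (nat_lit 6282342137) (nat_lit 76) (nat_lit 19397133730) (nat_lit 76) (nat_lit 7594889818) (nat_lit 7) (nat_lit 4) (nat_lit 8) (nat_lit 5) (nat_lit 8) (nat_lit 4) (nat_lit 363) (nat_lit 227) (nat_lit 190)) (XT.lf (nat_lit 0) (nat_lit 11029905424) (nat_lit 76) (nat_lit 17567167627) (nat_lit 76) (nat_lit 5591767328) (nat_lit 7) (nat_lit 4) (nat_lit 8) (nat_lit 5) (nat_lit 8) (nat_lit 4) (nat_lit 364) (nat_lit 227) (nat_lit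 189)))) (XT.nd (nat_lit 78) (nat_lit 76) (nat_lit 0) (XT.lf (nat_lit 0) (nat_lit 15867089863) (nat_lit 76) (nat_lit 15704071427) (nat_lit 76) (nat_lit 3560558133) (nat_lit 7) (nat_lit 4) (nat_lit 8) (nat_lit 5) (nat_lit 8) (nat_lit 4) (nat_lit 365) (nat_lit 227) (nat_lit 188)) (XT.nd (nat_lit 78) (nat_lit 76) (nat_lit 0) (XT.lf (nat_lit 0) (nat_lit 20798122119) (nat_lit 76) (nat_lit 13806217184) (nat_lit 76) (nat_lit 1499487388) (nat_lit 7) (nat_lit 4) (nat_lit 8) (nat_lit 5) (nat_lit 8) (nat_lit 4) (nat_lit 366) (nat_lit 227) (nat_lit 187)) (XT.lf (nat_lit 0) (nat_lit 581669477) (nat_lit 152) (nat_lit 11284403378) (nat_lit 76) (nat_lit 25239767662) (nat_lit 6) (nat_lit 5) (nat_lit 8) (nat_lit 5) (nat_lit 7) (nat_lit 4) (nat_lit 367) (nat_lit 227) (nat_lit 186))))))) (XT.nd (nat_lit 858) (nat_lit 76) (nat_lit 0) (XT.nd (nat_lit 390) (nat_lit 0) (nat_lit 0) (XT.nd (nat_lit 156) (nat_lit 76)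 (nat_lit 0) (XT.nd (nat_lit 78) (nat_lit 0) (nat_lit 0) (XT.lf (nat_lit 0) (nat_lit 2666403499) (nat_lit 152) (nat_lit 7206240521) (nat_lit 76) (nat_lit 28265721579) (nat_lit 6) (nat_lit 5) (nat_lit 8) (nat_lit 5) (nat_lit 7) (nat_lit 4) (nat_lit 368) (nat_lit 227) (nat_lit 185)) (XT.lf (nat_lit 0) (nat_lit 4785796687) (nat_lit 152) (nat_lit 3053238568) (nat_lit 76) (nat_lit 31363701307) (nat_lit 6) (nat_lit 5) (nat_lit 8) (nat_lit 5) (nat_lit 7) (nat_lit 4) (nat_lit 369) (nat_lit 227) (nat_lit 184))) (XT.nd (nat_lit 78) (nat_lit 0) (nat_lit 0) (XT.lf (nat_lit 0) (nat_lit 1201680430) (nat_lit 76) (nat_lit 5751571797) (nat_lit 152) (nat_lit 33346284675) (nat_lit 5) (nat_lit 5) (nat_lit 6) (nat_lit 5) (nat_lit 7) (nat_lit 4) (nat_lit 370) (nat_lit 227) (nat_lit 183)) (XT.nd (nat_lit 78) (nat_lit 0) (nat_lit 0) (XT.lf (nat_lit 0) (nat_lit 5601165447) (nat_lit 76) (nat_lit 3588676437) (nat_lit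 152) (nat_lit 32239307766) (nat_lit 5) (nat_lit 5) (nat_lit 6) (nat_lit 5) (nat_lit 7) (nat_lit 4) (nat_lit 371) (nat_lit 227) (nat_lit 182)) (XT.lf (nat_lit 0) (nat_lit 10088295260) (nat_lit 76) (nat_lit 1379290990) (nat_lit 152) (nat_lit 31125873609) (nat_lit 5) (nat_lit 5) (nat_lit 6) (nat_lit 5) (nat_lit 7) (nat_lit 4) (nat_lit 372) (nat_lit 227) (nat_lit 181))))) (XT.nd (nat_lit 234) (nat_lit 0) (nat_lit 0) (XT.nd (nat_lit 78) (nat_lit 0) (nat_lit 0) (XT.lf (nat_lit 0) (nat_lit 13796920411) (nat_lit 152) (nat_lit 29134939052) (nat_lit 0) (nat_lit 861372079) (nat_lit 5) (nat_lit 5) (nat_lit 7) (nat_lit 4) (nat_lit 5) (nat_lit 4) (nat_lit 373) (nat_lit 227) (nat_lit 180)) (XT.nd (nat_lit 78) (nat_lit 0) (nat_lit 0) (XT.lf (nat_lit 0) (nat_lit 16185170504) (nat_lit 152) (nat_lit 25719653501) (nat_lit 0) (nat_lit 3124530315) (nat_lit 5) (nat_lit 5) (nat_lit 7) (nat_lit 4) (nat_lit 5) (nat_lit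 4) (nat_lit 374) (nat_lit 227) (nat_lit 179)) (XT.lf (nat_lit 0) (nat_lit 18621164762) (nat_lit 152) (nat_lit 22243065128) (nat_lit 0) (nat_lit 5439076168) (nat_lit 5) (nat_lit 5) (nat_lit 7) (nat_lit 4) (nat_lit 5) (nat_lit 4) (nat_lit 375) (nat_lit 227) (nat_lit 178)))) (XT.nd (nat_lit 78) (nat_lit 0) (nat_lit 0) (XT.lf (nat_lit 0) (nat_lit 21107031724) (nat_lit 152) (nat_lit 18702136136) (nat_lit 0) (nat_lit 7807032057) (nat_lit 5) (nat_lit 5) (nat_lit 7) (nat_lit 4) (nat_lit 5) (nat_lit 4) (nat_lit 376) (nat_lit 227) (nat_lit 177)) (XT.nd (nat_lit 78) (nat_lit 0) (nat_lit 0) (XT.lf (nat_lit 0) (nat_lit 23644943506) (nat_lit 152) (nat_lit 15093772511) (nat_lit 0) (nat_lit 10230467069) (nat_lit 5) (nat_lit 5) (nat_lit 7) (nat_lit 4) (nat_lit 5) (nat_lit 4) (nat_lit 377) (nat_lit 227) (nat_lit 176)) (XT.lf (nat_lit 0) (nat_lit 26237117701) (nat_lit 152) (nat_lit 11414821313) (nat_lit 0) (nat_lit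 12711498769) (nat_lit 5) (nat_lit 5) (nat_lit 7) (nat_lit 4) (nat_lit 5) (nat_lit 4) (nat_lit 378) (nat_lit 227) (nat_lit 175)))))) (XT.nd (nat_lit 390) (nat_lit 0) (nat_lit 0) (XT.nd (nat_lit 156) (nat_lit 76) (nat_lit 0) (XT.nd (nat_lit 78) (nat_lit 0) (nat_lit 0) (XT.lf (nat_lit 0) (nat_lit 28885819315) (nat_lit 152) (nat_lit 7662067925) (nat_lit 0) (nat_lit 15252295048) (nat_lit 5) (nat_lit 5) (nat_lit 7) (nat_lit 4) (nat_lit 5) (nat_lit 4) (nat_lit 379) (nat_lit 227) (nat_lit 174)) (XT.lf (nat_lit 0) (nat_lit 31593362749) (nat_lit 152) (nat_lit 3832233241) (nat_lit 0) (nat_lit 17855076021) (nat_lit 5) (nat_lit 5) (nat_lit 7) (nat_lit 4) (nat_lit 5) (nat_lit 4) (nat_lit 380) (nat_lit 227) (nat_lit 173))) (XT.nd (nat_lit 78) (nat_lit 0) (nat_lit 0) (XT.lf (nat_lit 0) (nat_lit 79582128) (nat_lit 76) (nat_lit 34283296681) (nat_lit 76) (nat_lit 20443298825) (nat_lit 4) (nat_lit 4) (nat_lit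 5) (nat_lit 5) (nat_lit 5) (nat_lit 4) (nat_lit 381) (nat_lit 227) (nat_lit 172)) (XT.nd (nat_lit 78) (nat_lit 0) (nat_lit 0) (XT.lf (nat_lit 0) (nat_lit 4153179610) (nat_lit 76) (nat_lit 33081235108) (nat_lit 76) (nat_lit 19142488585) (nat_lit 4) (nat_lit 4) (nat_lit 5) (nat_lit 5) (nat_lit 5) (nat_lit 4) (nat_lit 382) (nat_lit 227) (nat_lit 171)) (XT.lf (nat_lit 0) (nat_lit 8315849703) (nat_lit 76) (nat_lit 31857058970) (nat_lit 76) (nat_lit 17822439954) (nat_lit 4) (nat_lit 4) (nat_lit 5) (nat_lit 5) (nat_lit 5) (nat_lit 4) (nat_lit 383) (nat_lit 227) (nat_lit 170))))) (XT.nd (nat_lit 234) (nat_lit 0) (nat_lit 0) (XT.nd (nat_lit 78) (nat_lit 0) (nat_lit 0) (XT.lf (nat_lit 0) (nat_lit 12571229691) (nat_lit 76) (nat_lit 30609698597) (nat_lit 76) (nat_lit 16481999490) (nat_lit 4) (nat_lit 4) (nat_lit 5) (nat_lit 5) (nat_lit 5) (nat_lit 4) (nat_lit 384) (nat_lit 227) (nat_lit 169)) (XT.nd (nat_lit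 78) (nat_lit 0) (nat_lit 0) (XT.lf (nat_lit 0) (nat_lit 16923037868) (nat_lit 76) (nat_lit 29338064062) (nat_lit 76) (nat_lit 15119995937) (nat_lit 4) (nat_lit 4) (nat_lit 5) (nat_lit 5) (nat_lit 5) (nat_lit 4) (nat_lit 385) (nat_lit 227) (nat_lit 168)) (XT.lf (nat_lit 0) (nat_lit 21375076783) (nat_lit 76) (nat_lit 28041044230) (nat_lit 76) (nat_lit 13735239193) (nat_lit 4) (nat_lit 4) (nat_lit 5) (nat_lit 5) (nat_lit 5) (nat_lit 4) (nat_lit 386) (nat_lit 227) (nat_lit 167)))) (XT.nd (nat_lit 78) (nat_lit 0) (nat_lit 0) (XT.lf (nat_lit 0) (nat_lit 25931236570) (nat_lit 76) (nat_lit 26717505782) (nat_lit 76) (nat_lit 12326519277) (nat_lit 4) (nat_lit 4) (nat_lit 5) (nat_lit 5) (nat_lit 5) (nat_lit 4) (nat_lit 387) (nat_lit 227) (nat_lit 166)) (XT.nd (nat_lit 78) (nat_lit 0) (nat_lit 0) (XT.lf (nat_lit 0) (nat_lit 30595498336) (nat_lit 76) (nat_lit 25366292227) (nat_lit 76) (nat_lit 10892605268)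 (nat_lit 4) (nat_lit 4) (nat_lit 5) (nat_lit 5) (nat_lit 5) (nat_lit 4) (nat_lit 388) (nat_lit 227) (nat_lit 165)) (XT.lf (nat_lit 0) (nat_lit 35371937653) (nat_lit 76) (nat_lit 23986222895) (nat_lit 76) (nat_lit 9432244232) (nat_lit 4) (nat_lit 4) (nat_lit 5) (nat_lit 5) (nat_lit 5) (nat_lit 4) (nat_lit 389) (nat_lit 227) (nat_lit 164))))))))
noncomputable def xc34 : XT := (XT.nd (nat_lit 36270) (nat_lit 0) (nat_lit 532) (XT.nd (nat_lit 858) (nat_lit 0) (nat_lit 0) (XT.nd (nat_lit 390) (nat_lit 152) (nat_lit 0) (XT.nd (nat_lit 156) (nat_lit 0) (nat_lit 0) (XT.nd (nat_lit 78) (nat_lit 0) (nat_lit 0) (XT.lf (nat_lit 0) (nat_lit 40264728106) (nat_lit 76) (nat_lit 22576091898) (nat_lit 76) (nat_lit 7944160125) (nat_lit 4) (nat_lit 4) (nat_lit 5) (nat_lit 5) (nat_lit 5) (nat_lit 4) (nat_lit 390) (nat_lit 227) (nat_lit 163)) (XT.lf (nat_lit 0) (nat_lit 45278144950) (nat_lit 76) (nat_lit 21134667084)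 (nat_lit 76) (nat_lit 6427052680) (nat_lit 4) (nat_lit 4) (nat_lit 5) (nat_lit 5) (nat_lit 5) (nat_lit 4) (nat_lit 391) (nat_lit 227) (nat_lit 162))) (XT.nd (nat_lit 78) (nat_lit 0) (nat_lit 0) (XT.lf (nat_lit 0) (nat_lit 50416568841) (nat_lit 76) (nat_lit 19660688955) (nat_lit 76) (nat_lit 4879596269) (nat_lit 4) (nat_lit 4) (nat_lit 5) (nat_lit 5) (nat_lit 5) (nat_lit 4) (nat_lit 392) (nat_lit 227) (nat_lit 161)) (XT.nd (nat_lit 78) (nat_lit 0) (nat_lit 0) (XT.lf (nat_lit 0) (nat_lit 55684489663) (nat_lit 76) (nat_lit 18152869569) (nat_lit 76) (nat_lit 3300438745) (nat_lit 4) (nat_lit 4) (nat_lit 5) (nat_lit 5) (nat_lit 5) (nat_lit 4) (nat_lit 393) (nat_lit 227) (nat_lit 160)) (XT.lf (nat_lit 0) (nat_lit 61086510454) (nat_lit 76) (nat_lit 16609891415) (nat_lit 76) (nat_lit 1688200262) (nat_lit 4) (nat_lit 4) (nat_lit 5) (nat_lit 5) (nat_lit 5) (nat_lit 4) (nat_lit 394) (nat_lit 227) (nat_lit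 159))))) (XT.nd (nat_lit 234) (nat_lit 76) (nat_lit 0) (XT.nd (nat_lit 78) (nat_lit 76) (nat_lit 0) (XT.lf (nat_lit 0) (nat_lit 66627351426) (nat_lit 76) (nat_lit 15030406258) (nat_lit 76) (nat_lit 41472068) (nat_lit 4) (nat_lit 4) (nat_lit 5) (nat_lit 5) (nat_lit 5) (nat_lit 4) (nat_lit 395) (nat_lit 227) (nat_lit 158)) (XT.nd (nat_lit 78) (nat_lit 0) (nat_lit 0) (XT.lf (nat_lit 0) (nat_lit 1609159300) (nat_lit 152) (nat_lit 11787625312) (nat_lit 76) (nat_lit 70686445437) (nat_lit 3) (nat_lit 5) (nat_lit 5) (nat_lit 5) (nat_lit 4) (nat_lit 4) (nat_lit 396) (nat_lit 227) (nat_lit 157)) (XT.lf (nat_lit 0) (nat_lit 3295650495) (nat_lit 152) (nat_lit 8427431199) (nat_lit 76) (nat_lit 74816055387) (nat_lit 3) (nat_lit 5) (nat_lit 5) (nat_lit 5) (nat_lit 4) (nat_lit 4) (nat_lit 397) (nat_lit 227) (nat_lit 156)))) (XT.nd (nat_lit 78) (nat_lit 76) (nat_lit 0) (XT.lf (nat_lit 0) (nat_lit 5020284418)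 (nat_lit 152) (nat_lit 4987961240) (nat_lit 76) (nat_lit 79060863087) (nat_lit 3) (nat_lit 5) (nat_lit 5) (nat_lit 5) (nat_lit 4) (nat_lit 4) (nat_lit 398) (nat_lit 227) (nat_lit 155)) (XT.nd (nat_lit 78) (nat_lit 76) (nat_lit 0) (XT.lf (nat_lit 0) (nat_lit 6784568032) (nat_lit 152) (nat_lit 1466210072) (nat_lit 76) (nat_lit 83424577591) (nat_lit 3) (nat_lit 5) (nat_lit 5) (nat_lit 5) (nat_lit 4) (nat_lit 4) (nat_lit 399) (nat_lit 227) (nat_lit 154)) (XT.lf (nat_lit 0) (nat_lit 2183507661) (nat_lit 76) (nat_lit 6427524493) (nat_lit 152) (nat_lit 85748493405) (nat_lit 2) (nat_lit 5) (nat_lit 3) (nat_lit 5) (nat_lit 4) (nat_lit 4) (nat_lit 400) (nat_lit 227) (nat_lit 153)))))) (XT.nd (nat_lit 34944) (nat_lit 0) (nat_lit 1368) (XT.nd (nat_lit 34710) (nat_lit 0) (nat_lit 1900) (XT.nd (nat_lit 34632) (nat_lit 0) (nat_lit 2204) (XT.lf (nat_lit 0) (nat_lit 5952677689) (nat_lit 76) (nat_lit 4542829841)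 (nat_lit 152) (nat_lit 86628629153) (nat_lit 2) (nat_lit 5) (nat_lit 3) (nat_lit 5) (nat_lit 4) (nat_lit 4) (nat_lit 401) (nat_lit 227) (nat_lit 152)) (XT.lf (nat_lit 0) (nat_lit 1906423693) (nat_lit 228) (nat_lit 2645545980) (nat_lit 0) (nat_lit 1906423693) (nat_lit 31) (nat_lit 5) (nat_lit 34) (nat_lit 4) (nat_lit 31) (nat_lit 4) (nat_lit 324) (nat_lit 228) (nat_lit 228))) (XT.nd (nat_lit 78) (nat_lit 76) (nat_lit 0) (XT.lf (nat_lit 0) (nat_lit 408868746) (nat_lit 228) (nat_lit 6695529204) (nat_lit 228) (nat_lit 6078310362) (nat_lit 28) (nat_lit 4) (nat_lit 31) (nat_lit 5) (nat_lit 31) (nat_lit 4) (nat_lit 325) (nat_lit 228) (nat_lit 227)) (XT.nd (nat_lit 78) (nat_lit 76) (nat_lit 0) (XT.lf (nat_lit 0) (nat_lit 6272991349) (nat_lit 228) (nat_lit 4200426974) (nat_lit 228) (nat_lit 2983966538) (nat_lit 28) (nat_lit 4) (nat_lit 31) (nat_lit 5) (nat_lit 31) (nat_lit 4) (nat_lit 326) (nat_lit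 228) (nat_lit 226)) (XT.lf (nat_lit 0) (nat_lit 125861375) (nat_lit 304) (nat_lit 1542749799) (nat_lit 76) (nat_lit 12073964404) (nat_lit 27) (nat_lit 5) (nat_lit 31) (nat_lit 5) (nat_lit 28) (nat_lit 4) (nat_lit 327) (nat_lit 228) (nat_lit 225))))) (XT.nd (nat_lit 234) (nat_lit 228) (nat_lit 0) (XT.nd (nat_lit 78) (nat_lit 152) (nat_lit 0) (XT.lf (nat_lit 0) (nat_lit 3247586304) (nat_lit 228) (nat_lit 9835296172) (nat_lit 0) (nat_lit 953323132) (nat_lit 25) (nat_lit 5) (nat_lit 28) (nat_lit 4) (nat_lit 25) (nat_lit 4) (nat_lit 328) (nat_lit 228) (nat_lit 224)) (XT.nd (nat_lit 78) (nat_lit 152) (nat_lit 0) (XT.lf (nat_lit 0) (nat_lit 6424624969) (nat_lit 228) (nat_lit 4317349829) (nat_lit 0) (nat_lit 3597943402) (nat_lit 25) (nat_lit 5) (nat_lit 28) (nat_lit 4) (nat_lit 25) (nat_lit 4) (nat_lit 329) (nat_lit 228) (nat_lit 223)) (XT.lf (nat_lit 0) (nat_lit 1283411095) (nat_lit 152) (nat_lit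 8357364798) (nat_lit 152) (nat_lit 5013772168) (nat_lit 23) (nat_lit 4) (nat_lit 25) (nat_lit 5) (nat_lit 25) (nat_lit 4) (nat_lit 330) (nat_lit 228) (nat_lit 222)))) (XT.nd (nat_lit 78) (nat_lit 228) (nat_lit 0) (XT.lf (nat_lit 0) (nat_lit 7033985052) (nat_lit 152) (nat_lit 5895457642) (nat_lit 152) (nat_lit 2050009611) (nat_lit 23) (nat_lit 4) (nat_lit 25) (nat_lit 5) (nat_lit 25) (nat_lit 4) (nat_lit 331) (nat_lit 228) (nat_lit 221)) (XT.nd (nat_lit 78) (nat_lit 152) (nat_lit 0) (XT.lf (nat_lit 0) (nat_lit 916742393) (nat_lit 228) (nat_lit 2471699225) (nat_lit 76) (nat_lit 11927473395) (nat_lit 22) (nat_lit 5) (nat_lit 25) (nat_lit 5) (nat_lit 23) (nat_lit 4) (nat_lit 332) (nat_lit 228) (nat_lit 220)) (XT.lf (nat_lit 0) (nat_lit 3104592188) (nat_lit 152) (nat_lit 792119792) (nat_lit 228) (nat_lit 11766294713) (nat_lit 20) (nat_lit 5) (nat_lit 22) (nat_lit 5) (nat_lit 23) (nat_lit 4) (nat_lit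 333) (nat_lit 228) (nat_lit 219))))))) (XT.nd (nat_lit 858) (nat_lit 380) (nat_lit 0) (XT.nd (nat_lit 390) (nat_lit 228) (nat_lit 0) (XT.nd (nat_lit 156) (nat_lit 228) (nat_lit 0) (XT.nd (nat_lit 78) (nat_lit 0) (nat_lit 0) (XT.lf (nat_lit 0) (nat_lit 6945499640) (nat_lit 228) (nat_lit 7241885067) (nat_lit 0) (nat_lit 1833847293) (nat_lit 20) (nat_lit 5) (nat_lit 23) (nat_lit 4) (nat_lit 20) (nat_lit 4) (nat_lit 334) (nat_lit 228) (nat_lit 218)) (XT.lf (nat_lit 0) (nat_lit 10031574991) (nat_lit 228) (nat_lit 1873337020) (nat_lit 0) (nat_lit 4487017767) (nat_lit 20) (nat_lit 5) (nat_lit 23) (nat_lit 4) (nat_lit 20) (nat_lit 4) (nat_lit 335) (nat_lit 228) (nat_lit 217))) (XT.nd (nat_lit 78) (nat_lit 76) (nat_lit 0) (XT.lf (nat_lit 0) (nat_lit 3630376663) (nat_lit 152) (nat_lit 9554541003) (nat_lit 152) (nat_lit 3589687781) (nat_lit 18) (nat_lit 4) (nat_lit 20) (nat_lit 5) (nat_lit 20) (nat_lit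 4) (nat_lit 336) (nat_lit 228) (nat_lit 216)) (XT.nd (nat_lit 78) (nat_lit 76) (nat_lit 0) (XT.lf (nat_lit 0) (nat_lit 9241819159) (nat_lit 152) (nat_lit 7150579176) (nat_lit 152) (nat_lit 777671588) (nat_lit 18) (nat_lit 4) (nat_lit 20) (nat_lit 5) (nat_lit 20) (nat_lit 4) (nat_lit 337) (nat_lit 228) (nat_lit 215)) (XT.lf (nat_lit 0) (nat_lit 2019050793) (nat_lit 228) (nat_lit 2670403765) (nat_lit 76) (nat_lit 12889171342) (nat_lit 17) (nat_lit 5) (nat_lit 20) (nat_lit 5) (nat_lit 18) (nat_lit 4) (nat_lit 338) (nat_lit 228) (nat_lit 214))))) (XT.nd (nat_lit 234) (nat_lit 152) (nat_lit 0) (XT.nd (nat_lit 78) (nat_lit 0) (nat_lit 0) (XT.lf (nat_lit 0) (nat_lit 2698640012) (nat_lit 76) (nat_lit 2154733024) (nat_lit 152) (nat_lit 13146841306) (nat_lit 16) (nat_lit 5) (nat_lit 17) (nat_lit 5) (nat_lit 18) (nat_lit 4) (nat_lit 339) (nat_lit 228) (nat_lit 213)) (XT.nd (nat_lit 78) (nat_lit 0) (nat_lit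 0) (XT.lf (nat_lit 0) (nat_lit 7748172832) (nat_lit 152) (nat_lit 10246823315) (nat_lit 0) (nat_lit 440274965) (nat_lit 16) (nat_lit 5) (nat_lit 18) (nat_lit 4) (nat_lit 16) (nat_lit 4) (nat_lit 340) (nat_lit 228) (nat_lit 212)) (XT.lf (nat_lit 0) (nat_lit 10696618005) (nat_lit 152) (nat_lit 5151110345) (nat_lit 0) (nat_lit 3036728857) (nat_lit 16) (nat_lit 5) (nat_lit 18) (nat_lit 4) (nat_lit 16) (nat_lit 4) (nat_lit 341) (nat_lit 228) (nat_lit 211)))) (XT.nd (nat_lit 78) (nat_lit 0) (nat_lit 0) (XT.lf (nat_lit 0) (nat_lit 10943296) (nat_lit 152) (nat_lit 13669734150) (nat_lit 152) (nat_lit 5668105894) (nat_lit 14) (nat_lit 4) (nat_lit 16) (nat_lit 5) (nat_lit 16) (nat_lit 4) (nat_lit 342) (nat_lit 228) (nat_lit 210)) (XT.nd (nat_lit 78) (nat_lit 0) (nat_lit 0) (XT.lf (nat_lit 0) (nat_lit 5347557435) (nat_lit 152) (nat_lit 11406489473) (nat_lit 152) (nat_lit 3073075676) (nat_lit 14) (nat_lit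 4) (nat_lit 16) (nat_lit 5) (nat_lit 16) (nat_lit 4) (nat_lit 343) (nat_lit 228) (nat_lit 209)) (XT.lf (nat_lit 0) (nat_lit 10760877934) (nat_lit 152) (nat_lit 9108032843) (nat_lit 152) (nat_lit 452497161) (nat_lit 14) (nat_lit 4) (nat_lit 16) (nat_lit 5) (nat_lit 16) (nat_lit 4) (nat_lit 344) (nat_lit 228) (nat_lit 208)))))) (XT.nd (nat_lit 390) (nat_lit 228) (nat_lit 0) (XT.nd (nat_lit 156) (nat_lit 0) (nat_lit 0) (XT.nd (nat_lit 78) (nat_lit 76) (nat_lit 0) (XT.lf (nat_lit 0) (nat_lit 2153069178) (nat_lit 228) (nat_lit 4597544943) (nat_lit 76) (nat_lit 14080823925) (nat_lit 13) (nat_lit 5) (nat_lit 16) (nat_lit 5) (nat_lit 14) (nat_lit 4) (nat_lit 345) (nat_lit 228) (nat_lit 207)) (XT.lf (nat_lit 0) (nat_lit 438776169) (nat_lit 76) (nat_lit 4344811179) (nat_lit 152) (nat_lit 16574439308) (nat_lit 12) (nat_lit 5) (nat_lit 13) (nat_lit 5) (nat_lit 14) (nat_lit 4) (nat_lit 346) (nat_lit 228)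 (nat_lit 206))) (XT.nd (nat_lit 78) (nat_lit 0) (nat_lit 0) (XT.lf (nat_lit 0) (nat_lit 5641577385) (nat_lit 76) (nat_lit 1850181574) (nat_lit 152) (nat_lit 14408758225) (nat_lit 12) (nat_lit 5) (nat_lit 13) (nat_lit 5) (nat_lit 14) (nat_lit 4) (nat_lit 347) (nat_lit 228) (nat_lit 205)) (XT.nd (nat_lit 78) (nat_lit 0) (nat_lit 0) (XT.lf (nat_lit 0) (nat_lit 10241499770) (nat_lit 152) (nat_lit 11543454553) (nat_lit 0) (nat_lit 675582851) (nat_lit 12) (nat_lit 5) (nat_lit 14) (nat_lit 4) (nat_lit 12) (nat_lit 4) (nat_lit 348) (nat_lit 228) (nat_lit 204)) (XT.lf (nat_lit 0) (nat_lit 13046818253) (nat_lit 152) (nat_lit 6780280207) (nat_lit 0) (nat_lit 3211129326) (nat_lit 12) (nat_lit 5) (nat_lit 14) (nat_lit 4) (nat_lit 12) (nat_lit 4) (nat_lit 349) (nat_lit 228) (nat_lit 203))))) (XT.nd (nat_lit 234) (nat_lit 76) (nat_lit 0) (XT.nd (nat_lit 78) (nat_lit 152) (nat_lit 0) (XT.lf (nat_lit 0) (nat_lit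 15892380580) (nat_lit 152) (nat_lit 1947469689) (nat_lit 0) (nat_lit 5794777082) (nat_lit 12) (nat_lit 5) (nat_lit 14) (nat_lit 4) (nat_lit 12) (nat_lit 4) (nat_lit 350) (nat_lit 228) (nat_lit 202)) (XT.nd (nat_lit 78) (nat_lit 0) (nat_lit 0) (XT.lf (nat_lit 0) (nat_lit 3018093723) (nat_lit 152) (nat_lit 15791591204) (nat_lit 152) (nat_lit 5439701716) (nat_lit 10) (nat_lit 4) (nat_lit 12) (nat_lit 5) (nat_lit 12) (nat_lit 4) (nat_lit 351) (nat_lit 228) (nat_lit 201)) (XT.lf (nat_lit 0) (nat_lit 8102117267) (nat_lit 152) (nat_lit 13689985000) (nat_lit 152) (nat_lit 3091215909) (nat_lit 10) (nat_lit 4) (nat_lit 12) (nat_lit 5) (nat_lit 12) (nat_lit 4) (nat_lit 352) (nat_lit 228) (nat_lit 200)))) (XT.nd (nat_lit 78) (nat_lit 76) (nat_lit 0) (XT.lf (nat_lit 0) (nat_lit 13270284825) (nat_lit 152) (nat_lit 11552860926) (nat_lit 152) (nat_lit 714402901) (nat_lit 10) (nat_lit 4) (nat_lit 12) (nat_lit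 5) (nat_lit 12) (nat_lit 4) (nat_lit 353) (nat_lit 228) (nat_lit 199)) (XT.nd (nat_lit 78) (nat_lit 0) (nat_lit 0) (XT.lf (nat_lit 0) (nat_lit 1659781233) (nat_lit 228) (nat_lit 7701809824) (nat_lit 76) (nat_lit 16850570503) (nat_lit 9) (nat_lit 5) (nat_lit 12) (nat_lit 5) (nat_lit 10) (nat_lit 4) (nat_lit 354) (nat_lit 228) (nat_lit 198)) (XT.lf (nat_lit 0) (nat_lit 4051897879) (nat_lit 228) (nat_lit 3071742843) (nat_lit 76) (nat_lit 19784378851) (nat_lit 9) (nat_lit 5) (nat_lit 12) (nat_lit 5) (nat_lit 10) (nat_lit 4) (nat_lit 355) (nat_lit 228) (nat_lit 197))))))))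
noncomputable def xc35 : XT := (XT.nd (nat_lit 1716) (nat_lit 152) (nat_lit 0) (XT.nd (nat_lit 858) (nat_lit 152) (nat_lit 0) (XT.nd (nat_lit 390) (nat_lit 76) (nat_lit 0) (XT.nd (nat_lit 156) (nat_lit 0) (nat_lit 0) (XT.nd (nat_lit 78) (nat_lit 0) (nat_lit 0) (XT.lf (nat_lit 0) (nat_lit 1666366903) (nat_lit 76) (nat_lit 4827629042) (nat_lit 152) (nat_lit 21131460249) (nat_lit 8) (nat_lit 5) (nat_lit 9) (nat_lit 5) (nat_lit 10) (nat_lit 4) (nat_lit 356) (nat_lit 228) (nat_lit 196)) (XT.lf (nat_lit 0) (nat_lit 6546832930) (nat_lit 76) (nat_lit 2456240129) (nat_lit 152) (nat_lit 19361579341) (nat_lit 8) (nat_lit 5) (nat_lit 9) (nat_lit 5) (nat_lit 10) (nat_lit 4) (nat_lit 357) (nat_lit 228) (nat_lit 195))) (XT.nd (nat_lit 78) (nat_lit 0) (nat_lit 0) (XT.lf (nat_lit 0) (nat_lit 11512786014) (nat_lit 76) (nat_lit 38420476) (nat_lit 152) (nat_lit 17575951052) (nat_lit 8) (nat_lit 5) (nat_lit 9)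 (nat_lit 5) (nat_lit 10) (nat_lit 4) (nat_lit 358) (nat_lit 228) (nat_lit 194)) (XT.nd (nat_lit 78) (nat_lit 0) (nat_lit 0) (XT.lf (nat_lit 0) (nat_lit 14163961632) (nat_lit 152) (nat_lit 13368411417) (nat_lit 0) (nat_lit 2380564671) (nat_lit 8) (nat_lit 5) (nat_lit 10) (nat_lit 4) (nat_lit 8) (nat_lit 4) (nat_lit 359) (nat_lit 228) (nat_lit 193)) (XT.lf (nat_lit 0) (nat_lit 16821118879) (nat_lit 152) (nat_lit 9053726480) (nat_lit 0) (nat_lit 4848509259) (nat_lit 8) (nat_lit 5) (nat_lit 10) (nat_lit 4) (nat_lit 8) (nat_lit 4) (nat_lit 360) (nat_lit 228) (nat_lit 192))))) (XT.nd (nat_lit 234) (nat_lit 0) (nat_lit 0) (XT.nd (nat_lit 78) (nat_lit 76) (nat_lit 0) (XT.lf (nat_lit 0) (nat_lit 19524630698) (nat_lit 152) (nat_lit 4666177282) (nat_lit 0) (nat_lit 7368319468) (nat_lit 8) (nat_lit 5) (nat_lit 10) (nat_lit 4) (nat_lit 8) (nat_lit 4) (nat_lit 361) (nat_lit 228) (nat_lit 191)) (XT.nd (nat_lit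 78) (nat_lit 76) (nat_lit 0) (XT.lf (nat_lit 0) (nat_lit 22276859379) (nat_lit 152) (nat_lit 201930042) (nat_lit 0) (nat_lit 9942197072) (nat_lit 8) (nat_lit 5) (nat_lit 10) (nat_lit 4) (nat_lit 8) (nat_lit 4) (nat_lit 362) (nat_lit 228) (nat_lit 190)) (XT.lf (nat_lit 0) (nat_lit 4429348582) (nat_lit 76) (nat_lit 20693438810) (nat_lit 76) (nat_lit 8185620116) (nat_lit 7) (nat_lit 4) (nat_lit 8) (nat_lit 5) (nat_lit 8) (nat_lit 4) (nat_lit 363) (nat_lit 228) (nat_lit 189)))) (XT.nd (nat_lit 78) (nat_lit 0) (nat_lit 0) (XT.lf (nat_lit 0) (nat_lit 9150899187) (nat_lit 76) (nat_lit 18874196296) (nat_lit 76) (nat_lit 6198264606) (nat_lit 7) (nat_lit 4) (nat_lit 8) (nat_lit 5) (nat_lit 8) (nat_lit 4) (nat_lit 364) (nat_lit 228) (nat_lit 188)) (XT.nd (nat_lit 78) (nat_lit 0) (nat_lit 0) (XT.lf (nat_lit 0) (nat_lit 13962828593) (nat_lit 76) (nat_lit 17021511349) (nat_lit 76) (nat_lit 4182363158) (nat_lit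 7) (nat_lit 4) (nat_lit 8) (nat_lit 5) (nat_lit 8) (nat_lit 4) (nat_lit 365) (nat_lit 228) (nat_lit 187)) (XT.lf (nat_lit 0) (nat_lit 18869341400) (nat_lit 76) (nat_lit 15133765117) (nat_lit 76) (nat_lit 2136154303) (nat_lit 7) (nat_lit 4) (nat_lit 8) (nat_lit 5) (nat_lit 8) (nat_lit 4) (nat_lit 366) (nat_lit 228) (nat_lit 186)))))) (XT.nd (nat_lit 390) (nat_lit 0) (nat_lit 0) (XT.nd (nat_lit 156) (nat_lit 76) (nat_lit 0) (XT.nd (nat_lit 78) (nat_lit 76) (nat_lit 0) (XT.lf (nat_lit 0) (nat_lit 23874724851) (nat_lit 76) (nat_lit 13209308113) (nat_lit 76) (nat_lit 57850094) (nat_lit 7) (nat_lit 4) (nat_lit 8) (nat_lit 5) (nat_lit 8) (nat_lit 4) (nat_lit 367) (nat_lit 228) (nat_lit 185)) (XT.lf (nat_lit 0) (nat_lit 2014277394) (nat_lit 152) (nat_lit 9211841127) (nat_lit 76) (nat_lit 26948734936) (nat_lit 6) (nat_lit 5) (nat_lit 8) (nat_lit 5) (nat_lit 7) (nat_lit 4) (nat_lit 368) (nat_lit 228)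 (nat_lit 184))) (XT.nd (nat_lit 78) (nat_lit 76) (nat_lit 0) (XT.lf (nat_lit 0) (nat_lit 4120335247) (nat_lit 152) (nat_lit 5081559433) (nat_lit 76) (nat_lit 30037745891) (nat_lit 6) (nat_lit 5) (nat_lit 8) (nat_lit 5) (nat_lit 7) (nat_lit 4) (nat_lit 369) (nat_lit 228) (nat_lit 183)) (XT.nd (nat_lit 78) (nat_lit 76) (nat_lit 0) (XT.lf (nat_lit 0) (nat_lit 6263292572) (nat_lit 152) (nat_lit 872148052) (nat_lit 76) (nat_lit 33201750856) (nat_lit 6) (nat_lit 5) (nat_lit 8) (nat_lit 5) (nat_lit 7) (nat_lit 4) (nat_lit 370) (nat_lit 228) (nat_lit 182)) (XT.lf (nat_lit 0) (nat_lit 3488137264) (nat_lit 76) (nat_lit 4990414700) (nat_lit 152) (nat_lit 32988907339) (nat_lit 5) (nat_lit 5) (nat_lit 6) (nat_lit 5) (nat_lit 7) (nat_lit 4) (nat_lit 371) (nat_lit 228) (nat_lit 181))))) (XT.nd (nat_lit 234) (nat_lit 0) (nat_lit 0) (XT.nd (nat_lit 78) (nat_lit 0) (nat_lit 0) (XT.lf (nat_lit 0) (nat_lit 7954061014)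 (nat_lit 76) (nat_lit 2789827749) (nat_lit 152) (nat_lit 31888267701) (nat_lit 5) (nat_lit 5) (nat_lit 6) (nat_lit 5) (nat_lit 7) (nat_lit 4) (nat_lit 372) (nat_lit 228) (nat_lit 180)) (XT.nd (nat_lit 78) (nat_lit 0) (nat_lit 0) (XT.lf (nat_lit 0) (nat_lit 12512168004) (nat_lit 76) (nat_lit 540563913) (nat_lit 152) (nat_lit 30779825257) (nat_lit 5) (nat_lit 5) (nat_lit 6) (nat_lit 5) (nat_lit 7) (nat_lit 4) (nat_lit 373) (nat_lit 228) (nat_lit 179)) (XT.lf (nat_lit 0) (nat_lit 15424010736) (nat_lit 152) (nat_lit 27920181154) (nat_lit 0) (nat_lit 1725011079) (nat_lit 5) (nat_lit 5) (nat_lit 7) (nat_lit 4) (nat_lit 5) (nat_lit 4) (nat_lit 374) (nat_lit 228) (nat_lit 178)))) (XT.nd (nat_lit 78) (nat_lit 0) (nat_lit 0) (XT.lf (nat_lit 0) (nat_lit 17848572914) (nat_lit 152) (nat_lit 24463276048) (nat_lit 0) (nat_lit 4031662183) (nat_lit 5) (nat_lit 5) (nat_lit 7) (nat_lit 4) (nat_lit 5) (nat_lit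 4) (nat_lit 375) (nat_lit 228) (nat_lit 177)) (XT.nd (nat_lit 78) (nat_lit 0) (nat_lit 0) (XT.lf (nat_lit 0) (nat_lit 20323340768) (nat_lit 152) (nat_lit 20941457025) (nat_lit 0) (nat_lit 6391953267) (nat_lit 5) (nat_lit 5) (nat_lit 7) (nat_lit 4) (nat_lit 5) (nat_lit 4) (nat_lit 376) (nat_lit 228) (nat_lit 176)) (XT.lf (nat_lit 0) (nat_lit 22850476717) (nat_lit 152) (nat_lit 17351646767) (nat_lit 0) (nat_lit 8807946722) (nat_lit 5) (nat_lit 5) (nat_lit 7) (nat_lit 4) (nat_lit 5) (nat_lit 4) (nat_lit 377) (nat_lit 228) (nat_lit 175))))))) (XT.nd (nat_lit 858) (nat_lit 76) (nat_lit 0) (XT.nd (nat_lit 390) (nat_lit 0) (nat_lit 0) (XT.nd (nat_lit 156) (nat_lit 76) (nat_lit 0) (XT.nd (nat_lit 78) (nat_lit 0) (nat_lit 0) (XT.lf (nat_lit 0) (nat_lit 25432188938) (nat_lit 152) (nat_lit 13690708548) (nat_lit 0) (nat_lit 11281753608) (nat_lit 5) (nat_lit 5) (nat_lit 7) (nat_lit 4) (nat_lit 5) (nat_lit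 4) (nat_lit 378) (nat_lit 228) (nat_lit 174)) (XT.lf (nat_lit 0) (nat_lit 28070733297) (nat_lit 152) (nat_lit 9955443488) (nat_lit 0) (nat_lit 13815535506) (nat_lit 5) (nat_lit 5) (nat_lit 7) (nat_lit 4) (nat_lit 5) (nat_lit 4) (nat_lit 379) (nat_lit 228) (nat_lit 173))) (XT.nd (nat_lit 78) (nat_lit 76) (nat_lit 0) (XT.lf (nat_lit 0) (nat_lit 30768415318) (nat_lit 152) (nat_lit 6142587764) (nat_lit 0) (nat_lit 16411506399) (nat_lit 5) (nat_lit 5) (nat_lit 7) (nat_lit 4) (nat_lit 5) (nat_lit 4) (nat_lit 380) (nat_lit 228) (nat_lit 172)) (XT.nd (nat_lit 78) (nat_lit 76) (nat_lit 0) (XT.lf (nat_lit 0) (nat_lit 33527592198) (nat_lit 152) (nat_lit 2248809754) (nat_lit 0) (nat_lit 19071934611) (nat_lit 5) (nat_lit 5) (nat_lit 7) (nat_lit 4) (nat_lit 5) (nat_lit 4) (nat_lit 381) (nat_lit 228) (nat_lit 171)) (XT.lf (nat_lit 0) (nat_lit 1763709189) (nat_lit 76) (nat_lit 34603919531) (nat_lit 76) (nat_lit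 20052389452) (nat_lit 4) (nat_lit 4) (nat_lit 5) (nat_lit 5) (nat_lit 5) (nat_lit 4) (nat_lit 382) (nat_lit 228) (nat_lit 170))))) (XT.nd (nat_lit 234) (nat_lit 0) (nat_lit 0) (XT.nd (nat_lit 78) (nat_lit 0) (nat_lit 0) (XT.lf (nat_lit 0) (nat_lit 5910531889) (nat_lit 76) (nat_lit 33386413860) (nat_lit 76) (nat_lit 18741803691) (nat_lit 4) (nat_lit 4) (nat_lit 5) (nat_lit 5) (nat_lit 5) (nat_lit 4) (nat_lit 383) (nat_lit 228) (nat_lit 169)) (XT.nd (nat_lit 78) (nat_lit 0) (nat_lit 0) (XT.lf (nat_lit 0) (nat_lit 10150526059) (nat_lit 76) (nat_lit 32145529669) (nat_lit 76) (nat_lit 17410550481) (nat_lit 4) (nat_lit 4) (nat_lit 5) (nat_lit 5) (nat_lit 5) (nat_lit 4) (nat_lit 384) (nat_lit 228) (nat_lit 168)) (XT.lf (nat_lit 0) (nat_lit 14487396547) (nat_lit 76) (nat_lit 30880182691) (nat_lit 76) (nat_lit 16057466590) (nat_lit 4) (nat_lit 4) (nat_lit 5) (nat_lit 5) (nat_lit 5) (nat_lit 4) (nat_lit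 385) (nat_lit 228) (nat_lit 167)))) (XT.nd (nat_lit 78) (nat_lit 0) (nat_lit 0) (XT.lf (nat_lit 0) (nat_lit 18924932854) (nat_lit 76) (nat_lit 29589267282) (nat_lit 76) (nat_lit 14681369713) (nat_lit 4) (nat_lit 4) (nat_lit 5) (nat_lit 5) (nat_lit 5) (nat_lit 4) (nat_lit 386) (nat_lit 228) (nat_lit 166)) (XT.nd (nat_lit 78) (nat_lit 0) (nat_lit 0) (XT.lf (nat_lit 0) (nat_lit 23467012437) (nat_lit 76) (nat_lit 28271655458) (nat_lit 76) (nat_lit 13281057435) (nat_lit 4) (nat_lit 4) (nat_lit 5) (nat_lit 5) (nat_lit 5) (nat_lit 4) (nat_lit 387) (nat_lit 228) (nat_lit 165)) (XT.lf (nat_lit 0) (nat_lit 28117604103) (nat_lit 76) (nat_lit 26926195907) (nat_lit 76) (nat_lit 11855306181) (nat_lit 4) (nat_lit 4) (nat_lit 5) (nat_lit 5) (nat_lit 5) (nat_lit 4) (nat_lit 388) (nat_lit 228) (nat_lit 164)))))) (XT.nd (nat_lit 468) (nat_lit 76) (nat_lit 0) (XT.nd (nat_lit 234) (nat_lit 0) (nat_lit 0) (XT.nd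 (nat_lit 78) (nat_lit 0) (nat_lit 0) (XT.lf (nat_lit 0) (nat_lit 32880771477) (nat_lit 76) (nat_lit 25551712987) (nat_lit 76) (nat_lit 10402870150) (nat_lit 4) (nat_lit 4) (nat_lit 5) (nat_lit 5) (nat_lit 5) (nat_lit 4) (nat_lit 389) (nat_lit 228) (nat_lit 163)) (XT.nd (nat_lit 78) (nat_lit 0) (nat_lit 0) (XT.lf (nat_lit 0) (nat_lit 37760676550) (nat_lit 76) (nat_lit 24147005691) (nat_lit 76) (nat_lit 8922480224) (nat_lit 4) (nat_lit 4) (nat_lit 5) (nat_lit 5) (nat_lit 5) (nat_lit 4) (nat_lit 390) (nat_lit 228) (nat_lit 162)) (XT.lf (nat_lit 0) (nat_lit 42761583316) (nat_lit 76) (nat_lit 22710846605) (nat_lit 76) (nat_lit 7412842856) (nat_lit 4) (nat_lit 4) (nat_lit 5) (nat_lit 5) (nat_lit 5) (nat_lit 4) (nat_lit 391) (nat_lit 228) (nat_lit 161)))) (XT.nd (nat_lit 78) (nat_lit 0) (nat_lit 0) (XT.lf (nat_lit 0) (nat_lit 47887861500) (nat_lit 76) (nat_lit 21241980835) (nat_lit 76) (nat_lit 5872638947)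 (nat_lit 4) (nat_lit 4) (nat_lit 5) (nat_lit 5) (nat_lit 5) (nat_lit 4) (nat_lit 392) (nat_lit 228) (nat_lit 160)) (XT.nd (nat_lit 78) (nat_lit 0) (nat_lit 0) (XT.lf (nat_lit 0) (nat_lit 53143990373) (nat_lit 76) (nat_lit 19739124904) (nat_lit 76) (nat_lit 4300522687) (nat_lit 4) (nat_lit 4) (nat_lit 5) (nat_lit 5) (nat_lit 5) (nat_lit 4) (nat_lit 393) (nat_lit 228) (nat_lit 159)) (XT.lf (nat_lit 0) (nat_lit 58534562670) (nat_lit 76) (nat_lit 18200965637) (nat_lit 76) (nat_lit 2695120383) (nat_lit 4) (nat_lit 4) (nat_lit 5) (nat_lit 5) (nat_lit 5) (nat_lit 4) (nat_lit 394) (nat_lit 228) (nat_lit 158))))) (XT.nd (nat_lit 234) (nat_lit 0) (nat_lit 0) (XT.nd (nat_lit 78) (nat_lit 76) (nat_lit 0) (XT.lf (nat_lit 0) (nat_lit 64064288600) (nat_lit 76) (nat_lit 16626159012) (nat_lit 76) (nat_lit 1055029256) (nat_lit 4) (nat_lit 4) (nat_lit 5) (nat_lit 5) (nat_lit 5) (nat_lit 4) (nat_lit 395) (nat_lit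 228) (nat_lit 157)) (XT.nd (nat_lit 78) (nat_lit 0) (nat_lit 0) (XT.lf (nat_lit 0) (nat_lit 609062249) (nat_lit 152) (nat_lit 14398116400) (nat_lit 76) (nat_lit 69122787377) (nat_lit 3) (nat_lit 5) (nat_lit 5) (nat_lit 5) (nat_lit 4) (nat_lit 4) (nat_lit 396) (nat_lit 228) (nat_lit 156)) (XT.lf (nat_lit 0) (nat_lit 2289419450) (nat_lit 152) (nat_lit 11048528187) (nat_lit 76) (nat_lit 73248116269) (nat_lit 3) (nat_lit 5) (nat_lit 5) (nat_lit 5) (nat_lit 4) (nat_lit 4) (nat_lit 397) (nat_lit 228) (nat_lit 155)))) (XT.nd (nat_lit 78) (nat_lit 0) (nat_lit 0) (XT.lf (nat_lit 0) (nat_lit 4008098040) (nat_lit 152) (nat_lit 7619355218) (nat_lit 76) (nat_lit 77488767601) (nat_lit 3) (nat_lit 5) (nat_lit 5) (nat_lit 5) (nat_lit 4) (nat_lit 4) (nat_lit 398) (nat_lit 228) (nat_lit 154)) (XT.nd (nat_lit 78) (nat_lit 0) (nat_lit 0) (XT.lf (nat_lit 0) (nat_lit 5766599776) (nat_lit 152) (nat_lit 4107601128)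 (nat_lit 76) (nat_lit 81848446797) (nat_lit 3) (nat_lit 5) (nat_lit 5) (nat_lit 5) (nat_lit 4) (nat_lit 4) (nat_lit 399) (nat_lit 228) (nat_lit 153)) (XT.lf (nat_lit 0) (nat_lit 7566461214) (nat_lit 152) (nat_lit 510197394) (nat_lit 76) (nat_lit 86330963285) (nat_lit 3) (nat_lit 5) (nat_lit 5) (nat_lit 5) (nat_lit 4) (nat_lit 4) (nat_lit 400) (nat_lit 228) (nat_lit 152))))))))
noncomputable def xc36 : XT := (XT.nd (nat_lit 36114) (nat_lit 0) (nat_lit 380) (XT.nd (nat_lit 35256) (nat_lit 0) (nat_lit 1064) (XT.nd (nat_lit 34788) (nat_lit 0) (nat_lit 1596) (XT.nd (nat_lit 34554) (nat_lit 0) (nat_lit 1976) (XT.nd (nat_lit 34476) (nat_lit 0) (nat_lit 2432) (XT.lf (nat_lit 0) (nat_lit 3239207959) (nat_lit 76) (nat_lit 6201184337) (nat_lit 152) (nat_lit 87732163118) (nat_lit 2) (nat_lit 5) (nat_lit 3) (nat_lit 5) (nat_lit 4) (nat_lit 4) (nat_lit 401) (nat_lit 228) (nat_lit 151)) (XT.lf (nat_lit 0)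 (nat_lit 4200873261) (nat_lit 228) (nat_lit 1002362737) (nat_lit 228) (nat_lit 1002362737) (nat_lit 34) (nat_lit 4) (nat_lit 37) (nat_lit 5) (nat_lit 37) (nat_lit 4) (nat_lit 322) (nat_lit 229) (nat_lit 229))) (XT.nd (nat_lit 78) (nat_lit 228) (nat_lit 0) (XT.lf (nat_lit 0) (nat_lit 1183120421) (nat_lit 228) (nat_lit 10930337501) (nat_lit 0) (nat_lit 547385014) (nat_lit 31) (nat_lit 5) (nat_lit 34) (nat_lit 4) (nat_lit 31) (nat_lit 4) (nat_lit 323) (nat_lit 229) (nat_lit 228)) (XT.nd (nat_lit 78) (nat_lit 228) (nat_lit 0) (XT.lf (nat_lit 0) (nat_lit 4411239948) (nat_lit 228) (nat_lit 5348451912) (nat_lit 0) (nat_lit 3158285699) (nat_lit 31) (nat_lit 5) (nat_lit 34) (nat_lit 4) (nat_lit 31) (nat_lit 4) (nat_lit 324) (nat_lit 229) (nat_lit 227)) (XT.lf (nat_lit 0) (nat_lit 293569622) (nat_lit 228) (nat_lit 7371857374) (nat_lit 228) (nat_lit 5519661531) (nat_lit 28) (nat_lit 4) (nat_lit 31) (nat_lit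 5) (nat_lit 31) (nat_lit 4) (nat_lit 325) (nat_lit 229) (nat_lit 226))))) (XT.nd (nat_lit 234) (nat_lit 152) (nat_lit 0) (XT.nd (nat_lit 78) (nat_lit 228) (nat_lit 0) (XT.lf (nat_lit 0) (nat_lit 6102548926) (nat_lit 228) (nat_lit 4896169159) (nat_lit 228) (nat_lit 2462185360) (nat_lit 28) (nat_lit 4) (nat_lit 31) (nat_lit 5) (nat_lit 31) (nat_lit 4) (nat_lit 326) (nat_lit 229) (nat_lit 225)) (XT.nd (nat_lit 78) (nat_lit 152) (nat_lit 0) (XT.lf (nat_lit 0) (nat_lit 602365352) (nat_lit 304) (nat_lit 1776024809) (nat_lit 76) (nat_lit 11368669065) (nat_lit 27) (nat_lit 5) (nat_lit 31) (nat_lit 5) (nat_lit 28) (nat_lit 4) (nat_lit 327) (nat_lit 229) (nat_lit 224)) (XT.lf (nat_lit 0) (nat_lit 3680183458) (nat_lit 228) (nat_lit 10125600800) (nat_lit 0) (nat_lit 236283049) (nat_lit 25) (nat_lit 5) (nat_lit 28) (nat_lit 4) (nat_lit 25) (nat_lit 4) (nat_lit 328) (nat_lit 229) (nat_lit 223)))) (XT.nd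 (nat_lit 78) (nat_lit 152) (nat_lit 0) (XT.lf (nat_lit 0) (nat_lit 6823460629) (nat_lit 228) (nat_lit 4660742035) (nat_lit 0) (nat_lit 2862649157) (nat_lit 25) (nat_lit 5) (nat_lit 28) (nat_lit 4) (nat_lit 25) (nat_lit 4) (nat_lit 329) (nat_lit 229) (nat_lit 222)) (XT.nd (nat_lit 78) (nat_lit 0) (nat_lit 0) (XT.lf (nat_lit 0) (nat_lit 880617601) (nat_lit 152) (nat_lit 9122343905) (nat_lit 152) (nat_lit 4659677031) (nat_lit 23) (nat_lit 4) (nat_lit 25) (nat_lit 5) (nat_lit 25) (nat_lit 4) (nat_lit 330) (nat_lit 229) (nat_lit 221)) (XT.lf (nat_lit 0) (nat_lit 6580155529) (nat_lit 152) (nat_lit 6679158743) (nat_lit 152) (nat_lit 1729253616) (nat_lit 23) (nat_lit 4) (nat_lit 25) (nat_lit 5) (nat_lit 25) (nat_lit 4) (nat_lit 331) (nat_lit 229) (nat_lit 220)))))) (XT.nd (nat_lit 390) (nat_lit 152) (nat_lit 0) (XT.nd (nat_lit 156) (nat_lit 152) (nat_lit 0) (XT.nd (nat_lit 78) (nat_lit 152) (nat_lit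 0) (XT.lf (nat_lit 0) (nat_lit 1199502804) (nat_lit 228) (nat_lit 2987961282) (nat_lit 76) (nat_lit 11138478593) (nat_lit 22) (nat_lit 5) (nat_lit 25) (nat_lit 5) (nat_lit 23) (nat_lit 4) (nat_lit 332) (nat_lit 229) (nat_lit 219)) (XT.lf (nat_lit 0) (nat_lit 2528314341) (nat_lit 152) (nat_lit 1614806397) (nat_lit 228) (nat_lit 11531055128) (nat_lit 20) (nat_lit 5) (nat_lit 22) (nat_lit 5) (nat_lit 23) (nat_lit 4) (nat_lit 333) (nat_lit 229) (nat_lit 218))) (XT.nd (nat_lit 78) (nat_lit 152) (nat_lit 0) (XT.lf (nat_lit 0) (nat_lit 7153449144) (nat_lit 228) (nat_lit 7870504957) (nat_lit 0) (nat_lit 1009650325) (nat_lit 20) (nat_lit 5) (nat_lit 23) (nat_lit 4) (nat_lit 20) (nat_lit 4) (nat_lit 334) (nat_lit 229) (nat_lit 217)) (XT.nd (nat_lit 78) (nat_lit 152) (nat_lit 0) (XT.lf (nat_lit 0) (nat_lit 10209863244) (nat_lit 228) (nat_lit 2549608403) (nat_lit 0) (nat_lit 3645768428) (nat_lit 20) (nat_lit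 5) (nat_lit 23) (nat_lit 4) (nat_lit 20) (nat_lit 4) (nat_lit 335) (nat_lit 229) (nat_lit 216)) (XT.lf (nat_lit 0) (nat_lit 2893461833) (nat_lit 152) (nat_lit 10433863079) (nat_lit 152) (nat_lit 3461713897) (nat_lit 18) (nat_lit 4) (nat_lit 20) (nat_lit 5) (nat_lit 20) (nat_lit 4) (nat_lit 336) (nat_lit 229) (nat_lit 215))))) (XT.nd (nat_lit 234) (nat_lit 0) (nat_lit 0) (XT.nd (nat_lit 78) (nat_lit 152) (nat_lit 0) (XT.lf (nat_lit 0) (nat_lit 8459094310) (nat_lit 152) (nat_lit 8047312345) (nat_lit 152) (nat_lit 678993875) (nat_lit 18) (nat_lit 4) (nat_lit 20) (nat_lit 5) (nat_lit 20) (nat_lit 4) (nat_lit 337) (nat_lit 229) (nat_lit 214)) (XT.nd (nat_lit 78) (nat_lit 76) (nat_lit 0) (XT.lf (nat_lit 0) (nat_lit 2087915087) (nat_lit 228) (nat_lit 3514481220) (nat_lit 76) (nat_lit 11992411057) (nat_lit 17) (nat_lit 5) (nat_lit 20) (nat_lit 5) (nat_lit 18) (nat_lit 4) (nat_lit 338) (nat_lit 229)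 (nat_lit 213)) (XT.lf (nat_lit 0) (nat_lit 1793132209) (nat_lit 76) (nat_lit 3093325232) (nat_lit 152) (nat_lit 13131053196) (nat_lit 16) (nat_lit 5) (nat_lit 17) (nat_lit 5) (nat_lit 18) (nat_lit 4) (nat_lit 339) (nat_lit 229) (nat_lit 212)))) (XT.nd (nat_lit 78) (nat_lit 0) (nat_lit 0) (XT.lf (nat_lit 0) (nat_lit 7244054306) (nat_lit 76) (nat_lit 506182995) (nat_lit 152) (nat_lit 10703300932) (nat_lit 16) (nat_lit 5) (nat_lit 17) (nat_lit 5) (nat_lit 18) (nat_lit 4) (nat_lit 340) (nat_lit 229) (nat_lit 211)) (XT.nd (nat_lit 78) (nat_lit 0) (nat_lit 0) (XT.lf (nat_lit 0) (nat_lit 10667735808) (nat_lit 152) (nat_lit 6151636380) (nat_lit 0) (nat_lit 2084319596) (nat_lit 16) (nat_lit 5) (nat_lit 18) (nat_lit 4) (nat_lit 16) (nat_lit 4) (nat_lit 341) (nat_lit 229) (nat_lit 210)) (XT.lf (nat_lit 0) (nat_lit 13626368768) (nat_lit 152) (nat_lit 1031282845) (nat_lit 0) (nat_lit 4711167015) (nat_lit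 16) (nat_lit 5) (nat_lit 18) (nat_lit 4) (nat_lit 16) (nat_lit 4) (nat_lit 342) (nat_lit 229) (nat_lit 209))))))) (XT.nd (nat_lit 858) (nat_lit 228) (nat_lit 0) (XT.nd (nat_lit 390) (nat_lit 152) (nat_lit 0) (XT.nd (nat_lit 156) (nat_lit 152) (nat_lit 0) (XT.nd (nat_lit 78) (nat_lit 0) (nat_lit 0) (XT.lf (nat_lit 0) (nat_lit 4243726907) (nat_lit 152) (nat_lit 12420922048) (nat_lit 152) (nat_lit 3183598410) (nat_lit 14) (nat_lit 4) (nat_lit 16) (nat_lit 5) (nat_lit 16) (nat_lit 4) (nat_lit 343) (nat_lit 229) (nat_lit 208)) (XT.lf (nat_lit 0) (nat_lit 9617164073) (nat_lit 152) (nat_lit 10138097627) (nat_lit 152) (nat_lit 588034295) (nat_lit 14) (nat_lit 4) (nat_lit 16) (nat_lit 5) (nat_lit 16) (nat_lit 4) (nat_lit 344) (nat_lit 229) (nat_lit 207))) (XT.nd (nat_lit 78) (nat_lit 76) (nat_lit 0) (XT.lf (nat_lit 0) (nat_lit 1996364940) (nat_lit 228) (nat_lit 5801073273) (nat_lit 76) (nat_lit 13056675023)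 (nat_lit 13) (nat_lit 5) (nat_lit 16) (nat_lit 5) (nat_lit 14) (nat_lit 4) (nat_lit 345) (nat_lit 229) (nat_lit 206)) (XT.nd (nat_lit 78) (nat_lit 76) (nat_lit 0) (XT.lf (nat_lit 0) (nat_lit 4599546954) (nat_lit 228) (nat_lit 811400941) (nat_lit 76) (nat_lit 15970606744) (nat_lit 13) (nat_lit 5) (nat_lit 16) (nat_lit 5) (nat_lit 14) (nat_lit 4) (nat_lit 346) (nat_lit 229) (nat_lit 205)) (XT.lf (nat_lit 0) (nat_lit 4337538527) (nat_lit 76) (nat_lit 2939417586) (nat_lit 152) (nat_lit 14648043686) (nat_lit 12) (nat_lit 5) (nat_lit 13) (nat_lit 5) (nat_lit 14) (nat_lit 4) (nat_lit 347) (nat_lit 229) (nat_lit 204))))) (XT.nd (nat_lit 234) (nat_lit 152) (nat_lit 0) (XT.nd (nat_lit 78) (nat_lit 0) (nat_lit 0) (XT.lf (nat_lit 0) (nat_lit 9583250991) (nat_lit 76) (nat_lit 414679324) (nat_lit 152) (nat_lit 12487983301) (nat_lit 12) (nat_lit 5) (nat_lit 13) (nat_lit 5) (nat_lit 14) (nat_lit 4) (nat_lit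 348) (nat_lit 229) (nat_lit 203)) (XT.nd (nat_lit 78) (nat_lit 0) (nat_lit 0) (XT.lf (nat_lit 0) (nat_lit 12777629292) (nat_lit 152) (nat_lit 8171590335) (nat_lit 0) (nat_lit 2115183120) (nat_lit 12) (nat_lit 5) (nat_lit 14) (nat_lit 4) (nat_lit 12) (nat_lit 4) (nat_lit 349) (nat_lit 229) (nat_lit 202)) (XT.lf (nat_lit 0) (nat_lit 15602188362) (nat_lit 152) (nat_lit 3373816910) (nat_lit 0) (nat_lit 4685456199) (nat_lit 12) (nat_lit 5) (nat_lit 14) (nat_lit 4) (nat_lit 12) (nat_lit 4) (nat_lit 350) (nat_lit 229) (nat_lit 201)))) (XT.nd (nat_lit 78) (nat_lit 0) (nat_lit 0) (XT.lf (nat_lit 0) (nat_lit 1528665804) (nat_lit 152) (nat_lit 16956118102) (nat_lit 152) (nat_lit 5792506336) (nat_lit 10) (nat_lit 4) (nat_lit 12) (nat_lit 5) (nat_lit 12) (nat_lit 4) (nat_lit 351) (nat_lit 229) (nat_lit 200)) (XT.nd (nat_lit 78) (nat_lit 0) (nat_lit 0) (XT.lf (nat_lit 0) (nat_lit 6579006248) (nat_lit 152)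 (nat_lit 14868073630) (nat_lit 152) (nat_lit 3464772930) (nat_lit 10) (nat_lit 4) (nat_lit 12) (nat_lit 5) (nat_lit 12) (nat_lit 4) (nat_lit 352) (nat_lit 229) (nat_lit 199)) (XT.lf (nat_lit 0) (nat_lit 11714471768) (nat_lit 152) (nat_lit 12744116287) (nat_lit 152) (nat_lit 1108107883) (nat_lit 10) (nat_lit 4) (nat_lit 12) (nat_lit 5) (nat_lit 12) (nat_lit 4) (nat_lit 353) (nat_lit 229) (nat_lit 198)))))) (XT.nd (nat_lit 390) (nat_lit 76) (nat_lit 0) (XT.nd (nat_lit 156) (nat_lit 76) (nat_lit 0) (XT.nd (nat_lit 78) (nat_lit 0) (nat_lit 0) (XT.lf (nat_lit 0) (nat_lit 1254579433) (nat_lit 228) (nat_lit 9315141962) (nat_lit 76) (nat_lit 15672301439) (nat_lit 9) (nat_lit 5) (nat_lit 12) (nat_lit 5) (nat_lit 10) (nat_lit 4) (nat_lit 354) (nat_lit 229) (nat_lit 197)) (XT.lf (nat_lit 0) (nat_lit 3628075283) (nat_lit 228) (nat_lit 4716294717) (nat_lit 76) (nat_lit 18594093809) (nat_lit 9) (nat_lit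 5) (nat_lit 12) (nat_lit 5) (nat_lit 10) (nat_lit 4) (nat_lit 355) (nat_lit 229) (nat_lit 196))) (XT.nd (nat_lit 78) (nat_lit 76) (nat_lit 0) (XT.lf (nat_lit 0) (nat_lit 6036076769) (nat_lit 228) (nat_lit 41012214) (nat_lit 76) (nat_lit 21579857975) (nat_lit 9) (nat_lit 5) (nat_lit 12) (nat_lit 5) (nat_lit 10) (nat_lit 4) (nat_lit 356) (nat_lit 229) (nat_lit 195)) (XT.nd (nat_lit 78) (nat_lit 0) (nat_lit 0) (XT.lf (nat_lit 0) (nat_lit 4808624326) (nat_lit 76) (nat_lit 3718287084) (nat_lit 152) (nat_lit 19869801969) (nat_lit 8) (nat_lit 5) (nat_lit 9) (nat_lit 5) (nat_lit 10) (nat_lit 4) (nat_lit 357) (nat_lit 229) (nat_lit 194)) (XT.lf (nat_lit 0) (nat_lit 9745438320) (nat_lit 76) (nat_lit 1312285751) (nat_lit 152) (nat_lit 18102036345) (nat_lit 8) (nat_lit 5) (nat_lit 9) (nat_lit 5) (nat_lit 10) (nat_lit 4) (nat_lit 358) (nat_lit 229) (nat_lit 193))))) (XT.nd (nat_lit 234) (nat_lit 76) (nat_lit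 0) (XT.nd (nat_lit 78) (nat_lit 0) (nat_lit 0) (XT.lf (nat_lit 0) (nat_lit 13641307465) (nat_lit 152) (nat_lit 15184823008) (nat_lit 0) (nat_lit 1120306898) (nat_lit 8) (nat_lit 5) (nat_lit 10) (nat_lit 4) (nat_lit 8) (nat_lit 4) (nat_lit 359) (nat_lit 229) (nat_lit 192)) (XT.nd (nat_lit 78) (nat_lit 0) (nat_lit 0) (XT.lf (nat_lit 0) (nat_lit 16282031143) (nat_lit 152) (nat_lit 10898008163) (nat_lit 0) (nat_lit 3577328966) (nat_lit 8) (nat_lit 5) (nat_lit 10) (nat_lit 4) (nat_lit 8) (nat_lit 4) (nat_lit 360) (nat_lit 229) (nat_lit 191)) (XT.lf (nat_lit 0) (nat_lit 18969588039) (nat_lit 152) (nat_lit 6537517307) (nat_lit 0) (nat_lit 6086534785) (nat_lit 8) (nat_lit 5) (nat_lit 10) (nat_lit 4) (nat_lit 8) (nat_lit 4) (nat_lit 361) (nat_lit 229) (nat_lit 190)))) (XT.nd (nat_lit 78) (nat_lit 76) (nat_lit 0) (XT.lf (nat_lit 0) (nat_lit 21706326505) (nat_lit 152) (nat_lit 2099540302) (nat_lit 0)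 (nat_lit 8650116865) (nat_lit 8) (nat_lit 5) (nat_lit 10) (nat_lit 4) (nat_lit 8) (nat_lit 4) (nat_lit 362) (nat_lit 229) (nat_lit 189)) (XT.nd (nat_lit 78) (nat_lit 0) (nat_lit 0) (XT.lf (nat_lit 0) (nat_lit 2467959474) (nat_lit 76) (nat_lit 22050401928) (nat_lit 76) (nat_lit 8826079292) (nat_lit 7) (nat_lit 4) (nat_lit 8) (nat_lit 5) (nat_lit 8) (nat_lit 4) (nat_lit 363) (nat_lit 229) (nat_lit 188)) (XT.lf (nat_lit 0) (nat_lit 7164255045) (nat_lit 76) (nat_lit 20241570667) (nat_lit 76) (nat_lit 6854031529) (nat_lit 7) (nat_lit 4) (nat_lit 8) (nat_lit 5) (nat_lit 8) (nat_lit 4) (nat_lit 364) (nat_lit 229) (nat_lit 187))))))))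
noncomputable def xc37 : XT := (XT.nd (nat_lit 1716) (nat_lit 152) (nat_lit 0) (XT.nd (nat_lit 858) (nat_lit 76) (nat_lit 0) (XT.nd (nat_lit 390) (nat_lit 76) (nat_lit 0) (XT.nd (nat_lit 156) (nat_lit 76) (nat_lit 0) (XT.nd (nat_lit 78) (nat_lit 0) (nat_lit 0) (XT.lf (nat_lit 0) (nat_lit 11951665003) (nat_lit 76) (nat_lit 18398993731) (nat_lit 76) (nat_lit 4852991971) (nat_lit 7) (nat_lit 4) (nat_lit 8) (nat_lit 5) (nat_lit 8) (nat_lit 4) (nat_lit 365) (nat_lit 229) (nat_lit 186)) (XT.lf (nat_lit 0) (nat_lit 16834372519) (nat_lit 76) (nat_lit 16521061103) (nat_lit 76) (nat_lit 2821212136) (nat_lit 7) (nat_lit 4) (nat_lit 8) (nat_lit 5) (nat_lit 8) (nat_lit 4) (nat_lit 366) (nat_lit 229) (nat_lit 185))) (XT.nd (nat_lit 78) (nat_lit 76) (nat_lit 0) (XT.lf (nat_lit 0) (nat_lit 21816644038) (nat_lit 76) (nat_lit 14606131870) (nat_lit 76) (nat_lit 756916684) (nat_lit 7) (nat_lit 4) (nat_lit 8) (nat_lit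 5) (nat_lit 8) (nat_lit 4) (nat_lit 367) (nat_lit 229) (nat_lit 184)) (XT.nd (nat_lit 78) (nat_lit 0) (nat_lit 0) (XT.lf (nat_lit 0) (nat_lit 1315516775) (nat_lit 152) (nat_lit 11323731878) (nat_lit 76) (nat_lit 25574032085) (nat_lit 6) (nat_lit 5) (nat_lit 8) (nat_lit 5) (nat_lit 7) (nat_lit 4) (nat_lit 368) (nat_lit 229) (nat_lit 183)) (XT.lf (nat_lit 0) (nat_lit 3408627700) (nat_lit 152) (nat_lit 7215508688) (nat_lit 76) (nat_lit 28654335494) (nat_lit 6) (nat_lit 5) (nat_lit 8) (nat_lit 5) (nat_lit 7) (nat_lit 4) (nat_lit 369) (nat_lit 229) (nat_lit 182))))) (XT.nd (nat_lit 234) (nat_lit 0) (nat_lit 0) (XT.nd (nat_lit 78) (nat_lit 76) (nat_lit 0) (XT.lf (nat_lit 0) (nat_lit 5539015192) (nat_lit 152) (nat_lit 3027513330) (nat_lit 76) (nat_lit 31809886529) (nat_lit 6) (nat_lit 5) (nat_lit 8) (nat_lit 5) (nat_lit 7) (nat_lit 4) (nat_lit 370) (nat_lit 229) (nat_lit 181)) (XT.nd (nat_lit 78)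 (nat_lit 0) (nat_lit 0) (XT.lf (nat_lit 0) (nat_lit 1268669928) (nat_lit 76) (nat_lit 6452066057) (nat_lit 152) (nat_lit 33786967773) (nat_lit 5) (nat_lit 5) (nat_lit 6) (nat_lit 5) (nat_lit 7) (nat_lit 4) (nat_lit 371) (nat_lit 229) (nat_lit 180)) (XT.lf (nat_lit 0) (nat_lit 5714005268) (nat_lit 76) (nat_lit 4260021334) (nat_lit 152) (nat_lit 32698749999) (nat_lit 5) (nat_lit 5) (nat_lit 6) (nat_lit 5) (nat_lit 7) (nat_lit 4) (nat_lit 372) (nat_lit 229) (nat_lit 179)))) (XT.nd (nat_lit 78) (nat_lit 0) (nat_lit 0) (XT.lf (nat_lit 0) (nat_lit 10252123510) (nat_lit 76) (nat_lit 2019050924) (nat_lit 152) (nat_lit 31602367615) (nat_lit 5) (nat_lit 5) (nat_lit 6) (nat_lit 5) (nat_lit 7) (nat_lit 4) (nat_lit 373) (nat_lit 229) (nat_lit 178)) (XT.nd (nat_lit 78) (nat_lit 0) (nat_lit 0) (XT.lf (nat_lit 0) (nat_lit 14616809052) (nat_lit 152) (nat_lit 30226681670) (nat_lit 0) (nat_lit 267479926) (nat_lit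 5) (nat_lit 5) (nat_lit 7) (nat_lit 4) (nat_lit 5) (nat_lit 4) (nat_lit 374) (nat_lit 229) (nat_lit 177)) (XT.lf (nat_lit 0) (nat_lit 17030272121) (nat_lit 152) (nat_lit 26788886532) (nat_lit 0) (nat_lit 2566466226) (nat_lit 5) (nat_lit 5) (nat_lit 7) (nat_lit 4) (nat_lit 5) (nat_lit 4) (nat_lit 375) (nat_lit 229) (nat_lit 176)))))) (XT.nd (nat_lit 390) (nat_lit 76) (nat_lit 0) (XT.nd (nat_lit 156) (nat_lit 0) (nat_lit 0) (XT.nd (nat_lit 78) (nat_lit 0) (nat_lit 0) (XT.lf (nat_lit 0) (nat_lit 19494264142) (nat_lit 152) (nat_lit 23285620877) (nat_lit 0) (nat_lit 4919315752) (nat_lit 5) (nat_lit 5) (nat_lit 7) (nat_lit 4) (nat_lit 5) (nat_lit 4) (nat_lit 376) (nat_lit 229) (nat_lit 175)) (XT.lf (nat_lit 0) (nat_lit 22010938118) (nat_lit 152) (nat_lit 19713823597) (nat_lit 0) (nat_lit 7328084393) (nat_lit 5) (nat_lit 5) (nat_lit 7) (nat_lit 4) (nat_lit 5) (nat_lit 4) (nat_lit 377) (nat_lit 229)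 (nat_lit 174))) (XT.nd (nat_lit 78) (nat_lit 0) (nat_lit 0) (XT.lf (nat_lit 0) (nat_lit 24582493084) (nat_lit 152) (nat_lit 16070373706) (nat_lit 0) (nat_lit 9794876897) (nat_lit 5) (nat_lit 5) (nat_lit 7) (nat_lit 4) (nat_lit 5) (nat_lit 4) (nat_lit 378) (nat_lit 229) (nat_lit 173)) (XT.nd (nat_lit 78) (nat_lit 0) (nat_lit 0) (XT.lf (nat_lit 0) (nat_lit 27211176030) (nat_lit 152) (nat_lit 12352087605) (nat_lit 0) (nat_lit 12321848715) (nat_lit 5) (nat_lit 5) (nat_lit 7) (nat_lit 4) (nat_lit 5) (nat_lit 4) (nat_lit 379) (nat_lit 229) (nat_lit 172)) (XT.lf (nat_lit 0) (nat_lit 29899283862) (nat_lit 152) (nat_lit 8555716308) (nat_lit 0) (nat_lit 14911207881) (nat_lit 5) (nat_lit 5) (nat_lit 7) (nat_lit 4) (nat_lit 5) (nat_lit 4) (nat_lit 380) (nat_lit 229) (nat_lit 171))))) (XT.nd (nat_lit 234) (nat_lit 0) (nat_lit 0) (XT.nd (nat_lit 78) (nat_lit 76) (nat_lit 0) (XT.lf (nat_lit 0) (nat_lit 32649165414)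 (nat_lit 152) (nat_lit 4677942596) (nat_lit 0) (nat_lit 17565216940) (nat_lit 5) (nat_lit 5) (nat_lit 7) (nat_lit 4) (nat_lit 5) (nat_lit 4) (nat_lit 381) (nat_lit 229) (nat_lit 170)) (XT.nd (nat_lit 78) (nat_lit 76) (nat_lit 0) (XT.lf (nat_lit 0) (nat_lit 35463223495) (nat_lit 152) (nat_lit 715378124) (nat_lit 0) (nat_lit 20286194931) (nat_lit 5) (nat_lit 5) (nat_lit 7) (nat_lit 4) (nat_lit 5) (nat_lit 4) (nat_lit 382) (nat_lit 229) (nat_lit 169)) (XT.lf (nat_lit 0) (nat_lit 3401821329) (nat_lit 76) (nat_lit 34974796048) (nat_lit 76) (nat_lit 19707398464) (nat_lit 4) (nat_lit 4) (nat_lit 5) (nat_lit 5) (nat_lit 5) (nat_lit 4) (nat_lit 383) (nat_lit 229) (nat_lit 168)))) (XT.nd (nat_lit 78) (nat_lit 0) (nat_lit 0) (XT.lf (nat_lit 0) (nat_lit 7626877811) (nat_lit 76) (nat_lit 33740199413) (nat_lit 76) (nat_lit 18385064917) (nat_lit 4) (nat_lit 4) (nat_lit 5) (nat_lit 5) (nat_lit 5) (nat_lit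 4) (nat_lit 384) (nat_lit 229) (nat_lit 167)) (XT.nd (nat_lit 78) (nat_lit 0) (nat_lit 0) (XT.lf (nat_lit 0) (nat_lit 11949245690) (nat_lit 76) (nat_lit 32480956857) (nat_lit 76) (nat_lit 17040640894) (nat_lit 4) (nat_lit 4) (nat_lit 5) (nat_lit 5) (nat_lit 5) (nat_lit 4) (nat_lit 385) (nat_lit 229) (nat_lit 166)) (XT.lf (nat_lit 0) (nat_lit 16372701793) (nat_lit 76) (nat_lit 31195968072) (nat_lit 76) (nat_lit 15672951654) (nat_lit 4) (nat_lit 4) (nat_lit 5) (nat_lit 5) (nat_lit 5) (nat_lit 4) (nat_lit 386) (nat_lit 229) (nat_lit 165))))))) (XT.nd (nat_lit 858) (nat_lit 76) (nat_lit 0) (XT.nd (nat_lit 390) (nat_lit 76) (nat_lit 0) (XT.nd (nat_lit 156) (nat_lit 0) (nat_lit 0) (XT.nd (nat_lit 78) (nat_lit 0) (nat_lit 0) (XT.lf (nat_lit 0) (nat_lit 20901111276) (nat_lit 76) (nat_lit 29884110252) (nat_lit 76) (nat_lit 14280802131) (nat_lit 4) (nat_lit 4) (nat_lit 5) (nat_lit 5) (nat_lit 5) (nat_lit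 4) (nat_lit 387) (nat_lit 229) (nat_lit 164)) (XT.lf (nat_lit 0) (nat_lit 25538431000) (nat_lit 76) (nat_lit 28544237114) (nat_lit 76) (nat_lit 12862975883) (nat_lit 4) (nat_lit 4) (nat_lit 5) (nat_lit 5) (nat_lit 5) (nat_lit 4) (nat_lit 388) (nat_lit 229) (nat_lit 163))) (XT.nd (nat_lit 78) (nat_lit 0) (nat_lit 0) (XT.lf (nat_lit 0) (nat_lit 30288712994) (nat_lit 76) (nat_lit 27175177894) (nat_lit 76) (nat_lit 11418234032) (nat_lit 4) (nat_lit 4) (nat_lit 5) (nat_lit 5) (nat_lit 5) (nat_lit 4) (nat_lit 389) (nat_lit 229) (nat_lit 162)) (XT.nd (nat_lit 78) (nat_lit 0) (nat_lit 0) (XT.lf (nat_lit 0) (nat_lit 35156107988) (nat_lit 76) (nat_lit 25775736327) (nat_lit 76) (nat_lit 9945314182) (nat_lit 4) (nat_lit 4) (nat_lit 5) (nat_lit 5) (nat_lit 5) (nat_lit 4) (nat_lit 390) (nat_lit 229) (nat_lit 161)) (XT.lf (nat_lit 0) (nat_lit 40144869047) (nat_lit 76) (nat_lit 24344689600) (nat_lit 76) (nat_lit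 8442929317) (nat_lit 4) (nat_lit 4) (nat_lit 5) (nat_lit 5) (nat_lit 5) (nat_lit 4) (nat_lit 391) (nat_lit 229) (nat_lit 160))))) (XT.nd (nat_lit 234) (nat_lit 76) (nat_lit 0) (XT.nd (nat_lit 78) (nat_lit 0) (nat_lit 0) (XT.lf (nat_lit 0) (nat_lit 45259355282) (nat_lit 76) (nat_lit 22880787284) (nat_lit 76) (nat_lit 6909766672) (nat_lit 4) (nat_lit 4) (nat_lit 5) (nat_lit 5) (nat_lit 5) (nat_lit 4) (nat_lit 392) (nat_lit 229) (nat_lit 159)) (XT.nd (nat_lit 78) (nat_lit 0) (nat_lit 0) (XT.lf (nat_lit 0) (nat_lit 50504035662) (nat_lit 76) (nat_lit 21382750240) (nat_lit 76) (nat_lit 5344486591) (nat_lit 4) (nat_lit 4) (nat_lit 5) (nat_lit 5) (nat_lit 5) (nat_lit 4) (nat_lit 393) (nat_lit 229) (nat_lit 158)) (XT.lf (nat_lit 0) (nat_lit 55883492916) (nat_lit 76) (nat_lit 19849269506) (nat_lit 76) (nat_lit 3745721354) (nat_lit 4) (nat_lit 4) (nat_lit 5) (nat_lit 5) (nat_lit 5) (nat_lit 4) (nat_lit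 394) (nat_lit 229) (nat_lit 157)))) (XT.nd (nat_lit 78) (nat_lit 76) (nat_lit 0) (XT.lf (nat_lit 0) (nat_lit 61402427543) (nat_lit 76) (nat_lit 18279005145) (nat_lit 76) (nat_lit 2112073982) (nat_lit 4) (nat_lit 4) (nat_lit 5) (nat_lit 5) (nat_lit 5) (nat_lit 4) (nat_lit 395) (nat_lit 229) (nat_lit 156)) (XT.nd (nat_lit 78) (nat_lit 76) (nat_lit 0) (XT.lf (nat_lit 0) (nat_lit 67065661911) (nat_lit 76) (nat_lit 16670585082) (nat_lit 76) (nat_lit 442117014) (nat_lit 4) (nat_lit 4) (nat_lit 5) (nat_lit 5) (nat_lit 5) (nat_lit 4) (nat_lit 396) (nat_lit 229) (nat_lit 155)) (XT.lf (nat_lit 0) (nat_lit 1240912147) (nat_lit 152) (nat_lit 13769160975) (nat_lit 76) (nat_lit 71624701550) (nat_lit 3) (nat_lit 5) (nat_lit 5) (nat_lit 5) (nat_lit 4) (nat_lit 4) (nat_lit 397) (nat_lit 229) (nat_lit 154)))))) (XT.nd (nat_lit 34632) (nat_lit 0) (nat_lit 1976) (XT.nd (nat_lit 156) (nat_lit 76) (nat_lit 0) (XT.nd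 (nat_lit 78) (nat_lit 0) (nat_lit 0) (XT.lf (nat_lit 0) (nat_lit 2953808860) (nat_lit 152) (nat_lit 10349985084) (nat_lit 76) (nat_lit 75861317574) (nat_lit 3) (nat_lit 5) (nat_lit 5) (nat_lit 5) (nat_lit 4) (nat_lit 4) (nat_lit 398) (nat_lit 229) (nat_lit 153)) (XT.lf (nat_lit 0) (nat_lit 4706697123) (nat_lit 152) (nat_lit 6847936895) (nat_lit 76) (nat_lit 80217078995) (nat_lit 3) (nat_lit 5) (nat_lit 5) (nat_lit 5) (nat_lit 4) (nat_lit 4) (nat_lit 399) (nat_lit 229) (nat_lit 152))) (XT.nd (nat_lit 78) (nat_lit 76) (nat_lit 0) (XT.lf (nat_lit 0) (nat_lit 6501108587) (nat_lit 152) (nat_lit 3259956366) (nat_lit 76) (nat_lit 84695791819) (nat_lit 3) (nat_lit 5) (nat_lit 5) (nat_lit 5) (nat_lit 4) (nat_lit 4) (nat_lit 400) (nat_lit 229) (nat_lit 151)) (XT.nd (nat_lit 34320) (nat_lit 0) (nat_lit 2660) (XT.lf (nat_lit 0) (nat_lit 425392571) (nat_lit 76) (nat_lit 7917307746) (nat_lit 152) (nat_lit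 88880066045) (nat_lit 2) (nat_lit 5) (nat_lit 3) (nat_lit 5) (nat_lit 4) (nat_lit 4) (nat_lit 401) (nat_lit 229) (nat_lit 150)) (XT.lf (nat_lit 0) (nat_lit 2174574035) (nat_lit 304) (nat_lit 1619083771) (nat_lit 0) (nat_lit 2174574035) (nat_lit 37) (nat_lit 5) (nat_lit 41) (nat_lit 4) (nat_lit 37) (nat_lit 4) (nat_lit 320) (nat_lit 230) (nat_lit 230))))) (XT.nd (nat_lit 234) (nat_lit 228) (nat_lit 0) (XT.nd (nat_lit 78) (nat_lit 228) (nat_lit 0) (XT.lf (nat_lit 0) (nat_lit 2491542611) (nat_lit 228) (nat_lit 5176554846) (nat_lit 228) (nat_lit 4502103152) (nat_lit 34) (nat_lit 4) (nat_lit 37) (nat_lit 5) (nat_lit 37) (nat_lit 4) (nat_lit 321) (nat_lit 230) (nat_lit 229)) (XT.nd (nat_lit 78) (nat_lit 228) (nat_lit 0) (XT.lf (nat_lit 0) (nat_lit 8345652534) (nat_lit 228) (nat_lit 2697998557) (nat_lit 228) (nat_lit 1368739394) (nat_lit 34) (nat_lit 4) (nat_lit 37) (nat_lit 5) (nat_lit 37) (nat_lit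 4) (nat_lit 322) (nat_lit 230) (nat_lit 228)) (XT.lf (nat_lit 0) (nat_lit 1615011433) (nat_lit 152) (nat_lit 148538321) (nat_lit 228) (nat_lit 10899667720) (nat_lit 31) (nat_lit 5) (nat_lit 33) (nat_lit 5) (nat_lit 34) (nat_lit 4) (nat_lit 323) (nat_lit 230) (nat_lit 227)))) (XT.nd (nat_lit 78) (nat_lit 228) (nat_lit 0) (XT.lf (nat_lit 0) (nat_lit 4953986251) (nat_lit 228) (nat_lit 5520581884) (nat_lit 0) (nat_lit 2446982938) (nat_lit 31) (nat_lit 5) (nat_lit 34) (nat_lit 4) (nat_lit 31) (nat_lit 4) (nat_lit 324) (nat_lit 230) (nat_lit 226)) (XT.nd (nat_lit 78) (nat_lit 0) (nat_lit 0) (XT.lf (nat_lit 0) (nat_lit 62870627) (nat_lit 228) (nat_lit 8107885839) (nat_lit 228) (nat_lit 5019094570) (nat_lit 28) (nat_lit 4) (nat_lit 31) (nat_lit 5) (nat_lit 31) (nat_lit 4) (nat_lit 325) (nat_lit 230) (nat_lit 225)) (XT.lf (nat_lit 0) (nat_lit 5818312747) (nat_lit 228) (nat_lit 5651046182) (nat_lit 228)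 (nat_lit 1997412238) (nat_lit 28) (nat_lit 4) (nat_lit 31) (nat_lit 5) (nat_lit 31) (nat_lit 4) (nat_lit 326) (nat_lit 230) (nat_lit 224))))))))
noncomputable def xc38 : XT := (XT.nd (nat_lit 1716) (nat_lit 456) (nat_lit 0) (XT.nd (nat_lit 858) (nat_lit 456) (nat_lit 0) (XT.nd (nat_lit 390) (nat_lit 380) (nat_lit 0) (XT.nd (nat_lit 156) (nat_lit 152) (nat_lit 0) (XT.nd (nat_lit 78) (nat_lit 152) (nat_lit 0) (XT.lf (nat_lit 0) (nat_lit 1023995900) (nat_lit 304) (nat_lit 2123313213) (nat_lit 76) (nat_lit 10606566848) (nat_lit 27) (nat_lit 5) (nat_lit 31) (nat_lit 5) (nat_lit 28) (nat_lit 4) (nat_lit 327) (nat_lit 230) (nat_lit 223)) (XT.lf (nat_lit 0) (nat_lit 3512452392) (nat_lit 152) (nat_lit 550057793) (nat_lit 228) (nat_lit 9987612047) (nat_lit 25) (nat_lit 5) (nat_lit 27) (nat_lit 5) (nat_lit 28) (nat_lit 4) (nat_lit 328) (nat_lit 230) (nat_lit 222))) (XT.nd (nat_lit 78) (nat_lit 152) (nat_lit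 0) (XT.lf (nat_lit 0) (nat_lit 7167721715) (nat_lit 228) (nat_lit 5119064920) (nat_lit 0) (nat_lit 2069319434) (nat_lit 25) (nat_lit 5) (nat_lit 28) (nat_lit 4) (nat_lit 25) (nat_lit 4) (nat_lit 329) (nat_lit 230) (nat_lit 221)) (XT.nd (nat_lit 78) (nat_lit 0) (nat_lit 0) (XT.lf (nat_lit 0) (nat_lit 362137162) (nat_lit 152) (nat_lit 9948278032) (nat_lit 152) (nat_lit 4362637498) (nat_lit 23) (nat_lit 4) (nat_lit 25) (nat_lit 5) (nat_lit 25) (nat_lit 4) (nat_lit 330) (nat_lit 230) (nat_lit 220)) (XT.lf (nat_lit 0) (nat_lit 6012125548) (nat_lit 152) (nat_lit 7523269563) (nat_lit 152) (nat_lit 1464582180) (nat_lit 23) (nat_lit 4) (nat_lit 25) (nat_lit 5) (nat_lit 25) (nat_lit 4) (nat_lit 331) (nat_lit 230) (nat_lit 219))))) (XT.nd (nat_lit 234) (nat_lit 152) (nat_lit 0) (XT.nd (nat_lit 78) (nat_lit 152) (nat_lit 0) (XT.lf (nat_lit 0) (nat_lit 1428197430) (nat_lit 228) (nat_lit 3618715383) (nat_lit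 76) (nat_lit 10291338266) (nat_lit 22) (nat_lit 5) (nat_lit 25) (nat_lit 5) (nat_lit 23) (nat_lit 4) (nat_lit 332) (nat_lit 230) (nat_lit 218)) (XT.nd (nat_lit 78) (nat_lit 0) (nat_lit 0) (XT.lf (nat_lit 0) (nat_lit 1836714606) (nat_lit 152) (nat_lit 2498538002) (nat_lit 228) (nat_lit 11352378016) (nat_lit 20) (nat_lit 5) (nat_lit 22) (nat_lit 5) (nat_lit 23) (nat_lit 4) (nat_lit 333) (nat_lit 230) (nat_lit 217)) (XT.lf (nat_lit 0) (nat_lit 7307424794) (nat_lit 228) (nat_lit 8614715973) (nat_lit 0) (nat_lit 126111136) (nat_lit 20) (nat_lit 5) (nat_lit 23) (nat_lit 4) (nat_lit 20) (nat_lit 4) (nat_lit 334) (nat_lit 230) (nat_lit 216)))) (XT.nd (nat_lit 78) (nat_lit 152) (nat_lit 0) (XT.lf (nat_lit 0) (nat_lit 10335041565) (nat_lit 228) (nat_lit 3340083003) (nat_lit 0) (nat_lit 2745673540) (nat_lit 20) (nat_lit 5) (nat_lit 23) (nat_lit 4) (nat_lit 20) (nat_lit 4) (nat_lit 335) (nat_lit 230) (nat_lit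 215)) (XT.nd (nat_lit 78) (nat_lit 0) (nat_lit 0) (XT.lf (nat_lit 0) (nat_lit 2041445218) (nat_lit 152) (nat_lit 11374909337) (nat_lit 152) (nat_lit 3389372024) (nat_lit 18) (nat_lit 4) (nat_lit 20) (nat_lit 5) (nat_lit 20) (nat_lit 4) (nat_lit 336) (nat_lit 230) (nat_lit 214)) (XT.lf (nat_lit 0) (nat_lit 7562601947) (nat_lit 152) (nat_lit 9005262576) (nat_lit 152) (nat_lit 635094887) (nat_lit 18) (nat_lit 4) (nat_lit 20) (nat_lit 5) (nat_lit 20) (nat_lit 4) (nat_lit 337) (nat_lit 230) (nat_lit 213)))))) (XT.nd (nat_lit 390) (nat_lit 304) (nat_lit 0) (XT.nd (nat_lit 156) (nat_lit 0) (nat_lit 0) (XT.nd (nat_lit 78) (nat_lit 76) (nat_lit 0) (XT.lf (nat_lit 0) (nat_lit 2103881853) (nat_lit 228) (nat_lit 4472715076) (nat_lit 76) (nat_lit 11036610358) (nat_lit 17) (nat_lit 5) (nat_lit 20) (nat_lit 5) (nat_lit 18) (nat_lit 4) (nat_lit 338) (nat_lit 230) (nat_lit 212)) (XT.lf (nat_lit 0) (nat_lit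 772496017) (nat_lit 76) (nat_lit 4093830226) (nat_lit 152) (nat_lit 13170707483) (nat_lit 16) (nat_lit 5) (nat_lit 17) (nat_lit 5) (nat_lit 18) (nat_lit 4) (nat_lit 339) (nat_lit 230) (nat_lit 211))) (XT.nd (nat_lit 78) (nat_lit 0) (nat_lit 0) (XT.lf (nat_lit 0) (nat_lit 6181348597) (nat_lit 76) (nat_lit 1522831765) (nat_lit 152) (nat_lit 10769697789) (nat_lit 16) (nat_lit 5) (nat_lit 17) (nat_lit 5) (nat_lit 18) (nat_lit 4) (nat_lit 340) (nat_lit 230) (nat_lit 210)) (XT.nd (nat_lit 78) (nat_lit 0) (nat_lit 0) (XT.lf (nat_lit 0) (nat_lit 10586584931) (nat_lit 152) (nat_lit 7266395922) (nat_lit 0) (nat_lit 1072141584) (nat_lit 16) (nat_lit 5) (nat_lit 18) (nat_lit 4) (nat_lit 16) (nat_lit 4) (nat_lit 341) (nat_lit 230) (nat_lit 209)) (XT.lf (nat_lit 0) (nat_lit 13520634118) (nat_lit 152) (nat_lit 2186320607) (nat_lit 0) (nat_lit 3684068886) (nat_lit 16) (nat_lit 5) (nat_lit 18) (nat_lit 4) (nat_lit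 16) (nat_lit 4) (nat_lit 342) (nat_lit 230) (nat_lit 208))))) (XT.nd (nat_lit 234) (nat_lit 76) (nat_lit 0) (XT.nd (nat_lit 78) (nat_lit 76) (nat_lit 0) (XT.lf (nat_lit 0) (nat_lit 3025818296) (nat_lit 152) (nat_lit 13497520985) (nat_lit 152) (nat_lit 3348216058) (nat_lit 14) (nat_lit 4) (nat_lit 16) (nat_lit 5) (nat_lit 16) (nat_lit 4) (nat_lit 343) (nat_lit 230) (nat_lit 207)) (XT.nd (nat_lit 78) (nat_lit 76) (nat_lit 0) (XT.lf (nat_lit 0) (nat_lit 8360533777) (nat_lit 152) (nat_lit 11229873467) (nat_lit 152) (nat_lit 776937769) (nat_lit 14) (nat_lit 4) (nat_lit 16) (nat_lit 5) (nat_lit 16) (nat_lit 4) (nat_lit 344) (nat_lit 230) (nat_lit 206)) (XT.lf (nat_lit 0) (nat_lit 1788029283) (nat_lit 228) (nat_lit 7118023408) (nat_lit 76) (nat_lit 11972890299) (nat_lit 13) (nat_lit 5) (nat_lit 16) (nat_lit 5) (nat_lit 14) (nat_lit 4) (nat_lit 345) (nat_lit 230) (nat_lit 205)))) (XT.nd (nat_lit 78)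 (nat_lit 76) (nat_lit 0) (XT.lf (nat_lit 0) (nat_lit 4368766277) (nat_lit 228) (nat_lit 2165328432) (nat_lit 76) (nat_lit 14872994790) (nat_lit 13) (nat_lit 5) (nat_lit 16) (nat_lit 5) (nat_lit 14) (nat_lit 4) (nat_lit 346) (nat_lit 230) (nat_lit 204)) (XT.nd (nat_lit 78) (nat_lit 0) (nat_lit 0) (XT.lf (nat_lit 0) (nat_lit 2920050390) (nat_lit 76) (nat_lit 4090708001) (nat_lit 152) (nat_lit 14940869610) (nat_lit 12) (nat_lit 5) (nat_lit 13) (nat_lit 5) (nat_lit 14) (nat_lit 4) (nat_lit 347) (nat_lit 230) (nat_lit 203)) (XT.lf (nat_lit 0) (nat_lit 8130214473) (nat_lit 76) (nat_lit 1580019824) (nat_lit 152) (nat_lit 12802982403) (nat_lit 12) (nat_lit 5) (nat_lit 13) (nat_lit 5) (nat_lit 14) (nat_lit 4) (nat_lit 348) (nat_lit 230) (nat_lit 202))))))) (XT.nd (nat_lit 858) (nat_lit 152) (nat_lit 0) (XT.nd (nat_lit 390) (nat_lit 152) (nat_lit 0) (XT.nd (nat_lit 156) (nat_lit 152) (nat_lit 0) (XT.nd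 (nat_lit 78) (nat_lit 0) (nat_lit 0) (XT.lf (nat_lit 0) (nat_lit 12457728051) (nat_lit 152) (nat_lit 9675765065) (nat_lit 0) (nat_lit 959207933) (nat_lit 12) (nat_lit 5) (nat_lit 14) (nat_lit 4) (nat_lit 12) (nat_lit 4) (nat_lit 349) (nat_lit 230) (nat_lit 201)) (XT.lf (nat_lit 0) (nat_lit 15261895610) (nat_lit 152) (nat_lit 4912008235) (nat_lit 0) (nat_lit 3516495889) (nat_lit 12) (nat_lit 5) (nat_lit 14) (nat_lit 4) (nat_lit 12) (nat_lit 4) (nat_lit 350) (nat_lit 230) (nat_lit 200))) (XT.nd (nat_lit 78) (nat_lit 152) (nat_lit 0) (XT.lf (nat_lit 0) (nat_lit 18109999100) (nat_lit 152) (nat_lit 72381117) (nat_lit 0) (nat_lit 6124910444) (nat_lit 12) (nat_lit 5) (nat_lit 14) (nat_lit 4) (nat_lit 12) (nat_lit 4) (nat_lit 351) (nat_lit 230) (nat_lit 199)) (XT.nd (nat_lit 78) (nat_lit 0) (nat_lit 0) (XT.lf (nat_lit 0) (nat_lit 4943816762) (nat_lit 152) (nat_lit 16108233383) (nat_lit 152) (nat_lit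 3890437023) (nat_lit 10) (nat_lit 4) (nat_lit 12) (nat_lit 5) (nat_lit 12) (nat_lit 4) (nat_lit 352) (nat_lit 230) (nat_lit 198)) (XT.lf (nat_lit 0) (nat_lit 10047532731) (nat_lit 152) (nat_lit 13997059273) (nat_lit 152) (nat_lit 1553333105) (nat_lit 10) (nat_lit 4) (nat_lit 12) (nat_lit 5) (nat_lit 12) (nat_lit 4) (nat_lit 353) (nat_lit 230) (nat_lit 197))))) (XT.nd (nat_lit 234) (nat_lit 76) (nat_lit 0) (XT.nd (nat_lit 78) (nat_lit 0) (nat_lit 0) (XT.lf (nat_lit 0) (nat_lit 799421363) (nat_lit 228) (nat_lit 11040250129) (nat_lit 76) (nat_lit 14434291868) (nat_lit 9) (nat_lit 5) (nat_lit 12) (nat_lit 5) (nat_lit 10) (nat_lit 4) (nat_lit 354) (nat_lit 230) (nat_lit 196)) (XT.nd (nat_lit 78) (nat_lit 0) (nat_lit 0) (XT.lf (nat_lit 0) (nat_lit 3154838770) (nat_lit 228) (nat_lit 6471713307) (nat_lit 76) (nat_lit 17344418240) (nat_lit 9) (nat_lit 5) (nat_lit 12) (nat_lit 5) (nat_lit 10) (nat_lit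 4) (nat_lit 355) (nat_lit 230) (nat_lit 195)) (XT.lf (nat_lit 0) (nat_lit 5545288370) (nat_lit 228) (nat_lit 1825858399) (nat_lit 76) (nat_lit 20318856194) (nat_lit 9) (nat_lit 5) (nat_lit 12) (nat_lit 5) (nat_lit 10) (nat_lit 4) (nat_lit 356) (nat_lit 230) (nat_lit 194)))) (XT.nd (nat_lit 78) (nat_lit 0) (nat_lit 0) (XT.lf (nat_lit 0) (nat_lit 2959117112) (nat_lit 76) (nat_lit 5042186638) (nat_lit 152) (nat_lit 20429532486) (nat_lit 8) (nat_lit 5) (nat_lit 9) (nat_lit 5) (nat_lit 10) (nat_lit 4) (nat_lit 357) (nat_lit 230) (nat_lit 193)) (XT.nd (nat_lit 78) (nat_lit 0) (nat_lit 0) (XT.lf (nat_lit 0) (nat_lit 7867640728) (nat_lit 76) (nat_lit 2647659403) (nat_lit 152) (nat_lit 18679109255) (nat_lit 8) (nat_lit 5) (nat_lit 9) (nat_lit 5) (nat_lit 10) (nat_lit 4) (nat_lit 358) (nat_lit 230) (nat_lit 192)) (XT.lf (nat_lit 0) (nat_lit 12867663288) (nat_lit 76) (nat_lit 203910349) (nat_lit 152)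 (nat_lit 16910352995) (nat_lit 8) (nat_lit 5) (nat_lit 9) (nat_lit 5) (nat_lit 10) (nat_lit 4) (nat_lit 359) (nat_lit 230) (nat_lit 191)))))) (XT.nd (nat_lit 390) (nat_lit 76) (nat_lit 0) (XT.nd (nat_lit 156) (nat_lit 76) (nat_lit 0) (XT.nd (nat_lit 78) (nat_lit 0) (nat_lit 0) (XT.lf (nat_lit 0) (nat_lit 15694382283) (nat_lit 152) (nat_lit 12852546731) (nat_lit 0) (nat_lit 2246486353) (nat_lit 8) (nat_lit 5) (nat_lit 10) (nat_lit 4) (nat_lit 8) (nat_lit 4) (nat_lit 360) (nat_lit 230) (nat_lit 190)) (XT.lf (nat_lit 0) (nat_lit 18366448964) (nat_lit 152) (nat_lit 8518326110) (nat_lit 0) (nat_lit 4745396648) (nat_lit 8) (nat_lit 5) (nat_lit 10) (nat_lit 4) (nat_lit 8) (nat_lit 4) (nat_lit 361) (nat_lit 230) (nat_lit 189))) (XT.nd (nat_lit 78) (nat_lit 76) (nat_lit 0) (XT.lf (nat_lit 0) (nat_lit 21088148386) (nat_lit 152) (nat_lit 4105854187) (nat_lit 0) (nat_lit 7298983074) (nat_lit 8) (nat_lit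 5) (nat_lit 10) (nat_lit 4) (nat_lit 8) (nat_lit 4) (nat_lit 362) (nat_lit 230) (nat_lit 188)) (XT.nd (nat_lit 78) (nat_lit 0) (nat_lit 0) (XT.lf (nat_lit 0) (nat_lit 396460976) (nat_lit 76) (nat_lit 23469208782) (nat_lit 76) (nat_lit 9516826969) (nat_lit 7) (nat_lit 4) (nat_lit 8) (nat_lit 5) (nat_lit 8) (nat_lit 4) (nat_lit 363) (nat_lit 230) (nat_lit 187)) (XT.lf (nat_lit 0) (nat_lit 5068237098) (nat_lit 76) (nat_lit 21670485533) (nat_lit 76) (nat_lit 7559641097) (nat_lit 7) (nat_lit 4) (nat_lit 8) (nat_lit 5) (nat_lit 8) (nat_lit 4) (nat_lit 364) (nat_lit 230) (nat_lit 186))))) (XT.nd (nat_lit 234) (nat_lit 76) (nat_lit 0) (XT.nd (nat_lit 78) (nat_lit 0) (nat_lit 0) (XT.lf (nat_lit 0) (nat_lit 9831841765) (nat_lit 76) (nat_lit 19837722201) (nat_lit 76) (nat_lit 5573030559) (nat_lit 7) (nat_lit 4) (nat_lit 8) (nat_lit 5) (nat_lit 8) (nat_lit 4) (nat_lit 365) (nat_lit 230) (nat_lit 185))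 (XT.nd (nat_lit 78) (nat_lit 0) (nat_lit 0) (XT.lf (nat_lit 0) (nat_lit 14691437349) (nat_lit 76) (nat_lit 17969317343) (nat_lit 76) (nat_lit 3555259482) (nat_lit 7) (nat_lit 4) (nat_lit 8) (nat_lit 5) (nat_lit 8) (nat_lit 4) (nat_lit 366) (nat_lit 230) (nat_lit 184)) (XT.lf (nat_lit 0) (nat_lit 19651270099) (nat_lit 76) (nat_lit 16063638373) (nat_lit 76) (nat_lit 1504564764) (nat_lit 7) (nat_lit 4) (nat_lit 8) (nat_lit 5) (nat_lit 8) (nat_lit 4) (nat_lit 367) (nat_lit 230) (nat_lit 183)))) (XT.nd (nat_lit 78) (nat_lit 0) (nat_lit 0) (XT.lf (nat_lit 0) (nat_lit 569511074) (nat_lit 152) (nat_lit 13543758114) (nat_lit 76) (nat_lit 24140411829) (nat_lit 6) (nat_lit 5) (nat_lit 8) (nat_lit 5) (nat_lit 7) (nat_lit 4) (nat_lit 368) (nat_lit 230) (nat_lit 182)) (XT.nd (nat_lit 78) (nat_lit 0) (nat_lit 0) (XT.lf (nat_lit 0) (nat_lit 2650052166) (nat_lit 152) (nat_lit 9456950948) (nat_lit 76) (nat_lit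 27212261309) (nat_lit 6) (nat_lit 5) (nat_lit 8) (nat_lit 5) (nat_lit 7) (nat_lit 4) (nat_lit 369) (nat_lit 230) (nat_lit 181)) (XT.lf (nat_lit 0) (nat_lit 4768235936) (nat_lit 152) (nat_lit 5289747846) (nat_lit 76) (nat_lit 30359604647) (nat_lit 6) (nat_lit 5) (nat_lit 8) (nat_lit 5) (nat_lit 7) (nat_lit 4) (nat_lit 370) (nat_lit 230) (nat_lit 180))))))))
noncomputable def xc39 : XT := (XT.nd (nat_lit 1716) (nat_lit 76) (nat_lit 0) (XT.nd (nat_lit 858) (nat_lit 76) (nat_lit 0) (XT.nd (nat_lit 390) (nat_lit 0) (nat_lit 0) (XT.nd (nat_lit 156) (nat_lit 0) (nat_lit 0) (XT.nd (nat_lit 78) (nat_lit 76) (nat_lit 0) (XT.lf (nat_lit 0) (nat_lit 6925913225) (nat_lit 152) (nat_lit 1038507562) (nat_lit 76) (nat_lit 33585191949) (nat_lit 6) (nat_lit 5) (nat_lit 8) (nat_lit 5) (nat_lit 7) (nat_lit 4) (nat_lit 371) (nat_lit 230) (nat_lit 179)) (XT.lf (nat_lit 0) (nat_lit 3366170692) (nat_lit 76) (nat_lit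 5791156382) (nat_lit 152) (nat_lit 33558028689) (nat_lit 5) (nat_lit 5) (nat_lit 6) (nat_lit 5) (nat_lit 7) (nat_lit 4) (nat_lit 372) (nat_lit 230) (nat_lit 178))) (XT.nd (nat_lit 78) (nat_lit 0) (nat_lit 0) (XT.lf (nat_lit 0) (nat_lit 7884882383) (nat_lit 76) (nat_lit 3558237841) (nat_lit 152) (nat_lit 32473355103) (nat_lit 5) (nat_lit 5) (nat_lit 6) (nat_lit 5) (nat_lit 7) (nat_lit 4) (nat_lit 373) (nat_lit 230) (nat_lit 177)) (XT.nd (nat_lit 78) (nat_lit 0) (nat_lit 0) (XT.lf (nat_lit 0) (nat_lit 12500907563) (nat_lit 76) (nat_lit 1274200964) (nat_lit 152) (nat_lit 31379217872) (nat_lit 5) (nat_lit 5) (nat_lit 6) (nat_lit 5) (nat_lit 7) (nat_lit 4) (nat_lit 374) (nat_lit 230) (nat_lit 176)) (XT.lf (nat_lit 0) (nat_lit 16165547365) (nat_lit 152) (nat_lit 29221928667) (nat_lit 0) (nat_lit 1042208027) (nat_lit 5) (nat_lit 5) (nat_lit 7) (nat_lit 4) (nat_lit 5) (nat_lit 4) (nat_lit 375) (nat_lit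 230) (nat_lit 175))))) (XT.nd (nat_lit 234) (nat_lit 0) (nat_lit 0) (XT.nd (nat_lit 78) (nat_lit 0) (nat_lit 0) (XT.lf (nat_lit 0) (nat_lit 18619077412) (nat_lit 152) (nat_lit 25736675990) (nat_lit 0) (nat_lit 3387832740) (nat_lit 5) (nat_lit 5) (nat_lit 7) (nat_lit 4) (nat_lit 5) (nat_lit 4) (nat_lit 376) (nat_lit 230) (nat_lit 174)) (XT.nd (nat_lit 78) (nat_lit 0) (nat_lit 0) (XT.lf (nat_lit 0) (nat_lit 21125594132) (nat_lit 152) (nat_lit 22182367038) (nat_lit 0) (nat_lit 5789586999) (nat_lit 5) (nat_lit 5) (nat_lit 7) (nat_lit 4) (nat_lit 5) (nat_lit 4) (nat_lit 377) (nat_lit 230) (nat_lit 173)) (XT.lf (nat_lit 0) (nat_lit 23687287685) (nat_lit 152) (nat_lit 18555896106) (nat_lit 0) (nat_lit 8249569424) (nat_lit 5) (nat_lit 5) (nat_lit 7) (nat_lit 4) (nat_lit 5) (nat_lit 4) (nat_lit 378) (nat_lit 230) (nat_lit 172)))) (XT.nd (nat_lit 78) (nat_lit 0) (nat_lit 0) (XT.lf (nat_lit 0) (nat_lit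 26306396443) (nat_lit 152) (nat_lit 14854094433) (nat_lit 0) (nat_lit 10769929514) (nat_lit 5) (nat_lit 5) (nat_lit 7) (nat_lit 4) (nat_lit 5) (nat_lit 4) (nat_lit 379) (nat_lit 230) (nat_lit 171)) (XT.nd (nat_lit 78) (nat_lit 0) (nat_lit 0) (XT.lf (nat_lit 0) (nat_lit 28985208947) (nat_lit 152) (nat_lit 11073727433) (nat_lit 0) (nat_lit 13352869526) (nat_lit 5) (nat_lit 5) (nat_lit 7) (nat_lit 4) (nat_lit 5) (nat_lit 4) (nat_lit 380) (nat_lit 230) (nat_lit 170)) (XT.lf (nat_lit 0) (nat_lit 31726065909) (nat_lit 152) (nat_lit 7211491875) (nat_lit 0) (nat_lit 16000646398) (nat_lit 5) (nat_lit 5) (nat_lit 7) (nat_lit 4) (nat_lit 5) (nat_lit 4) (nat_lit 381) (nat_lit 230) (nat_lit 169)))))) (XT.nd (nat_lit 390) (nat_lit 0) (nat_lit 0) (XT.nd (nat_lit 156) (nat_lit 0) (nat_lit 0) (XT.nd (nat_lit 78) (nat_lit 76) (nat_lit 0) (XT.lf (nat_lit 0) (nat_lit 34531362252) (nat_lit 152) (nat_lit 3264012988)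 (nat_lit 0) (nat_lit 18715573721) (nat_lit 5) (nat_lit 5) (nat_lit 7) (nat_lit 4) (nat_lit 5) (nat_lit 4) (nat_lit 382) (nat_lit 230) (nat_lit 168)) (XT.lf (nat_lit 0) (nat_lit 787525946) (nat_lit 76) (nat_lit 36623593439) (nat_lit 76) (nat_lit 20720067996) (nat_lit 4) (nat_lit 4) (nat_lit 5) (nat_lit 5) (nat_lit 5) (nat_lit 4) (nat_lit 383) (nat_lit 230) (nat_lit 167))) (XT.nd (nat_lit 78) (nat_lit 0) (nat_lit 0) (XT.lf (nat_lit 0) (nat_lit 4998079819) (nat_lit 76) (nat_lit 35395101227) (nat_lit 76) (nat_lit 19406394316) (nat_lit 4) (nat_lit 4) (nat_lit 5) (nat_lit 5) (nat_lit 5) (nat_lit 4) (nat_lit 384) (nat_lit 230) (nat_lit 166)) (XT.nd (nat_lit 78) (nat_lit 0) (nat_lit 0) (XT.lf (nat_lit 0) (nat_lit 9306367495) (nat_lit 76) (nat_lit 34141785296) (nat_lit 76) (nat_lit 18070377931) (nat_lit 4) (nat_lit 4) (nat_lit 5) (nat_lit 5) (nat_lit 5) (nat_lit 4) (nat_lit 385) (nat_lit 230) (nat_lit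 165)) (XT.lf (nat_lit 0) (nat_lit 13716153498) (nat_lit 76) (nat_lit 32862550515) (nat_lit 76) (nat_lit 16710851447) (nat_lit 4) (nat_lit 4) (nat_lit 5) (nat_lit 5) (nat_lit 5) (nat_lit 4) (nat_lit 386) (nat_lit 230) (nat_lit 164))))) (XT.nd (nat_lit 234) (nat_lit 0) (nat_lit 0) (XT.nd (nat_lit 78) (nat_lit 0) (nat_lit 0) (XT.lf (nat_lit 0) (nat_lit 18231291038) (nat_lit 76) (nat_lit 31556279107) (nat_lit 76) (nat_lit 15326626929) (nat_lit 4) (nat_lit 4) (nat_lit 5) (nat_lit 5) (nat_lit 5) (nat_lit 4) (nat_lit 387) (nat_lit 230) (nat_lit 163)) (XT.nd (nat_lit 78) (nat_lit 0) (nat_lit 0) (XT.lf (nat_lit 0) (nat_lit 22855725382) (nat_lit 76) (nat_lit 30221829669) (nat_lit 76) (nat_lit 13916494860) (nat_lit 4) (nat_lit 4) (nat_lit 5) (nat_lit 5) (nat_lit 5) (nat_lit 4) (nat_lit 388) (nat_lit 230) (nat_lit 162)) (XT.lf (nat_lit 0) (nat_lit 27593497297) (nat_lit 76) (nat_lit 28858036178) (nat_lit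 76) (nat_lit 12479223086) (nat_lit 4) (nat_lit 4) (nat_lit 5) (nat_lit 5) (nat_lit 5) (nat_lit 4) (nat_lit 389) (nat_lit 230) (nat_lit 161)))) (XT.nd (nat_lit 78) (nat_lit 0) (nat_lit 0) (XT.lf (nat_lit 0) (nat_lit 32448746584) (nat_lit 76) (nat_lit 27463706969) (nat_lit 76) (nat_lit 11013555739) (nat_lit 4) (nat_lit 4) (nat_lit 5) (nat_lit 5) (nat_lit 5) (nat_lit 4) (nat_lit 390) (nat_lit 230) (nat_lit 160)) (XT.nd (nat_lit 78) (nat_lit 0) (nat_lit 0) (XT.lf (nat_lit 0) (nat_lit 37425715695) (nat_lit 76) (nat_lit 26037623696) (nat_lit 76) (nat_lit 9518212138) (nat_lit 4) (nat_lit 4) (nat_lit 5) (nat_lit 5) (nat_lit 5) (nat_lit 4) (nat_lit 391) (nat_lit 230) (nat_lit 159)) (XT.lf (nat_lit 0) (nat_lit 42528753436) (nat_lit 76) (nat_lit 24578540268) (nat_lit 76) (nat_lit 7991885672) (nat_lit 4) (nat_lit 4) (nat_lit 5) (nat_lit 5) (nat_lit 5) (nat_lit 4) (nat_lit 392) (nat_lit 230) (nat_lit 158)))))))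 (XT.nd (nat_lit 34944) (nat_lit 0) (nat_lit 1520) (XT.nd (nat_lit 390) (nat_lit 0) (nat_lit 0) (XT.nd (nat_lit 156) (nat_lit 76) (nat_lit 0) (XT.nd (nat_lit 78) (nat_lit 0) (nat_lit 0) (XT.lf (nat_lit 0) (nat_lit 47762318773) (nat_lit 76) (nat_lit 23085181757) (nat_lit 76) (nat_lit 6433242659) (nat_lit 4) (nat_lit 4) (nat_lit 5) (nat_lit 5) (nat_lit 5) (nat_lit 4) (nat_lit 393) (nat_lit 230) (nat_lit 157)) (XT.lf (nat_lit 0) (nat_lit 53130984724) (nat_lit 76) (nat_lit 21556243286) (nat_lit 76) (nat_lit 4840921176) (nat_lit 4) (nat_lit 4) (nat_lit 5) (nat_lit 5) (nat_lit 5) (nat_lit 4) (nat_lit 394) (nat_lit 230) (nat_lit 156))) (XT.nd (nat_lit 78) (nat_lit 76) (nat_lit 0) (XT.lf (nat_lit 0) (nat_lit 58639442357) (nat_lit 76) (nat_lit 19990388891) (nat_lit 76) (nat_lit 3213529876) (nat_lit 4) (nat_lit 4) (nat_lit 5) (nat_lit 5) (nat_lit 5) (nat_lit 4) (nat_lit 395) (nat_lit 230) (nat_lit 155))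 (XT.nd (nat_lit 78) (nat_lit 76) (nat_lit 0) (XT.lf (nat_lit 0) (nat_lit 64292504886) (nat_lit 76) (nat_lit 18386250348) (nat_lit 76) (nat_lit 1549646765) (nat_lit 4) (nat_lit 4) (nat_lit 5) (nat_lit 5) (nat_lit 5) (nat_lit 4) (nat_lit 396) (nat_lit 230) (nat_lit 154)) (XT.lf (nat_lit 0) (nat_lit 149212414) (nat_lit 152) (nat_lit 16591706815) (nat_lit 76) (nat_lit 69944392715) (nat_lit 3) (nat_lit 5) (nat_lit 5) (nat_lit 5) (nat_lit 4) (nat_lit 4) (nat_lit 397) (nat_lit 230) (nat_lit 153))))) (XT.nd (nat_lit 234) (nat_lit 0) (nat_lit 0) (XT.nd (nat_lit 78) (nat_lit 0) (nat_lit 0) (XT.lf (nat_lit 0) (nat_lit 1856495653) (nat_lit 152) (nat_lit 13182236825) (nat_lit 76) (nat_lit 74177090963) (nat_lit 3) (nat_lit 5) (nat_lit 5) (nat_lit 5) (nat_lit 4) (nat_lit 4) (nat_lit 398) (nat_lit 230) (nat_lit 152)) (XT.nd (nat_lit 78) (nat_lit 0) (nat_lit 0) (XT.lf (nat_lit 0) (nat_lit 3603933942) (nat_lit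 152) (nat_lit 9689611841) (nat_lit 76) (nat_lit 78529048719) (nat_lit 3) (nat_lit 5) (nat_lit 5) (nat_lit 5) (nat_lit 4) (nat_lit 4) (nat_lit 399) (nat_lit 230) (nat_lit 151)) (XT.lf (nat_lit 0) (nat_lit 5393054169) (nat_lit 152) (nat_lit 6110780055) (nat_lit 76) (nat_lit 83004068664) (nat_lit 3) (nat_lit 5) (nat_lit 5) (nat_lit 5) (nat_lit 4) (nat_lit 4) (nat_lit 400) (nat_lit 230) (nat_lit 150)))) (XT.nd (nat_lit 34164) (nat_lit 0) (nat_lit 2584) (XT.lf (nat_lit 0) (nat_lit 7225419643) (nat_lit 152) (nat_lit 2442614332) (nat_lit 76) (nat_lit 87606061009) (nat_lit 3) (nat_lit 5) (nat_lit 5) (nat_lit 5) (nat_lit 4) (nat_lit 4) (nat_lit 401) (nat_lit 230) (nat_lit 149)) (XT.nd (nat_lit 78) (nat_lit 304) (nat_lit 0) (XT.lf (nat_lit 0) (nat_lit 4314368531) (nat_lit 228) (nat_lit 715836887) (nat_lit 228) (nat_lit 715836887) (nat_lit 41) (nat_lit 4) (nat_lit 44) (nat_lit 5) (nat_lit 44) (nat_lit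 4) (nat_lit 318) (nat_lit 231) (nat_lit 231)) (XT.lf (nat_lit 0) (nat_lit 1770236228) (nat_lit 304) (nat_lit 8865438818) (nat_lit 0) (nat_lit 1075550984) (nat_lit 37) (nat_lit 5) (nat_lit 41) (nat_lit 4) (nat_lit 37) (nat_lit 4) (nat_lit 319) (nat_lit 231) (nat_lit 230)))))) (XT.nd (nat_lit 468) (nat_lit 608) (nat_lit 0) (XT.nd (nat_lit 234) (nat_lit 228) (nat_lit 0) (XT.nd (nat_lit 78) (nat_lit 228) (nat_lit 0) (XT.lf (nat_lit 0) (nat_lit 5005997924) (nat_lit 304) (nat_lit 3294816917) (nat_lit 0) (nat_lit 3636860986) (nat_lit 37) (nat_lit 5) (nat_lit 41) (nat_lit 4) (nat_lit 37) (nat_lit 4) (nat_lit 320) (nat_lit 231) (nat_lit 229)) (XT.nd (nat_lit 78) (nat_lit 0) (nat_lit 0) (XT.lf (nat_lit 0) (nat_lit 2377671815) (nat_lit 228) (nat_lit 5909447509) (nat_lit 228) (nat_lit 3885503102) (nat_lit 34) (nat_lit 4) (nat_lit 37) (nat_lit 5) (nat_lit 37) (nat_lit 4) (nat_lit 321) (nat_lit 231) (nat_lit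 228)) (XT.lf (nat_lit 0) (nat_lit 8177321554) (nat_lit 228) (nat_lit 3449164414) (nat_lit 228) (nat_lit 789484599) (nat_lit 34) (nat_lit 4) (nat_lit 37) (nat_lit 5) (nat_lit 37) (nat_lit 4) (nat_lit 322) (nat_lit 231) (nat_lit 227)))) (XT.nd (nat_lit 78) (nat_lit 0) (nat_lit 0) (XT.lf (nat_lit 0) (nat_lit 1379282332) (nat_lit 152) (nat_lit 914402883) (nat_lit 228) (nat_lit 10374148261) (nat_lit 31) (nat_lit 5) (nat_lit 33) (nat_lit 5) (nat_lit 34) (nat_lit 4) (nat_lit 323) (nat_lit 231) (nat_lit 226)) (XT.nd (nat_lit 78) (nat_lit 0) (nat_lit 0) (XT.lf (nat_lit 0) (nat_lit 5441560540) (nat_lit 228) (nat_lit 5807632283) (nat_lit 0) (nat_lit 1678317578) (nat_lit 31) (nat_lit 5) (nat_lit 34) (nat_lit 4) (nat_lit 31) (nat_lit 4) (nat_lit 324) (nat_lit 231) (nat_lit 225)) (XT.lf (nat_lit 0) (nat_lit 8623552410) (nat_lit 228) (nat_lit 277899084) (nat_lit 0) (nat_lit 4295466773) (nat_lit 31) (nat_lit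 5) (nat_lit 34) (nat_lit 4) (nat_lit 31) (nat_lit 4) (nat_lit 325) (nat_lit 231) (nat_lit 224))))) (XT.nd (nat_lit 234) (nat_lit 152) (nat_lit 0) (XT.nd (nat_lit 78) (nat_lit 228) (nat_lit 0) (XT.lf (nat_lit 0) (nat_lit 5420034450) (nat_lit 228) (nat_lit 6465717644) (nat_lit 228) (nat_lit 1589241060) (nat_lit 28) (nat_lit 4) (nat_lit 31) (nat_lit 5) (nat_lit 31) (nat_lit 4) (nat_lit 326) (nat_lit 231) (nat_lit 223)) (XT.nd (nat_lit 78) (nat_lit 152) (nat_lit 0) (XT.lf (nat_lit 0) (nat_lit 1391121435) (nat_lit 304) (nat_lit 2584918465) (nat_lit 76) (nat_lit 9786991838) (nat_lit 27) (nat_lit 5) (nat_lit 31) (nat_lit 5) (nat_lit 28) (nat_lit 4) (nat_lit 327) (nat_lit 231) (nat_lit 222)) (XT.lf (nat_lit 0) (nat_lit 2990980691) (nat_lit 152) (nat_lit 1401525089) (nat_lit 228) (nat_lit 9667943484) (nat_lit 25) (nat_lit 5) (nat_lit 27) (nat_lit 5) (nat_lit 28) (nat_lit 4) (nat_lit 328) (nat_lit 231)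 (nat_lit 221)))) (XT.nd (nat_lit 78) (nat_lit 152) (nat_lit 0) (XT.lf (nat_lit 0) (nat_lit 7457709038) (nat_lit 228) (nat_lit 5692718960) (nat_lit 0) (nat_lit 1217261034) (nat_lit 25) (nat_lit 5) (nat_lit 28) (nat_lit 4) (nat_lit 25) (nat_lit 4) (nat_lit 329) (nat_lit 231) (nat_lit 220)) (XT.nd (nat_lit 78) (nat_lit 152) (nat_lit 0) (XT.lf (nat_lit 0) (nat_lit 10566024884) (nat_lit 228) (nat_lit 267166131) (nat_lit 0) (nat_lit 3852530032) (nat_lit 25) (nat_lit 5) (nat_lit 28) (nat_lit 4) (nat_lit 25) (nat_lit 4) (nat_lit 330) (nat_lit 231) (nat_lit 219)) (XT.lf (nat_lit 0) (nat_lit 5329398772) (nat_lit 152) (nat_lit 8428527674) (nat_lit 152) (nat_lit 1255764038) (nat_lit 23) (nat_lit 4) (nat_lit 25) (nat_lit 5) (nat_lit 25) (nat_lit 4) (nat_lit 331) (nat_lit 231) (nat_lit 218))))))))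
noncomputable def xc40 : XT := (XT.nd (nat_lit 1716) (nat_lit 380) (nat_lit 0) (XT.nd (nat_lit 858) (nat_lit 456) (nat_lit 0) (XT.nd (nat_lit 390) (nat_lit 152) (nat_lit 0) (XT.nd (nat_lit 156) (nat_lit 152) (nat_lit 0) (XT.nd (nat_lit 78) (nat_lit 152) (nat_lit 0) (XT.lf (nat_lit 0) (nat_lit 1603026101) (nat_lit 228) (nat_lit 4364512672) (nat_lit 76) (nat_lit 9385312194) (nat_lit 22) (nat_lit 5) (nat_lit 25) (nat_lit 5) (nat_lit 23) (nat_lit 4) (nat_lit 332) (nat_lit 231) (nat_lit 217)) (XT.lf (nat_lit 0) (nat_lit 1029188672) (nat_lit 152) (nat_lit 3444086800) (nat_lit 228) (nat_lit 11230107250) (nat_lit 20) (nat_lit 5) (nat_lit 22) (nat_lit 5) (nat_lit 23) (nat_lit 4) (nat_lit 333) (nat_lit 231) (nat_lit 216))) (XT.nd (nat_lit 78) (nat_lit 152) (nat_lit 0) (XT.lf (nat_lit 0) (nat_lit 6581763263) (nat_lit 152) (nat_lit 833812992) (nat_lit 228) (nat_lit 8649370525) (nat_lit 20) (nat_lit 5)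 (nat_lit 22) (nat_lit 5) (nat_lit 23) (nat_lit 4) (nat_lit 334) (nat_lit 231) (nat_lit 215)) (XT.nd (nat_lit 78) (nat_lit 152) (nat_lit 0) (XT.lf (nat_lit 0) (nat_lit 10407219332) (nat_lit 228) (nat_lit 4245451527) (nat_lit 0) (nat_lit 1785946612) (nat_lit 20) (nat_lit 5) (nat_lit 23) (nat_lit 4) (nat_lit 20) (nat_lit 4) (nat_lit 335) (nat_lit 231) (nat_lit 214)) (XT.lf (nat_lit 0) (nat_lit 1073582338) (nat_lit 152) (nat_lit 12378502048) (nat_lit 152) (nat_lit 3372598951) (nat_lit 18) (nat_lit 4) (nat_lit 20) (nat_lit 5) (nat_lit 20) (nat_lit 4) (nat_lit 336) (nat_lit 231) (nat_lit 213))))) (XT.nd (nat_lit 234) (nat_lit 76) (nat_lit 0) (XT.nd (nat_lit 78) (nat_lit 76) (nat_lit 0) (XT.lf (nat_lit 0) (nat_lit 6551558730) (nat_lit 152) (nat_lit 10025266912) (nat_lit 152) (nat_lit 645936265) (nat_lit 18) (nat_lit 4) (nat_lit 20) (nat_lit 5) (nat_lit 20) (nat_lit 4) (nat_lit 337) (nat_lit 231) (nat_lit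 212)) (XT.nd (nat_lit 78) (nat_lit 0) (nat_lit 0) (XT.lf (nat_lit 0) (nat_lit 2066965045) (nat_lit 228) (nat_lit 5545942624) (nat_lit 76) (nat_lit 10020934079) (nat_lit 17) (nat_lit 5) (nat_lit 20) (nat_lit 5) (nat_lit 18) (nat_lit 4) (nat_lit 338) (nat_lit 231) (nat_lit 211)) (XT.lf (nat_lit 0) (nat_lit 4796462387) (nat_lit 228) (nat_lit 357054300) (nat_lit 76) (nat_lit 12905178967) (nat_lit 17) (nat_lit 5) (nat_lit 20) (nat_lit 5) (nat_lit 18) (nat_lit 4) (nat_lit 339) (nat_lit 231) (nat_lit 210)))) (XT.nd (nat_lit 78) (nat_lit 0) (nat_lit 0) (XT.lf (nat_lit 0) (nat_lit 5003848006) (nat_lit 76) (nat_lit 2601797344) (nat_lit 152) (nat_lit 10890792782) (nat_lit 16) (nat_lit 5) (nat_lit 17) (nat_lit 5) (nat_lit 18) (nat_lit 4) (nat_lit 340) (nat_lit 231) (nat_lit 209)) (XT.nd (nat_lit 78) (nat_lit 0) (nat_lit 0) (XT.lf (nat_lit 0) (nat_lit 10452397898) (nat_lit 76) (nat_lit 703330) (nat_lit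 152) (nat_lit 8495666465) (nat_lit 16) (nat_lit 5) (nat_lit 17) (nat_lit 5) (nat_lit 18) (nat_lit 4) (nat_lit 341) (nat_lit 231) (nat_lit 208)) (XT.lf (nat_lit 0) (nat_lit 13363275913) (nat_lit 152) (nat_lit 3455392786) (nat_lit 0) (nat_lit 2596752144) (nat_lit 16) (nat_lit 5) (nat_lit 18) (nat_lit 4) (nat_lit 16) (nat_lit 4) (nat_lit 342) (nat_lit 231) (nat_lit 207)))))) (XT.nd (nat_lit 390) (nat_lit 152) (nat_lit 0) (XT.nd (nat_lit 156) (nat_lit 152) (nat_lit 0) (XT.nd (nat_lit 78) (nat_lit 0) (nat_lit 0) (XT.lf (nat_lit 0) (nat_lit 1692767408) (nat_lit 152) (nat_lit 14637227002) (nat_lit 152) (nat_lit 3567072462) (nat_lit 14) (nat_lit 4) (nat_lit 16) (nat_lit 5) (nat_lit 16) (nat_lit 4) (nat_lit 343) (nat_lit 231) (nat_lit 206)) (XT.lf (nat_lit 0) (nat_lit 6989889022) (nat_lit 152) (nat_lit 12384314340) (nat_lit 152) (nat_lit 1019372644) (nat_lit 14) (nat_lit 4) (nat_lit 16) (nat_lit 5)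 (nat_lit 16) (nat_lit 4) (nat_lit 344) (nat_lit 231) (nat_lit 205))) (XT.nd (nat_lit 78) (nat_lit 76) (nat_lit 0) (XT.lf (nat_lit 0) (nat_lit 1527880166) (nat_lit 228) (nat_lit 8549546080) (nat_lit 76) (nat_lit 10828522756) (nat_lit 13) (nat_lit 5) (nat_lit 16) (nat_lit 5) (nat_lit 14) (nat_lit 4) (nat_lit 345) (nat_lit 231) (nat_lit 204)) (XT.nd (nat_lit 78) (nat_lit 76) (nat_lit 0) (XT.lf (nat_lit 0) (nat_lit 4086825879) (nat_lit 228) (nat_lit 3632751451) (nat_lit 76) (nat_lit 13715202752) (nat_lit 13) (nat_lit 5) (nat_lit 16) (nat_lit 5) (nat_lit 14) (nat_lit 4) (nat_lit 346) (nat_lit 231) (nat_lit 203)) (XT.lf (nat_lit 0) (nat_lit 1387874394) (nat_lit 76) (nat_lit 5305058801) (nat_lit 152) (nat_lit 15287491864) (nat_lit 12) (nat_lit 5) (nat_lit 13) (nat_lit 5) (nat_lit 14) (nat_lit 4) (nat_lit 347) (nat_lit 231) (nat_lit 202))))) (XT.nd (nat_lit 234) (nat_lit 152) (nat_lit 0) (XT.nd (nat_lit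 78) (nat_lit 0) (nat_lit 0) (XT.lf (nat_lit 0) (nat_lit 6563525485) (nat_lit 76) (nat_lit 2808011484) (nat_lit 152) (nat_lit 13171132016) (nat_lit 12) (nat_lit 5) (nat_lit 13) (nat_lit 5) (nat_lit 14) (nat_lit 4) (nat_lit 348) (nat_lit 231) (nat_lit 201)) (XT.nd (nat_lit 78) (nat_lit 0) (nat_lit 0) (XT.lf (nat_lit 0) (nat_lit 11826425357) (nat_lit 76) (nat_lit 262937161) (nat_lit 152) (nat_lit 11033709077) (nat_lit 12) (nat_lit 5) (nat_lit 13) (nat_lit 5) (nat_lit 14) (nat_lit 4) (nat_lit 349) (nat_lit 231) (nat_lit 200)) (XT.lf (nat_lit 0) (nat_lit 14871204979) (nat_lit 152) (nat_lit 6563387716) (nat_lit 0) (nat_lit 2286874729) (nat_lit 12) (nat_lit 5) (nat_lit 14) (nat_lit 4) (nat_lit 12) (nat_lit 4) (nat_lit 350) (nat_lit 231) (nat_lit 199)))) (XT.nd (nat_lit 78) (nat_lit 152) (nat_lit 0) (XT.lf (nat_lit 0) (nat_lit 17700087514) (nat_lit 152) (nat_lit 1755824501) (nat_lit 0) (nat_lit 4883049560)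 (nat_lit 12) (nat_lit 5) (nat_lit 14) (nat_lit 4) (nat_lit 12) (nat_lit 4) (nat_lit 351) (nat_lit 231) (nat_lit 198)) (XT.nd (nat_lit 78) (nat_lit 0) (nat_lit 0) (XT.lf (nat_lit 0) (nat_lit 3195120002) (nat_lit 152) (nat_lit 17411547892) (nat_lit 152) (nat_lit 4368580129) (nat_lit 10) (nat_lit 4) (nat_lit 12) (nat_lit 5) (nat_lit 12) (nat_lit 4) (nat_lit 352) (nat_lit 231) (nat_lit 197)) (XT.lf (nat_lit 0) (nat_lit 8268011163) (nat_lit 152) (nat_lit 15312784689) (nat_lit 152) (nat_lit 2050467597) (nat_lit 10) (nat_lit 4) (nat_lit 12) (nat_lit 5) (nat_lit 12) (nat_lit 4) (nat_lit 353) (nat_lit 231) (nat_lit 196))))))) (XT.nd (nat_lit 858) (nat_lit 152) (nat_lit 0) (XT.nd (nat_lit 390) (nat_lit 76) (nat_lit 0) (XT.nd (nat_lit 156) (nat_lit 76) (nat_lit 0) (XT.nd (nat_lit 78) (nat_lit 0) (nat_lit 0) (XT.lf (nat_lit 0) (nat_lit 293909312) (nat_lit 228) (nat_lit 12878641700) (nat_lit 76) (nat_lit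 13135460034) (nat_lit 9) (nat_lit 5) (nat_lit 12) (nat_lit 5) (nat_lit 10) (nat_lit 4) (nat_lit 354) (nat_lit 231) (nat_lit 195)) (XT.lf (nat_lit 0) (nat_lit 2631774833) (nat_lit 228) (nat_lit 8339532474) (nat_lit 76) (nat_lit 16034260195) (nat_lit 9) (nat_lit 5) (nat_lit 12) (nat_lit 5) (nat_lit 10) (nat_lit 4) (nat_lit 355) (nat_lit 231) (nat_lit 194))) (XT.nd (nat_lit 78) (nat_lit 76) (nat_lit 0) (XT.lf (nat_lit 0) (nat_lit 5005183767) (nat_lit 228) (nat_lit 3722248047) (nat_lit 76) (nat_lit 18997701827) (nat_lit 9) (nat_lit 5) (nat_lit 12) (nat_lit 5) (nat_lit 10) (nat_lit 4) (nat_lit 356) (nat_lit 231) (nat_lit 193)) (XT.nd (nat_lit 78) (nat_lit 0) (nat_lit 0) (XT.lf (nat_lit 0) (nat_lit 996695214) (nat_lit 76) (nat_lit 6429095597) (nat_lit 152) (nat_lit 21041259976) (nat_lit 8) (nat_lit 5) (nat_lit 9) (nat_lit 5) (nat_lit 10) (nat_lit 4) (nat_lit 357) (nat_lit 231) (nat_lit 192)) (XT.lf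 (nat_lit 0) (nat_lit 5877752443) (nat_lit 76) (nat_lit 4045708263) (nat_lit 152) (nat_lit 19307674021) (nat_lit 8) (nat_lit 5) (nat_lit 9) (nat_lit 5) (nat_lit 10) (nat_lit 4) (nat_lit 358) (nat_lit 231) (nat_lit 191))))) (XT.nd (nat_lit 234) (nat_lit 76) (nat_lit 0) (XT.nd (nat_lit 78) (nat_lit 0) (nat_lit 0) (XT.lf (nat_lit 0) (nat_lit 10851108609) (nat_lit 76) (nat_lit 1612774647) (nat_lit 152) (nat_lit 17555264630) (nat_lit 8) (nat_lit 5) (nat_lit 9) (nat_lit 5) (nat_lit 10) (nat_lit 4) (nat_lit 359) (nat_lit 231) (nat_lit 190)) (XT.nd (nat_lit 78) (nat_lit 0) (nat_lit 0) (XT.lf (nat_lit 0) (nat_lit 15057658820) (nat_lit 152) (nat_lit 14919050033) (nat_lit 0) (nat_lit 854818549) (nat_lit 8) (nat_lit 5) (nat_lit 10) (nat_lit 4) (nat_lit 8) (nat_lit 4) (nat_lit 360) (nat_lit 231) (nat_lit 189)) (XT.lf (nat_lit 0) (nat_lit 17714686457) (nat_lit 152) (nat_lit 10610334494) (nat_lit 0) (nat_lit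 3343733190) (nat_lit 8) (nat_lit 5) (nat_lit 10) (nat_lit 4) (nat_lit 8) (nat_lit 4) (nat_lit 361) (nat_lit 231) (nat_lit 188)))) (XT.nd (nat_lit 78) (nat_lit 76) (nat_lit 0) (XT.lf (nat_lit 0) (nat_lit 20421784866) (nat_lit 152) (nat_lit 6222624787) (nat_lit 0) (nat_lit 5887615097) (nat_lit 8) (nat_lit 5) (nat_lit 10) (nat_lit 4) (nat_lit 8) (nat_lit 4) (nat_lit 362) (nat_lit 231) (nat_lit 187)) (XT.nd (nat_lit 78) (nat_lit 76) (nat_lit 0) (XT.lf (nat_lit 0) (nat_lit 23181319472) (nat_lit 152) (nat_lit 1752086991) (nat_lit 0) (nat_lit 8488687080) (nat_lit 8) (nat_lit 5) (nat_lit 10) (nat_lit 4) (nat_lit 8) (nat_lit 4) (nat_lit 363) (nat_lit 231) (nat_lit 186)) (XT.lf (nat_lit 0) (nat_lit 2861013874) (nat_lit 76) (nat_lit 23162189460) (nat_lit 76) (nat_lit 8315709863) (nat_lit 7) (nat_lit 4) (nat_lit 8) (nat_lit 5) (nat_lit 8) (nat_lit 4) (nat_lit 364) (nat_lit 231) (nat_lit 185)))))) (XT.nd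 (nat_lit 390) (nat_lit 76) (nat_lit 0) (XT.nd (nat_lit 156) (nat_lit 76) (nat_lit 0) (XT.nd (nat_lit 78) (nat_lit 0) (nat_lit 0) (XT.lf (nat_lit 0) (nat_lit 7601506608) (nat_lit 76) (nat_lit 21338953899) (nat_lit 76) (nat_lit 6343108082) (nat_lit 7) (nat_lit 4) (nat_lit 8) (nat_lit 5) (nat_lit 8) (nat_lit 4) (nat_lit 365) (nat_lit 231) (nat_lit 184)) (XT.lf (nat_lit 0) (nat_lit 12438663423) (nat_lit 76) (nat_lit 19479799304) (nat_lit 76) (nat_lit 4338937739) (nat_lit 7) (nat_lit 4) (nat_lit 8) (nat_lit 5) (nat_lit 8) (nat_lit 4) (nat_lit 366) (nat_lit 231) (nat_lit 183))) (XT.nd (nat_lit 78) (nat_lit 76) (nat_lit 0) (XT.lf (nat_lit 0) (nat_lit 17376710959) (nat_lit 76) (nat_lit 17583101171) (nat_lit 76) (nat_lit 2301447619) (nat_lit 7) (nat_lit 4) (nat_lit 8) (nat_lit 5) (nat_lit 8) (nat_lit 4) (nat_lit 367) (nat_lit 231) (nat_lit 182)) (XT.nd (nat_lit 78) (nat_lit 76) (nat_lit 0) (XT.lf (nat_lit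 0) (nat_lit 22419964017) (nat_lit 76) (nat_lit 15647202192) (nat_lit 76) (nat_lit 228857390) (nat_lit 7) (nat_lit 4) (nat_lit 8) (nat_lit 5) (nat_lit 8) (nat_lit 4) (nat_lit 368) (nat_lit 231) (nat_lit 181)) (XT.lf (nat_lit 0) (nat_lit 1843945812) (nat_lit 152) (nat_lit 11807844755) (nat_lit 76) (nat_lit 25710263273) (nat_lit 6) (nat_lit 5) (nat_lit 8) (nat_lit 5) (nat_lit 7) (nat_lit 4) (nat_lit 369) (nat_lit 231) (nat_lit 180))))) (XT.nd (nat_lit 234) (nat_lit 0) (nat_lit 0) (XT.nd (nat_lit 78) (nat_lit 76) (nat_lit 0) (XT.lf (nat_lit 0) (nat_lit 3950281309) (nat_lit 152) (nat_lit 7660828309) (nat_lit 76) (nat_lit 28849637972) (nat_lit 6) (nat_lit 5) (nat_lit 8) (nat_lit 5) (nat_lit 7) (nat_lit 4) (nat_lit 370) (nat_lit 231) (nat_lit 179)) (XT.nd (nat_lit 78) (nat_lit 76) (nat_lit 0) (XT.lf (nat_lit 0) (nat_lit 6096455420) (nat_lit 152) (nat_lit 3429186720) (nat_lit 76) (nat_lit 32067488732)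 (nat_lit 6) (nat_lit 5) (nat_lit 8) (nat_lit 5) (nat_lit 7) (nat_lit 4) (nat_lit 371) (nat_lit 231) (nat_lit 178)) (XT.lf (nat_lit 0) (nat_lit 908505780) (nat_lit 76) (nat_lit 7384570776) (nat_lit 152) (nat_lit 34466854599) (nat_lit 5) (nat_lit 5) (nat_lit 6) (nat_lit 5) (nat_lit 7) (nat_lit 4) (nat_lit 372) (nat_lit 231) (nat_lit 177)))) (XT.nd (nat_lit 78) (nat_lit 0) (nat_lit 0) (XT.lf (nat_lit 0) (nat_lit 5408376160) (nat_lit 76) (nat_lit 5159469584) (nat_lit 152) (nat_lit 33393548778) (nat_lit 5) (nat_lit 5) (nat_lit 6) (nat_lit 5) (nat_lit 7) (nat_lit 4) (nat_lit 373) (nat_lit 231) (nat_lit 176)) (XT.nd (nat_lit 78) (nat_lit 0) (nat_lit 0) (XT.lf (nat_lit 0) (nat_lit 10006108804) (nat_lit 76) (nat_lit 2883022366) (nat_lit 152) (nat_lit 32310448211) (nat_lit 5) (nat_lit 5) (nat_lit 6) (nat_lit 5) (nat_lit 7) (nat_lit 4) (nat_lit 374) (nat_lit 231) (nat_lit 175)) (XT.lf (nat_lit 0) (nat_lit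 14705721148) (nat_lit 76) (nat_lit 553239992) (nat_lit 152) (nat_lit 31216606500) (nat_lit 5) (nat_lit 5) (nat_lit 6) (nat_lit 5) (nat_lit 7) (nat_lit 4) (nat_lit 375) (nat_lit 231) (nat_lit 174))))))))
noncomputable def xc41 : XT := (XT.nd (nat_lit 1716) (nat_lit 76) (nat_lit 0) (XT.nd (nat_lit 858) (nat_lit 0) (nat_lit 0) (XT.nd (nat_lit 390) (nat_lit 76) (nat_lit 0) (XT.nd (nat_lit 156) (nat_lit 0) (nat_lit 0) (XT.nd (nat_lit 78) (nat_lit 0) (nat_lit 0) (XT.lf (nat_lit 0) (nat_lit 17697015851) (nat_lit 152) (nat_lit 28296764062) (nat_lit 0) (nat_lit 1796166042) (nat_lit 5) (nat_lit 5) (nat_lit 7) (nat_lit 4) (nat_lit 5) (nat_lit 4) (nat_lit 376) (nat_lit 231) (nat_lit 173)) (XT.lf (nat_lit 0) (nat_lit 20193671158) (nat_lit 152) (nat_lit 24759434070) (nat_lit 0) (nat_lit 4191110221) (nat_lit 5) (nat_lit 5) (nat_lit 7) (nat_lit 4) (nat_lit 5) (nat_lit 4) (nat_lit 377) (nat_lit 231) (nat_lit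 172))) (XT.nd (nat_lit 78) (nat_lit 0) (nat_lit 0) (XT.lf (nat_lit 0) (nat_lit 22745790522) (nat_lit 152) (nat_lit 21149447565) (nat_lit 0) (nat_lit 6644480919) (nat_lit 5) (nat_lit 5) (nat_lit 7) (nat_lit 4) (nat_lit 5) (nat_lit 4) (nat_lit 378) (nat_lit 231) (nat_lit 171)) (XT.nd (nat_lit 78) (nat_lit 0) (nat_lit 0) (XT.lf (nat_lit 0) (nat_lit 25355603952) (nat_lit 152) (nat_lit 17463650189) (nat_lit 0) (nat_lit 9158421856) (nat_lit 5) (nat_lit 5) (nat_lit 7) (nat_lit 4) (nat_lit 5) (nat_lit 4) (nat_lit 379) (nat_lit 231) (nat_lit 170)) (XT.lf (nat_lit 0) (nat_lit 28025391867) (nat_lit 152) (nat_lit 13698821343) (nat_lit 0) (nat_lit 11735129680) (nat_lit 5) (nat_lit 5) (nat_lit 7) (nat_lit 4) (nat_lit 5) (nat_lit 4) (nat_lit 380) (nat_lit 231) (nat_lit 169))))) (XT.nd (nat_lit 234) (nat_lit 76) (nat_lit 0) (XT.nd (nat_lit 78) (nat_lit 0) (nat_lit 0) (XT.lf (nat_lit 0) (nat_lit 30757487091)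 (nat_lit 152) (nat_lit 9851671370) (nat_lit 0) (nat_lit 14376855885) (nat_lit 5) (nat_lit 5) (nat_lit 7) (nat_lit 4) (nat_lit 5) (nat_lit 4) (nat_lit 381) (nat_lit 231) (nat_lit 168)) (XT.nd (nat_lit 78) (nat_lit 0) (nat_lit 0) (XT.lf (nat_lit 0) (nat_lit 33554276891) (nat_lit 152) (nat_lit 5918838683) (nat_lit 0) (nat_lit 17085908773) (nat_lit 5) (nat_lit 5) (nat_lit 7) (nat_lit 4) (nat_lit 5) (nat_lit 4) (nat_lit 382) (nat_lit 231) (nat_lit 167)) (XT.lf (nat_lit 0) (nat_lit 36418205065) (nat_lit 152) (nat_lit 1896886827) (nat_lit 0) (nat_lit 19864655480) (nat_lit 5) (nat_lit 5) (nat_lit 7) (nat_lit 4) (nat_lit 5) (nat_lit 4) (nat_lit 383) (nat_lit 231) (nat_lit 166)))) (XT.nd (nat_lit 78) (nat_lit 0) (nat_lit 0) (XT.lf (nat_lit 0) (nat_lit 2261835074) (nat_lit 76) (nat_lit 37111681143) (nat_lit 76) (nat_lit 20475431103) (nat_lit 4) (nat_lit 4) (nat_lit 5) (nat_lit 5) (nat_lit 5) (nat_lit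 4) (nat_lit 384) (nat_lit 231) (nat_lit 165)) (XT.nd (nat_lit 78) (nat_lit 0) (nat_lit 0) (XT.lf (nat_lit 0) (nat_lit 6556452650) (nat_lit 76) (nat_lit 35864119216) (nat_lit 76) (nat_lit 19147577472) (nat_lit 4) (nat_lit 4) (nat_lit 5) (nat_lit 5) (nat_lit 5) (nat_lit 4) (nat_lit 385) (nat_lit 231) (nat_lit 164)) (XT.lf (nat_lit 0) (nat_lit 10952966710) (nat_lit 76) (nat_lit 34590470847) (nat_lit 76) (nat_lit 17795975993) (nat_lit 4) (nat_lit 4) (nat_lit 5) (nat_lit 5) (nat_lit 5) (nat_lit 4) (nat_lit 386) (nat_lit 231) (nat_lit 163)))))) (XT.nd (nat_lit 390) (nat_lit 0) (nat_lit 0) (XT.nd (nat_lit 156) (nat_lit 0) (nat_lit 0) (XT.nd (nat_lit 78) (nat_lit 0) (nat_lit 0) (XT.lf (nat_lit 0) (nat_lit 15455218870) (nat_lit 76) (nat_lit 33289623139) (nat_lit 76) (nat_lit 16419445655) (nat_lit 4) (nat_lit 4) (nat_lit 5) (nat_lit 5) (nat_lit 5) (nat_lit 4) (nat_lit 387) (nat_lit 231) (nat_lit 162))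 (XT.lf (nat_lit 0) (nat_lit 20067143136) (nat_lit 76) (nat_lit 31960439431) (nat_lit 76) (nat_lit 15016783664) (nat_lit 4) (nat_lit 4) (nat_lit 5) (nat_lit 5) (nat_lit 5) (nat_lit 4) (nat_lit 388) (nat_lit 231) (nat_lit 161))) (XT.nd (nat_lit 78) (nat_lit 0) (nat_lit 0) (XT.lf (nat_lit 0) (nat_lit 24792769344) (nat_lit 76) (nat_lit 30601758297) (nat_lit 76) (nat_lit 13586764392) (nat_lit 4) (nat_lit 4) (nat_lit 5) (nat_lit 5) (nat_lit 5) (nat_lit 4) (nat_lit 389) (nat_lit 231) (nat_lit 160)) (XT.nd (nat_lit 78) (nat_lit 0) (nat_lit 0) (XT.lf (nat_lit 0) (nat_lit 29636226683) (nat_lit 76) (nat_lit 29212392543) (nat_lit 76) (nat_lit 12128138309) (nat_lit 4) (nat_lit 4) (nat_lit 5) (nat_lit 5) (nat_lit 5) (nat_lit 4) (nat_lit 390) (nat_lit 231) (nat_lit 159)) (XT.lf (nat_lit 0) (nat_lit 34601747299) (nat_lit 76) (nat_lit 27791128158) (nat_lit 76) (nat_lit 10639630887) (nat_lit 4) (nat_lit 4) (nat_lit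 5) (nat_lit 5) (nat_lit 5) (nat_lit 4) (nat_lit 391) (nat_lit 231) (nat_lit 158))))) (XT.nd (nat_lit 234) (nat_lit 0) (nat_lit 0) (XT.nd (nat_lit 78) (nat_lit 0) (nat_lit 0) (XT.lf (nat_lit 0) (nat_lit 39693669998) (nat_lit 76) (nat_lit 26336723262) (nat_lit 76) (nat_lit 9119941489) (nat_lit 4) (nat_lit 4) (nat_lit 5) (nat_lit 5) (nat_lit 5) (nat_lit 4) (nat_lit 392) (nat_lit 231) (nat_lit 157)) (XT.nd (nat_lit 78) (nat_lit 0) (nat_lit 0) (XT.lf (nat_lit 0) (nat_lit 44916444031) (nat_lit 76) (nat_lit 24847907015) (nat_lit 76) (nat_lit 7567742230) (nat_lit 4) (nat_lit 4) (nat_lit 5) (nat_lit 5) (nat_lit 5) (nat_lit 4) (nat_lit 393) (nat_lit 231) (nat_lit 156)) (XT.lf (nat_lit 0) (nat_lit 50274632989) (nat_lit 76) (nat_lit 23323378509) (nat_lit 76) (nat_lit 5981676819) (nat_lit 4) (nat_lit 4) (nat_lit 5) (nat_lit 5) (nat_lit 5) (nat_lit 4) (nat_lit 394) (nat_lit 231) (nat_lit 155)))) (XT.nd (nat_lit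 78) (nat_lit 0) (nat_lit 0) (XT.lf (nat_lit 0) (nat_lit 55772918783) (nat_lit 76) (nat_lit 21761805633) (nat_lit 76) (nat_lit 4360359375) (nat_lit 4) (nat_lit 4) (nat_lit 5) (nat_lit 5) (nat_lit 5) (nat_lit 4) (nat_lit 395) (nat_lit 231) (nat_lit 154)) (XT.nd (nat_lit 78) (nat_lit 0) (nat_lit 0) (XT.lf (nat_lit 0) (nat_lit 61416105741) (nat_lit 76) (nat_lit 20161823905) (nat_lit 76) (nat_lit 2702373212) (nat_lit 4) (nat_lit 4) (nat_lit 5) (nat_lit 5) (nat_lit 5) (nat_lit 4) (nat_lit 396) (nat_lit 231) (nat_lit 153)) (XT.lf (nat_lit 0) (nat_lit 67209124804) (nat_lit 76) (nat_lit 18522035283) (nat_lit 76) (nat_lit 1006269605) (nat_lit 4) (nat_lit 4) (nat_lit 5) (nat_lit 5) (nat_lit 5) (nat_lit 4) (nat_lit 397) (nat_lit 231) (nat_lit 152))))))) (XT.nd (nat_lit 34788) (nat_lit 0) (nat_lit 1292) (XT.nd (nat_lit 34320) (nat_lit 0) (nat_lit 2356) (XT.nd (nat_lit 156) (nat_lit 0) (nat_lit 0) (XT.nd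 (nat_lit 78) (nat_lit 0) (nat_lit 0) (XT.lf (nat_lit 0) (nat_lit 715199603) (nat_lit 152) (nat_lit 16118585224) (nat_lit 76) (nat_lit 72434616114) (nat_lit 3) (nat_lit 5) (nat_lit 5) (nat_lit 5) (nat_lit 4) (nat_lit 4) (nat_lit 398) (nat_lit 231) (nat_lit 151)) (XT.lf (nat_lit 0) (nat_lit 2457346656) (nat_lit 152) (nat_lit 12635108983) (nat_lit 76) (nat_lit 76782880991) (nat_lit 3) (nat_lit 5) (nat_lit 5) (nat_lit 5) (nat_lit 4) (nat_lit 4) (nat_lit 399) (nat_lit 231) (nat_lit 150))) (XT.nd (nat_lit 78) (nat_lit 0) (nat_lit 0) (XT.lf (nat_lit 0) (nat_lit 4241329760) (nat_lit 152) (nat_lit 9065159471) (nat_lit 76) (nat_lit 81254315617) (nat_lit 3) (nat_lit 5) (nat_lit 5) (nat_lit 5) (nat_lit 4) (nat_lit 4) (nat_lit 400) (nat_lit 231) (nat_lit 149)) (XT.nd (nat_lit 34008) (nat_lit 0) (nat_lit 3116) (XT.lf (nat_lit 0) (nat_lit 6068707735) (nat_lit 152) (nat_lit 5405617316) (nat_lit 76) (nat_lit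 85852827069) (nat_lit 3) (nat_lit 5) (nat_lit 5) (nat_lit 5) (nat_lit 4) (nat_lit 4) (nat_lit 401) (nat_lit 231) (nat_lit 148)) (XT.lf (nat_lit 0) (nat_lit 2049282348) (nat_lit 304) (nat_lit 1438784195) (nat_lit 0) (nat_lit 2049282348) (nat_lit 44) (nat_lit 5) (nat_lit 48) (nat_lit 4) (nat_lit 44) (nat_lit 4) (nat_lit 316) (nat_lit 232) (nat_lit 232))))) (XT.nd (nat_lit 234) (nat_lit 228) (nat_lit 0) (XT.nd (nat_lit 78) (nat_lit 304) (nat_lit 0) (XT.lf (nat_lit 0) (nat_lit 2789575950) (nat_lit 228) (nat_lit 4613767712) (nat_lit 228) (nat_lit 3876776136) (nat_lit 41) (nat_lit 4) (nat_lit 44) (nat_lit 5) (nat_lit 44) (nat_lit 4) (nat_lit 317) (nat_lit 232) (nat_lit 231)) (XT.nd (nat_lit 78) (nat_lit 304) (nat_lit 0) (XT.lf (nat_lit 0) (nat_lit 8573411926) (nat_lit 228) (nat_lit 2186202734) (nat_lit 228) (nat_lit 733685357) (nat_lit 41) (nat_lit 4) (nat_lit 44) (nat_lit 5) (nat_lit 44) (nat_lit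 4) (nat_lit 318) (nat_lit 232) (nat_lit 230)) (XT.lf (nat_lit 0) (nat_lit 2408956184) (nat_lit 304) (nat_lit 8980437049) (nat_lit 0) (nat_lit 324293445) (nat_lit 37) (nat_lit 5) (nat_lit 41) (nat_lit 4) (nat_lit 37) (nat_lit 4) (nat_lit 319) (nat_lit 232) (nat_lit 229)))) (XT.nd (nat_lit 78) (nat_lit 228) (nat_lit 0) (XT.lf (nat_lit 0) (nat_lit 5607984490) (nat_lit 304) (nat_lit 3464814540) (nat_lit 0) (nat_lit 2868514281) (nat_lit 37) (nat_lit 5) (nat_lit 41) (nat_lit 4) (nat_lit 37) (nat_lit 4) (nat_lit 320) (nat_lit 232) (nat_lit 228)) (XT.nd (nat_lit 78) (nat_lit 0) (nat_lit 0) (XT.lf (nat_lit 0) (nat_lit 2149830722) (nat_lit 228) (nat_lit 6701421535) (nat_lit 228) (nat_lit 3326215918) (nat_lit 34) (nat_lit 4) (nat_lit 37) (nat_lit 5) (nat_lit 37) (nat_lit 4) (nat_lit 321) (nat_lit 232) (nat_lit 227)) (XT.lf (nat_lit 0) (nat_lit 7896606497) (nat_lit 228) (nat_lit 4258879403) (nat_lit 228)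 (nat_lit 266454945) (nat_lit 34) (nat_lit 4) (nat_lit 37) (nat_lit 5) (nat_lit 37) (nat_lit 4) (nat_lit 322) (nat_lit 232) (nat_lit 226)))))) (XT.nd (nat_lit 390) (nat_lit 532) (nat_lit 0) (XT.nd (nat_lit 156) (nat_lit 304) (nat_lit 0) (XT.nd (nat_lit 78) (nat_lit 0) (nat_lit 0) (XT.lf (nat_lit 0) (nat_lit 1028639671) (nat_lit 152) (nat_lit 1739983837) (nat_lit 228) (nat_lit 9906232461) (nat_lit 31) (nat_lit 5) (nat_lit 33) (nat_lit 5) (nat_lit 34) (nat_lit 4) (nat_lit 323) (nat_lit 232) (nat_lit 225)) (XT.lf (nat_lit 0) (nat_lit 5874388850) (nat_lit 228) (nat_lit 6209853929) (nat_lit 0) (nat_lit 851617968) (nat_lit 31) (nat_lit 5) (nat_lit 34) (nat_lit 4) (nat_lit 31) (nat_lit 4) (nat_lit 324) (nat_lit 232) (nat_lit 224))) (XT.nd (nat_lit 78) (nat_lit 304) (nat_lit 0) (XT.lf (nat_lit 0) (nat_lit 9023202086) (nat_lit 228) (nat_lit 731084303) (nat_lit 0) (nat_lit 3452040257) (nat_lit 31) (nat_lit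 5) (nat_lit 34) (nat_lit 4) (nat_lit 31) (nat_lit 4) (nat_lit 325) (nat_lit 232) (nat_lit 223)) (XT.nd (nat_lit 78) (nat_lit 76) (nat_lit 0) (XT.lf (nat_lit 0) (nat_lit 4907366026) (nat_lit 228) (nat_lit 7340895394) (nat_lit 228) (nat_lit 1237315170) (nat_lit 28) (nat_lit 4) (nat_lit 31) (nat_lit 5) (nat_lit 31) (nat_lit 4) (nat_lit 326) (nat_lit 232) (nat_lit 222)) (XT.lf (nat_lit 0) (nat_lit 1704062746) (nat_lit 304) (nat_lit 3161243911) (nat_lit 76) (nat_lit 8909227902) (nat_lit 27) (nat_lit 5) (nat_lit 31) (nat_lit 5) (nat_lit 28) (nat_lit 4) (nat_lit 327) (nat_lit 232) (nat_lit 221))))) (XT.nd (nat_lit 234) (nat_lit 380) (nat_lit 0) (XT.nd (nat_lit 78) (nat_lit 0) (nat_lit 0) (XT.lf (nat_lit 0) (nat_lit 2353981744) (nat_lit 152) (nat_lit 2314160340) (nat_lit 228) (nat_lit 9404984835) (nat_lit 25) (nat_lit 5) (nat_lit 27) (nat_lit 5) (nat_lit 28) (nat_lit 4) (nat_lit 328) (nat_lit 232)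 (nat_lit 220)) (XT.nd (nat_lit 78) (nat_lit 0) (nat_lit 0) (XT.lf (nat_lit 0) (nat_lit 7693675984) (nat_lit 228) (nat_lit 6382205408) (nat_lit 0) (nat_lit 305729439) (nat_lit 25) (nat_lit 5) (nat_lit 28) (nat_lit 4) (nat_lit 25) (nat_lit 4) (nat_lit 329) (nat_lit 232) (nat_lit 219)) (XT.lf (nat_lit 0) (nat_lit 10771995180) (nat_lit 228) (nat_lit 1003820202) (nat_lit 0) (nat_lit 2924779850) (nat_lit 25) (nat_lit 5) (nat_lit 28) (nat_lit 4) (nat_lit 25) (nat_lit 4) (nat_lit 330) (nat_lit 232) (nat_lit 218)))) (XT.nd (nat_lit 78) (nat_lit 228) (nat_lit 0) (XT.lf (nat_lit 0) (nat_lit 4531378643) (nat_lit 152) (nat_lit 9395724080) (nat_lit 152) (nat_lit 1102616727) (nat_lit 23) (nat_lit 4) (nat_lit 25) (nat_lit 5) (nat_lit 25) (nat_lit 4) (nat_lit 331) (nat_lit 232) (nat_lit 217)) (XT.nd (nat_lit 78) (nat_lit 152) (nat_lit 0) (XT.lf (nat_lit 0) (nat_lit 1724141582) (nat_lit 228) (nat_lit 5226004818)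 (nat_lit 76) (nat_lit 8419608705) (nat_lit 22) (nat_lit 5) (nat_lit 25) (nat_lit 5) (nat_lit 23) (nat_lit 4) (nat_lit 332) (nat_lit 232) (nat_lit 216)) (XT.lf (nat_lit 0) (nat_lit 105030934) (nat_lit 152) (nat_lit 4452278998) (nat_lit 228) (nat_lit 11164135992) (nat_lit 20) (nat_lit 5) (nat_lit 22) (nat_lit 5) (nat_lit 23) (nat_lit 4) (nat_lit 333) (nat_lit 232) (nat_lit 215))))))))
noncomputable def xc42 : XT := (XT.nd (nat_lit 1716) (nat_lit 304) (nat_lit 0) (XT.nd (nat_lit 858) (nat_lit 380) (nat_lit 0) (XT.nd (nat_lit 390) (nat_lit 228) (nat_lit 0) (XT.nd (nat_lit 156) (nat_lit 228) (nat_lit 0) (XT.nd (nat_lit 78) (nat_lit 0) (nat_lit 0) (XT.lf (nat_lit 0) (nat_lit 5613411146) (nat_lit 152) (nat_lit 1858398578) (nat_lit 228) (nat_lit 8612079563) (nat_lit 20) (nat_lit 5) (nat_lit 22) (nat_lit 5) (nat_lit 23) (nat_lit 4) (nat_lit 334) (nat_lit 232) (nat_lit 214)) (XT.lf (nat_lit 0) (nat_lit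 10426459612) (nat_lit 228) (nat_lit 5266505074) (nat_lit 0) (nat_lit 765749046) (nat_lit 20) (nat_lit 5) (nat_lit 23) (nat_lit 4) (nat_lit 20) (nat_lit 4) (nat_lit 335) (nat_lit 232) (nat_lit 213))) (XT.nd (nat_lit 78) (nat_lit 228) (nat_lit 0) (XT.lf (nat_lit 0) (nat_lit 13434651100) (nat_lit 228) (nat_lit 10758399) (nat_lit 0) (nat_lit 3400512984) (nat_lit 20) (nat_lit 5) (nat_lit 23) (nat_lit 4) (nat_lit 20) (nat_lit 4) (nat_lit 336) (nat_lit 232) (nat_lit 212)) (XT.nd (nat_lit 78) (nat_lit 76) (nat_lit 0) (XT.lf (nat_lit 0) (nat_lit 5425081220) (nat_lit 152) (nat_lit 11108216619) (nat_lit 152) (nat_lit 711527483) (nat_lit 18) (nat_lit 4) (nat_lit 20) (nat_lit 5) (nat_lit 20) (nat_lit 4) (nat_lit 337) (nat_lit 232) (nat_lit 211)) (XT.lf (nat_lit 0) (nat_lit 1977132403) (nat_lit 228) (nat_lit 6735101636) (nat_lit 76) (nat_lit 8944494735) (nat_lit 17) (nat_lit 5) (nat_lit 20) (nat_lit 5) (nat_lit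 18) (nat_lit 4) (nat_lit 338) (nat_lit 232) (nat_lit 210))))) (XT.nd (nat_lit 234) (nat_lit 152) (nat_lit 0) (XT.nd (nat_lit 78) (nat_lit 76) (nat_lit 0) (XT.lf (nat_lit 0) (nat_lit 4681851742) (nat_lit 228) (nat_lit 1586260487) (nat_lit 76) (nat_lit 11814251711) (nat_lit 17) (nat_lit 5) (nat_lit 20) (nat_lit 5) (nat_lit 18) (nat_lit 4) (nat_lit 339) (nat_lit 232) (nat_lit 209)) (XT.nd (nat_lit 78) (nat_lit 0) (nat_lit 0) (XT.lf (nat_lit 0) (nat_lit 3710523650) (nat_lit 76) (nat_lit 3744022515) (nat_lit 152) (nat_lit 11066691723) (nat_lit 16) (nat_lit 5) (nat_lit 17) (nat_lit 5) (nat_lit 18) (nat_lit 4) (nat_lit 340) (nat_lit 232) (nat_lit 208)) (XT.lf (nat_lit 0) (nat_lit 9120573973) (nat_lit 76) (nat_lit 1157702343) (nat_lit 152) (nat_lit 8696038645) (nat_lit 16) (nat_lit 5) (nat_lit 17) (nat_lit 5) (nat_lit 18) (nat_lit 4) (nat_lit 341) (nat_lit 232) (nat_lit 207)))) (XT.nd (nat_lit 78)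 (nat_lit 152) (nat_lit 0) (XT.lf (nat_lit 0) (nat_lit 13154156654) (nat_lit 152) (nat_lit 4839608281) (nat_lit 0) (nat_lit 1448266707) (nat_lit 16) (nat_lit 5) (nat_lit 18) (nat_lit 4) (nat_lit 16) (nat_lit 4) (nat_lit 342) (nat_lit 232) (nat_lit 206)) (XT.nd (nat_lit 78) (nat_lit 0) (nat_lit 0) (XT.lf (nat_lit 0) (nat_lit 243409443) (nat_lit 152) (nat_lit 15841035958) (nat_lit 152) (nat_lit 3840358854) (nat_lit 14) (nat_lit 4) (nat_lit 16) (nat_lit 5) (nat_lit 16) (nat_lit 4) (nat_lit 343) (nat_lit 232) (nat_lit 205)) (XT.lf (nat_lit 0) (nat_lit 5504032156) (nat_lit 152) (nat_lit 13602428982) (nat_lit 152) (nat_lit 1315550756) (nat_lit 14) (nat_lit 4) (nat_lit 16) (nat_lit 5) (nat_lit 16) (nat_lit 4) (nat_lit 344) (nat_lit 232) (nat_lit 204)))))) (XT.nd (nat_lit 390) (nat_lit 228) (nat_lit 0) (XT.nd (nat_lit 156) (nat_lit 76) (nat_lit 0) (XT.nd (nat_lit 78) (nat_lit 0) (nat_lit 0) (XT.lf (nat_lit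 0) (nat_lit 1215690274) (nat_lit 228) (nat_lit 10096892135) (nat_lit 76) (nat_lit 9622572462) (nat_lit 13) (nat_lit 5) (nat_lit 16) (nat_lit 5) (nat_lit 14) (nat_lit 4) (nat_lit 345) (nat_lit 232) (nat_lit 203)) (XT.lf (nat_lit 0) (nat_lit 3753479404) (nat_lit 228) (nat_lit 5214952211) (nat_lit 76) (nat_lit 12496218967) (nat_lit 13) (nat_lit 5) (nat_lit 16) (nat_lit 5) (nat_lit 14) (nat_lit 4) (nat_lit 346) (nat_lit 232) (nat_lit 202))) (XT.nd (nat_lit 78) (nat_lit 76) (nat_lit 0) (XT.lf (nat_lit 0) (nat_lit 6325705250) (nat_lit 228) (nat_lit 255248312) (nat_lit 76) (nat_lit 15430387502) (nat_lit 13) (nat_lit 5) (nat_lit 16) (nat_lit 5) (nat_lit 14) (nat_lit 4) (nat_lit 347) (nat_lit 232) (nat_lit 201)) (XT.nd (nat_lit 78) (nat_lit 0) (nat_lit 0) (XT.lf (nat_lit 0) (nat_lit 4881815076) (nat_lit 76) (nat_lit 4099727307) (nat_lit 152) (nat_lit 13592753821) (nat_lit 12) (nat_lit 5) (nat_lit 13)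 (nat_lit 5) (nat_lit 14) (nat_lit 4) (nat_lit 348) (nat_lit 232) (nat_lit 200)) (XT.lf (nat_lit 0) (nat_lit 10112183142) (nat_lit 76) (nat_lit 1567510801) (nat_lit 152) (nat_lit 11475622482) (nat_lit 12) (nat_lit 5) (nat_lit 13) (nat_lit 5) (nat_lit 14) (nat_lit 4) (nat_lit 349) (nat_lit 232) (nat_lit 199))))) (XT.nd (nat_lit 234) (nat_lit 76) (nat_lit 0) (XT.nd (nat_lit 78) (nat_lit 152) (nat_lit 0) (XT.lf (nat_lit 0) (nat_lit 14429775090) (nat_lit 152) (nat_lit 8329398306) (nat_lit 0) (nat_lit 995518295) (nat_lit 12) (nat_lit 5) (nat_lit 14) (nat_lit 4) (nat_lit 12) (nat_lit 4) (nat_lit 350) (nat_lit 232) (nat_lit 198)) (XT.nd (nat_lit 78) (nat_lit 152) (nat_lit 0) (XT.lf (nat_lit 0) (nat_lit 17239996503) (nat_lit 152) (nat_lit 3552965094) (nat_lit 0) (nat_lit 3579809898) (nat_lit 12) (nat_lit 5) (nat_lit 14) (nat_lit 4) (nat_lit 12) (nat_lit 4) (nat_lit 351) (nat_lit 232) (nat_lit 197))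 (XT.lf (nat_lit 0) (nat_lit 1331387980) (nat_lit 152) (nat_lit 18779155977) (nat_lit 152) (nat_lit 4899620043) (nat_lit 10) (nat_lit 4) (nat_lit 12) (nat_lit 5) (nat_lit 12) (nat_lit 4) (nat_lit 352) (nat_lit 232) (nat_lit 196)))) (XT.nd (nat_lit 78) (nat_lit 76) (nat_lit 0) (XT.lf (nat_lit 0) (nat_lit 6374352144) (nat_lit 152) (nat_lit 16692442198) (nat_lit 152) (nat_lit 2599945750) (nat_lit 10) (nat_lit 4) (nat_lit 12) (nat_lit 5) (nat_lit 12) (nat_lit 4) (nat_lit 353) (nat_lit 232) (nat_lit 195)) (XT.nd (nat_lit 78) (nat_lit 76) (nat_lit 0) (XT.lf (nat_lit 0) (nat_lit 11509622898) (nat_lit 152) (nat_lit 14566874899) (nat_lit 152) (nat_lit 267620671) (nat_lit 10) (nat_lit 4) (nat_lit 12) (nat_lit 5) (nat_lit 12) (nat_lit 4) (nat_lit 354) (nat_lit 232) (nat_lit 194)) (XT.lf (nat_lit 0) (nat_lit 2058426426) (nat_lit 228) (nat_lit 10321384292) (nat_lit 76) (nat_lit 14662474875) (nat_lit 9) (nat_lit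 5) (nat_lit 12) (nat_lit 5) (nat_lit 10) (nat_lit 4) (nat_lit 355) (nat_lit 232) (nat_lit 193))))))) (XT.nd (nat_lit 858) (nat_lit 152) (nat_lit 0) (XT.nd (nat_lit 390) (nat_lit 76) (nat_lit 0) (XT.nd (nat_lit 156) (nat_lit 76) (nat_lit 0) (XT.nd (nat_lit 78) (nat_lit 0) (nat_lit 0) (XT.lf (nat_lit 0) (nat_lit 4415291024) (nat_lit 228) (nat_lit 5731838196) (nat_lit 76) (nat_lit 17615240467) (nat_lit 9) (nat_lit 5) (nat_lit 12) (nat_lit 5) (nat_lit 10) (nat_lit 4) (nat_lit 356) (nat_lit 232) (nat_lit 192)) (XT.lf (nat_lit 0) (nat_lit 6810254761) (nat_lit 228) (nat_lit 1059274467) (nat_lit 76) (nat_lit 20635547898) (nat_lit 9) (nat_lit 5) (nat_lit 12) (nat_lit 5) (nat_lit 10) (nat_lit 4) (nat_lit 357) (nat_lit 232) (nat_lit 191))) (XT.nd (nat_lit 78) (nat_lit 0) (nat_lit 0) (XT.lf (nat_lit 0) (nat_lit 3774034728) (nat_lit 76) (nat_lit 5507653927) (nat_lit 152) (nat_lit 19988279873) (nat_lit 8)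 (nat_lit 5) (nat_lit 9) (nat_lit 5) (nat_lit 10) (nat_lit 4) (nat_lit 358) (nat_lit 232) (nat_lit 190)) (XT.nd (nat_lit 78) (nat_lit 0) (nat_lit 0) (XT.lf (nat_lit 0) (nat_lit 8721501190) (nat_lit 76) (nat_lit 3085220736) (nat_lit 152) (nat_lit 18251741229) (nat_lit 8) (nat_lit 5) (nat_lit 9) (nat_lit 5) (nat_lit 10) (nat_lit 4) (nat_lit 359) (nat_lit 232) (nat_lit 189)) (XT.lf (nat_lit 0) (nat_lit 13766366307) (nat_lit 76) (nat_lit 610809562) (nat_lit 152) (nat_lit 16494385664) (nat_lit 8) (nat_lit 5) (nat_lit 9) (nat_lit 5) (nat_lit 10) (nat_lit 4) (nat_lit 360) (nat_lit 232) (nat_lit 188))))) (XT.nd (nat_lit 234) (nat_lit 76) (nat_lit 0) (XT.nd (nat_lit 78) (nat_lit 0) (nat_lit 0) (XT.lf (nat_lit 0) (nat_lit 17013731017) (nat_lit 152) (nat_lit 12815370427) (nat_lit 0) (nat_lit 1880319654) (nat_lit 8) (nat_lit 5) (nat_lit 10) (nat_lit 4) (nat_lit 8) (nat_lit 4) (nat_lit 361) (nat_lit 232)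 (nat_lit 187)) (XT.nd (nat_lit 78) (nat_lit 0) (nat_lit 0) (XT.lf (nat_lit 0) (nat_lit 19706653685) (nat_lit 152) (nat_lit 8451701707) (nat_lit 0) (nat_lit 4414779699) (nat_lit 8) (nat_lit 5) (nat_lit 10) (nat_lit 4) (nat_lit 8) (nat_lit 4) (nat_lit 362) (nat_lit 232) (nat_lit 186)) (XT.lf (nat_lit 0) (nat_lit 22452425435) (nat_lit 152) (nat_lit 4004504675) (nat_lit 0) (nat_lit 7006704243) (nat_lit 8) (nat_lit 5) (nat_lit 10) (nat_lit 4) (nat_lit 8) (nat_lit 4) (nat_lit 363) (nat_lit 232) (nat_lit 185)))) (XT.nd (nat_lit 78) (nat_lit 0) (nat_lit 0) (XT.lf (nat_lit 0) (nat_lit 540656729) (nat_lit 76) (nat_lit 24717985879) (nat_lit 76) (nat_lit 9122898468) (nat_lit 7) (nat_lit 4) (nat_lit 8) (nat_lit 5) (nat_lit 8) (nat_lit 4) (nat_lit 364) (nat_lit 232) (nat_lit 184)) (XT.nd (nat_lit 78) (nat_lit 0) (nat_lit 0) (XT.lf (nat_lit 0) (nat_lit 5258710694) (nat_lit 76) (nat_lit 22904000581) (nat_lit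 76) (nat_lit 7163897422) (nat_lit 7) (nat_lit 4) (nat_lit 8) (nat_lit 5) (nat_lit 8) (nat_lit 4) (nat_lit 365) (nat_lit 232) (nat_lit 183)) (XT.lf (nat_lit 0) (nat_lit 10074082296) (nat_lit 76) (nat_lit 21053826823) (nat_lit 76) (nat_lit 5172931677) (nat_lit 7) (nat_lit 4) (nat_lit 8) (nat_lit 5) (nat_lit 8) (nat_lit 4) (nat_lit 366) (nat_lit 232) (nat_lit 182)))))) (XT.nd (nat_lit 390) (nat_lit 76) (nat_lit 0) (XT.nd (nat_lit 156) (nat_lit 76) (nat_lit 0) (XT.nd (nat_lit 78) (nat_lit 0) (nat_lit 0) (XT.lf (nat_lit 0) (nat_lit 14990979141) (nat_lit 76) (nat_lit 19165847951) (nat_lit 76) (nat_lit 3148261554) (nat_lit 7) (nat_lit 4) (nat_lit 8) (nat_lit 5) (nat_lit 8) (nat_lit 4) (nat_lit 367) (nat_lit 232) (nat_lit 181)) (XT.lf (nat_lit 0) (nat_lit 20013697546) (nat_lit 76) (nat_lit 17238414272) (nat_lit 76) (nat_lit 1088117924) (nat_lit 7) (nat_lit 4) (nat_lit 8) (nat_lit 5) (nat_lit 8) (nat_lit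 4) (nat_lit 368) (nat_lit 232) (nat_lit 180))) (XT.nd (nat_lit 78) (nat_lit 0) (nat_lit 0) (XT.lf (nat_lit 0) (nat_lit 989604272) (nat_lit 152) (nat_lit 14270244287) (nat_lit 76) (nat_lit 24147028959) (nat_lit 6) (nat_lit 5) (nat_lit 8) (nat_lit 5) (nat_lit 7) (nat_lit 4) (nat_lit 369) (nat_lit 232) (nat_lit 179)) (XT.nd (nat_lit 78) (nat_lit 0) (nat_lit 0) (XT.lf (nat_lit 0) (nat_lit 3084436592) (nat_lit 152) (nat_lit 10142826536) (nat_lit 76) (nat_lit 27278667117) (nat_lit 6) (nat_lit 5) (nat_lit 8) (nat_lit 5) (nat_lit 7) (nat_lit 4) (nat_lit 370) (nat_lit 232) (nat_lit 178)) (XT.lf (nat_lit 0) (nat_lit 5219442569) (nat_lit 152) (nat_lit 5930212807) (nat_lit 76) (nat_lit 30489006670) (nat_lit 6) (nat_lit 5) (nat_lit 8) (nat_lit 5) (nat_lit 7) (nat_lit 4) (nat_lit 371) (nat_lit 232) (nat_lit 177))))) (XT.nd (nat_lit 234) (nat_lit 0) (nat_lit 0) (XT.nd (nat_lit 78) (nat_lit 76) (nat_lit 0)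 (XT.lf (nat_lit 0) (nat_lit 7396487744) (nat_lit 152) (nat_lit 1628722176) (nat_lit 76) (nat_lit 33780852772) (nat_lit 6) (nat_lit 5) (nat_lit 8) (nat_lit 5) (nat_lit 7) (nat_lit 4) (nat_lit 372) (nat_lit 232) (nat_lit 176)) (XT.nd (nat_lit 78) (nat_lit 0) (nat_lit 0) (XT.lf (nat_lit 0) (nat_lit 2820440902) (nat_lit 76) (nat_lit 6824145289) (nat_lit 152) (nat_lit 34363752692) (nat_lit 5) (nat_lit 5) (nat_lit 6) (nat_lit 5) (nat_lit 7) (nat_lit 4) (nat_lit 373) (nat_lit 232) (nat_lit 175)) (XT.lf (nat_lit 0) (nat_lit 7400413803) (nat_lit 76) (nat_lit 4555066672) (nat_lit 152) (nat_lit 33291367333) (nat_lit 5) (nat_lit 5) (nat_lit 6) (nat_lit 5) (nat_lit 7) (nat_lit 4) (nat_lit 374) (nat_lit 232) (nat_lit 174)))) (XT.nd (nat_lit 78) (nat_lit 0) (nat_lit 0) (XT.lf (nat_lit 0) (nat_lit 12082783677) (nat_lit 76) (nat_lit 2232438280) (nat_lit 152) (nat_lit 32207928736) (nat_lit 5) (nat_lit 5) (nat_lit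 6) (nat_lit 5) (nat_lit 7) (nat_lit 4) (nat_lit 375) (nat_lit 232) (nat_lit 173)) (XT.nd (nat_lit 78) (nat_lit 0) (nat_lit 0) (XT.lf (nat_lit 0) (nat_lit 16727273774) (nat_lit 152) (nat_lit 30968122065) (nat_lit 0) (nat_lit 142924882) (nat_lit 5) (nat_lit 5) (nat_lit 7) (nat_lit 4) (nat_lit 5) (nat_lit 4) (nat_lit 376) (nat_lit 232) (nat_lit 172)) (XT.lf (nat_lit 0) (nat_lit 19214354893) (nat_lit 152) (nat_lit 27447276500) (nat_lit 0) (nat_lit 2531257333) (nat_lit 5) (nat_lit 5) (nat_lit 7) (nat_lit 4) (nat_lit 5) (nat_lit 4) (nat_lit 377) (nat_lit 232) (nat_lit 171))))))))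
noncomputable def xc43 : XT := (XT.nd (nat_lit 1716) (nat_lit 0) (nat_lit 0) (XT.nd (nat_lit 858) (nat_lit 76) (nat_lit 0) (XT.nd (nat_lit 390) (nat_lit 76) (nat_lit 0) (XT.nd (nat_lit 156) (nat_lit 0) (nat_lit 0) (XT.nd (nat_lit 78) (nat_lit 0) (nat_lit 0) (XT.lf (nat_lit 0) (nat_lit 21757178929) (nat_lit 152) (nat_lit 23853294292) (nat_lit 0) (nat_lit 4978208878) (nat_lit 5) (nat_lit 5) (nat_lit 7) (nat_lit 4) (nat_lit 5) (nat_lit 4) (nat_lit 378) (nat_lit 232) (nat_lit 170)) (XT.lf (nat_lit 0) (nat_lit 24357967769) (nat_lit 152) (nat_lit 20183035070) (nat_lit 0) (nat_lit 7485917627) (nat_lit 5) (nat_lit 5) (nat_lit 7) (nat_lit 4) (nat_lit 5) (nat_lit 4) (nat_lit 379) (nat_lit 232) (nat_lit 169))) (XT.nd (nat_lit 78) (nat_lit 0) (nat_lit 0) (XT.lf (nat_lit 0) (nat_lit 27018993946) (nat_lit 152) (nat_lit 16433291809) (nat_lit 0) (nat_lit 10056574784) (nat_lit 5) (nat_lit 5) (nat_lit 7) (nat_lit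 4) (nat_lit 5) (nat_lit 4) (nat_lit 380) (nat_lit 232) (nat_lit 168)) (XT.nd (nat_lit 78) (nat_lit 0) (nat_lit 0) (XT.lf (nat_lit 0) (nat_lit 29742582627) (nat_lit 152) (nat_lit 12600788036) (nat_lit 0) (nat_lit 12692426554) (nat_lit 5) (nat_lit 5) (nat_lit 7) (nat_lit 4) (nat_lit 5) (nat_lit 4) (nat_lit 381) (nat_lit 232) (nat_lit 167)) (XT.lf (nat_lit 0) (nat_lit 32531113650) (nat_lit 152) (nat_lit 8682174960) (nat_lit 0) (nat_lit 15395776108) (nat_lit 5) (nat_lit 5) (nat_lit 7) (nat_lit 4) (nat_lit 5) (nat_lit 4) (nat_lit 382) (nat_lit 232) (nat_lit 166))))) (XT.nd (nat_lit 234) (nat_lit 0) (nat_lit 0) (XT.nd (nat_lit 78) (nat_lit 76) (nat_lit 0) (XT.lf (nat_lit 0) (nat_lit 35387023592) (nat_lit 152) (nat_lit 4674028552) (nat_lit 0) (nat_lit 18168985597) (nat_lit 5) (nat_lit 5) (nat_lit 7) (nat_lit 4) (nat_lit 5) (nat_lit 4) (nat_lit 383) (nat_lit 232) (nat_lit 165)) (XT.nd (nat_lit 78)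 (nat_lit 76) (nat_lit 0) (XT.lf (nat_lit 0) (nat_lit 38312807911) (nat_lit 152) (nat_lit 572846546) (nat_lit 0) (nat_lit 21014478212) (nat_lit 5) (nat_lit 5) (nat_lit 7) (nat_lit 4) (nat_lit 5) (nat_lit 4) (nat_lit 384) (nat_lit 232) (nat_lit 164)) (XT.lf (nat_lit 0) (nat_lit 3697098317) (nat_lit 76) (nat_lit 37649463569) (nat_lit 76) (nat_lit 20273180760) (nat_lit 4) (nat_lit 4) (nat_lit 5) (nat_lit 5) (nat_lit 5) (nat_lit 4) (nat_lit 385) (nat_lit 232) (nat_lit 163)))) (XT.nd (nat_lit 78) (nat_lit 0) (nat_lit 0) (XT.lf (nat_lit 0) (nat_lit 8080726997) (nat_lit 76) (nat_lit 36381238901) (nat_lit 76) (nat_lit 18929273461) (nat_lit 4) (nat_lit 4) (nat_lit 5) (nat_lit 5) (nat_lit 5) (nat_lit 4) (nat_lit 386) (nat_lit 232) (nat_lit 162)) (XT.nd (nat_lit 78) (nat_lit 0) (nat_lit 0) (XT.lf (nat_lit 0) (nat_lit 12570469079) (nat_lit 76) (nat_lit 35085656923) (nat_lit 76) (nat_lit 17560213200) (nat_lit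 4) (nat_lit 4) (nat_lit 5) (nat_lit 5) (nat_lit 5) (nat_lit 4) (nat_lit 387) (nat_lit 232) (nat_lit 161)) (XT.lf (nat_lit 0) (nat_lit 17170247637) (nat_lit 76) (nat_lit 33761585572) (nat_lit 76) (nat_lit 16164803711) (nat_lit 4) (nat_lit 4) (nat_lit 5) (nat_lit 5) (nat_lit 5) (nat_lit 4) (nat_lit 388) (nat_lit 232) (nat_lit 160)))))) (XT.nd (nat_lit 390) (nat_lit 76) (nat_lit 0) (XT.nd (nat_lit 156) (nat_lit 0) (nat_lit 0) (XT.nd (nat_lit 78) (nat_lit 0) (nat_lit 0) (XT.lf (nat_lit 0) (nat_lit 21884081897) (nat_lit 76) (nat_lit 32407867893) (nat_lit 76) (nat_lit 14741825704) (nat_lit 4) (nat_lit 4) (nat_lit 5) (nat_lit 5) (nat_lit 5) (nat_lit 4) (nat_lit 389) (nat_lit 232) (nat_lit 159)) (XT.lf (nat_lit 0) (nat_lit 26716090742) (nat_lit 76) (nat_lit 31023321027) (nat_lit 76) (nat_lit 13290035800) (nat_lit 4) (nat_lit 4) (nat_lit 5) (nat_lit 5) (nat_lit 5) (nat_lit 4) (nat_lit 390) (nat_lit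 232) (nat_lit 158))) (XT.nd (nat_lit 78) (nat_lit 0) (nat_lit 0) (XT.lf (nat_lit 0) (nat_lit 31670496315) (nat_lit 76) (nat_lit 29606735174) (nat_lit 76) (nat_lit 11808165445) (nat_lit 4) (nat_lit 4) (nat_lit 5) (nat_lit 5) (nat_lit 5) (nat_lit 4) (nat_lit 391) (nat_lit 232) (nat_lit 157)) (XT.nd (nat_lit 78) (nat_lit 0) (nat_lit 0) (XT.lf (nat_lit 0) (nat_lit 36751627711) (nat_lit 76) (nat_lit 28156872542) (nat_lit 76) (nat_lit 10294919801) (nat_lit 4) (nat_lit 4) (nat_lit 5) (nat_lit 5) (nat_lit 5) (nat_lit 4) (nat_lit 392) (nat_lit 232) (nat_lit 156)) (XT.lf (nat_lit 0) (nat_lit 41963924751) (nat_lit 76) (nat_lit 26672466260) (nat_lit 76) (nat_lit 8748976614) (nat_lit 4) (nat_lit 4) (nat_lit 5) (nat_lit 5) (nat_lit 5) (nat_lit 4) (nat_lit 393) (nat_lit 232) (nat_lit 155))))) (XT.nd (nat_lit 234) (nat_lit 76) (nat_lit 0) (XT.nd (nat_lit 78) (nat_lit 0) (nat_lit 0) (XT.lf (nat_lit 0) (nat_lit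 47311941870) (nat_lit 76) (nat_lit 25152219274) (nat_lit 76) (nat_lit 7168985060) (nat_lit 4) (nat_lit 4) (nat_lit 5) (nat_lit 5) (nat_lit 5) (nat_lit 4) (nat_lit 394) (nat_lit 232) (nat_lit 154)) (XT.nd (nat_lit 78) (nat_lit 0) (nat_lit 0) (XT.lf (nat_lit 0) (nat_lit 52800352093) (nat_lit 76) (nat_lit 23594803213) (nat_lit 76) (nat_lit 5553564564) (nat_lit 4) (nat_lit 4) (nat_lit 5) (nat_lit 5) (nat_lit 5) (nat_lit 4) (nat_lit 395) (nat_lit 232) (nat_lit 153)) (XT.lf (nat_lit 0) (nat_lit 58433951118) (nat_lit 76) (nat_lit 21998857227) (nat_lit 76) (nat_lit 3901303594) (nat_lit 4) (nat_lit 4) (nat_lit 5) (nat_lit 5) (nat_lit 5) (nat_lit 4) (nat_lit 396) (nat_lit 232) (nat_lit 152)))) (XT.nd (nat_lit 78) (nat_lit 76) (nat_lit 0) (XT.lf (nat_lit 0) (nat_lit 64217661507) (nat_lit 76) (nat_lit 20362986802) (nat_lit 76) (nat_lit 2210758426) (nat_lit 4) (nat_lit 4) (nat_lit 5) (nat_lit 5) (nat_lit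 5) (nat_lit 4) (nat_lit 397) (nat_lit 232) (nat_lit 151)) (XT.nd (nat_lit 78) (nat_lit 76) (nat_lit 0) (XT.lf (nat_lit 0) (nat_lit 70156536988) (nat_lit 76) (nat_lit 18685762536) (nat_lit 76) (nat_lit 480451884) (nat_lit 4) (nat_lit 4) (nat_lit 5) (nat_lit 5) (nat_lit 5) (nat_lit 4) (nat_lit 398) (nat_lit 232) (nat_lit 150)) (XT.lf (nat_lit 0) (nat_lit 1265933391) (nat_lit 152) (nat_lit 15687002056) (nat_lit 76) (nat_lit 74977050033) (nat_lit 3) (nat_lit 5) (nat_lit 5) (nat_lit 5) (nat_lit 4) (nat_lit 4) (nat_lit 399) (nat_lit 232) (nat_lit 149))))))) (XT.nd (nat_lit 34632) (nat_lit 0) (nat_lit 1292) (XT.nd (nat_lit 34164) (nat_lit 0) (nat_lit 2280) (XT.nd (nat_lit 33930) (nat_lit 0) (nat_lit 3116) (XT.nd (nat_lit 78) (nat_lit 0) (nat_lit 0) (XT.lf (nat_lit 0) (nat_lit 3044928996) (nat_lit 152) (nat_lit 12125676111) (nat_lit 76) (nat_lit 79445003766) (nat_lit 3) (nat_lit 5) (nat_lit 5) (nat_lit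 5) (nat_lit 4) (nat_lit 4) (nat_lit 400) (nat_lit 232) (nat_lit 148)) (XT.lf (nat_lit 0) (nat_lit 4867464741) (nat_lit 152) (nat_lit 8474506351) (nat_lit 76) (nat_lit 84040135712) (nat_lit 3) (nat_lit 5) (nat_lit 5) (nat_lit 5) (nat_lit 4) (nat_lit 4) (nat_lit 401) (nat_lit 232) (nat_lit 147))) (XT.nd (nat_lit 78) (nat_lit 304) (nat_lit 0) (XT.lf (nat_lit 0) (nat_lit 3755791311) (nat_lit 304) (nat_lit 793171009) (nat_lit 304) (nat_lit 793171009) (nat_lit 48) (nat_lit 4) (nat_lit 52) (nat_lit 5) (nat_lit 52) (nat_lit 4) (nat_lit 314) (nat_lit 233) (nat_lit 233)) (XT.nd (nat_lit 78) (nat_lit 0) (nat_lit 0) (XT.lf (nat_lit 0) (nat_lit 1599547296) (nat_lit 304) (nat_lit 8436919527) (nat_lit 0) (nat_lit 840445973) (nat_lit 44) (nat_lit 5) (nat_lit 48) (nat_lit 4) (nat_lit 44) (nat_lit 4) (nat_lit 315) (nat_lit 233) (nat_lit 232)) (XT.lf (nat_lit 0) (nat_lit 4819292409) (nat_lit 304) (nat_lit 2933441299)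 (nat_lit 0) (nat_lit 3323199510) (nat_lit 44) (nat_lit 5) (nat_lit 48) (nat_lit 4) (nat_lit 44) (nat_lit 4) (nat_lit 316) (nat_lit 233) (nat_lit 231))))) (XT.nd (nat_lit 234) (nat_lit 304) (nat_lit 0) (XT.nd (nat_lit 78) (nat_lit 304) (nat_lit 0) (XT.lf (nat_lit 0) (nat_lit 2677265925) (nat_lit 228) (nat_lit 5408469925) (nat_lit 228) (nat_lit 3196851224) (nat_lit 41) (nat_lit 4) (nat_lit 44) (nat_lit 5) (nat_lit 44) (nat_lit 4) (nat_lit 317) (nat_lit 233) (nat_lit 230)) (XT.nd (nat_lit 78) (nat_lit 304) (nat_lit 0) (XT.lf (nat_lit 0) (nat_lit 8407388178) (nat_lit 228) (nat_lit 2997931534) (nat_lit 228) (nat_lit 91627589) (nat_lit 41) (nat_lit 4) (nat_lit 44) (nat_lit 5) (nat_lit 44) (nat_lit 4) (nat_lit 318) (nat_lit 233) (nat_lit 229)) (XT.lf (nat_lit 0) (nat_lit 2503186733) (nat_lit 228) (nat_lit 493829213) (nat_lit 304) (nat_lit 8721451769) (nat_lit 37) (nat_lit 5) (nat_lit 40) (nat_lit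 5) (nat_lit 41) (nat_lit 4) (nat_lit 319) (nat_lit 233) (nat_lit 228)))) (XT.nd (nat_lit 78) (nat_lit 304) (nat_lit 0) (XT.lf (nat_lit 0) (nat_lit 6155633778) (nat_lit 304) (nat_lit 3748308954) (nat_lit 0) (nat_lit 2043436586) (nat_lit 37) (nat_lit 5) (nat_lit 41) (nat_lit 4) (nat_lit 37) (nat_lit 4) (nat_lit 320) (nat_lit 233) (nat_lit 227)) (XT.nd (nat_lit 78) (nat_lit 76) (nat_lit 0) (XT.lf (nat_lit 0) (nat_lit 1807820250) (nat_lit 228) (nat_lit 7553168938) (nat_lit 228) (nat_lit 2823752904) (nat_lit 34) (nat_lit 4) (nat_lit 37) (nat_lit 5) (nat_lit 37) (nat_lit 4) (nat_lit 321) (nat_lit 233) (nat_lit 226)) (XT.lf (nat_lit 0) (nat_lit 196888124) (nat_lit 304) (nat_lit 4928974735) (nat_lit 76) (nat_lit 7304385770) (nat_lit 33) (nat_lit 5) (nat_lit 37) (nat_lit 5) (nat_lit 34) (nat_lit 4) (nat_lit 322) (nat_lit 233) (nat_lit 225)))))) (XT.nd (nat_lit 468) (nat_lit 380) (nat_lit 0) (XT.nd (nat_lit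 234) (nat_lit 456) (nat_lit 0) (XT.nd (nat_lit 78) (nat_lit 0) (nat_lit 0) (XT.lf (nat_lit 0) (nat_lit 562777063) (nat_lit 152) (nat_lit 2626002565) (nat_lit 228) (nat_lit 9495511463) (nat_lit 31) (nat_lit 5) (nat_lit 33) (nat_lit 5) (nat_lit 34) (nat_lit 4) (nat_lit 323) (nat_lit 233) (nat_lit 224)) (XT.nd (nat_lit 78) (nat_lit 0) (nat_lit 0) (XT.lf (nat_lit 0) (nat_lit 6218669432) (nat_lit 152) (nat_lit 34511696) (nat_lit 228) (nat_lit 6693418329) (nat_lit 31) (nat_lit 5) (nat_lit 33) (nat_lit 5) (nat_lit 34) (nat_lit 4) (nat_lit 324) (nat_lit 233) (nat_lit 223)) (XT.lf (nat_lit 0) (nat_lit 9369450350) (nat_lit 228) (nat_lit 1298307849) (nat_lit 0) (nat_lit 2550344324) (nat_lit 31) (nat_lit 5) (nat_lit 34) (nat_lit 4) (nat_lit 31) (nat_lit 4) (nat_lit 325) (nat_lit 233) (nat_lit 222)))) (XT.nd (nat_lit 78) (nat_lit 228) (nat_lit 0) (XT.lf (nat_lit 0) (nat_lit 4279859512) (nat_lit 228) (nat_lit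 8277344151) (nat_lit 228) (nat_lit 941327062) (nat_lit 28) (nat_lit 4) (nat_lit 31) (nat_lit 5) (nat_lit 31) (nat_lit 4) (nat_lit 326) (nat_lit 233) (nat_lit 221)) (XT.nd (nat_lit 78) (nat_lit 152) (nat_lit 0) (XT.lf (nat_lit 0) (nat_lit 1963093277) (nat_lit 304) (nat_lit 3852793136) (nat_lit 76) (nat_lit 7972508062) (nat_lit 27) (nat_lit 5) (nat_lit 31) (nat_lit 5) (nat_lit 28) (nat_lit 4) (nat_lit 327) (nat_lit 233) (nat_lit 220)) (XT.lf (nat_lit 0) (nat_lit 1600898950) (nat_lit 152) (nat_lit 3288760996) (nat_lit 228) (nat_lit 9198506330) (nat_lit 25) (nat_lit 5) (nat_lit 27) (nat_lit 5) (nat_lit 28) (nat_lit 4) (nat_lit 328) (nat_lit 233) (nat_lit 219))))) (XT.nd (nat_lit 234) (nat_lit 228) (nat_lit 0) (XT.nd (nat_lit 78) (nat_lit 152) (nat_lit 0) (XT.lf (nat_lit 0) (nat_lit 7203030886) (nat_lit 152) (nat_lit 679327969) (nat_lit 228) (nat_lit 6515328872) (nat_lit 25) (nat_lit 5) (nat_lit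 27) (nat_lit 5) (nat_lit 28) (nat_lit 4) (nat_lit 329) (nat_lit 233) (nat_lit 218)) (XT.nd (nat_lit 78) (nat_lit 152) (nat_lit 0) (XT.lf (nat_lit 0) (nat_lit 10925024974) (nat_lit 228) (nat_lit 1855535330) (nat_lit 0) (nat_lit 1937232376) (nat_lit 25) (nat_lit 5) (nat_lit 28) (nat_lit 4) (nat_lit 25) (nat_lit 4) (nat_lit 330) (nat_lit 233) (nat_lit 217)) (XT.lf (nat_lit 0) (nat_lit 3617367863) (nat_lit 152) (nat_lit 10425703904) (nat_lit 152) (nat_lit 1005006428) (nat_lit 23) (nat_lit 4) (nat_lit 25) (nat_lit 5) (nat_lit 25) (nat_lit 4) (nat_lit 331) (nat_lit 233) (nat_lit 216)))) (XT.nd (nat_lit 78) (nat_lit 152) (nat_lit 0) (XT.lf (nat_lit 0) (nat_lit 1791649701) (nat_lit 228) (nat_lit 6203944579) (nat_lit 76) (nat_lit 7393383979) (nat_lit 22) (nat_lit 5) (nat_lit 25) (nat_lit 5) (nat_lit 23) (nat_lit 4) (nat_lit 332) (nat_lit 233) (nat_lit 215)) (XT.nd (nat_lit 78) (nat_lit 152) (nat_lit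 0) (XT.lf (nat_lit 0) (nat_lit 4596432263) (nat_lit 228) (nat_lit 918290345) (nat_lit 76) (nat_lit 10226843321) (nat_lit 22) (nat_lit 5) (nat_lit 25) (nat_lit 5) (nat_lit 23) (nat_lit 4) (nat_lit 333) (nat_lit 233) (nat_lit 214)) (XT.lf (nat_lit 0) (nat_lit 4528906924) (nat_lit 152) (nat_lit 2946031031) (nat_lit 228) (nat_lit 8630195116) (nat_lit 20) (nat_lit 5) (nat_lit 22) (nat_lit 5) (nat_lit 23) (nat_lit 4) (nat_lit 334) (nat_lit 233) (nat_lit 213))))))))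
noncomputable def xc44 : XT := (XT.nd (nat_lit 1716) (nat_lit 304) (nat_lit 0) (XT.nd (nat_lit 858) (nat_lit 304) (nat_lit 0) (XT.nd (nat_lit 390) (nat_lit 304) (nat_lit 0) (XT.nd (nat_lit 156) (nat_lit 228) (nat_lit 0) (XT.nd (nat_lit 78) (nat_lit 0) (nat_lit 0) (XT.lf (nat_lit 0) (nat_lit 10073779560) (nat_lit 152) (nat_lit 322095840) (nat_lit 228) (nat_lit 6085136168) (nat_lit 20) (nat_lit 5) (nat_lit 22) (nat_lit 5) (nat_lit 23) (nat_lit 4) (nat_lit 335) (nat_lit 233) (nat_lit 212)) (XT.lf (nat_lit 0) (nat_lit 13375384651) (nat_lit 228) (nat_lit 1189493747) (nat_lit 0) (nat_lit 2304243822) (nat_lit 20) (nat_lit 5) (nat_lit 23) (nat_lit 4) (nat_lit 20) (nat_lit 4) (nat_lit 336) (nat_lit 233) (nat_lit 211))) (XT.nd (nat_lit 78) (nat_lit 76) (nat_lit 0) (XT.lf (nat_lit 0) (nat_lit 4182185119) (nat_lit 152) (nat_lit 12255057964) (nat_lit 152) (nat_lit 831925854) (nat_lit 18) (nat_lit 4) (nat_lit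 20) (nat_lit 5) (nat_lit 20) (nat_lit 4) (nat_lit 337) (nat_lit 233) (nat_lit 210)) (XT.nd (nat_lit 78) (nat_lit 0) (nat_lit 0) (XT.lf (nat_lit 0) (nat_lit 1834305435) (nat_lit 228) (nat_lit 8041231184) (nat_lit 76) (nat_lit 7806351749) (nat_lit 17) (nat_lit 5) (nat_lit 20) (nat_lit 5) (nat_lit 18) (nat_lit 4) (nat_lit 338) (nat_lit 233) (nat_lit 209)) (XT.lf (nat_lit 0) (nat_lit 4514968459) (nat_lit 228) (nat_lit 2931270787) (nat_lit 76) (nat_lit 10662042791) (nat_lit 17) (nat_lit 5) (nat_lit 20) (nat_lit 5) (nat_lit 18) (nat_lit 4) (nat_lit 339) (nat_lit 233) (nat_lit 208))))) (XT.nd (nat_lit 234) (nat_lit 228) (nat_lit 0) (XT.nd (nat_lit 78) (nat_lit 0) (nat_lit 0) (XT.lf (nat_lit 0) (nat_lit 2300245440) (nat_lit 76) (nat_lit 4950505340) (nat_lit 152) (nat_lit 11297548309) (nat_lit 16) (nat_lit 5) (nat_lit 17) (nat_lit 5) (nat_lit 18) (nat_lit 4) (nat_lit 340) (nat_lit 233) (nat_lit 207))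 (XT.nd (nat_lit 78) (nat_lit 0) (nat_lit 0) (XT.lf (nat_lit 0) (nat_lit 7672917541) (nat_lit 76) (nat_lit 2378528704) (nat_lit 152) (nat_lit 8950655659) (nat_lit 16) (nat_lit 5) (nat_lit 17) (nat_lit 5) (nat_lit 18) (nat_lit 4) (nat_lit 341) (nat_lit 233) (nat_lit 206)) (XT.lf (nat_lit 0) (nat_lit 12893093618) (nat_lit 152) (nat_lit 6340176602) (nat_lit 0) (nat_lit 237609045) (nat_lit 16) (nat_lit 5) (nat_lit 18) (nat_lit 4) (nat_lit 16) (nat_lit 4) (nat_lit 342) (nat_lit 233) (nat_lit 205)))) (XT.nd (nat_lit 78) (nat_lit 228) (nat_lit 0) (XT.lf (nat_lit 0) (nat_lit 15799200199) (nat_lit 152) (nat_lit 1297695347) (nat_lit 0) (nat_lit 2857514503) (nat_lit 16) (nat_lit 5) (nat_lit 18) (nat_lit 4) (nat_lit 16) (nat_lit 4) (nat_lit 343) (nat_lit 233) (nat_lit 204)) (XT.nd (nat_lit 78) (nat_lit 76) (nat_lit 0) (XT.lf (nat_lit 0) (nat_lit 3901664858) (nat_lit 152) (nat_lit 14885281765) (nat_lit 152)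 (nat_lit 1665730902) (nat_lit 14) (nat_lit 4) (nat_lit 16) (nat_lit 5) (nat_lit 16) (nat_lit 4) (nat_lit 344) (nat_lit 233) (nat_lit 203)) (XT.lf (nat_lit 0) (nat_lit 851186821) (nat_lit 228) (nat_lit 11761413623) (nat_lit 76) (nat_lit 8353985673) (nat_lit 13) (nat_lit 5) (nat_lit 16) (nat_lit 5) (nat_lit 14) (nat_lit 4) (nat_lit 345) (nat_lit 233) (nat_lit 202)))))) (XT.nd (nat_lit 390) (nat_lit 228) (nat_lit 0) (XT.nd (nat_lit 156) (nat_lit 76) (nat_lit 0) (XT.nd (nat_lit 78) (nat_lit 0) (nat_lit 0) (XT.lf (nat_lit 0) (nat_lit 3368435577) (nat_lit 228) (nat_lit 6913313218) (nat_lit 76) (nat_lit 11214978304) (nat_lit 13) (nat_lit 5) (nat_lit 16) (nat_lit 5) (nat_lit 14) (nat_lit 4) (nat_lit 346) (nat_lit 233) (nat_lit 201)) (XT.lf (nat_lit 0) (nat_lit 5920719315) (nat_lit 228) (nat_lit 1986463222) (nat_lit 76) (nat_lit 14136861524) (nat_lit 13) (nat_lit 5) (nat_lit 16) (nat_lit 5) (nat_lit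 14) (nat_lit 4) (nat_lit 347) (nat_lit 233) (nat_lit 200))) (XT.nd (nat_lit 78) (nat_lit 0) (nat_lit 0) (XT.lf (nat_lit 0) (nat_lit 3083613790) (nat_lit 76) (nat_lit 5456295975) (nat_lit 152) (nat_lit 14068216228) (nat_lit 12) (nat_lit 5) (nat_lit 13) (nat_lit 5) (nat_lit 14) (nat_lit 4) (nat_lit 348) (nat_lit 233) (nat_lit 199)) (XT.nd (nat_lit 78) (nat_lit 0) (nat_lit 0) (XT.lf (nat_lit 0) (nat_lit 8282397579) (nat_lit 76) (nat_lit 2936562789) (nat_lit 152) (nat_lit 11970785471) (nat_lit 12) (nat_lit 5) (nat_lit 13) (nat_lit 5) (nat_lit 14) (nat_lit 4) (nat_lit 349) (nat_lit 233) (nat_lit 198)) (XT.lf (nat_lit 0) (nat_lit 13574896259) (nat_lit 76) (nat_lit 365840652) (nat_lit 152) (nat_lit 9849259151) (nat_lit 12) (nat_lit 5) (nat_lit 13) (nat_lit 5) (nat_lit 14) (nat_lit 4) (nat_lit 350) (nat_lit 233) (nat_lit 197))))) (XT.nd (nat_lit 234) (nat_lit 76) (nat_lit 0) (XT.nd (nat_lit 78) (nat_lit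 152) (nat_lit 0) (XT.lf (nat_lit 0) (nat_lit 16729324046) (nat_lit 152) (nat_lit 5465373213) (nat_lit 0) (nat_lit 2214052705) (nat_lit 12) (nat_lit 5) (nat_lit 14) (nat_lit 4) (nat_lit 12) (nat_lit 4) (nat_lit 351) (nat_lit 233) (nat_lit 196)) (XT.nd (nat_lit 78) (nat_lit 152) (nat_lit 0) (XT.lf (nat_lit 0) (nat_lit 19569483488) (nat_lit 152) (nat_lit 636343326) (nat_lit 0) (nat_lit 4841251633) (nat_lit 12) (nat_lit 5) (nat_lit 14) (nat_lit 4) (nat_lit 12) (nat_lit 4) (nat_lit 352) (nat_lit 233) (nat_lit 195)) (XT.lf (nat_lit 0) (nat_lit 4364901019) (nat_lit 152) (nat_lit 18137237326) (nat_lit 152) (nat_lit 3202247690) (nat_lit 10) (nat_lit 4) (nat_lit 12) (nat_lit 5) (nat_lit 12) (nat_lit 4) (nat_lit 353) (nat_lit 233) (nat_lit 194)))) (XT.nd (nat_lit 78) (nat_lit 76) (nat_lit 0) (XT.lf (nat_lit 0) (nat_lit 9471962708) (nat_lit 152) (nat_lit 16023027764) (nat_lit 152) (nat_lit 887302420) (nat_lit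 10) (nat_lit 4) (nat_lit 12) (nat_lit 5) (nat_lit 12) (nat_lit 4) (nat_lit 354) (nat_lit 233) (nat_lit 193)) (XT.nd (nat_lit 78) (nat_lit 0) (nat_lit 0) (XT.lf (nat_lit 0) (nat_lit 1434292564) (nat_lit 228) (nat_lit 12419000476) (nat_lit 76) (nat_lit 13227863633) (nat_lit 9) (nat_lit 5) (nat_lit 12) (nat_lit 5) (nat_lit 10) (nat_lit 4) (nat_lit 355) (nat_lit 233) (nat_lit 192)) (XT.lf (nat_lit 0) (nat_lit 3775094700) (nat_lit 228) (nat_lit 7856384799) (nat_lit 76) (nat_lit 16170264137) (nat_lit 9) (nat_lit 5) (nat_lit 12) (nat_lit 5) (nat_lit 10) (nat_lit 4) (nat_lit 356) (nat_lit 233) (nat_lit 191))))))) (XT.nd (nat_lit 858) (nat_lit 152) (nat_lit 0) (XT.nd (nat_lit 390) (nat_lit 76) (nat_lit 0) (XT.nd (nat_lit 156) (nat_lit 0) (nat_lit 0) (XT.nd (nat_lit 78) (nat_lit 76) (nat_lit 0) (XT.lf (nat_lit 0) (nat_lit 6154463814) (nat_lit 228) (nat_lit 3209967107) (nat_lit 76) (nat_lit 19180508375)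 (nat_lit 9) (nat_lit 5) (nat_lit 12) (nat_lit 5) (nat_lit 10) (nat_lit 4) (nat_lit 357) (nat_lit 233) (nat_lit 190)) (XT.lf (nat_lit 0) (nat_lit 1554649384) (nat_lit 76) (nat_lit 7034773824) (nat_lit 152) (nat_lit 20721521517) (nat_lit 8) (nat_lit 5) (nat_lit 9) (nat_lit 5) (nat_lit 10) (nat_lit 4) (nat_lit 358) (nat_lit 233) (nat_lit 189))) (XT.nd (nat_lit 78) (nat_lit 0) (nat_lit 0) (XT.lf (nat_lit 0) (nat_lit 6476980210) (nat_lit 76) (nat_lit 4622535220) (nat_lit 152) (nat_lit 19000391364) (nat_lit 8) (nat_lit 5) (nat_lit 9) (nat_lit 5) (nat_lit 10) (nat_lit 4) (nat_lit 359) (nat_lit 233) (nat_lit 188)) (XT.nd (nat_lit 78) (nat_lit 0) (nat_lit 0) (XT.lf (nat_lit 0) (nat_lit 11497441799) (nat_lit 76) (nat_lit 2158021703) (nat_lit 152) (nat_lit 17257995500) (nat_lit 8) (nat_lit 5) (nat_lit 9) (nat_lit 5) (nat_lit 10) (nat_lit 4) (nat_lit 360) (nat_lit 233) (nat_lit 187)) (XT.lf (nat_lit 0)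 (nat_lit 16262970159) (nat_lit 152) (nat_lit 15135360642) (nat_lit 0) (nat_lit 353877332) (nat_lit 8) (nat_lit 5) (nat_lit 10) (nat_lit 4) (nat_lit 8) (nat_lit 4) (nat_lit 361) (nat_lit 233) (nat_lit 186))))) (XT.nd (nat_lit 234) (nat_lit 76) (nat_lit 0) (XT.nd (nat_lit 78) (nat_lit 0) (nat_lit 0) (XT.lf (nat_lit 0) (nat_lit 18942129971) (nat_lit 152) (nat_lit 10795032684) (nat_lit 0) (nat_lit 2879189937) (nat_lit 8) (nat_lit 5) (nat_lit 10) (nat_lit 4) (nat_lit 8) (nat_lit 4) (nat_lit 362) (nat_lit 233) (nat_lit 185)) (XT.nd (nat_lit 78) (nat_lit 0) (nat_lit 0) (XT.lf (nat_lit 0) (nat_lit 21674539725) (nat_lit 152) (nat_lit 6370496587) (nat_lit 0) (nat_lit 5462233472) (nat_lit 8) (nat_lit 5) (nat_lit 10) (nat_lit 4) (nat_lit 8) (nat_lit 4) (nat_lit 363) (nat_lit 233) (nat_lit 184)) (XT.lf (nat_lit 0) (nat_lit 24462586965) (nat_lit 152) (nat_lit 1857886251) (nat_lit 0) (nat_lit 8105264964)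 (nat_lit 8) (nat_lit 5) (nat_lit 10) (nat_lit 4) (nat_lit 8) (nat_lit 4) (nat_lit 364) (nat_lit 233) (nat_lit 183)))) (XT.nd (nat_lit 78) (nat_lit 0) (nat_lit 0) (XT.lf (nat_lit 0) (nat_lit 2801406921) (nat_lit 76) (nat_lit 24534229764) (nat_lit 76) (nat_lit 8036115775) (nat_lit 7) (nat_lit 4) (nat_lit 8) (nat_lit 5) (nat_lit 8) (nat_lit 4) (nat_lit 365) (nat_lit 233) (nat_lit 182)) (XT.nd (nat_lit 78) (nat_lit 0) (nat_lit 0) (XT.lf (nat_lit 0) (nat_lit 7595627830) (nat_lit 76) (nat_lit 22692775266) (nat_lit 76) (nat_lit 6057970028) (nat_lit 7) (nat_lit 4) (nat_lit 8) (nat_lit 5) (nat_lit 8) (nat_lit 4) (nat_lit 366) (nat_lit 233) (nat_lit 181)) (XT.lf (nat_lit 0) (nat_lit 12491990022) (nat_lit 76) (nat_lit 20813261694) (nat_lit 76) (nat_lit 4045746504) (nat_lit 7) (nat_lit 4) (nat_lit 8) (nat_lit 5) (nat_lit 8) (nat_lit 4) (nat_lit 367) (nat_lit 233) (nat_lit 180)))))) (XT.nd (nat_lit 390)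 (nat_lit 76) (nat_lit 0) (XT.nd (nat_lit 156) (nat_lit 0) (nat_lit 0) (XT.nd (nat_lit 78) (nat_lit 76) (nat_lit 0) (XT.lf (nat_lit 0) (nat_lit 17494771872) (nat_lit 76) (nat_lit 18894046754) (nat_lit 76) (nat_lit 1997686951) (nat_lit 7) (nat_lit 4) (nat_lit 8) (nat_lit 5) (nat_lit 8) (nat_lit 4) (nat_lit 368) (nat_lit 233) (nat_lit 179)) (XT.lf (nat_lit 0) (nat_lit 86281036) (nat_lit 152) (nat_lit 16846301157) (nat_lit 76) (nat_lit 22521192435) (nat_lit 6) (nat_lit 5) (nat_lit 8) (nat_lit 5) (nat_lit 7) (nat_lit 4) (nat_lit 369) (nat_lit 233) (nat_lit 178))) (XT.nd (nat_lit 78) (nat_lit 0) (nat_lit 0) (XT.lf (nat_lit 0) (nat_lit 2169945221) (nat_lit 152) (nat_lit 12737911265) (nat_lit 76) (nat_lit 25645319387) (nat_lit 6) (nat_lit 5) (nat_lit 8) (nat_lit 5) (nat_lit 7) (nat_lit 4) (nat_lit 370) (nat_lit 233) (nat_lit 177)) (XT.nd (nat_lit 78) (nat_lit 0) (nat_lit 0) (XT.lf (nat_lit 0) (nat_lit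 4294108350) (nat_lit 152) (nat_lit 8543771186) (nat_lit 76) (nat_lit 28848366508) (nat_lit 6) (nat_lit 5) (nat_lit 8) (nat_lit 5) (nat_lit 7) (nat_lit 4) (nat_lit 371) (nat_lit 233) (nat_lit 176)) (XT.lf (nat_lit 0) (nat_lit 6460626488) (nat_lit 152) (nat_lit 4260216137) (nat_lit 76) (nat_lit 32133132577) (nat_lit 6) (nat_lit 5) (nat_lit 8) (nat_lit 5) (nat_lit 7) (nat_lit 4) (nat_lit 372) (nat_lit 233) (nat_lit 175))))) (XT.nd (nat_lit 234) (nat_lit 0) (nat_lit 0) (XT.nd (nat_lit 78) (nat_lit 0) (nat_lit 0) (XT.lf (nat_lit 0) (nat_lit 118815308) (nat_lit 76) (nat_lit 8553719525) (nat_lit 152) (nat_lit 35384814595) (nat_lit 5) (nat_lit 5) (nat_lit 6) (nat_lit 5) (nat_lit 7) (nat_lit 4) (nat_lit 373) (nat_lit 233) (nat_lit 174)) (XT.nd (nat_lit 78) (nat_lit 0) (nat_lit 0) (XT.lf (nat_lit 0) (nat_lit 4681545739) (nat_lit 76) (nat_lit 6291794890) (nat_lit 152) (nat_lit 34322832352) (nat_lit 5)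 (nat_lit 5) (nat_lit 6) (nat_lit 5) (nat_lit 7) (nat_lit 4) (nat_lit 374) (nat_lit 233) (nat_lit 173)) (XT.lf (nat_lit 0) (nat_lit 9347175352) (nat_lit 76) (nat_lit 3976112111) (nat_lit 152) (nat_lit 33249493867) (nat_lit 5) (nat_lit 5) (nat_lit 6) (nat_lit 5) (nat_lit 7) (nat_lit 4) (nat_lit 375) (nat_lit 233) (nat_lit 172)))) (XT.nd (nat_lit 78) (nat_lit 0) (nat_lit 0) (XT.lf (nat_lit 0) (nat_lit 14119780912) (nat_lit 76) (nat_lit 1604647777) (nat_lit 152) (nat_lit 32163861272) (nat_lit 5) (nat_lit 5) (nat_lit 6) (nat_lit 5) (nat_lit 7) (nat_lit 4) (nat_lit 376) (nat_lit 233) (nat_lit 171)) (XT.nd (nat_lit 78) (nat_lit 0) (nat_lit 0) (XT.lf (nat_lit 0) (nat_lit 18186789624) (nat_lit 152) (nat_lit 30248242926) (nat_lit 0) (nat_lit 808577978) (nat_lit 5) (nat_lit 5) (nat_lit 7) (nat_lit 4) (nat_lit 5) (nat_lit 4) (nat_lit 377) (nat_lit 233) (nat_lit 170)) (XT.lf (nat_lit 0) (nat_lit 20720589071)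 (nat_lit 152) (nat_lit 26669798872) (nat_lit 0) (nat_lit 3249297334) (nat_lit 5) (nat_lit 5) (nat_lit 7) (nat_lit 4) (nat_lit 5) (nat_lit 4) (nat_lit 378) (nat_lit 233) (nat_lit 169))))))))
noncomputable def xc45 : XT := (XT.nd (nat_lit 1716) (nat_lit 0) (nat_lit 0) (XT.nd (nat_lit 858) (nat_lit 76) (nat_lit 0) (XT.nd (nat_lit 390) (nat_lit 76) (nat_lit 0) (XT.nd (nat_lit 156) (nat_lit 0) (nat_lit 0) (XT.nd (nat_lit 78) (nat_lit 0) (nat_lit 0) (XT.lf (nat_lit 0) (nat_lit 23312616172) (nat_lit 152) (nat_lit 23014625235) (nat_lit 0) (nat_lit 5750955417) (nat_lit 5) (nat_lit 5) (nat_lit 7) (nat_lit 4) (nat_lit 5) (nat_lit 4) (nat_lit 379) (nat_lit 233) (nat_lit 168)) (XT.lf (nat_lit 0) (nat_lit 25965135807) (nat_lit 152) (nat_lit 19279528174) (nat_lit 0) (nat_lit 8315738139) (nat_lit 5) (nat_lit 5) (nat_lit 7) (nat_lit 4) (nat_lit 5) (nat_lit 4) (nat_lit 380) (nat_lit 233) (nat_lit 167))) (XT.nd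 (nat_lit 78) (nat_lit 0) (nat_lit 0) (XT.lf (nat_lit 0) (nat_lit 28680465710) (nat_lit 152) (nat_lit 15461244012) (nat_lit 0) (nat_lit 10945886575) (nat_lit 5) (nat_lit 5) (nat_lit 7) (nat_lit 4) (nat_lit 5) (nat_lit 4) (nat_lit 381) (nat_lit 233) (nat_lit 166)) (XT.nd (nat_lit 78) (nat_lit 0) (nat_lit 0) (XT.lf (nat_lit 0) (nat_lit 31460978501) (nat_lit 152) (nat_lit 11556436385) (nat_lit 0) (nat_lit 13643698911) (nat_lit 5) (nat_lit 5) (nat_lit 7) (nat_lit 4) (nat_lit 5) (nat_lit 4) (nat_lit 382) (nat_lit 233) (nat_lit 165)) (XT.lf (nat_lit 0) (nat_lit 34309103753) (nat_lit 152) (nat_lit 7561693323) (nat_lit 0) (nat_lit 16411532460) (nat_lit 5) (nat_lit 5) (nat_lit 7) (nat_lit 4) (nat_lit 5) (nat_lit 4) (nat_lit 383) (nat_lit 233) (nat_lit 164))))) (XT.nd (nat_lit 234) (nat_lit 0) (nat_lit 0) (XT.nd (nat_lit 78) (nat_lit 76) (nat_lit 0) (XT.lf (nat_lit 0) (nat_lit 37227330119) (nat_lit 152)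 (nat_lit 3473524276) (nat_lit 0) (nat_lit 19251805716) (nat_lit 5) (nat_lit 5) (nat_lit 7) (nat_lit 4) (nat_lit 5) (nat_lit 4) (nat_lit 384) (nat_lit 233) (nat_lit 163)) (XT.nd (nat_lit 78) (nat_lit 0) (nat_lit 0) (XT.lf (nat_lit 0) (nat_lit 725806032) (nat_lit 76) (nat_lit 39499378366) (nat_lit 76) (nat_lit 21448171332) (nat_lit 4) (nat_lit 4) (nat_lit 5) (nat_lit 5) (nat_lit 5) (nat_lit 4) (nat_lit 385) (nat_lit 233) (nat_lit 162)) (XT.lf (nat_lit 0) (nat_lit 5096924633) (nat_lit 76) (nat_lit 38236419427) (nat_lit 76) (nat_lit 20111734110) (nat_lit 4) (nat_lit 4) (nat_lit 5) (nat_lit 5) (nat_lit 5) (nat_lit 4) (nat_lit 386) (nat_lit 233) (nat_lit 161)))) (XT.nd (nat_lit 78) (nat_lit 0) (nat_lit 0) (XT.lf (nat_lit 0) (nat_lit 9574521008) (nat_lit 76) (nat_lit 36945949806) (nat_lit 76) (nat_lit 18749926352) (nat_lit 4) (nat_lit 4) (nat_lit 5) (nat_lit 5) (nat_lit 5) (nat_lit 4) (nat_lit 387)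 (nat_lit 233) (nat_lit 160)) (XT.nd (nat_lit 78) (nat_lit 0) (nat_lit 0) (XT.lf (nat_lit 0) (nat_lit 14162507618) (nat_lit 76) (nat_lit 35626841910) (nat_lit 76) (nat_lit 17361558127) (nat_lit 4) (nat_lit 4) (nat_lit 5) (nat_lit 5) (nat_lit 5) (nat_lit 4) (nat_lit 388) (nat_lit 233) (nat_lit 159)) (XT.lf (nat_lit 0) (nat_lit 18864893383) (nat_lit 76) (nat_lit 34277943120) (nat_lit 76) (nat_lit 15945416299) (nat_lit 4) (nat_lit 4) (nat_lit 5) (nat_lit 5) (nat_lit 5) (nat_lit 4) (nat_lit 389) (nat_lit 233) (nat_lit 158)))))) (XT.nd (nat_lit 390) (nat_lit 76) (nat_lit 0) (XT.nd (nat_lit 156) (nat_lit 0) (nat_lit 0) (XT.nd (nat_lit 78) (nat_lit 0) (nat_lit 0) (XT.lf (nat_lit 0) (nat_lit 23685787186) (nat_lit 76) (nat_lit 32898074785) (nat_lit 76) (nat_lit 14500263462) (nat_lit 4) (nat_lit 4) (nat_lit 5) (nat_lit 5) (nat_lit 5) (nat_lit 4) (nat_lit 390) (nat_lit 233) (nat_lit 157)) (XT.lf (nat_lit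 0) (nat_lit 28629401456) (nat_lit 76) (nat_lit 31486031196) (nat_lit 76) (nat_lit 13024836861) (nat_lit 4) (nat_lit 4) (nat_lit 5) (nat_lit 5) (nat_lit 5) (nat_lit 4) (nat_lit 391) (nat_lit 233) (nat_lit 156))) (XT.nd (nat_lit 78) (nat_lit 0) (nat_lit 0) (XT.lf (nat_lit 0) (nat_lit 33700055858) (nat_lit 76) (nat_lit 30040578529) (nat_lit 76) (nat_lit 11517847289) (nat_lit 4) (nat_lit 4) (nat_lit 5) (nat_lit 5) (nat_lit 5) (nat_lit 4) (nat_lit 392) (nat_lit 233) (nat_lit 155)) (XT.nd (nat_lit 78) (nat_lit 0) (nat_lit 0) (XT.lf (nat_lit 0) (nat_lit 38902181059) (nat_lit 76) (nat_lit 28560453767) (nat_lit 76) (nat_lit 9977977959) (nat_lit 4) (nat_lit 4) (nat_lit 5) (nat_lit 5) (nat_lit 5) (nat_lit 4) (nat_lit 393) (nat_lit 233) (nat_lit 154)) (XT.lf (nat_lit 0) (nat_lit 44240322607) (nat_lit 76) (nat_lit 27044363595) (nat_lit 76) (nat_lit 8403883353) (nat_lit 4) (nat_lit 4) (nat_lit 5) (nat_lit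 5) (nat_lit 5) (nat_lit 4) (nat_lit 394) (nat_lit 233) (nat_lit 153))))) (XT.nd (nat_lit 234) (nat_lit 76) (nat_lit 0) (XT.nd (nat_lit 78) (nat_lit 0) (nat_lit 0) (XT.lf (nat_lit 0) (nat_lit 49719144897) (nat_lit 76) (nat_lit 25490983277) (nat_lit 76) (nat_lit 6794188049) (nat_lit 4) (nat_lit 4) (nat_lit 5) (nat_lit 5) (nat_lit 5) (nat_lit 4) (nat_lit 395) (nat_lit 233) (nat_lit 152)) (XT.nd (nat_lit 78) (nat_lit 0) (nat_lit 0) (XT.lf (nat_lit 0) (nat_lit 55343435248) (nat_lit 76) (nat_lit 23898955489) (nat_lit 76) (nat_lit 5147485518) (nat_lit 4) (nat_lit 4) (nat_lit 5) (nat_lit 5) (nat_lit 5) (nat_lit 4) (nat_lit 396) (nat_lit 233) (nat_lit 151)) (XT.lf (nat_lit 0) (nat_lit 61118108091) (nat_lit 76) (nat_lit 22266889138) (nat_lit 76) (nat_lit 3462336893) (nat_lit 4) (nat_lit 4) (nat_lit 5) (nat_lit 5) (nat_lit 5) (nat_lit 4) (nat_lit 397) (nat_lit 233) (nat_lit 150)))) (XT.nd (nat_lit 78)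 (nat_lit 76) (nat_lit 0) (XT.lf (nat_lit 0) (nat_lit 67048209255) (nat_lit 76) (nat_lit 20593358148) (nat_lit 76) (nat_lit 1737269713) (nat_lit 4) (nat_lit 4) (nat_lit 5) (nat_lit 5) (nat_lit 5) (nat_lit 4) (nat_lit 398) (nat_lit 233) (nat_lit 149)) (XT.nd (nat_lit 78) (nat_lit 0) (nat_lit 0) (XT.lf (nat_lit 0) (nat_lit 28653106) (nat_lit 152) (nat_lit 18847957763) (nat_lit 76) (nat_lit 73109977935) (nat_lit 3) (nat_lit 5) (nat_lit 5) (nat_lit 5) (nat_lit 4) (nat_lit 4) (nat_lit 399) (nat_lit 233) (nat_lit 148)) (XT.lf (nat_lit 0) (nat_lit 1802806480) (nat_lit 152) (nat_lit 15295004214) (nat_lit 76) (nat_lit 77574552161) (nat_lit 3) (nat_lit 5) (nat_lit 5) (nat_lit 5) (nat_lit 4) (nat_lit 4) (nat_lit 400) (nat_lit 233) (nat_lit 147))))))) (XT.nd (nat_lit 34476) (nat_lit 0) (nat_lit 1444) (XT.nd (nat_lit 34008) (nat_lit 0) (nat_lit 2356) (XT.nd (nat_lit 33774) (nat_lit 0) (nat_lit 3116) (XT.nd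 (nat_lit 33696) (nat_lit 0) (nat_lit 3724) (XT.lf (nat_lit 0) (nat_lit 3620641029) (nat_lit 152) (nat_lit 11651962993) (nat_lit 76) (nat_lit 82166403031) (nat_lit 3) (nat_lit 5) (nat_lit 5) (nat_lit 5) (nat_lit 4) (nat_lit 4) (nat_lit 401) (nat_lit 233) (nat_lit 146)) (XT.lf (nat_lit 0) (nat_lit 1643161337) (nat_lit 304) (nat_lit 1872623410) (nat_lit 0) (nat_lit 1643161337) (nat_lit 52) (nat_lit 5) (nat_lit 56) (nat_lit 4) (nat_lit 52) (nat_lit 4) (nat_lit 312) (nat_lit 234) (nat_lit 234))) (XT.nd (nat_lit 78) (nat_lit 304) (nat_lit 0) (XT.lf (nat_lit 0) (nat_lit 1789814801) (nat_lit 304) (nat_lit 4756908908) (nat_lit 304) (nat_lit 3951578314) (nat_lit 48) (nat_lit 4) (nat_lit 52) (nat_lit 5) (nat_lit 52) (nat_lit 4) (nat_lit 313) (nat_lit 234) (nat_lit 233)) (XT.nd (nat_lit 78) (nat_lit 304) (nat_lit 0) (XT.lf (nat_lit 0) (nat_lit 7457097634) (nat_lit 304) (nat_lit 2407806929) (nat_lit 304)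 (nat_lit 820601973) (nat_lit 48) (nat_lit 4) (nat_lit 52) (nat_lit 5) (nat_lit 52) (nat_lit 4) (nat_lit 314) (nat_lit 234) (nat_lit 232)) (XT.lf (nat_lit 0) (nat_lit 2303523230) (nat_lit 304) (nat_lit 8550341532) (nat_lit 0) (nat_lit 25555968) (nat_lit 44) (nat_lit 5) (nat_lit 48) (nat_lit 4) (nat_lit 44) (nat_lit 4) (nat_lit 315) (nat_lit 234) (nat_lit 231))))) (XT.nd (nat_lit 234) (nat_lit 456) (nat_lit 0) (XT.nd (nat_lit 78) (nat_lit 304) (nat_lit 0) (XT.lf (nat_lit 0) (nat_lit 5486012410) (nat_lit 304) (nat_lit 3101108847) (nat_lit 0) (nat_lit 2492519347) (nat_lit 44) (nat_lit 5) (nat_lit 48) (nat_lit 4) (nat_lit 44) (nat_lit 4) (nat_lit 316) (nat_lit 234) (nat_lit 230)) (XT.nd (nat_lit 78) (nat_lit 76) (nat_lit 0) (XT.lf (nat_lit 0) (nat_lit 2452547740) (nat_lit 228) (nat_lit 6261577175) (nat_lit 228) (nat_lit 2573398867) (nat_lit 41) (nat_lit 4) (nat_lit 44) (nat_lit 5) (nat_lit 44) (nat_lit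 4) (nat_lit 317) (nat_lit 234) (nat_lit 229)) (XT.lf (nat_lit 0) (nat_lit 485400136) (nat_lit 304) (nat_lit 3377267724) (nat_lit 76) (nat_lit 7640219021) (nat_lit 40) (nat_lit 5) (nat_lit 44) (nat_lit 5) (nat_lit 41) (nat_lit 4) (nat_lit 318) (nat_lit 234) (nat_lit 228)))) (XT.nd (nat_lit 78) (nat_lit 228) (nat_lit 0) (XT.lf (nat_lit 0) (nat_lit 2156431407) (nat_lit 228) (nat_lit 1377494148) (nat_lit 304) (nat_lit 8191677876) (nat_lit 37) (nat_lit 5) (nat_lit 40) (nat_lit 5) (nat_lit 41) (nat_lit 4) (nat_lit 319) (nat_lit 234) (nat_lit 227)) (XT.nd (nat_lit 78) (nat_lit 228) (nat_lit 0) (XT.lf (nat_lit 0) (nat_lit 6649424316) (nat_lit 304) (nat_lit 4145547871) (nat_lit 0) (nat_lit 1160906959) (nat_lit 37) (nat_lit 5) (nat_lit 41) (nat_lit 4) (nat_lit 37) (nat_lit 4) (nat_lit 320) (nat_lit 234) (nat_lit 226)) (XT.lf (nat_lit 0) (nat_lit 1351341553) (nat_lit 228) (nat_lit 8465433965) (nat_lit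 228) (nat_lit 2377675013) (nat_lit 34) (nat_lit 4) (nat_lit 37) (nat_lit 5) (nat_lit 37) (nat_lit 4) (nat_lit 321) (nat_lit 234) (nat_lit 225)))))) (XT.nd (nat_lit 468) (nat_lit 380) (nat_lit 0) (XT.nd (nat_lit 234) (nat_lit 304) (nat_lit 0) (XT.nd (nat_lit 78) (nat_lit 152) (nat_lit 0) (XT.lf (nat_lit 0) (nat_lit 600752131) (nat_lit 304) (nat_lit 5450020081) (nat_lit 76) (nat_lit 6390126050) (nat_lit 33) (nat_lit 5) (nat_lit 37) (nat_lit 5) (nat_lit 34) (nat_lit 4) (nat_lit 322) (nat_lit 234) (nat_lit 224)) (XT.nd (nat_lit 78) (nat_lit 152) (nat_lit 0) (XT.lf (nat_lit 0) (nat_lit 3554700579) (nat_lit 304) (nat_lit 18347407) (nat_lit 76) (nat_lit 9123093704) (nat_lit 33) (nat_lit 5) (nat_lit 37) (nat_lit 5) (nat_lit 34) (nat_lit 4) (nat_lit 323) (nat_lit 234) (nat_lit 223)) (XT.lf (nat_lit 0) (nat_lit 5588563842) (nat_lit 152) (nat_lit 998305306) (nat_lit 228) (nat_lit 6372608742) (nat_lit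 31) (nat_lit 5) (nat_lit 33) (nat_lit 5) (nat_lit 34) (nat_lit 4) (nat_lit 324) (nat_lit 234) (nat_lit 222)))) (XT.nd (nat_lit 78) (nat_lit 304) (nat_lit 0) (XT.lf (nat_lit 0) (nat_lit 9662599750) (nat_lit 228) (nat_lit 1980065355) (nat_lit 0) (nat_lit 1589591086) (nat_lit 31) (nat_lit 5) (nat_lit 34) (nat_lit 4) (nat_lit 31) (nat_lit 4) (nat_lit 325) (nat_lit 234) (nat_lit 221)) (XT.nd (nat_lit 78) (nat_lit 76) (nat_lit 0) (XT.lf (nat_lit 0) (nat_lit 3536966601) (nat_lit 228) (nat_lit 9275882170) (nat_lit 228) (nat_lit 701018105) (nat_lit 28) (nat_lit 4) (nat_lit 31) (nat_lit 5) (nat_lit 31) (nat_lit 4) (nat_lit 326) (nat_lit 234) (nat_lit 220)) (XT.lf (nat_lit 0) (nat_lit 2168439366) (nat_lit 304) (nat_lit 4660170405) (nat_lit 76) (nat_lit 6976013824) (nat_lit 27) (nat_lit 5) (nat_lit 31) (nat_lit 5) (nat_lit 28) (nat_lit 4) (nat_lit 327) (nat_lit 234) (nat_lit 219))))) (XT.nd (nat_lit 234)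 (nat_lit 228) (nat_lit 0) (XT.nd (nat_lit 78) (nat_lit 0) (nat_lit 0) (XT.lf (nat_lit 0) (nat_lit 731074277) (nat_lit 152) (nat_lit 4326178650) (nat_lit 228) (nat_lit 9048327551) (nat_lit 25) (nat_lit 5) (nat_lit 27) (nat_lit 5) (nat_lit 28) (nat_lit 4) (nat_lit 328) (nat_lit 234) (nat_lit 218)) (XT.nd (nat_lit 78) (nat_lit 0) (nat_lit 0) (XT.lf (nat_lit 0) (nat_lit 6288178045) (nat_lit 152) (nat_lit 1732805204) (nat_lit 228) (nat_lit 6395038697) (nat_lit 25) (nat_lit 5) (nat_lit 27) (nat_lit 5) (nat_lit 28) (nat_lit 4) (nat_lit 329) (nat_lit 234) (nat_lit 217)) (XT.lf (nat_lit 0) (nat_lit 11025247980) (nat_lit 228) (nat_lit 2823055731) (nat_lit 0) (nat_lit 889024703) (nat_lit 25) (nat_lit 5) (nat_lit 28) (nat_lit 4) (nat_lit 25) (nat_lit 4) (nat_lit 330) (nat_lit 234) (nat_lit 216)))) (XT.nd (nat_lit 78) (nat_lit 76) (nat_lit 0) (XT.lf (nat_lit 0) (nat_lit 2586567781) (nat_lit 152) (nat_lit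 11519367126) (nat_lit 152) (nat_lit 962847852) (nat_lit 23) (nat_lit 4) (nat_lit 25) (nat_lit 5) (nat_lit 25) (nat_lit 4) (nat_lit 331) (nat_lit 234) (nat_lit 215)) (XT.nd (nat_lit 78) (nat_lit 0) (nat_lit 0) (XT.lf (nat_lit 0) (nat_lit 1805609445) (nat_lit 228) (nat_lit 7299186466) (nat_lit 76) (nat_lit 6305741316) (nat_lit 22) (nat_lit 5) (nat_lit 25) (nat_lit 5) (nat_lit 23) (nat_lit 4) (nat_lit 332) (nat_lit 234) (nat_lit 214)) (XT.lf (nat_lit 0) (nat_lit 4583813204) (nat_lit 228) (nat_lit 2055602123) (nat_lit 76) (nat_lit 9124550892) (nat_lit 22) (nat_lit 5) (nat_lit 25) (nat_lit 5) (nat_lit 23) (nat_lit 4) (nat_lit 333) (nat_lit 234) (nat_lit 213))))))))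
noncomputable def xc46 : XT := (XT.nd (nat_lit 1716) (nat_lit 304) (nat_lit 0) (XT.nd (nat_lit 858) (nat_lit 380) (nat_lit 0) (XT.nd (nat_lit 390) (nat_lit 228) (nat_lit 0) (XT.nd (nat_lit 156) (nat_lit 228) (nat_lit 0) (XT.nd (nat_lit 78) (nat_lit 0) (nat_lit 0) (XT.lf (nat_lit 0) (nat_lit 3327302972) (nat_lit 152) (nat_lit 4097660711) (nat_lit 228) (nat_lit 8703733014) (nat_lit 20) (nat_lit 5) (nat_lit 22) (nat_lit 5) (nat_lit 23) (nat_lit 4) (nat_lit 334) (nat_lit 234) (nat_lit 212)) (XT.lf (nat_lit 0) (nat_lit 8831731491) (nat_lit 152) (nat_lit 1488727792) (nat_lit 228) (nat_lit 6184920599) (nat_lit 20) (nat_lit 5) (nat_lit 22) (nat_lit 5) (nat_lit 23) (nat_lit 4) (nat_lit 335) (nat_lit 234) (nat_lit 211))) (XT.nd (nat_lit 78) (nat_lit 228) (nat_lit 0) (XT.lf (nat_lit 0) (nat_lit 13263913324) (nat_lit 228) (nat_lit 2484603125) (nat_lit 0) (nat_lit 1146095969) (nat_lit 20) (nat_lit 5) (nat_lit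 23) (nat_lit 4) (nat_lit 20) (nat_lit 4) (nat_lit 336) (nat_lit 234) (nat_lit 210)) (XT.nd (nat_lit 78) (nat_lit 76) (nat_lit 0) (XT.lf (nat_lit 0) (nat_lit 2821784400) (nat_lit 152) (nat_lit 13466793042) (nat_lit 152) (nat_lit 1007236579) (nat_lit 18) (nat_lit 4) (nat_lit 20) (nat_lit 5) (nat_lit 20) (nat_lit 4) (nat_lit 337) (nat_lit 234) (nat_lit 209)) (XT.lf (nat_lit 0) (nat_lit 1638359339) (nat_lit 228) (nat_lit 9465472545) (nat_lit 76) (nat_lit 6605510627) (nat_lit 17) (nat_lit 5) (nat_lit 20) (nat_lit 5) (nat_lit 18) (nat_lit 4) (nat_lit 338) (nat_lit 234) (nat_lit 208))))) (XT.nd (nat_lit 234) (nat_lit 152) (nat_lit 0) (XT.nd (nat_lit 78) (nat_lit 76) (nat_lit 0) (XT.lf (nat_lit 0) (nat_lit 4295666718) (nat_lit 228) (nat_lit 4393260451) (nat_lit 76) (nat_lit 9447545421) (nat_lit 17) (nat_lit 5) (nat_lit 20) (nat_lit 5) (nat_lit 18) (nat_lit 4) (nat_lit 339) (nat_lit 234) (nat_lit 207))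 (XT.nd (nat_lit 78) (nat_lit 0) (nat_lit 0) (XT.lf (nat_lit 0) (nat_lit 771781093) (nat_lit 76) (nat_lit 6222300028) (nat_lit 152) (nat_lit 11583564260) (nat_lit 16) (nat_lit 5) (nat_lit 17) (nat_lit 5) (nat_lit 18) (nat_lit 4) (nat_lit 340) (nat_lit 234) (nat_lit 206)) (XT.lf (nat_lit 0) (nat_lit 6108163659) (nat_lit 76) (nat_lit 3664249155) (nat_lit 152) (nat_lit 9259739985) (nat_lit 16) (nat_lit 5) (nat_lit 17) (nat_lit 5) (nat_lit 18) (nat_lit 4) (nat_lit 341) (nat_lit 234) (nat_lit 205)))) (XT.nd (nat_lit 78) (nat_lit 152) (nat_lit 0) (XT.lf (nat_lit 0) (nat_lit 11533115607) (nat_lit 76) (nat_lit 1056902677) (nat_lit 152) (nat_lit 6911665841) (nat_lit 16) (nat_lit 5) (nat_lit 17) (nat_lit 5) (nat_lit 18) (nat_lit 4) (nat_lit 342) (nat_lit 234) (nat_lit 204)) (XT.nd (nat_lit 78) (nat_lit 152) (nat_lit 0) (XT.lf (nat_lit 0) (nat_lit 15464759092) (nat_lit 152) (nat_lit 2950672014) (nat_lit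 0) (nat_lit 1570756534) (nat_lit 16) (nat_lit 5) (nat_lit 18) (nat_lit 4) (nat_lit 16) (nat_lit 4) (nat_lit 343) (nat_lit 234) (nat_lit 203)) (XT.lf (nat_lit 0) (nat_lit 2181387000) (nat_lit 152) (nat_lit 16233993628) (nat_lit 152) (nat_lit 2070219064) (nat_lit 14) (nat_lit 4) (nat_lit 16) (nat_lit 5) (nat_lit 16) (nat_lit 4) (nat_lit 344) (nat_lit 234) (nat_lit 202)))))) (XT.nd (nat_lit 390) (nat_lit 228) (nat_lit 0) (XT.nd (nat_lit 156) (nat_lit 76) (nat_lit 0) (XT.nd (nat_lit 78) (nat_lit 0) (nat_lit 0) (XT.lf (nat_lit 0) (nat_lit 434051307) (nat_lit 228) (nat_lit 13544564980) (nat_lit 76) (nat_lit 7021653915) (nat_lit 13) (nat_lit 5) (nat_lit 16) (nat_lit 5) (nat_lit 14) (nat_lit 4) (nat_lit 345) (nat_lit 234) (nat_lit 201)) (XT.lf (nat_lit 0) (nat_lit 2931357954) (nat_lit 228) (nat_lit 8729318477) (nat_lit 76) (nat_lit 9870361231) (nat_lit 13) (nat_lit 5) (nat_lit 16) (nat_lit 5) (nat_lit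 14) (nat_lit 4) (nat_lit 346) (nat_lit 234) (nat_lit 200))) (XT.nd (nat_lit 78) (nat_lit 76) (nat_lit 0) (XT.lf (nat_lit 0) (nat_lit 5464280420) (nat_lit 228) (nat_lit 3834365474) (nat_lit 76) (nat_lit 12780316962) (nat_lit 13) (nat_lit 5) (nat_lit 16) (nat_lit 5) (nat_lit 14) (nat_lit 4) (nat_lit 347) (nat_lit 234) (nat_lit 199)) (XT.nd (nat_lit 78) (nat_lit 0) (nat_lit 0) (XT.lf (nat_lit 0) (nat_lit 1167350383) (nat_lit 76) (nat_lit 6878902841) (nat_lit 152) (nat_lit 14597934689) (nat_lit 12) (nat_lit 5) (nat_lit 13) (nat_lit 5) (nat_lit 14) (nat_lit 4) (nat_lit 348) (nat_lit 234) (nat_lit 198)) (XT.lf (nat_lit 0) (nat_lit 6335469826) (nat_lit 76) (nat_lit 4371289381) (nat_lit 152) (nat_lit 12519630710) (nat_lit 12) (nat_lit 5) (nat_lit 13) (nat_lit 5) (nat_lit 14) (nat_lit 4) (nat_lit 349) (nat_lit 234) (nat_lit 197))))) (XT.nd (nat_lit 234) (nat_lit 228) (nat_lit 0) (XT.nd (nat_lit 78)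 (nat_lit 0) (nat_lit 0) (XT.lf (nat_lit 0) (nat_lit 11598197296) (nat_lit 76) (nat_lit 1812333970) (nat_lit 152) (nat_lit 10416674079) (nat_lit 12) (nat_lit 5) (nat_lit 13) (nat_lit 5) (nat_lit 14) (nat_lit 4) (nat_lit 350) (nat_lit 234) (nat_lit 196)) (XT.nd (nat_lit 78) (nat_lit 0) (nat_lit 0) (XT.lf (nat_lit 0) (nat_lit 16167623925) (nat_lit 152) (nat_lit 7494719893) (nat_lit 0) (nat_lit 784584600) (nat_lit 12) (nat_lit 5) (nat_lit 14) (nat_lit 4) (nat_lit 12) (nat_lit 4) (nat_lit 351) (nat_lit 234) (nat_lit 195)) (XT.lf (nat_lit 0) (nat_lit 18990705797) (nat_lit 152) (nat_lit 2694178370) (nat_lit 0) (nat_lit 3400908692) (nat_lit 12) (nat_lit 5) (nat_lit 14) (nat_lit 4) (nat_lit 12) (nat_lit 4) (nat_lit 352) (nat_lit 234) (nat_lit 194)))) (XT.nd (nat_lit 78) (nat_lit 76) (nat_lit 0) (XT.lf (nat_lit 0) (nat_lit 2237901958) (nat_lit 152) (nat_lit 19648432514) (nat_lit 152) (nat_lit 3857899700)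 (nat_lit 10) (nat_lit 4) (nat_lit 12) (nat_lit 5) (nat_lit 12) (nat_lit 4) (nat_lit 353) (nat_lit 234) (nat_lit 193)) (XT.nd (nat_lit 78) (nat_lit 76) (nat_lit 0) (XT.lf (nat_lit 0) (nat_lit 7317576205) (nat_lit 152) (nat_lit 17545249883) (nat_lit 152) (nat_lit 1559828030) (nat_lit 10) (nat_lit 4) (nat_lit 12) (nat_lit 5) (nat_lit 12) (nat_lit 4) (nat_lit 354) (nat_lit 234) (nat_lit 192)) (XT.lf (nat_lit 0) (nat_lit 758827888) (nat_lit 228) (nat_lit 14634213896) (nat_lit 76) (nat_lit 11729172925) (nat_lit 9) (nat_lit 5) (nat_lit 12) (nat_lit 5) (nat_lit 10) (nat_lit 4) (nat_lit 355) (nat_lit 234) (nat_lit 191))))))) (XT.nd (nat_lit 858) (nat_lit 152) (nat_lit 0) (XT.nd (nat_lit 390) (nat_lit 76) (nat_lit 0) (XT.nd (nat_lit 156) (nat_lit 76) (nat_lit 0) (XT.nd (nat_lit 78) (nat_lit 0) (nat_lit 0) (XT.lf (nat_lit 0) (nat_lit 3084035400) (nat_lit 228) (nat_lit 10097744256) (nat_lit 76) (nat_lit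 14661510237) (nat_lit 9) (nat_lit 5) (nat_lit 12) (nat_lit 5) (nat_lit 10) (nat_lit 4) (nat_lit 356) (nat_lit 234) (nat_lit 190)) (XT.lf (nat_lit 0) (nat_lit 5448264103) (nat_lit 228) (nat_lit 5476711067) (nat_lit 76) (nat_lit 17661984386) (nat_lit 9) (nat_lit 5) (nat_lit 12) (nat_lit 5) (nat_lit 10) (nat_lit 4) (nat_lit 357) (nat_lit 234) (nat_lit 189))) (XT.nd (nat_lit 78) (nat_lit 76) (nat_lit 0) (XT.lf (nat_lit 0) (nat_lit 7853579828) (nat_lit 228) (nat_lit 767076532) (nat_lit 76) (nat_lit 20733217146) (nat_lit 9) (nat_lit 5) (nat_lit 12) (nat_lit 5) (nat_lit 10) (nat_lit 4) (nat_lit 358) (nat_lit 234) (nat_lit 188)) (XT.nd (nat_lit 78) (nat_lit 0) (nat_lit 0) (XT.lf (nat_lit 0) (nat_lit 4115584438) (nat_lit 76) (nat_lit 6226061383) (nat_lit 152) (nat_lit 19801869196) (nat_lit 8) (nat_lit 5) (nat_lit 9) (nat_lit 5) (nat_lit 10) (nat_lit 4) (nat_lit 359) (nat_lit 234) (nat_lit 187)) (XT.lf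 (nat_lit 0) (nat_lit 9112353280) (nat_lit 76) (nat_lit 3771157242) (nat_lit 152) (nat_lit 18073997313) (nat_lit 8) (nat_lit 5) (nat_lit 9) (nat_lit 5) (nat_lit 10) (nat_lit 4) (nat_lit 360) (nat_lit 234) (nat_lit 186))))) (XT.nd (nat_lit 234) (nat_lit 76) (nat_lit 0) (XT.nd (nat_lit 78) (nat_lit 0) (nat_lit 0) (XT.lf (nat_lit 0) (nat_lit 14212329774) (nat_lit 76) (nat_lit 1261544845) (nat_lit 152) (nat_lit 16322914207) (nat_lit 8) (nat_lit 5) (nat_lit 9) (nat_lit 5) (nat_lit 10) (nat_lit 4) (nat_lit 361) (nat_lit 234) (nat_lit 185)) (XT.nd (nat_lit 78) (nat_lit 0) (nat_lit 0) (XT.lf (nat_lit 0) (nat_lit 18127545694) (nat_lit 152) (nat_lit 13254665290) (nat_lit 0) (nat_lit 1279504034) (nat_lit 8) (nat_lit 5) (nat_lit 10) (nat_lit 4) (nat_lit 8) (nat_lit 4) (nat_lit 362) (nat_lit 234) (nat_lit 184)) (XT.lf (nat_lit 0) (nat_lit 20846982637) (nat_lit 152) (nat_lit 8852130101) (nat_lit 0) (nat_lit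 3853925229) (nat_lit 8) (nat_lit 5) (nat_lit 10) (nat_lit 4) (nat_lit 8) (nat_lit 4) (nat_lit 363) (nat_lit 234) (nat_lit 183)))) (XT.nd (nat_lit 78) (nat_lit 76) (nat_lit 0) (XT.lf (nat_lit 0) (nat_lit 23622434914) (nat_lit 152) (nat_lit 4360879870) (nat_lit 0) (nat_lit 6488585519) (nat_lit 8) (nat_lit 5) (nat_lit 10) (nat_lit 4) (nat_lit 8) (nat_lit 4) (nat_lit 364) (nat_lit 234) (nat_lit 182)) (XT.nd (nat_lit 78) (nat_lit 0) (nat_lit 0) (XT.lf (nat_lit 0) (nat_lit 227448129) (nat_lit 76) (nat_lit 26231065919) (nat_lit 76) (nat_lit 8960525273) (nat_lit 7) (nat_lit 4) (nat_lit 8) (nat_lit 5) (nat_lit 8) (nat_lit 4) (nat_lit 365) (nat_lit 234) (nat_lit 181)) (XT.lf (nat_lit 0) (nat_lit 5001134386) (nat_lit 76) (nat_lit 24398076722) (nat_lit 76) (nat_lit 6994826125) (nat_lit 7) (nat_lit 4) (nat_lit 8) (nat_lit 5) (nat_lit 8) (nat_lit 4) (nat_lit 366) (nat_lit 234) (nat_lit 180)))))) (XT.nd (nat_lit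 390) (nat_lit 76) (nat_lit 0) (XT.nd (nat_lit 156) (nat_lit 76) (nat_lit 0) (XT.nd (nat_lit 78) (nat_lit 0) (nat_lit 0) (XT.lf (nat_lit 0) (nat_lit 9877560022) (nat_lit 76) (nat_lit 22526781889) (nat_lit 76) (nat_lit 4994686678) (nat_lit 7) (nat_lit 4) (nat_lit 8) (nat_lit 5) (nat_lit 8) (nat_lit 4) (nat_lit 367) (nat_lit 234) (nat_lit 179)) (XT.lf (nat_lit 0) (nat_lit 14860985992) (nat_lit 76) (nat_lit 20615546307) (nat_lit 76) (nat_lit 2958359239) (nat_lit 7) (nat_lit 4) (nat_lit 8) (nat_lit 5) (nat_lit 8) (nat_lit 4) (nat_lit 368) (nat_lit 234) (nat_lit 178))) (XT.nd (nat_lit 78) (nat_lit 76) (nat_lit 0) (XT.lf (nat_lit 0) (nat_lit 19955766745) (nat_lit 76) (nat_lit 18662699964) (nat_lit 76) (nat_lit 884064491) (nat_lit 7) (nat_lit 4) (nat_lit 8) (nat_lit 5) (nat_lit 8) (nat_lit 4) (nat_lit 369) (nat_lit 234) (nat_lit 177)) (XT.nd (nat_lit 78) (nat_lit 0) (nat_lit 0) (XT.lf (nat_lit 0) (nat_lit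 1206008128) (nat_lit 152) (nat_lit 15448350045) (nat_lit 76) (nat_lit 23948167586) (nat_lit 6) (nat_lit 5) (nat_lit 8) (nat_lit 5) (nat_lit 7) (nat_lit 4) (nat_lit 370) (nat_lit 234) (nat_lit 176)) (XT.lf (nat_lit 0) (nat_lit 3319644220) (nat_lit 152) (nat_lit 11272145549) (nat_lit 76) (nat_lit 27144134675) (nat_lit 6) (nat_lit 5) (nat_lit 8) (nat_lit 5) (nat_lit 7) (nat_lit 4) (nat_lit 371) (nat_lit 234) (nat_lit 175))))) (XT.nd (nat_lit 234) (nat_lit 0) (nat_lit 0) (XT.nd (nat_lit 78) (nat_lit 76) (nat_lit 0) (XT.lf (nat_lit 0) (nat_lit 5475941933) (nat_lit 152) (nat_lit 7006003686) (nat_lit 76) (nat_lit 30422026927) (nat_lit 6) (nat_lit 5) (nat_lit 8) (nat_lit 5) (nat_lit 7) (nat_lit 4) (nat_lit 372) (nat_lit 234) (nat_lit 174)) (XT.nd (nat_lit 78) (nat_lit 76) (nat_lit 0) (XT.lf (nat_lit 0) (nat_lit 7676785411) (nat_lit 152) (nat_lit 2646196761) (nat_lit 76) (nat_lit 33784708519) (nat_lit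 6) (nat_lit 5) (nat_lit 8) (nat_lit 5) (nat_lit 7) (nat_lit 4) (nat_lit 373) (nat_lit 234) (nat_lit 173)) (XT.lf (nat_lit 0) (nat_lit 1847128903) (nat_lit 76) (nat_lit 8094724550) (nat_lit 152) (nat_lit 35405744547) (nat_lit 5) (nat_lit 5) (nat_lit 6) (nat_lit 5) (nat_lit 7) (nat_lit 4) (nat_lit 374) (nat_lit 234) (nat_lit 172)))) (XT.nd (nat_lit 78) (nat_lit 0) (nat_lit 0) (XT.lf (nat_lit 0) (nat_lit 6496505835) (nat_lit 76) (nat_lit 5785785085) (nat_lit 152) (nat_lit 34342211996) (nat_lit 5) (nat_lit 5) (nat_lit 6) (nat_lit 5) (nat_lit 7) (nat_lit 4) (nat_lit 375) (nat_lit 234) (nat_lit 171)) (XT.nd (nat_lit 78) (nat_lit 0) (nat_lit 0) (XT.lf (nat_lit 0) (nat_lit 11253332093) (nat_lit 76) (nat_lit 3420867658) (nat_lit 152) (nat_lit 33266099725) (nat_lit 5) (nat_lit 5) (nat_lit 6) (nat_lit 5) (nat_lit 7) (nat_lit 4) (nat_lit 376) (nat_lit 234) (nat_lit 170)) (XT.lf (nat_lit 0) (nat_lit 16121764125)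 (nat_lit 76) (nat_lit 997905835) (nat_lit 152) (nat_lit 32176467443) (nat_lit 5) (nat_lit 5) (nat_lit 6) (nat_lit 5) (nat_lit 7) (nat_lit 4) (nat_lit 377) (nat_lit 234) (nat_lit 169))))))))
noncomputable def xc47 : XT := (XT.nd (nat_lit 1716) (nat_lit 76) (nat_lit 0) (XT.nd (nat_lit 858) (nat_lit 0) (nat_lit 0) (XT.nd (nat_lit 390) (nat_lit 76) (nat_lit 0) (XT.nd (nat_lit 156) (nat_lit 0) (nat_lit 0) (XT.nd (nat_lit 78) (nat_lit 0) (nat_lit 0) (XT.lf (nat_lit 0) (nat_lit 19635115188) (nat_lit 152) (nat_lit 29601422328) (nat_lit 0) (nat_lit 1456235590) (nat_lit 5) (nat_lit 5) (nat_lit 7) (nat_lit 4) (nat_lit 5) (nat_lit 4) (nat_lit 378) (nat_lit 234) (nat_lit 168)) (XT.lf (nat_lit 0) (nat_lit 22218635747) (nat_lit 152) (nat_lit 25960894891) (nat_lit 0) (nat_lit 3952019238) (nat_lit 5) (nat_lit 5) (nat_lit 7) (nat_lit 4) (nat_lit 5) (nat_lit 4) (nat_lit 379) (nat_lit 234) (nat_lit 167))) (XT.nd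 (nat_lit 78) (nat_lit 0) (nat_lit 0) (XT.lf (nat_lit 0) (nat_lit 24862896603) (nat_lit 152) (nat_lit 22240017441) (nat_lit 0) (nat_lit 6511098626) (nat_lit 5) (nat_lit 5) (nat_lit 7) (nat_lit 4) (nat_lit 5) (nat_lit 4) (nat_lit 380) (nat_lit 234) (nat_lit 166)) (XT.nd (nat_lit 78) (nat_lit 0) (nat_lit 0) (XT.lf (nat_lit 0) (nat_lit 27570208275) (nat_lit 152) (nat_lit 18435538727) (nat_lit 0) (nat_lit 9135709844) (nat_lit 5) (nat_lit 5) (nat_lit 7) (nat_lit 4) (nat_lit 5) (nat_lit 4) (nat_lit 381) (nat_lit 234) (nat_lit 165)) (XT.lf (nat_lit 0) (nat_lit 30342936375) (nat_lit 152) (nat_lit 14544134447) (nat_lit 0) (nat_lit 11828146240) (nat_lit 5) (nat_lit 5) (nat_lit 7) (nat_lit 4) (nat_lit 5) (nat_lit 4) (nat_lit 382) (nat_lit 234) (nat_lit 164))))) (XT.nd (nat_lit 234) (nat_lit 76) (nat_lit 0) (XT.nd (nat_lit 78) (nat_lit 0) (nat_lit 0) (XT.lf (nat_lit 0) (nat_lit 33183503675) (nat_lit 152)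 (nat_lit 10562404344) (nat_lit 0) (nat_lit 14590760430) (nat_lit 5) (nat_lit 5) (nat_lit 7) (nat_lit 4) (nat_lit 5) (nat_lit 4) (nat_lit 383) (nat_lit 234) (nat_lit 163)) (XT.nd (nat_lit 78) (nat_lit 0) (nat_lit 0) (XT.lf (nat_lit 0) (nat_lit 36094392223) (nat_lit 152) (nat_lit 6486869238) (nat_lit 0) (nat_lit 17425966347) (nat_lit 5) (nat_lit 5) (nat_lit 7) (nat_lit 4) (nat_lit 5) (nat_lit 4) (nat_lit 384) (nat_lit 234) (nat_lit 162)) (XT.lf (nat_lit 0) (nat_lit 39078145516) (nat_lit 152) (nat_lit 2313967980) (nat_lit 0) (nat_lit 20336241357) (nat_lit 5) (nat_lit 5) (nat_lit 7) (nat_lit 4) (nat_lit 5) (nat_lit 4) (nat_lit 385) (nat_lit 234) (nat_lit 161)))) (XT.nd (nat_lit 78) (nat_lit 0) (nat_lit 0) (XT.lf (nat_lit 0) (nat_lit 1998952413) (nat_lit 76) (nat_lit 40157633455) (nat_lit 76) (nat_lit 21344391158) (nat_lit 4) (nat_lit 4) (nat_lit 5) (nat_lit 5) (nat_lit 5) (nat_lit 4) (nat_lit 386)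 (nat_lit 234) (nat_lit 160)) (XT.nd (nat_lit 78) (nat_lit 0) (nat_lit 0) (XT.lf (nat_lit 0) (nat_lit 6464756839) (nat_lit 76) (nat_lit 38872127289) (nat_lit 76) (nat_lit 19989624664) (nat_lit 4) (nat_lit 4) (nat_lit 5) (nat_lit 5) (nat_lit 5) (nat_lit 4) (nat_lit 387) (nat_lit 234) (nat_lit 159)) (XT.lf (nat_lit 0) (nat_lit 11041294955) (nat_lit 76) (nat_lit 37557838281) (nat_lit 76) (nat_lit 18608092618) (nat_lit 4) (nat_lit 4) (nat_lit 5) (nat_lit 5) (nat_lit 5) (nat_lit 4) (nat_lit 388) (nat_lit 234) (nat_lit 158)))))) (XT.nd (nat_lit 390) (nat_lit 0) (nat_lit 0) (XT.nd (nat_lit 156) (nat_lit 0) (nat_lit 0) (XT.nd (nat_lit 78) (nat_lit 0) (nat_lit 0) (XT.lf (nat_lit 0) (nat_lit 15732565678) (nat_lit 76) (nat_lit 36213618022) (nat_lit 76) (nat_lit 17198587857) (nat_lit 4) (nat_lit 4) (nat_lit 5) (nat_lit 5) (nat_lit 5) (nat_lit 4) (nat_lit 389) (nat_lit 234) (nat_lit 157)) (XT.lf (nat_lit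 0) (nat_lit 20542668177) (nat_lit 76) (nat_lit 34838291952) (nat_lit 76) (nat_lit 15759878775) (nat_lit 4) (nat_lit 4) (nat_lit 5) (nat_lit 5) (nat_lit 5) (nat_lit 4) (nat_lit 390) (nat_lit 234) (nat_lit 156))) (XT.nd (nat_lit 78) (nat_lit 0) (nat_lit 0) (XT.lf (nat_lit 0) (nat_lit 25475805454) (nat_lit 76) (nat_lit 33430658328) (nat_lit 76) (nat_lit 14290708246) (nat_lit 4) (nat_lit 4) (nat_lit 5) (nat_lit 5) (nat_lit 5) (nat_lit 4) (nat_lit 391) (nat_lit 234) (nat_lit 155)) (XT.nd (nat_lit 78) (nat_lit 0) (nat_lit 0) (XT.lf (nat_lit 0) (nat_lit 30536288017) (nat_lit 76) (nat_lit 31989487181) (nat_lit 76) (nat_lit 12789792531) (nat_lit 4) (nat_lit 4) (nat_lit 5) (nat_lit 5) (nat_lit 5) (nat_lit 4) (nat_lit 392) (nat_lit 234) (nat_lit 154)) (XT.lf (nat_lit 0) (nat_lit 35728537647) (nat_lit 76) (nat_lit 30513519233) (nat_lit 76) (nat_lit 11255820148) (nat_lit 4) (nat_lit 4) (nat_lit 5) (nat_lit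 5) (nat_lit 5) (nat_lit 4) (nat_lit 393) (nat_lit 234) (nat_lit 153))))) (XT.nd (nat_lit 234) (nat_lit 0) (nat_lit 0) (XT.nd (nat_lit 78) (nat_lit 0) (nat_lit 0) (XT.lf (nat_lit 0) (nat_lit 41057091262) (nat_lit 76) (nat_lit 29001464805) (nat_lit 76) (nat_lit 9687450735) (nat_lit 4) (nat_lit 4) (nat_lit 5) (nat_lit 5) (nat_lit 5) (nat_lit 4) (nat_lit 394) (nat_lit 234) (nat_lit 152)) (XT.nd (nat_lit 78) (nat_lit 0) (nat_lit 0) (XT.lf (nat_lit 0) (nat_lit 46526604878) (nat_lit 76) (nat_lit 27452002683) (nat_lit 76) (nat_lit 8083313870) (nat_lit 4) (nat_lit 4) (nat_lit 5) (nat_lit 5) (nat_lit 5) (nat_lit 4) (nat_lit 395) (nat_lit 234) (nat_lit 151)) (XT.lf (nat_lit 0) (nat_lit 52141857683) (nat_lit 76) (nat_lit 25863778969) (nat_lit 76) (nat_lit 6442007882) (nat_lit 4) (nat_lit 4) (nat_lit 5) (nat_lit 5) (nat_lit 5) (nat_lit 4) (nat_lit 396) (nat_lit 234) (nat_lit 150)))) (XT.nd (nat_lit 78)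 (nat_lit 0) (nat_lit 0) (XT.lf (nat_lit 0) (nat_lit 57907756209) (nat_lit 76) (nat_lit 24235405895) (nat_lit 76) (nat_lit 4762098619) (nat_lit 4) (nat_lit 4) (nat_lit 5) (nat_lit 5) (nat_lit 5) (nat_lit 4) (nat_lit 397) (nat_lit 234) (nat_lit 149)) (XT.nd (nat_lit 78) (nat_lit 0) (nat_lit 0) (XT.lf (nat_lit 0) (nat_lit 63829338618) (nat_lit 76) (nat_lit 22565460610) (nat_lit 76) (nat_lit 3042118198) (nat_lit 4) (nat_lit 4) (nat_lit 5) (nat_lit 5) (nat_lit 5) (nat_lit 4) (nat_lit 398) (nat_lit 234) (nat_lit 148)) (XT.lf (nat_lit 0) (nat_lit 69911779109) (nat_lit 76) (nat_lit 20852483939) (nat_lit 76) (nat_lit 1280563726) (nat_lit 4) (nat_lit 4) (nat_lit 5) (nat_lit 5) (nat_lit 5) (nat_lit 4) (nat_lit 399) (nat_lit 234) (nat_lit 147))))))) (XT.nd (nat_lit 34320) (nat_lit 0) (nat_lit 1672) (XT.nd (nat_lit 33852) (nat_lit 0) (nat_lit 2812) (XT.nd (nat_lit 33618) (nat_lit 0) (nat_lit 3724) (XT.nd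 (nat_lit 78) (nat_lit 0) (nat_lit 0) (XT.lf (nat_lit 0) (nat_lit 513876862) (nat_lit 152) (nat_lit 18575913094) (nat_lit 76) (nat_lit 75641326425) (nat_lit 3) (nat_lit 5) (nat_lit 5) (nat_lit 5) (nat_lit 4) (nat_lit 4) (nat_lit 400) (nat_lit 234) (nat_lit 146)) (XT.lf (nat_lit 0) (nat_lit 2327147144) (nat_lit 152) (nat_lit 14940763659) (nat_lit 76) (nat_lit 80229991786) (nat_lit 3) (nat_lit 5) (nat_lit 5) (nat_lit 5) (nat_lit 4) (nat_lit 4) (nat_lit 401) (nat_lit 234) (nat_lit 145))) (XT.nd (nat_lit 78) (nat_lit 304) (nat_lit 0) (XT.lf (nat_lit 0) (nat_lit 2729713721) (nat_lit 304) (nat_lit 1128945838) (nat_lit 304) (nat_lit 1128945838) (nat_lit 56) (nat_lit 4) (nat_lit 60) (nat_lit 5) (nat_lit 60) (nat_lit 4) (nat_lit 310) (nat_lit 235) (nat_lit 235)) (XT.nd (nat_lit 78) (nat_lit 0) (nat_lit 0) (XT.lf (nat_lit 0) (nat_lit 890290307) (nat_lit 304) (nat_lit 9193630811) (nat_lit 0) (nat_lit 60799795)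 (nat_lit 52) (nat_lit 5) (nat_lit 56) (nat_lit 4) (nat_lit 52) (nat_lit 4) (nat_lit 311) (nat_lit 235) (nat_lit 234)) (XT.lf (nat_lit 0) (nat_lit 4076851449) (nat_lit 304) (nat_lit 3800271264) (nat_lit 0) (nat_lit 2442030344) (nat_lit 52) (nat_lit 5) (nat_lit 56) (nat_lit 4) (nat_lit 52) (nat_lit 4) (nat_lit 312) (nat_lit 235) (nat_lit 233))))) (XT.nd (nat_lit 234) (nat_lit 304) (nat_lit 0) (XT.nd (nat_lit 78) (nat_lit 304) (nat_lit 0) (XT.lf (nat_lit 0) (nat_lit 1679210274) (nat_lit 304) (nat_lit 5619152084) (nat_lit 304) (nat_lit 3202456616) (nat_lit 48) (nat_lit 4) (nat_lit 52) (nat_lit 5) (nat_lit 52) (nat_lit 4) (nat_lit 313) (nat_lit 235) (nat_lit 232)) (XT.nd (nat_lit 78) (nat_lit 304) (nat_lit 0) (XT.lf (nat_lit 0) (nat_lit 7293595059) (nat_lit 304) (nat_lit 3285714491) (nat_lit 304) (nat_lit 109917700) (nat_lit 48) (nat_lit 4) (nat_lit 52) (nat_lit 5) (nat_lit 52) (nat_lit 4) (nat_lit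 314) (nat_lit 235) (nat_lit 231)) (XT.lf (nat_lit 0) (nat_lit 2098612870) (nat_lit 228) (nat_lit 862668527) (nat_lit 304) (nat_lit 7922908620) (nat_lit 44) (nat_lit 5) (nat_lit 47) (nat_lit 5) (nat_lit 48) (nat_lit 4) (nat_lit 315) (nat_lit 235) (nat_lit 230)))) (XT.nd (nat_lit 78) (nat_lit 304) (nat_lit 0) (XT.lf (nat_lit 0) (nat_lit 6099307272) (nat_lit 304) (nat_lit 3380717539) (nat_lit 0) (nat_lit 1605798371) (nat_lit 44) (nat_lit 5) (nat_lit 48) (nat_lit 4) (nat_lit 44) (nat_lit 4) (nat_lit 316) (nat_lit 235) (nat_lit 229)) (XT.nd (nat_lit 78) (nat_lit 76) (nat_lit 0) (XT.lf (nat_lit 0) (nat_lit 2115225040) (nat_lit 228) (nat_lit 7173834895) (nat_lit 228) (nat_lit 2005874300) (nat_lit 41) (nat_lit 4) (nat_lit 44) (nat_lit 5) (nat_lit 44) (nat_lit 4) (nat_lit 317) (nat_lit 235) (nat_lit 228)) (XT.lf (nat_lit 0) (nat_lit 1006853346) (nat_lit 304) (nat_lit 3778855770) (nat_lit 76) (nat_lit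 6725547119) (nat_lit 40) (nat_lit 5) (nat_lit 44) (nat_lit 5) (nat_lit 41) (nat_lit 4) (nat_lit 318) (nat_lit 235) (nat_lit 227)))))) (XT.nd (nat_lit 468) (nat_lit 456) (nat_lit 0) (XT.nd (nat_lit 234) (nat_lit 228) (nat_lit 0) (XT.nd (nat_lit 78) (nat_lit 228) (nat_lit 0) (XT.lf (nat_lit 0) (nat_lit 1695955390) (nat_lit 228) (nat_lit 2321019418) (nat_lit 304) (nat_lit 7718220636) (nat_lit 37) (nat_lit 5) (nat_lit 40) (nat_lit 5) (nat_lit 41) (nat_lit 4) (nat_lit 319) (nat_lit 235) (nat_lit 226)) (XT.nd (nat_lit 78) (nat_lit 228) (nat_lit 0) (XT.lf (nat_lit 0) (nat_lit 7089787571) (nat_lit 304) (nat_lit 4656878394) (nat_lit 0) (nat_lit 220154257) (nat_lit 37) (nat_lit 5) (nat_lit 41) (nat_lit 4) (nat_lit 37) (nat_lit 4) (nat_lit 320) (nat_lit 235) (nat_lit 225)) (XT.lf (nat_lit 0) (nat_lit 779995768) (nat_lit 228) (nat_lit 9439013739) (nat_lit 228) (nat_lit 1987592469) (nat_lit 34) (nat_lit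 4) (nat_lit 37) (nat_lit 5) (nat_lit 37) (nat_lit 4) (nat_lit 321) (nat_lit 235) (nat_lit 224)))) (XT.nd (nat_lit 78) (nat_lit 152) (nat_lit 0) (XT.lf (nat_lit 0) (nat_lit 950689460) (nat_lit 304) (nat_lit 6086364340) (nat_lit 76) (nat_lit 5416922087) (nat_lit 33) (nat_lit 5) (nat_lit 37) (nat_lit 5) (nat_lit 34) (nat_lit 4) (nat_lit 322) (nat_lit 235) (nat_lit 223)) (XT.nd (nat_lit 78) (nat_lit 152) (nat_lit 0) (XT.lf (nat_lit 0) (nat_lit 3873052180) (nat_lit 304) (nat_lit 702358964) (nat_lit 76) (nat_lit 8134816590) (nat_lit 33) (nat_lit 5) (nat_lit 37) (nat_lit 5) (nat_lit 34) (nat_lit 4) (nat_lit 323) (nat_lit 235) (nat_lit 222)) (XT.lf (nat_lit 0) (nat_lit 4843739141) (nat_lit 152) (nat_lit 2023656143) (nat_lit 228) (nat_lit 6107362491) (nat_lit 31) (nat_lit 5) (nat_lit 33) (nat_lit 5) (nat_lit 34) (nat_lit 4) (nat_lit 324) (nat_lit 235) (nat_lit 221))))) (XT.nd (nat_lit 234) (nat_lit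 152) (nat_lit 0) (XT.nd (nat_lit 78) (nat_lit 304) (nat_lit 0) (XT.lf (nat_lit 0) (nat_lit 9902906436) (nat_lit 228) (nat_lit 2776952530) (nat_lit 0) (nat_lit 568941048) (nat_lit 31) (nat_lit 5) (nat_lit 34) (nat_lit 4) (nat_lit 31) (nat_lit 4) (nat_lit 325) (nat_lit 235) (nat_lit 220)) (XT.nd (nat_lit 78) (nat_lit 76) (nat_lit 0) (XT.lf (nat_lit 0) (nat_lit 2678038164) (nat_lit 228) (nat_lit 10337381961) (nat_lit 228) (nat_lit 516178319) (nat_lit 28) (nat_lit 4) (nat_lit 31) (nat_lit 5) (nat_lit 31) (nat_lit 4) (nat_lit 326) (nat_lit 235) (nat_lit 219)) (XT.lf (nat_lit 0) (nat_lit 2320280440) (nat_lit 304) (nat_lit 5584081195) (nat_lit 76) (nat_lit 5918874467) (nat_lit 27) (nat_lit 5) (nat_lit 31) (nat_lit 5) (nat_lit 28) (nat_lit 4) (nat_lit 327) (nat_lit 235) (nat_lit 218)))) (XT.nd (nat_lit 78) (nat_lit 152) (nat_lit 0) (XT.lf (nat_lit 0) (nat_lit 5173530721) (nat_lit 304) (nat_lit 251251910)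 (nat_lit 76) (nat_lit 8700528212) (nat_lit 27) (nat_lit 5) (nat_lit 31) (nat_lit 5) (nat_lit 28) (nat_lit 4) (nat_lit 328) (nat_lit 235) (nat_lit 217)) (XT.nd (nat_lit 78) (nat_lit 0) (nat_lit 0) (XT.lf (nat_lit 0) (nat_lit 5257134783) (nat_lit 152) (nat_lit 2849538163) (nat_lit 228) (nat_lit 6330046481) (nat_lit 25) (nat_lit 5) (nat_lit 27) (nat_lit 5) (nat_lit 28) (nat_lit 4) (nat_lit 329) (nat_lit 235) (nat_lit 216)) (XT.lf (nat_lit 0) (nat_lit 10849763462) (nat_lit 152) (nat_lit 225152615) (nat_lit 228) (nat_lit 3684238502) (nat_lit 25) (nat_lit 5) (nat_lit 27) (nat_lit 5) (nat_lit 28) (nat_lit 4) (nat_lit 330) (nat_lit 235) (nat_lit 215))))))))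
noncomputable def xc48 : XT := (XT.nd (nat_lit 1716) (nat_lit 456) (nat_lit 0) (XT.nd (nat_lit 858) (nat_lit 304) (nat_lit 0) (XT.nd (nat_lit 390) (nat_lit 304) (nat_lit 0) (XT.nd (nat_lit 156) (nat_lit 152) (nat_lit 0) (XT.nd (nat_lit 78) (nat_lit 76) (nat_lit 0) (XT.lf (nat_lit 0) (nat_lit 1438077699) (nat_lit 152) (nat_lit 12677669377) (nat_lit 152) (nat_lit 976104160) (nat_lit 23) (nat_lit 4) (nat_lit 25) (nat_lit 5) (nat_lit 25) (nat_lit 4) (nat_lit 331) (nat_lit 235) (nat_lit 214)) (XT.lf (nat_lit 0) (nat_lit 1766033013) (nat_lit 228) (nat_lit 8512687488) (nat_lit 76) (nat_lit 5155730348) (nat_lit 22) (nat_lit 5) (nat_lit 25) (nat_lit 5) (nat_lit 23) (nat_lit 4) (nat_lit 332) (nat_lit 235) (nat_lit 213))) (XT.nd (nat_lit 78) (nat_lit 152) (nat_lit 0) (XT.lf (nat_lit 0) (nat_lit 4518432110) (nat_lit 228) (nat_lit 3309947698) (nat_lit 76) (nat_lit 7960316850) (nat_lit 22) (nat_lit 5) (nat_lit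 25) (nat_lit 5) (nat_lit 23) (nat_lit 4) (nat_lit 333) (nat_lit 235) (nat_lit 212)) (XT.nd (nat_lit 78) (nat_lit 0) (nat_lit 0) (XT.lf (nat_lit 0) (nat_lit 2007549344) (nat_lit 152) (nat_lit 5314293895) (nat_lit 228) (nat_lit 8832757511) (nat_lit 20) (nat_lit 5) (nat_lit 22) (nat_lit 5) (nat_lit 23) (nat_lit 4) (nat_lit 334) (nat_lit 235) (nat_lit 211)) (XT.lf (nat_lit 0) (nat_lit 7472711730) (nat_lit 152) (nat_lit 2719926290) (nat_lit 228) (nat_lit 6339427168) (nat_lit 20) (nat_lit 5) (nat_lit 22) (nat_lit 5) (nat_lit 23) (nat_lit 4) (nat_lit 335) (nat_lit 235) (nat_lit 210))))) (XT.nd (nat_lit 234) (nat_lit 76) (nat_lit 0) (XT.nd (nat_lit 78) (nat_lit 228) (nat_lit 0) (XT.lf (nat_lit 0) (nat_lit 13024440396) (nat_lit 152) (nat_lit 76434051) (nat_lit 228) (nat_lit 3821518861) (nat_lit 20) (nat_lit 5) (nat_lit 22) (nat_lit 5) (nat_lit 23) (nat_lit 4) (nat_lit 336) (nat_lit 235) (nat_lit 209))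 (XT.nd (nat_lit 78) (nat_lit 76) (nat_lit 0) (XT.lf (nat_lit 0) (nat_lit 1342690363) (nat_lit 152) (nat_lit 14744480649) (nat_lit 152) (nat_lit 1237612843) (nat_lit 18) (nat_lit 4) (nat_lit 20) (nat_lit 5) (nat_lit 20) (nat_lit 4) (nat_lit 337) (nat_lit 235) (nat_lit 208)) (XT.lf (nat_lit 0) (nat_lit 1389122900) (nat_lit 228) (nat_lit 11009070202) (nat_lit 76) (nat_lit 5340922089) (nat_lit 17) (nat_lit 5) (nat_lit 20) (nat_lit 5) (nat_lit 18) (nat_lit 4) (nat_lit 338) (nat_lit 235) (nat_lit 207)))) (XT.nd (nat_lit 78) (nat_lit 76) (nat_lit 0) (XT.lf (nat_lit 0) (nat_lit 4023754896) (nat_lit 228) (nat_lit 5973506946) (nat_lit 76) (nat_lit 8169698392) (nat_lit 17) (nat_lit 5) (nat_lit 20) (nat_lit 5) (nat_lit 18) (nat_lit 4) (nat_lit 339) (nat_lit 235) (nat_lit 206)) (XT.nd (nat_lit 78) (nat_lit 76) (nat_lit 0) (XT.lf (nat_lit 0) (nat_lit 6692735532) (nat_lit 228) (nat_lit 859107026) (nat_lit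 76) (nat_lit 11057207169) (nat_lit 17) (nat_lit 5) (nat_lit 20) (nat_lit 5) (nat_lit 18) (nat_lit 4) (nat_lit 340) (nat_lit 235) (nat_lit 205)) (XT.lf (nat_lit 0) (nat_lit 4424945066) (nat_lit 76) (nat_lit 5015987140) (nat_lit 152) (nat_lit 9623561699) (nat_lit 16) (nat_lit 5) (nat_lit 17) (nat_lit 5) (nat_lit 18) (nat_lit 4) (nat_lit 341) (nat_lit 235) (nat_lit 204)))))) (XT.nd (nat_lit 390) (nat_lit 76) (nat_lit 0) (XT.nd (nat_lit 156) (nat_lit 228) (nat_lit 0) (XT.nd (nat_lit 78) (nat_lit 0) (nat_lit 0) (XT.lf (nat_lit 0) (nat_lit 9815690646) (nat_lit 76) (nat_lit 2421767029) (nat_lit 152) (nat_lit 7297231711) (nat_lit 16) (nat_lit 5) (nat_lit 17) (nat_lit 5) (nat_lit 18) (nat_lit 4) (nat_lit 342) (nat_lit 235) (nat_lit 203)) (XT.lf (nat_lit 0) (nat_lit 15078490048) (nat_lit 152) (nat_lit 4721714699) (nat_lit 0) (nat_lit 220030239) (nat_lit 16) (nat_lit 5) (nat_lit 18) (nat_lit 4) (nat_lit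 16) (nat_lit 4) (nat_lit 343) (nat_lit 235) (nat_lit 202))) (XT.nd (nat_lit 78) (nat_lit 76) (nat_lit 0) (XT.lf (nat_lit 0) (nat_lit 341695428) (nat_lit 152) (nat_lit 17649743057) (nat_lit 152) (nat_lit 2529368678) (nat_lit 14) (nat_lit 4) (nat_lit 16) (nat_lit 5) (nat_lit 16) (nat_lit 4) (nat_lit 344) (nat_lit 235) (nat_lit 201)) (XT.nd (nat_lit 78) (nat_lit 76) (nat_lit 0) (XT.lf (nat_lit 0) (nat_lit 5587967917) (nat_lit 152) (nat_lit 15411459201) (nat_lit 152) (nat_lit 36798831) (nat_lit 14) (nat_lit 4) (nat_lit 16) (nat_lit 5) (nat_lit 16) (nat_lit 4) (nat_lit 345) (nat_lit 235) (nat_lit 200)) (XT.lf (nat_lit 0) (nat_lit 2441864622) (nat_lit 228) (nat_lit 10664554789) (nat_lit 76) (nat_lit 8461192842) (nat_lit 13) (nat_lit 5) (nat_lit 16) (nat_lit 5) (nat_lit 14) (nat_lit 4) (nat_lit 346) (nat_lit 235) (nat_lit 199))))) (XT.nd (nat_lit 234) (nat_lit 0) (nat_lit 0) (XT.nd (nat_lit 78) (nat_lit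 76) (nat_lit 0) (XT.lf (nat_lit 0) (nat_lit 4955989737) (nat_lit 228) (nat_lit 5800569739) (nat_lit 76) (nat_lit 11359568485) (nat_lit 13) (nat_lit 5) (nat_lit 16) (nat_lit 5) (nat_lit 14) (nat_lit 4) (nat_lit 347) (nat_lit 235) (nat_lit 198)) (XT.nd (nat_lit 78) (nat_lit 76) (nat_lit 0) (XT.lf (nat_lit 0) (nat_lit 7508491400) (nat_lit 228) (nat_lit 851699067) (nat_lit 76) (nat_lit 14322072506) (nat_lit 13) (nat_lit 5) (nat_lit 16) (nat_lit 5) (nat_lit 14) (nat_lit 4) (nat_lit 348) (nat_lit 235) (nat_lit 197)) (XT.lf (nat_lit 0) (nat_lit 4269698684) (nat_lit 76) (nat_lit 5872944224) (nat_lit 152) (nat_lit 13122637773) (nat_lit 12) (nat_lit 5) (nat_lit 13) (nat_lit 5) (nat_lit 14) (nat_lit 4) (nat_lit 349) (nat_lit 235) (nat_lit 196)))) (XT.nd (nat_lit 78) (nat_lit 0) (nat_lit 0) (XT.lf (nat_lit 0) (nat_lit 9503522065) (nat_lit 76) (nat_lit 3325412818) (nat_lit 152) (nat_lit 11037709965) (nat_lit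 12) (nat_lit 5) (nat_lit 13) (nat_lit 5) (nat_lit 14) (nat_lit 4) (nat_lit 350) (nat_lit 235) (nat_lit 195)) (XT.nd (nat_lit 78) (nat_lit 0) (nat_lit 0) (XT.lf (nat_lit 0) (nat_lit 14837393840) (nat_lit 76) (nat_lit 723970742) (nat_lit 152) (nat_lit 8925766858) (nat_lit 12) (nat_lit 5) (nat_lit 13) (nat_lit 5) (nat_lit 14) (nat_lit 4) (nat_lit 351) (nat_lit 235) (nat_lit 194)) (XT.lf (nat_lit 0) (nat_lit 18360907040) (nat_lit 152) (nat_lit 4869895432) (nat_lit 0) (nat_lit 1895922532) (nat_lit 12) (nat_lit 5) (nat_lit 14) (nat_lit 4) (nat_lit 12) (nat_lit 4) (nat_lit 352) (nat_lit 235) (nat_lit 193))))))) (XT.nd (nat_lit 858) (nat_lit 152) (nat_lit 0) (XT.nd (nat_lit 390) (nat_lit 76) (nat_lit 0) (XT.nd (nat_lit 156) (nat_lit 76) (nat_lit 0) (XT.nd (nat_lit 78) (nat_lit 152) (nat_lit 0) (XT.lf (nat_lit 0) (nat_lit 21218926386) (nat_lit 152) (nat_lit 8337645) (nat_lit 0) (nat_lit 4559052840)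 (nat_lit 12) (nat_lit 5) (nat_lit 14) (nat_lit 4) (nat_lit 12) (nat_lit 4) (nat_lit 353) (nat_lit 235) (nat_lit 192)) (XT.lf (nat_lit 0) (nat_lit 5044580915) (nat_lit 152) (nat_lit 19134871351) (nat_lit 152) (nat_lit 2285785147) (nat_lit 10) (nat_lit 4) (nat_lit 12) (nat_lit 5) (nat_lit 12) (nat_lit 4) (nat_lit 354) (nat_lit 235) (nat_lit 191))) (XT.nd (nat_lit 78) (nat_lit 0) (nat_lit 0) (XT.lf (nat_lit 0) (nat_lit 31442186) (nat_lit 228) (nat_lit 16968960174) (nat_lit 76) (nat_lit 10165093216) (nat_lit 9) (nat_lit 5) (nat_lit 12) (nat_lit 5) (nat_lit 10) (nat_lit 4) (nat_lit 355) (nat_lit 235) (nat_lit 190)) (XT.nd (nat_lit 78) (nat_lit 0) (nat_lit 0) (XT.lf (nat_lit 0) (nat_lit 2341509287) (nat_lit 228) (nat_lit 12457875037) (nat_lit 76) (nat_lit 13087660438) (nat_lit 9) (nat_lit 5) (nat_lit 12) (nat_lit 5) (nat_lit 10) (nat_lit 4) (nat_lit 356) (nat_lit 235) (nat_lit 189)) (XT.lf (nat_lit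 0) (nat_lit 4691038562) (nat_lit 228) (nat_lit 7861486995) (nat_lit 76) (nat_lit 16078649063) (nat_lit 9) (nat_lit 5) (nat_lit 12) (nat_lit 5) (nat_lit 10) (nat_lit 4) (nat_lit 357) (nat_lit 235) (nat_lit 188))))) (XT.nd (nat_lit 234) (nat_lit 0) (nat_lit 0) (XT.nd (nat_lit 78) (nat_lit 76) (nat_lit 0) (XT.lf (nat_lit 0) (nat_lit 7082082997) (nat_lit 228) (nat_lit 3175779789) (nat_lit 76) (nat_lit 19140672577) (nat_lit 9) (nat_lit 5) (nat_lit 12) (nat_lit 5) (nat_lit 10) (nat_lit 4) (nat_lit 358) (nat_lit 235) (nat_lit 187)) (XT.nd (nat_lit 78) (nat_lit 0) (nat_lit 0) (XT.lf (nat_lit 0) (nat_lit 1635250517) (nat_lit 76) (nat_lit 7897200365) (nat_lit 152) (nat_lit 20656875045) (nat_lit 8) (nat_lit 5) (nat_lit 9) (nat_lit 5) (nat_lit 10) (nat_lit 4) (nat_lit 359) (nat_lit 235) (nat_lit 186)) (XT.lf (nat_lit 0) (nat_lit 6609016692) (nat_lit 76) (nat_lit 5451625716) (nat_lit 152) (nat_lit 18943104114)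 (nat_lit 8) (nat_lit 5) (nat_lit 9) (nat_lit 5) (nat_lit 10) (nat_lit 4) (nat_lit 360) (nat_lit 235) (nat_lit 185)))) (XT.nd (nat_lit 78) (nat_lit 0) (nat_lit 0) (XT.lf (nat_lit 0) (nat_lit 11686660501) (nat_lit 76) (nat_lit 2951071077) (nat_lit 152) (nat_lit 17205711254) (nat_lit 8) (nat_lit 5) (nat_lit 9) (nat_lit 5) (nat_lit 10) (nat_lit 4) (nat_lit 361) (nat_lit 235) (nat_lit 184)) (XT.nd (nat_lit 78) (nat_lit 0) (nat_lit 0) (XT.lf (nat_lit 0) (nat_lit 16872618718) (nat_lit 76) (nat_lit 393351499) (nat_lit 152) (nat_lit 15443178353) (nat_lit 8) (nat_lit 5) (nat_lit 9) (nat_lit 5) (nat_lit 10) (nat_lit 4) (nat_lit 362) (nat_lit 235) (nat_lit 183)) (XT.lf (nat_lit 0) (nat_lit 19969031063) (nat_lit 152) (nat_lit 11451573633) (nat_lit 0) (nat_lit 2180374197) (nat_lit 8) (nat_lit 5) (nat_lit 10) (nat_lit 4) (nat_lit 8) (nat_lit 4) (nat_lit 363) (nat_lit 235) (nat_lit 182)))))) (XT.nd (nat_lit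 390) (nat_lit 76) (nat_lit 0) (XT.nd (nat_lit 156) (nat_lit 76) (nat_lit 0) (XT.nd (nat_lit 78) (nat_lit 0) (nat_lit 0) (XT.lf (nat_lit 0) (nat_lit 22732255221) (nat_lit 152) (nat_lit 6981061368) (nat_lit 0) (nat_lit 4806907105) (nat_lit 8) (nat_lit 5) (nat_lit 10) (nat_lit 4) (nat_lit 8) (nat_lit 4) (nat_lit 364) (nat_lit 235) (nat_lit 181)) (XT.lf (nat_lit 0) (nat_lit 25554276024) (nat_lit 152) (nat_lit 2417305648) (nat_lit 0) (nat_lit 7496217957) (nat_lit 8) (nat_lit 5) (nat_lit 10) (nat_lit 4) (nat_lit 8) (nat_lit 4) (nat_lit 365) (nat_lit 235) (nat_lit 180))) (XT.nd (nat_lit 78) (nat_lit 0) (nat_lit 0) (XT.lf (nat_lit 0) (nat_lit 2288334930) (nat_lit 76) (nat_lit 26171221262) (nat_lit 76) (nat_lit 7984318582) (nat_lit 7) (nat_lit 4) (nat_lit 8) (nat_lit 5) (nat_lit 8) (nat_lit 4) (nat_lit 366) (nat_lit 235) (nat_lit 179)) (XT.nd (nat_lit 78) (nat_lit 0) (nat_lit 0) (XT.lf (nat_lit 0) (nat_lit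 7145404686) (nat_lit 76) (nat_lit 24307905786) (nat_lit 76) (nat_lit 5995911248) (nat_lit 7) (nat_lit 4) (nat_lit 8) (nat_lit 5) (nat_lit 8) (nat_lit 4) (nat_lit 367) (nat_lit 235) (nat_lit 178)) (XT.lf (nat_lit 0) (nat_lit 12110038540) (nat_lit 76) (nat_lit 22404417153) (nat_lit 76) (nat_lit 3970974210) (nat_lit 7) (nat_lit 4) (nat_lit 8) (nat_lit 5) (nat_lit 8) (nat_lit 4) (nat_lit 368) (nat_lit 235) (nat_lit 177))))) (XT.nd (nat_lit 234) (nat_lit 0) (nat_lit 0) (XT.nd (nat_lit 78) (nat_lit 76) (nat_lit 0) (XT.lf (nat_lit 0) (nat_lit 17186574520) (nat_lit 76) (nat_lit 20459092121) (nat_lit 76) (nat_lit 1907738105) (nat_lit 7) (nat_lit 4) (nat_lit 8) (nat_lit 5) (nat_lit 8) (nat_lit 4) (nat_lit 369) (nat_lit 235) (nat_lit 176)) (XT.nd (nat_lit 78) (nat_lit 0) (nat_lit 0) (XT.lf (nat_lit 0) (nat_lit 191783036) (nat_lit 152) (nat_lit 18276511221) (nat_lit 76) (nat_lit 22185728766) (nat_lit 6)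 (nat_lit 5) (nat_lit 8) (nat_lit 5) (nat_lit 7) (nat_lit 4) (nat_lit 370) (nat_lit 235) (nat_lit 175)) (XT.lf (nat_lit 0) (nat_lit 2295198704) (nat_lit 152) (nat_lit 14117719911) (nat_lit 76) (nat_lit 25374822037) (nat_lit 6) (nat_lit 5) (nat_lit 8) (nat_lit 5) (nat_lit 7) (nat_lit 4) (nat_lit 371) (nat_lit 235) (nat_lit 174)))) (XT.nd (nat_lit 78) (nat_lit 0) (nat_lit 0) (XT.lf (nat_lit 0) (nat_lit 4441573675) (nat_lit 152) (nat_lit 9868484055) (nat_lit 76) (nat_lit 28646040680) (nat_lit 6) (nat_lit 5) (nat_lit 8) (nat_lit 5) (nat_lit 7) (nat_lit 4) (nat_lit 372) (nat_lit 235) (nat_lit 173)) (XT.nd (nat_lit 78) (nat_lit 0) (nat_lit 0) (XT.lf (nat_lit 0) (nat_lit 6632783422) (nat_lit 152) (nat_lit 5525090729) (nat_lit 76) (nat_lit 32002243040) (nat_lit 6) (nat_lit 5) (nat_lit 8) (nat_lit 5) (nat_lit 7) (nat_lit 4) (nat_lit 373) (nat_lit 235) (nat_lit 172)) (XT.lf (nat_lit 0) (nat_lit 8870742596)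 (nat_lit 152) (nat_lit 1083744734) (nat_lit 76) (nat_lit 35446361722) (nat_lit 6) (nat_lit 5) (nat_lit 8) (nat_lit 5) (nat_lit 7) (nat_lit 4) (nat_lit 374) (nat_lit 235) (nat_lit 171))))))))
noncomputable def xc49 : XT := (XT.nd (nat_lit 1716) (nat_lit 76) (nat_lit 0) (XT.nd (nat_lit 858) (nat_lit 76) (nat_lit 0) (XT.nd (nat_lit 390) (nat_lit 0) (nat_lit 0) (XT.nd (nat_lit 156) (nat_lit 0) (nat_lit 0) (XT.nd (nat_lit 78) (nat_lit 0) (nat_lit 0) (XT.lf (nat_lit 0) (nat_lit 3528284250) (nat_lit 76) (nat_lit 7663038470) (nat_lit 152) (nat_lit 35487037926) (nat_lit 5) (nat_lit 5) (nat_lit 6) (nat_lit 5) (nat_lit 7) (nat_lit 4) (nat_lit 375) (nat_lit 235) (nat_lit 170)) (XT.lf (nat_lit 0) (nat_lit 8269790796) (nat_lit 76) (nat_lit 5304477263) (nat_lit 152) (nat_lit 34420168688) (nat_lit 5) (nat_lit 5) (nat_lit 6) (nat_lit 5) (nat_lit 7) (nat_lit 4) (nat_lit 376) (nat_lit 235) (nat_lit 169))) (XT.nd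 (nat_lit 78) (nat_lit 0) (nat_lit 0) (XT.lf (nat_lit 0) (nat_lit 13123349323) (nat_lit 76) (nat_lit 2887686527) (nat_lit 152) (nat_lit 33339510224) (nat_lit 5) (nat_lit 5) (nat_lit 6) (nat_lit 5) (nat_lit 7) (nat_lit 4) (nat_lit 377) (nat_lit 235) (nat_lit 168)) (XT.nd (nat_lit 78) (nat_lit 0) (nat_lit 0) (XT.lf (nat_lit 0) (nat_lit 18093200804) (nat_lit 76) (nat_lit 410554505) (nat_lit 152) (nat_lit 32244118269) (nat_lit 5) (nat_lit 5) (nat_lit 6) (nat_lit 5) (nat_lit 7) (nat_lit 4) (nat_lit 378) (nat_lit 235) (nat_lit 167)) (XT.lf (nat_lit 0) (nat_lit 21075070589) (nat_lit 152) (nat_lit 29024418447) (nat_lit 0) (nat_lit 2087537205) (nat_lit 5) (nat_lit 5) (nat_lit 7) (nat_lit 4) (nat_lit 5) (nat_lit 4) (nat_lit 379) (nat_lit 235) (nat_lit 166))))) (XT.nd (nat_lit 234) (nat_lit 0) (nat_lit 0) (XT.nd (nat_lit 78) (nat_lit 0) (nat_lit 0) (XT.lf (nat_lit 0) (nat_lit 23711313214) (nat_lit 152)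 (nat_lit 25317346445) (nat_lit 0) (nat_lit 4641079375) (nat_lit 5) (nat_lit 5) (nat_lit 7) (nat_lit 4) (nat_lit 5) (nat_lit 4) (nat_lit 380) (nat_lit 235) (nat_lit 165)) (XT.nd (nat_lit 78) (nat_lit 0) (nat_lit 0) (XT.lf (nat_lit 0) (nat_lit 26410840195) (nat_lit 152) (nat_lit 21526271079) (nat_lit 0) (nat_lit 7260314653) (nat_lit 5) (nat_lit 5) (nat_lit 7) (nat_lit 4) (nat_lit 5) (nat_lit 4) (nat_lit 381) (nat_lit 235) (nat_lit 164)) (XT.lf (nat_lit 0) (nat_lit 29176010343) (nat_lit 152) (nat_lit 17647879757) (nat_lit 0) (nat_lit 9947531690) (nat_lit 5) (nat_lit 5) (nat_lit 7) (nat_lit 4) (nat_lit 5) (nat_lit 4) (nat_lit 382) (nat_lit 235) (nat_lit 163)))) (XT.nd (nat_lit 78) (nat_lit 0) (nat_lit 0) (XT.lf (nat_lit 0) (nat_lit 32009239825) (nat_lit 152) (nat_lit 13678783595) (nat_lit 0) (nat_lit 12705078541) (nat_lit 5) (nat_lit 5) (nat_lit 7) (nat_lit 4) (nat_lit 5) (nat_lit 4) (nat_lit 383)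 (nat_lit 235) (nat_lit 162)) (XT.nd (nat_lit 78) (nat_lit 0) (nat_lit 0) (XT.lf (nat_lit 0) (nat_lit 34913004278) (nat_lit 152) (nat_lit 9615514450) (nat_lit 0) (nat_lit 15535364713) (nat_lit 5) (nat_lit 5) (nat_lit 7) (nat_lit 4) (nat_lit 5) (nat_lit 4) (nat_lit 384) (nat_lit 235) (nat_lit 161)) (XT.lf (nat_lit 0) (nat_lit 37889840974) (nat_lit 152) (nat_lit 5454521893) (nat_lit 0) (nat_lit 18440863270) (nat_lit 5) (nat_lit 5) (nat_lit 7) (nat_lit 4) (nat_lit 5) (nat_lit 4) (nat_lit 385) (nat_lit 235) (nat_lit 160)))))) (XT.nd (nat_lit 390) (nat_lit 0) (nat_lit 0) (XT.nd (nat_lit 156) (nat_lit 0) (nat_lit 0) (XT.nd (nat_lit 78) (nat_lit 76) (nat_lit 0) (XT.lf (nat_lit 0) (nat_lit 40942351031) (nat_lit 152) (nat_lit 1192170105) (nat_lit 0) (nat_lit 21424112998) (nat_lit 5) (nat_lit 5) (nat_lit 7) (nat_lit 4) (nat_lit 5) (nat_lit 4) (nat_lit 386) (nat_lit 235) (nat_lit 159)) (XT.lf (nat_lit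 0) (nat_lit 3238459303) (nat_lit 76) (nat_lit 40865872439) (nat_lit 76) (nat_lit 21280391369) (nat_lit 4) (nat_lit 4) (nat_lit 5) (nat_lit 5) (nat_lit 5) (nat_lit 4) (nat_lit 387) (nat_lit 235) (nat_lit 158))) (XT.nd (nat_lit 78) (nat_lit 0) (nat_lit 0) (XT.lf (nat_lit 0) (nat_lit 7803882376) (nat_lit 76) (nat_lit 39556261963) (nat_lit 76) (nat_lit 19905496391) (nat_lit 4) (nat_lit 4) (nat_lit 5) (nat_lit 5) (nat_lit 5) (nat_lit 4) (nat_lit 388) (nat_lit 235) (nat_lit 157)) (XT.nd (nat_lit 78) (nat_lit 0) (nat_lit 0) (XT.lf (nat_lit 0) (nat_lit 12484361796) (nat_lit 76) (nat_lit 38216583968) (nat_lit 76) (nat_lit 18502435384) (nat_lit 4) (nat_lit 4) (nat_lit 5) (nat_lit 5) (nat_lit 5) (nat_lit 4) (nat_lit 389) (nat_lit 235) (nat_lit 156)) (XT.lf (nat_lit 0) (nat_lit 17283987302) (nat_lit 76) (nat_lit 36845667863) (nat_lit 76) (nat_lit 17069982374) (nat_lit 4) (nat_lit 4) (nat_lit 5) (nat_lit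 5) (nat_lit 5) (nat_lit 4) (nat_lit 390) (nat_lit 235) (nat_lit 155))))) (XT.nd (nat_lit 234) (nat_lit 0) (nat_lit 0) (XT.nd (nat_lit 78) (nat_lit 0) (nat_lit 0) (XT.lf (nat_lit 0) (nat_lit 22206952740) (nat_lit 76) (nat_lit 35442315759) (nat_lit 76) (nat_lit 15606885702) (nat_lit 4) (nat_lit 4) (nat_lit 5) (nat_lit 5) (nat_lit 5) (nat_lit 4) (nat_lit 391) (nat_lit 235) (nat_lit 154)) (XT.nd (nat_lit 78) (nat_lit 0) (nat_lit 0) (XT.lf (nat_lit 0) (nat_lit 27257559732) (nat_lit 76) (nat_lit 34005301426) (nat_lit 76) (nat_lit 14111866934) (nat_lit 4) (nat_lit 4) (nat_lit 5) (nat_lit 5) (nat_lit 5) (nat_lit 4) (nat_lit 392) (nat_lit 235) (nat_lit 153)) (XT.lf (nat_lit 0) (nat_lit 32440221429) (nat_lit 76) (nat_lit 32533369221) (nat_lit 76) (nat_lit 12583619744) (nat_lit 4) (nat_lit 4) (nat_lit 5) (nat_lit 5) (nat_lit 5) (nat_lit 4) (nat_lit 393) (nat_lit 235) (nat_lit 152)))) (XT.nd (nat_lit 78)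 (nat_lit 0) (nat_lit 0) (XT.lf (nat_lit 0) (nat_lit 37759466370) (nat_lit 76) (nat_lit 31025232990) (nat_lit 76) (nat_lit 11020808770) (nat_lit 4) (nat_lit 4) (nat_lit 5) (nat_lit 5) (nat_lit 5) (nat_lit 4) (nat_lit 394) (nat_lit 235) (nat_lit 151)) (XT.nd (nat_lit 78) (nat_lit 0) (nat_lit 0) (XT.lf (nat_lit 0) (nat_lit 43219942440) (nat_lit 76) (nat_lit 29479574943) (nat_lit 76) (nat_lit 9422068448) (nat_lit 4) (nat_lit 4) (nat_lit 5) (nat_lit 5) (nat_lit 5) (nat_lit 4) (nat_lit 395) (nat_lit 235) (nat_lit 150)) (XT.lf (nat_lit 0) (nat_lit 48826420927) (nat_lit 76) (nat_lit 27895044505) (nat_lit 76) (nat_lit 7786001821) (nat_lit 4) (nat_lit 4) (nat_lit 5) (nat_lit 5) (nat_lit 5) (nat_lit 4) (nat_lit 396) (nat_lit 235) (nat_lit 149))))))) (XT.nd (nat_lit 34164) (nat_lit 0) (nat_lit 2128) (XT.nd (nat_lit 33696) (nat_lit 0) (nat_lit 3420) (XT.nd (nat_lit 156) (nat_lit 76) (nat_lit 0) (XT.nd (nat_lit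 78) (nat_lit 0) (nat_lit 0) (XT.lf (nat_lit 0) (nat_lit 54583800698) (nat_lit 76) (nat_lit 26270257136) (nat_lit 76) (nat_lit 6111179317) (nat_lit 4) (nat_lit 4) (nat_lit 5) (nat_lit 5) (nat_lit 5) (nat_lit 4) (nat_lit 397) (nat_lit 235) (nat_lit 148)) (XT.lf (nat_lit 0) (nat_lit 60497112472) (nat_lit 76) (nat_lit 24603793118) (nat_lit 76) (nat_lit 4396137499) (nat_lit 4) (nat_lit 4) (nat_lit 5) (nat_lit 5) (nat_lit 5) (nat_lit 4) (nat_lit 398) (nat_lit 235) (nat_lit 147))) (XT.nd (nat_lit 78) (nat_lit 76) (nat_lit 0) (XT.lf (nat_lit 0) (nat_lit 66571523220) (nat_lit 76) (nat_lit 22894196318) (nat_lit 76) (nat_lit 2639377785) (nat_lit 4) (nat_lit 4) (nat_lit 5) (nat_lit 5) (nat_lit 5) (nat_lit 4) (nat_lit 399) (nat_lit 235) (nat_lit 146)) (XT.nd (nat_lit 78) (nat_lit 76) (nat_lit 0) (XT.lf (nat_lit 0) (nat_lit 72812340680) (nat_lit 76) (nat_lit 21139972913) (nat_lit 76) (nat_lit 839365143)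 (nat_lit 4) (nat_lit 4) (nat_lit 5) (nat_lit 5) (nat_lit 5) (nat_lit 4) (nat_lit 400) (nat_lit 235) (nat_lit 145)) (XT.lf (nat_lit 0) (nat_lit 985852847) (nat_lit 152) (nat_lit 18343782058) (nat_lit 76) (nat_lit 78229209966) (nat_lit 3) (nat_lit 5) (nat_lit 5) (nat_lit 5) (nat_lit 4) (nat_lit 4) (nat_lit 401) (nat_lit 235) (nat_lit 144))))) (XT.nd (nat_lit 234) (nat_lit 608) (nat_lit 0) (XT.nd (nat_lit 78) (nat_lit 304) (nat_lit 0) (XT.lf (nat_lit 0) (nat_lit 1048152400) (nat_lit 380) (nat_lit 2730886987) (nat_lit 0) (nat_lit 1048152400) (nat_lit 60) (nat_lit 5) (nat_lit 65) (nat_lit 4) (nat_lit 60) (nat_lit 4) (nat_lit 308) (nat_lit 236) (nat_lit 236)) (XT.nd (nat_lit 78) (nat_lit 304) (nat_lit 0) (XT.lf (nat_lit 0) (nat_lit 5292435758) (nat_lit 380) (nat_lit 107702237) (nat_lit 0) (nat_lit 4412429275) (nat_lit 60) (nat_lit 5) (nat_lit 65) (nat_lit 4) (nat_lit 60) (nat_lit 4) (nat_lit 309)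 (nat_lit 236) (nat_lit 235)) (XT.lf (nat_lit 0) (nat_lit 5405860506) (nat_lit 304) (nat_lit 3152499308) (nat_lit 304) (nat_lit 1418117598) (nat_lit 56) (nat_lit 4) (nat_lit 60) (nat_lit 5) (nat_lit 60) (nat_lit 4) (nat_lit 310) (nat_lit 236) (nat_lit 234)))) (XT.nd (nat_lit 78) (nat_lit 304) (nat_lit 0) (XT.lf (nat_lit 0) (nat_lit 833633109) (nat_lit 228) (nat_lit 840014837) (nat_lit 304) (nat_lit 8473390332) (nat_lit 52) (nat_lit 5) (nat_lit 55) (nat_lit 5) (nat_lit 56) (nat_lit 4) (nat_lit 311) (nat_lit 236) (nat_lit 233)) (XT.nd (nat_lit 78) (nat_lit 304) (nat_lit 0) (XT.lf (nat_lit 0) (nat_lit 4814307424) (nat_lit 304) (nat_lit 3965392676) (nat_lit 0) (nat_lit 1543236729) (nat_lit 52) (nat_lit 5) (nat_lit 56) (nat_lit 4) (nat_lit 52) (nat_lit 4) (nat_lit 312) (nat_lit 236) (nat_lit 232)) (XT.lf (nat_lit 0) (nat_lit 1457904575) (nat_lit 304) (nat_lit 6539061259) (nat_lit 304) (nat_lit 2508889241)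 (nat_lit 48) (nat_lit 4) (nat_lit 52) (nat_lit 5) (nat_lit 52) (nat_lit 4) (nat_lit 313) (nat_lit 236) (nat_lit 231)))))) (XT.nd (nat_lit 390) (nat_lit 684) (nat_lit 0) (XT.nd (nat_lit 156) (nat_lit 304) (nat_lit 0) (XT.nd (nat_lit 78) (nat_lit 228) (nat_lit 0) (XT.lf (nat_lit 0) (nat_lit 535670884) (nat_lit 380) (nat_lit 3679751698) (nat_lit 76) (nat_lit 6479851923) (nat_lit 47) (nat_lit 5) (nat_lit 52) (nat_lit 5) (nat_lit 48) (nat_lit 4) (nat_lit 314) (nat_lit 236) (nat_lit 230)) (XT.lf (nat_lit 0) (nat_lit 1756105341) (nat_lit 228) (nat_lit 1809803396) (nat_lit 304) (nat_lit 7325540719) (nat_lit 44) (nat_lit 5) (nat_lit 47) (nat_lit 5) (nat_lit 48) (nat_lit 4) (nat_lit 315) (nat_lit 236) (nat_lit 229))) (XT.nd (nat_lit 78) (nat_lit 304) (nat_lit 0) (XT.lf (nat_lit 0) (nat_lit 6659712883) (nat_lit 304) (nat_lit 3772511695) (nat_lit 0) (nat_lit 662261776) (nat_lit 44) (nat_lit 5) (nat_lit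 48) (nat_lit 4) (nat_lit 44) (nat_lit 4) (nat_lit 316) (nat_lit 236) (nat_lit 228)) (XT.nd (nat_lit 78) (nat_lit 76) (nat_lit 0) (XT.lf (nat_lit 0) (nat_lit 1665003077) (nat_lit 228) (nat_lit 8146040204) (nat_lit 228) (nat_lit 1493781628) (nat_lit 41) (nat_lit 4) (nat_lit 44) (nat_lit 5) (nat_lit 44) (nat_lit 4) (nat_lit 317) (nat_lit 236) (nat_lit 227)) (XT.lf (nat_lit 0) (nat_lit 1474975665) (nat_lit 304) (nat_lit 4293793382) (nat_lit 76) (nat_lit 5753320053) (nat_lit 40) (nat_lit 5) (nat_lit 44) (nat_lit 5) (nat_lit 41) (nat_lit 4) (nat_lit 318) (nat_lit 236) (nat_lit 226))))) (XT.nd (nat_lit 234) (nat_lit 228) (nat_lit 0) (XT.nd (nat_lit 78) (nat_lit 228) (nat_lit 0) (XT.lf (nat_lit 0) (nat_lit 1121356323) (nat_lit 228) (nat_lit 3325229463) (nat_lit 304) (nat_lit 7300666346) (nat_lit 37) (nat_lit 5) (nat_lit 40) (nat_lit 5) (nat_lit 41) (nat_lit 4) (nat_lit 319) (nat_lit 236) (nat_lit 225))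 (XT.nd (nat_lit 78) (nat_lit 228) (nat_lit 0) (XT.lf (nat_lit 0) (nat_lit 6689591921) (nat_lit 228) (nat_lit 795159970) (nat_lit 304) (nat_lit 4495230911) (nat_lit 37) (nat_lit 5) (nat_lit 40) (nat_lit 5) (nat_lit 41) (nat_lit 4) (nat_lit 320) (nat_lit 236) (nat_lit 224)) (XT.lf (nat_lit 0) (nat_lit 93283659) (nat_lit 228) (nat_lit 10474758962) (nat_lit 228) (nat_lit 1653164424) (nat_lit 34) (nat_lit 4) (nat_lit 37) (nat_lit 5) (nat_lit 37) (nat_lit 4) (nat_lit 321) (nat_lit 236) (nat_lit 223)))) (XT.nd (nat_lit 78) (nat_lit 152) (nat_lit 0) (XT.lf (nat_lit 0) (nat_lit 1247005882) (nat_lit 304) (nat_lit 6838563543) (nat_lit 76) (nat_lit 4383923509) (nat_lit 33) (nat_lit 5) (nat_lit 37) (nat_lit 5) (nat_lit 34) (nat_lit 4) (nat_lit 322) (nat_lit 236) (nat_lit 222)) (XT.nd (nat_lit 78) (nat_lit 152) (nat_lit 0) (XT.lf (nat_lit 0) (nat_lit 4138702848) (nat_lit 304) (nat_lit 1500837097) (nat_lit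 76) (nat_lit 7087183884) (nat_lit 33) (nat_lit 5) (nat_lit 37) (nat_lit 5) (nat_lit 34) (nat_lit 4) (nat_lit 323) (nat_lit 236) (nat_lit 221)) (XT.lf (nat_lit 0) (nat_lit 3983544513) (nat_lit 152) (nat_lit 3111460145) (nat_lit 228) (nat_lit 5897447806) (nat_lit 31) (nat_lit 5) (nat_lit 33) (nat_lit 5) (nat_lit 34) (nat_lit 4) (nat_lit 324) (nat_lit 236) (nat_lit 220))))))))
noncomputable def xc50 : XT := (XT.nd (nat_lit 1716) (nat_lit 456) (nat_lit 0) (XT.nd (nat_lit 858) (nat_lit 532) (nat_lit 0) (XT.nd (nat_lit 390) (nat_lit 380) (nat_lit 0) (XT.nd (nat_lit 156) (nat_lit 228) (nat_lit 0) (XT.nd (nat_lit 78) (nat_lit 228) (nat_lit 0) (XT.lf (nat_lit 0) (nat_lit 9572907545) (nat_lit 152) (nat_lit 522697326) (nat_lit 228) (nat_lit 3171992844) (nat_lit 31) (nat_lit 5) (nat_lit 33) (nat_lit 5) (nat_lit 34) (nat_lit 4) (nat_lit 325) (nat_lit 236) (nat_lit 219)) (XT.lf (nat_lit 0) (nat_lit 1702323680)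 (nat_lit 228) (nat_lit 11462771048) (nat_lit 228) (nat_lit 386646195) (nat_lit 28) (nat_lit 4) (nat_lit 31) (nat_lit 5) (nat_lit 31) (nat_lit 4) (nat_lit 326) (nat_lit 236) (nat_lit 218))) (XT.nd (nat_lit 78) (nat_lit 152) (nat_lit 0) (XT.lf (nat_lit 0) (nat_lit 2418749178) (nat_lit 304) (nat_lit 6625332806) (nat_lit 76) (nat_lit 4800166275) (nat_lit 27) (nat_lit 5) (nat_lit 31) (nat_lit 5) (nat_lit 28) (nat_lit 4) (nat_lit 327) (nat_lit 236) (nat_lit 217)) (XT.nd (nat_lit 78) (nat_lit 152) (nat_lit 0) (XT.lf (nat_lit 0) (nat_lit 5244294848) (nat_lit 304) (nat_lit 1335367119) (nat_lit 76) (nat_lit 7567541646) (nat_lit 27) (nat_lit 5) (nat_lit 31) (nat_lit 5) (nat_lit 28) (nat_lit 4) (nat_lit 328) (nat_lit 236) (nat_lit 216)) (XT.lf (nat_lit 0) (nat_lit 4109000190) (nat_lit 152) (nat_lit 4030502631) (nat_lit 228) (nat_lit 6320295437) (nat_lit 25) (nat_lit 5) (nat_lit 27) (nat_lit 5) (nat_lit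 28) (nat_lit 4) (nat_lit 329) (nat_lit 236) (nat_lit 215))))) (XT.nd (nat_lit 234) (nat_lit 152) (nat_lit 0) (XT.nd (nat_lit 78) (nat_lit 228) (nat_lit 0) (XT.lf (nat_lit 0) (nat_lit 9660421716) (nat_lit 152) (nat_lit 1420813876) (nat_lit 228) (nat_lit 3701839763) (nat_lit 25) (nat_lit 5) (nat_lit 27) (nat_lit 5) (nat_lit 28) (nat_lit 4) (nat_lit 330) (nat_lit 236) (nat_lit 214)) (XT.nd (nat_lit 78) (nat_lit 76) (nat_lit 0) (XT.lf (nat_lit 0) (nat_lit 170894081) (nat_lit 152) (nat_lit 13901622764) (nat_lit 152) (nat_lit 1044786936) (nat_lit 23) (nat_lit 4) (nat_lit 25) (nat_lit 5) (nat_lit 25) (nat_lit 4) (nat_lit 331) (nat_lit 236) (nat_lit 213)) (XT.lf (nat_lit 0) (nat_lit 1672885823) (nat_lit 228) (nat_lit 9845507983) (nat_lit 76) (nat_lit 3942346212) (nat_lit 22) (nat_lit 5) (nat_lit 25) (nat_lit 5) (nat_lit 23) (nat_lit 4) (nat_lit 332) (nat_lit 236) (nat_lit 212)))) (XT.nd (nat_lit 78)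 (nat_lit 152) (nat_lit 0) (XT.lf (nat_lit 0) (nat_lit 4400231849) (nat_lit 228) (nat_lit 4682423100) (nat_lit 76) (nat_lit 6733123903) (nat_lit 22) (nat_lit 5) (nat_lit 25) (nat_lit 5) (nat_lit 23) (nat_lit 4) (nat_lit 333) (nat_lit 236) (nat_lit 211)) (XT.nd (nat_lit 78) (nat_lit 0) (nat_lit 0) (XT.lf (nat_lit 0) (nat_lit 568492857) (nat_lit 152) (nat_lit 6596993660) (nat_lit 228) (nat_lit 9017381349) (nat_lit 20) (nat_lit 5) (nat_lit 22) (nat_lit 5) (nat_lit 23) (nat_lit 4) (nat_lit 334) (nat_lit 236) (nat_lit 210)) (XT.lf (nat_lit 0) (nat_lit 5995532784) (nat_lit 152) (nat_lit 4016767136) (nat_lit 228) (nat_lit 6548790881) (nat_lit 20) (nat_lit 5) (nat_lit 22) (nat_lit 5) (nat_lit 23) (nat_lit 4) (nat_lit 335) (nat_lit 236) (nat_lit 209)))))) (XT.nd (nat_lit 390) (nat_lit 304) (nat_lit 0) (XT.nd (nat_lit 156) (nat_lit 228) (nat_lit 0) (XT.nd (nat_lit 78) (nat_lit 0) (nat_lit 0) (XT.lf (nat_lit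 0) (nat_lit 11510249354) (nat_lit 152) (nat_lit 1387004102) (nat_lit 228) (nat_lit 4054901871) (nat_lit 20) (nat_lit 5) (nat_lit 22) (nat_lit 5) (nat_lit 23) (nat_lit 4) (nat_lit 336) (nat_lit 236) (nat_lit 208)) (XT.lf (nat_lit 0) (nat_lit 15835312381) (nat_lit 228) (nat_lit 251386322) (nat_lit 0) (nat_lit 1269331114) (nat_lit 20) (nat_lit 5) (nat_lit 23) (nat_lit 4) (nat_lit 20) (nat_lit 4) (nat_lit 337) (nat_lit 236) (nat_lit 207))) (XT.nd (nat_lit 78) (nat_lit 0) (nat_lit 0) (XT.lf (nat_lit 0) (nat_lit 1086378340) (nat_lit 228) (nat_lit 12673372929) (nat_lit 76) (nat_lit 4011481157) (nat_lit 17) (nat_lit 5) (nat_lit 20) (nat_lit 5) (nat_lit 18) (nat_lit 4) (nat_lit 338) (nat_lit 236) (nat_lit 206)) (XT.nd (nat_lit 78) (nat_lit 0) (nat_lit 0) (XT.lf (nat_lit 0) (nat_lit 3698995400) (nat_lit 228) (nat_lit 7673391069) (nat_lit 76) (nat_lit 6827385137) (nat_lit 17) (nat_lit 5) (nat_lit 20)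 (nat_lit 5) (nat_lit 18) (nat_lit 4) (nat_lit 339) (nat_lit 236) (nat_lit 205)) (XT.lf (nat_lit 0) (nat_lit 6346602312) (nat_lit 228) (nat_lit 2593536194) (nat_lit 76) (nat_lit 9702396514) (nat_lit 17) (nat_lit 5) (nat_lit 20) (nat_lit 5) (nat_lit 18) (nat_lit 4) (nat_lit 340) (nat_lit 236) (nat_lit 204))))) (XT.nd (nat_lit 234) (nat_lit 228) (nat_lit 0) (XT.nd (nat_lit 78) (nat_lit 0) (nat_lit 0) (XT.lf (nat_lit 0) (nat_lit 2621790988) (nat_lit 76) (nat_lit 6434923789) (nat_lit 152) (nat_lit 10042438703) (nat_lit 16) (nat_lit 5) (nat_lit 17) (nat_lit 5) (nat_lit 18) (nat_lit 4) (nat_lit 341) (nat_lit 236) (nat_lit 203)) (XT.nd (nat_lit 78) (nat_lit 0) (nat_lit 0) (XT.lf (nat_lit 0) (nat_lit 7979326503) (nat_lit 76) (nat_lit 3853447724) (nat_lit 152) (nat_lit 7737219547) (nat_lit 16) (nat_lit 5) (nat_lit 17) (nat_lit 5) (nat_lit 18) (nat_lit 4) (nat_lit 342) (nat_lit 236) (nat_lit 202)) (XT.lf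 (nat_lit 0) (nat_lit 13432135235) (nat_lit 76) (nat_lit 1219644282) (nat_lit 152) (nat_lit 5404450601) (nat_lit 16) (nat_lit 5) (nat_lit 17) (nat_lit 5) (nat_lit 18) (nat_lit 4) (nat_lit 343) (nat_lit 236) (nat_lit 201)))) (XT.nd (nat_lit 78) (nat_lit 228) (nat_lit 0) (XT.lf (nat_lit 0) (nat_lit 17530312745) (nat_lit 152) (nat_lit 1587424495) (nat_lit 0) (nat_lit 1440126574) (nat_lit 16) (nat_lit 5) (nat_lit 18) (nat_lit 4) (nat_lit 16) (nat_lit 4) (nat_lit 344) (nat_lit 236) (nat_lit 200)) (XT.nd (nat_lit 78) (nat_lit 76) (nat_lit 0) (XT.lf (nat_lit 0) (nat_lit 3595770861) (nat_lit 152) (nat_lit 16907823469) (nat_lit 152) (nat_lit 570757695) (nat_lit 14) (nat_lit 4) (nat_lit 16) (nat_lit 5) (nat_lit 16) (nat_lit 4) (nat_lit 345) (nat_lit 236) (nat_lit 199)) (XT.lf (nat_lit 0) (nat_lit 1899527868) (nat_lit 228) (nat_lit 12720713136) (nat_lit 76) (nat_lit 6986241823) (nat_lit 13) (nat_lit 5)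 (nat_lit 16) (nat_lit 5) (nat_lit 14) (nat_lit 4) (nat_lit 346) (nat_lit 236) (nat_lit 198))))))) (XT.nd (nat_lit 858) (nat_lit 152) (nat_lit 0) (XT.nd (nat_lit 390) (nat_lit 228) (nat_lit 0) (XT.nd (nat_lit 156) (nat_lit 76) (nat_lit 0) (XT.nd (nat_lit 78) (nat_lit 0) (nat_lit 0) (XT.lf (nat_lit 0) (nat_lit 4395403128) (nat_lit 228) (nat_lit 7886794061) (nat_lit 76) (nat_lit 9873374663) (nat_lit 13) (nat_lit 5) (nat_lit 16) (nat_lit 5) (nat_lit 14) (nat_lit 4) (nat_lit 347) (nat_lit 236) (nat_lit 197)) (XT.lf (nat_lit 0) (nat_lit 6930186485) (nat_lit 228) (nat_lit 2967113656) (nat_lit 76) (nat_lit 12824963341) (nat_lit 13) (nat_lit 5) (nat_lit 16) (nat_lit 5) (nat_lit 14) (nat_lit 4) (nat_lit 348) (nat_lit 236) (nat_lit 196))) (XT.nd (nat_lit 78) (nat_lit 0) (nat_lit 0) (XT.lf (nat_lit 0) (nat_lit 2083279109) (nat_lit 76) (nat_lit 7442839442) (nat_lit 152) (nat_lit 13780333560) (nat_lit 12)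 (nat_lit 5) (nat_lit 13) (nat_lit 5) (nat_lit 14) (nat_lit 4) (nat_lit 349) (nat_lit 236) (nat_lit 195)) (XT.nd (nat_lit 78) (nat_lit 0) (nat_lit 0) (XT.lf (nat_lit 0) (nat_lit 7289040270) (nat_lit 76) (nat_lit 4906399303) (nat_lit 152) (nat_lit 11712909463) (nat_lit 12) (nat_lit 5) (nat_lit 13) (nat_lit 5) (nat_lit 14) (nat_lit 4) (nat_lit 350) (nat_lit 236) (nat_lit 194)) (XT.lf (nat_lit 0) (nat_lit 12595667170) (nat_lit 76) (nat_lit 2315725447) (nat_lit 152) (nat_lit 9617960251) (nat_lit 12) (nat_lit 5) (nat_lit 13) (nat_lit 5) (nat_lit 14) (nat_lit 4) (nat_lit 351) (nat_lit 236) (nat_lit 193))))) (XT.nd (nat_lit 234) (nat_lit 76) (nat_lit 0) (XT.nd (nat_lit 78) (nat_lit 152) (nat_lit 0) (XT.lf (nat_lit 0) (nat_lit 17679536908) (nat_lit 152) (nat_lit 7165395626) (nat_lit 0) (nat_lit 324978118) (nat_lit 12) (nat_lit 5) (nat_lit 14) (nat_lit 4) (nat_lit 12) (nat_lit 4) (nat_lit 352) (nat_lit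 236) (nat_lit 192)) (XT.nd (nat_lit 78) (nat_lit 152) (nat_lit 0) (XT.lf (nat_lit 0) (nat_lit 20521927858) (nat_lit 152) (nat_lit 2329908727) (nat_lit 0) (nat_lit 2978156409) (nat_lit 12) (nat_lit 5) (nat_lit 14) (nat_lit 4) (nat_lit 12) (nat_lit 4) (nat_lit 353) (nat_lit 236) (nat_lit 191)) (XT.lf (nat_lit 0) (nat_lit 2650990726) (nat_lit 152) (nat_lit 20793281159) (nat_lit 152) (nat_lit 3065808100) (nat_lit 10) (nat_lit 4) (nat_lit 12) (nat_lit 5) (nat_lit 12) (nat_lit 4) (nat_lit 354) (nat_lit 236) (nat_lit 190)))) (XT.nd (nat_lit 78) (nat_lit 76) (nat_lit 0) (XT.lf (nat_lit 0) (nat_lit 7778199329) (nat_lit 152) (nat_lit 18669220877) (nat_lit 152) (nat_lit 763396740) (nat_lit 10) (nat_lit 4) (nat_lit 12) (nat_lit 5) (nat_lit 12) (nat_lit 4) (nat_lit 355) (nat_lit 236) (nat_lit 189)) (XT.nd (nat_lit 78) (nat_lit 0) (nat_lit 0) (XT.lf (nat_lit 0) (nat_lit 1546867552) (nat_lit 228) (nat_lit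 14938839391) (nat_lit 76) (nat_lit 11447339531) (nat_lit 9) (nat_lit 5) (nat_lit 12) (nat_lit 5) (nat_lit 10) (nat_lit 4) (nat_lit 356) (nat_lit 236) (nat_lit 188)) (XT.lf (nat_lit 0) (nat_lit 3882125537) (nat_lit 228) (nat_lit 10366378678) (nat_lit 76) (nat_lit 14429118910) (nat_lit 9) (nat_lit 5) (nat_lit 12) (nat_lit 5) (nat_lit 10) (nat_lit 4) (nat_lit 357) (nat_lit 236) (nat_lit 187)))))) (XT.nd (nat_lit 390) (nat_lit 76) (nat_lit 0) (XT.nd (nat_lit 156) (nat_lit 76) (nat_lit 0) (XT.nd (nat_lit 78) (nat_lit 0) (nat_lit 0) (XT.lf (nat_lit 0) (nat_lit 6259314351) (nat_lit 228) (nat_lit 5703901887) (nat_lit 76) (nat_lit 17482201408) (nat_lit 9) (nat_lit 5) (nat_lit 12) (nat_lit 5) (nat_lit 10) (nat_lit 4) (nat_lit 358) (nat_lit 236) (nat_lit 186)) (XT.lf (nat_lit 0) (nat_lit 8680511149) (nat_lit 228) (nat_lit 947335009) (nat_lit 76) (nat_lit 20609254767) (nat_lit 9) (nat_lit 5) (nat_lit 12)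 (nat_lit 5) (nat_lit 10) (nat_lit 4) (nat_lit 359) (nat_lit 236) (nat_lit 185))) (XT.nd (nat_lit 78) (nat_lit 0) (nat_lit 0) (XT.lf (nat_lit 0) (nat_lit 3985244655) (nat_lit 76) (nat_lit 7200895494) (nat_lit 152) (nat_lit 19866075318) (nat_lit 8) (nat_lit 5) (nat_lit 9) (nat_lit 5) (nat_lit 10) (nat_lit 4) (nat_lit 360) (nat_lit 236) (nat_lit 184)) (XT.nd (nat_lit 78) (nat_lit 0) (nat_lit 0) (XT.lf (nat_lit 0) (nat_lit 9041206244) (nat_lit 76) (nat_lit 4709134796) (nat_lit 152) (nat_lit 18141973958) (nat_lit 8) (nat_lit 5) (nat_lit 9) (nat_lit 5) (nat_lit 10) (nat_lit 4) (nat_lit 361) (nat_lit 236) (nat_lit 183)) (XT.lf (nat_lit 0) (nat_lit 14206113764) (nat_lit 76) (nat_lit 2159953023) (nat_lit 152) (nat_lit 16392345426) (nat_lit 8) (nat_lit 5) (nat_lit 9) (nat_lit 5) (nat_lit 10) (nat_lit 4) (nat_lit 362) (nat_lit 236) (nat_lit 182))))) (XT.nd (nat_lit 234) (nat_lit 76) (nat_lit 0) (XT.nd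 (nat_lit 78) (nat_lit 0) (nat_lit 0) (XT.lf (nat_lit 0) (nat_lit 19039917859) (nat_lit 152) (nat_lit 14171098543) (nat_lit 0) (nat_lit 440118050) (nat_lit 8) (nat_lit 5) (nat_lit 10) (nat_lit 4) (nat_lit 8) (nat_lit 4) (nat_lit 363) (nat_lit 236) (nat_lit 181)) (XT.nd (nat_lit 78) (nat_lit 0) (nat_lit 0) (XT.lf (nat_lit 0) (nat_lit 21791270057) (nat_lit 152) (nat_lit 9720720225) (nat_lit 0) (nat_lit 3058760296) (nat_lit 8) (nat_lit 5) (nat_lit 10) (nat_lit 4) (nat_lit 8) (nat_lit 4) (nat_lit 364) (nat_lit 236) (nat_lit 180)) (XT.lf (nat_lit 0) (nat_lit 24601764685) (nat_lit 152) (nat_lit 5176512027) (nat_lit 0) (nat_lit 5740410312) (nat_lit 8) (nat_lit 5) (nat_lit 10) (nat_lit 4) (nat_lit 8) (nat_lit 4) (nat_lit 365) (nat_lit 236) (nat_lit 179)))) (XT.nd (nat_lit 78) (nat_lit 76) (nat_lit 0) (XT.lf (nat_lit 0) (nat_lit 27473857517) (nat_lit 152) (nat_lit 534503281) (nat_lit 0) (nat_lit 8487411285)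 (nat_lit 8) (nat_lit 5) (nat_lit 10) (nat_lit 4) (nat_lit 8) (nat_lit 4) (nat_lit 366) (nat_lit 236) (nat_lit 178)) (XT.nd (nat_lit 78) (nat_lit 0) (nat_lit 0) (XT.lf (nat_lit 0) (nat_lit 4293136695) (nat_lit 76) (nat_lit 26158189707) (nat_lit 76) (nat_lit 7050295071) (nat_lit 7) (nat_lit 4) (nat_lit 8) (nat_lit 5) (nat_lit 8) (nat_lit 4) (nat_lit 367) (nat_lit 236) (nat_lit 177)) (XT.lf (nat_lit 0) (nat_lit 9239525776) (nat_lit 76) (nat_lit 24262222384) (nat_lit 76) (nat_lit 5036416675) (nat_lit 7) (nat_lit 4) (nat_lit 8) (nat_lit 5) (nat_lit 8) (nat_lit 4) (nat_lit 368) (nat_lit 236) (nat_lit 176))))))))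
noncomputable def xc51 : XT := (XT.nd (nat_lit 1716) (nat_lit 0) (nat_lit 0) (XT.nd (nat_lit 858) (nat_lit 76) (nat_lit 0) (XT.nd (nat_lit 390) (nat_lit 76) (nat_lit 0) (XT.nd (nat_lit 156) (nat_lit 76) (nat_lit 0) (XT.nd (nat_lit 78) (nat_lit 0) (nat_lit 0) (XT.lf (nat_lit 0) (nat_lit 14298348384) (nat_lit 76) (nat_lit 22324199595) (nat_lit 76) (nat_lit 2983917115) (nat_lit 7) (nat_lit 4) (nat_lit 8) (nat_lit 5) (nat_lit 8) (nat_lit 4) (nat_lit 369) (nat_lit 236) (nat_lit 175)) (XT.lf (nat_lit 0) (nat_lit 19474024851) (nat_lit 76) (nat_lit 20342427920) (nat_lit 76) (nat_lit 891002946) (nat_lit 7) (nat_lit 4) (nat_lit 8) (nat_lit 5) (nat_lit 8) (nat_lit 4) (nat_lit 370) (nat_lit 236) (nat_lit 174))) (XT.nd (nat_lit 78) (nat_lit 0) (nat_lit 0) (XT.lf (nat_lit 0) (nat_lit 1219876655) (nat_lit 152) (nat_lit 17082980698) (nat_lit 76) (nat_lit 23538882594) (nat_lit 6) (nat_lit 5) (nat_lit 8) (nat_lit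 5) (nat_lit 7) (nat_lit 4) (nat_lit 371) (nat_lit 236) (nat_lit 173)) (XT.nd (nat_lit 78) (nat_lit 0) (nat_lit 0) (XT.lf (nat_lit 0) (nat_lit 3356617896) (nat_lit 152) (nat_lit 12850158441) (nat_lit 76) (nat_lit 26803622004) (nat_lit 6) (nat_lit 5) (nat_lit 8) (nat_lit 5) (nat_lit 7) (nat_lit 4) (nat_lit 372) (nat_lit 236) (nat_lit 172)) (XT.lf (nat_lit 0) (nat_lit 5538474507) (nat_lit 152) (nat_lit 8522700647) (nat_lit 76) (nat_lit 30153533848) (nat_lit 6) (nat_lit 5) (nat_lit 8) (nat_lit 5) (nat_lit 7) (nat_lit 4) (nat_lit 373) (nat_lit 236) (nat_lit 171))))) (XT.nd (nat_lit 234) (nat_lit 0) (nat_lit 0) (XT.nd (nat_lit 78) (nat_lit 76) (nat_lit 0) (XT.lf (nat_lit 0) (nat_lit 7767352966) (nat_lit 152) (nat_lit 4096826043) (nat_lit 76) (nat_lit 33591545231) (nat_lit 6) (nat_lit 5) (nat_lit 8) (nat_lit 5) (nat_lit 7) (nat_lit 4) (nat_lit 374) (nat_lit 236) (nat_lit 170)) (XT.nd (nat_lit 78)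 (nat_lit 0) (nat_lit 0) (XT.lf (nat_lit 0) (nat_lit 439917004) (nat_lit 76) (nat_lit 9609512583) (nat_lit 152) (nat_lit 36684971991) (nat_lit 5) (nat_lit 5) (nat_lit 6) (nat_lit 5) (nat_lit 7) (nat_lit 4) (nat_lit 375) (nat_lit 236) (nat_lit 169)) (XT.lf (nat_lit 0) (nat_lit 5166550045) (nat_lit 76) (nat_lit 7257122463) (nat_lit 152) (nat_lit 35627076571) (nat_lit 5) (nat_lit 5) (nat_lit 6) (nat_lit 5) (nat_lit 7) (nat_lit 4) (nat_lit 376) (nat_lit 236) (nat_lit 168)))) (XT.nd (nat_lit 78) (nat_lit 0) (nat_lit 0) (XT.lf (nat_lit 0) (nat_lit 10005668275) (nat_lit 76) (nat_lit 4846323075) (nat_lit 152) (nat_lit 34555130552) (nat_lit 5) (nat_lit 5) (nat_lit 6) (nat_lit 5) (nat_lit 7) (nat_lit 4) (nat_lit 377) (nat_lit 236) (nat_lit 167)) (XT.nd (nat_lit 78) (nat_lit 0) (nat_lit 0) (XT.lf (nat_lit 0) (nat_lit 14961500051) (nat_lit 76) (nat_lit 2375007895) (nat_lit 152) (nat_lit 33468197281) (nat_lit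 5) (nat_lit 5) (nat_lit 6) (nat_lit 5) (nat_lit 7) (nat_lit 4) (nat_lit 378) (nat_lit 236) (nat_lit 166)) (XT.lf (nat_lit 0) (nat_lit 19880921467) (nat_lit 152) (nat_lit 32207872769) (nat_lit 0) (nat_lit 155880158) (nat_lit 5) (nat_lit 5) (nat_lit 7) (nat_lit 4) (nat_lit 5) (nat_lit 4) (nat_lit 379) (nat_lit 236) (nat_lit 165)))))) (XT.nd (nat_lit 390) (nat_lit 76) (nat_lit 0) (XT.nd (nat_lit 156) (nat_lit 0) (nat_lit 0) (XT.nd (nat_lit 78) (nat_lit 0) (nat_lit 0) (XT.lf (nat_lit 0) (nat_lit 22509379401) (nat_lit 152) (nat_lit 28514204115) (nat_lit 0) (nat_lit 2704046389) (nat_lit 5) (nat_lit 5) (nat_lit 7) (nat_lit 4) (nat_lit 5) (nat_lit 4) (nat_lit 380) (nat_lit 236) (nat_lit 164)) (XT.lf (nat_lit 0) (nat_lit 25201348430) (nat_lit 152) (nat_lit 24736141707) (nat_lit 0) (nat_lit 5318062308) (nat_lit 5) (nat_lit 5) (nat_lit 7) (nat_lit 4) (nat_lit 5) (nat_lit 4) (nat_lit 381) (nat_lit 236)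 (nat_lit 163))) (XT.nd (nat_lit 78) (nat_lit 0) (nat_lit 0) (XT.lf (nat_lit 0) (nat_lit 27959180759) (nat_lit 152) (nat_lit 20870384326) (nat_lit 0) (nat_lit 8000212006) (nat_lit 5) (nat_lit 5) (nat_lit 7) (nat_lit 4) (nat_lit 5) (nat_lit 4) (nat_lit 382) (nat_lit 236) (nat_lit 162)) (XT.nd (nat_lit 78) (nat_lit 0) (nat_lit 0) (XT.lf (nat_lit 0) (nat_lit 30785286146) (nat_lit 152) (nat_lit 16913554125) (nat_lit 0) (nat_lit 10752839111) (nat_lit 5) (nat_lit 5) (nat_lit 7) (nat_lit 4) (nat_lit 5) (nat_lit 4) (nat_lit 383) (nat_lit 236) (nat_lit 161)) (XT.lf (nat_lit 0) (nat_lit 33682134003) (nat_lit 152) (nat_lit 12862193681) (nat_lit 0) (nat_lit 13578348829) (nat_lit 5) (nat_lit 5) (nat_lit 7) (nat_lit 4) (nat_lit 5) (nat_lit 4) (nat_lit 384) (nat_lit 236) (nat_lit 160))))) (XT.nd (nat_lit 234) (nat_lit 76) (nat_lit 0) (XT.nd (nat_lit 78) (nat_lit 0) (nat_lit 0) (XT.lf (nat_lit 0) (nat_lit 36652255556)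 (nat_lit 152) (nat_lit 8712762969) (nat_lit 0) (nat_lit 16479210054) (nat_lit 5) (nat_lit 5) (nat_lit 7) (nat_lit 4) (nat_lit 5) (nat_lit 4) (nat_lit 385) (nat_lit 236) (nat_lit 159)) (XT.nd (nat_lit 78) (nat_lit 0) (nat_lit 0) (XT.lf (nat_lit 0) (nat_lit 39698246057) (nat_lit 152) (nat_lit 4461636274) (nat_lit 0) (nat_lit 19457957517) (nat_lit 5) (nat_lit 5) (nat_lit 7) (nat_lit 4) (nat_lit 5) (nat_lit 4) (nat_lit 386) (nat_lit 236) (nat_lit 158)) (XT.lf (nat_lit 0) (nat_lit 42822767051) (nat_lit 152) (nat_lit 105099018) (nat_lit 0) (nat_lit 22517194009) (nat_lit 5) (nat_lit 5) (nat_lit 7) (nat_lit 4) (nat_lit 5) (nat_lit 4) (nat_lit 387) (nat_lit 236) (nat_lit 157)))) (XT.nd (nat_lit 78) (nat_lit 0) (nat_lit 0) (XT.lf (nat_lit 0) (nat_lit 4447441074) (nat_lit 76) (nat_lit 41623859151) (nat_lit 76) (nat_lit 21254903097) (nat_lit 4) (nat_lit 4) (nat_lit 5) (nat_lit 5) (nat_lit 5) (nat_lit 4)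 (nat_lit 388) (nat_lit 236) (nat_lit 156)) (XT.nd (nat_lit 78) (nat_lit 0) (nat_lit 0) (XT.lf (nat_lit 0) (nat_lit 9117443501) (nat_lit 76) (nat_lit 40288591122) (nat_lit 76) (nat_lit 19858098163) (nat_lit 4) (nat_lit 4) (nat_lit 5) (nat_lit 5) (nat_lit 5) (nat_lit 4) (nat_lit 389) (nat_lit 236) (nat_lit 155)) (XT.lf (nat_lit 0) (nat_lit 13906897167) (nat_lit 76) (nat_lit 38921956536) (nat_lit 76) (nat_lit 18431719009) (nat_lit 4) (nat_lit 4) (nat_lit 5) (nat_lit 5) (nat_lit 5) (nat_lit 4) (nat_lit 390) (nat_lit 236) (nat_lit 154))))))) (XT.nd (nat_lit 34008) (nat_lit 0) (nat_lit 2812) (XT.nd (nat_lit 390) (nat_lit 0) (nat_lit 0) (XT.nd (nat_lit 156) (nat_lit 0) (nat_lit 0) (XT.nd (nat_lit 78) (nat_lit 0) (nat_lit 0) (XT.lf (nat_lit 0) (nat_lit 18819987035) (nat_lit 76) (nat_lit 37522761247) (nat_lit 76) (nat_lit 16974519285) (nat_lit 4) (nat_lit 4) (nat_lit 5) (nat_lit 5) (nat_lit 5) (nat_lit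 4) (nat_lit 391) (nat_lit 236) (nat_lit 153)) (XT.lf (nat_lit 0) (nat_lit 23861006093) (nat_lit 76) (nat_lit 36089782657) (nat_lit 76) (nat_lit 15485225710) (nat_lit 4) (nat_lit 4) (nat_lit 5) (nat_lit 5) (nat_lit 5) (nat_lit 4) (nat_lit 392) (nat_lit 236) (nat_lit 152))) (XT.nd (nat_lit 78) (nat_lit 0) (nat_lit 0) (XT.lf (nat_lit 0) (nat_lit 29034359117) (nat_lit 76) (nat_lit 34621768649) (nat_lit 76) (nat_lit 13962536959) (nat_lit 4) (nat_lit 4) (nat_lit 5) (nat_lit 5) (nat_lit 5) (nat_lit 4) (nat_lit 393) (nat_lit 236) (nat_lit 151)) (XT.nd (nat_lit 78) (nat_lit 0) (nat_lit 0) (XT.lf (nat_lit 0) (nat_lit 34344566511) (nat_lit 76) (nat_lit 33117436492) (nat_lit 76) (nat_lit 12405122527) (nat_lit 4) (nat_lit 4) (nat_lit 5) (nat_lit 5) (nat_lit 5) (nat_lit 4) (nat_lit 394) (nat_lit 236) (nat_lit 150)) (XT.lf (nat_lit 0) (nat_lit 39796268264) (nat_lit 76) (nat_lit 31575471721) (nat_lit 76) (nat_lit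 10811621568) (nat_lit 4) (nat_lit 4) (nat_lit 5) (nat_lit 5) (nat_lit 5) (nat_lit 4) (nat_lit 395) (nat_lit 236) (nat_lit 149))))) (XT.nd (nat_lit 234) (nat_lit 0) (nat_lit 0) (XT.nd (nat_lit 78) (nat_lit 0) (nat_lit 0) (XT.lf (nat_lit 0) (nat_lit 45394227997) (nat_lit 76) (nat_lit 29994526989) (nat_lit 76) (nat_lit 9180641700) (nat_lit 4) (nat_lit 4) (nat_lit 5) (nat_lit 5) (nat_lit 5) (nat_lit 4) (nat_lit 396) (nat_lit 236) (nat_lit 148)) (XT.nd (nat_lit 78) (nat_lit 0) (nat_lit 0) (XT.lf (nat_lit 0) (nat_lit 51143337132) (nat_lit 76) (nat_lit 28373220887) (nat_lit 76) (nat_lit 7510757798) (nat_lit 4) (nat_lit 4) (nat_lit 5) (nat_lit 5) (nat_lit 5) (nat_lit 4) (nat_lit 397) (nat_lit 236) (nat_lit 147)) (XT.lf (nat_lit 0) (nat_lit 57048619163) (nat_lit 76) (nat_lit 26710136740) (nat_lit 76) (nat_lit 5800510737) (nat_lit 4) (nat_lit 4) (nat_lit 5) (nat_lit 5) (nat_lit 5) (nat_lit 4) (nat_lit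 398) (nat_lit 236) (nat_lit 146)))) (XT.nd (nat_lit 78) (nat_lit 0) (nat_lit 0) (XT.lf (nat_lit 0) (nat_lit 63115234044) (nat_lit 76) (nat_lit 25003821368) (nat_lit 76) (nat_lit 4048406129) (nat_lit 4) (nat_lit 4) (nat_lit 5) (nat_lit 5) (nat_lit 5) (nat_lit 4) (nat_lit 399) (nat_lit 236) (nat_lit 145)) (XT.nd (nat_lit 78) (nat_lit 0) (nat_lit 0) (XT.lf (nat_lit 0) (nat_lit 69348482701) (nat_lit 76) (nat_lit 23252783815) (nat_lit 76) (nat_lit 2252913007) (nat_lit 4) (nat_lit 4) (nat_lit 5) (nat_lit 5) (nat_lit 5) (nat_lit 4) (nat_lit 400) (nat_lit 236) (nat_lit 144)) (XT.lf (nat_lit 0) (nat_lit 75753811662) (nat_lit 76) (nat_lit 21455494049) (nat_lit 76) (nat_lit 412462494) (nat_lit 4) (nat_lit 4) (nat_lit 5) (nat_lit 5) (nat_lit 5) (nat_lit 4) (nat_lit 401) (nat_lit 236) (nat_lit 143)))))) (XT.nd (nat_lit 468) (nat_lit 836) (nat_lit 0) (XT.nd (nat_lit 234) (nat_lit 608) (nat_lit 0) (XT.nd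 (nat_lit 78) (nat_lit 380) (nat_lit 0) (XT.lf (nat_lit 0) (nat_lit 1403068793) (nat_lit 304) (nat_lit 1637006874) (nat_lit 304) (nat_lit 1637006874) (nat_lit 65) (nat_lit 4) (nat_lit 69) (nat_lit 5) (nat_lit 69) (nat_lit 4) (nat_lit 306) (nat_lit 237) (nat_lit 237)) (XT.nd (nat_lit 78) (nat_lit 380) (nat_lit 0) (XT.lf (nat_lit 0) (nat_lit 8251825105) (nat_lit 304) (nat_lit 1092194301) (nat_lit 304) (nat_lit 158595423) (nat_lit 65) (nat_lit 4) (nat_lit 69) (nat_lit 5) (nat_lit 69) (nat_lit 4) (nat_lit 307) (nat_lit 237) (nat_lit 236)) (XT.lf (nat_lit 0) (nat_lit 2963107082) (nat_lit 380) (nat_lit 5515871279) (nat_lit 0) (nat_lit 1176693921) (nat_lit 60) (nat_lit 5) (nat_lit 65) (nat_lit 4) (nat_lit 60) (nat_lit 4) (nat_lit 308) (nat_lit 237) (nat_lit 235)))) (XT.nd (nat_lit 78) (nat_lit 608) (nat_lit 0) (XT.lf (nat_lit 0) (nat_lit 6120787168) (nat_lit 380) (nat_lit 214321194) (nat_lit 0) (nat_lit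 3479998780) (nat_lit 60) (nat_lit 5) (nat_lit 65) (nat_lit 4) (nat_lit 60) (nat_lit 4) (nat_lit 309) (nat_lit 237) (nat_lit 234)) (XT.nd (nat_lit 78) (nat_lit 304) (nat_lit 0) (XT.lf (nat_lit 0) (nat_lit 5245112886) (nat_lit 304) (nat_lit 4102722191) (nat_lit 304) (nat_lit 632443291) (nat_lit 56) (nat_lit 4) (nat_lit 60) (nat_lit 5) (nat_lit 60) (nat_lit 4) (nat_lit 310) (nat_lit 237) (nat_lit 233)) (XT.lf (nat_lit 0) (nat_lit 605764263) (nat_lit 228) (nat_lit 1798853350) (nat_lit 304) (nat_lit 7747265605) (nat_lit 52) (nat_lit 5) (nat_lit 55) (nat_lit 5) (nat_lit 56) (nat_lit 4) (nat_lit 311) (nat_lit 237) (nat_lit 232))))) (XT.nd (nat_lit 234) (nat_lit 456) (nat_lit 0) (XT.nd (nat_lit 78) (nat_lit 380) (nat_lit 0) (XT.lf (nat_lit 0) (nat_lit 5499334977) (nat_lit 304) (nat_lit 4240755337) (nat_lit 0) (nat_lit 589156475) (nat_lit 52) (nat_lit 5) (nat_lit 56) (nat_lit 4) (nat_lit 52) (nat_lit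 4) (nat_lit 312) (nat_lit 237) (nat_lit 231)) (XT.nd (nat_lit 78) (nat_lit 76) (nat_lit 0) (XT.lf (nat_lit 0) (nat_lit 1125704331) (nat_lit 304) (nat_lit 7517440236) (nat_lit 304) (nat_lit 1870270159) (nat_lit 48) (nat_lit 4) (nat_lit 52) (nat_lit 5) (nat_lit 52) (nat_lit 4) (nat_lit 313) (nat_lit 237) (nat_lit 230)) (XT.lf (nat_lit 0) (nat_lit 1126304244) (nat_lit 380) (nat_lit 4076298263) (nat_lit 76) (nat_lit 5501192597) (nat_lit 47) (nat_lit 5) (nat_lit 52) (nat_lit 5) (nat_lit 48) (nat_lit 4) (nat_lit 314) (nat_lit 237) (nat_lit 229)))) (XT.nd (nat_lit 78) (nat_lit 228) (nat_lit 0) (XT.lf (nat_lit 0) (nat_lit 1301515397) (nat_lit 228) (nat_lit 2816167617) (nat_lit 304) (nat_lit 6783529893) (nat_lit 44) (nat_lit 5) (nat_lit 47) (nat_lit 5) (nat_lit 48) (nat_lit 4) (nat_lit 315) (nat_lit 237) (nat_lit 228)) (XT.nd (nat_lit 78) (nat_lit 228) (nat_lit 0) (XT.lf (nat_lit 0) (nat_lit 6825381654)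 (nat_lit 228) (nat_lit 345659956) (nat_lit 304) (nat_lit 3934496396) (nat_lit 44) (nat_lit 5) (nat_lit 47) (nat_lit 5) (nat_lit 48) (nat_lit 4) (nat_lit 316) (nat_lit 237) (nat_lit 227)) (XT.lf (nat_lit 0) (nat_lit 1101488452) (nat_lit 228) (nat_lit 9179042603) (nat_lit 228) (nat_lit 1036673393) (nat_lit 41) (nat_lit 4) (nat_lit 44) (nat_lit 5) (nat_lit 44) (nat_lit 4) (nat_lit 317) (nat_lit 237) (nat_lit 226))))))))
noncomputable def xc52 : XT := (XT.nd (nat_lit 1716) (nat_lit 684) (nat_lit 0) (XT.nd (nat_lit 858) (nat_lit 760) (nat_lit 0) (XT.nd (nat_lit 390) (nat_lit 456) (nat_lit 0) (XT.nd (nat_lit 156) (nat_lit 304) (nat_lit 0) (XT.nd (nat_lit 78) (nat_lit 228) (nat_lit 0) (XT.lf (nat_lit 0) (nat_lit 1890176131) (nat_lit 304) (nat_lit 4922530505) (nat_lit 76) (nat_lit 4722688304) (nat_lit 40) (nat_lit 5) (nat_lit 44) (nat_lit 5) (nat_lit 41) (nat_lit 4) (nat_lit 318) (nat_lit 237) (nat_lit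 225)) (XT.lf (nat_lit 0) (nat_lit 432132131) (nat_lit 228) (nat_lit 4391001749) (nat_lit 304) (nat_lit 6938650155) (nat_lit 37) (nat_lit 5) (nat_lit 40) (nat_lit 5) (nat_lit 41) (nat_lit 4) (nat_lit 319) (nat_lit 237) (nat_lit 224))) (XT.nd (nat_lit 78) (nat_lit 304) (nat_lit 0) (XT.lf (nat_lit 0) (nat_lit 5953791062) (nat_lit 228) (nat_lit 1875966900) (nat_lit 304) (nat_lit 4165767556) (nat_lit 37) (nat_lit 5) (nat_lit 40) (nat_lit 5) (nat_lit 41) (nat_lit 4) (nat_lit 320) (nat_lit 237) (nat_lit 223)) (XT.nd (nat_lit 78) (nat_lit 304) (nat_lit 0) (XT.lf (nat_lit 0) (nat_lit 10870998979) (nat_lit 304) (nat_lit 695551964) (nat_lit 0) (nat_lit 671522982) (nat_lit 37) (nat_lit 5) (nat_lit 41) (nat_lit 4) (nat_lit 37) (nat_lit 4) (nat_lit 321) (nat_lit 237) (nat_lit 222)) (XT.lf (nat_lit 0) (nat_lit 1489960316) (nat_lit 304) (nat_lit 7707274950) (nat_lit 76) (nat_lit 3290227695) (nat_lit 33) (nat_lit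 5) (nat_lit 37) (nat_lit 5) (nat_lit 34) (nat_lit 4) (nat_lit 322) (nat_lit 237) (nat_lit 221))))) (XT.nd (nat_lit 234) (nat_lit 304) (nat_lit 0) (XT.nd (nat_lit 78) (nat_lit 152) (nat_lit 0) (XT.lf (nat_lit 0) (nat_lit 4351884704) (nat_lit 304) (nat_lit 2414479504) (nat_lit 76) (nat_lit 5979280179) (nat_lit 33) (nat_lit 5) (nat_lit 37) (nat_lit 5) (nat_lit 34) (nat_lit 4) (nat_lit 323) (nat_lit 237) (nat_lit 220)) (XT.nd (nat_lit 78) (nat_lit 0) (nat_lit 0) (XT.lf (nat_lit 0) (nat_lit 3007228330) (nat_lit 152) (nat_lit 4262667820) (nat_lit 228) (nat_lit 5742681267) (nat_lit 31) (nat_lit 5) (nat_lit 33) (nat_lit 5) (nat_lit 34) (nat_lit 4) (nat_lit 324) (nat_lit 237) (nat_lit 219)) (XT.lf (nat_lit 0) (nat_lit 8553396702) (nat_lit 152) (nat_lit 1688620938) (nat_lit 228) (nat_lit 3046613452) (nat_lit 31) (nat_lit 5) (nat_lit 33) (nat_lit 5) (nat_lit 34) (nat_lit 4) (nat_lit 325) (nat_lit 237)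 (nat_lit 218)))) (XT.nd (nat_lit 78) (nat_lit 76) (nat_lit 0) (XT.lf (nat_lit 0) (nat_lit 608970583) (nat_lit 228) (nat_lit 12653032780) (nat_lit 228) (nat_lit 312308549) (nat_lit 28) (nat_lit 4) (nat_lit 31) (nat_lit 5) (nat_lit 31) (nat_lit 4) (nat_lit 326) (nat_lit 237) (nat_lit 217)) (XT.nd (nat_lit 78) (nat_lit 0) (nat_lit 0) (XT.lf (nat_lit 0) (nat_lit 2463931618) (nat_lit 304) (nat_lit 7784835069) (nat_lit 76) (nat_lit 3618911736) (nat_lit 27) (nat_lit 5) (nat_lit 31) (nat_lit 5) (nat_lit 28) (nat_lit 4) (nat_lit 327) (nat_lit 237) (nat_lit 216)) (XT.lf (nat_lit 0) (nat_lit 5262579608) (nat_lit 304) (nat_lit 2536484526) (nat_lit 76) (nat_lit 6372424607) (nat_lit 27) (nat_lit 5) (nat_lit 31) (nat_lit 5) (nat_lit 28) (nat_lit 4) (nat_lit 328) (nat_lit 237) (nat_lit 215)))))) (XT.nd (nat_lit 390) (nat_lit 380) (nat_lit 0) (XT.nd (nat_lit 156) (nat_lit 228) (nat_lit 0) (XT.nd (nat_lit 78)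 (nat_lit 0) (nat_lit 0) (XT.lf (nat_lit 0) (nat_lit 2842771039) (nat_lit 152) (nat_lit 5276730521) (nat_lit 228) (nat_lit 6365777042) (nat_lit 25) (nat_lit 5) (nat_lit 27) (nat_lit 5) (nat_lit 28) (nat_lit 4) (nat_lit 329) (nat_lit 237) (nat_lit 214)) (XT.lf (nat_lit 0) (nat_lit 8354185621) (nat_lit 152) (nat_lit 2681310495) (nat_lit 228) (nat_lit 3773877006) (nat_lit 25) (nat_lit 5) (nat_lit 27) (nat_lit 5) (nat_lit 28) (nat_lit 4) (nat_lit 330) (nat_lit 237) (nat_lit 213))) (XT.nd (nat_lit 78) (nat_lit 228) (nat_lit 0) (XT.lf (nat_lit 0) (nat_lit 13952094005) (nat_lit 152) (nat_lit 36149733) (nat_lit 228) (nat_lit 1156557778) (nat_lit 25) (nat_lit 5) (nat_lit 27) (nat_lit 5) (nat_lit 28) (nat_lit 4) (nat_lit 331) (nat_lit 237) (nat_lit 212)) (XT.nd (nat_lit 78) (nat_lit 0) (nat_lit 0) (XT.lf (nat_lit 0) (nat_lit 1526086484) (nat_lit 228) (nat_lit 11298812554) (nat_lit 76) (nat_lit 2664528667)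 (nat_lit 22) (nat_lit 5) (nat_lit 25) (nat_lit 5) (nat_lit 23) (nat_lit 4) (nat_lit 332) (nat_lit 237) (nat_lit 211)) (XT.lf (nat_lit 0) (nat_lit 4229109141) (nat_lit 228) (nat_lit 6174227580) (nat_lit 76) (nat_lit 5441899748) (nat_lit 22) (nat_lit 5) (nat_lit 25) (nat_lit 5) (nat_lit 23) (nat_lit 4) (nat_lit 333) (nat_lit 237) (nat_lit 210))))) (XT.nd (nat_lit 234) (nat_lit 228) (nat_lit 0) (XT.nd (nat_lit 78) (nat_lit 152) (nat_lit 0) (XT.lf (nat_lit 0) (nat_lit 6965284186) (nat_lit 228) (nat_lit 971783518) (nat_lit 76) (nat_lit 8276169223) (nat_lit 22) (nat_lit 5) (nat_lit 25) (nat_lit 5) (nat_lit 23) (nat_lit 4) (nat_lit 334) (nat_lit 237) (nat_lit 209)) (XT.nd (nat_lit 78) (nat_lit 0) (nat_lit 0) (XT.lf (nat_lit 0) (nat_lit 4398903914) (nat_lit 152) (nat_lit 5380383494) (nat_lit 228) (nat_lit 6813194678) (nat_lit 20) (nat_lit 5) (nat_lit 22) (nat_lit 5) (nat_lit 23) (nat_lit 4) (nat_lit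 335) (nat_lit 237) (nat_lit 208)) (XT.lf (nat_lit 0) (nat_lit 9877686410) (nat_lit 152) (nat_lit 2763949785) (nat_lit 228) (nat_lit 4342625373) (nat_lit 20) (nat_lit 5) (nat_lit 22) (nat_lit 5) (nat_lit 23) (nat_lit 4) (nat_lit 336) (nat_lit 237) (nat_lit 207)))) (XT.nd (nat_lit 78) (nat_lit 228) (nat_lit 0) (XT.lf (nat_lit 0) (nat_lit 15450010857) (nat_lit 152) (nat_lit 95293482) (nat_lit 228) (nat_lit 1843899184) (nat_lit 20) (nat_lit 5) (nat_lit 22) (nat_lit 5) (nat_lit 23) (nat_lit 4) (nat_lit 337) (nat_lit 237) (nat_lit 206)) (XT.nd (nat_lit 78) (nat_lit 0) (nat_lit 0) (XT.lf (nat_lit 0) (nat_lit 729861123) (nat_lit 228) (nat_lit 14459834973) (nat_lit 76) (nat_lit 2616026182) (nat_lit 17) (nat_lit 5) (nat_lit 20) (nat_lit 5) (nat_lit 18) (nat_lit 4) (nat_lit 338) (nat_lit 237) (nat_lit 205)) (XT.lf (nat_lit 0) (nat_lit 3321104459) (nat_lit 228) (nat_lit 9494398158) (nat_lit 76) (nat_lit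 5419432761) (nat_lit 17) (nat_lit 5) (nat_lit 20) (nat_lit 5) (nat_lit 18) (nat_lit 4) (nat_lit 339) (nat_lit 237) (nat_lit 204))))))) (XT.nd (nat_lit 858) (nat_lit 304) (nat_lit 0) (XT.nd (nat_lit 390) (nat_lit 304) (nat_lit 0) (XT.nd (nat_lit 156) (nat_lit 0) (nat_lit 0) (XT.nd (nat_lit 78) (nat_lit 76) (nat_lit 0) (XT.lf (nat_lit 0) (nat_lit 5947960183) (nat_lit 228) (nat_lit 4448082161) (nat_lit 76) (nat_lit 8282310740) (nat_lit 17) (nat_lit 5) (nat_lit 20) (nat_lit 5) (nat_lit 18) (nat_lit 4) (nat_lit 340) (nat_lit 237) (nat_lit 203)) (XT.lf (nat_lit 0) (nat_lit 697125854) (nat_lit 76) (nat_lit 7922298951) (nat_lit 152) (nat_lit 10516737006) (nat_lit 16) (nat_lit 5) (nat_lit 17) (nat_lit 5) (nat_lit 18) (nat_lit 4) (nat_lit 341) (nat_lit 237) (nat_lit 202))) (XT.nd (nat_lit 78) (nat_lit 0) (nat_lit 0) (XT.lf (nat_lit 0) (nat_lit 6022418587) (nat_lit 76) (nat_lit 5353195746) (nat_lit 152)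 (nat_lit 8232013803) (nat_lit 16) (nat_lit 5) (nat_lit 17) (nat_lit 5) (nat_lit 18) (nat_lit 4) (nat_lit 342) (nat_lit 237) (nat_lit 201)) (XT.nd (nat_lit 78) (nat_lit 0) (nat_lit 0) (XT.lf (nat_lit 0) (nat_lit 11443923646) (nat_lit 76) (nat_lit 2731404789) (nat_lit 152) (nat_lit 5919143840) (nat_lit 16) (nat_lit 5) (nat_lit 17) (nat_lit 5) (nat_lit 18) (nat_lit 4) (nat_lit 343) (nat_lit 237) (nat_lit 200)) (XT.lf (nat_lit 0) (nat_lit 16966378271) (nat_lit 76) (nat_lit 54635197) (nat_lit 152) (nat_lit 3576106165) (nat_lit 16) (nat_lit 5) (nat_lit 17) (nat_lit 5) (nat_lit 18) (nat_lit 4) (nat_lit 344) (nat_lit 237) (nat_lit 199))))) (XT.nd (nat_lit 234) (nat_lit 76) (nat_lit 0) (XT.nd (nat_lit 78) (nat_lit 76) (nat_lit 0) (XT.lf (nat_lit 0) (nat_lit 1481756366) (nat_lit 152) (nat_lit 18473399663) (nat_lit 152) (nat_lit 1159653379) (nat_lit 14) (nat_lit 4) (nat_lit 16) (nat_lit 5) (nat_lit 16)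 (nat_lit 4) (nat_lit 345) (nat_lit 237) (nat_lit 198)) (XT.nd (nat_lit 78) (nat_lit 0) (nat_lit 0) (XT.lf (nat_lit 0) (nat_lit 1303873805) (nat_lit 228) (nat_lit 14899590163) (nat_lit 76) (nat_lit 5444219383) (nat_lit 13) (nat_lit 5) (nat_lit 16) (nat_lit 5) (nat_lit 14) (nat_lit 4) (nat_lit 346) (nat_lit 237) (nat_lit 197)) (XT.lf (nat_lit 0) (nat_lit 3782030759) (nat_lit 228) (nat_lit 10094861355) (nat_lit 76) (nat_lit 8320436879) (nat_lit 13) (nat_lit 5) (nat_lit 16) (nat_lit 5) (nat_lit 14) (nat_lit 4) (nat_lit 347) (nat_lit 237) (nat_lit 196)))) (XT.nd (nat_lit 78) (nat_lit 76) (nat_lit 0) (XT.lf (nat_lit 0) (nat_lit 6299611877) (nat_lit 228) (nat_lit 5203521014) (nat_lit 76) (nat_lit 11261428137) (nat_lit 13) (nat_lit 5) (nat_lit 16) (nat_lit 5) (nat_lit 14) (nat_lit 4) (nat_lit 348) (nat_lit 237) (nat_lit 195)) (XT.nd (nat_lit 78) (nat_lit 76) (nat_lit 0) (XT.lf (nat_lit 0) (nat_lit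 8858816988) (nat_lit 228) (nat_lit 221295153) (nat_lit 76) (nat_lit 14269762954) (nat_lit 13) (nat_lit 5) (nat_lit 16) (nat_lit 5) (nat_lit 14) (nat_lit 4) (nat_lit 349) (nat_lit 237) (nat_lit 194)) (XT.lf (nat_lit 0) (nat_lit 4952816925) (nat_lit 76) (nat_lit 6556674870) (nat_lit 152) (nat_lit 12442862554) (nat_lit 12) (nat_lit 5) (nat_lit 13) (nat_lit 5) (nat_lit 14) (nat_lit 4) (nat_lit 350) (nat_lit 237) (nat_lit 193)))))) (XT.nd (nat_lit 390) (nat_lit 152) (nat_lit 0) (XT.nd (nat_lit 156) (nat_lit 152) (nat_lit 0) (XT.nd (nat_lit 78) (nat_lit 0) (nat_lit 0) (XT.lf (nat_lit 0) (nat_lit 10232992490) (nat_lit 76) (nat_lit 3976455598) (nat_lit 152) (nat_lit 10364412269) (nat_lit 12) (nat_lit 5) (nat_lit 13) (nat_lit 5) (nat_lit 14) (nat_lit 4) (nat_lit 351) (nat_lit 237) (nat_lit 192)) (XT.lf (nat_lit 0) (nat_lit 15619441080) (nat_lit 76) (nat_lit 1339434411) (nat_lit 152) (nat_lit 8256125779)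 (nat_lit 12) (nat_lit 5) (nat_lit 13) (nat_lit 5) (nat_lit 14) (nat_lit 4) (nat_lit 352) (nat_lit 237) (nat_lit 191))) (XT.nd (nat_lit 78) (nat_lit 152) (nat_lit 0) (XT.lf (nat_lit 0) (nat_lit 19773217779) (nat_lit 152) (nat_lit 4772509370) (nat_lit 0) (nat_lit 1330218919) (nat_lit 12) (nat_lit 5) (nat_lit 14) (nat_lit 4) (nat_lit 12) (nat_lit 4) (nat_lit 353) (nat_lit 237) (nat_lit 190)) (XT.nd (nat_lit 78) (nat_lit 0) (nat_lit 0) (XT.lf (nat_lit 0) (nat_lit 134714152) (nat_lit 152) (nat_lit 22521928403) (nat_lit 152) (nat_lit 3900578465) (nat_lit 10) (nat_lit 4) (nat_lit 12) (nat_lit 5) (nat_lit 12) (nat_lit 4) (nat_lit 354) (nat_lit 237) (nat_lit 189)) (XT.lf (nat_lit 0) (nat_lit 5237589367) (nat_lit 152) (nat_lit 20407665405) (nat_lit 152) (nat_lit 1613159081) (nat_lit 10) (nat_lit 4) (nat_lit 12) (nat_lit 5) (nat_lit 12) (nat_lit 4) (nat_lit 355) (nat_lit 237) (nat_lit 188))))) (XT.nd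 (nat_lit 234) (nat_lit 76) (nat_lit 0) (XT.nd (nat_lit 78) (nat_lit 0) (nat_lit 0) (XT.lf (nat_lit 0) (nat_lit 699415846) (nat_lit 228) (nat_lit 17542805152) (nat_lit 76) (nat_lit 9739114228) (nat_lit 9) (nat_lit 5) (nat_lit 12) (nat_lit 5) (nat_lit 10) (nat_lit 4) (nat_lit 356) (nat_lit 237) (nat_lit 187)) (XT.nd (nat_lit 78) (nat_lit 0) (nat_lit 0) (XT.lf (nat_lit 0) (nat_lit 3020818210) (nat_lit 228) (nat_lit 12993574854) (nat_lit 76) (nat_lit 12711952591) (nat_lit 9) (nat_lit 5) (nat_lit 12) (nat_lit 5) (nat_lit 10) (nat_lit 4) (nat_lit 357) (nat_lit 237) (nat_lit 186)) (XT.lf (nat_lit 0) (nat_lit 5384554964) (nat_lit 228) (nat_lit 8353651865) (nat_lit 76) (nat_lit 15756354491) (nat_lit 9) (nat_lit 5) (nat_lit 12) (nat_lit 5) (nat_lit 10) (nat_lit 4) (nat_lit 358) (nat_lit 237) (nat_lit 185)))) (XT.nd (nat_lit 78) (nat_lit 76) (nat_lit 0) (XT.lf (nat_lit 0) (nat_lit 7792691511) (nat_lit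 228) (nat_lit 3618981882) (nat_lit 76) (nat_lit 18874980085) (nat_lit 9) (nat_lit 5) (nat_lit 12) (nat_lit 5) (nat_lit 10) (nat_lit 4) (nat_lit 359) (nat_lit 237) (nat_lit 184)) (XT.nd (nat_lit 78) (nat_lit 0) (nat_lit 0) (XT.lf (nat_lit 0) (nat_lit 1238744552) (nat_lit 76) (nat_lit 9020495064) (nat_lit 152) (nat_lit 20843717403) (nat_lit 8) (nat_lit 5) (nat_lit 9) (nat_lit 5) (nat_lit 10) (nat_lit 4) (nat_lit 360) (nat_lit 237) (nat_lit 183)) (XT.lf (nat_lit 0) (nat_lit 6273655443) (nat_lit 76) (nat_lit 6537272172) (nat_lit 152) (nat_lit 19132520412) (nat_lit 8) (nat_lit 5) (nat_lit 9) (nat_lit 5) (nat_lit 10) (nat_lit 4) (nat_lit 361) (nat_lit 237) (nat_lit 182))))))))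
noncomputable def xc53 : XT := (XT.nd (nat_lit 1716) (nat_lit 76) (nat_lit 0) (XT.nd (nat_lit 858) (nat_lit 76) (nat_lit 0) (XT.nd (nat_lit 390) (nat_lit 152) (nat_lit 0) (XT.nd (nat_lit 156) (nat_lit 0) (nat_lit 0) (XT.nd (nat_lit 78) (nat_lit 0) (nat_lit 0) (XT.lf (nat_lit 0) (nat_lit 11418125391) (nat_lit 76) (nat_lit 3996379532) (nat_lit 152) (nat_lit 17395420395) (nat_lit 8) (nat_lit 5) (nat_lit 9) (nat_lit 5) (nat_lit 10) (nat_lit 4) (nat_lit 362) (nat_lit 237) (nat_lit 181)) (XT.lf (nat_lit 0) (nat_lit 16676649564) (nat_lit 76) (nat_lit 1395596947) (nat_lit 152) (nat_lit 15630899497) (nat_lit 8) (nat_lit 5) (nat_lit 9) (nat_lit 5) (nat_lit 10) (nat_lit 4) (nat_lit 363) (nat_lit 237) (nat_lit 180))) (XT.nd (nat_lit 78) (nat_lit 0) (nat_lit 0) (XT.lf (nat_lit 0) (nat_lit 20798657203) (nat_lit 152) (nat_lit 12582250317) (nat_lit 0) (nat_lit 1242617585) (nat_lit 8) (nat_lit 5) (nat_lit 10)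 (nat_lit 4) (nat_lit 8) (nat_lit 4) (nat_lit 364) (nat_lit 237) (nat_lit 179)) (XT.nd (nat_lit 78) (nat_lit 0) (nat_lit 0) (XT.lf (nat_lit 0) (nat_lit 23597961370) (nat_lit 152) (nat_lit 8057020295) (nat_lit 0) (nat_lit 3916829895) (nat_lit 8) (nat_lit 5) (nat_lit 10) (nat_lit 4) (nat_lit 8) (nat_lit 4) (nat_lit 365) (nat_lit 237) (nat_lit 178)) (XT.lf (nat_lit 0) (nat_lit 26459189676) (nat_lit 152) (nat_lit 3433436964) (nat_lit 0) (nat_lit 6656609795) (nat_lit 8) (nat_lit 5) (nat_lit 10) (nat_lit 4) (nat_lit 8) (nat_lit 4) (nat_lit 366) (nat_lit 237) (nat_lit 177))))) (XT.nd (nat_lit 234) (nat_lit 76) (nat_lit 0) (XT.nd (nat_lit 78) (nat_lit 0) (nat_lit 0) (XT.lf (nat_lit 0) (nat_lit 1318263775) (nat_lit 76) (nat_lit 28079250405) (nat_lit 76) (nat_lit 8158759451) (nat_lit 7) (nat_lit 4) (nat_lit 8) (nat_lit 5) (nat_lit 8) (nat_lit 4) (nat_lit 367) (nat_lit 237) (nat_lit 176)) (XT.nd (nat_lit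 78) (nat_lit 0) (nat_lit 0) (XT.lf (nat_lit 0) (nat_lit 6246939484) (nat_lit 76) (nat_lit 26190585325) (nat_lit 76) (nat_lit 6155617601) (nat_lit 7) (nat_lit 4) (nat_lit 8) (nat_lit 5) (nat_lit 8) (nat_lit 4) (nat_lit 368) (nat_lit 237) (nat_lit 175)) (XT.lf (nat_lit 0) (nat_lit 11288564644) (nat_lit 76) (nat_lit 24259652092) (nat_lit 76) (nat_lit 4113541873) (nat_lit 7) (nat_lit 4) (nat_lit 8) (nat_lit 5) (nat_lit 8) (nat_lit 4) (nat_lit 369) (nat_lit 237) (nat_lit 174)))) (XT.nd (nat_lit 78) (nat_lit 76) (nat_lit 0) (XT.lf (nat_lit 0) (nat_lit 16447544559) (nat_lit 76) (nat_lit 22284763482) (nat_lit 76) (nat_lit 2030747928) (nat_lit 7) (nat_lit 4) (nat_lit 8) (nat_lit 5) (nat_lit 8) (nat_lit 4) (nat_lit 370) (nat_lit 237) (nat_lit 173)) (XT.nd (nat_lit 78) (nat_lit 0) (nat_lit 0) (XT.lf (nat_lit 0) (nat_lit 92738473) (nat_lit 152) (nat_lit 20170518914) (nat_lit 76) (nat_lit 21634712126) (nat_lit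 6) (nat_lit 5) (nat_lit 8) (nat_lit 5) (nat_lit 7) (nat_lit 4) (nat_lit 371) (nat_lit 237) (nat_lit 172)) (XT.lf (nat_lit 0) (nat_lit 2220126577) (nat_lit 152) (nat_lit 15953632189) (nat_lit 76) (nat_lit 24893161019) (nat_lit 6) (nat_lit 5) (nat_lit 8) (nat_lit 5) (nat_lit 7) (nat_lit 4) (nat_lit 372) (nat_lit 237) (nat_lit 171)))))) (XT.nd (nat_lit 390) (nat_lit 0) (nat_lit 0) (XT.nd (nat_lit 156) (nat_lit 76) (nat_lit 0) (XT.nd (nat_lit 78) (nat_lit 0) (nat_lit 0) (XT.lf (nat_lit 0) (nat_lit 4392902474) (nat_lit 152) (nat_lit 11641645787) (nat_lit 76) (nat_lit 28236965564) (nat_lit 6) (nat_lit 5) (nat_lit 8) (nat_lit 5) (nat_lit 7) (nat_lit 4) (nat_lit 373) (nat_lit 237) (nat_lit 170)) (XT.lf (nat_lit 0) (nat_lit 6612964705) (nat_lit 152) (nat_lit 7230791951) (nat_lit 76) (nat_lit 31669047533) (nat_lit 6) (nat_lit 5) (nat_lit 8) (nat_lit 5) (nat_lit 7) (nat_lit 4) (nat_lit 374) (nat_lit 237)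 (nat_lit 169))) (XT.nd (nat_lit 78) (nat_lit 76) (nat_lit 0) (XT.lf (nat_lit 0) (nat_lit 8882253130) (nat_lit 152) (nat_lit 2717216537) (nat_lit 76) (nat_lit 35192405831) (nat_lit 6) (nat_lit 5) (nat_lit 8) (nat_lit 5) (nat_lit 7) (nat_lit 4) (nat_lit 375) (nat_lit 237) (nat_lit 168)) (XT.nd (nat_lit 78) (nat_lit 0) (nat_lit 0) (XT.lf (nat_lit 0) (nat_lit 1940898269) (nat_lit 76) (nat_lit 9280509455) (nat_lit 152) (nat_lit 36887877953) (nat_lit 5) (nat_lit 5) (nat_lit 6) (nat_lit 5) (nat_lit 7) (nat_lit 4) (nat_lit 376) (nat_lit 237) (nat_lit 167)) (XT.lf (nat_lit 0) (nat_lit 6765996794) (nat_lit 76) (nat_lit 6875526909) (nat_lit 152) (nat_lit 35824390619) (nat_lit 5) (nat_lit 5) (nat_lit 6) (nat_lit 5) (nat_lit 7) (nat_lit 4) (nat_lit 377) (nat_lit 237) (nat_lit 166))))) (XT.nd (nat_lit 234) (nat_lit 0) (nat_lit 0) (XT.nd (nat_lit 78) (nat_lit 0) (nat_lit 0) (XT.lf (nat_lit 0) (nat_lit 11708217205)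 (nat_lit 76) (nat_lit 4409859148) (nat_lit 152) (nat_lit 34745669663) (nat_lit 5) (nat_lit 5) (nat_lit 6) (nat_lit 5) (nat_lit 7) (nat_lit 4) (nat_lit 378) (nat_lit 237) (nat_lit 165)) (XT.nd (nat_lit 78) (nat_lit 0) (nat_lit 0) (XT.lf (nat_lit 0) (nat_lit 16771877947) (nat_lit 76) (nat_lit 1881351704) (nat_lit 152) (nat_lit 33650772515) (nat_lit 5) (nat_lit 5) (nat_lit 6) (nat_lit 5) (nat_lit 7) (nat_lit 4) (nat_lit 379) (nat_lit 237) (nat_lit 164)) (XT.lf (nat_lit 0) (nat_lit 21256044930) (nat_lit 152) (nat_lit 31833383820) (nat_lit 0) (nat_lit 698307114) (nat_lit 5) (nat_lit 5) (nat_lit 7) (nat_lit 4) (nat_lit 5) (nat_lit 4) (nat_lit 380) (nat_lit 237) (nat_lit 163)))) (XT.nd (nat_lit 78) (nat_lit 0) (nat_lit 0) (XT.lf (nat_lit 0) (nat_lit 23940676141) (nat_lit 152) (nat_lit 28067955353) (nat_lit 0) (nat_lit 3307255694) (nat_lit 5) (nat_lit 5) (nat_lit 7) (nat_lit 4) (nat_lit 5) (nat_lit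 4) (nat_lit 381) (nat_lit 237) (nat_lit 162)) (XT.nd (nat_lit 78) (nat_lit 0) (nat_lit 0) (XT.lf (nat_lit 0) (nat_lit 26691384376) (nat_lit 152) (nat_lit 24214463934) (nat_lit 0) (nat_lit 5984485647) (nat_lit 5) (nat_lit 5) (nat_lit 7) (nat_lit 4) (nat_lit 5) (nat_lit 4) (nat_lit 382) (nat_lit 237) (nat_lit 161)) (XT.lf (nat_lit 0) (nat_lit 29510573166) (nat_lit 152) (nat_lit 20269542434) (nat_lit 0) (nat_lit 8732336299) (nat_lit 5) (nat_lit 5) (nat_lit 7) (nat_lit 4) (nat_lit 5) (nat_lit 4) (nat_lit 383) (nat_lit 237) (nat_lit 160))))))) (XT.nd (nat_lit 858) (nat_lit 0) (nat_lit 0) (XT.nd (nat_lit 390) (nat_lit 0) (nat_lit 0) (XT.nd (nat_lit 156) (nat_lit 76) (nat_lit 0) (XT.nd (nat_lit 78) (nat_lit 0) (nat_lit 0) (XT.lf (nat_lit 0) (nat_lit 32400705880) (nat_lit 152) (nat_lit 16229743835) (nat_lit 0) (nat_lit 11553208684) (nat_lit 5) (nat_lit 5) (nat_lit 7) (nat_lit 4) (nat_lit 5) (nat_lit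 4) (nat_lit 384) (nat_lit 237) (nat_lit 159)) (XT.lf (nat_lit 0) (nat_lit 35364307877) (nat_lit 152) (nat_lit 12091538215) (nat_lit 0) (nat_lit 14449567644) (nat_lit 5) (nat_lit 5) (nat_lit 7) (nat_lit 4) (nat_lit 5) (nat_lit 4) (nat_lit 385) (nat_lit 237) (nat_lit 158))) (XT.nd (nat_lit 78) (nat_lit 76) (nat_lit 0) (XT.lf (nat_lit 0) (nat_lit 38403968712) (nat_lit 152) (nat_lit 7851309668) (nat_lit 0) (nat_lit 17423943976) (nat_lit 5) (nat_lit 5) (nat_lit 7) (nat_lit 4) (nat_lit 5) (nat_lit 4) (nat_lit 386) (nat_lit 237) (nat_lit 157)) (XT.nd (nat_lit 78) (nat_lit 76) (nat_lit 0) (XT.lf (nat_lit 0) (nat_lit 41522344399) (nat_lit 152) (nat_lit 3505353138) (nat_lit 0) (nat_lit 20478936652) (nat_lit 5) (nat_lit 5) (nat_lit 7) (nat_lit 4) (nat_lit 5) (nat_lit 4) (nat_lit 387) (nat_lit 237) (nat_lit 156)) (XT.lf (nat_lit 0) (nat_lit 969038236) (nat_lit 76) (nat_lit 43762436484) (nat_lit 76) (nat_lit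 22657491832) (nat_lit 4) (nat_lit 4) (nat_lit 5) (nat_lit 5) (nat_lit 5) (nat_lit 4) (nat_lit 388) (nat_lit 237) (nat_lit 155))))) (XT.nd (nat_lit 234) (nat_lit 0) (nat_lit 0) (XT.nd (nat_lit 78) (nat_lit 0) (nat_lit 0) (XT.lf (nat_lit 0) (nat_lit 5628868824) (nat_lit 76) (nat_lit 42431449974) (nat_lit 76) (nat_lit 21266760754) (nat_lit 4) (nat_lit 4) (nat_lit 5) (nat_lit 5) (nat_lit 5) (nat_lit 4) (nat_lit 389) (nat_lit 237) (nat_lit 154)) (XT.nd (nat_lit 78) (nat_lit 0) (nat_lit 0) (XT.lf (nat_lit 0) (nat_lit 10408446920) (nat_lit 76) (nat_lit 41068972203) (nat_lit 76) (nat_lit 19846278548) (nat_lit 4) (nat_lit 4) (nat_lit 5) (nat_lit 5) (nat_lit 5) (nat_lit 4) (nat_lit 390) (nat_lit 237) (nat_lit 153)) (XT.lf (nat_lit 0) (nat_lit 15311948853) (nat_lit 76) (nat_lit 39673812657) (nat_lit 76) (nat_lit 18394804017) (nat_lit 4) (nat_lit 4) (nat_lit 5) (nat_lit 5) (nat_lit 5) (nat_lit 4) (nat_lit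 391) (nat_lit 237) (nat_lit 152)))) (XT.nd (nat_lit 78) (nat_lit 0) (nat_lit 0) (XT.lf (nat_lit 0) (nat_lit 20343659239) (nat_lit 76) (nat_lit 38244752264) (nat_lit 76) (nat_lit 16911068881) (nat_lit 4) (nat_lit 4) (nat_lit 5) (nat_lit 5) (nat_lit 5) (nat_lit 4) (nat_lit 392) (nat_lit 237) (nat_lit 151)) (XT.nd (nat_lit 78) (nat_lit 0) (nat_lit 0) (XT.lf (nat_lit 0) (nat_lit 25507974716) (nat_lit 76) (nat_lit 36780542330) (nat_lit 76) (nat_lit 15393776672) (nat_lit 4) (nat_lit 4) (nat_lit 5) (nat_lit 5) (nat_lit 5) (nat_lit 4) (nat_lit 393) (nat_lit 237) (nat_lit 150)) (XT.lf (nat_lit 0) (nat_lit 30809407793) (nat_lit 76) (nat_lit 35279903450) (nat_lit 76) (nat_lit 13841601603) (nat_lit 4) (nat_lit 4) (nat_lit 5) (nat_lit 5) (nat_lit 5) (nat_lit 4) (nat_lit 394) (nat_lit 237) (nat_lit 149)))))) (XT.nd (nat_lit 468) (nat_lit 0) (nat_lit 0) (XT.nd (nat_lit 156) (nat_lit 0) (nat_lit 0) (XT.nd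 (nat_lit 78) (nat_lit 0) (nat_lit 0) (XT.lf (nat_lit 0) (nat_lit 36252590791) (nat_lit 76) (nat_lit 33741524384) (nat_lit 76) (nat_lit 12253187402) (nat_lit 4) (nat_lit 4) (nat_lit 5) (nat_lit 5) (nat_lit 5) (nat_lit 4) (nat_lit 395) (nat_lit 237) (nat_lit 148)) (XT.lf (nat_lit 0) (nat_lit 41842279889) (nat_lit 76) (nat_lit 32164060919) (nat_lit 76) (nat_lit 10627146136) (nat_lit 4) (nat_lit 4) (nat_lit 5) (nat_lit 5) (nat_lit 5) (nat_lit 4) (nat_lit 396) (nat_lit 237) (nat_lit 147))) (XT.nd (nat_lit 78) (nat_lit 0) (nat_lit 0) (XT.lf (nat_lit 0) (nat_lit 47583359281) (nat_lit 76) (nat_lit 30546134688) (nat_lit 76) (nat_lit 8962056992) (nat_lit 4) (nat_lit 4) (nat_lit 5) (nat_lit 5) (nat_lit 5) (nat_lit 4) (nat_lit 397) (nat_lit 237) (nat_lit 146)) (XT.nd (nat_lit 78) (nat_lit 0) (nat_lit 0) (XT.lf (nat_lit 0) (nat_lit 53480845444) (nat_lit 76) (nat_lit 28886331969) (nat_lit 76) (nat_lit 7256465037)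 (nat_lit 4) (nat_lit 4) (nat_lit 5) (nat_lit 5) (nat_lit 5) (nat_lit 4) (nat_lit 398) (nat_lit 237) (nat_lit 145)) (XT.lf (nat_lit 0) (nat_lit 59539891522) (nat_lit 76) (nat_lit 27183202450) (nat_lit 76) (nat_lit 5508879948) (nat_lit 4) (nat_lit 4) (nat_lit 5) (nat_lit 5) (nat_lit 5) (nat_lit 4) (nat_lit 399) (nat_lit 237) (nat_lit 144))))) (XT.nd (nat_lit 33228) (nat_lit 0) (nat_lit 4256) (XT.nd (nat_lit 33072) (nat_lit 0) (nat_lit 4940) (XT.lf (nat_lit 0) (nat_lit 72163986465) (nat_lit 76) (nat_lit 23640971164) (nat_lit 76) (nat_lit 1881584277) (nat_lit 4) (nat_lit 4) (nat_lit 5) (nat_lit 5) (nat_lit 5) (nat_lit 4) (nat_lit 401) (nat_lit 237) (nat_lit 142)) (XT.nd (nat_lit 78) (nat_lit 0) (nat_lit 0) (XT.lf (nat_lit 0) (nat_lit 339249378) (nat_lit 380) (nat_lit 3858586515) (nat_lit 0) (nat_lit 339249378) (nat_lit 69) (nat_lit 5) (nat_lit 74) (nat_lit 4) (nat_lit 69) (nat_lit 4) (nat_lit 304)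 (nat_lit 238) (nat_lit 238)) (XT.lf (nat_lit 0) (nat_lit 3819676964) (nat_lit 380) (nat_lit 2534100638) (nat_lit 0) (nat_lit 2858070119) (nat_lit 69) (nat_lit 5) (nat_lit 74) (nat_lit 4) (nat_lit 69) (nat_lit 4) (nat_lit 305) (nat_lit 238) (nat_lit 237)))) (XT.nd (nat_lit 78) (nat_lit 380) (nat_lit 0) (XT.lf (nat_lit 0) (nat_lit 2753573827) (nat_lit 304) (nat_lit 4248546408) (nat_lit 304) (nat_lit 2353340684) (nat_lit 65) (nat_lit 4) (nat_lit 69) (nat_lit 5) (nat_lit 69) (nat_lit 4) (nat_lit 306) (nat_lit 238) (nat_lit 236)) (XT.nd (nat_lit 78) (nat_lit 304) (nat_lit 0) (XT.lf (nat_lit 0) (nat_lit 708240727) (nat_lit 380) (nat_lit 1363883723) (nat_lit 76) (nat_lit 7432836000) (nat_lit 64) (nat_lit 5) (nat_lit 69) (nat_lit 5) (nat_lit 65) (nat_lit 4) (nat_lit 307) (nat_lit 238) (nat_lit 235)) (XT.lf (nat_lit 0) (nat_lit 3777858164) (nat_lit 380) (nat_lit 5678210459) (nat_lit 0) (nat_lit 203470897)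 (nat_lit 60) (nat_lit 5) (nat_lit 65) (nat_lit 4) (nat_lit 60) (nat_lit 4) (nat_lit 308) (nat_lit 238) (nat_lit 234))))))))
noncomputable def xc54 : XT := (XT.nd (nat_lit 1716) (nat_lit 988) (nat_lit 0) (XT.nd (nat_lit 858) (nat_lit 1140) (nat_lit 0) (XT.nd (nat_lit 390) (nat_lit 608) (nat_lit 0) (XT.nd (nat_lit 156) (nat_lit 532) (nat_lit 0) (XT.nd (nat_lit 78) (nat_lit 380) (nat_lit 0) (XT.lf (nat_lit 0) (nat_lit 6898207308) (nat_lit 380) (nat_lit 427652271) (nat_lit 0) (nat_lit 2494329529) (nat_lit 60) (nat_lit 5) (nat_lit 65) (nat_lit 4) (nat_lit 60) (nat_lit 4) (nat_lit 309) (nat_lit 238) (nat_lit 233)) (XT.lf (nat_lit 0) (nat_lit 97869951) (nat_lit 380) (nat_lit 5010532369) (nat_lit 76) (nat_lit 4878185879) (nat_lit 55) (nat_lit 5) (nat_lit 60) (nat_lit 5) (nat_lit 56) (nat_lit 4) (nat_lit 310) (nat_lit 238) (nat_lit 232))) (XT.nd (nat_lit 78) (nat_lit 304) (nat_lit 0) (XT.lf (nat_lit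 0) (nat_lit 267898415) (nat_lit 228) (nat_lit 2815343530) (nat_lit 304) (nat_lit 7076035907) (nat_lit 52) (nat_lit 5) (nat_lit 55) (nat_lit 5) (nat_lit 56) (nat_lit 4) (nat_lit 311) (nat_lit 238) (nat_lit 231)) (XT.nd (nat_lit 78) (nat_lit 304) (nat_lit 0) (XT.lf (nat_lit 0) (nat_lit 5707236876) (nat_lit 228) (nat_lit 429423682) (nat_lit 304) (nat_lit 4201304054) (nat_lit 52) (nat_lit 5) (nat_lit 55) (nat_lit 5) (nat_lit 56) (nat_lit 4) (nat_lit 312) (nat_lit 238) (nat_lit 230)) (XT.lf (nat_lit 0) (nat_lit 682319268) (nat_lit 304) (nat_lit 8555143911) (nat_lit 304) (nat_lit 1286041354) (nat_lit 48) (nat_lit 4) (nat_lit 52) (nat_lit 5) (nat_lit 52) (nat_lit 4) (nat_lit 313) (nat_lit 238) (nat_lit 229))))) (XT.nd (nat_lit 234) (nat_lit 304) (nat_lit 0) (XT.nd (nat_lit 78) (nat_lit 228) (nat_lit 0) (XT.lf (nat_lit 0) (nat_lit 1664643355) (nat_lit 380) (nat_lit 4584561789) (nat_lit 76) (nat_lit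 4465623046) (nat_lit 47) (nat_lit 5) (nat_lit 52) (nat_lit 5) (nat_lit 48) (nat_lit 4) (nat_lit 314) (nat_lit 238) (nat_lit 228)) (XT.nd (nat_lit 78) (nat_lit 0) (nat_lit 0) (XT.lf (nat_lit 0) (nat_lit 734445824) (nat_lit 228) (nat_lit 3882640539) (nat_lit 304) (nat_lit 6296402539) (nat_lit 44) (nat_lit 5) (nat_lit 47) (nat_lit 5) (nat_lit 48) (nat_lit 4) (nat_lit 315) (nat_lit 238) (nat_lit 227)) (XT.lf (nat_lit 0) (nat_lit 6211039649) (nat_lit 228) (nat_lit 1426441441) (nat_lit 304) (nat_lit 3481394484) (nat_lit 44) (nat_lit 5) (nat_lit 47) (nat_lit 5) (nat_lit 48) (nat_lit 4) (nat_lit 316) (nat_lit 238) (nat_lit 226)))) (XT.nd (nat_lit 78) (nat_lit 76) (nat_lit 0) (XT.lf (nat_lit 0) (nat_lit 424188774) (nat_lit 228) (nat_lit 10273744713) (nat_lit 228) (nat_lit 634150177) (nat_lit 41) (nat_lit 4) (nat_lit 44) (nat_lit 5) (nat_lit 44) (nat_lit 4) (nat_lit 317) (nat_lit 238) (nat_lit 225))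 (XT.nd (nat_lit 78) (nat_lit 0) (nat_lit 0) (XT.lf (nat_lit 0) (nat_lit 2252817540) (nat_lit 304) (nat_lit 5665616522) (nat_lit 76) (nat_lit 3632751320) (nat_lit 40) (nat_lit 5) (nat_lit 44) (nat_lit 5) (nat_lit 41) (nat_lit 4) (nat_lit 318) (nat_lit 238) (nat_lit 224)) (XT.lf (nat_lit 0) (nat_lit 5150527072) (nat_lit 304) (nat_lit 365054128) (nat_lit 76) (nat_lit 6263115277) (nat_lit 40) (nat_lit 5) (nat_lit 44) (nat_lit 5) (nat_lit 41) (nat_lit 4) (nat_lit 319) (nat_lit 238) (nat_lit 223)))))) (XT.nd (nat_lit 390) (nat_lit 456) (nat_lit 0) (XT.nd (nat_lit 156) (nat_lit 456) (nat_lit 0) (XT.nd (nat_lit 78) (nat_lit 0) (nat_lit 0) (XT.lf (nat_lit 0) (nat_lit 5104119443) (nat_lit 228) (nat_lit 3018829425) (nat_lit 304) (nat_lit 3890577833) (nat_lit 37) (nat_lit 5) (nat_lit 40) (nat_lit 5) (nat_lit 41) (nat_lit 4) (nat_lit 320) (nat_lit 238) (nat_lit 222)) (XT.lf (nat_lit 0) (nat_lit 10655728432)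 (nat_lit 228) (nat_lit 472146513) (nat_lit 304) (nat_lit 1129350460) (nat_lit 37) (nat_lit 5) (nat_lit 40) (nat_lit 5) (nat_lit 41) (nat_lit 4) (nat_lit 321) (nat_lit 238) (nat_lit 221))) (XT.nd (nat_lit 78) (nat_lit 152) (nat_lit 0) (XT.lf (nat_lit 0) (nat_lit 1679765050) (nat_lit 304) (nat_lit 8693257629) (nat_lit 76) (nat_lit 2134878988) (nat_lit 33) (nat_lit 5) (nat_lit 37) (nat_lit 5) (nat_lit 34) (nat_lit 4) (nat_lit 322) (nat_lit 238) (nat_lit 220)) (XT.nd (nat_lit 78) (nat_lit 152) (nat_lit 0) (XT.lf (nat_lit 0) (nat_lit 4512784024) (nat_lit 304) (nat_lit 3444084514) (nat_lit 76) (nat_lit 4810137404) (nat_lit 33) (nat_lit 5) (nat_lit 37) (nat_lit 5) (nat_lit 34) (nat_lit 4) (nat_lit 323) (nat_lit 238) (nat_lit 219)) (XT.lf (nat_lit 0) (nat_lit 1913937501) (nat_lit 152) (nat_lit 5478285078) (nat_lit 228) (nat_lit 5642927640) (nat_lit 31) (nat_lit 5) (nat_lit 33) (nat_lit 5) (nat_lit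 34) (nat_lit 4) (nat_lit 324) (nat_lit 238) (nat_lit 218))))) (XT.nd (nat_lit 234) (nat_lit 152) (nat_lit 0) (XT.nd (nat_lit 78) (nat_lit 304) (nat_lit 0) (XT.lf (nat_lit 0) (nat_lit 7418169310) (nat_lit 152) (nat_lit 2918525514) (nat_lit 228) (nat_lit 2975391037) (nat_lit 31) (nat_lit 5) (nat_lit 33) (nat_lit 5) (nat_lit 34) (nat_lit 4) (nat_lit 325) (nat_lit 238) (nat_lit 217)) (XT.nd (nat_lit 78) (nat_lit 304) (nat_lit 0) (XT.lf (nat_lit 0) (nat_lit 13004876400) (nat_lit 152) (nat_lit 310131663) (nat_lit 228) (nat_lit 284059751) (nat_lit 31) (nat_lit 5) (nat_lit 33) (nat_lit 5) (nat_lit 34) (nat_lit 4) (nat_lit 326) (nat_lit 238) (nat_lit 216)) (XT.lf (nat_lit 0) (nat_lit 2455867242) (nat_lit 304) (nat_lit 9063601142) (nat_lit 76) (nat_lit 2374078687) (nat_lit 27) (nat_lit 5) (nat_lit 31) (nat_lit 5) (nat_lit 28) (nat_lit 4) (nat_lit 327) (nat_lit 238) (nat_lit 215)))) (XT.nd (nat_lit 78)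 (nat_lit 152) (nat_lit 0) (XT.lf (nat_lit 0) (nat_lit 5228400980) (nat_lit 304) (nat_lit 3855653651) (nat_lit 76) (nat_lit 5114132821) (nat_lit 27) (nat_lit 5) (nat_lit 31) (nat_lit 5) (nat_lit 28) (nat_lit 4) (nat_lit 328) (nat_lit 238) (nat_lit 214)) (XT.nd (nat_lit 78) (nat_lit 0) (nat_lit 0) (XT.lf (nat_lit 0) (nat_lit 1457340918) (nat_lit 152) (nat_lit 6589310769) (nat_lit 228) (nat_lit 6466531040) (nat_lit 25) (nat_lit 5) (nat_lit 27) (nat_lit 5) (nat_lit 28) (nat_lit 4) (nat_lit 329) (nat_lit 238) (nat_lit 213)) (XT.lf (nat_lit 0) (nat_lit 6929913807) (nat_lit 152) (nat_lit 4007743878) (nat_lit 228) (nat_lit 3900413175) (nat_lit 25) (nat_lit 5) (nat_lit 27) (nat_lit 5) (nat_lit 28) (nat_lit 4) (nat_lit 330) (nat_lit 238) (nat_lit 212))))))) (XT.nd (nat_lit 858) (nat_lit 380) (nat_lit 0) (XT.nd (nat_lit 390) (nat_lit 228) (nat_lit 0) (XT.nd (nat_lit 156) (nat_lit 152) (nat_lit 0) (XT.nd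 (nat_lit 78) (nat_lit 228) (nat_lit 0) (XT.lf (nat_lit 0) (nat_lit 12490111809) (nat_lit 152) (nat_lit 1376032763) (nat_lit 228) (nat_lit 1308125182) (nat_lit 25) (nat_lit 5) (nat_lit 27) (nat_lit 5) (nat_lit 28) (nat_lit 4) (nat_lit 331) (nat_lit 238) (nat_lit 211)) (XT.lf (nat_lit 0) (nat_lit 1325506725) (nat_lit 228) (nat_lit 12873871078) (nat_lit 76) (nat_lit 1321161176) (nat_lit 22) (nat_lit 5) (nat_lit 25) (nat_lit 5) (nat_lit 23) (nat_lit 4) (nat_lit 332) (nat_lit 238) (nat_lit 210))) (XT.nd (nat_lit 78) (nat_lit 152) (nat_lit 0) (XT.lf (nat_lit 0) (nat_lit 4004914460) (nat_lit 228) (nat_lit 7786664656) (nat_lit 76) (nat_lit 4085516129) (nat_lit 22) (nat_lit 5) (nat_lit 25) (nat_lit 5) (nat_lit 23) (nat_lit 4) (nat_lit 333) (nat_lit 238) (nat_lit 209)) (XT.nd (nat_lit 78) (nat_lit 152) (nat_lit 0) (XT.lf (nat_lit 0) (nat_lit 6718162397) (nat_lit 228) (nat_lit 2620510451) (nat_lit 76)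 (nat_lit 6907148587) (nat_lit 22) (nat_lit 5) (nat_lit 25) (nat_lit 5) (nat_lit 23) (nat_lit 4) (nat_lit 334) (nat_lit 238) (nat_lit 208)) (XT.lf (nat_lit 0) (nat_lit 2681430009) (nat_lit 152) (nat_lit 6811966872) (nat_lit 228) (nat_lit 7132869590) (nat_lit 20) (nat_lit 5) (nat_lit 22) (nat_lit 5) (nat_lit 23) (nat_lit 4) (nat_lit 335) (nat_lit 238) (nat_lit 207))))) (XT.nd (nat_lit 234) (nat_lit 0) (nat_lit 0) (XT.nd (nat_lit 78) (nat_lit 228) (nat_lit 0) (XT.lf (nat_lit 0) (nat_lit 8125325054) (nat_lit 152) (nat_lit 4208474256) (nat_lit 228) (nat_lit 4684940775) (nat_lit 20) (nat_lit 5) (nat_lit 22) (nat_lit 5) (nat_lit 23) (nat_lit 4) (nat_lit 336) (nat_lit 238) (nat_lit 206)) (XT.nd (nat_lit 78) (nat_lit 228) (nat_lit 0) (XT.lf (nat_lit 0) (nat_lit 13663778189) (nat_lit 152) (nat_lit 1552382120) (nat_lit 228) (nat_lit 2208195646) (nat_lit 20) (nat_lit 5) (nat_lit 22) (nat_lit 5) (nat_lit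 23) (nat_lit 4) (nat_lit 337) (nat_lit 238) (nat_lit 205)) (XT.lf (nat_lit 0) (nat_lit 319259731) (nat_lit 228) (nat_lit 16370017319) (nat_lit 76) (nat_lit 1153337834) (nat_lit 17) (nat_lit 5) (nat_lit 20) (nat_lit 5) (nat_lit 18) (nat_lit 4) (nat_lit 338) (nat_lit 238) (nat_lit 204)))) (XT.nd (nat_lit 78) (nat_lit 0) (nat_lit 0) (XT.lf (nat_lit 0) (nat_lit 2889751879) (nat_lit 228) (nat_lit 11438119382) (nat_lit 76) (nat_lit 3944611016) (nat_lit 17) (nat_lit 5) (nat_lit 20) (nat_lit 5) (nat_lit 18) (nat_lit 4) (nat_lit 339) (nat_lit 238) (nat_lit 203)) (XT.nd (nat_lit 78) (nat_lit 0) (nat_lit 0) (XT.lf (nat_lit 0) (nat_lit 5496460818) (nat_lit 228) (nat_lit 6424365403) (nat_lit 76) (nat_lit 6795708995) (nat_lit 17) (nat_lit 5) (nat_lit 20) (nat_lit 5) (nat_lit 18) (nat_lit 4) (nat_lit 340) (nat_lit 238) (nat_lit 202)) (XT.lf (nat_lit 0) (nat_lit 8141664255) (nat_lit 228) (nat_lit 1324374433)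 (nat_lit 76) (nat_lit 9709123024) (nat_lit 17) (nat_lit 5) (nat_lit 20) (nat_lit 5) (nat_lit 18) (nat_lit 4) (nat_lit 341) (nat_lit 238) (nat_lit 201)))))) (XT.nd (nat_lit 390) (nat_lit 76) (nat_lit 0) (XT.nd (nat_lit 156) (nat_lit 228) (nat_lit 0) (XT.nd (nat_lit 78) (nat_lit 0) (nat_lit 0) (XT.lf (nat_lit 0) (nat_lit 3943256978) (nat_lit 76) (nat_lit 6922321553) (nat_lit 152) (nat_lit 8782046823) (nat_lit 16) (nat_lit 5) (nat_lit 17) (nat_lit 5) (nat_lit 18) (nat_lit 4) (nat_lit 342) (nat_lit 238) (nat_lit 200)) (XT.lf (nat_lit 0) (nat_lit 9334370123) (nat_lit 76) (nat_lit 4312193204) (nat_lit 152) (nat_lit 6488496262) (nat_lit 16) (nat_lit 5) (nat_lit 17) (nat_lit 5) (nat_lit 18) (nat_lit 4) (nat_lit 343) (nat_lit 238) (nat_lit 199))) (XT.nd (nat_lit 78) (nat_lit 228) (nat_lit 0) (XT.lf (nat_lit 0) (nat_lit 14827318034) (nat_lit 76) (nat_lit 1646746531) (nat_lit 152) (nat_lit 4164215287)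 (nat_lit 16) (nat_lit 5) (nat_lit 17) (nat_lit 5) (nat_lit 18) (nat_lit 4) (nat_lit 344) (nat_lit 238) (nat_lit 198)) (XT.nd (nat_lit 78) (nat_lit 228) (nat_lit 0) (XT.lf (nat_lit 0) (nat_lit 19360899390) (nat_lit 152) (nat_lit 741171988) (nat_lit 0) (nat_lit 1055344079) (nat_lit 16) (nat_lit 5) (nat_lit 18) (nat_lit 4) (nat_lit 16) (nat_lit 4) (nat_lit 345) (nat_lit 238) (nat_lit 197)) (XT.lf (nat_lit 0) (nat_lit 654381959) (nat_lit 228) (nat_lit 17203089741) (nat_lit 76) (nat_lit 3833778123) (nat_lit 13) (nat_lit 5) (nat_lit 16) (nat_lit 5) (nat_lit 14) (nat_lit 4) (nat_lit 346) (nat_lit 238) (nat_lit 196))))) (XT.nd (nat_lit 234) (nat_lit 76) (nat_lit 0) (XT.nd (nat_lit 78) (nat_lit 0) (nat_lit 0) (XT.lf (nat_lit 0) (nat_lit 3115336675) (nat_lit 228) (nat_lit 12426700998) (nat_lit 76) (nat_lit 6699398199) (nat_lit 13) (nat_lit 5) (nat_lit 16) (nat_lit 5) (nat_lit 14) (nat_lit 4) (nat_lit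 347) (nat_lit 238) (nat_lit 195)) (XT.nd (nat_lit 78) (nat_lit 0) (nat_lit 0) (XT.lf (nat_lit 0) (nat_lit 5616216591) (nat_lit 228) (nat_lit 7562875283) (nat_lit 76) (nat_lit 9630100699) (nat_lit 13) (nat_lit 5) (nat_lit 16) (nat_lit 5) (nat_lit 14) (nat_lit 4) (nat_lit 348) (nat_lit 238) (nat_lit 194)) (XT.lf (nat_lit 0) (nat_lit 8159206941) (nat_lit 228) (nat_lit 2607362652) (nat_lit 76) (nat_lit 12628446430) (nat_lit 13) (nat_lit 5) (nat_lit 16) (nat_lit 5) (nat_lit 14) (nat_lit 4) (nat_lit 349) (nat_lit 238) (nat_lit 193)))) (XT.nd (nat_lit 78) (nat_lit 0) (nat_lit 0) (XT.lf (nat_lit 0) (nat_lit 2492810670) (nat_lit 76) (nat_lit 8277681508) (nat_lit 152) (nat_lit 13228207059) (nat_lit 12) (nat_lit 5) (nat_lit 13) (nat_lit 5) (nat_lit 14) (nat_lit 4) (nat_lit 350) (nat_lit 238) (nat_lit 192)) (XT.nd (nat_lit 78) (nat_lit 0) (nat_lit 0) (XT.lf (nat_lit 0) (nat_lit 7747305328) (nat_lit 76)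 (nat_lit 5707612316) (nat_lit 152) (nat_lit 11165775150) (nat_lit 12) (nat_lit 5) (nat_lit 13) (nat_lit 5) (nat_lit 14) (nat_lit 4) (nat_lit 351) (nat_lit 238) (nat_lit 191)) (XT.lf (nat_lit 0) (nat_lit 13108820998) (nat_lit 76) (nat_lit 3080445576) (nat_lit 152) (nat_lit 9073040482) (nat_lit 12) (nat_lit 5) (nat_lit 13) (nat_lit 5) (nat_lit 14) (nat_lit 4) (nat_lit 352) (nat_lit 238) (nat_lit 190))))))))
noncomputable def xc55 : XT := (XT.nd (nat_lit 1716) (nat_lit 152) (nat_lit 0) (XT.nd (nat_lit 858) (nat_lit 152) (nat_lit 0) (XT.nd (nat_lit 390) (nat_lit 76) (nat_lit 0) (XT.nd (nat_lit 156) (nat_lit 228) (nat_lit 0) (XT.nd (nat_lit 78) (nat_lit 0) (nat_lit 0) (XT.lf (nat_lit 0) (nat_lit 18582042500) (nat_lit 76) (nat_lit 393885706) (nat_lit 152) (nat_lit 6948174450) (nat_lit 12) (nat_lit 5) (nat_lit 13) (nat_lit 5) (nat_lit 14) (nat_lit 4) (nat_lit 353) (nat_lit 238) (nat_lit 189)) (XT.lf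 (nat_lit 0) (nat_lit 21839969562) (nat_lit 152) (nat_lit 2457537677) (nat_lit 0) (nat_lit 2308471662) (nat_lit 12) (nat_lit 5) (nat_lit 14) (nat_lit 4) (nat_lit 12) (nat_lit 4) (nat_lit 354) (nat_lit 238) (nat_lit 188))) (XT.nd (nat_lit 78) (nat_lit 76) (nat_lit 0) (XT.lf (nat_lit 0) (nat_lit 2572803070) (nat_lit 152) (nat_lit 22217572479) (nat_lit 152) (nat_lit 2517961583) (nat_lit 10) (nat_lit 4) (nat_lit 12) (nat_lit 5) (nat_lit 12) (nat_lit 4) (nat_lit 355) (nat_lit 238) (nat_lit 187)) (XT.nd (nat_lit 78) (nat_lit 76) (nat_lit 0) (XT.lf (nat_lit 0) (nat_lit 7757869954) (nat_lit 152) (nat_lit 20068425681) (nat_lit 152) (nat_lit 205598284) (nat_lit 10) (nat_lit 4) (nat_lit 12) (nat_lit 5) (nat_lit 12) (nat_lit 4) (nat_lit 356) (nat_lit 238) (nat_lit 186)) (XT.lf (nat_lit 0) (nat_lit 2106363983) (nat_lit 228) (nat_lit 15745371133) (nat_lit 76) (nat_lit 10925649668) (nat_lit 9) (nat_lit 5)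 (nat_lit 12) (nat_lit 5) (nat_lit 10) (nat_lit 4) (nat_lit 357) (nat_lit 238) (nat_lit 185))))) (XT.nd (nat_lit 234) (nat_lit 76) (nat_lit 0) (XT.nd (nat_lit 78) (nat_lit 0) (nat_lit 0) (XT.lf (nat_lit 0) (nat_lit 4457040486) (nat_lit 228) (nat_lit 11127345038) (nat_lit 76) (nat_lit 13961623802) (nat_lit 9) (nat_lit 5) (nat_lit 12) (nat_lit 5) (nat_lit 10) (nat_lit 4) (nat_lit 358) (nat_lit 238) (nat_lit 184)) (XT.nd (nat_lit 78) (nat_lit 0) (nat_lit 0) (XT.lf (nat_lit 0) (nat_lit 6852497176) (nat_lit 228) (nat_lit 6413934176) (nat_lit 76) (nat_lit 17072067100) (nat_lit 9) (nat_lit 5) (nat_lit 12) (nat_lit 5) (nat_lit 10) (nat_lit 4) (nat_lit 359) (nat_lit 238) (nat_lit 183)) (XT.lf (nat_lit 0) (nat_lit 9294827172) (nat_lit 228) (nat_lit 1601020033) (nat_lit 76) (nat_lit 20259697424) (nat_lit 9) (nat_lit 5) (nat_lit 12) (nat_lit 5) (nat_lit 10) (nat_lit 4) (nat_lit 360) (nat_lit 238) (nat_lit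 182)))) (XT.nd (nat_lit 78) (nat_lit 0) (nat_lit 0) (XT.lf (nat_lit 0) (nat_lit 3381589848) (nat_lit 76) (nat_lit 8437080609) (nat_lit 152) (nat_lit 20178216144) (nat_lit 8) (nat_lit 5) (nat_lit 9) (nat_lit 5) (nat_lit 10) (nat_lit 4) (nat_lit 361) (nat_lit 238) (nat_lit 181)) (XT.nd (nat_lit 78) (nat_lit 0) (nat_lit 0) (XT.lf (nat_lit 0) (nat_lit 8506217493) (nat_lit 76) (nat_lit 5904235670) (nat_lit 152) (nat_lit 18453279732) (nat_lit 8) (nat_lit 5) (nat_lit 9) (nat_lit 5) (nat_lit 10) (nat_lit 4) (nat_lit 362) (nat_lit 238) (nat_lit 180)) (XT.lf (nat_lit 0) (nat_lit 13745477295) (nat_lit 76) (nat_lit 3311266387) (nat_lit 152) (nat_lit 16700568159) (nat_lit 8) (nat_lit 5) (nat_lit 9) (nat_lit 5) (nat_lit 10) (nat_lit 4) (nat_lit 363) (nat_lit 238) (nat_lit 179)))))) (XT.nd (nat_lit 390) (nat_lit 76) (nat_lit 0) (XT.nd (nat_lit 156) (nat_lit 76) (nat_lit 0) (XT.nd (nat_lit 78) (nat_lit 0)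 (nat_lit 0) (XT.lf (nat_lit 0) (nat_lit 19103947248) (nat_lit 76) (nat_lit 655907058) (nat_lit 152) (nat_lit 14918549931) (nat_lit 8) (nat_lit 5) (nat_lit 9) (nat_lit 5) (nat_lit 10) (nat_lit 4) (nat_lit 364) (nat_lit 238) (nat_lit 178)) (XT.lf (nat_lit 0) (nat_lit 22541988969) (nat_lit 152) (nat_lit 11061347403) (nat_lit 0) (nat_lit 2023883286) (nat_lit 8) (nat_lit 5) (nat_lit 10) (nat_lit 4) (nat_lit 8) (nat_lit 4) (nat_lit 365) (nat_lit 238) (nat_lit 177))) (XT.nd (nat_lit 78) (nat_lit 76) (nat_lit 0) (XT.lf (nat_lit 0) (nat_lit 25392669192) (nat_lit 152) (nat_lit 6455652823) (nat_lit 0) (nat_lit 4756652436) (nat_lit 8) (nat_lit 5) (nat_lit 10) (nat_lit 4) (nat_lit 8) (nat_lit 4) (nat_lit 366) (nat_lit 238) (nat_lit 176)) (XT.nd (nat_lit 78) (nat_lit 76) (nat_lit 0) (XT.lf (nat_lit 0) (nat_lit 28308080882) (nat_lit 152) (nat_lit 1747043878) (nat_lit 0) (nat_lit 7557587356) (nat_lit 8) (nat_lit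 5) (nat_lit 10) (nat_lit 4) (nat_lit 8) (nat_lit 4) (nat_lit 367) (nat_lit 238) (nat_lit 175)) (XT.lf (nat_lit 0) (nat_lit 3129664783) (nat_lit 76) (nat_lit 28191190954) (nat_lit 76) (nat_lit 7329554933) (nat_lit 7) (nat_lit 4) (nat_lit 8) (nat_lit 5) (nat_lit 8) (nat_lit 4) (nat_lit 368) (nat_lit 238) (nat_lit 174))))) (XT.nd (nat_lit 234) (nat_lit 76) (nat_lit 0) (XT.nd (nat_lit 78) (nat_lit 0) (nat_lit 0) (XT.lf (nat_lit 0) (nat_lit 8154593392) (nat_lit 76) (nat_lit 26267140784) (nat_lit 76) (nat_lit 5297599428) (nat_lit 7) (nat_lit 4) (nat_lit 8) (nat_lit 5) (nat_lit 8) (nat_lit 4) (nat_lit 369) (nat_lit 238) (nat_lit 173)) (XT.nd (nat_lit 78) (nat_lit 0) (nat_lit 0) (XT.lf (nat_lit 0) (nat_lit 13297363063) (nat_lit 76) (nat_lit 24298934761) (nat_lit 76) (nat_lit 3224630943) (nat_lit 7) (nat_lit 4) (nat_lit 8) (nat_lit 5) (nat_lit 8) (nat_lit 4) (nat_lit 370) (nat_lit 238) (nat_lit 172))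 (XT.lf (nat_lit 0) (nat_lit 18562467478) (nat_lit 76) (nat_lit 22284853091) (nat_lit 76) (nat_lit 1108838146) (nat_lit 7) (nat_lit 4) (nat_lit 8) (nat_lit 5) (nat_lit 8) (nat_lit 4) (nat_lit 371) (nat_lit 238) (nat_lit 171)))) (XT.nd (nat_lit 78) (nat_lit 0) (nat_lit 0) (XT.lf (nat_lit 0) (nat_lit 1031106668) (nat_lit 152) (nat_lit 19181617074) (nat_lit 76) (nat_lit 22912988390) (nat_lit 6) (nat_lit 5) (nat_lit 8) (nat_lit 5) (nat_lit 7) (nat_lit 4) (nat_lit 372) (nat_lit 238) (nat_lit 170)) (XT.nd (nat_lit 78) (nat_lit 0) (nat_lit 0) (XT.lf (nat_lit 0) (nat_lit 3195066337) (nat_lit 152) (nat_lit 14884651439) (nat_lit 76) (nat_lit 26250863520) (nat_lit 6) (nat_lit 5) (nat_lit 8) (nat_lit 5) (nat_lit 7) (nat_lit 4) (nat_lit 373) (nat_lit 238) (nat_lit 169)) (XT.lf (nat_lit 0) (nat_lit 5406569123) (nat_lit 152) (nat_lit 10488380873) (nat_lit 76) (nat_lit 29677188774) (nat_lit 6) (nat_lit 5) (nat_lit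 8) (nat_lit 5) (nat_lit 7) (nat_lit 4) (nat_lit 374) (nat_lit 238) (nat_lit 168))))))) (XT.nd (nat_lit 858) (nat_lit 76) (nat_lit 0) (XT.nd (nat_lit 390) (nat_lit 0) (nat_lit 0) (XT.nd (nat_lit 156) (nat_lit 76) (nat_lit 0) (XT.nd (nat_lit 78) (nat_lit 0) (nat_lit 0) (XT.lf (nat_lit 0) (nat_lit 7667547408) (nat_lit 152) (nat_lit 5988963974) (nat_lit 76) (nat_lit 33194958030) (nat_lit 6) (nat_lit 5) (nat_lit 8) (nat_lit 5) (nat_lit 7) (nat_lit 4) (nat_lit 375) (nat_lit 238) (nat_lit 167)) (XT.lf (nat_lit 0) (nat_lit 9979976804) (nat_lit 152) (nat_lit 1382469213) (nat_lit 76) (nat_lit 36807245065) (nat_lit 6) (nat_lit 5) (nat_lit 8) (nat_lit 5) (nat_lit 7) (nat_lit 4) (nat_lit 376) (nat_lit 238) (nat_lit 166))) (XT.nd (nat_lit 78) (nat_lit 0) (nat_lit 0) (XT.lf (nat_lit 0) (nat_lit 3401504099) (nat_lit 76) (nat_lit 8977071119) (nat_lit 152) (nat_lit 37148399487) (nat_lit 5) (nat_lit 5) (nat_lit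 6) (nat_lit 5) (nat_lit 7) (nat_lit 4) (nat_lit 377) (nat_lit 238) (nat_lit 165)) (XT.nd (nat_lit 78) (nat_lit 0) (nat_lit 0) (XT.lf (nat_lit 0) (nat_lit 8330509593) (nat_lit 76) (nat_lit 6516886289) (nat_lit 152) (nat_lit 36077651652) (nat_lit 5) (nat_lit 5) (nat_lit 6) (nat_lit 5) (nat_lit 7) (nat_lit 4) (nat_lit 378) (nat_lit 238) (nat_lit 164)) (XT.lf (nat_lit 0) (nat_lit 13381340318) (nat_lit 76) (nat_lit 3993702080) (nat_lit 152) (nat_lit 34990495399) (nat_lit 5) (nat_lit 5) (nat_lit 6) (nat_lit 5) (nat_lit 7) (nat_lit 4) (nat_lit 379) (nat_lit 238) (nat_lit 163))))) (XT.nd (nat_lit 234) (nat_lit 0) (nat_lit 0) (XT.nd (nat_lit 78) (nat_lit 0) (nat_lit 0) (XT.lf (nat_lit 0) (nat_lit 18558409622) (nat_lit 76) (nat_lit 1405313768) (nat_lit 152) (nat_lit 33885980783) (nat_lit 5) (nat_lit 5) (nat_lit 6) (nat_lit 5) (nat_lit 7) (nat_lit 4) (nat_lit 380) (nat_lit 238) (nat_lit 162)) (XT.nd (nat_lit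 78) (nat_lit 0) (nat_lit 0) (XT.lf (nat_lit 0) (nat_lit 22627721771) (nat_lit 152) (nat_lit 31524623311) (nat_lit 0) (nat_lit 1226137798) (nat_lit 5) (nat_lit 5) (nat_lit 7) (nat_lit 4) (nat_lit 5) (nat_lit 4) (nat_lit 381) (nat_lit 238) (nat_lit 161)) (XT.lf (nat_lit 0) (nat_lit 25371513409) (nat_lit 152) (nat_lit 27683040592) (nat_lit 0) (nat_lit 3898591297) (nat_lit 5) (nat_lit 5) (nat_lit 7) (nat_lit 4) (nat_lit 5) (nat_lit 4) (nat_lit 382) (nat_lit 238) (nat_lit 160)))) (XT.nd (nat_lit 78) (nat_lit 0) (nat_lit 0) (XT.lf (nat_lit 0) (nat_lit 28183987057) (nat_lit 152) (nat_lit 23749680937) (nat_lit 0) (nat_lit 6641804616) (nat_lit 5) (nat_lit 5) (nat_lit 7) (nat_lit 4) (nat_lit 5) (nat_lit 4) (nat_lit 383) (nat_lit 238) (nat_lit 159)) (XT.nd (nat_lit 78) (nat_lit 0) (nat_lit 0) (XT.lf (nat_lit 0) (nat_lit 31067600215) (nat_lit 152) (nat_lit 19721107431) (nat_lit 0) (nat_lit 9458174737)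 (nat_lit 5) (nat_lit 5) (nat_lit 7) (nat_lit 4) (nat_lit 5) (nat_lit 4) (nat_lit 384) (nat_lit 238) (nat_lit 158)) (XT.lf (nat_lit 0) (nat_lit 34024872546) (nat_lit 152) (nat_lit 15593799959) (nat_lit 0) (nat_lit 12350162566) (nat_lit 5) (nat_lit 5) (nat_lit 7) (nat_lit 4) (nat_lit 5) (nat_lit 4) (nat_lit 385) (nat_lit 238) (nat_lit 157)))))) (XT.nd (nat_lit 468) (nat_lit 0) (nat_lit 0) (XT.nd (nat_lit 234) (nat_lit 76) (nat_lit 0) (XT.nd (nat_lit 78) (nat_lit 0) (nat_lit 0) (XT.lf (nat_lit 0) (nat_lit 37058388074) (nat_lit 152) (nat_lit 11364152138) (nat_lit 0) (nat_lit 15320295082) (nat_lit 5) (nat_lit 5) (nat_lit 7) (nat_lit 4) (nat_lit 5) (nat_lit 4) (nat_lit 386) (nat_lit 238) (nat_lit 156)) (XT.nd (nat_lit 78) (nat_lit 0) (nat_lit 0) (XT.lf (nat_lit 0) (nat_lit 40170797444) (nat_lit 152) (nat_lit 7028468158) (nat_lit 0) (nat_lit 18371167547) (nat_lit 5) (nat_lit 5) (nat_lit 7) (nat_lit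 4) (nat_lit 5) (nat_lit 4) (nat_lit 387) (nat_lit 238) (nat_lit 155)) (XT.lf (nat_lit 0) (nat_lit 43364820236) (nat_lit 152) (nat_lit 2582959558) (nat_lit 0) (nat_lit 21505445772) (nat_lit 5) (nat_lit 5) (nat_lit 7) (nat_lit 4) (nat_lit 5) (nat_lit 4) (nat_lit 388) (nat_lit 238) (nat_lit 154)))) (XT.nd (nat_lit 78) (nat_lit 0) (nat_lit 0) (XT.lf (nat_lit 0) (nat_lit 2015589497) (nat_lit 76) (nat_lit 44647032927) (nat_lit 76) (nat_lit 22729654027) (nat_lit 4) (nat_lit 4) (nat_lit 5) (nat_lit 5) (nat_lit 5) (nat_lit 4) (nat_lit 389) (nat_lit 238) (nat_lit 153)) (XT.nd (nat_lit 78) (nat_lit 0) (nat_lit 0) (XT.lf (nat_lit 0) (nat_lit 6785579660) (nat_lit 76) (nat_lit 43288590899) (nat_lit 76) (nat_lit 21314897014) (nat_lit 4) (nat_lit 4) (nat_lit 5) (nat_lit 5) (nat_lit 5) (nat_lit 4) (nat_lit 390) (nat_lit 238) (nat_lit 152)) (XT.lf (nat_lit 0) (nat_lit 11679772920) (nat_lit 76) (nat_lit 41897349549)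 (nat_lit 76) (nat_lit 19868980921) (nat_lit 4) (nat_lit 4) (nat_lit 5) (nat_lit 5) (nat_lit 5) (nat_lit 4) (nat_lit 391) (nat_lit 238) (nat_lit 151))))) (XT.nd (nat_lit 234) (nat_lit 0) (nat_lit 0) (XT.nd (nat_lit 78) (nat_lit 0) (nat_lit 0) (XT.lf (nat_lit 0) (nat_lit 16702445759) (nat_lit 76) (nat_lit 40472093230) (nat_lit 76) (nat_lit 18390642328) (nat_lit 4) (nat_lit 4) (nat_lit 5) (nat_lit 5) (nat_lit 5) (nat_lit 4) (nat_lit 392) (nat_lit 238) (nat_lit 150)) (XT.nd (nat_lit 78) (nat_lit 0) (nat_lit 0) (XT.lf (nat_lit 0) (nat_lit 21857986919) (nat_lit 76) (nat_lit 39011576573) (nat_lit 76) (nat_lit 16878589482) (nat_lit 4) (nat_lit 4) (nat_lit 5) (nat_lit 5) (nat_lit 5) (nat_lit 4) (nat_lit 393) (nat_lit 238) (nat_lit 149)) (XT.lf (nat_lit 0) (nat_lit 27150901241) (nat_lit 76) (nat_lit 37514523398) (nat_lit 76) (nat_lit 15331501172) (nat_lit 4) (nat_lit 4) (nat_lit 5) (nat_lit 5) (nat_lit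 5) (nat_lit 4) (nat_lit 394) (nat_lit 238) (nat_lit 148)))) (XT.nd (nat_lit 78) (nat_lit 0) (nat_lit 0) (XT.lf (nat_lit 0) (nat_lit 32585813604) (nat_lit 76) (nat_lit 35979625599) (nat_lit 76) (nat_lit 13748025572) (nat_lit 4) (nat_lit 4) (nat_lit 5) (nat_lit 5) (nat_lit 5) (nat_lit 4) (nat_lit 395) (nat_lit 238) (nat_lit 147)) (XT.nd (nat_lit 78) (nat_lit 0) (nat_lit 0) (XT.lf (nat_lit 0) (nat_lit 38167472958) (nat_lit 76) (nat_lit 34405542005) (nat_lit 76) (nat_lit 12126779065) (nat_lit 4) (nat_lit 4) (nat_lit 5) (nat_lit 5) (nat_lit 5) (nat_lit 4) (nat_lit 396) (nat_lit 238) (nat_lit 146)) (XT.lf (nat_lit 0) (nat_lit 43900756483) (nat_lit 76) (nat_lit 32790897202) (nat_lit 76) (nat_lit 10466345025) (nat_lit 4) (nat_lit 4) (nat_lit 5) (nat_lit 5) (nat_lit 5) (nat_lit 4) (nat_lit 397) (nat_lit 238) (nat_lit 145))))))))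
noncomputable def xc56 : XT := (XT.nd (nat_lit 34632) (nat_lit 0) (nat_lit 912) (XT.nd (nat_lit 33774) (nat_lit 0) (nat_lit 2508) (XT.nd (nat_lit 33306) (nat_lit 0) (nat_lit 4256) (XT.nd (nat_lit 234) (nat_lit 0) (nat_lit 0) (XT.nd (nat_lit 78) (nat_lit 0) (nat_lit 0) (XT.lf (nat_lit 0) (nat_lit 49790673843) (nat_lit 76) (nat_lit 31134280336) (nat_lit 76) (nat_lit 8765272590) (nat_lit 4) (nat_lit 4) (nat_lit 5) (nat_lit 5) (nat_lit 5) (nat_lit 4) (nat_lit 398) (nat_lit 238) (nat_lit 144)) (XT.lf (nat_lit 0) (nat_lit 55842371568) (nat_lit 76) (nat_lit 29434243878) (nat_lit 76) (nat_lit 7022075384) (nat_lit 4) (nat_lit 4) (nat_lit 5) (nat_lit 5) (nat_lit 5) (nat_lit 4) (nat_lit 399) (nat_lit 238) (nat_lit 143))) (XT.nd (nat_lit 32916) (nat_lit 0) (nat_lit 5320) (XT.lf (nat_lit 0) (nat_lit 68452405661) (nat_lit 76) (nat_lit 25897931070) (nat_lit 76) (nat_lit 3403175795) (nat_lit 4) (nat_lit 4)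 (nat_lit 5) (nat_lit 5) (nat_lit 5) (nat_lit 4) (nat_lit 401) (nat_lit 238) (nat_lit 141)) (XT.nd (nat_lit 78) (nat_lit 380) (nat_lit 0) (XT.lf (nat_lit 0) (nat_lit 2159815317) (nat_lit 456) (nat_lit 86299354) (nat_lit 0) (nat_lit 2159815317) (nat_lit 79) (nat_lit 5) (nat_lit 85) (nat_lit 4) (nat_lit 79) (nat_lit 4) (nat_lit 302) (nat_lit 239) (nat_lit 239)) (XT.lf (nat_lit 0) (nat_lit 5068376133) (nat_lit 380) (nat_lit 2446314376) (nat_lit 380) (nat_lit 1426145674) (nat_lit 74) (nat_lit 4) (nat_lit 79) (nat_lit 5) (nat_lit 79) (nat_lit 4) (nat_lit 303) (nat_lit 239) (nat_lit 238))))) (XT.nd (nat_lit 234) (nat_lit 380) (nat_lit 0) (XT.nd (nat_lit 78) (nat_lit 304) (nat_lit 0) (XT.lf (nat_lit 0) (nat_lit 1301966562) (nat_lit 304) (nat_lit 329851326) (nat_lit 380) (nat_lit 7443576629) (nat_lit 69) (nat_lit 5) (nat_lit 73) (nat_lit 5) (nat_lit 74) (nat_lit 4) (nat_lit 304) (nat_lit 239) (nat_lit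 237)) (XT.nd (nat_lit 78) (nat_lit 304) (nat_lit 0) (XT.lf (nat_lit 0) (nat_lit 4730692694) (nat_lit 380) (nat_lit 2638722880) (nat_lit 0) (nat_lit 1845031921) (nat_lit 69) (nat_lit 5) (nat_lit 74) (nat_lit 4) (nat_lit 69) (nat_lit 4) (nat_lit 305) (nat_lit 239) (nat_lit 236)) (XT.lf (nat_lit 0) (nat_lit 2595836621) (nat_lit 304) (nat_lit 5277790194) (nat_lit 304) (nat_lit 1485722742) (nat_lit 65) (nat_lit 4) (nat_lit 69) (nat_lit 5) (nat_lit 69) (nat_lit 4) (nat_lit 306) (nat_lit 239) (nat_lit 235)))) (XT.nd (nat_lit 78) (nat_lit 304) (nat_lit 0) (XT.lf (nat_lit 0) (nat_lit 1521097218) (nat_lit 380) (nat_lit 1584246582) (nat_lit 76) (nat_lit 6404487664) (nat_lit 64) (nat_lit 5) (nat_lit 69) (nat_lit 5) (nat_lit 65) (nat_lit 4) (nat_lit 307) (nat_lit 239) (nat_lit 234)) (XT.nd (nat_lit 78) (nat_lit 0) (nat_lit 0) (XT.lf (nat_lit 0) (nat_lit 3708732355) (nat_lit 304) (nat_lit 840618145) (nat_lit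 380) (nat_lit 5116395755) (nat_lit 60) (nat_lit 5) (nat_lit 64) (nat_lit 5) (nat_lit 65) (nat_lit 4) (nat_lit 308) (nat_lit 239) (nat_lit 233)) (XT.lf (nat_lit 0) (nat_lit 7625375475) (nat_lit 380) (nat_lit 747881873) (nat_lit 0) (nat_lit 1454560258) (nat_lit 60) (nat_lit 5) (nat_lit 65) (nat_lit 4) (nat_lit 60) (nat_lit 4) (nat_lit 309) (nat_lit 239) (nat_lit 232)))))) (XT.nd (nat_lit 390) (nat_lit 760) (nat_lit 0) (XT.nd (nat_lit 156) (nat_lit 608) (nat_lit 0) (XT.nd (nat_lit 78) (nat_lit 0) (nat_lit 0) (XT.lf (nat_lit 0) (nat_lit 764098328) (nat_lit 380) (nat_lit 5401569973) (nat_lit 76) (nat_lit 3829605767) (nat_lit 55) (nat_lit 5) (nat_lit 60) (nat_lit 5) (nat_lit 56) (nat_lit 4) (nat_lit 310) (nat_lit 239) (nat_lit 231)) (XT.lf (nat_lit 0) (nat_lit 3711846680) (nat_lit 380) (nat_lit 176742141) (nat_lit 76) (nat_lit 6280587836) (nat_lit 55) (nat_lit 5) (nat_lit 60) (nat_lit 5) (nat_lit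 56) (nat_lit 4) (nat_lit 311) (nat_lit 239) (nat_lit 230))) (XT.nd (nat_lit 78) (nat_lit 380) (nat_lit 0) (XT.lf (nat_lit 0) (nat_lit 5211177780) (nat_lit 228) (nat_lit 1517866681) (nat_lit 304) (nat_lit 3619987354) (nat_lit 52) (nat_lit 5) (nat_lit 55) (nat_lit 5) (nat_lit 56) (nat_lit 4) (nat_lit 312) (nat_lit 239) (nat_lit 229)) (XT.nd (nat_lit 78) (nat_lit 76) (nat_lit 0) (XT.lf (nat_lit 0) (nat_lit 127361964) (nat_lit 304) (nat_lit 9653079014) (nat_lit 304) (nat_lit 755692335) (nat_lit 48) (nat_lit 4) (nat_lit 52) (nat_lit 5) (nat_lit 52) (nat_lit 4) (nat_lit 313) (nat_lit 239) (nat_lit 228)) (XT.lf (nat_lit 0) (nat_lit 2151158612) (nat_lit 380) (nat_lit 5204986389) (nat_lit 76) (nat_lit 3372238405) (nat_lit 47) (nat_lit 5) (nat_lit 52) (nat_lit 5) (nat_lit 48) (nat_lit 4) (nat_lit 314) (nat_lit 239) (nat_lit 227))))) (XT.nd (nat_lit 234) (nat_lit 532) (nat_lit 0) (XT.nd (nat_lit 78) (nat_lit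 0) (nat_lit 0) (XT.lf (nat_lit 0) (nat_lit 54401125) (nat_lit 228) (nat_lit 5010154031) (nat_lit 304) (nat_lit 5863733011) (nat_lit 44) (nat_lit 5) (nat_lit 47) (nat_lit 5) (nat_lit 48) (nat_lit 4) (nat_lit 315) (nat_lit 239) (nat_lit 226)) (XT.nd (nat_lit 78) (nat_lit 0) (nat_lit 0) (XT.lf (nat_lit 0) (nat_lit 5485099383) (nat_lit 228) (nat_lit 2567846741) (nat_lit 304) (nat_lit 3081759366) (nat_lit 44) (nat_lit 5) (nat_lit 47) (nat_lit 5) (nat_lit 48) (nat_lit 4) (nat_lit 316) (nat_lit 239) (nat_lit 225)) (XT.lf (nat_lit 0) (nat_lit 10988264221) (nat_lit 228) (nat_lit 79649233) (nat_lit 304) (nat_lit 281433164) (nat_lit 44) (nat_lit 5) (nat_lit 47) (nat_lit 5) (nat_lit 48) (nat_lit 4) (nat_lit 317) (nat_lit 239) (nat_lit 224)))) (XT.nd (nat_lit 78) (nat_lit 228) (nat_lit 0) (XT.lf (nat_lit 0) (nat_lit 2563216764) (nat_lit 304) (nat_lit 6523700731) (nat_lit 76) (nat_lit 2482556729) (nat_lit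 40) (nat_lit 5) (nat_lit 44) (nat_lit 5) (nat_lit 41) (nat_lit 4) (nat_lit 318) (nat_lit 239) (nat_lit 223)) (XT.nd (nat_lit 78) (nat_lit 228) (nat_lit 0) (XT.lf (nat_lit 0) (nat_lit 5430737656) (nat_lit 304) (nat_lit 1267475996) (nat_lit 76) (nat_lit 5099739999) (nat_lit 40) (nat_lit 5) (nat_lit 44) (nat_lit 5) (nat_lit 41) (nat_lit 4) (nat_lit 319) (nat_lit 239) (nat_lit 222)) (XT.lf (nat_lit 0) (nat_lit 4139834634) (nat_lit 228) (nat_lit 4224746163) (nat_lit 304) (nat_lit 3669421286) (nat_lit 37) (nat_lit 5) (nat_lit 40) (nat_lit 5) (nat_lit 41) (nat_lit 4) (nat_lit 320) (nat_lit 239) (nat_lit 221))))))) (XT.nd (nat_lit 858) (nat_lit 684) (nat_lit 0) (XT.nd (nat_lit 390) (nat_lit 456) (nat_lit 0) (XT.nd (nat_lit 156) (nat_lit 152) (nat_lit 0) (XT.nd (nat_lit 78) (nat_lit 304) (nat_lit 0) (XT.lf (nat_lit 0) (nat_lit 9648819374) (nat_lit 228) (nat_lit 1691822081) (nat_lit 304) (nat_lit 937984370)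 (nat_lit 37) (nat_lit 5) (nat_lit 40) (nat_lit 5) (nat_lit 41) (nat_lit 4) (nat_lit 321) (nat_lit 239) (nat_lit 220)) (XT.lf (nat_lit 0) (nat_lit 1816585934) (nat_lit 304) (nat_lit 9797373120) (nat_lit 76) (nat_lit 916867861) (nat_lit 33) (nat_lit 5) (nat_lit 37) (nat_lit 5) (nat_lit 34) (nat_lit 4) (nat_lit 322) (nat_lit 239) (nat_lit 219))) (XT.nd (nat_lit 78) (nat_lit 152) (nat_lit 0) (XT.lf (nat_lit 0) (nat_lit 4621541398) (nat_lit 304) (nat_lit 4590551781) (nat_lit 76) (nat_lit 3578733977) (nat_lit 33) (nat_lit 5) (nat_lit 37) (nat_lit 5) (nat_lit 34) (nat_lit 4) (nat_lit 323) (nat_lit 239) (nat_lit 218)) (XT.nd (nat_lit 78) (nat_lit 0) (nat_lit 0) (XT.lf (nat_lit 0) (nat_lit 702716724) (nat_lit 152) (nat_lit 6759374109) (nat_lit 228) (nat_lit 5598099763) (nat_lit 31) (nat_lit 5) (nat_lit 33) (nat_lit 5) (nat_lit 34) (nat_lit 4) (nat_lit 324) (nat_lit 239) (nat_lit 217)) (XT.lf (nat_lit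 0) (nat_lit 6166233423) (nat_lit 152) (nat_lit 4213485727) (nat_lit 228) (nat_lit 2958263365) (nat_lit 31) (nat_lit 5) (nat_lit 33) (nat_lit 5) (nat_lit 34) (nat_lit 4) (nat_lit 325) (nat_lit 239) (nat_lit 216))))) (XT.nd (nat_lit 234) (nat_lit 152) (nat_lit 0) (XT.nd (nat_lit 78) (nat_lit 304) (nat_lit 0) (XT.lf (nat_lit 0) (nat_lit 11713411280) (nat_lit 152) (nat_lit 1618559043) (nat_lit 228) (nat_lit 293825482) (nat_lit 31) (nat_lit 5) (nat_lit 33) (nat_lit 5) (nat_lit 34) (nat_lit 4) (nat_lit 326) (nat_lit 239) (nat_lit 215)) (XT.nd (nat_lit 78) (nat_lit 0) (nat_lit 0) (XT.lf (nat_lit 0) (nat_lit 2394549002) (nat_lit 304) (nat_lit 10462748393) (nat_lit 76) (nat_lit 1064579409) (nat_lit 27) (nat_lit 5) (nat_lit 31) (nat_lit 5) (nat_lit 28) (nat_lit 4) (nat_lit 327) (nat_lit 239) (nat_lit 214)) (XT.lf (nat_lit 0) (nat_lit 5141729097) (nat_lit 304) (nat_lit 5294027166) (nat_lit 76) (nat_lit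 3791566808) (nat_lit 27) (nat_lit 5) (nat_lit 31) (nat_lit 5) (nat_lit 28) (nat_lit 4) (nat_lit 328) (nat_lit 239) (nat_lit 213)))) (XT.nd (nat_lit 78) (nat_lit 152) (nat_lit 0) (XT.lf (nat_lit 0) (nat_lit 7921355765) (nat_lit 304) (nat_lit 47554319) (nat_lit 76) (nat_lit 6574610941) (nat_lit 27) (nat_lit 5) (nat_lit 31) (nat_lit 5) (nat_lit 28) (nat_lit 4) (nat_lit 329) (nat_lit 239) (nat_lit 212)) (XT.nd (nat_lit 78) (nat_lit 0) (nat_lit 0) (XT.lf (nat_lit 0) (nat_lit 5386361764) (nat_lit 152) (nat_lit 5401273045) (nat_lit 228) (nat_lit 4081558836) (nat_lit 25) (nat_lit 5) (nat_lit 27) (nat_lit 5) (nat_lit 28) (nat_lit 4) (nat_lit 330) (nat_lit 239) (nat_lit 211)) (XT.lf (nat_lit 0) (nat_lit 10909947744) (nat_lit 152) (nat_lit 2782619838) (nat_lit 228) (nat_lit 1513573013) (nat_lit 25) (nat_lit 5) (nat_lit 27) (nat_lit 5) (nat_lit 28) (nat_lit 4) (nat_lit 331) (nat_lit 239) (nat_lit 210))))))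 (XT.nd (nat_lit 390) (nat_lit 304) (nat_lit 0) (XT.nd (nat_lit 156) (nat_lit 152) (nat_lit 0) (XT.nd (nat_lit 78) (nat_lit 0) (nat_lit 0) (XT.lf (nat_lit 0) (nat_lit 981143185) (nat_lit 152) (nat_lit 90699961) (nat_lit 228) (nat_lit 14482231721) (nat_lit 22) (nat_lit 5) (nat_lit 24) (nat_lit 5) (nat_lit 25) (nat_lit 5) (nat_lit 332) (nat_lit 239) (nat_lit 209)) (XT.lf (nat_lit 0) (nat_lit 3727451909) (nat_lit 228) (nat_lit 9521143254) (nat_lit 76) (nat_lit 2662787858) (nat_lit 22) (nat_lit 5) (nat_lit 25) (nat_lit 5) (nat_lit 23) (nat_lit 4) (nat_lit 333) (nat_lit 239) (nat_lit 208))) (XT.nd (nat_lit 78) (nat_lit 152) (nat_lit 0) (XT.lf (nat_lit 0) (nat_lit 6418440518) (nat_lit 228) (nat_lit 4390221920) (nat_lit 76) (nat_lit 5472151367) (nat_lit 22) (nat_lit 5) (nat_lit 25) (nat_lit 5) (nat_lit 23) (nat_lit 4) (nat_lit 334) (nat_lit 239) (nat_lit 207)) (XT.nd (nat_lit 78) (nat_lit 0) (nat_lit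 0) (XT.lf (nat_lit 0) (nat_lit 841610361) (nat_lit 152) (nat_lit 8312768170) (nat_lit 228) (nat_lit 7508094945) (nat_lit 20) (nat_lit 5) (nat_lit 22) (nat_lit 5) (nat_lit 23) (nat_lit 4) (nat_lit 335) (nat_lit 239) (nat_lit 206)) (XT.lf (nat_lit 0) (nat_lit 6251634095) (nat_lit 152) (nat_lit 5721839720) (nat_lit 228) (nat_lit 5082147190) (nat_lit 20) (nat_lit 5) (nat_lit 22) (nat_lit 5) (nat_lit 23) (nat_lit 4) (nat_lit 336) (nat_lit 239) (nat_lit 205))))) (XT.nd (nat_lit 234) (nat_lit 76) (nat_lit 0) (XT.nd (nat_lit 78) (nat_lit 228) (nat_lit 0) (XT.lf (nat_lit 0) (nat_lit 11757202462) (nat_lit 152) (nat_lit 3077945806) (nat_lit 228) (nat_lit 2626742894) (nat_lit 20) (nat_lit 5) (nat_lit 22) (nat_lit 5) (nat_lit 23) (nat_lit 4) (nat_lit 337) (nat_lit 239) (nat_lit 204)) (XT.nd (nat_lit 78) (nat_lit 228) (nat_lit 0) (XT.lf (nat_lit 0) (nat_lit 17363126153) (nat_lit 152) (nat_lit 378776227)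 (nat_lit 228) (nat_lit 139736559) (nat_lit 20) (nat_lit 5) (nat_lit 22) (nat_lit 5) (nat_lit 23) (nat_lit 4) (nat_lit 338) (nat_lit 239) (nat_lit 203)) (XT.lf (nat_lit 0) (nat_lit 2404560748) (nat_lit 228) (nat_lit 13506253139) (nat_lit 76) (nat_lit 2401631220) (nat_lit 17) (nat_lit 5) (nat_lit 20) (nat_lit 5) (nat_lit 18) (nat_lit 4) (nat_lit 339) (nat_lit 239) (nat_lit 202)))) (XT.nd (nat_lit 78) (nat_lit 76) (nat_lit 0) (XT.lf (nat_lit 0) (nat_lit 4991709702) (nat_lit 228) (nat_lit 8524112770) (nat_lit 76) (nat_lit 5241292308) (nat_lit 17) (nat_lit 5) (nat_lit 20) (nat_lit 5) (nat_lit 18) (nat_lit 4) (nat_lit 340) (nat_lit 239) (nat_lit 201)) (XT.nd (nat_lit 78) (nat_lit 76) (nat_lit 0) (XT.lf (nat_lit 0) (nat_lit 7617922862) (nat_lit 228) (nat_lit 3454814624) (nat_lit 76) (nat_lit 8143602558) (nat_lit 17) (nat_lit 5) (nat_lit 20) (nat_lit 5) (nat_lit 18) (nat_lit 4) (nat_lit 341) (nat_lit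 239) (nat_lit 200)) (XT.lf (nat_lit 0) (nat_lit 1740024935) (nat_lit 76) (nat_lit 8562196228) (nat_lit 152) (nat_lit 9387799219) (nat_lit 16) (nat_lit 5) (nat_lit 17) (nat_lit 5) (nat_lit 18) (nat_lit 4) (nat_lit 342) (nat_lit 239) (nat_lit 199))))))))
noncomputable def xc57 : XT := (XT.nd (nat_lit 1716) (nat_lit 228) (nat_lit 0) (XT.nd (nat_lit 858) (nat_lit 304) (nat_lit 0) (XT.nd (nat_lit 390) (nat_lit 76) (nat_lit 0) (XT.nd (nat_lit 156) (nat_lit 228) (nat_lit 0) (XT.nd (nat_lit 78) (nat_lit 0) (nat_lit 0) (XT.lf (nat_lit 0) (nat_lit 7101631367) (nat_lit 76) (nat_lit 5963390798) (nat_lit 152) (nat_lit 7113005359) (nat_lit 16) (nat_lit 5) (nat_lit 17) (nat_lit 5) (nat_lit 18) (nat_lit 4) (nat_lit 343) (nat_lit 239) (nat_lit 198)) (XT.lf (nat_lit 0) (nat_lit 12565931983) (nat_lit 76) (nat_lit 3308937251) (nat_lit 152) (nat_lit 4806934773) (nat_lit 16) (nat_lit 5) (nat_lit 17) (nat_lit 5)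 (nat_lit 18) (nat_lit 4) (nat_lit 344) (nat_lit 239) (nat_lit 197))) (XT.nd (nat_lit 78) (nat_lit 228) (nat_lit 0) (XT.lf (nat_lit 0) (nat_lit 18137701416) (nat_lit 76) (nat_lit 596516161) (nat_lit 152) (nat_lit 2467572448) (nat_lit 16) (nat_lit 5) (nat_lit 17) (nat_lit 5) (nat_lit 18) (nat_lit 4) (nat_lit 345) (nat_lit 239) (nat_lit 196)) (XT.nd (nat_lit 78) (nat_lit 76) (nat_lit 0) (XT.lf (nat_lit 0) (nat_lit 2103495669) (nat_lit 152) (nat_lit 19583209447) (nat_lit 152) (nat_lit 50500635) (nat_lit 14) (nat_lit 4) (nat_lit 16) (nat_lit 5) (nat_lit 16) (nat_lit 4) (nat_lit 346) (nat_lit 239) (nat_lit 195)) (XT.lf (nat_lit 0) (nat_lit 2394738327) (nat_lit 228) (nat_lit 14884350522) (nat_lit 76) (nat_lit 5008842179) (nat_lit 13) (nat_lit 5) (nat_lit 16) (nat_lit 5) (nat_lit 14) (nat_lit 4) (nat_lit 347) (nat_lit 239) (nat_lit 194))))) (XT.nd (nat_lit 234) (nat_lit 76) (nat_lit 0) (XT.nd (nat_lit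 78) (nat_lit 0) (nat_lit 0) (XT.lf (nat_lit 0) (nat_lit 4879403482) (nat_lit 228) (nat_lit 10047238036) (nat_lit 76) (nat_lit 7929555594) (nat_lit 13) (nat_lit 5) (nat_lit 16) (nat_lit 5) (nat_lit 14) (nat_lit 4) (nat_lit 348) (nat_lit 239) (nat_lit 193)) (XT.nd (nat_lit 78) (nat_lit 0) (nat_lit 0) (XT.lf (nat_lit 0) (nat_lit 7406651348) (nat_lit 228) (nat_lit 5117660578) (nat_lit 76) (nat_lit 10918203185) (nat_lit 13) (nat_lit 5) (nat_lit 16) (nat_lit 5) (nat_lit 14) (nat_lit 4) (nat_lit 349) (nat_lit 239) (nat_lit 192)) (XT.lf (nat_lit 0) (nat_lit 9978690198) (nat_lit 228) (nat_lit 91310751) (nat_lit 76) (nat_lit 13977396392) (nat_lit 13) (nat_lit 5) (nat_lit 16) (nat_lit 5) (nat_lit 14) (nat_lit 4) (nat_lit 350) (nat_lit 239) (nat_lit 191)))) (XT.nd (nat_lit 78) (nat_lit 0) (nat_lit 0) (XT.lf (nat_lit 0) (nat_lit 5136433723) (nat_lit 76) (nat_lit 7510708264) (nat_lit 152) (nat_lit 12022749116)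 (nat_lit 12) (nat_lit 5) (nat_lit 13) (nat_lit 5) (nat_lit 14) (nat_lit 4) (nat_lit 351) (nat_lit 239) (nat_lit 190)) (XT.nd (nat_lit 78) (nat_lit 0) (nat_lit 0) (XT.lf (nat_lit 0) (nat_lit 10473742675) (nat_lit 76) (nat_lit 4893108948) (nat_lit 152) (nat_lit 9945113303) (nat_lit 12) (nat_lit 5) (nat_lit 13) (nat_lit 5) (nat_lit 14) (nat_lit 4) (nat_lit 352) (nat_lit 239) (nat_lit 189)) (XT.lf (nat_lit 0) (nat_lit 15923462509) (nat_lit 76) (nat_lit 2215837839) (nat_lit 152) (nat_lit 7834906354) (nat_lit 12) (nat_lit 5) (nat_lit 13) (nat_lit 5) (nat_lit 14) (nat_lit 4) (nat_lit 353) (nat_lit 239) (nat_lit 188)))))) (XT.nd (nat_lit 390) (nat_lit 76) (nat_lit 0) (XT.nd (nat_lit 156) (nat_lit 228) (nat_lit 0) (XT.nd (nat_lit 78) (nat_lit 0) (nat_lit 0) (XT.lf (nat_lit 0) (nat_lit 20971942358) (nat_lit 152) (nat_lit 5171871642) (nat_lit 0) (nat_lit 513230139) (nat_lit 12) (nat_lit 5) (nat_lit 14)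 (nat_lit 4) (nat_lit 12) (nat_lit 4) (nat_lit 354) (nat_lit 239) (nat_lit 187)) (XT.lf (nat_lit 0) (nat_lit 23884135798) (nat_lit 152) (nat_lit 214224526) (nat_lit 0) (nat_lit 3262207078) (nat_lit 12) (nat_lit 5) (nat_lit 14) (nat_lit 4) (nat_lit 12) (nat_lit 4) (nat_lit 355) (nat_lit 239) (nat_lit 186))) (XT.nd (nat_lit 78) (nat_lit 76) (nat_lit 0) (XT.lf (nat_lit 0) (nat_lit 4944310373) (nat_lit 152) (nat_lit 21960342677) (nat_lit 152) (nat_lit 1179951335) (nat_lit 10) (nat_lit 4) (nat_lit 12) (nat_lit 5) (nat_lit 12) (nat_lit 4) (nat_lit 356) (nat_lit 239) (nat_lit 185)) (XT.nd (nat_lit 78) (nat_lit 0) (nat_lit 0) (XT.lf (nat_lit 0) (nat_lit 1137963818) (nat_lit 228) (nat_lit 18624171997) (nat_lit 76) (nat_lit 9068649294) (nat_lit 9) (nat_lit 5) (nat_lit 12) (nat_lit 5) (nat_lit 10) (nat_lit 4) (nat_lit 357) (nat_lit 239) (nat_lit 184)) (XT.lf (nat_lit 0) (nat_lit 3475960465) (nat_lit 228)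 (nat_lit 14027405023) (nat_lit 76) (nat_lit 12096441132) (nat_lit 9) (nat_lit 5) (nat_lit 12) (nat_lit 5) (nat_lit 10) (nat_lit 4) (nat_lit 358) (nat_lit 239) (nat_lit 183))))) (XT.nd (nat_lit 234) (nat_lit 0) (nat_lit 0) (XT.nd (nat_lit 78) (nat_lit 76) (nat_lit 0) (XT.lf (nat_lit 0) (nat_lit 5859106616) (nat_lit 228) (nat_lit 9334634084) (nat_lit 76) (nat_lit 15198940453) (nat_lit 9) (nat_lit 5) (nat_lit 12) (nat_lit 5) (nat_lit 10) (nat_lit 4) (nat_lit 359) (nat_lit 239) (nat_lit 182)) (XT.nd (nat_lit 78) (nat_lit 76) (nat_lit 0) (XT.lf (nat_lit 0) (nat_lit 8289484631) (nat_lit 228) (nat_lit 4541758702) (nat_lit 76) (nat_lit 18378858178) (nat_lit 9) (nat_lit 5) (nat_lit 12) (nat_lit 5) (nat_lit 10) (nat_lit 4) (nat_lit 360) (nat_lit 239) (nat_lit 181)) (XT.lf (nat_lit 0) (nat_lit 362482411) (nat_lit 76) (nat_lit 10410220132) (nat_lit 152) (nat_lit 21279974866) (nat_lit 8) (nat_lit 5) (nat_lit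 9) (nat_lit 5) (nat_lit 10) (nat_lit 4) (nat_lit 361) (nat_lit 239) (nat_lit 180)))) (XT.nd (nat_lit 78) (nat_lit 0) (nat_lit 0) (XT.lf (nat_lit 0) (nat_lit 5467845686) (nat_lit 76) (nat_lit 7885188496) (nat_lit 152) (nat_lit 19566847781) (nat_lit 8) (nat_lit 5) (nat_lit 9) (nat_lit 5) (nat_lit 10) (nat_lit 4) (nat_lit 362) (nat_lit 239) (nat_lit 179)) (XT.nd (nat_lit 78) (nat_lit 0) (nat_lit 0) (XT.lf (nat_lit 0) (nat_lit 10688402215) (nat_lit 76) (nat_lit 5299804943) (nat_lit 152) (nat_lit 17825601573) (nat_lit 8) (nat_lit 5) (nat_lit 9) (nat_lit 5) (nat_lit 10) (nat_lit 4) (nat_lit 363) (nat_lit 239) (nat_lit 178)) (XT.lf (nat_lit 0) (nat_lit 16028713650) (nat_lit 76) (nat_lit 2651810401) (nat_lit 152) (nat_lit 16054714767) (nat_lit 8) (nat_lit 5) (nat_lit 9) (nat_lit 5) (nat_lit 10) (nat_lit 4) (nat_lit 364) (nat_lit 239) (nat_lit 177))))))) (XT.nd (nat_lit 858) (nat_lit 76) (nat_lit 0)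 (XT.nd (nat_lit 390) (nat_lit 76) (nat_lit 0) (XT.nd (nat_lit 156) (nat_lit 76) (nat_lit 0) (XT.nd (nat_lit 78) (nat_lit 0) (nat_lit 0) (XT.lf (nat_lit 0) (nat_lit 21432924788) (nat_lit 152) (nat_lit 14192118489) (nat_lit 0) (nat_lit 59916456) (nat_lit 8) (nat_lit 5) (nat_lit 10) (nat_lit 4) (nat_lit 8) (nat_lit 4) (nat_lit 365) (nat_lit 239) (nat_lit 176)) (XT.lf (nat_lit 0) (nat_lit 24273364153) (nat_lit 152) (nat_lit 9603791629) (nat_lit 0) (nat_lit 2785879052) (nat_lit 8) (nat_lit 5) (nat_lit 10) (nat_lit 4) (nat_lit 8) (nat_lit 4) (nat_lit 366) (nat_lit 239) (nat_lit 175))) (XT.nd (nat_lit 78) (nat_lit 76) (nat_lit 0) (XT.lf (nat_lit 0) (nat_lit 27178833263) (nat_lit 152) (nat_lit 4912044548) (nat_lit 0) (nat_lit 5580205667) (nat_lit 8) (nat_lit 5) (nat_lit 10) (nat_lit 4) (nat_lit 8) (nat_lit 4) (nat_lit 367) (nat_lit 239) (nat_lit 174)) (XT.nd (nat_lit 78) (nat_lit 76) (nat_lit 0) (XT.lf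 (nat_lit 0) (nat_lit 30151870876) (nat_lit 152) (nat_lit 112777661) (nat_lit 0) (nat_lit 8445337945) (nat_lit 8) (nat_lit 5) (nat_lit 10) (nat_lit 4) (nat_lit 8) (nat_lit 4) (nat_lit 368) (nat_lit 239) (nat_lit 173)) (XT.lf (nat_lit 0) (nat_lit 4893696206) (nat_lit 76) (nat_lit 28348419788) (nat_lit 76) (nat_lit 6537124395) (nat_lit 7) (nat_lit 4) (nat_lit 8) (nat_lit 5) (nat_lit 8) (nat_lit 4) (nat_lit 369) (nat_lit 239) (nat_lit 172))))) (XT.nd (nat_lit 234) (nat_lit 76) (nat_lit 0) (XT.nd (nat_lit 78) (nat_lit 0) (nat_lit 0) (XT.lf (nat_lit 0) (nat_lit 10020727776) (nat_lit 76) (nat_lit 26386701713) (nat_lit 76) (nat_lit 4473695192) (nat_lit 7) (nat_lit 4) (nat_lit 8) (nat_lit 5) (nat_lit 8) (nat_lit 4) (nat_lit 370) (nat_lit 239) (nat_lit 171)) (XT.nd (nat_lit 78) (nat_lit 0) (nat_lit 0) (XT.lf (nat_lit 0) (nat_lit 15270552481) (nat_lit 76) (nat_lit 24378919022) (nat_lit 76) (nat_lit 2367163834)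 (nat_lit 7) (nat_lit 4) (nat_lit 8) (nat_lit 5) (nat_lit 8) (nat_lit 4) (nat_lit 371) (nat_lit 239) (nat_lit 170)) (XT.lf (nat_lit 0) (nat_lit 20647757547) (nat_lit 76) (nat_lit 22323317342) (nat_lit 76) (nat_lit 215689662) (nat_lit 7) (nat_lit 4) (nat_lit 8) (nat_lit 5) (nat_lit 8) (nat_lit 4) (nat_lit 372) (nat_lit 239) (nat_lit 169)))) (XT.nd (nat_lit 78) (nat_lit 0) (nat_lit 0) (XT.lf (nat_lit 0) (nat_lit 1943919444) (nat_lit 152) (nat_lit 18254551298) (nat_lit 76) (nat_lit 24193492284) (nat_lit 6) (nat_lit 5) (nat_lit 8) (nat_lit 5) (nat_lit 7) (nat_lit 4) (nat_lit 373) (nat_lit 239) (nat_lit 168)) (XT.nd (nat_lit 78) (nat_lit 0) (nat_lit 0) (XT.lf (nat_lit 0) (nat_lit 4147112090) (nat_lit 152) (nat_lit 13872439247) (nat_lit 76) (nat_lit 27614228496) (nat_lit 6) (nat_lit 5) (nat_lit 8) (nat_lit 5) (nat_lit 7) (nat_lit 4) (nat_lit 374) (nat_lit 239) (nat_lit 167)) (XT.lf (nat_lit 0) (nat_lit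 6400022277) (nat_lit 152) (nat_lit 9386768478) (nat_lit 76) (nat_lit 31126571496) (nat_lit 6) (nat_lit 5) (nat_lit 8) (nat_lit 5) (nat_lit 7) (nat_lit 4) (nat_lit 375) (nat_lit 239) (nat_lit 166)))))) (XT.nd (nat_lit 390) (nat_lit 0) (nat_lit 0) (XT.nd (nat_lit 156) (nat_lit 76) (nat_lit 0) (XT.nd (nat_lit 78) (nat_lit 0) (nat_lit 0) (XT.lf (nat_lit 0) (nat_lit 8704618568) (nat_lit 152) (nat_lit 4793619475) (nat_lit 76) (nat_lit 34733590323) (nat_lit 6) (nat_lit 5) (nat_lit 8) (nat_lit 5) (nat_lit 7) (nat_lit 4) (nat_lit 376) (nat_lit 239) (nat_lit 165)) (XT.lf (nat_lit 0) (nat_lit 11062914688) (nat_lit 152) (nat_lit 88978805) (nat_lit 76) (nat_lit 38438436740) (nat_lit 6) (nat_lit 5) (nat_lit 8) (nat_lit 5) (nat_lit 7) (nat_lit 4) (nat_lit 377) (nat_lit 239) (nat_lit 164))) (XT.nd (nat_lit 78) (nat_lit 0) (nat_lit 0) (XT.lf (nat_lit 0) (nat_lit 4825425818) (nat_lit 76) (nat_lit 8697930410)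 (nat_lit 152) (nat_lit 37465307117) (nat_lit 5) (nat_lit 5) (nat_lit 6) (nat_lit 5) (nat_lit 7) (nat_lit 4) (nat_lit 378) (nat_lit 239) (nat_lit 163)) (XT.nd (nat_lit 78) (nat_lit 0) (nat_lit 0) (XT.lf (nat_lit 0) (nat_lit 9863800217) (nat_lit 76) (nat_lit 6179914390) (nat_lit 152) (nat_lit 36385666295) (nat_lit 5) (nat_lit 5) (nat_lit 6) (nat_lit 5) (nat_lit 7) (nat_lit 4) (nat_lit 379) (nat_lit 239) (nat_lit 162)) (XT.lf (nat_lit 0) (nat_lit 15028776000) (nat_lit 76) (nat_lit 3596543737) (nat_lit 152) (nat_lit 35288448215) (nat_lit 5) (nat_lit 5) (nat_lit 6) (nat_lit 5) (nat_lit 7) (nat_lit 4) (nat_lit 380) (nat_lit 239) (nat_lit 161))))) (XT.nd (nat_lit 234) (nat_lit 0) (nat_lit 0) (XT.nd (nat_lit 78) (nat_lit 0) (nat_lit 0) (XT.lf (nat_lit 0) (nat_lit 20324866252) (nat_lit 76) (nat_lit 945561138) (nat_lit 152) (nat_lit 34172694143) (nat_lit 5) (nat_lit 5) (nat_lit 6) (nat_lit 5) (nat_lit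 7) (nat_lit 4) (nat_lit 381) (nat_lit 239) (nat_lit 160)) (XT.nd (nat_lit 78) (nat_lit 0) (nat_lit 0) (XT.lf (nat_lit 0) (nat_lit 23998414574) (nat_lit 152) (nat_lit 31279145096) (nat_lit 0) (nat_lit 1740706332) (nat_lit 5) (nat_lit 5) (nat_lit 7) (nat_lit 4) (nat_lit 5) (nat_lit 4) (nat_lit 382) (nat_lit 239) (nat_lit 159)) (XT.lf (nat_lit 0) (nat_lit 26804368665) (nat_lit 152) (nat_lit 27357010533) (nat_lit 0) (nat_lit 4479417386) (nat_lit 5) (nat_lit 5) (nat_lit 7) (nat_lit 4) (nat_lit 5) (nat_lit 4) (nat_lit 383) (nat_lit 239) (nat_lit 158)))) (XT.nd (nat_lit 78) (nat_lit 0) (nat_lit 0) (XT.lf (nat_lit 0) (nat_lit 29681652157) (nat_lit 152) (nat_lit 23339335175) (nat_lit 0) (nat_lit 7291416376) (nat_lit 5) (nat_lit 5) (nat_lit 7) (nat_lit 4) (nat_lit 5) (nat_lit 4) (nat_lit 384) (nat_lit 239) (nat_lit 157)) (XT.nd (nat_lit 78) (nat_lit 0) (nat_lit 0) (XT.lf (nat_lit 0) (nat_lit 32632779182)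 (nat_lit 152) (nat_lit 19222608430) (nat_lit 0) (nat_lit 10179160388) (nat_lit 5) (nat_lit 5) (nat_lit 7) (nat_lit 4) (nat_lit 5) (nat_lit 4) (nat_lit 385) (nat_lit 239) (nat_lit 156)) (XT.lf (nat_lit 0) (nat_lit 35660328392) (nat_lit 152) (nat_lit 15003233158) (nat_lit 0) (nat_lit 13145172694) (nat_lit 5) (nat_lit 5) (nat_lit 7) (nat_lit 4) (nat_lit 5) (nat_lit 4) (nat_lit 386) (nat_lit 239) (nat_lit 155))))))))
noncomputable def xc58 : XT := (XT.nd (nat_lit 34476) (nat_lit 0) (nat_lit 1748) (XT.nd (nat_lit 858) (nat_lit 0) (nat_lit 0) (XT.nd (nat_lit 390) (nat_lit 0) (nat_lit 0) (XT.nd (nat_lit 156) (nat_lit 76) (nat_lit 0) (XT.nd (nat_lit 78) (nat_lit 0) (nat_lit 0) (XT.lf (nat_lit 0) (nat_lit 38766945221) (nat_lit 152) (nat_lit 10677522528) (nat_lit 0) (nat_lit 16192044955) (nat_lit 5) (nat_lit 5) (nat_lit 7) (nat_lit 4) (nat_lit 5) (nat_lit 4) (nat_lit 387) (nat_lit 239) (nat_lit 154))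 (XT.lf (nat_lit 0) (nat_lit 41955344187) (nat_lit 152) (nat_lit 6241696791) (nat_lit 0) (nat_lit 19322439486) (nat_lit 5) (nat_lit 5) (nat_lit 7) (nat_lit 4) (nat_lit 5) (nat_lit 4) (nat_lit 388) (nat_lit 239) (nat_lit 153))) (XT.nd (nat_lit 78) (nat_lit 76) (nat_lit 0) (XT.lf (nat_lit 0) (nat_lit 45228311271) (nat_lit 152) (nat_lit 1691879984) (nat_lit 0) (nat_lit 22539091585) (nat_lit 5) (nat_lit 5) (nat_lit 7) (nat_lit 4) (nat_lit 5) (nat_lit 4) (nat_lit 389) (nat_lit 239) (nat_lit 152)) (XT.nd (nat_lit 78) (nat_lit 0) (nat_lit 0) (XT.lf (nat_lit 0) (nat_lit 3035129775) (nat_lit 76) (nat_lit 45582752094) (nat_lit 76) (nat_lit 22838857665) (nat_lit 4) (nat_lit 4) (nat_lit 5) (nat_lit 5) (nat_lit 5) (nat_lit 4) (nat_lit 390) (nat_lit 239) (nat_lit 151)) (XT.lf (nat_lit 0) (nat_lit 7920285489) (nat_lit 76) (nat_lit 44195314819) (nat_lit 76) (nat_lit 21398338115) (nat_lit 4) (nat_lit 4) (nat_lit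 5) (nat_lit 5) (nat_lit 5) (nat_lit 4) (nat_lit 391) (nat_lit 239) (nat_lit 150))))) (XT.nd (nat_lit 234) (nat_lit 0) (nat_lit 0) (XT.nd (nat_lit 78) (nat_lit 0) (nat_lit 0) (XT.lf (nat_lit 0) (nat_lit 12934184011) (nat_lit 76) (nat_lit 42773751777) (nat_lit 76) (nat_lit 19925238884) (nat_lit 4) (nat_lit 4) (nat_lit 5) (nat_lit 5) (nat_lit 5) (nat_lit 4) (nat_lit 392) (nat_lit 239) (nat_lit 149)) (XT.nd (nat_lit 78) (nat_lit 0) (nat_lit 0) (XT.lf (nat_lit 0) (nat_lit 18081206416) (nat_lit 76) (nat_lit 41316820825) (nat_lit 76) (nat_lit 18418272797) (nat_lit 4) (nat_lit 4) (nat_lit 5) (nat_lit 5) (nat_lit 5) (nat_lit 4) (nat_lit 393) (nat_lit 239) (nat_lit 148)) (XT.lf (nat_lit 0) (nat_lit 23365850103) (nat_lit 76) (nat_lit 39823248917) (nat_lit 76) (nat_lit 16876123088) (nat_lit 4) (nat_lit 4) (nat_lit 5) (nat_lit 5) (nat_lit 5) (nat_lit 4) (nat_lit 394) (nat_lit 239) (nat_lit 147)))) (XT.nd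 (nat_lit 78) (nat_lit 0) (nat_lit 0) (XT.lf (nat_lit 0) (nat_lit 28792732722) (nat_lit 76) (nat_lit 38291730989) (nat_lit 76) (nat_lit 15297442247) (nat_lit 4) (nat_lit 4) (nat_lit 5) (nat_lit 5) (nat_lit 5) (nat_lit 4) (nat_lit 395) (nat_lit 239) (nat_lit 146)) (XT.nd (nat_lit 78) (nat_lit 0) (nat_lit 0) (XT.lf (nat_lit 0) (nat_lit 34366596209) (nat_lit 76) (nat_lit 36720928823) (nat_lit 76) (nat_lit 13680850845) (nat_lit 4) (nat_lit 4) (nat_lit 5) (nat_lit 5) (nat_lit 5) (nat_lit 4) (nat_lit 396) (nat_lit 239) (nat_lit 145)) (XT.lf (nat_lit 0) (nat_lit 40092310931) (nat_lit 76) (nat_lit 35109469873) (nat_lit 76) (nat_lit 12024936325) (nat_lit 4) (nat_lit 4) (nat_lit 5) (nat_lit 5) (nat_lit 5) (nat_lit 4) (nat_lit 397) (nat_lit 239) (nat_lit 144)))))) (XT.nd (nat_lit 33150) (nat_lit 0) (nat_lit 4560) (XT.nd (nat_lit 234) (nat_lit 0) (nat_lit 0) (XT.nd (nat_lit 78) (nat_lit 0) (nat_lit 0) (XT.lf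 (nat_lit 0) (nat_lit 45974879939) (nat_lit 76) (nat_lit 33455946068) (nat_lit 76) (nat_lit 10328251773) (nat_lit 4) (nat_lit 4) (nat_lit 5) (nat_lit 5) (nat_lit 5) (nat_lit 4) (nat_lit 398) (nat_lit 239) (nat_lit 143)) (XT.lf (nat_lit 0) (nat_lit 52019443341) (nat_lit 76) (nat_lit 31758912581) (nat_lit 76) (nat_lit 8589314648) (nat_lit 4) (nat_lit 4) (nat_lit 5) (nat_lit 5) (nat_lit 5) (nat_lit 4) (nat_lit 399) (nat_lit 239) (nat_lit 142))) (XT.nd (nat_lit 32760) (nat_lit 0) (nat_lit 5700) (XT.lf (nat_lit 0) (nat_lit 64615826124) (nat_lit 76) (nat_lit 28228345868) (nat_lit 76) (nat_lit 4978566594) (nat_lit 4) (nat_lit 4) (nat_lit 5) (nat_lit 5) (nat_lit 5) (nat_lit 4) (nat_lit 401) (nat_lit 239) (nat_lit 140)) (XT.nd (nat_lit 78) (nat_lit 456) (nat_lit 0) (XT.lf (nat_lit 0) (nat_lit 3447337284) (nat_lit 380) (nat_lit 418257488) (nat_lit 380) (nat_lit 418257488) (nat_lit 85) (nat_lit 4) (nat_lit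 90) (nat_lit 5) (nat_lit 90) (nat_lit 4) (nat_lit 300) (nat_lit 240) (nat_lit 240)) (XT.lf (nat_lit 0) (nat_lit 2237111918) (nat_lit 456) (nat_lit 5264358850) (nat_lit 0) (nat_lit 1186338156) (nat_lit 79) (nat_lit 5) (nat_lit 85) (nat_lit 4) (nat_lit 79) (nat_lit 4) (nat_lit 301) (nat_lit 240) (nat_lit 239))))) (XT.nd (nat_lit 234) (nat_lit 380) (nat_lit 0) (XT.nd (nat_lit 78) (nat_lit 760) (nat_lit 0) (XT.lf (nat_lit 0) (nat_lit 5330526707) (nat_lit 456) (nat_lit 223061949) (nat_lit 0) (nat_lit 3259584243) (nat_lit 79) (nat_lit 5) (nat_lit 85) (nat_lit 4) (nat_lit 79) (nat_lit 4) (nat_lit 302) (nat_lit 240) (nat_lit 238)) (XT.nd (nat_lit 78) (nat_lit 380) (nat_lit 0) (XT.lf (nat_lit 0) (nat_lit 4966940072) (nat_lit 380) (nat_lit 3518955240) (nat_lit 380) (nat_lit 457557725) (nat_lit 74) (nat_lit 4) (nat_lit 79) (nat_lit 5) (nat_lit 79) (nat_lit 4) (nat_lit 303) (nat_lit 240) (nat_lit 237))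 (XT.lf (nat_lit 0) (nat_lit 1135977119) (nat_lit 304) (nat_lit 1405393067) (nat_lit 380) (nat_lit 6537672614) (nat_lit 69) (nat_lit 5) (nat_lit 73) (nat_lit 5) (nat_lit 74) (nat_lit 4) (nat_lit 304) (nat_lit 240) (nat_lit 236)))) (XT.nd (nat_lit 78) (nat_lit 380) (nat_lit 0) (XT.lf (nat_lit 0) (nat_lit 5591913343) (nat_lit 380) (nat_lit 2848058783) (nat_lit 0) (nat_lit 779677190) (nat_lit 69) (nat_lit 5) (nat_lit 74) (nat_lit 4) (nat_lit 69) (nat_lit 4) (nat_lit 305) (nat_lit 240) (nat_lit 235)) (XT.nd (nat_lit 78) (nat_lit 76) (nat_lit 0) (XT.lf (nat_lit 0) (nat_lit 2332788140) (nat_lit 304) (nat_lit 6362644447) (nat_lit 304) (nat_lit 670401810) (nat_lit 65) (nat_lit 4) (nat_lit 69) (nat_lit 5) (nat_lit 69) (nat_lit 4) (nat_lit 306) (nat_lit 240) (nat_lit 234)) (XT.lf (nat_lit 0) (nat_lit 2283779078) (nat_lit 380) (nat_lit 1910546334) (nat_lit 76) (nat_lit 5322952445) (nat_lit 64) (nat_lit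 5) (nat_lit 69) (nat_lit 5) (nat_lit 65) (nat_lit 4) (nat_lit 307) (nat_lit 240) (nat_lit 233))))))) (XT.nd (nat_lit 858) (nat_lit 988) (nat_lit 0) (XT.nd (nat_lit 390) (nat_lit 912) (nat_lit 0) (XT.nd (nat_lit 156) (nat_lit 608) (nat_lit 0) (XT.nd (nat_lit 78) (nat_lit 0) (nat_lit 0) (XT.lf (nat_lit 0) (nat_lit 3327489227) (nat_lit 304) (nat_lit 1945218950) (nat_lit 380) (nat_lit 4401756235) (nat_lit 60) (nat_lit 5) (nat_lit 64) (nat_lit 5) (nat_lit 65) (nat_lit 4) (nat_lit 308) (nat_lit 240) (nat_lit 232)) (XT.lf (nat_lit 0) (nat_lit 8302927060) (nat_lit 380) (nat_lit 1175289813) (nat_lit 0) (nat_lit 359782430) (nat_lit 60) (nat_lit 5) (nat_lit 65) (nat_lit 4) (nat_lit 60) (nat_lit 4) (nat_lit 309) (nat_lit 240) (nat_lit 231))) (XT.nd (nat_lit 78) (nat_lit 228) (nat_lit 0) (XT.lf (nat_lit 0) (nat_lit 1379165225) (nat_lit 380) (nat_lit 5902540545) (nat_lit 76) (nat_lit 2724820174) (nat_lit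 55) (nat_lit 5) (nat_lit 60) (nat_lit 5) (nat_lit 56) (nat_lit 4) (nat_lit 310) (nat_lit 240) (nat_lit 230)) (XT.nd (nat_lit 78) (nat_lit 228) (nat_lit 0) (XT.lf (nat_lit 0) (nat_lit 4292885967) (nat_lit 380) (nat_lit 724679015) (nat_lit 76) (nat_lit 5163966154) (nat_lit 55) (nat_lit 5) (nat_lit 60) (nat_lit 5) (nat_lit 56) (nat_lit 4) (nat_lit 311) (nat_lit 240) (nat_lit 229)) (XT.lf (nat_lit 0) (nat_lit 4605830041) (nat_lit 228) (nat_lit 2665398220) (nat_lit 304) (nat_lit 3091403090) (nat_lit 52) (nat_lit 5) (nat_lit 55) (nat_lit 5) (nat_lit 56) (nat_lit 4) (nat_lit 312) (nat_lit 240) (nat_lit 228))))) (XT.nd (nat_lit 234) (nat_lit 532) (nat_lit 0) (XT.nd (nat_lit 78) (nat_lit 380) (nat_lit 0) (XT.lf (nat_lit 0) (nat_lit 10019452422) (nat_lit 228) (nat_lit 260794374) (nat_lit 304) (nat_lit 270834472) (nat_lit 52) (nat_lit 5) (nat_lit 55) (nat_lit 5) (nat_lit 56) (nat_lit 4) (nat_lit 313)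 (nat_lit 240) (nat_lit 227)) (XT.nd (nat_lit 78) (nat_lit 0) (nat_lit 0) (XT.lf (nat_lit 0) (nat_lit 2586275125) (nat_lit 380) (nat_lit 5938114181) (nat_lit 76) (nat_lit 2220083288) (nat_lit 47) (nat_lit 5) (nat_lit 52) (nat_lit 5) (nat_lit 48) (nat_lit 4) (nat_lit 314) (nat_lit 240) (nat_lit 226)) (XT.lf (nat_lit 0) (nat_lit 5467586151) (nat_lit 380) (nat_lit 724788207) (nat_lit 76) (nat_lit 4753036103) (nat_lit 47) (nat_lit 5) (nat_lit 52) (nat_lit 5) (nat_lit 48) (nat_lit 4) (nat_lit 315) (nat_lit 240) (nat_lit 225)))) (XT.nd (nat_lit 78) (nat_lit 304) (nat_lit 0) (XT.lf (nat_lit 0) (nat_lit 4646926541) (nat_lit 228) (nat_lit 3770873201) (nat_lit 304) (nat_lit 2735241848) (nat_lit 44) (nat_lit 5) (nat_lit 47) (nat_lit 5) (nat_lit 48) (nat_lit 4) (nat_lit 316) (nat_lit 240) (nat_lit 224)) (XT.nd (nat_lit 78) (nat_lit 228) (nat_lit 0) (XT.lf (nat_lit 0) (nat_lit 33283840) (nat_lit 304) (nat_lit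 1262150113) (nat_lit 76) (nat_lit 10073210464) (nat_lit 43) (nat_lit 5) (nat_lit 47) (nat_lit 5) (nat_lit 44) (nat_lit 5) (nat_lit 317) (nat_lit 240) (nat_lit 223)) (XT.lf (nat_lit 0) (nat_lit 2821645026) (nat_lit 304) (nat_lit 7497532914) (nat_lit 76) (nat_lit 1271099507) (nat_lit 40) (nat_lit 5) (nat_lit 44) (nat_lit 5) (nat_lit 41) (nat_lit 4) (nat_lit 318) (nat_lit 240) (nat_lit 222)))))) (XT.nd (nat_lit 390) (nat_lit 456) (nat_lit 0) (XT.nd (nat_lit 156) (nat_lit 304) (nat_lit 0) (XT.nd (nat_lit 78) (nat_lit 228) (nat_lit 0) (XT.lf (nat_lit 0) (nat_lit 5659856558) (nat_lit 304) (nat_lit 2284354450) (nat_lit 76) (nat_lit 3875485993) (nat_lit 40) (nat_lit 5) (nat_lit 44) (nat_lit 5) (nat_lit 41) (nat_lit 4) (nat_lit 319) (nat_lit 240) (nat_lit 221)) (XT.lf (nat_lit 0) (nat_lit 3060094056) (nat_lit 228) (nat_lit 5494770828) (nat_lit 304) (nat_lit 3502104670) (nat_lit 37) (nat_lit 5) (nat_lit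 40) (nat_lit 5) (nat_lit 41) (nat_lit 4) (nat_lit 320) (nat_lit 240) (nat_lit 220))) (XT.nd (nat_lit 78) (nat_lit 304) (nat_lit 0) (XT.lf (nat_lit 0) (nat_lit 8527696031) (nat_lit 228) (nat_lit 2975204832) (nat_lit 304) (nat_lit 799590528) (nat_lit 37) (nat_lit 5) (nat_lit 40) (nat_lit 5) (nat_lit 41) (nat_lit 4) (nat_lit 321) (nat_lit 240) (nat_lit 219)) (XT.nd (nat_lit 78) (nat_lit 0) (nat_lit 0) (XT.lf (nat_lit 0) (nat_lit 1531988081) (nat_lit 228) (nat_lit 372131594) (nat_lit 304) (nat_lit 10652031743) (nat_lit 33) (nat_lit 5) (nat_lit 36) (nat_lit 5) (nat_lit 37) (nat_lit 5) (nat_lit 322) (nat_lit 240) (nat_lit 218)) (XT.lf (nat_lit 0) (nat_lit 4678251858) (nat_lit 304) (nat_lit 5854883073) (nat_lit 76) (nat_lit 2283993916) (nat_lit 33) (nat_lit 5) (nat_lit 37) (nat_lit 5) (nat_lit 34) (nat_lit 4) (nat_lit 323) (nat_lit 240) (nat_lit 217))))) (XT.nd (nat_lit 234) (nat_lit 304) (nat_lit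 0) (XT.nd (nat_lit 78) (nat_lit 152) (nat_lit 0) (XT.lf (nat_lit 0) (nat_lit 7485593801) (nat_lit 304) (nat_lit 615247713) (nat_lit 76) (nat_lit 4986697957) (nat_lit 33) (nat_lit 5) (nat_lit 37) (nat_lit 5) (nat_lit 34) (nat_lit 4) (nat_lit 324) (nat_lit 240) (nat_lit 216)) (XT.nd (nat_lit 78) (nat_lit 0) (nat_lit 0) (XT.lf (nat_lit 0) (nat_lit 4796495116) (nat_lit 152) (nat_lit 5574633095) (nat_lit 228) (nat_lit 2995215470) (nat_lit 31) (nat_lit 5) (nat_lit 33) (nat_lit 5) (nat_lit 34) (nat_lit 4) (nat_lit 325) (nat_lit 240) (nat_lit 215)) (XT.lf (nat_lit 0) (nat_lit 10305295076) (nat_lit 152) (nat_lit 2992781331) (nat_lit 228) (nat_lit 356887687) (nat_lit 31) (nat_lit 5) (nat_lit 33) (nat_lit 5) (nat_lit 34) (nat_lit 4) (nat_lit 326) (nat_lit 240) (nat_lit 214)))) (XT.nd (nat_lit 78) (nat_lit 0) (nat_lit 0) (XT.lf (nat_lit 0) (nat_lit 1966055233) (nat_lit 228) (nat_lit 316914461) (nat_lit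 304) (nat_lit 11669631292) (nat_lit 27) (nat_lit 5) (nat_lit 30) (nat_lit 5) (nat_lit 31) (nat_lit 5) (nat_lit 327) (nat_lit 240) (nat_lit 213)) (XT.nd (nat_lit 78) (nat_lit 0) (nat_lit 0) (XT.lf (nat_lit 0) (nat_lit 5002488227) (nat_lit 304) (nat_lit 6852861903) (nat_lit 76) (nat_lit 2403570927) (nat_lit 27) (nat_lit 5) (nat_lit 31) (nat_lit 5) (nat_lit 28) (nat_lit 4) (nat_lit 328) (nat_lit 240) (nat_lit 212)) (XT.lf (nat_lit 0) (nat_lit 7758216655) (nat_lit 304) (nat_lit 1643363572) (nat_lit 76) (nat_lit 5174298410) (nat_lit 27) (nat_lit 5) (nat_lit 31) (nat_lit 5) (nat_lit 28) (nat_lit 4) (nat_lit 329) (nat_lit 240) (nat_lit 211))))))))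
noncomputable def xc59 : XT := (XT.nd (nat_lit 1716) (nat_lit 456) (nat_lit 0) (XT.nd (nat_lit 858) (nat_lit 380) (nat_lit 0) (XT.nd (nat_lit 390) (nat_lit 380) (nat_lit 0) (XT.nd (nat_lit 156) (nat_lit 228) (nat_lit 0) (XT.nd (nat_lit 78) (nat_lit 0) (nat_lit 0) (XT.lf (nat_lit 0) (nat_lit 3722180756) (nat_lit 152) (nat_lit 6863115642) (nat_lit 228) (nat_lit 4317472272) (nat_lit 25) (nat_lit 5) (nat_lit 27) (nat_lit 5) (nat_lit 28) (nat_lit 4) (nat_lit 330) (nat_lit 240) (nat_lit 210)) (XT.lf (nat_lit 0) (nat_lit 9210221085) (nat_lit 152) (nat_lit 4257140016) (nat_lit 228) (nat_lit 1773080788) (nat_lit 25) (nat_lit 5) (nat_lit 27) (nat_lit 5) (nat_lit 28) (nat_lit 4) (nat_lit 331) (nat_lit 240) (nat_lit 209))) (XT.nd (nat_lit 78) (nat_lit 152) (nat_lit 0) (XT.lf (nat_lit 0) (nat_lit 785507828) (nat_lit 228) (nat_lit 804531118) (nat_lit 76) (nat_lit 13999406715) (nat_lit 24) (nat_lit 5) (nat_lit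 27) (nat_lit 5) (nat_lit 25) (nat_lit 5) (nat_lit 332) (nat_lit 240) (nat_lit 208)) (XT.nd (nat_lit 78) (nat_lit 0) (nat_lit 0) (XT.lf (nat_lit 0) (nat_lit 3396479044) (nat_lit 228) (nat_lit 11379178938) (nat_lit 76) (nat_lit 1172471773) (nat_lit 22) (nat_lit 5) (nat_lit 25) (nat_lit 5) (nat_lit 23) (nat_lit 4) (nat_lit 333) (nat_lit 240) (nat_lit 207)) (XT.lf (nat_lit 0) (nat_lit 6065856655) (nat_lit 228) (nat_lit 6282464274) (nat_lit 76) (nat_lit 3969923682) (nat_lit 22) (nat_lit 5) (nat_lit 25) (nat_lit 5) (nat_lit 23) (nat_lit 4) (nat_lit 334) (nat_lit 240) (nat_lit 206))))) (XT.nd (nat_lit 234) (nat_lit 228) (nat_lit 0) (XT.nd (nat_lit 78) (nat_lit 152) (nat_lit 0) (XT.lf (nat_lit 0) (nat_lit 8772723042) (nat_lit 228) (nat_lit 1100265202) (nat_lit 76) (nat_lit 6827822887) (nat_lit 22) (nat_lit 5) (nat_lit 25) (nat_lit 5) (nat_lit 23) (nat_lit 4) (nat_lit 335) (nat_lit 240) (nat_lit 205))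 (XT.nd (nat_lit 78) (nat_lit 0) (nat_lit 0) (XT.lf (nat_lit 0) (nat_lit 4254976329) (nat_lit 152) (nat_lit 7305368537) (nat_lit 228) (nat_lit 5534591689) (nat_lit 20) (nat_lit 5) (nat_lit 22) (nat_lit 5) (nat_lit 23) (nat_lit 4) (nat_lit 336) (nat_lit 240) (nat_lit 204)) (XT.lf (nat_lit 0) (nat_lit 9728617736) (nat_lit 152) (nat_lit 4673317555) (nat_lit 228) (nat_lit 3099906649) (nat_lit 20) (nat_lit 5) (nat_lit 22) (nat_lit 5) (nat_lit 23) (nat_lit 4) (nat_lit 337) (nat_lit 240) (nat_lit 203)))) (XT.nd (nat_lit 78) (nat_lit 228) (nat_lit 0) (XT.lf (nat_lit 0) (nat_lit 15303544379) (nat_lit 152) (nat_lit 1985645969) (nat_lit 228) (nat_lit 633016097) (nat_lit 20) (nat_lit 5) (nat_lit 22) (nat_lit 5) (nat_lit 23) (nat_lit 4) (nat_lit 338) (nat_lit 240) (nat_lit 202)) (XT.nd (nat_lit 78) (nat_lit 0) (nat_lit 0) (XT.lf (nat_lit 0) (nat_lit 1865107113) (nat_lit 228) (nat_lit 15700606536) (nat_lit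 76) (nat_lit 789145141) (nat_lit 17) (nat_lit 5) (nat_lit 20) (nat_lit 5) (nat_lit 18) (nat_lit 4) (nat_lit 339) (nat_lit 240) (nat_lit 201)) (XT.lf (nat_lit 0) (nat_lit 4433265790) (nat_lit 228) (nat_lit 10749158992) (nat_lit 76) (nat_lit 3617702450) (nat_lit 17) (nat_lit 5) (nat_lit 20) (nat_lit 5) (nat_lit 18) (nat_lit 4) (nat_lit 340) (nat_lit 240) (nat_lit 200)))))) (XT.nd (nat_lit 390) (nat_lit 304) (nat_lit 0) (XT.nd (nat_lit 156) (nat_lit 76) (nat_lit 0) (XT.nd (nat_lit 78) (nat_lit 0) (nat_lit 0) (XT.lf (nat_lit 0) (nat_lit 7041041789) (nat_lit 228) (nat_lit 5709659705) (nat_lit 76) (nat_lit 6509232333) (nat_lit 17) (nat_lit 5) (nat_lit 20) (nat_lit 5) (nat_lit 18) (nat_lit 4) (nat_lit 341) (nat_lit 240) (nat_lit 199)) (XT.lf (nat_lit 0) (nat_lit 9690713748) (nat_lit 228) (nat_lit 577705230) (nat_lit 76) (nat_lit 9466261369) (nat_lit 17) (nat_lit 5) (nat_lit 20) (nat_lit 5) (nat_lit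 18) (nat_lit 4) (nat_lit 342) (nat_lit 240) (nat_lit 198))) (XT.nd (nat_lit 78) (nat_lit 0) (nat_lit 0) (XT.lf (nat_lit 0) (nat_lit 4743756439) (nat_lit 76) (nat_lit 7686440365) (nat_lit 152) (nat_lit 7793216819) (nat_lit 16) (nat_lit 5) (nat_lit 17) (nat_lit 5) (nat_lit 18) (nat_lit 4) (nat_lit 343) (nat_lit 240) (nat_lit 197)) (XT.nd (nat_lit 78) (nat_lit 0) (nat_lit 0) (XT.lf (nat_lit 0) (nat_lit 10180244148) (nat_lit 76) (nat_lit 5042659756) (nat_lit 152) (nat_lit 5504826222) (nat_lit 16) (nat_lit 5) (nat_lit 17) (nat_lit 5) (nat_lit 18) (nat_lit 4) (nat_lit 344) (nat_lit 240) (nat_lit 196)) (XT.lf (nat_lit 0) (nat_lit 15725010759) (nat_lit 76) (nat_lit 2340600741) (nat_lit 152) (nat_lit 3182628935) (nat_lit 16) (nat_lit 5) (nat_lit 17) (nat_lit 5) (nat_lit 18) (nat_lit 4) (nat_lit 345) (nat_lit 240) (nat_lit 195))))) (XT.nd (nat_lit 234) (nat_lit 76) (nat_lit 0) (XT.nd (nat_lit 78) (nat_lit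 228) (nat_lit 0) (XT.lf (nat_lit 0) (nat_lit 20964860973) (nat_lit 152) (nat_lit 406555614) (nat_lit 0) (nat_lit 413861054) (nat_lit 16) (nat_lit 5) (nat_lit 18) (nat_lit 4) (nat_lit 16) (nat_lit 4) (nat_lit 346) (nat_lit 240) (nat_lit 194)) (XT.nd (nat_lit 78) (nat_lit 0) (nat_lit 0) (XT.lf (nat_lit 0) (nat_lit 1619606065) (nat_lit 228) (nat_lit 17469957386) (nat_lit 76) (nat_lit 3247291637) (nat_lit 13) (nat_lit 5) (nat_lit 16) (nat_lit 5) (nat_lit 14) (nat_lit 4) (nat_lit 347) (nat_lit 240) (nat_lit 193)) (XT.lf (nat_lit 0) (nat_lit 4088528736) (nat_lit 228) (nat_lit 12658780074) (nat_lit 76) (nat_lit 6158306910) (nat_lit 13) (nat_lit 5) (nat_lit 16) (nat_lit 5) (nat_lit 14) (nat_lit 4) (nat_lit 348) (nat_lit 240) (nat_lit 192)))) (XT.nd (nat_lit 78) (nat_lit 76) (nat_lit 0) (XT.lf (nat_lit 0) (nat_lit 6600492635) (nat_lit 228) (nat_lit 7754382397) (nat_lit 76) (nat_lit 9137538830) (nat_lit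 13) (nat_lit 5) (nat_lit 16) (nat_lit 5) (nat_lit 14) (nat_lit 4) (nat_lit 349) (nat_lit 240) (nat_lit 191)) (XT.nd (nat_lit 78) (nat_lit 76) (nat_lit 0) (XT.lf (nat_lit 0) (nat_lit 9157692683) (nat_lit 228) (nat_lit 2752478958) (nat_lit 76) (nat_lit 12187590609) (nat_lit 13) (nat_lit 5) (nat_lit 16) (nat_lit 5) (nat_lit 14) (nat_lit 4) (nat_lit 350) (nat_lit 240) (nat_lit 190)) (XT.lf (nat_lit 0) (nat_lit 2398096332) (nat_lit 76) (nat_lit 9387318962) (nat_lit 152) (nat_lit 12936082977) (nat_lit 12) (nat_lit 5) (nat_lit 13) (nat_lit 5) (nat_lit 14) (nat_lit 4) (nat_lit 351) (nat_lit 240) (nat_lit 189))))))) (XT.nd (nat_lit 858) (nat_lit 152) (nat_lit 0) (XT.nd (nat_lit 390) (nat_lit 152) (nat_lit 0) (XT.nd (nat_lit 156) (nat_lit 152) (nat_lit 0) (XT.nd (nat_lit 78) (nat_lit 0) (nat_lit 0) (XT.lf (nat_lit 0) (nat_lit 7711903616) (nat_lit 76) (nat_lit 6779008408) (nat_lit 152) (nat_lit 10873106247)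 (nat_lit 12) (nat_lit 5) (nat_lit 13) (nat_lit 5) (nat_lit 14) (nat_lit 4) (nat_lit 352) (nat_lit 240) (nat_lit 188)) (XT.lf (nat_lit 0) (nat_lit 13138806296) (nat_lit 76) (nat_lit 4110755514) (nat_lit 152) (nat_lit 8777131418) (nat_lit 12) (nat_lit 5) (nat_lit 13) (nat_lit 5) (nat_lit 14) (nat_lit 4) (nat_lit 353) (nat_lit 240) (nat_lit 187))) (XT.nd (nat_lit 78) (nat_lit 152) (nat_lit 0) (XT.lf (nat_lit 0) (nat_lit 18683546327) (nat_lit 76) (nat_lit 1380228797) (nat_lit 152) (nat_lit 6646327056) (nat_lit 12) (nat_lit 5) (nat_lit 13) (nat_lit 5) (nat_lit 14) (nat_lit 4) (nat_lit 354) (nat_lit 240) (nat_lit 186)) (XT.nd (nat_lit 78) (nat_lit 152) (nat_lit 0) (XT.lf (nat_lit 0) (nat_lit 22949612425) (nat_lit 152) (nat_lit 3077475091) (nat_lit 0) (nat_lit 1387346720) (nat_lit 12) (nat_lit 5) (nat_lit 14) (nat_lit 4) (nat_lit 12) (nat_lit 4) (nat_lit 355) (nat_lit 240) (nat_lit 185)) (XT.lf (nat_lit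 0) (nat_lit 2002455607) (nat_lit 152) (nat_lit 23926687846) (nat_lit 152) (nat_lit 2210574934) (nat_lit 10) (nat_lit 4) (nat_lit 12) (nat_lit 5) (nat_lit 12) (nat_lit 4) (nat_lit 356) (nat_lit 240) (nat_lit 184))))) (XT.nd (nat_lit 234) (nat_lit 76) (nat_lit 0) (XT.nd (nat_lit 78) (nat_lit 0) (nat_lit 0) (XT.lf (nat_lit 0) (nat_lit 114771541) (nat_lit 228) (nat_lit 21632492902) (nat_lit 76) (nat_lit 7139328847) (nat_lit 9) (nat_lit 5) (nat_lit 12) (nat_lit 5) (nat_lit 10) (nat_lit 4) (nat_lit 357) (nat_lit 240) (nat_lit 183)) (XT.nd (nat_lit 78) (nat_lit 0) (nat_lit 0) (XT.lf (nat_lit 0) (nat_lit 2440457648) (nat_lit 228) (nat_lit 17056365852) (nat_lit 76) (nat_lit 10159176709) (nat_lit 9) (nat_lit 5) (nat_lit 12) (nat_lit 5) (nat_lit 10) (nat_lit 4) (nat_lit 358) (nat_lit 240) (nat_lit 182)) (XT.lf (nat_lit 0) (nat_lit 4811651818) (nat_lit 228) (nat_lit 12383633674) (nat_lit 76) (nat_lit 13253963431)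 (nat_lit 9) (nat_lit 5) (nat_lit 12) (nat_lit 5) (nat_lit 10) (nat_lit 4) (nat_lit 359) (nat_lit 240) (nat_lit 181)))) (XT.nd (nat_lit 78) (nat_lit 76) (nat_lit 0) (XT.lf (nat_lit 0) (nat_lit 7230425969) (nat_lit 228) (nat_lit 7610213398) (nat_lit 76) (nat_lit 16426393196) (nat_lit 9) (nat_lit 5) (nat_lit 12) (nat_lit 5) (nat_lit 10) (nat_lit 4) (nat_lit 360) (nat_lit 240) (nat_lit 180)) (XT.nd (nat_lit 78) (nat_lit 76) (nat_lit 0) (XT.lf (nat_lit 0) (nat_lit 9698893592) (nat_lit 228) (nat_lit 2731934076) (nat_lit 76) (nat_lit 19679238029) (nat_lit 9) (nat_lit 5) (nat_lit 12) (nat_lit 5) (nat_lit 10) (nat_lit 4) (nat_lit 361) (nat_lit 240) (nat_lit 179)) (XT.lf (nat_lit 0) (nat_lit 2300355081) (nat_lit 76) (nat_lit 9940968939) (nat_lit 152) (nat_lit 20737097562) (nat_lit 8) (nat_lit 5) (nat_lit 9) (nat_lit 5) (nat_lit 10) (nat_lit 4) (nat_lit 362) (nat_lit 240) (nat_lit 178)))))) (XT.nd (nat_lit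 468) (nat_lit 152) (nat_lit 0) (XT.nd (nat_lit 234) (nat_lit 0) (nat_lit 0) (XT.nd (nat_lit 78) (nat_lit 0) (nat_lit 0) (XT.lf (nat_lit 0) (nat_lit 7502753093) (nat_lit 76) (nat_lit 7362950173) (nat_lit 152) (nat_lit 19006982776) (nat_lit 8) (nat_lit 5) (nat_lit 9) (nat_lit 5) (nat_lit 10) (nat_lit 4) (nat_lit 363) (nat_lit 240) (nat_lit 177)) (XT.nd (nat_lit 78) (nat_lit 0) (nat_lit 0) (XT.lf (nat_lit 0) (nat_lit 12825434899) (nat_lit 76) (nat_lit 4722105910) (nat_lit 152) (nat_lit 17246903176) (nat_lit 8) (nat_lit 5) (nat_lit 9) (nat_lit 5) (nat_lit 10) (nat_lit 4) (nat_lit 364) (nat_lit 240) (nat_lit 176)) (XT.lf (nat_lit 0) (nat_lit 18273051388) (nat_lit 76) (nat_lit 2016128614) (nat_lit 152) (nat_lit 15455320827) (nat_lit 8) (nat_lit 5) (nat_lit 9) (nat_lit 5) (nat_lit 10) (nat_lit 4) (nat_lit 365) (nat_lit 240) (nat_lit 175)))) (XT.nd (nat_lit 78) (nat_lit 0) (nat_lit 0) (XT.lf (nat_lit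 0) (nat_lit 23100296527) (nat_lit 152) (nat_lit 12880604184) (nat_lit 0) (nat_lit 742567607) (nat_lit 8) (nat_lit 5) (nat_lit 10) (nat_lit 4) (nat_lit 8) (nat_lit 4) (nat_lit 366) (nat_lit 240) (nat_lit 174)) (XT.nd (nat_lit 78) (nat_lit 0) (nat_lit 0) (XT.lf (nat_lit 0) (nat_lit 25996112646) (nat_lit 152) (nat_lit 8205227845) (nat_lit 0) (nat_lit 3530478392) (nat_lit 8) (nat_lit 5) (nat_lit 10) (nat_lit 4) (nat_lit 8) (nat_lit 4) (nat_lit 367) (nat_lit 240) (nat_lit 173)) (XT.lf (nat_lit 0) (nat_lit 28959778425) (nat_lit 152) (nat_lit 3421854881) (nat_lit 0) (nat_lit 6389381708) (nat_lit 8) (nat_lit 5) (nat_lit 10) (nat_lit 4) (nat_lit 8) (nat_lit 4) (nat_lit 368) (nat_lit 240) (nat_lit 172))))) (XT.nd (nat_lit 234) (nat_lit 76) (nat_lit 0) (XT.nd (nat_lit 78) (nat_lit 0) (nat_lit 0) (XT.lf (nat_lit 0) (nat_lit 1503023759) (nat_lit 76) (nat_lit 30505307697) (nat_lit 76) (nat_lit 7833199853)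 (nat_lit 7) (nat_lit 4) (nat_lit 8) (nat_lit 5) (nat_lit 8) (nat_lit 4) (nat_lit 369) (nat_lit 240) (nat_lit 171)) (XT.nd (nat_lit 78) (nat_lit 0) (nat_lit 0) (XT.lf (nat_lit 0) (nat_lit 6614775618) (nat_lit 76) (nat_lit 28549888600) (nat_lit 76) (nat_lit 5779032089) (nat_lit 7) (nat_lit 4) (nat_lit 8) (nat_lit 5) (nat_lit 8) (nat_lit 4) (nat_lit 370) (nat_lit 240) (nat_lit 170)) (XT.lf (nat_lit 0) (nat_lit 11849765653) (nat_lit 76) (nat_lit 26548221422) (nat_lit 76) (nat_lit 3681492419) (nat_lit 7) (nat_lit 4) (nat_lit 8) (nat_lit 5) (nat_lit 8) (nat_lit 4) (nat_lit 371) (nat_lit 240) (nat_lit 169)))) (XT.nd (nat_lit 78) (nat_lit 76) (nat_lit 0) (XT.lf (nat_lit 0) (nat_lit 17212568128) (nat_lit 76) (nat_lit 24498557135) (nat_lit 76) (nat_lit 1538748041) (nat_lit 7) (nat_lit 4) (nat_lit 8) (nat_lit 5) (nat_lit 8) (nat_lit 4) (nat_lit 372) (nat_lit 240) (nat_lit 168)) (XT.nd (nat_lit 78) (nat_lit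 0) (nat_lit 0) (XT.lf (nat_lit 0) (nat_lit 638368558) (nat_lit 152) (nat_lit 21754289938) (nat_lit 76) (nat_lit 22063054155) (nat_lit 6) (nat_lit 5) (nat_lit 8) (nat_lit 5) (nat_lit 7) (nat_lit 4) (nat_lit 373) (nat_lit 240) (nat_lit 167)) (XT.lf (nat_lit 0) (nat_lit 2833493107) (nat_lit 152) (nat_lit 17385924017) (nat_lit 76) (nat_lit 25478364112) (nat_lit 6) (nat_lit 5) (nat_lit 8) (nat_lit 5) (nat_lit 7) (nat_lit 4) (nat_lit 374) (nat_lit 240) (nat_lit 166))))))))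
noncomputable def xc60 : XT := (XT.nd (nat_lit 1716) (nat_lit 0) (nat_lit 0) (XT.nd (nat_lit 858) (nat_lit 76) (nat_lit 0) (XT.nd (nat_lit 390) (nat_lit 0) (nat_lit 0) (XT.nd (nat_lit 156) (nat_lit 76) (nat_lit 0) (XT.nd (nat_lit 78) (nat_lit 0) (nat_lit 0) (XT.lf (nat_lit 0) (nat_lit 5078570190) (nat_lit 152) (nat_lit 12913599006) (nat_lit 76) (nat_lit 28985438903) (nat_lit 6) (nat_lit 5) (nat_lit 8) (nat_lit 5) (nat_lit 7) (nat_lit 4) (nat_lit 375) (nat_lit 240) (nat_lit 165)) (XT.lf (nat_lit 0) (nat_lit 7375561526) (nat_lit 152) (nat_lit 8333407049) (nat_lit 76) (nat_lit 32587342964) (nat_lit 6) (nat_lit 5) (nat_lit 8) (nat_lit 5) (nat_lit 7) (nat_lit 4) (nat_lit 376) (nat_lit 240) (nat_lit 164))) (XT.nd (nat_lit 78) (nat_lit 76) (nat_lit 0) (XT.lf (nat_lit 0) (nat_lit 9726474194) (nat_lit 152) (nat_lit 3641346036) (nat_lit 76) (nat_lit 36287223589) (nat_lit 6) (nat_lit 5) (nat_lit 8) (nat_lit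 5) (nat_lit 7) (nat_lit 4) (nat_lit 377) (nat_lit 240) (nat_lit 163)) (XT.nd (nat_lit 78) (nat_lit 0) (nat_lit 0) (XT.lf (nat_lit 0) (nat_lit 1189903188) (nat_lit 76) (nat_lit 10954897279) (nat_lit 152) (nat_lit 38909848572) (nat_lit 5) (nat_lit 5) (nat_lit 6) (nat_lit 5) (nat_lit 7) (nat_lit 4) (nat_lit 378) (nat_lit 240) (nat_lit 162)) (XT.lf (nat_lit 0) (nat_lit 6216184065) (nat_lit 76) (nat_lit 8441898918) (nat_lit 152) (nat_lit 37837504285) (nat_lit 5) (nat_lit 5) (nat_lit 6) (nat_lit 5) (nat_lit 7) (nat_lit 4) (nat_lit 379) (nat_lit 240) (nat_lit 161))))) (XT.nd (nat_lit 234) (nat_lit 0) (nat_lit 0) (XT.nd (nat_lit 78) (nat_lit 0) (nat_lit 0) (XT.lf (nat_lit 0) (nat_lit 11369418566) (nat_lit 76) (nat_lit 5863399778) (nat_lit 152) (nat_lit 36747370220) (nat_lit 5) (nat_lit 5) (nat_lit 6) (nat_lit 5) (nat_lit 7) (nat_lit 4) (nat_lit 380) (nat_lit 240) (nat_lit 160)) (XT.nd (nat_lit 78)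 (nat_lit 0) (nat_lit 0) (XT.lf (nat_lit 0) (nat_lit 16654109515) (nat_lit 76) (nat_lit 3217146803) (nat_lit 152) (nat_lit 35638493833) (nat_lit 5) (nat_lit 5) (nat_lit 6) (nat_lit 5) (nat_lit 7) (nat_lit 4) (nat_lit 381) (nat_lit 240) (nat_lit 159)) (XT.lf (nat_lit 0) (nat_lit 22074874604) (nat_lit 76) (nat_lit 500827733) (nat_lit 152) (nat_lit 34509906202) (nat_lit 5) (nat_lit 5) (nat_lit 6) (nat_lit 5) (nat_lit 7) (nat_lit 4) (nat_lit 382) (nat_lit 240) (nat_lit 158)))) (XT.nd (nat_lit 78) (nat_lit 0) (nat_lit 0) (XT.lf (nat_lit 0) (nat_lit 25370512500) (nat_lit 152) (nat_lit 31094683258) (nat_lit 0) (nat_lit 2243285143) (nat_lit 5) (nat_lit 5) (nat_lit 7) (nat_lit 4) (nat_lit 5) (nat_lit 4) (nat_lit 383) (nat_lit 240) (nat_lit 157)) (XT.nd (nat_lit 78) (nat_lit 0) (nat_lit 0) (XT.lf (nat_lit 0) (nat_lit 28241650686) (nat_lit 152) (nat_lit 27087588626) (nat_lit 0) (nat_lit 5051040316) (nat_lit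 5) (nat_lit 5) (nat_lit 7) (nat_lit 4) (nat_lit 5) (nat_lit 4) (nat_lit 384) (nat_lit 240) (nat_lit 156)) (XT.lf (nat_lit 0) (nat_lit 31186811392) (nat_lit 152) (nat_lit 22981134430) (nat_lit 0) (nat_lit 7934664118) (nat_lit 5) (nat_lit 5) (nat_lit 7) (nat_lit 4) (nat_lit 5) (nat_lit 4) (nat_lit 385) (nat_lit 240) (nat_lit 155)))))) (XT.nd (nat_lit 390) (nat_lit 76) (nat_lit 0) (XT.nd (nat_lit 156) (nat_lit 0) (nat_lit 0) (XT.nd (nat_lit 78) (nat_lit 0) (nat_lit 0) (XT.lf (nat_lit 0) (nat_lit 34208568062) (nat_lit 152) (nat_lit 18771732508) (nat_lit 0) (nat_lit 10896676220) (nat_lit 5) (nat_lit 5) (nat_lit 7) (nat_lit 4) (nat_lit 5) (nat_lit 4) (nat_lit 386) (nat_lit 240) (nat_lit 154)) (XT.lf (nat_lit 0) (nat_lit 37309561065) (nat_lit 152) (nat_lit 14455704741) (nat_lit 0) (nat_lit 13939664788) (nat_lit 5) (nat_lit 5) (nat_lit 7) (nat_lit 4) (nat_lit 5) (nat_lit 4) (nat_lit 387) (nat_lit 240)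 (nat_lit 153))) (XT.nd (nat_lit 78) (nat_lit 0) (nat_lit 0) (XT.lf (nat_lit 0) (nat_lit 40492500005) (nat_lit 152) (nat_lit 10029279843) (nat_lit 0) (nat_lit 17066288743) (nat_lit 5) (nat_lit 5) (nat_lit 7) (nat_lit 4) (nat_lit 5) (nat_lit 4) (nat_lit 388) (nat_lit 240) (nat_lit 152)) (XT.nd (nat_lit 78) (nat_lit 0) (nat_lit 0) (XT.lf (nat_lit 0) (nat_lit 43760166093) (nat_lit 152) (nat_lit 5488590063) (nat_lit 0) (nat_lit 20279280088) (nat_lit 5) (nat_lit 5) (nat_lit 7) (nat_lit 4) (nat_lit 5) (nat_lit 4) (nat_lit 389) (nat_lit 240) (nat_lit 151)) (XT.lf (nat_lit 0) (nat_lit 47115414571) (nat_lit 152) (nat_lit 829667808) (nat_lit 0) (nat_lit 23581446291) (nat_lit 5) (nat_lit 5) (nat_lit 7) (nat_lit 4) (nat_lit 5) (nat_lit 4) (nat_lit 390) (nat_lit 240) (nat_lit 150))))) (XT.nd (nat_lit 234) (nat_lit 0) (nat_lit 0) (XT.nd (nat_lit 78) (nat_lit 0) (nat_lit 0) (XT.lf (nat_lit 0) (nat_lit 4030201571)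 (nat_lit 76) (nat_lit 46569716399) (nat_lit 76) (nat_lit 22984211930) (nat_lit 4) (nat_lit 4) (nat_lit 5) (nat_lit 5) (nat_lit 5) (nat_lit 4) (nat_lit 391) (nat_lit 240) (nat_lit 149)) (XT.nd (nat_lit 78) (nat_lit 0) (nat_lit 0) (XT.lf (nat_lit 0) (nat_lit 9035581338) (nat_lit 76) (nat_lit 45151739062) (nat_lit 76) (nat_lit 21516199458) (nat_lit 4) (nat_lit 4) (nat_lit 5) (nat_lit 5) (nat_lit 5) (nat_lit 4) (nat_lit 392) (nat_lit 240) (nat_lit 148)) (XT.lf (nat_lit 0) (nat_lit 14174333108) (nat_lit 76) (nat_lit 43698289377) (nat_lit 76) (nat_lit 20014171972) (nat_lit 4) (nat_lit 4) (nat_lit 5) (nat_lit 5) (nat_lit 5) (nat_lit 4) (nat_lit 393) (nat_lit 240) (nat_lit 147)))) (XT.nd (nat_lit 78) (nat_lit 0) (nat_lit 0) (XT.lf (nat_lit 0) (nat_lit 19450947052) (nat_lit 76) (nat_lit 42208097340) (nat_lit 76) (nat_lit 18476817021) (nat_lit 4) (nat_lit 4) (nat_lit 5) (nat_lit 5) (nat_lit 5) (nat_lit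 4) (nat_lit 394) (nat_lit 240) (nat_lit 146)) (XT.nd (nat_lit 78) (nat_lit 0) (nat_lit 0) (XT.lf (nat_lit 0) (nat_lit 24870033804) (nat_lit 76) (nat_lit 40679860840) (nat_lit 76) (nat_lit 16902791286) (nat_lit 4) (nat_lit 4) (nat_lit 5) (nat_lit 5) (nat_lit 5) (nat_lit 4) (nat_lit 395) (nat_lit 240) (nat_lit 145)) (XT.lf (nat_lit 0) (nat_lit 30436328488) (nat_lit 76) (nat_lit 39112244527) (nat_lit 76) (nat_lit 15290719403) (nat_lit 4) (nat_lit 4) (nat_lit 5) (nat_lit 5) (nat_lit 5) (nat_lit 4) (nat_lit 396) (nat_lit 240) (nat_lit 144))))))) (XT.nd (nat_lit 33462) (nat_lit 0) (nat_lit 3268) (XT.nd (nat_lit 32994) (nat_lit 0) (nat_lit 4940) (XT.nd (nat_lit 156) (nat_lit 0) (nat_lit 0) (XT.nd (nat_lit 78) (nat_lit 0) (nat_lit 0) (XT.lf (nat_lit 0) (nat_lit 36154694857) (nat_lit 76) (nat_lit 37503878637) (nat_lit 76) (nat_lit 13639192767) (nat_lit 4) (nat_lit 4) (nat_lit 5) (nat_lit 5) (nat_lit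 5) (nat_lit 4) (nat_lit 397) (nat_lit 240) (nat_lit 143)) (XT.lf (nat_lit 0) (nat_lit 42030129542) (nat_lit 76) (nat_lit 35853357804) (nat_lit 76) (nat_lit 11946768295) (nat_lit 4) (nat_lit 4) (nat_lit 5) (nat_lit 5) (nat_lit 5) (nat_lit 4) (nat_lit 398) (nat_lit 240) (nat_lit 142))) (XT.nd (nat_lit 156) (nat_lit 0) (nat_lit 0) (XT.lf (nat_lit 0) (nat_lit 48067766417) (nat_lit 76) (nat_lit 34159239823) (nat_lit 76) (nat_lit 10211967171) (nat_lit 4) (nat_lit 4) (nat_lit 5) (nat_lit 5) (nat_lit 5) (nat_lit 4) (nat_lit 399) (nat_lit 240) (nat_lit 141)) (XT.nd (nat_lit 32604) (nat_lit 0) (nat_lit 6536) (XT.lf (nat_lit 0) (nat_lit 60650895500) (nat_lit 76) (nat_lit 30634251843) (nat_lit 76) (nat_lit 6609133229) (nat_lit 4) (nat_lit 4) (nat_lit 5) (nat_lit 5) (nat_lit 5) (nat_lit 4) (nat_lit 401) (nat_lit 240) (nat_lit 139)) (XT.lf (nat_lit 0) (nat_lit 1284566204) (nat_lit 456) (nat_lit 1600673298)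 (nat_lit 0) (nat_lit 1284566204) (nat_lit 90) (nat_lit 5) (nat_lit 96) (nat_lit 4) (nat_lit 90) (nat_lit 4) (nat_lit 298) (nat_lit 241) (nat_lit 241))))) (XT.nd (nat_lit 234) (nat_lit 760) (nat_lit 0) (XT.nd (nat_lit 78) (nat_lit 456) (nat_lit 0) (XT.lf (nat_lit 0) (nat_lit 1764498924) (nat_lit 380) (nat_lit 3901022999) (nat_lit 380) (nat_lit 2786257114) (nat_lit 85) (nat_lit 4) (nat_lit 90) (nat_lit 5) (nat_lit 90) (nat_lit 4) (nat_lit 299) (nat_lit 241) (nat_lit 240)) (XT.nd (nat_lit 78) (nat_lit 380) (nat_lit 0) (XT.lf (nat_lit 0) (nat_lit 232328408) (nat_lit 456) (nat_lit 1725436192) (nat_lit 76) (nat_lit 6611194557) (nat_lit 84) (nat_lit 5) (nat_lit 90) (nat_lit 5) (nat_lit 85) (nat_lit 4) (nat_lit 300) (nat_lit 241) (nat_lit 239)) (XT.lf (nat_lit 0) (nat_lit 3238457183) (nat_lit 456) (nat_lit 5366799228) (nat_lit 0) (nat_lit 85217743) (nat_lit 79) (nat_lit 5) (nat_lit 85) (nat_lit 4)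 (nat_lit 79) (nat_lit 4) (nat_lit 301) (nat_lit 241) (nat_lit 238)))) (XT.nd (nat_lit 78) (nat_lit 760) (nat_lit 0) (XT.lf (nat_lit 0) (nat_lit 6293155768) (nat_lit 456) (nat_lit 374495764) (nat_lit 0) (nat_lit 2149461278) (nat_lit 79) (nat_lit 5) (nat_lit 85) (nat_lit 4) (nat_lit 79) (nat_lit 4) (nat_lit 302) (nat_lit 241) (nat_lit 237)) (XT.nd (nat_lit 78) (nat_lit 304) (nat_lit 0) (XT.lf (nat_lit 0) (nat_lit 451313780) (nat_lit 456) (nat_lit 4189134361) (nat_lit 76) (nat_lit 4308108153) (nat_lit 73) (nat_lit 5) (nat_lit 79) (nat_lit 5) (nat_lit 74) (nat_lit 4) (nat_lit 303) (nat_lit 241) (nat_lit 236)) (XT.lf (nat_lit 0) (nat_lit 865735649) (nat_lit 304) (nat_lit 2535562805) (nat_lit 380) (nat_lit 5684019681) (nat_lit 69) (nat_lit 5) (nat_lit 73) (nat_lit 5) (nat_lit 74) (nat_lit 4) (nat_lit 304) (nat_lit 241) (nat_lit 235)))))) (XT.nd (nat_lit 390) (nat_lit 988) (nat_lit 0) (XT.nd (nat_lit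 156) (nat_lit 304) (nat_lit 0) (XT.nd (nat_lit 78) (nat_lit 380) (nat_lit 0) (XT.lf (nat_lit 0) (nat_lit 6061743991) (nat_lit 304) (nat_lit 345670236) (nat_lit 380) (nat_lit 2819943817) (nat_lit 69) (nat_lit 5) (nat_lit 73) (nat_lit 5) (nat_lit 74) (nat_lit 4) (nat_lit 305) (nat_lit 241) (nat_lit 234)) (XT.lf (nat_lit 0) (nat_lit 91513235) (nat_lit 380) (nat_lit 7411619757) (nat_lit 76) (nat_lit 1871761195) (nat_lit 64) (nat_lit 5) (nat_lit 69) (nat_lit 5) (nat_lit 65) (nat_lit 4) (nat_lit 306) (nat_lit 241) (nat_lit 233))) (XT.nd (nat_lit 78) (nat_lit 304) (nat_lit 0) (XT.lf (nat_lit 0) (nat_lit 2996952729) (nat_lit 380) (nat_lit 2343068096) (nat_lit 76) (nat_lit 4187285315) (nat_lit 64) (nat_lit 5) (nat_lit 69) (nat_lit 5) (nat_lit 65) (nat_lit 4) (nat_lit 307) (nat_lit 241) (nat_lit 232)) (XT.nd (nat_lit 78) (nat_lit 0) (nat_lit 0) (XT.lf (nat_lit 0) (nat_lit 2839321210) (nat_lit 304) (nat_lit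 3107247233) (nat_lit 380) (nat_lit 3739193011) (nat_lit 60) (nat_lit 5) (nat_lit 64) (nat_lit 5) (nat_lit 65) (nat_lit 4) (nat_lit 308) (nat_lit 241) (nat_lit 231)) (XT.lf (nat_lit 0) (nat_lit 8132506391) (nat_lit 304) (nat_lit 806702222) (nat_lit 380) (nat_lit 911301848) (nat_lit 60) (nat_lit 5) (nat_lit 64) (nat_lit 5) (nat_lit 65) (nat_lit 4) (nat_lit 309) (nat_lit 241) (nat_lit 230))))) (XT.nd (nat_lit 234) (nat_lit 380) (nat_lit 0) (XT.nd (nat_lit 78) (nat_lit 228) (nat_lit 0) (XT.lf (nat_lit 0) (nat_lit 1943608080) (nat_lit 380) (nat_lit 6513881826) (nat_lit 76) (nat_lit 1562863753) (nat_lit 55) (nat_lit 5) (nat_lit 60) (nat_lit 5) (nat_lit 56) (nat_lit 4) (nat_lit 310) (nat_lit 241) (nat_lit 229)) (XT.nd (nat_lit 78) (nat_lit 228) (nat_lit 0) (XT.lf (nat_lit 0) (nat_lit 4824292307) (nat_lit 380) (nat_lit 1381618647) (nat_lit 76) (nat_lit 3990518384) (nat_lit 55) (nat_lit 5) (nat_lit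 60) (nat_lit 5) (nat_lit 56) (nat_lit 4) (nat_lit 311) (nat_lit 241) (nat_lit 228)) (XT.lf (nat_lit 0) (nat_lit 3890664713) (nat_lit 228) (nat_lit 3873020995) (nat_lit 304) (nat_lit 2615089393) (nat_lit 52) (nat_lit 5) (nat_lit 55) (nat_lit 5) (nat_lit 56) (nat_lit 4) (nat_lit 312) (nat_lit 241) (nat_lit 227)))) (XT.nd (nat_lit 78) (nat_lit 304) (nat_lit 0) (XT.lf (nat_lit 0) (nat_lit 169522255) (nat_lit 304) (nat_lit 1309457808) (nat_lit 76) (nat_lit 9089216775) (nat_lit 51) (nat_lit 5) (nat_lit 55) (nat_lit 5) (nat_lit 52) (nat_lit 5) (nat_lit 313) (nat_lit 241) (nat_lit 226)) (XT.nd (nat_lit 78) (nat_lit 0) (nat_lit 0) (XT.lf (nat_lit 0) (nat_lit 2970373093) (nat_lit 380) (nat_lit 6784585764) (nat_lit 76) (nat_lit 1008150958) (nat_lit 47) (nat_lit 5) (nat_lit 52) (nat_lit 5) (nat_lit 48) (nat_lit 4) (nat_lit 314) (nat_lit 241) (nat_lit 225)) (XT.lf (nat_lit 0) (nat_lit 5821040836) (nat_lit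 380) (nat_lit 1614949090) (nat_lit 76) (nat_lit 3529045540) (nat_lit 47) (nat_lit 5) (nat_lit 52) (nat_lit 5) (nat_lit 48) (nat_lit 4) (nat_lit 315) (nat_lit 241) (nat_lit 224))))))))
noncomputable def xc61 : XT := (XT.nd (nat_lit 1716) (nat_lit 836) (nat_lit 0) (XT.nd (nat_lit 858) (nat_lit 836) (nat_lit 0) (XT.nd (nat_lit 390) (nat_lit 456) (nat_lit 0) (XT.nd (nat_lit 156) (nat_lit 456) (nat_lit 0) (XT.nd (nat_lit 78) (nat_lit 76) (nat_lit 0) (XT.lf (nat_lit 0) (nat_lit 3695788739) (nat_lit 228) (nat_lit 5036572009) (nat_lit 304) (nat_lit 2441539146) (nat_lit 44) (nat_lit 5) (nat_lit 47) (nat_lit 5) (nat_lit 48) (nat_lit 4) (nat_lit 316) (nat_lit 241) (nat_lit 223)) (XT.lf (nat_lit 0) (nat_lit 291614099) (nat_lit 304) (nat_lit 2279623006) (nat_lit 76) (nat_lit 8819132830) (nat_lit 43) (nat_lit 5) (nat_lit 47) (nat_lit 5) (nat_lit 44) (nat_lit 5) (nat_lit 317) (nat_lit 241) (nat_lit 222)))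 (XT.nd (nat_lit 78) (nat_lit 228) (nat_lit 0) (XT.lf (nat_lit 0) (nat_lit 3025622182) (nat_lit 228) (nat_lit 2732217) (nat_lit 304) (nat_lit 8585258039) (nat_lit 40) (nat_lit 5) (nat_lit 43) (nat_lit 5) (nat_lit 44) (nat_lit 5) (nat_lit 318) (nat_lit 241) (nat_lit 221)) (XT.nd (nat_lit 78) (nat_lit 228) (nat_lit 0) (XT.lf (nat_lit 0) (nat_lit 5838083979) (nat_lit 304) (nat_lit 3416578025) (nat_lit 76) (nat_lit 2589283523) (nat_lit 40) (nat_lit 5) (nat_lit 44) (nat_lit 5) (nat_lit 41) (nat_lit 4) (nat_lit 319) (nat_lit 241) (nat_lit 220)) (XT.lf (nat_lit 0) (nat_lit 1863954246) (nat_lit 228) (nat_lit 6830013149) (nat_lit 304) (nat_lit 3388481787) (nat_lit 37) (nat_lit 5) (nat_lit 40) (nat_lit 5) (nat_lit 41) (nat_lit 4) (nat_lit 320) (nat_lit 241) (nat_lit 219))))) (XT.nd (nat_lit 234) (nat_lit 152) (nat_lit 0) (XT.nd (nat_lit 78) (nat_lit 304) (nat_lit 0) (XT.lf (nat_lit 0) (nat_lit 7291378778)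 (nat_lit 228) (nat_lit 4323416170) (nat_lit 304) (nat_lit 714048008) (nat_lit 37) (nat_lit 5) (nat_lit 40) (nat_lit 5) (nat_lit 41) (nat_lit 4) (nat_lit 321) (nat_lit 241) (nat_lit 218)) (XT.nd (nat_lit 78) (nat_lit 0) (nat_lit 0) (XT.lf (nat_lit 0) (nat_lit 202971371) (nat_lit 228) (nat_lit 1745515762) (nat_lit 304) (nat_lit 10635228846) (nat_lit 33) (nat_lit 5) (nat_lit 36) (nat_lit 5) (nat_lit 37) (nat_lit 5) (nat_lit 322) (nat_lit 241) (nat_lit 217)) (XT.lf (nat_lit 0) (nat_lit 4682964957) (nat_lit 304) (nat_lit 7238183146) (nat_lit 76) (nat_lit 924785894) (nat_lit 33) (nat_lit 5) (nat_lit 37) (nat_lit 5) (nat_lit 34) (nat_lit 4) (nat_lit 323) (nat_lit 241) (nat_lit 216)))) (XT.nd (nat_lit 78) (nat_lit 152) (nat_lit 0) (XT.lf (nat_lit 0) (nat_lit 7464624813) (nat_lit 304) (nat_lit 2037305661) (nat_lit 76) (nat_lit 3615234084) (nat_lit 33) (nat_lit 5) (nat_lit 37) (nat_lit 5) (nat_lit 34)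 (nat_lit 4) (nat_lit 324) (nat_lit 241) (nat_lit 215)) (XT.nd (nat_lit 78) (nat_lit 0) (nat_lit 0) (XT.lf (nat_lit 0) (nat_lit 3307757530) (nat_lit 152) (nat_lit 7003156972) (nat_lit 228) (nat_lit 3086279641) (nat_lit 31) (nat_lit 5) (nat_lit 33) (nat_lit 5) (nat_lit 34) (nat_lit 4) (nat_lit 325) (nat_lit 241) (nat_lit 214)) (XT.lf (nat_lit 0) (nat_lit 8779297397) (nat_lit 152) (nat_lit 4433999304) (nat_lit 228) (nat_lit 473301470) (nat_lit 31) (nat_lit 5) (nat_lit 33) (nat_lit 5) (nat_lit 34) (nat_lit 4) (nat_lit 326) (nat_lit 241) (nat_lit 213)))))) (XT.nd (nat_lit 390) (nat_lit 380) (nat_lit 0) (XT.nd (nat_lit 156) (nat_lit 152) (nat_lit 0) (XT.nd (nat_lit 78) (nat_lit 0) (nat_lit 0) (XT.lf (nat_lit 0) (nat_lit 341135420) (nat_lit 228) (nat_lit 1787941403) (nat_lit 304) (nat_lit 11856428292) (nat_lit 27) (nat_lit 5) (nat_lit 30) (nat_lit 5) (nat_lit 31) (nat_lit 5) (nat_lit 327) (nat_lit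 241) (nat_lit 212)) (XT.lf (nat_lit 0) (nat_lit 4810556704) (nat_lit 304) (nat_lit 8533519950) (nat_lit 76) (nat_lit 948932368) (nat_lit 27) (nat_lit 5) (nat_lit 31) (nat_lit 5) (nat_lit 28) (nat_lit 4) (nat_lit 328) (nat_lit 241) (nat_lit 211))) (XT.nd (nat_lit 78) (nat_lit 152) (nat_lit 0) (XT.lf (nat_lit 0) (nat_lit 7543082957) (nat_lit 304) (nat_lit 3359919208) (nat_lit 76) (nat_lit 3707701937) (nat_lit 27) (nat_lit 5) (nat_lit 31) (nat_lit 5) (nat_lit 28) (nat_lit 4) (nat_lit 329) (nat_lit 241) (nat_lit 210)) (XT.nd (nat_lit 78) (nat_lit 0) (nat_lit 0) (XT.lf (nat_lit 0) (nat_lit 1935916646) (nat_lit 152) (nat_lit 8394549006) (nat_lit 228) (nat_lit 4608359621) (nat_lit 25) (nat_lit 5) (nat_lit 27) (nat_lit 5) (nat_lit 28) (nat_lit 4) (nat_lit 330) (nat_lit 241) (nat_lit 209)) (XT.lf (nat_lit 0) (nat_lit 7389446634) (nat_lit 152) (nat_lit 5800881713) (nat_lit 228) (nat_lit 2086875262) (nat_lit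 25) (nat_lit 5) (nat_lit 27) (nat_lit 5) (nat_lit 28) (nat_lit 4) (nat_lit 331) (nat_lit 241) (nat_lit 208))))) (XT.nd (nat_lit 234) (nat_lit 152) (nat_lit 0) (XT.nd (nat_lit 78) (nat_lit 152) (nat_lit 0) (XT.lf (nat_lit 0) (nat_lit 456030667) (nat_lit 228) (nat_lit 2693026885) (nat_lit 76) (nat_lit 12477931312) (nat_lit 24) (nat_lit 5) (nat_lit 27) (nat_lit 5) (nat_lit 25) (nat_lit 5) (nat_lit 332) (nat_lit 241) (nat_lit 207)) (XT.nd (nat_lit 78) (nat_lit 0) (nat_lit 0) (XT.lf (nat_lit 0) (nat_lit 2621067066) (nat_lit 152) (nat_lit 394431114) (nat_lit 228) (nat_lit 12971755632) (nat_lit 22) (nat_lit 5) (nat_lit 24) (nat_lit 5) (nat_lit 25) (nat_lit 5) (nat_lit 333) (nat_lit 241) (nat_lit 206)) (XT.lf (nat_lit 0) (nat_lit 5660102725) (nat_lit 228) (nat_lit 8298890930) (nat_lit 76) (nat_lit 2399152905) (nat_lit 22) (nat_lit 5) (nat_lit 25) (nat_lit 5) (nat_lit 23) (nat_lit 4) (nat_lit 334) (nat_lit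 241) (nat_lit 205)))) (XT.nd (nat_lit 78) (nat_lit 152) (nat_lit 0) (XT.lf (nat_lit 0) (nat_lit 8346598673) (nat_lit 228) (nat_lit 3148934925) (nat_lit 76) (nat_lit 5245824285) (nat_lit 22) (nat_lit 5) (nat_lit 25) (nat_lit 5) (nat_lit 23) (nat_lit 4) (nat_lit 335) (nat_lit 241) (nat_lit 204)) (XT.nd (nat_lit 78) (nat_lit 0) (nat_lit 0) (XT.lf (nat_lit 0) (nat_lit 2133607102) (nat_lit 152) (nat_lit 8960444371) (nat_lit 228) (nat_lit 6042669613) (nat_lit 20) (nat_lit 5) (nat_lit 22) (nat_lit 5) (nat_lit 23) (nat_lit 4) (nat_lit 336) (nat_lit 241) (nat_lit 203)) (XT.lf (nat_lit 0) (nat_lit 7576251462) (nat_lit 152) (nat_lit 6339891382) (nat_lit 228) (nat_lit 3628100356) (nat_lit 20) (nat_lit 5) (nat_lit 22) (nat_lit 5) (nat_lit 23) (nat_lit 4) (nat_lit 337) (nat_lit 241) (nat_lit 202))))))) (XT.nd (nat_lit 858) (nat_lit 304) (nat_lit 0) (XT.nd (nat_lit 390) (nat_lit 304) (nat_lit 0) (XT.nd (nat_lit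 156) (nat_lit 0) (nat_lit 0) (XT.nd (nat_lit 78) (nat_lit 228) (nat_lit 0) (XT.lf (nat_lit 0) (nat_lit 13121083883) (nat_lit 152) (nat_lit 3663382896) (nat_lit 228) (nat_lit 1180739690) (nat_lit 20) (nat_lit 5) (nat_lit 22) (nat_lit 5) (nat_lit 23) (nat_lit 4) (nat_lit 338) (nat_lit 241) (nat_lit 201)) (XT.lf (nat_lit 0) (nat_lit 367633182) (nat_lit 152) (nat_lit 912053642) (nat_lit 228) (nat_lit 17119810545) (nat_lit 17) (nat_lit 5) (nat_lit 19) (nat_lit 5) (nat_lit 20) (nat_lit 5) (nat_lit 339) (nat_lit 241) (nat_lit 200))) (XT.nd (nat_lit 78) (nat_lit 0) (nat_lit 0) (XT.lf (nat_lit 0) (nat_lit 3820641123) (nat_lit 228) (nat_lit 13101448285) (nat_lit 76) (nat_lit 1923520751) (nat_lit 17) (nat_lit 5) (nat_lit 20) (nat_lit 5) (nat_lit 18) (nat_lit 4) (nat_lit 340) (nat_lit 241) (nat_lit 199)) (XT.nd (nat_lit 78) (nat_lit 0) (nat_lit 0) (XT.lf (nat_lit 0) (nat_lit 6410516964) (nat_lit 228) (nat_lit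 8090879929) (nat_lit 76) (nat_lit 4804584257) (nat_lit 17) (nat_lit 5) (nat_lit 20) (nat_lit 5) (nat_lit 18) (nat_lit 4) (nat_lit 341) (nat_lit 241) (nat_lit 198)) (XT.lf (nat_lit 0) (nat_lit 9042810130) (nat_lit 228) (nat_lit 2987013736) (nat_lit 76) (nat_lit 7751451763) (nat_lit 17) (nat_lit 5) (nat_lit 20) (nat_lit 5) (nat_lit 18) (nat_lit 4) (nat_lit 342) (nat_lit 241) (nat_lit 197))))) (XT.nd (nat_lit 234) (nat_lit 228) (nat_lit 0) (XT.nd (nat_lit 78) (nat_lit 0) (nat_lit 0) (XT.lf (nat_lit 0) (nat_lit 2258685062) (nat_lit 76) (nat_lit 9482847483) (nat_lit 152) (nat_lit 8529725000) (nat_lit 16) (nat_lit 5) (nat_lit 17) (nat_lit 5) (nat_lit 18) (nat_lit 4) (nat_lit 343) (nat_lit 241) (nat_lit 196)) (XT.nd (nat_lit 78) (nat_lit 0) (nat_lit 0) (XT.lf (nat_lit 0) (nat_lit 7668169949) (nat_lit 76) (nat_lit 6849428949) (nat_lit 152) (nat_lit 6258499442) (nat_lit 16) (nat_lit 5) (nat_lit 17)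 (nat_lit 5) (nat_lit 18) (nat_lit 4) (nat_lit 344) (nat_lit 241) (nat_lit 195)) (XT.lf (nat_lit 0) (nat_lit 13186720227) (nat_lit 76) (nat_lit 4157430202) (nat_lit 152) (nat_lit 3952967240) (nat_lit 16) (nat_lit 5) (nat_lit 17) (nat_lit 5) (nat_lit 18) (nat_lit 4) (nat_lit 345) (nat_lit 241) (nat_lit 194)))) (XT.nd (nat_lit 78) (nat_lit 228) (nat_lit 0) (XT.lf (nat_lit 0) (nat_lit 18819157930) (nat_lit 76) (nat_lit 1404499009) (nat_lit 152) (nat_lit 1611113853) (nat_lit 16) (nat_lit 5) (nat_lit 17) (nat_lit 5) (nat_lit 18) (nat_lit 4) (nat_lit 346) (nat_lit 241) (nat_lit 193)) (XT.nd (nat_lit 78) (nat_lit 0) (nat_lit 0) (XT.lf (nat_lit 0) (nat_lit 789262591) (nat_lit 228) (nat_lit 20185780859) (nat_lit 76) (nat_lit 1413207351) (nat_lit 13) (nat_lit 5) (nat_lit 16) (nat_lit 5) (nat_lit 14) (nat_lit 4) (nat_lit 347) (nat_lit 241) (nat_lit 192)) (XT.lf (nat_lit 0) (nat_lit 3242901296) (nat_lit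 228) (nat_lit 15399783327) (nat_lit 76) (nat_lit 4314806954) (nat_lit 13) (nat_lit 5) (nat_lit 16) (nat_lit 5) (nat_lit 14) (nat_lit 4) (nat_lit 348) (nat_lit 241) (nat_lit 191)))))) (XT.nd (nat_lit 468) (nat_lit 228) (nat_lit 0) (XT.nd (nat_lit 234) (nat_lit 76) (nat_lit 0) (XT.nd (nat_lit 78) (nat_lit 0) (nat_lit 0) (XT.lf (nat_lit 0) (nat_lit 5740026392) (nat_lit 228) (nat_lit 10519832039) (nat_lit 76) (nat_lit 7284897446) (nat_lit 13) (nat_lit 5) (nat_lit 16) (nat_lit 5) (nat_lit 14) (nat_lit 4) (nat_lit 349) (nat_lit 241) (nat_lit 190)) (XT.nd (nat_lit 78) (nat_lit 0) (nat_lit 0) (XT.lf (nat_lit 0) (nat_lit 8282819836) (nat_lit 228) (nat_lit 5541662959) (nat_lit 76) (nat_lit 10326074052) (nat_lit 13) (nat_lit 5) (nat_lit 16) (nat_lit 5) (nat_lit 14) (nat_lit 4) (nat_lit 350) (nat_lit 241) (nat_lit 189)) (XT.lf (nat_lit 0) (nat_lit 10873503484) (nat_lit 228) (nat_lit 460926230) (nat_lit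 76) (nat_lit 13440994111) (nat_lit 13) (nat_lit 5) (nat_lit 16) (nat_lit 5) (nat_lit 14) (nat_lit 4) (nat_lit 351) (nat_lit 241) (nat_lit 188)))) (XT.nd (nat_lit 78) (nat_lit 0) (nat_lit 0) (XT.lf (nat_lit 0) (nat_lit 4820890563) (nat_lit 76) (nat_lit 8739791827) (nat_lit 152) (nat_lit 11857830183) (nat_lit 12) (nat_lit 5) (nat_lit 13) (nat_lit 5) (nat_lit 14) (nat_lit 4) (nat_lit 352) (nat_lit 241) (nat_lit 187)) (XT.nd (nat_lit 78) (nat_lit 0) (nat_lit 0) (XT.lf (nat_lit 0) (nat_lit 10225640667) (nat_lit 76) (nat_lit 6080294482) (nat_lit 152) (nat_lit 9775672946) (nat_lit 12) (nat_lit 5) (nat_lit 13) (nat_lit 5) (nat_lit 14) (nat_lit 4) (nat_lit 353) (nat_lit 241) (nat_lit 186)) (XT.lf (nat_lit 0) (nat_lit 15748873342) (nat_lit 76) (nat_lit 3358268298) (nat_lit 152) (nat_lit 7658283721) (nat_lit 12) (nat_lit 5) (nat_lit 13) (nat_lit 5) (nat_lit 14) (nat_lit 4) (nat_lit 354) (nat_lit 241)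 (nat_lit 185))))) (XT.nd (nat_lit 234) (nat_lit 76) (nat_lit 0) (XT.nd (nat_lit 78) (nat_lit 152) (nat_lit 0) (XT.lf (nat_lit 0) (nat_lit 21395414714) (nat_lit 76) (nat_lit 571334805) (nat_lit 152) (nat_lit 5503812364) (nat_lit 12) (nat_lit 5) (nat_lit 13) (nat_lit 5) (nat_lit 14) (nat_lit 4) (nat_lit 355) (nat_lit 241) (nat_lit 184)) (XT.nd (nat_lit 78) (nat_lit 152) (nat_lit 0) (XT.lf (nat_lit 0) (nat_lit 24909202500) (nat_lit 152) (nat_lit 1049380171) (nat_lit 0) (nat_lit 2238392775) (nat_lit 12) (nat_lit 5) (nat_lit 14) (nat_lit 4) (nat_lit 12) (nat_lit 4) (nat_lit 356) (nat_lit 241) (nat_lit 183)) (XT.lf (nat_lit 0) (nat_lit 4162160025) (nat_lit 152) (nat_lit 23799119990) (nat_lit 152) (nat_lit 983294517) (nat_lit 10) (nat_lit 4) (nat_lit 12) (nat_lit 5) (nat_lit 12) (nat_lit 4) (nat_lit 357) (nat_lit 241) (nat_lit 182)))) (XT.nd (nat_lit 78) (nat_lit 0) (nat_lit 0) (XT.lf (nat_lit 0)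 (nat_lit 1349627226) (nat_lit 228) (nat_lit 20216874189) (nat_lit 76) (nat_lit 8148137777) (nat_lit 9) (nat_lit 5) (nat_lit 12) (nat_lit 5) (nat_lit 10) (nat_lit 4) (nat_lit 358) (nat_lit 241) (nat_lit 181)) (XT.nd (nat_lit 78) (nat_lit 0) (nat_lit 0) (XT.lf (nat_lit 0) (nat_lit 3709217532) (nat_lit 228) (nat_lit 15563597118) (nat_lit 76) (nat_lit 11235436539) (nat_lit 9) (nat_lit 5) (nat_lit 12) (nat_lit 5) (nat_lit 10) (nat_lit 4) (nat_lit 359) (nat_lit 241) (nat_lit 180)) (XT.lf (nat_lit 0) (nat_lit 6116725795) (nat_lit 228) (nat_lit 10809065297) (nat_lit 76) (nat_lit 14400596440) (nat_lit 9) (nat_lit 5) (nat_lit 12) (nat_lit 5) (nat_lit 10) (nat_lit 4) (nat_lit 360) (nat_lit 241) (nat_lit 179))))))))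
noncomputable def xc62 : XT := (XT.nd (nat_lit 1716) (nat_lit 76) (nat_lit 0) (XT.nd (nat_lit 858) (nat_lit 152) (nat_lit 0) (XT.nd (nat_lit 390) (nat_lit 76) (nat_lit 0) (XT.nd (nat_lit 156) (nat_lit 76) (nat_lit 0) (XT.nd (nat_lit 78) (nat_lit 0) (nat_lit 0) (XT.lf (nat_lit 0) (nat_lit 8574255662) (nat_lit 228) (nat_lit 5949124279) (nat_lit 76) (nat_lit 17646383152) (nat_lit 9) (nat_lit 5) (nat_lit 12) (nat_lit 5) (nat_lit 10) (nat_lit 4) (nat_lit 361) (nat_lit 241) (nat_lit 178)) (XT.lf (nat_lit 0) (nat_lit 11083954491) (nat_lit 228) (nat_lit 979527514) (nat_lit 76) (nat_lit 20975632802) (nat_lit 9) (nat_lit 5) (nat_lit 12) (nat_lit 5) (nat_lit 10) (nat_lit 4) (nat_lit 362) (nat_lit 241) (nat_lit 177))) (XT.nd (nat_lit 78) (nat_lit 0) (nat_lit 0) (XT.lf (nat_lit 0) (nat_lit 4185746351) (nat_lit 76) (nat_lit 9502504825) (nat_lit 152) (nat_lit 20245744044) (nat_lit 8) (nat_lit 5) (nat_lit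 9) (nat_lit 5) (nat_lit 10) (nat_lit 4) (nat_lit 363) (nat_lit 241) (nat_lit 176)) (XT.nd (nat_lit 78) (nat_lit 0) (nat_lit 0) (XT.lf (nat_lit 0) (nat_lit 9491312013) (nat_lit 76) (nat_lit 6868602579) (nat_lit 152) (nat_lit 18496156877) (nat_lit 8) (nat_lit 5) (nat_lit 9) (nat_lit 5) (nat_lit 10) (nat_lit 4) (nat_lit 364) (nat_lit 241) (nat_lit 175)) (XT.lf (nat_lit 0) (nat_lit 14922310886) (nat_lit 76) (nat_lit 4169365107) (nat_lit 152) (nat_lit 16714761356) (nat_lit 8) (nat_lit 5) (nat_lit 9) (nat_lit 5) (nat_lit 10) (nat_lit 4) (nat_lit 365) (nat_lit 241) (nat_lit 174))))) (XT.nd (nat_lit 234) (nat_lit 76) (nat_lit 0) (XT.nd (nat_lit 78) (nat_lit 0) (nat_lit 0) (XT.lf (nat_lit 0) (nat_lit 20483488502) (nat_lit 76) (nat_lit 1402433851) (nat_lit 152) (nat_lit 14900000922) (nat_lit 8) (nat_lit 5) (nat_lit 9) (nat_lit 5) (nat_lit 10) (nat_lit 4) (nat_lit 366) (nat_lit 241) (nat_lit 173)) (XT.nd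 (nat_lit 78) (nat_lit 0) (nat_lit 0) (XT.lf (nat_lit 0) (nat_lit 24758885586) (nat_lit 152) (nat_lit 11629471306) (nat_lit 0) (nat_lit 1406614507) (nat_lit 8) (nat_lit 5) (nat_lit 10) (nat_lit 4) (nat_lit 8) (nat_lit 4) (nat_lit 367) (nat_lit 241) (nat_lit 172)) (XT.lf (nat_lit 0) (nat_lit 27713452495) (nat_lit 152) (nat_lit 6861529337) (nat_lit 0) (nat_lit 4259470289) (nat_lit 8) (nat_lit 5) (nat_lit 10) (nat_lit 4) (nat_lit 8) (nat_lit 4) (nat_lit 368) (nat_lit 241) (nat_lit 171)))) (XT.nd (nat_lit 78) (nat_lit 76) (nat_lit 0) (XT.lf (nat_lit 0) (nat_lit 30738723689) (nat_lit 152) (nat_lit 1980961651) (nat_lit 0) (nat_lit 7185992816) (nat_lit 8) (nat_lit 5) (nat_lit 10) (nat_lit 4) (nat_lit 8) (nat_lit 4) (nat_lit 369) (nat_lit 241) (nat_lit 170)) (XT.nd (nat_lit 78) (nat_lit 0) (nat_lit 0) (XT.lf (nat_lit 0) (nat_lit 3076530516) (nat_lit 76) (nat_lit 30790385586) (nat_lit 76) (nat_lit 7141782220)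 (nat_lit 7) (nat_lit 4) (nat_lit 8) (nat_lit 5) (nat_lit 8) (nat_lit 4) (nat_lit 370) (nat_lit 241) (nat_lit 169)) (XT.lf (nat_lit 0) (nat_lit 8297117959) (nat_lit 76) (nat_lit 28794655800) (nat_lit 76) (nat_lit 5052972344) (nat_lit 7) (nat_lit 4) (nat_lit 8) (nat_lit 5) (nat_lit 8) (nat_lit 4) (nat_lit 371) (nat_lit 241) (nat_lit 168)))))) (XT.nd (nat_lit 390) (nat_lit 76) (nat_lit 0) (XT.nd (nat_lit 156) (nat_lit 76) (nat_lit 0) (XT.nd (nat_lit 78) (nat_lit 0) (nat_lit 0) (XT.lf (nat_lit 0) (nat_lit 13645937334) (nat_lit 76) (nat_lit 26750755970) (nat_lit 76) (nat_lit 2918703494) (nat_lit 7) (nat_lit 4) (nat_lit 8) (nat_lit 5) (nat_lit 8) (nat_lit 4) (nat_lit 372) (nat_lit 241) (nat_lit 167)) (XT.lf (nat_lit 0) (nat_lit 19127662367) (nat_lit 76) (nat_lit 24656900164) (nat_lit 76) (nat_lit 737110776) (nat_lit 7) (nat_lit 4) (nat_lit 8) (nat_lit 5) (nat_lit 8) (nat_lit 4) (nat_lit 373) (nat_lit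 241) (nat_lit 166))) (XT.nd (nat_lit 78) (nat_lit 0) (nat_lit 0) (XT.lf (nat_lit 0) (nat_lit 1464564353) (nat_lit 152) (nat_lit 21031905218) (nat_lit 76) (nat_lit 23267729332) (nat_lit 6) (nat_lit 5) (nat_lit 8) (nat_lit 5) (nat_lit 7) (nat_lit 4) (nat_lit 374) (nat_lit 241) (nat_lit 165)) (XT.nd (nat_lit 78) (nat_lit 0) (nat_lit 0) (XT.lf (nat_lit 0) (nat_lit 3702036480) (nat_lit 152) (nat_lit 16572537253) (nat_lit 76) (nat_lit 26769689358) (nat_lit 6) (nat_lit 5) (nat_lit 8) (nat_lit 5) (nat_lit 7) (nat_lit 4) (nat_lit 375) (nat_lit 241) (nat_lit 164)) (XT.lf (nat_lit 0) (nat_lit 5991644364) (nat_lit 152) (nat_lit 12004924953) (nat_lit 76) (nat_lit 30366627626) (nat_lit 6) (nat_lit 5) (nat_lit 8) (nat_lit 5) (nat_lit 7) (nat_lit 4) (nat_lit 376) (nat_lit 241) (nat_lit 163))))) (XT.nd (nat_lit 234) (nat_lit 0) (nat_lit 0) (XT.nd (nat_lit 78) (nat_lit 76) (nat_lit 0) (XT.lf (nat_lit 0) (nat_lit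 8335388632) (nat_lit 152) (nat_lit 7325077199) (nat_lit 76) (nat_lit 34061687094) (nat_lit 6) (nat_lit 5) (nat_lit 8) (nat_lit 5) (nat_lit 7) (nat_lit 4) (nat_lit 377) (nat_lit 241) (nat_lit 162)) (XT.nd (nat_lit 78) (nat_lit 76) (nat_lit 0) (XT.lf (nat_lit 0) (nat_lit 10735317216) (nat_lit 152) (nat_lit 2528904804) (nat_lit 76) (nat_lit 37858096452) (nat_lit 6) (nat_lit 5) (nat_lit 8) (nat_lit 5) (nat_lit 7) (nat_lit 4) (nat_lit 378) (nat_lit 241) (nat_lit 161)) (XT.lf (nat_lit 0) (nat_lit 2435304625) (nat_lit 76) (nat_lit 10781632153) (nat_lit 152) (nat_lit 39347277965) (nat_lit 5) (nat_lit 5) (nat_lit 6) (nat_lit 5) (nat_lit 7) (nat_lit 4) (nat_lit 379) (nat_lit 241) (nat_lit 160)))) (XT.nd (nat_lit 78) (nat_lit 0) (nat_lit 0) (XT.lf (nat_lit 0) (nat_lit 7577139822) (nat_lit 76) (nat_lit 8207862639) (nat_lit 152) (nat_lit 38264021585) (nat_lit 5) (nat_lit 5) (nat_lit 6) (nat_lit 5) (nat_lit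 7) (nat_lit 4) (nat_lit 380) (nat_lit 241) (nat_lit 159)) (XT.nd (nat_lit 78) (nat_lit 0) (nat_lit 0) (XT.lf (nat_lit 0) (nat_lit 12850763487) (nat_lit 76) (nat_lit 5566201532) (nat_lit 152) (nat_lit 37161822561) (nat_lit 5) (nat_lit 5) (nat_lit 6) (nat_lit 5) (nat_lit 7) (nat_lit 4) (nat_lit 381) (nat_lit 241) (nat_lit 158)) (XT.lf (nat_lit 0) (nat_lit 18260783639) (nat_lit 76) (nat_lit 2854340587) (nat_lit 152) (nat_lit 36039717807) (nat_lit 5) (nat_lit 5) (nat_lit 6) (nat_lit 5) (nat_lit 7) (nat_lit 4) (nat_lit 382) (nat_lit 241) (nat_lit 157))))))) (XT.nd (nat_lit 858) (nat_lit 0) (nat_lit 0) (XT.nd (nat_lit 390) (nat_lit 76) (nat_lit 0) (XT.nd (nat_lit 156) (nat_lit 0) (nat_lit 0) (XT.nd (nat_lit 78) (nat_lit 0) (nat_lit 0) (XT.lf (nat_lit 0) (nat_lit 23811927482) (nat_lit 76) (nat_lit 69910214) (nat_lit 152) (nat_lit 34896726843) (nat_lit 5) (nat_lit 5) (nat_lit 6) (nat_lit 5) (nat_lit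 7) (nat_lit 4) (nat_lit 383) (nat_lit 241) (nat_lit 156)) (XT.lf (nat_lit 0) (nat_lit 26746337545) (nat_lit 152) (nat_lit 30969142956) (nat_lit 0) (nat_lit 2735088948) (nat_lit 5) (nat_lit 5) (nat_lit 7) (nat_lit 4) (nat_lit 5) (nat_lit 4) (nat_lit 384) (nat_lit 241) (nat_lit 155))) (XT.nd (nat_lit 78) (nat_lit 0) (nat_lit 0) (XT.lf (nat_lit 0) (nat_lit 29685705711) (nat_lit 152) (nat_lit 26872662110) (nat_lit 0) (nat_lit 5614712546) (nat_lit 5) (nat_lit 5) (nat_lit 7) (nat_lit 4) (nat_lit 5) (nat_lit 4) (nat_lit 385) (nat_lit 241) (nat_lit 154)) (XT.nd (nat_lit 78) (nat_lit 0) (nat_lit 0) (XT.lf (nat_lit 0) (nat_lit 32701838555) (nat_lit 152) (nat_lit 22672943051) (nat_lit 0) (nat_lit 8572840955) (nat_lit 5) (nat_lit 5) (nat_lit 7) (nat_lit 4) (nat_lit 5) (nat_lit 4) (nat_lit 386) (nat_lit 241) (nat_lit 153)) (XT.lf (nat_lit 0) (nat_lit 35797371532) (nat_lit 152) (nat_lit 18366316122) (nat_lit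 0) (nat_lit 11612058946) (nat_lit 5) (nat_lit 5) (nat_lit 7) (nat_lit 4) (nat_lit 5) (nat_lit 4) (nat_lit 387) (nat_lit 241) (nat_lit 152))))) (XT.nd (nat_lit 234) (nat_lit 76) (nat_lit 0) (XT.nd (nat_lit 78) (nat_lit 0) (nat_lit 0) (XT.lf (nat_lit 0) (nat_lit 38975009477) (nat_lit 152) (nat_lit 13949018251) (nat_lit 0) (nat_lit 14735022149) (nat_lit 5) (nat_lit 5) (nat_lit 7) (nat_lit 4) (nat_lit 5) (nat_lit 4) (nat_lit 388) (nat_lit 241) (nat_lit 151)) (XT.nd (nat_lit 78) (nat_lit 0) (nat_lit 0) (XT.lf (nat_lit 0) (nat_lit 42237528967) (nat_lit 152) (nat_lit 9417189663) (nat_lit 0) (nat_lit 17944459364) (nat_lit 5) (nat_lit 5) (nat_lit 7) (nat_lit 4) (nat_lit 5) (nat_lit 4) (nat_lit 389) (nat_lit 241) (nat_lit 150)) (XT.lf (nat_lit 0) (nat_lit 45587780747) (nat_lit 152) (nat_lit 4766870507) (nat_lit 0) (nat_lit 21243174956) (nat_lit 5) (nat_lit 5) (nat_lit 7) (nat_lit 4) (nat_lit 5) (nat_lit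 4) (nat_lit 390) (nat_lit 241) (nat_lit 149)))) (XT.nd (nat_lit 78) (nat_lit 0) (nat_lit 0) (XT.lf (nat_lit 0) (nat_lit 6122064) (nat_lit 76) (nat_lit 49022629007) (nat_lit 76) (nat_lit 24627988080) (nat_lit 4) (nat_lit 4) (nat_lit 5) (nat_lit 5) (nat_lit 5) (nat_lit 4) (nat_lit 391) (nat_lit 241) (nat_lit 148)) (XT.nd (nat_lit 78) (nat_lit 0) (nat_lit 0) (XT.lf (nat_lit 0) (nat_lit 5003231195) (nat_lit 76) (nat_lit 47608132937) (nat_lit 76) (nat_lit 23164914209) (nat_lit 4) (nat_lit 4) (nat_lit 5) (nat_lit 5) (nat_lit 5) (nat_lit 4) (nat_lit 392) (nat_lit 241) (nat_lit 147)) (XT.lf (nat_lit 0) (nat_lit 10133953222) (nat_lit 76) (nat_lit 46158063123) (nat_lit 76) (nat_lit 21667681482) (nat_lit 4) (nat_lit 4) (nat_lit 5) (nat_lit 5) (nat_lit 5) (nat_lit 4) (nat_lit 393) (nat_lit 241) (nat_lit 146)))))) (XT.nd (nat_lit 32994) (nat_lit 0) (nat_lit 5700) (XT.nd (nat_lit 156) (nat_lit 0) (nat_lit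 0) (XT.nd (nat_lit 78) (nat_lit 0) (nat_lit 0) (XT.lf (nat_lit 0) (nat_lit 15402771299) (nat_lit 76) (nat_lit 44671152514) (nat_lit 76) (nat_lit 20134981636) (nat_lit 4) (nat_lit 4) (nat_lit 5) (nat_lit 5) (nat_lit 5) (nat_lit 4) (nat_lit 394) (nat_lit 241) (nat_lit 145)) (XT.lf (nat_lit 0) (nat_lit 20814289248) (nat_lit 76) (nat_lit 43146101867) (nat_lit 76) (nat_lit 18565475420) (nat_lit 4) (nat_lit 4) (nat_lit 5) (nat_lit 5) (nat_lit 5) (nat_lit 4) (nat_lit 395) (nat_lit 241) (nat_lit 144))) (XT.nd (nat_lit 78) (nat_lit 0) (nat_lit 0) (XT.lf (nat_lit 0) (nat_lit 26373235579) (nat_lit 76) (nat_lit 41581578615) (nat_lit 76) (nat_lit 16957791421) (nat_lit 4) (nat_lit 4) (nat_lit 5) (nat_lit 5) (nat_lit 5) (nat_lit 4) (nat_lit 396) (nat_lit 241) (nat_lit 143)) (XT.nd (nat_lit 78) (nat_lit 0) (nat_lit 0) (XT.lf (nat_lit 0) (nat_lit 32084467625) (nat_lit 76) (nat_lit 39976215697) (nat_lit 76)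 (nat_lit 15310524865) (nat_lit 4) (nat_lit 4) (nat_lit 5) (nat_lit 5) (nat_lit 5) (nat_lit 4) (nat_lit 397) (nat_lit 241) (nat_lit 142)) (XT.lf (nat_lit 0) (nat_lit 37952975783) (nat_lit 76) (nat_lit 38328610370) (nat_lit 76) (nat_lit 13622236394) (nat_lit 4) (nat_lit 4) (nat_lit 5) (nat_lit 5) (nat_lit 5) (nat_lit 4) (nat_lit 398) (nat_lit 241) (nat_lit 141))))) (XT.nd (nat_lit 234) (nat_lit 836) (nat_lit 0) (XT.nd (nat_lit 78) (nat_lit 456) (nat_lit 0) (XT.lf (nat_lit 0) (nat_lit 1713389471) (nat_lit 456) (nat_lit 1175265569) (nat_lit 456) (nat_lit 1175265569) (nat_lit 96) (nat_lit 4) (nat_lit 102) (nat_lit 5) (nat_lit 102) (nat_lit 4) (nat_lit 296) (nat_lit 242) (nat_lit 242)) (XT.nd (nat_lit 78) (nat_lit 0) (nat_lit 0) (XT.lf (nat_lit 0) (nat_lit 141547794) (nat_lit 380) (nat_lit 510768915) (nat_lit 456) (nat_lit 7580409824) (nat_lit 90) (nat_lit 5) (nat_lit 95) (nat_lit 5) (nat_lit 96)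 (nat_lit 4) (nat_lit 297) (nat_lit 242) (nat_lit 241)) (XT.lf (nat_lit 0) (nat_lit 3676649475) (nat_lit 456) (nat_lit 3250635364) (nat_lit 0) (nat_lit 1413674729) (nat_lit 90) (nat_lit 5) (nat_lit 96) (nat_lit 4) (nat_lit 90) (nat_lit 4) (nat_lit 298) (nat_lit 242) (nat_lit 240)))) (XT.nd (nat_lit 78) (nat_lit 456) (nat_lit 0) (XT.lf (nat_lit 0) (nat_lit 1665423671) (nat_lit 380) (nat_lit 5067156352) (nat_lit 380) (nat_lit 1721884630) (nat_lit 85) (nat_lit 4) (nat_lit 90) (nat_lit 5) (nat_lit 90) (nat_lit 4) (nat_lit 299) (nat_lit 242) (nat_lit 239)) (XT.nd (nat_lit 78) (nat_lit 380) (nat_lit 0) (XT.lf (nat_lit 0) (nat_lit 1236617732) (nat_lit 456) (nat_lit 1885711487) (nat_lit 76) (nat_lit 5450304604) (nat_lit 84) (nat_lit 5) (nat_lit 90) (nat_lit 5) (nat_lit 85) (nat_lit 4) (nat_lit 300) (nat_lit 242) (nat_lit 238)) (XT.lf (nat_lit 0) (nat_lit 3113260706) (nat_lit 380) (nat_lit 1088451063)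 (nat_lit 456) (nat_lit 4493781290) (nat_lit 79) (nat_lit 5) (nat_lit 84) (nat_lit 5) (nat_lit 85) (nat_lit 4) (nat_lit 301) (nat_lit 242) (nat_lit 237))))))))
noncomputable def xc63 : XT := (XT.nd (nat_lit 1716) (nat_lit 1292) (nat_lit 0) (XT.nd (nat_lit 858) (nat_lit 1444) (nat_lit 0) (XT.nd (nat_lit 390) (nat_lit 912) (nat_lit 0) (XT.nd (nat_lit 156) (nat_lit 684) (nat_lit 0) (XT.nd (nat_lit 78) (nat_lit 456) (nat_lit 0) (XT.lf (nat_lit 0) (nat_lit 7208358949) (nat_lit 456) (nat_lit 627032476) (nat_lit 0) (nat_lit 988291730) (nat_lit 79) (nat_lit 5) (nat_lit 85) (nat_lit 4) (nat_lit 79) (nat_lit 4) (nat_lit 302) (nat_lit 242) (nat_lit 236)) (XT.lf (nat_lit 0) (nat_lit 1302298642) (nat_lit 456) (nat_lit 4509999854) (nat_lit 76) (nat_lit 3143867219) (nat_lit 73) (nat_lit 5) (nat_lit 79) (nat_lit 5) (nat_lit 74) (nat_lit 4) (nat_lit 303) (nat_lit 242) (nat_lit 235))) (XT.nd (nat_lit 78) (nat_lit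 380) (nat_lit 0) (XT.lf (nat_lit 0) (nat_lit 491006019) (nat_lit 304) (nat_lit 3721348067) (nat_lit 380) (nat_lit 4881871919) (nat_lit 69) (nat_lit 5) (nat_lit 73) (nat_lit 5) (nat_lit 74) (nat_lit 4) (nat_lit 304) (nat_lit 242) (nat_lit 234)) (XT.nd (nat_lit 78) (nat_lit 380) (nat_lit 0) (XT.lf (nat_lit 0) (nat_lit 5640918941) (nat_lit 304) (nat_lit 1541838793) (nat_lit 380) (nat_lit 2054677189) (nat_lit 69) (nat_lit 5) (nat_lit 73) (nat_lit 5) (nat_lit 74) (nat_lit 4) (nat_lit 305) (nat_lit 242) (nat_lit 233)) (XT.lf (nat_lit 0) (nat_lit 790422655) (nat_lit 380) (nat_lit 7904621121) (nat_lit 76) (nat_lit 691341362) (nat_lit 64) (nat_lit 5) (nat_lit 69) (nat_lit 5) (nat_lit 65) (nat_lit 4) (nat_lit 306) (nat_lit 242) (nat_lit 232))))) (XT.nd (nat_lit 234) (nat_lit 608) (nat_lit 0) (XT.nd (nat_lit 78) (nat_lit 304) (nat_lit 0) (XT.lf (nat_lit 0) (nat_lit 3661241333) (nat_lit 380) (nat_lit 2882189799)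 (nat_lit 76) (nat_lit 2996493941) (nat_lit 64) (nat_lit 5) (nat_lit 69) (nat_lit 5) (nat_lit 65) (nat_lit 4) (nat_lit 307) (nat_lit 242) (nat_lit 231)) (XT.nd (nat_lit 78) (nat_lit 0) (nat_lit 0) (XT.lf (nat_lit 0) (nat_lit 2243801749) (nat_lit 304) (nat_lit 4327718358) (nat_lit 380) (nat_lit 3128127143) (nat_lit 60) (nat_lit 5) (nat_lit 64) (nat_lit 5) (nat_lit 65) (nat_lit 4) (nat_lit 308) (nat_lit 242) (nat_lit 230)) (XT.lf (nat_lit 0) (nat_lit 7492648892) (nat_lit 304) (nat_lit 2038451740) (nat_lit 380) (nat_lit 334371641) (nat_lit 60) (nat_lit 5) (nat_lit 64) (nat_lit 5) (nat_lit 65) (nat_lit 4) (nat_lit 309) (nat_lit 242) (nat_lit 229)))) (XT.nd (nat_lit 78) (nat_lit 228) (nat_lit 0) (XT.lf (nat_lit 0) (nat_lit 2457920096) (nat_lit 380) (nat_lit 7236127998) (nat_lit 76) (nat_lit 342721202) (nat_lit 55) (nat_lit 5) (nat_lit 60) (nat_lit 5) (nat_lit 56) (nat_lit 4) (nat_lit 310) (nat_lit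 242) (nat_lit 228)) (XT.nd (nat_lit 78) (nat_lit 228) (nat_lit 0) (XT.lf (nat_lit 0) (nat_lit 5306530037) (nat_lit 380) (nat_lit 2148135063) (nat_lit 76) (nat_lit 2759219185) (nat_lit 55) (nat_lit 5) (nat_lit 60) (nat_lit 5) (nat_lit 56) (nat_lit 4) (nat_lit 311) (nat_lit 242) (nat_lit 227)) (XT.lf (nat_lit 0) (nat_lit 3065056895) (nat_lit 228) (nat_lit 5141790211) (nat_lit 304) (nat_lit 2190630066) (nat_lit 52) (nat_lit 5) (nat_lit 55) (nat_lit 5) (nat_lit 56) (nat_lit 4) (nat_lit 312) (nat_lit 242) (nat_lit 226)))))) (XT.nd (nat_lit 390) (nat_lit 760) (nat_lit 0) (XT.nd (nat_lit 156) (nat_lit 304) (nat_lit 0) (XT.nd (nat_lit 78) (nat_lit 304) (nat_lit 0) (XT.lf (nat_lit 0) (nat_lit 554682028) (nat_lit 304) (nat_lit 2201095133) (nat_lit 76) (nat_lit 7832000388) (nat_lit 51) (nat_lit 5) (nat_lit 55) (nat_lit 5) (nat_lit 52) (nat_lit 5) (nat_lit 313) (nat_lit 242) (nat_lit 225)) (XT.lf (nat_lit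 0) (nat_lit 3036498463) (nat_lit 304) (nat_lit 269883962) (nat_lit 380) (nat_lit 7477851099) (nat_lit 47) (nat_lit 5) (nat_lit 51) (nat_lit 5) (nat_lit 52) (nat_lit 5) (nat_lit 314) (nat_lit 242) (nat_lit 224))) (XT.nd (nat_lit 78) (nat_lit 304) (nat_lit 0) (XT.lf (nat_lit 0) (nat_lit 6124705117) (nat_lit 380) (nat_lit 2617920893) (nat_lit 76) (nat_lit 2244570004) (nat_lit 47) (nat_lit 5) (nat_lit 52) (nat_lit 5) (nat_lit 48) (nat_lit 4) (nat_lit 315) (nat_lit 242) (nat_lit 223)) (XT.nd (nat_lit 78) (nat_lit 76) (nat_lit 0) (XT.lf (nat_lit 0) (nat_lit 2630854886) (nat_lit 228) (nat_lit 6366049116) (nat_lit 304) (nat_lit 2200394627) (nat_lit 44) (nat_lit 5) (nat_lit 47) (nat_lit 5) (nat_lit 48) (nat_lit 4) (nat_lit 316) (nat_lit 242) (nat_lit 222)) (XT.lf (nat_lit 0) (nat_lit 499275111) (nat_lit 304) (nat_lit 3411684823) (nat_lit 76) (nat_lit 7503663379) (nat_lit 43) (nat_lit 5) (nat_lit 47)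 (nat_lit 5) (nat_lit 44) (nat_lit 5) (nat_lit 317) (nat_lit 242) (nat_lit 221))))) (XT.nd (nat_lit 234) (nat_lit 304) (nat_lit 0) (XT.nd (nat_lit 78) (nat_lit 228) (nat_lit 0) (XT.lf (nat_lit 0) (nat_lit 1830024906) (nat_lit 228) (nat_lit 1366557975) (nat_lit 304) (nat_lit 8442524987) (nat_lit 40) (nat_lit 5) (nat_lit 43) (nat_lit 5) (nat_lit 44) (nat_lit 5) (nat_lit 318) (nat_lit 242) (nat_lit 220)) (XT.nd (nat_lit 78) (nat_lit 228) (nat_lit 0) (XT.lf (nat_lit 0) (nat_lit 5965575652) (nat_lit 304) (nat_lit 4665136043) (nat_lit 76) (nat_lit 1240008722) (nat_lit 40) (nat_lit 5) (nat_lit 44) (nat_lit 5) (nat_lit 41) (nat_lit 4) (nat_lit 319) (nat_lit 242) (nat_lit 219)) (XT.lf (nat_lit 0) (nat_lit 550370033) (nat_lit 228) (nat_lit 8231639844) (nat_lit 304) (nat_lit 3328453354) (nat_lit 37) (nat_lit 5) (nat_lit 40) (nat_lit 5) (nat_lit 41) (nat_lit 4) (nat_lit 320) (nat_lit 242) (nat_lit 218))))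 (XT.nd (nat_lit 78) (nat_lit 304) (nat_lit 0) (XT.lf (nat_lit 0) (nat_lit 5938787340) (nat_lit 228) (nat_lit 5737634143) (nat_lit 304) (nat_lit 681282063) (nat_lit 37) (nat_lit 5) (nat_lit 40) (nat_lit 5) (nat_lit 41) (nat_lit 4) (nat_lit 321) (nat_lit 242) (nat_lit 217)) (XT.nd (nat_lit 78) (nat_lit 228) (nat_lit 0) (XT.lf (nat_lit 0) (nat_lit 1952710670) (nat_lit 304) (nat_lit 1221194872) (nat_lit 76) (nat_lit 9439549627) (nat_lit 36) (nat_lit 5) (nat_lit 40) (nat_lit 5) (nat_lit 37) (nat_lit 5) (nat_lit 322) (nat_lit 242) (nat_lit 216)) (XT.lf (nat_lit 0) (nat_lit 4130557261) (nat_lit 228) (nat_lit 510030274) (nat_lit 304) (nat_lit 8236533156) (nat_lit 33) (nat_lit 5) (nat_lit 36) (nat_lit 5) (nat_lit 37) (nat_lit 5) (nat_lit 323) (nat_lit 242) (nat_lit 215))))))) (XT.nd (nat_lit 858) (nat_lit 456) (nat_lit 0) (XT.nd (nat_lit 390) (nat_lit 380) (nat_lit 0) (XT.nd (nat_lit 156) (nat_lit 304)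 (nat_lit 0) (XT.nd (nat_lit 78) (nat_lit 152) (nat_lit 0) (XT.lf (nat_lit 0) (nat_lit 7392410604) (nat_lit 304) (nat_lit 3578412228) (nat_lit 76) (nat_lit 2178471558) (nat_lit 33) (nat_lit 5) (nat_lit 37) (nat_lit 5) (nat_lit 34) (nat_lit 4) (nat_lit 324) (nat_lit 242) (nat_lit 214)) (XT.lf (nat_lit 0) (nat_lit 1698719827) (nat_lit 152) (nat_lit 8500305581) (nat_lit 228) (nat_lit 3231535449) (nat_lit 31) (nat_lit 5) (nat_lit 33) (nat_lit 5) (nat_lit 34) (nat_lit 4) (nat_lit 325) (nat_lit 242) (nat_lit 213))) (XT.nd (nat_lit 78) (nat_lit 304) (nat_lit 0) (XT.lf (nat_lit 0) (nat_lit 7134084846) (nat_lit 152) (nat_lit 5943472279) (nat_lit 228) (nat_lit 643168550) (nat_lit 31) (nat_lit 5) (nat_lit 33) (nat_lit 5) (nat_lit 34) (nat_lit 4) (nat_lit 326) (nat_lit 242) (nat_lit 212)) (XT.nd (nat_lit 78) (nat_lit 228) (nat_lit 0) (XT.lf (nat_lit 0) (nat_lit 1935817085) (nat_lit 228) (nat_lit 1378858705)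 (nat_lit 76) (nat_lit 10705849713) (nat_lit 30) (nat_lit 5) (nat_lit 33) (nat_lit 5) (nat_lit 31) (nat_lit 5) (nat_lit 327) (nat_lit 242) (nat_lit 211)) (XT.lf (nat_lit 0) (nat_lit 3986354471) (nat_lit 228) (nat_lit 585036073) (nat_lit 304) (nat_lit 9758057495) (nat_lit 27) (nat_lit 5) (nat_lit 30) (nat_lit 5) (nat_lit 31) (nat_lit 5) (nat_lit 328) (nat_lit 242) (nat_lit 210))))) (XT.nd (nat_lit 234) (nat_lit 228) (nat_lit 0) (XT.nd (nat_lit 78) (nat_lit 152) (nat_lit 0) (XT.lf (nat_lit 0) (nat_lit 7275766689) (nat_lit 304) (nat_lit 5198721129) (nat_lit 76) (nat_lit 2173540030) (nat_lit 27) (nat_lit 5) (nat_lit 31) (nat_lit 5) (nat_lit 28) (nat_lit 4) (nat_lit 329) (nat_lit 242) (nat_lit 209)) (XT.nd (nat_lit 78) (nat_lit 0) (nat_lit 0) (XT.lf (nat_lit 0) (nat_lit 26008621) (nat_lit 152) (nat_lit 9996911285) (nat_lit 228) (nat_lit 4954475055) (nat_lit 25) (nat_lit 5) (nat_lit 27) (nat_lit 5)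 (nat_lit 28) (nat_lit 4) (nat_lit 330) (nat_lit 242) (nat_lit 208)) (XT.lf (nat_lit 0) (nat_lit 5446033423) (nat_lit 152) (nat_lit 7415193828) (nat_lit 228) (nat_lit 2455230625) (nat_lit 25) (nat_lit 5) (nat_lit 27) (nat_lit 5) (nat_lit 28) (nat_lit 4) (nat_lit 331) (nat_lit 242) (nat_lit 207)))) (XT.nd (nat_lit 78) (nat_lit 152) (nat_lit 0) (XT.lf (nat_lit 0) (nat_lit 73692422) (nat_lit 228) (nat_lit 4705139895) (nat_lit 76) (nat_lit 10888187905) (nat_lit 24) (nat_lit 5) (nat_lit 27) (nat_lit 5) (nat_lit 25) (nat_lit 5) (nat_lit 332) (nat_lit 242) (nat_lit 206)) (XT.nd (nat_lit 78) (nat_lit 0) (nat_lit 0) (XT.lf (nat_lit 0) (nat_lit 536246069) (nat_lit 152) (nat_lit 2056319095) (nat_lit 228) (nat_lit 13435972550) (nat_lit 22) (nat_lit 5) (nat_lit 24) (nat_lit 5) (nat_lit 25) (nat_lit 5) (nat_lit 333) (nat_lit 242) (nat_lit 205)) (XT.lf (nat_lit 0) (nat_lit 5200824186) (nat_lit 228) (nat_lit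 10441263813) (nat_lit 76) (nat_lit 758466519) (nat_lit 22) (nat_lit 5) (nat_lit 25) (nat_lit 5) (nat_lit 23) (nat_lit 4) (nat_lit 334) (nat_lit 242) (nat_lit 204)))))) (XT.nd (nat_lit 468) (nat_lit 76) (nat_lit 0) (XT.nd (nat_lit 234) (nat_lit 228) (nat_lit 0) (XT.nd (nat_lit 78) (nat_lit 152) (nat_lit 0) (XT.lf (nat_lit 0) (nat_lit 7867543010) (nat_lit 228) (nat_lit 5322611757) (nat_lit 76) (nat_lit 3594237097) (nat_lit 22) (nat_lit 5) (nat_lit 25) (nat_lit 5) (nat_lit 23) (nat_lit 4) (nat_lit 335) (nat_lit 242) (nat_lit 203)) (XT.nd (nat_lit 78) (nat_lit 152) (nat_lit 0) (XT.lf (nat_lit 0) (nat_lit 10575285181) (nat_lit 228) (nat_lit 112096273) (nat_lit 76) (nat_lit 6493596687) (nat_lit 22) (nat_lit 5) (nat_lit 25) (nat_lit 5) (nat_lit 23) (nat_lit 4) (nat_lit 336) (nat_lit 242) (nat_lit 202)) (XT.lf (nat_lit 0) (nat_lit 5298222929) (nat_lit 152) (nat_lit 8079123517) (nat_lit 228) (nat_lit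 4211785542) (nat_lit 20) (nat_lit 5) (nat_lit 22) (nat_lit 5) (nat_lit 23) (nat_lit 4) (nat_lit 337) (nat_lit 242) (nat_lit 201)))) (XT.nd (nat_lit 78) (nat_lit 228) (nat_lit 0) (XT.lf (nat_lit 0) (nat_lit 10813837660) (nat_lit 152) (nat_lit 5413452992) (nat_lit 228) (nat_lit 1783385930) (nat_lit 20) (nat_lit 5) (nat_lit 22) (nat_lit 5) (nat_lit 23) (nat_lit 4) (nat_lit 338) (nat_lit 242) (nat_lit 200)) (XT.nd (nat_lit 78) (nat_lit 152) (nat_lit 0) (XT.lf (nat_lit 0) (nat_lit 667216899) (nat_lit 228) (nat_lit 2015218123) (nat_lit 76) (nat_lit 15763381971) (nat_lit 19) (nat_lit 5) (nat_lit 22) (nat_lit 5) (nat_lit 20) (nat_lit 5) (nat_lit 339) (nat_lit 242) (nat_lit 199)) (XT.lf (nat_lit 0) (nat_lit 3153300396) (nat_lit 228) (nat_lit 15583036046) (nat_lit 76) (nat_lit 157266857) (nat_lit 17) (nat_lit 5) (nat_lit 20) (nat_lit 5) (nat_lit 18) (nat_lit 4) (nat_lit 340) (nat_lit 242) (nat_lit 198)))))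 (XT.nd (nat_lit 234) (nat_lit 76) (nat_lit 0) (XT.nd (nat_lit 78) (nat_lit 0) (nat_lit 0) (XT.lf (nat_lit 0) (nat_lit 5725797444) (nat_lit 228) (nat_lit 10600555973) (nat_lit 76) (nat_lit 3028168833) (nat_lit 17) (nat_lit 5) (nat_lit 20) (nat_lit 5) (nat_lit 18) (nat_lit 4) (nat_lit 341) (nat_lit 242) (nat_lit 197)) (XT.nd (nat_lit 78) (nat_lit 0) (nat_lit 0) (XT.lf (nat_lit 0) (nat_lit 8341217995) (nat_lit 228) (nat_lit 5523959958) (nat_lit 76) (nat_lit 5965170775) (nat_lit 17) (nat_lit 5) (nat_lit 20) (nat_lit 5) (nat_lit 18) (nat_lit 4) (nat_lit 342) (nat_lit 242) (nat_lit 196)) (XT.lf (nat_lit 0) (nat_lit 11001847368) (nat_lit 228) (nat_lit 348812140) (nat_lit 76) (nat_lit 8970838996) (nat_lit 17) (nat_lit 5) (nat_lit 20) (nat_lit 5) (nat_lit 18) (nat_lit 4) (nat_lit 343) (nat_lit 242) (nat_lit 195)))) (XT.nd (nat_lit 78) (nat_lit 0) (nat_lit 0) (XT.lf (nat_lit 0) (nat_lit 5027514368) (nat_lit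 76) (nat_lit 8730823560) (nat_lit 152) (nat_lit 7068612982) (nat_lit 16) (nat_lit 5) (nat_lit 17) (nat_lit 5) (nat_lit 18) (nat_lit 4) (nat_lit 344) (nat_lit 242) (nat_lit 194)) (XT.nd (nat_lit 78) (nat_lit 0) (nat_lit 0) (XT.lf (nat_lit 0) (nat_lit 10520611895) (nat_lit 76) (nat_lit 6048592063) (nat_lit 152) (nat_lit 4779260475) (nat_lit 16) (nat_lit 5) (nat_lit 17) (nat_lit 5) (nat_lit 18) (nat_lit 4) (nat_lit 345) (nat_lit 242) (nat_lit 193)) (XT.lf (nat_lit 0) (nat_lit 16128338191) (nat_lit 76) (nat_lit 3305143637) (nat_lit 152) (nat_lit 2453115529) (nat_lit 16) (nat_lit 5) (nat_lit 17) (nat_lit 5) (nat_lit 18) (nat_lit 4) (nat_lit 346) (nat_lit 242) (nat_lit 192))))))))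
noncomputable def xc64 : XT := (XT.nd (nat_lit 1716) (nat_lit 228) (nat_lit 0) (XT.nd (nat_lit 858) (nat_lit 152) (nat_lit 0) (XT.nd (nat_lit 390) (nat_lit 228) (nat_lit 0) (XT.nd (nat_lit 156) (nat_lit 0) (nat_lit 0) (XT.nd (nat_lit 78) (nat_lit 228) (nat_lit 0) (XT.lf (nat_lit 0) (nat_lit 21855593209) (nat_lit 76) (nat_lit 498081096) (nat_lit 152) (nat_lit 88145591) (nat_lit 16) (nat_lit 5) (nat_lit 17) (nat_lit 5) (nat_lit 18) (nat_lit 4) (nat_lit 347) (nat_lit 242) (nat_lit 191)) (XT.lf (nat_lit 0) (nat_lit 2341782263) (nat_lit 228) (nat_lit 18272642848) (nat_lit 76) (nat_lit 2397444900) (nat_lit 13) (nat_lit 5) (nat_lit 16) (nat_lit 5) (nat_lit 14) (nat_lit 4) (nat_lit 348) (nat_lit 242) (nat_lit 190))) (XT.nd (nat_lit 78) (nat_lit 0) (nat_lit 0) (XT.lf (nat_lit 0) (nat_lit 4824500756) (nat_lit 228) (nat_lit 13416425917) (nat_lit 76) (nat_lit 5358660220) (nat_lit 13) (nat_lit 5) (nat_lit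 16) (nat_lit 5) (nat_lit 14) (nat_lit 4) (nat_lit 349) (nat_lit 242) (nat_lit 189)) (XT.nd (nat_lit 78) (nat_lit 0) (nat_lit 0) (XT.lf (nat_lit 0) (nat_lit 7353307205) (nat_lit 228) (nat_lit 8461299903) (nat_lit 76) (nat_lit 8391220153) (nat_lit 13) (nat_lit 5) (nat_lit 16) (nat_lit 5) (nat_lit 14) (nat_lit 4) (nat_lit 350) (nat_lit 242) (nat_lit 188)) (XT.lf (nat_lit 0) (nat_lit 9930411248) (nat_lit 228) (nat_lit 3402935084) (nat_lit 76) (nat_lit 11497774510) (nat_lit 13) (nat_lit 5) (nat_lit 16) (nat_lit 5) (nat_lit 14) (nat_lit 4) (nat_lit 351) (nat_lit 242) (nat_lit 187))))) (XT.nd (nat_lit 234) (nat_lit 152) (nat_lit 0) (XT.nd (nat_lit 78) (nat_lit 0) (nat_lit 0) (XT.lf (nat_lit 0) (nat_lit 1798177389) (nat_lit 76) (nat_lit 10777172513) (nat_lit 152) (nat_lit 12900145548) (nat_lit 12) (nat_lit 5) (nat_lit 13) (nat_lit 5) (nat_lit 14) (nat_lit 4) (nat_lit 352) (nat_lit 242) (nat_lit 186))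 (XT.nd (nat_lit 78) (nat_lit 0) (nat_lit 0) (XT.lf (nat_lit 0) (nat_lit 7181420137) (nat_lit 76) (nat_lit 8126175701) (nat_lit 152) (nat_lit 10831403449) (nat_lit 12) (nat_lit 5) (nat_lit 13) (nat_lit 5) (nat_lit 14) (nat_lit 4) (nat_lit 353) (nat_lit 242) (nat_lit 185)) (XT.lf (nat_lit 0) (nat_lit 12683771884) (nat_lit 76) (nat_lit 5412402461) (nat_lit 152) (nat_lit 8727038630) (nat_lit 12) (nat_lit 5) (nat_lit 13) (nat_lit 5) (nat_lit 14) (nat_lit 4) (nat_lit 354) (nat_lit 242) (nat_lit 184)))) (XT.nd (nat_lit 78) (nat_lit 152) (nat_lit 0) (XT.lf (nat_lit 0) (nat_lit 18310040511) (nat_lit 76) (nat_lit 2633481535) (nat_lit 152) (nat_lit 6585212326) (nat_lit 12) (nat_lit 5) (nat_lit 13) (nat_lit 5) (nat_lit 14) (nat_lit 4) (nat_lit 355) (nat_lit 242) (nat_lit 183)) (XT.nd (nat_lit 78) (nat_lit 152) (nat_lit 0) (XT.lf (nat_lit 0) (nat_lit 23854174547) (nat_lit 152) (nat_lit 4193085412) (nat_lit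 0) (nat_lit 208858563) (nat_lit 12) (nat_lit 5) (nat_lit 14) (nat_lit 4) (nat_lit 12) (nat_lit 4) (nat_lit 356) (nat_lit 242) (nat_lit 182)) (XT.lf (nat_lit 0) (nat_lit 936103614) (nat_lit 152) (nat_lit 25927508626) (nat_lit 152) (nat_lit 2141400654) (nat_lit 10) (nat_lit 4) (nat_lit 12) (nat_lit 5) (nat_lit 12) (nat_lit 4) (nat_lit 357) (nat_lit 242) (nat_lit 181)))))) (XT.nd (nat_lit 390) (nat_lit 76) (nat_lit 0) (XT.nd (nat_lit 156) (nat_lit 0) (nat_lit 0) (XT.nd (nat_lit 78) (nat_lit 0) (nat_lit 0) (XT.lf (nat_lit 0) (nat_lit 202516047) (nat_lit 228) (nat_lit 23511691645) (nat_lit 76) (nat_lit 6061567119) (nat_lit 9) (nat_lit 5) (nat_lit 12) (nat_lit 5) (nat_lit 10) (nat_lit 4) (nat_lit 358) (nat_lit 242) (nat_lit 180)) (XT.lf (nat_lit 0) (nat_lit 2550840465) (nat_lit 228) (nat_lit 18877303028) (nat_lit 76) (nat_lit 9141596016) (nat_lit 9) (nat_lit 5) (nat_lit 12) (nat_lit 5) (nat_lit 10)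 (nat_lit 4) (nat_lit 359) (nat_lit 242) (nat_lit 179))) (XT.nd (nat_lit 78) (nat_lit 0) (nat_lit 0) (XT.lf (nat_lit 0) (nat_lit 4947410973) (nat_lit 228) (nat_lit 14141109510) (nat_lit 76) (nat_lit 12299697796) (nat_lit 9) (nat_lit 5) (nat_lit 12) (nat_lit 5) (nat_lit 10) (nat_lit 4) (nat_lit 360) (nat_lit 242) (nat_lit 178)) (XT.nd (nat_lit 78) (nat_lit 0) (nat_lit 0) (XT.lf (nat_lit 0) (nat_lit 7394321660) (nat_lit 228) (nat_lit 9298972672) (nat_lit 76) (nat_lit 15538631965) (nat_lit 9) (nat_lit 5) (nat_lit 12) (nat_lit 5) (nat_lit 10) (nat_lit 4) (nat_lit 361) (nat_lit 242) (nat_lit 177)) (XT.lf (nat_lit 0) (nat_lit 9893710606) (nat_lit 228) (nat_lit 4346661518) (nat_lit 76) (nat_lit 18861228658) (nat_lit 9) (nat_lit 5) (nat_lit 12) (nat_lit 5) (nat_lit 10) (nat_lit 4) (nat_lit 362) (nat_lit 242) (nat_lit 176))))) (XT.nd (nat_lit 234) (nat_lit 0) (nat_lit 0) (XT.nd (nat_lit 78) (nat_lit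 0) (nat_lit 0) (XT.lf (nat_lit 0) (nat_lit 734483634) (nat_lit 76) (nat_lit 11720338413) (nat_lit 152) (nat_lit 21542967789) (nat_lit 8) (nat_lit 5) (nat_lit 9) (nat_lit 5) (nat_lit 10) (nat_lit 4) (nat_lit 363) (nat_lit 242) (nat_lit 175)) (XT.nd (nat_lit 78) (nat_lit 0) (nat_lit 0) (XT.lf (nat_lit 0) (nat_lit 6023431681) (nat_lit 76) (nat_lit 9093175990) (nat_lit 152) (nat_lit 19803567450) (nat_lit 8) (nat_lit 5) (nat_lit 9) (nat_lit 5) (nat_lit 10) (nat_lit 4) (nat_lit 364) (nat_lit 242) (nat_lit 174)) (XT.lf (nat_lit 0) (nat_lit 11438296946) (nat_lit 76) (nat_lit 6400482035) (nat_lit 152) (nat_lit 18032062054) (nat_lit 8) (nat_lit 5) (nat_lit 9) (nat_lit 5) (nat_lit 10) (nat_lit 4) (nat_lit 365) (nat_lit 242) (nat_lit 173)))) (XT.nd (nat_lit 78) (nat_lit 0) (nat_lit 0) (XT.lf (nat_lit 0) (nat_lit 16983810865) (nat_lit 76) (nat_lit 3639903709) (nat_lit 152) (nat_lit 16226903683) (nat_lit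 8) (nat_lit 5) (nat_lit 9) (nat_lit 5) (nat_lit 10) (nat_lit 4) (nat_lit 366) (nat_lit 242) (nat_lit 172)) (XT.nd (nat_lit 78) (nat_lit 0) (nat_lit 0) (XT.lf (nat_lit 0) (nat_lit 22664819033) (nat_lit 76) (nat_lit 809028856) (nat_lit 152) (nat_lit 14386515014) (nat_lit 8) (nat_lit 5) (nat_lit 9) (nat_lit 5) (nat_lit 10) (nat_lit 4) (nat_lit 367) (nat_lit 242) (nat_lit 171)) (XT.lf (nat_lit 0) (nat_lit 26411804066) (nat_lit 152) (nat_lit 10434806569) (nat_lit 0) (nat_lit 2053742598) (nat_lit 8) (nat_lit 5) (nat_lit 10) (nat_lit 4) (nat_lit 8) (nat_lit 4) (nat_lit 368) (nat_lit 242) (nat_lit 170))))))) (XT.nd (nat_lit 858) (nat_lit 76) (nat_lit 0) (XT.nd (nat_lit 390) (nat_lit 76) (nat_lit 0) (XT.nd (nat_lit 156) (nat_lit 76) (nat_lit 0) (XT.nd (nat_lit 78) (nat_lit 0) (nat_lit 0) (XT.lf (nat_lit 0) (nat_lit 29428498703) (nat_lit 152) (nat_lit 5568784075) (nat_lit 0) (nat_lit 4974564743) (nat_lit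 8) (nat_lit 5) (nat_lit 10) (nat_lit 4) (nat_lit 8) (nat_lit 4) (nat_lit 369) (nat_lit 242) (nat_lit 169)) (XT.lf (nat_lit 0) (nat_lit 32518790869) (nat_lit 152) (nat_lit 585447644) (nat_lit 0) (nat_lit 7971776819) (nat_lit 8) (nat_lit 5) (nat_lit 10) (nat_lit 4) (nat_lit 8) (nat_lit 4) (nat_lit 370) (nat_lit 242) (nat_lit 168))) (XT.nd (nat_lit 78) (nat_lit 0) (nat_lit 0) (XT.lf (nat_lit 0) (nat_lit 4609505143) (nat_lit 76) (nat_lit 31120185059) (nat_lit 76) (nat_lit 6482801989) (nat_lit 7) (nat_lit 4) (nat_lit 8) (nat_lit 5) (nat_lit 8) (nat_lit 4) (nat_lit 371) (nat_lit 242) (nat_lit 167)) (XT.nd (nat_lit 78) (nat_lit 0) (nat_lit 0) (XT.lf (nat_lit 0) (nat_lit 9944748693) (nat_lit 76) (nat_lit 29081881790) (nat_lit 76) (nat_lit 4356761808) (nat_lit 7) (nat_lit 4) (nat_lit 8) (nat_lit 5) (nat_lit 8) (nat_lit 4) (nat_lit 372) (nat_lit 242) (nat_lit 166)) (XT.lf (nat_lit 0) (nat_lit 15413293314)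 (nat_lit 76) (nat_lit 26993459538) (nat_lit 76) (nat_lit 2183158089) (nat_lit 7) (nat_lit 4) (nat_lit 8) (nat_lit 5) (nat_lit 8) (nat_lit 4) (nat_lit 373) (nat_lit 242) (nat_lit 165))))) (XT.nd (nat_lit 234) (nat_lit 0) (nat_lit 0) (XT.nd (nat_lit 78) (nat_lit 0) (nat_lit 0) (XT.lf (nat_lit 0) (nat_lit 39129676) (nat_lit 152) (nat_lit 24813568659) (nat_lit 76) (nat_lit 20980392534) (nat_lit 6) (nat_lit 5) (nat_lit 8) (nat_lit 5) (nat_lit 7) (nat_lit 4) (nat_lit 374) (nat_lit 242) (nat_lit 164)) (XT.nd (nat_lit 78) (nat_lit 0) (nat_lit 0) (XT.lf (nat_lit 0) (nat_lit 2269218352) (nat_lit 152) (nat_lit 20366780351) (nat_lit 76) (nat_lit 24477386768) (nat_lit 6) (nat_lit 5) (nat_lit 8) (nat_lit 5) (nat_lit 7) (nat_lit 4) (nat_lit 375) (nat_lit 242) (nat_lit 163)) (XT.lf (nat_lit 0) (nat_lit 4551657835) (nat_lit 152) (nat_lit 15811381310) (nat_lit 76) (nat_lit 28069503879) (nat_lit 6) (nat_lit 5)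 (nat_lit 8) (nat_lit 5) (nat_lit 7) (nat_lit 4) (nat_lit 376) (nat_lit 242) (nat_lit 162)))) (XT.nd (nat_lit 78) (nat_lit 0) (nat_lit 0) (XT.lf (nat_lit 0) (nat_lit 6888442491) (nat_lit 152) (nat_lit 11143391089) (nat_lit 76) (nat_lit 31759882611) (nat_lit 6) (nat_lit 5) (nat_lit 8) (nat_lit 5) (nat_lit 7) (nat_lit 4) (nat_lit 377) (nat_lit 242) (nat_lit 161)) (XT.nd (nat_lit 78) (nat_lit 0) (nat_lit 0) (XT.lf (nat_lit 0) (nat_lit 9281614171) (nat_lit 152) (nat_lit 6358730862) (nat_lit 76) (nat_lit 35551747567) (nat_lit 6) (nat_lit 5) (nat_lit 8) (nat_lit 5) (nat_lit 7) (nat_lit 4) (nat_lit 378) (nat_lit 242) (nat_lit 160)) (XT.lf (nat_lit 0) (nat_lit 11733263995) (nat_lit 152) (nat_lit 1453219858) (nat_lit 76) (nat_lit 39448412026) (nat_lit 6) (nat_lit 5) (nat_lit 8) (nat_lit 5) (nat_lit 7) (nat_lit 4) (nat_lit 379) (nat_lit 242) (nat_lit 159)))))) (XT.nd (nat_lit 390) (nat_lit 0) (nat_lit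 0) (XT.nd (nat_lit 156) (nat_lit 0) (nat_lit 0) (XT.nd (nat_lit 78) (nat_lit 0) (nat_lit 0) (XT.lf (nat_lit 0) (nat_lit 3648626128) (nat_lit 76) (nat_lit 10631980879) (nat_lit 152) (nat_lit 39839727539) (nat_lit 5) (nat_lit 5) (nat_lit 6) (nat_lit 5) (nat_lit 7) (nat_lit 4) (nat_lit 380) (nat_lit 242) (nat_lit 158)) (XT.lf (nat_lit 0) (nat_lit 8911504856) (nat_lit 76) (nat_lit 7994777897) (nat_lit 152) (nat_lit 38744011392) (nat_lit 5) (nat_lit 5) (nat_lit 6) (nat_lit 5) (nat_lit 7) (nat_lit 4) (nat_lit 381) (nat_lit 242) (nat_lit 157))) (XT.nd (nat_lit 78) (nat_lit 0) (nat_lit 0) (XT.lf (nat_lit 0) (nat_lit 14311093031) (nat_lit 76) (nat_lit 5287245228) (nat_lit 152) (nat_lit 37628200694) (nat_lit 5) (nat_lit 5) (nat_lit 6) (nat_lit 5) (nat_lit 7) (nat_lit 4) (nat_lit 382) (nat_lit 242) (nat_lit 156)) (XT.nd (nat_lit 78) (nat_lit 0) (nat_lit 0) (XT.lf (nat_lit 0) (nat_lit 19852108740) (nat_lit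 76) (nat_lit 2507017066) (nat_lit 152) (nat_lit 36491320463) (nat_lit 5) (nat_lit 5) (nat_lit 6) (nat_lit 5) (nat_lit 7) (nat_lit 4) (nat_lit 383) (nat_lit 242) (nat_lit 155)) (XT.lf (nat_lit 0) (nat_lit 25194406153) (nat_lit 152) (nat_lit 34987389815) (nat_lit 0) (nat_lit 341538625) (nat_lit 5) (nat_lit 5) (nat_lit 7) (nat_lit 4) (nat_lit 5) (nat_lit 4) (nat_lit 384) (nat_lit 242) (nat_lit 154))))) (XT.nd (nat_lit 234) (nat_lit 0) (nat_lit 0) (XT.nd (nat_lit 78) (nat_lit 0) (nat_lit 0) (XT.lf (nat_lit 0) (nat_lit 28128150492) (nat_lit 152) (nat_lit 30900591833) (nat_lit 0) (nat_lit 3217278529) (nat_lit 5) (nat_lit 5) (nat_lit 7) (nat_lit 4) (nat_lit 5) (nat_lit 4) (nat_lit 385) (nat_lit 242) (nat_lit 153)) (XT.nd (nat_lit 78) (nat_lit 0) (nat_lit 0) (XT.lf (nat_lit 0) (nat_lit 31138823310) (nat_lit 152) (nat_lit 26710273612) (nat_lit 0) (nat_lit 6171636362) (nat_lit 5) (nat_lit 5) (nat_lit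 7) (nat_lit 4) (nat_lit 5) (nat_lit 4) (nat_lit 386) (nat_lit 242) (nat_lit 152)) (XT.lf (nat_lit 0) (nat_lit 34229055292) (nat_lit 152) (nat_lit 22412773711) (nat_lit 0) (nat_lit 9207193601) (nat_lit 5) (nat_lit 5) (nat_lit 7) (nat_lit 4) (nat_lit 5) (nat_lit 4) (nat_lit 387) (nat_lit 242) (nat_lit 151)))) (XT.nd (nat_lit 78) (nat_lit 0) (nat_lit 0) (XT.lf (nat_lit 0) (nat_lit 37401546639) (nat_lit 152) (nat_lit 18004337031) (nat_lit 0) (nat_lit 12326602673) (nat_lit 5) (nat_lit 5) (nat_lit 7) (nat_lit 4) (nat_lit 5) (nat_lit 4) (nat_lit 388) (nat_lit 242) (nat_lit 150)) (XT.nd (nat_lit 78) (nat_lit 0) (nat_lit 0) (XT.lf (nat_lit 0) (nat_lit 40659069432) (nat_lit 152) (nat_lit 13481111541) (nat_lit 0) (nat_lit 15532589278) (nat_lit 5) (nat_lit 5) (nat_lit 7) (nat_lit 4) (nat_lit 5) (nat_lit 4) (nat_lit 389) (nat_lit 242) (nat_lit 149)) (XT.lf (nat_lit 0) (nat_lit 44004470051) (nat_lit 152)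 (nat_lit 8839144909) (nat_lit 0) (nat_lit 18827954761) (nat_lit 5) (nat_lit 5) (nat_lit 7) (nat_lit 4) (nat_lit 5) (nat_lit 4) (nat_lit 390) (nat_lit 242) (nat_lit 148))))))))
noncomputable def xc65 : XT := (XT.nd (nat_lit 34164) (nat_lit 0) (nat_lit 1748) (XT.nd (nat_lit 33306) (nat_lit 0) (nat_lit 4560) (XT.nd (nat_lit 390) (nat_lit 0) (nat_lit 0) (XT.nd (nat_lit 156) (nat_lit 0) (nat_lit 0) (XT.nd (nat_lit 78) (nat_lit 76) (nat_lit 0) (XT.lf (nat_lit 0) (nat_lit 47440671660) (nat_lit 152) (nat_lit 4074381046) (nat_lit 0) (nat_lit 22215578570) (nat_lit 5) (nat_lit 5) (nat_lit 7) (nat_lit 4) (nat_lit 5) (nat_lit 4) (nat_lit 391) (nat_lit 242) (nat_lit 147)) (XT.lf (nat_lit 0) (nat_lit 833610170) (nat_lit 76) (nat_lit 50145079767) (nat_lit 76) (nat_lit 24872823763) (nat_lit 4) (nat_lit 4) (nat_lit 5) (nat_lit 5) (nat_lit 5) (nat_lit 4) (nat_lit 392) (nat_lit 242) (nat_lit 146))) (XT.nd (nat_lit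 78) (nat_lit 0) (nat_lit 0) (XT.lf (nat_lit 0) (nat_lit 5956536329) (nat_lit 76) (nat_lit 48698291381) (nat_lit 76) (nat_lit 23380246141) (nat_lit 4) (nat_lit 4) (nat_lit 5) (nat_lit 5) (nat_lit 5) (nat_lit 4) (nat_lit 393) (nat_lit 242) (nat_lit 145)) (XT.nd (nat_lit 78) (nat_lit 0) (nat_lit 0) (XT.lf (nat_lit 0) (nat_lit 11217785603) (nat_lit 76) (nat_lit 47214566625) (nat_lit 76) (nat_lit 21852065815) (nat_lit 4) (nat_lit 4) (nat_lit 5) (nat_lit 5) (nat_lit 5) (nat_lit 4) (nat_lit 394) (nat_lit 242) (nat_lit 144)) (XT.lf (nat_lit 0) (nat_lit 16621955199) (nat_lit 76) (nat_lit 45692609039) (nat_lit 76) (nat_lit 20286947482) (nat_lit 4) (nat_lit 4) (nat_lit 5) (nat_lit 5) (nat_lit 5) (nat_lit 4) (nat_lit 395) (nat_lit 242) (nat_lit 143))))) (XT.nd (nat_lit 32682) (nat_lit 0) (nat_lit 6992) (XT.nd (nat_lit 78) (nat_lit 0) (nat_lit 0) (XT.lf (nat_lit 0) (nat_lit 22173767208) (nat_lit 76) (nat_lit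 44131088758) (nat_lit 76) (nat_lit 18683523563) (nat_lit 4) (nat_lit 4) (nat_lit 5) (nat_lit 5) (nat_lit 5) (nat_lit 4) (nat_lit 396) (nat_lit 242) (nat_lit 142)) (XT.nd (nat_lit 78) (nat_lit 0) (nat_lit 0) (XT.lf (nat_lit 0) (nat_lit 27878072727) (nat_lit 76) (nat_lit 42528641346) (nat_lit 76) (nat_lit 17040393008) (nat_lit 4) (nat_lit 4) (nat_lit 5) (nat_lit 5) (nat_lit 5) (nat_lit 4) (nat_lit 397) (nat_lit 242) (nat_lit 141)) (XT.lf (nat_lit 0) (nat_lit 33739856101) (nat_lit 76) (nat_lit 40883866608) (nat_lit 76) (nat_lit 15356120072) (nat_lit 4) (nat_lit 4) (nat_lit 5) (nat_lit 5) (nat_lit 5) (nat_lit 4) (nat_lit 398) (nat_lit 242) (nat_lit 140)))) (XT.nd (nat_lit 78) (nat_lit 456) (nat_lit 0) (XT.lf (nat_lit 0) (nat_lit 443605435) (nat_lit 532) (nat_lit 3078555919) (nat_lit 0) (nat_lit 443605435) (nat_lit 102) (nat_lit 5) (nat_lit 109) (nat_lit 4) (nat_lit 102) (nat_lit 4) (nat_lit 294)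 (nat_lit 243) (nat_lit 243)) (XT.nd (nat_lit 78) (nat_lit 456) (nat_lit 0) (XT.lf (nat_lit 0) (nat_lit 3900449827) (nat_lit 532) (nat_lit 1445275696) (nat_lit 0) (nat_lit 2682315046) (nat_lit 102) (nat_lit 5) (nat_lit 109) (nat_lit 4) (nat_lit 102) (nat_lit 4) (nat_lit 295) (nat_lit 243) (nat_lit 242)) (XT.lf (nat_lit 0) (nat_lit 3379244196) (nat_lit 456) (nat_lit 3575373455) (nat_lit 456) (nat_lit 1174583547) (nat_lit 96) (nat_lit 4) (nat_lit 102) (nat_lit 5) (nat_lit 102) (nat_lit 4) (nat_lit 296) (nat_lit 243) (nat_lit 241)))))) (XT.nd (nat_lit 390) (nat_lit 1140) (nat_lit 0) (XT.nd (nat_lit 156) (nat_lit 836) (nat_lit 0) (XT.nd (nat_lit 78) (nat_lit 0) (nat_lit 0) (XT.lf (nat_lit 0) (nat_lit 32137262) (nat_lit 380) (nat_lit 1731969157) (nat_lit 456) (nat_lit 6471004703) (nat_lit 90) (nat_lit 5) (nat_lit 95) (nat_lit 5) (nat_lit 96) (nat_lit 4) (nat_lit 297) (nat_lit 243) (nat_lit 240))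 (XT.lf (nat_lit 0) (nat_lit 4737193665) (nat_lit 456) (nat_lit 3398544731) (nat_lit 0) (nat_lit 209266816) (nat_lit 90) (nat_lit 5) (nat_lit 96) (nat_lit 4) (nat_lit 90) (nat_lit 4) (nat_lit 298) (nat_lit 243) (nat_lit 239))) (XT.nd (nat_lit 78) (nat_lit 456) (nat_lit 0) (XT.lf (nat_lit 0) (nat_lit 1467186595) (nat_lit 380) (nat_lit 6285676124) (nat_lit 380) (nat_lit 706975513) (nat_lit 85) (nat_lit 4) (nat_lit 90) (nat_lit 5) (nat_lit 90) (nat_lit 4) (nat_lit 299) (nat_lit 243) (nat_lit 238)) (XT.nd (nat_lit 78) (nat_lit 380) (nat_lit 0) (XT.lf (nat_lit 0) (nat_lit 2193553949) (nat_lit 456) (nat_lit 2145954795) (nat_lit 76) (nat_lit 4239464225) (nat_lit 84) (nat_lit 5) (nat_lit 90) (nat_lit 5) (nat_lit 85) (nat_lit 4) (nat_lit 300) (nat_lit 243) (nat_lit 237)) (XT.lf (nat_lit 0) (nat_lit 2801420896) (nat_lit 380) (nat_lit 2317172827) (nat_lit 456) (nat_lit 3584550008) (nat_lit 79) (nat_lit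 5) (nat_lit 84) (nat_lit 5) (nat_lit 85) (nat_lit 4) (nat_lit 301) (nat_lit 243) (nat_lit 236))))) (XT.nd (nat_lit 234) (nat_lit 380) (nat_lit 0) (XT.nd (nat_lit 78) (nat_lit 760) (nat_lit 0) (XT.lf (nat_lit 0) (nat_lit 7849725484) (nat_lit 380) (nat_lit 229415743) (nat_lit 456) (nat_lit 753682287) (nat_lit 79) (nat_lit 5) (nat_lit 84) (nat_lit 5) (nat_lit 85) (nat_lit 4) (nat_lit 302) (nat_lit 243) (nat_lit 235)) (XT.nd (nat_lit 78) (nat_lit 304) (nat_lit 0) (XT.lf (nat_lit 0) (nat_lit 2105069038) (nat_lit 456) (nat_lit 4934991490) (nat_lit 76) (nat_lit 1926359374) (nat_lit 73) (nat_lit 5) (nat_lit 79) (nat_lit 5) (nat_lit 74) (nat_lit 4) (nat_lit 303) (nat_lit 243) (nat_lit 234)) (XT.lf (nat_lit 0) (nat_lit 11460796) (nat_lit 304) (nat_lit 4963784975) (nat_lit 380) (nat_lit 4130528424) (nat_lit 69) (nat_lit 5) (nat_lit 73) (nat_lit 5) (nat_lit 74) (nat_lit 4) (nat_lit 304) (nat_lit 243) (nat_lit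 233)))) (XT.nd (nat_lit 78) (nat_lit 380) (nat_lit 0) (XT.lf (nat_lit 0) (nat_lit 5116620881) (nat_lit 304) (nat_lit 2794356571) (nat_lit 380) (nat_lit 1339140618) (nat_lit 69) (nat_lit 5) (nat_lit 73) (nat_lit 5) (nat_lit 74) (nat_lit 4) (nat_lit 305) (nat_lit 243) (nat_lit 232)) (XT.nd (nat_lit 78) (nat_lit 0) (nat_lit 0) (XT.lf (nat_lit 0) (nat_lit 888964870) (nat_lit 304) (nat_lit 556402714) (nat_lit 380) (nat_lit 7954982584) (nat_lit 64) (nat_lit 5) (nat_lit 68) (nat_lit 5) (nat_lit 69) (nat_lit 5) (nat_lit 306) (nat_lit 243) (nat_lit 231)) (XT.lf (nat_lit 0) (nat_lit 4277225336) (nat_lit 380) (nat_lit 3528382521) (nat_lit 76) (nat_lit 1749537827) (nat_lit 64) (nat_lit 5) (nat_lit 69) (nat_lit 5) (nat_lit 65) (nat_lit 4) (nat_lit 307) (nat_lit 243) (nat_lit 230))))))) (XT.nd (nat_lit 858) (nat_lit 988) (nat_lit 0) (XT.nd (nat_lit 390) (nat_lit 912) (nat_lit 0) (XT.nd (nat_lit 156) (nat_lit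 532) (nat_lit 0) (XT.nd (nat_lit 78) (nat_lit 76) (nat_lit 0) (XT.lf (nat_lit 0) (nat_lit 1540410486) (nat_lit 304) (nat_lit 5607698756) (nat_lit 380) (nat_lit 2568024692) (nat_lit 60) (nat_lit 5) (nat_lit 64) (nat_lit 5) (nat_lit 65) (nat_lit 4) (nat_lit 308) (nat_lit 243) (nat_lit 229)) (XT.lf (nat_lit 0) (nat_lit 188831278) (nat_lit 380) (nat_lit 3138643931) (nat_lit 76) (nat_lit 6555472887) (nat_lit 59) (nat_lit 5) (nat_lit 64) (nat_lit 5) (nat_lit 60) (nat_lit 5) (nat_lit 309) (nat_lit 243) (nat_lit 228))) (XT.nd (nat_lit 78) (nat_lit 228) (nat_lit 0) (XT.lf (nat_lit 0) (nat_lit 1976418482) (nat_lit 304) (nat_lit 955315263) (nat_lit 380) (nat_lit 7123777962) (nat_lit 55) (nat_lit 5) (nat_lit 59) (nat_lit 5) (nat_lit 60) (nat_lit 5) (nat_lit 310) (nat_lit 243) (nat_lit 227)) (XT.nd (nat_lit 78) (nat_lit 228) (nat_lit 0) (XT.lf (nat_lit 0) (nat_lit 5740020528) (nat_lit 380) (nat_lit 3024898035)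 (nat_lit 76) (nat_lit 1468992663) (nat_lit 55) (nat_lit 5) (nat_lit 60) (nat_lit 5) (nat_lit 56) (nat_lit 4) (nat_lit 311) (nat_lit 243) (nat_lit 226)) (XT.lf (nat_lit 0) (nat_lit 2128285183) (nat_lit 228) (nat_lit 6472814501) (nat_lit 304) (nat_lit 1817654223) (nat_lit 52) (nat_lit 5) (nat_lit 55) (nat_lit 5) (nat_lit 56) (nat_lit 4) (nat_lit 312) (nat_lit 243) (nat_lit 225))))) (XT.nd (nat_lit 234) (nat_lit 532) (nat_lit 0) (XT.nd (nat_lit 78) (nat_lit 304) (nat_lit 0) (XT.lf (nat_lit 0) (nat_lit 890266348) (nat_lit 304) (nat_lit 3204716496) (nat_lit 76) (nat_lit 6514935768) (nat_lit 51) (nat_lit 5) (nat_lit 55) (nat_lit 5) (nat_lit 52) (nat_lit 5) (nat_lit 313) (nat_lit 243) (nat_lit 224)) (XT.nd (nat_lit 78) (nat_lit 0) (nat_lit 0) (XT.lf (nat_lit 0) (nat_lit 1971327066) (nat_lit 304) (nat_lit 1631164268) (nat_lit 380) (nat_lit 7205134006) (nat_lit 47) (nat_lit 5) (nat_lit 51) (nat_lit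 5) (nat_lit 52) (nat_lit 5) (nat_lit 314) (nat_lit 243) (nat_lit 223)) (XT.lf (nat_lit 0) (nat_lit 6378844334) (nat_lit 380) (nat_lit 3734580001) (nat_lit 76) (nat_lit 898487139) (nat_lit 47) (nat_lit 5) (nat_lit 52) (nat_lit 5) (nat_lit 48) (nat_lit 4) (nat_lit 315) (nat_lit 243) (nat_lit 222)))) (XT.nd (nat_lit 78) (nat_lit 304) (nat_lit 0) (XT.lf (nat_lit 0) (nat_lit 1451194456) (nat_lit 228) (nat_lit 7760466200) (nat_lit 304) (nat_lit 2011597583) (nat_lit 44) (nat_lit 5) (nat_lit 47) (nat_lit 5) (nat_lit 48) (nat_lit 4) (nat_lit 316) (nat_lit 243) (nat_lit 221)) (XT.nd (nat_lit 78) (nat_lit 228) (nat_lit 0) (XT.lf (nat_lit 0) (nat_lit 656448327) (nat_lit 304) (nat_lit 4659324745) (nat_lit 76) (nat_lit 6125652673) (nat_lit 43) (nat_lit 5) (nat_lit 47) (nat_lit 5) (nat_lit 44) (nat_lit 5) (nat_lit 317) (nat_lit 243) (nat_lit 220)) (XT.lf (nat_lit 0) (nat_lit 517743621) (nat_lit 228) (nat_lit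 2796272088) (nat_lit 304) (nat_lit 8353144158) (nat_lit 40) (nat_lit 5) (nat_lit 43) (nat_lit 5) (nat_lit 44) (nat_lit 5) (nat_lit 318) (nat_lit 243) (nat_lit 219)))))) (XT.nd (nat_lit 390) (nat_lit 456) (nat_lit 0) (XT.nd (nat_lit 156) (nat_lit 532) (nat_lit 0) (XT.nd (nat_lit 78) (nat_lit 0) (nat_lit 0) (XT.lf (nat_lit 0) (nat_lit 5867173404) (nat_lit 228) (nat_lit 176970723) (nat_lit 304) (nat_lit 5855849903) (nat_lit 40) (nat_lit 5) (nat_lit 43) (nat_lit 5) (nat_lit 44) (nat_lit 5) (nat_lit 319) (nat_lit 243) (nat_lit 218)) (XT.lf (nat_lit 0) (nat_lit 8827545723) (nat_lit 304) (nat_lit 864599154) (nat_lit 76) (nat_lit 2448637009) (nat_lit 40) (nat_lit 5) (nat_lit 44) (nat_lit 5) (nat_lit 41) (nat_lit 4) (nat_lit 320) (nat_lit 243) (nat_lit 217))) (XT.nd (nat_lit 78) (nat_lit 304) (nat_lit 0) (XT.lf (nat_lit 0) (nat_lit 4468739840) (nat_lit 228) (nat_lit 7219094475) (nat_lit 304) (nat_lit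 701264064) (nat_lit 37) (nat_lit 5) (nat_lit 40) (nat_lit 5) (nat_lit 41) (nat_lit 4) (nat_lit 321) (nat_lit 243) (nat_lit 216)) (XT.nd (nat_lit 78) (nat_lit 228) (nat_lit 0) (XT.lf (nat_lit 0) (nat_lit 1907922531) (nat_lit 304) (nat_lit 2759764103) (nat_lit 76) (nat_lit 7977974487) (nat_lit 36) (nat_lit 5) (nat_lit 40) (nat_lit 5) (nat_lit 37) (nat_lit 5) (nat_lit 322) (nat_lit 243) (nat_lit 215)) (XT.lf (nat_lit 0) (nat_lit 2524414380) (nat_lit 228) (nat_lit 2031483594) (nat_lit 304) (nat_lit 8354673745) (nat_lit 33) (nat_lit 5) (nat_lit 36) (nat_lit 5) (nat_lit 37) (nat_lit 5) (nat_lit 323) (nat_lit 243) (nat_lit 214))))) (XT.nd (nat_lit 234) (nat_lit 304) (nat_lit 0) (XT.nd (nat_lit 78) (nat_lit 152) (nat_lit 0) (XT.lf (nat_lit 0) (nat_lit 7268888074) (nat_lit 304) (nat_lit 5239914012) (nat_lit 76) (nat_lit 675154957) (nat_lit 33) (nat_lit 5) (nat_lit 37) (nat_lit 5) (nat_lit 34) (nat_lit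 4) (nat_lit 324) (nat_lit 243) (nat_lit 213)) (XT.nd (nat_lit 78) (nat_lit 152) (nat_lit 0) (XT.lf (nat_lit 0) (nat_lit 10035670997) (nat_lit 304) (nat_lit 31399045) (nat_lit 76) (nat_lit 3399393701) (nat_lit 33) (nat_lit 5) (nat_lit 37) (nat_lit 5) (nat_lit 34) (nat_lit 4) (nat_lit 325) (nat_lit 243) (nat_lit 212)) (XT.lf (nat_lit 0) (nat_lit 5368219859) (nat_lit 152) (nat_lit 7522519213) (nat_lit 228) (nat_lit 866637357) (nat_lit 31) (nat_lit 5) (nat_lit 33) (nat_lit 5) (nat_lit 34) (nat_lit 4) (nat_lit 326) (nat_lit 243) (nat_lit 211)))) (XT.nd (nat_lit 78) (nat_lit 228) (nat_lit 0) (XT.lf (nat_lit 0) (nat_lit 1693963161) (nat_lit 228) (nat_lit 3213818710) (nat_lit 76) (nat_lit 9150182637) (nat_lit 30) (nat_lit 5) (nat_lit 33) (nat_lit 5) (nat_lit 31) (nat_lit 5) (nat_lit 327) (nat_lit 243) (nat_lit 210)) (XT.nd (nat_lit 78) (nat_lit 0) (nat_lit 0) (XT.lf (nat_lit 0) (nat_lit 2080621921)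 (nat_lit 228) (nat_lit 2208512331) (nat_lit 304) (nat_lit 10079005090) (nat_lit 27) (nat_lit 5) (nat_lit 30) (nat_lit 5) (nat_lit 31) (nat_lit 5) (nat_lit 328) (nat_lit 243) (nat_lit 209)) (XT.lf (nat_lit 0) (nat_lit 6956034275) (nat_lit 304) (nat_lit 7161376055) (nat_lit 76) (nat_lit 570472160) (nat_lit 27) (nat_lit 5) (nat_lit 31) (nat_lit 5) (nat_lit 28) (nat_lit 4) (nat_lit 329) (nat_lit 243) (nat_lit 208))))))))
noncomputable def xc66 : XT := (XT.nd (nat_lit 1716) (nat_lit 456) (nat_lit 0) (XT.nd (nat_lit 858) (nat_lit 304) (nat_lit 0) (XT.nd (nat_lit 390) (nat_lit 380) (nat_lit 0) (XT.nd (nat_lit 156) (nat_lit 228) (nat_lit 0) (XT.nd (nat_lit 78) (nat_lit 152) (nat_lit 0) (XT.lf (nat_lit 0) (nat_lit 9681704205) (nat_lit 304) (nat_lit 1970005206) (nat_lit 76) (nat_lit 3366222610) (nat_lit 27) (nat_lit 5) (nat_lit 31) (nat_lit 5) (nat_lit 28) (nat_lit 4) (nat_lit 330) (nat_lit 243) (nat_lit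 207)) (XT.lf (nat_lit 0) (nat_lit 3378283323) (nat_lit 152) (nat_lit 9101486926) (nat_lit 228) (nat_lit 2878468739) (nat_lit 25) (nat_lit 5) (nat_lit 27) (nat_lit 5) (nat_lit 28) (nat_lit 4) (nat_lit 331) (nat_lit 243) (nat_lit 206))) (XT.nd (nat_lit 78) (nat_lit 228) (nat_lit 0) (XT.lf (nat_lit 0) (nat_lit 8863292526) (nat_lit 152) (nat_lit 6477133432) (nat_lit 228) (nat_lit 369042332) (nat_lit 25) (nat_lit 5) (nat_lit 27) (nat_lit 5) (nat_lit 28) (nat_lit 4) (nat_lit 332) (nat_lit 243) (nat_lit 205)) (XT.nd (nat_lit 78) (nat_lit 152) (nat_lit 0) (XT.lf (nat_lit 0) (nat_lit 2131921498) (nat_lit 228) (nat_lit 1642799267) (nat_lit 76) (nat_lit 12297158438) (nat_lit 24) (nat_lit 5) (nat_lit 27) (nat_lit 5) (nat_lit 25) (nat_lit 5) (nat_lit 333) (nat_lit 243) (nat_lit 204)) (XT.lf (nat_lit 0) (nat_lit 3724421463) (nat_lit 152) (nat_lit 972546980) (nat_lit 228) (nat_lit 11748256635) (nat_lit 22)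 (nat_lit 5) (nat_lit 24) (nat_lit 5) (nat_lit 25) (nat_lit 5) (nat_lit 334) (nat_lit 243) (nat_lit 203))))) (XT.nd (nat_lit 234) (nat_lit 228) (nat_lit 0) (XT.nd (nat_lit 78) (nat_lit 152) (nat_lit 0) (XT.lf (nat_lit 0) (nat_lit 7335137458) (nat_lit 228) (nat_lit 7623195027) (nat_lit 76) (nat_lit 1871618188) (nat_lit 22) (nat_lit 5) (nat_lit 25) (nat_lit 5) (nat_lit 23) (nat_lit 4) (nat_lit 335) (nat_lit 243) (nat_lit 202)) (XT.nd (nat_lit 78) (nat_lit 152) (nat_lit 0) (XT.lf (nat_lit 0) (nat_lit 10024237792) (nat_lit 228) (nat_lit 2442186518) (nat_lit 76) (nat_lit 4760702728) (nat_lit 22) (nat_lit 5) (nat_lit 25) (nat_lit 5) (nat_lit 23) (nat_lit 4) (nat_lit 336) (nat_lit 243) (nat_lit 201)) (XT.lf (nat_lit 0) (nat_lit 2892541629) (nat_lit 152) (nat_lit 9892533677) (nat_lit 228) (nat_lit 4851472225) (nat_lit 20) (nat_lit 5) (nat_lit 22) (nat_lit 5) (nat_lit 23) (nat_lit 4) (nat_lit 337) (nat_lit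 243) (nat_lit 200)))) (XT.nd (nat_lit 78) (nat_lit 228) (nat_lit 0) (XT.lf (nat_lit 0) (nat_lit 8379789670) (nat_lit 152) (nat_lit 7237385445) (nat_lit 228) (nat_lit 2441481404) (nat_lit 20) (nat_lit 5) (nat_lit 22) (nat_lit 5) (nat_lit 23) (nat_lit 4) (nat_lit 338) (nat_lit 243) (nat_lit 199)) (XT.nd (nat_lit 78) (nat_lit 152) (nat_lit 0) (XT.lf (nat_lit 0) (nat_lit 4439385) (nat_lit 228) (nat_lit 4518836660) (nat_lit 76) (nat_lit 13971263772) (nat_lit 19) (nat_lit 5) (nat_lit 22) (nat_lit 5) (nat_lit 20) (nat_lit 5) (nat_lit 339) (nat_lit 243) (nat_lit 198)) (XT.lf (nat_lit 0) (nat_lit 731066950) (nat_lit 152) (nat_lit 1716089650) (nat_lit 228) (nat_lit 16496497108) (nat_lit 17) (nat_lit 5) (nat_lit 19) (nat_lit 5) (nat_lit 20) (nat_lit 5) (nat_lit 340) (nat_lit 243) (nat_lit 197)))))) (XT.nd (nat_lit 390) (nat_lit 228) (nat_lit 0) (XT.nd (nat_lit 156) (nat_lit 76) (nat_lit 0) (XT.nd (nat_lit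 78) (nat_lit 0) (nat_lit 0) (XT.lf (nat_lit 0) (nat_lit 4986284930) (nat_lit 228) (nat_lit 13240880759) (nat_lit 76) (nat_lit 1178433852) (nat_lit 17) (nat_lit 5) (nat_lit 20) (nat_lit 5) (nat_lit 18) (nat_lit 4) (nat_lit 341) (nat_lit 243) (nat_lit 196)) (XT.lf (nat_lit 0) (nat_lit 7585324301) (nat_lit 228) (nat_lit 8190760644) (nat_lit 76) (nat_lit 4105857578) (nat_lit 17) (nat_lit 5) (nat_lit 20) (nat_lit 5) (nat_lit 18) (nat_lit 4) (nat_lit 342) (nat_lit 243) (nat_lit 195))) (XT.nd (nat_lit 78) (nat_lit 76) (nat_lit 0) (XT.lf (nat_lit 0) (nat_lit 10230049616) (nat_lit 228) (nat_lit 3041317583) (nat_lit 76) (nat_lit 7102226559) (nat_lit 17) (nat_lit 5) (nat_lit 20) (nat_lit 5) (nat_lit 18) (nat_lit 4) (nat_lit 343) (nat_lit 243) (nat_lit 194)) (XT.nd (nat_lit 78) (nat_lit 0) (nat_lit 0) (XT.lf (nat_lit 0) (nat_lit 2255970036) (nat_lit 76) (nat_lit 10688487527) (nat_lit 152) (nat_lit 7935874708)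 (nat_lit 16) (nat_lit 5) (nat_lit 17) (nat_lit 5) (nat_lit 18) (nat_lit 4) (nat_lit 344) (nat_lit 243) (nat_lit 193)) (XT.lf (nat_lit 0) (nat_lit 7724356156) (nat_lit 76) (nat_lit 8015738797) (nat_lit 152) (nat_lit 5662230643) (nat_lit 16) (nat_lit 5) (nat_lit 17) (nat_lit 5) (nat_lit 18) (nat_lit 4) (nat_lit 345) (nat_lit 243) (nat_lit 192))))) (XT.nd (nat_lit 234) (nat_lit 0) (nat_lit 0) (XT.nd (nat_lit 78) (nat_lit 228) (nat_lit 0) (XT.lf (nat_lit 0) (nat_lit 13308090794) (nat_lit 76) (nat_lit 5281496941) (nat_lit 152) (nat_lit 3351336611) (nat_lit 16) (nat_lit 5) (nat_lit 17) (nat_lit 5) (nat_lit 18) (nat_lit 4) (nat_lit 346) (nat_lit 243) (nat_lit 191)) (XT.nd (nat_lit 78) (nat_lit 228) (nat_lit 0) (XT.lf (nat_lit 0) (nat_lit 19012052940) (nat_lit 76) (nat_lit 2483372817) (nat_lit 152) (nat_lit 1001173386) (nat_lit 16) (nat_lit 5) (nat_lit 17) (nat_lit 5) (nat_lit 18) (nat_lit 4) (nat_lit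 347) (nat_lit 243) (nat_lit 190)) (XT.lf (nat_lit 0) (nat_lit 1384384254) (nat_lit 228) (nat_lit 21279868900) (nat_lit 76) (nat_lit 404545384) (nat_lit 13) (nat_lit 5) (nat_lit 16) (nat_lit 5) (nat_lit 14) (nat_lit 4) (nat_lit 348) (nat_lit 243) (nat_lit 189)))) (XT.nd (nat_lit 78) (nat_lit 0) (nat_lit 0) (XT.lf (nat_lit 0) (nat_lit 3853115752) (nat_lit 228) (nat_lit 16446695036) (nat_lit 76) (nat_lit 3357144031) (nat_lit 13) (nat_lit 5) (nat_lit 16) (nat_lit 5) (nat_lit 14) (nat_lit 4) (nat_lit 349) (nat_lit 243) (nat_lit 188)) (XT.nd (nat_lit 78) (nat_lit 0) (nat_lit 0) (XT.lf (nat_lit 0) (nat_lit 6368342595) (nat_lit 228) (nat_lit 11513940931) (nat_lit 76) (nat_lit 6381338263) (nat_lit 13) (nat_lit 5) (nat_lit 16) (nat_lit 5) (nat_lit 14) (nat_lit 4) (nat_lit 350) (nat_lit 243) (nat_lit 187)) (XT.lf (nat_lit 0) (nat_lit 8932262554) (nat_lit 228) (nat_lit 6477296411) (nat_lit 76) (nat_lit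 9479770579) (nat_lit 13) (nat_lit 5) (nat_lit 16) (nat_lit 5) (nat_lit 14) (nat_lit 4) (nat_lit 351) (nat_lit 243) (nat_lit 186))))))) (XT.nd (nat_lit 858) (nat_lit 152) (nat_lit 0) (XT.nd (nat_lit 390) (nat_lit 228) (nat_lit 0) (XT.nd (nat_lit 156) (nat_lit 0) (nat_lit 0) (XT.nd (nat_lit 78) (nat_lit 76) (nat_lit 0) (XT.lf (nat_lit 0) (nat_lit 11547115947) (nat_lit 228) (nat_lit 1332360525) (nat_lit 76) (nat_lit 12655148349) (nat_lit 13) (nat_lit 5) (nat_lit 16) (nat_lit 5) (nat_lit 14) (nat_lit 4) (nat_lit 352) (nat_lit 243) (nat_lit 185)) (XT.lf (nat_lit 0) (nat_lit 4003484707) (nat_lit 76) (nat_lit 10250186833) (nat_lit 152) (nat_lit 11945245410) (nat_lit 12) (nat_lit 5) (nat_lit 13) (nat_lit 5) (nat_lit 14) (nat_lit 4) (nat_lit 353) (nat_lit 243) (nat_lit 184))) (XT.nd (nat_lit 78) (nat_lit 0) (nat_lit 0) (XT.lf (nat_lit 0) (nat_lit 9485563709) (nat_lit 76) (nat_lit 7544426160) (nat_lit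 152) (nat_lit 9853525645) (nat_lit 12) (nat_lit 5) (nat_lit 13) (nat_lit 5) (nat_lit 14) (nat_lit 4) (nat_lit 354) (nat_lit 243) (nat_lit 183)) (XT.nd (nat_lit 78) (nat_lit 0) (nat_lit 0) (XT.lf (nat_lit 0) (nat_lit 15092150058) (nat_lit 76) (nat_lit 4773284426) (nat_lit 152) (nat_lit 7723976092) (nat_lit 12) (nat_lit 5) (nat_lit 13) (nat_lit 5) (nat_lit 14) (nat_lit 4) (nat_lit 355) (nat_lit 243) (nat_lit 182)) (XT.lf (nat_lit 0) (nat_lit 20828142714) (nat_lit 76) (nat_lit 1934340245) (nat_lit 152) (nat_lit 5554735981) (nat_lit 12) (nat_lit 5) (nat_lit 13) (nat_lit 5) (nat_lit 14) (nat_lit 4) (nat_lit 356) (nat_lit 243) (nat_lit 181))))) (XT.nd (nat_lit 234) (nat_lit 0) (nat_lit 0) (XT.nd (nat_lit 78) (nat_lit 228) (nat_lit 0) (XT.lf (nat_lit 0) (nat_lit 25733037905) (nat_lit 152) (nat_lit 2378394054) (nat_lit 0) (nat_lit 955863456) (nat_lit 12) (nat_lit 5) (nat_lit 14) (nat_lit 4) (nat_lit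 12) (nat_lit 4) (nat_lit 357) (nat_lit 243) (nat_lit 180)) (XT.nd (nat_lit 78) (nat_lit 76) (nat_lit 0) (XT.lf (nat_lit 0) (nat_lit 2885646291) (nat_lit 152) (nat_lit 25931701960) (nat_lit 152) (nat_lit 1021817560) (nat_lit 10) (nat_lit 4) (nat_lit 12) (nat_lit 5) (nat_lit 12) (nat_lit 4) (nat_lit 358) (nat_lit 243) (nat_lit 179)) (XT.lf (nat_lit 0) (nat_lit 1335508443) (nat_lit 228) (nat_lit 22327646872) (nat_lit 76) (nat_lit 6970612293) (nat_lit 9) (nat_lit 5) (nat_lit 12) (nat_lit 5) (nat_lit 10) (nat_lit 4) (nat_lit 359) (nat_lit 243) (nat_lit 178)))) (XT.nd (nat_lit 78) (nat_lit 0) (nat_lit 0) (XT.lf (nat_lit 0) (nat_lit 3721459771) (nat_lit 228) (nat_lit 17609257534) (nat_lit 76) (nat_lit 10121861529) (nat_lit 9) (nat_lit 5) (nat_lit 12) (nat_lit 5) (nat_lit 10) (nat_lit 4) (nat_lit 360) (nat_lit 243) (nat_lit 177)) (XT.nd (nat_lit 78) (nat_lit 0) (nat_lit 0) (XT.lf (nat_lit 0) (nat_lit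 6158060575) (nat_lit 228) (nat_lit 12784406306) (nat_lit 76) (nat_lit 13354142742) (nat_lit 9) (nat_lit 5) (nat_lit 12) (nat_lit 5) (nat_lit 10) (nat_lit 4) (nat_lit 361) (nat_lit 243) (nat_lit 176)) (XT.lf (nat_lit 0) (nat_lit 8647439925) (nat_lit 228) (nat_lit 7848877299) (nat_lit 76) (nat_lit 16670280255) (nat_lit 9) (nat_lit 5) (nat_lit 12) (nat_lit 5) (nat_lit 10) (nat_lit 4) (nat_lit 362) (nat_lit 243) (nat_lit 175)))))) (XT.nd (nat_lit 390) (nat_lit 76) (nat_lit 0) (XT.nd (nat_lit 156) (nat_lit 0) (nat_lit 0) (XT.nd (nat_lit 78) (nat_lit 76) (nat_lit 0) (XT.lf (nat_lit 0) (nat_lit 11191773007) (nat_lit 228) (nat_lit 2798357914) (nat_lit 76) (nat_lit 20073171665) (nat_lit 9) (nat_lit 5) (nat_lit 12) (nat_lit 5) (nat_lit 10) (nat_lit 4) (nat_lit 363) (nat_lit 243) (nat_lit 174)) (XT.lf (nat_lit 0) (nat_lit 2418763715) (nat_lit 76) (nat_lit 11397769944) (nat_lit 152) (nat_lit 21170277293)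 (nat_lit 8) (nat_lit 5) (nat_lit 9) (nat_lit 5) (nat_lit 10) (nat_lit 4) (nat_lit 364) (nat_lit 243) (nat_lit 173))) (XT.nd (nat_lit 78) (nat_lit 0) (nat_lit 0) (XT.lf (nat_lit 0) (nat_lit 7817965284) (nat_lit 76) (nat_lit 8711428919) (nat_lit 152) (nat_lit 19408373960) (nat_lit 8) (nat_lit 5) (nat_lit 9) (nat_lit 5) (nat_lit 10) (nat_lit 4) (nat_lit 365) (nat_lit 243) (nat_lit 172)) (XT.nd (nat_lit 78) (nat_lit 0) (nat_lit 0) (XT.lf (nat_lit 0) (nat_lit 13348271731) (nat_lit 76) (nat_lit 5957018486) (nat_lit 152) (nat_lit 17612537979) (nat_lit 8) (nat_lit 5) (nat_lit 9) (nat_lit 5) (nat_lit 10) (nat_lit 4) (nat_lit 366) (nat_lit 243) (nat_lit 171)) (XT.lf (nat_lit 0) (nat_lit 19014515362) (nat_lit 76) (nat_lit 3132131879) (nat_lit 152) (nat_lit 15781200176) (nat_lit 8) (nat_lit 5) (nat_lit 9) (nat_lit 5) (nat_lit 10) (nat_lit 4) (nat_lit 367) (nat_lit 243) (nat_lit 170))))) (XT.nd (nat_lit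 234) (nat_lit 76) (nat_lit 0) (XT.nd (nat_lit 78) (nat_lit 0) (nat_lit 0) (XT.lf (nat_lit 0) (nat_lit 24821647266) (nat_lit 76) (nat_lit 234300749) (nat_lit 152) (nat_lit 13912760350) (nat_lit 8) (nat_lit 5) (nat_lit 9) (nat_lit 5) (nat_lit 10) (nat_lit 4) (nat_lit 368) (nat_lit 243) (nat_lit 169)) (XT.nd (nat_lit 78) (nat_lit 0) (nat_lit 0) (XT.lf (nat_lit 0) (nat_lit 28062063656) (nat_lit 152) (nat_lit 9292907909) (nat_lit 0) (nat_lit 2685559095) (nat_lit 8) (nat_lit 5) (nat_lit 10) (nat_lit 4) (nat_lit 8) (nat_lit 4) (nat_lit 369) (nat_lit 243) (nat_lit 168)) (XT.lf (nat_lit 0) (nat_lit 31144271595) (nat_lit 152) (nat_lit 4323281717) (nat_lit 0) (nat_lit 5677398014) (nat_lit 8) (nat_lit 5) (nat_lit 10) (nat_lit 4) (nat_lit 8) (nat_lit 4) (nat_lit 370) (nat_lit 243) (nat_lit 167)))) (XT.nd (nat_lit 78) (nat_lit 0) (nat_lit 0) (XT.lf (nat_lit 0) (nat_lit 783705018) (nat_lit 76) (nat_lit 33526841214)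 (nat_lit 76) (nat_lit 7972230721) (nat_lit 7) (nat_lit 4) (nat_lit 8) (nat_lit 5) (nat_lit 8) (nat_lit 4) (nat_lit 371) (nat_lit 243) (nat_lit 166)) (XT.nd (nat_lit 78) (nat_lit 0) (nat_lit 0) (XT.lf (nat_lit 0) (nat_lit 6105768157) (nat_lit 76) (nat_lit 31493971499) (nat_lit 76) (nat_lit 5854179539) (nat_lit 7) (nat_lit 4) (nat_lit 8) (nat_lit 5) (nat_lit 8) (nat_lit 4) (nat_lit 372) (nat_lit 243) (nat_lit 165)) (XT.lf (nat_lit 0) (nat_lit 11561516260) (nat_lit 76) (nat_lit 29410824543) (nat_lit 76) (nat_lit 3688332128) (nat_lit 7) (nat_lit 4) (nat_lit 8) (nat_lit 5) (nat_lit 8) (nat_lit 4) (nat_lit 373) (nat_lit 243) (nat_lit 164))))))))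
noncomputable def xc67 : XT := (XT.nd (nat_lit 1716) (nat_lit 0) (nat_lit 0) (XT.nd (nat_lit 858) (nat_lit 76) (nat_lit 0) (XT.nd (nat_lit 390) (nat_lit 76) (nat_lit 0) (XT.nd (nat_lit 156) (nat_lit 0) (nat_lit 0) (XT.nd (nat_lit 78) (nat_lit 76) (nat_lit 0) (XT.lf (nat_lit 0) (nat_lit 17155716488) (nat_lit 76) (nat_lit 27275580120) (nat_lit 76) (nat_lit 1472796002) (nat_lit 7) (nat_lit 4) (nat_lit 8) (nat_lit 5) (nat_lit 8) (nat_lit 4) (nat_lit 374) (nat_lit 243) (nat_lit 163)) (XT.lf (nat_lit 0) (nat_lit 778863827) (nat_lit 152) (nat_lit 24299643658) (nat_lit 76) (nat_lit 22106528151) (nat_lit 6) (nat_lit 5) (nat_lit 8) (nat_lit 5) (nat_lit 7) (nat_lit 4) (nat_lit 375) (nat_lit 243) (nat_lit 162))) (XT.nd (nat_lit 78) (nat_lit 0) (nat_lit 0) (XT.lf (nat_lit 0) (nat_lit 3054343699) (nat_lit 152) (nat_lit 19756102149) (nat_lit 76) (nat_lit 25693964527) (nat_lit 6) (nat_lit 5) (nat_lit 8) (nat_lit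 5) (nat_lit 7) (nat_lit 4) (nat_lit 376) (nat_lit 243) (nat_lit 161)) (XT.nd (nat_lit 78) (nat_lit 0) (nat_lit 0) (XT.lf (nat_lit 0) (nat_lit 5384371450) (nat_lit 152) (nat_lit 15099624096) (nat_lit 76) (nat_lit 29379798856) (nat_lit 6) (nat_lit 5) (nat_lit 8) (nat_lit 5) (nat_lit 7) (nat_lit 4) (nat_lit 377) (nat_lit 243) (nat_lit 160)) (XT.lf (nat_lit 0) (nat_lit 7770983028) (nat_lit 152) (nat_lit 10326140731) (nat_lit 76) (nat_lit 33167251769) (nat_lit 6) (nat_lit 5) (nat_lit 8) (nat_lit 5) (nat_lit 7) (nat_lit 4) (nat_lit 378) (nat_lit 243) (nat_lit 159))))) (XT.nd (nat_lit 234) (nat_lit 0) (nat_lit 0) (XT.nd (nat_lit 78) (nat_lit 76) (nat_lit 0) (XT.lf (nat_lit 0) (nat_lit 10216263822) (nat_lit 152) (nat_lit 5431481049) (nat_lit 76) (nat_lit 37059632693) (nat_lit 6) (nat_lit 5) (nat_lit 8) (nat_lit 5) (nat_lit 7) (nat_lit 4) (nat_lit 379) (nat_lit 243) (nat_lit 158)) (XT.nd (nat_lit 78)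 (nat_lit 76) (nat_lit 0) (XT.lf (nat_lit 0) (nat_lit 12722350483) (nat_lit 152) (nat_lit 411368164) (nat_lit 76) (nat_lit 41060342735) (nat_lit 6) (nat_lit 5) (nat_lit 8) (nat_lit 5) (nat_lit 7) (nat_lit 4) (nat_lit 380) (nat_lit 243) (nat_lit 157)) (XT.lf (nat_lit 0) (nat_lit 4832891552) (nat_lit 76) (nat_lit 10504997955) (nat_lit 152) (nat_lit 40386442820) (nat_lit 5) (nat_lit 5) (nat_lit 6) (nat_lit 5) (nat_lit 7) (nat_lit 4) (nat_lit 381) (nat_lit 243) (nat_lit 156)))) (XT.nd (nat_lit 78) (nat_lit 0) (nat_lit 0) (XT.lf (nat_lit 0) (nat_lit 10222351594) (nat_lit 76) (nat_lit 7801667496) (nat_lit 152) (nat_lit 39276742856) (nat_lit 5) (nat_lit 5) (nat_lit 6) (nat_lit 5) (nat_lit 7) (nat_lit 4) (nat_lit 382) (nat_lit 243) (nat_lit 155)) (XT.nd (nat_lit 78) (nat_lit 0) (nat_lit 0) (XT.lf (nat_lit 0) (nat_lit 15753534164) (nat_lit 76) (nat_lit 5025519150) (nat_lit 152) (nat_lit 38145795377)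 (nat_lit 5) (nat_lit 5) (nat_lit 6) (nat_lit 5) (nat_lit 7) (nat_lit 4) (nat_lit 383) (nat_lit 243) (nat_lit 154)) (XT.lf (nat_lit 0) (nat_lit 21431272334) (nat_lit 76) (nat_lit 2174127156) (nat_lit 152) (nat_lit 36992612177) (nat_lit 5) (nat_lit 5) (nat_lit 6) (nat_lit 5) (nat_lit 7) (nat_lit 4) (nat_lit 384) (nat_lit 243) (nat_lit 153)))))) (XT.nd (nat_lit 390) (nat_lit 76) (nat_lit 0) (XT.nd (nat_lit 156) (nat_lit 0) (nat_lit 0) (XT.nd (nat_lit 78) (nat_lit 0) (nat_lit 0) (XT.lf (nat_lit 0) (nat_lit 26512784765) (nat_lit 152) (nat_lit 35068443149) (nat_lit 0) (nat_lit 740267223) (nat_lit 5) (nat_lit 5) (nat_lit 7) (nat_lit 4) (nat_lit 5) (nat_lit 4) (nat_lit 385) (nat_lit 243) (nat_lit 152)) (XT.lf (nat_lit 0) (nat_lit 29518156587) (nat_lit 152) (nat_lit 30887251955) (nat_lit 0) (nat_lit 3690964303) (nat_lit 5) (nat_lit 5) (nat_lit 7) (nat_lit 4) (nat_lit 5) (nat_lit 4) (nat_lit 386) (nat_lit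 243) (nat_lit 151))) (XT.nd (nat_lit 78) (nat_lit 0) (nat_lit 0) (XT.lf (nat_lit 0) (nat_lit 32603241971) (nat_lit 152) (nat_lit 26598613246) (nat_lit 0) (nat_lit 6722967412) (nat_lit 5) (nat_lit 5) (nat_lit 7) (nat_lit 4) (nat_lit 5) (nat_lit 4) (nat_lit 387) (nat_lit 243) (nat_lit 150)) (XT.nd (nat_lit 78) (nat_lit 0) (nat_lit 0) (XT.lf (nat_lit 0) (nat_lit 35770736622) (nat_lit 152) (nat_lit 22198779665) (nat_lit 0) (nat_lit 9838925873) (nat_lit 5) (nat_lit 5) (nat_lit 7) (nat_lit 4) (nat_lit 5) (nat_lit 4) (nat_lit 388) (nat_lit 243) (nat_lit 149)) (XT.lf (nat_lit 0) (nat_lit 39023408253) (nat_lit 152) (nat_lit 17683906698) (nat_lit 0) (nat_lit 13041562370) (nat_lit 5) (nat_lit 5) (nat_lit 7) (nat_lit 4) (nat_lit 5) (nat_lit 4) (nat_lit 389) (nat_lit 243) (nat_lit 148))))) (XT.nd (nat_lit 234) (nat_lit 76) (nat_lit 0) (XT.nd (nat_lit 78) (nat_lit 0) (nat_lit 0) (XT.lf (nat_lit 0) (nat_lit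 42364099006) (nat_lit 152) (nat_lit 13050049311) (nat_lit 0) (nat_lit 16333675321) (nat_lit 5) (nat_lit 5) (nat_lit 7) (nat_lit 4) (nat_lit 5) (nat_lit 4) (nat_lit 390) (nat_lit 243) (nat_lit 147)) (XT.nd (nat_lit 78) (nat_lit 0) (nat_lit 0) (XT.lf (nat_lit 0) (nat_lit 45795727929) (nat_lit 152) (nat_lit 8293158502) (nat_lit 0) (nat_lit 19718141332) (nat_lit 5) (nat_lit 5) (nat_lit 7) (nat_lit 4) (nat_lit 5) (nat_lit 4) (nat_lit 391) (nat_lit 243) (nat_lit 146)) (XT.lf (nat_lit 0) (nat_lit 49321293535) (nat_lit 152) (nat_lit 3409077764) (nat_lit 0) (nat_lit 23197917701) (nat_lit 5) (nat_lit 5) (nat_lit 7) (nat_lit 4) (nat_lit 5) (nat_lit 4) (nat_lit 392) (nat_lit 243) (nat_lit 145)))) (XT.nd (nat_lit 78) (nat_lit 0) (nat_lit 0) (XT.lf (nat_lit 0) (nat_lit 1638432259) (nat_lit 76) (nat_lit 51321193767) (nat_lit 76) (nat_lit 25153362364) (nat_lit 4) (nat_lit 4) (nat_lit 5) (nat_lit 5) (nat_lit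 5) (nat_lit 4) (nat_lit 393) (nat_lit 243) (nat_lit 144)) (XT.nd (nat_lit 78) (nat_lit 0) (nat_lit 0) (XT.lf (nat_lit 0) (nat_lit 6892333180) (nat_lit 76) (nat_lit 49840562072) (nat_lit 76) (nat_lit 23629569921) (nat_lit 4) (nat_lit 4) (nat_lit 5) (nat_lit 5) (nat_lit 5) (nat_lit 4) (nat_lit 394) (nat_lit 243) (nat_lit 143)) (XT.lf (nat_lit 0) (nat_lit 12289368454) (nat_lit 76) (nat_lit 48321607458) (nat_lit 76) (nat_lit 22068711669) (nat_lit 4) (nat_lit 4) (nat_lit 5) (nat_lit 5) (nat_lit 5) (nat_lit 4) (nat_lit 395) (nat_lit 243) (nat_lit 142))))))) (XT.nd (nat_lit 33150) (nat_lit 0) (nat_lit 3876) (XT.nd (nat_lit 32682) (nat_lit 0) (nat_lit 6080) (XT.nd (nat_lit 156) (nat_lit 0) (nat_lit 0) (XT.nd (nat_lit 78) (nat_lit 0) (nat_lit 0) (XT.lf (nat_lit 0) (nat_lit 17834253935) (nat_lit 76) (nat_lit 46763002683) (nat_lit 76) (nat_lit 20469423751) (nat_lit 4) (nat_lit 4) (nat_lit 5) (nat_lit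 5) (nat_lit 5) (nat_lit 4) (nat_lit 396) (nat_lit 243) (nat_lit 141)) (XT.lf (nat_lit 0) (nat_lit 23531834671) (nat_lit 76) (nat_lit 45163385860) (nat_lit 76) (nat_lit 18830308731) (nat_lit 4) (nat_lit 4) (nat_lit 5) (nat_lit 5) (nat_lit 5) (nat_lit 4) (nat_lit 397) (nat_lit 243) (nat_lit 140))) (XT.nd (nat_lit 32370) (nat_lit 0) (nat_lit 7980) (XT.lf (nat_lit 0) (nat_lit 29387089129) (nat_lit 76) (nat_lit 43521359266) (nat_lit 76) (nat_lit 17149934372) (nat_lit 4) (nat_lit 4) (nat_lit 5) (nat_lit 5) (nat_lit 5) (nat_lit 4) (nat_lit 398) (nat_lit 243) (nat_lit 139)) (XT.nd (nat_lit 78) (nat_lit 0) (nat_lit 0) (XT.lf (nat_lit 0) (nat_lit 85172878) (nat_lit 532) (nat_lit 1894715199) (nat_lit 532) (nat_lit 1894715199) (nat_lit 109) (nat_lit 4) (nat_lit 116) (nat_lit 5) (nat_lit 116) (nat_lit 4) (nat_lit 292) (nat_lit 244) (nat_lit 244)) (XT.lf (nat_lit 0) (nat_lit 4882359530) (nat_lit 532) (nat_lit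 2124399653) (nat_lit 532) (nat_lit 832080464) (nat_lit 109) (nat_lit 4) (nat_lit 116) (nat_lit 5) (nat_lit 116) (nat_lit 4) (nat_lit 293) (nat_lit 244) (nat_lit 243))))) (XT.nd (nat_lit 234) (nat_lit 912) (nat_lit 0) (XT.nd (nat_lit 78) (nat_lit 456) (nat_lit 0) (XT.lf (nat_lit 0) (nat_lit 1724041436) (nat_lit 456) (nat_lit 379918883) (nat_lit 532) (nat_lit 5828850355) (nat_lit 102) (nat_lit 5) (nat_lit 108) (nat_lit 5) (nat_lit 109) (nat_lit 4) (nat_lit 294) (nat_lit 244) (nat_lit 242)) (XT.nd (nat_lit 78) (nat_lit 456) (nat_lit 0) (XT.lf (nat_lit 0) (nat_lit 5073176987) (nat_lit 532) (nat_lit 1539888256) (nat_lit 0) (nat_lit 1417708254) (nat_lit 102) (nat_lit 5) (nat_lit 109) (nat_lit 4) (nat_lit 102) (nat_lit 4) (nat_lit 295) (nat_lit 244) (nat_lit 241)) (XT.lf (nat_lit 0) (nat_lit 3236598422) (nat_lit 456) (nat_lit 4850180744) (nat_lit 456) (nat_lit 46503150) (nat_lit 96) (nat_lit 4) (nat_lit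 102) (nat_lit 5) (nat_lit 102) (nat_lit 4) (nat_lit 296) (nat_lit 244) (nat_lit 240)))) (XT.nd (nat_lit 78) (nat_lit 836) (nat_lit 0) (XT.lf (nat_lit 0) (nat_lit 2830875477) (nat_lit 532) (nat_lit 171766259) (nat_lit 76) (nat_lit 5237527835) (nat_lit 95) (nat_lit 5) (nat_lit 102) (nat_lit 5) (nat_lit 96) (nat_lit 4) (nat_lit 297) (nat_lit 244) (nat_lit 239)) (XT.nd (nat_lit 78) (nat_lit 456) (nat_lit 0) (XT.lf (nat_lit 0) (nat_lit 4695994039) (nat_lit 380) (nat_lit 1065944134) (nat_lit 456) (nat_lit 2589506314) (nat_lit 90) (nat_lit 5) (nat_lit 95) (nat_lit 5) (nat_lit 96) (nat_lit 4) (nat_lit 298) (nat_lit 244) (nat_lit 238)) (XT.lf (nat_lit 0) (nat_lit 254296061) (nat_lit 456) (nat_lit 7300783089) (nat_lit 76) (nat_lit 912750524) (nat_lit 84) (nat_lit 5) (nat_lit 90) (nat_lit 5) (nat_lit 85) (nat_lit 4) (nat_lit 299) (nat_lit 244) (nat_lit 237)))))) (XT.nd (nat_lit 468) (nat_lit 1064) (nat_lit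 0) (XT.nd (nat_lit 234) (nat_lit 684) (nat_lit 0) (XT.nd (nat_lit 78) (nat_lit 456) (nat_lit 0) (XT.lf (nat_lit 0) (nat_lit 3103973217) (nat_lit 456) (nat_lit 2506393512) (nat_lit 76) (nat_lit 2977615404) (nat_lit 84) (nat_lit 5) (nat_lit 90) (nat_lit 5) (nat_lit 85) (nat_lit 4) (nat_lit 300) (nat_lit 244) (nat_lit 236)) (XT.nd (nat_lit 78) (nat_lit 76) (nat_lit 0) (XT.lf (nat_lit 0) (nat_lit 2388743547) (nat_lit 380) (nat_lit 3600325189) (nat_lit 456) (nat_lit 2724389183) (nat_lit 79) (nat_lit 5) (nat_lit 84) (nat_lit 5) (nat_lit 85) (nat_lit 4) (nat_lit 301) (nat_lit 244) (nat_lit 235)) (XT.lf (nat_lit 0) (nat_lit 68599148) (nat_lit 456) (nat_lit 1451678815) (nat_lit 76) (nat_lit 7324003654) (nat_lit 78) (nat_lit 5) (nat_lit 84) (nat_lit 5) (nat_lit 79) (nat_lit 5) (nat_lit 302) (nat_lit 244) (nat_lit 234)))) (XT.nd (nat_lit 78) (nat_lit 304) (nat_lit 0) (XT.lf (nat_lit 0) (nat_lit 2860326418)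 (nat_lit 456) (nat_lit 5464480619) (nat_lit 76) (nat_lit 654520775) (nat_lit 73) (nat_lit 5) (nat_lit 79) (nat_lit 5) (nat_lit 74) (nat_lit 4) (nat_lit 303) (nat_lit 244) (nat_lit 233)) (XT.nd (nat_lit 78) (nat_lit 304) (nat_lit 0) (XT.lf (nat_lit 0) (nat_lit 5696151208) (nat_lit 456) (nat_lit 562131521) (nat_lit 76) (nat_lit 2861524734) (nat_lit 73) (nat_lit 5) (nat_lit 79) (nat_lit 5) (nat_lit 74) (nat_lit 4) (nat_lit 304) (nat_lit 244) (nat_lit 232)) (XT.lf (nat_lit 0) (nat_lit 4488391689) (nat_lit 304) (nat_lit 4104318003) (nat_lit 380) (nat_lit 672708880) (nat_lit 69) (nat_lit 5) (nat_lit 73) (nat_lit 5) (nat_lit 74) (nat_lit 4) (nat_lit 305) (nat_lit 244) (nat_lit 231))))) (XT.nd (nat_lit 234) (nat_lit 380) (nat_lit 0) (XT.nd (nat_lit 78) (nat_lit 304) (nat_lit 0) (XT.lf (nat_lit 0) (nat_lit 182310446) (nat_lit 304) (nat_lit 1876598749) (nat_lit 380) (nat_lit 7357832613) (nat_lit 64)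 (nat_lit 5) (nat_lit 68) (nat_lit 5) (nat_lit 69) (nat_lit 5) (nat_lit 306) (nat_lit 244) (nat_lit 230)) (XT.nd (nat_lit 78) (nat_lit 304) (nat_lit 0) (XT.lf (nat_lit 0) (nat_lit 4845442976) (nat_lit 380) (nat_lit 4282210896) (nat_lit 76) (nat_lit 445327399) (nat_lit 64) (nat_lit 5) (nat_lit 69) (nat_lit 5) (nat_lit 65) (nat_lit 4) (nat_lit 307) (nat_lit 244) (nat_lit 229)) (XT.lf (nat_lit 0) (nat_lit 728532810) (nat_lit 304) (nat_lit 6948306857) (nat_lit 380) (nat_lit 2058396247) (nat_lit 60) (nat_lit 5) (nat_lit 64) (nat_lit 5) (nat_lit 65) (nat_lit 4) (nat_lit 308) (nat_lit 244) (nat_lit 228)))) (XT.nd (nat_lit 78) (nat_lit 304) (nat_lit 0) (XT.lf (nat_lit 0) (nat_lit 656966775) (nat_lit 380) (nat_lit 4017020252) (nat_lit 76) (nat_lit 5228939609) (nat_lit 59) (nat_lit 5) (nat_lit 64) (nat_lit 5) (nat_lit 60) (nat_lit 5) (nat_lit 309) (nat_lit 244) (nat_lit 227)) (XT.nd (nat_lit 78) (nat_lit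 0) (nat_lit 0) (XT.lf (nat_lit 0) (nat_lit 1038479590) (nat_lit 304) (nat_lit 2321744229) (nat_lit 380) (nat_lit 6716530627) (nat_lit 55) (nat_lit 5) (nat_lit 59) (nat_lit 5) (nat_lit 60) (nat_lit 5) (nat_lit 310) (nat_lit 244) (nat_lit 226)) (XT.lf (nat_lit 0) (nat_lit 6125142559) (nat_lit 380) (nat_lit 4012673666) (nat_lit 76) (nat_lit 118711436) (nat_lit 55) (nat_lit 5) (nat_lit 60) (nat_lit 5) (nat_lit 56) (nat_lit 4) (nat_lit 311) (nat_lit 244) (nat_lit 225))))))))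
noncomputable def xc68 : XT := (XT.nd (nat_lit 1716) (nat_lit 912) (nat_lit 0) (XT.nd (nat_lit 858) (nat_lit 912) (nat_lit 0) (XT.nd (nat_lit 390) (nat_lit 608) (nat_lit 0) (XT.nd (nat_lit 156) (nat_lit 532) (nat_lit 0) (XT.nd (nat_lit 78) (nat_lit 76) (nat_lit 0) (XT.lf (nat_lit 0) (nat_lit 1079531037) (nat_lit 228) (nat_lit 7867256897) (nat_lit 304) (nat_lit 1495835962) (nat_lit 52) (nat_lit 5) (nat_lit 55) (nat_lit 5) (nat_lit 56) (nat_lit 4) (nat_lit 312) (nat_lit 244) (nat_lit 224)) (XT.lf (nat_lit 0) (nat_lit 1176568444) (nat_lit 304) (nat_lit 4321198847) (nat_lit 76) (nat_lit 5136872083) (nat_lit 51) (nat_lit 5) (nat_lit 55) (nat_lit 5) (nat_lit 52) (nat_lit 5) (nat_lit 313) (nat_lit 244) (nat_lit 223))) (XT.nd (nat_lit 78) (nat_lit 228) (nat_lit 0) (XT.lf (nat_lit 0) (nat_lit 792259478) (nat_lit 304) (nat_lit 3056815246) (nat_lit 380) (nat_lit 6984527493) (nat_lit 47) (nat_lit 5) (nat_lit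 51) (nat_lit 5) (nat_lit 52) (nat_lit 5) (nat_lit 314) (nat_lit 244) (nat_lit 222)) (XT.nd (nat_lit 78) (nat_lit 228) (nat_lit 0) (XT.lf (nat_lit 0) (nat_lit 6068147476) (nat_lit 304) (nat_lit 520536791) (nat_lit 380) (nat_lit 4450369062) (nat_lit 47) (nat_lit 5) (nat_lit 51) (nat_lit 5) (nat_lit 52) (nat_lit 5) (nat_lit 315) (nat_lit 244) (nat_lit 221)) (XT.lf (nat_lit 0) (nat_lit 155776678) (nat_lit 228) (nat_lit 9221041684) (nat_lit 304) (nat_lit 1874983045) (nat_lit 44) (nat_lit 5) (nat_lit 47) (nat_lit 5) (nat_lit 48) (nat_lit 4) (nat_lit 316) (nat_lit 244) (nat_lit 220))))) (XT.nd (nat_lit 234) (nat_lit 304) (nat_lit 0) (XT.nd (nat_lit 78) (nat_lit 228) (nat_lit 0) (XT.lf (nat_lit 0) (nat_lit 763271085) (nat_lit 304) (nat_lit 6023632942) (nat_lit 76) (nat_lit 4683896623) (nat_lit 43) (nat_lit 5) (nat_lit 47) (nat_lit 5) (nat_lit 44) (nat_lit 5) (nat_lit 317) (nat_lit 244) (nat_lit 219))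 (XT.nd (nat_lit 78) (nat_lit 228) (nat_lit 0) (XT.lf (nat_lit 0) (nat_lit 3389525735) (nat_lit 304) (nat_lit 894564733) (nat_lit 76) (nat_lit 7413439369) (nat_lit 43) (nat_lit 5) (nat_lit 47) (nat_lit 5) (nat_lit 44) (nat_lit 5) (nat_lit 318) (nat_lit 244) (nat_lit 218)) (XT.lf (nat_lit 0) (nat_lit 4399535882) (nat_lit 228) (nat_lit 1685418511) (nat_lit 304) (nat_lit 5846504664) (nat_lit 40) (nat_lit 5) (nat_lit 43) (nat_lit 5) (nat_lit 44) (nat_lit 5) (nat_lit 319) (nat_lit 244) (nat_lit 217)))) (XT.nd (nat_lit 78) (nat_lit 304) (nat_lit 0) (XT.lf (nat_lit 0) (nat_lit 8828573355) (nat_lit 304) (nat_lit 2386333672) (nat_lit 76) (nat_lit 958585853) (nat_lit 40) (nat_lit 5) (nat_lit 44) (nat_lit 5) (nat_lit 41) (nat_lit 4) (nat_lit 320) (nat_lit 244) (nat_lit 216)) (XT.nd (nat_lit 78) (nat_lit 76) (nat_lit 0) (XT.lf (nat_lit 0) (nat_lit 2879951770) (nat_lit 228) (nat_lit 8769091647) (nat_lit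 304) (nat_lit 774011471) (nat_lit 37) (nat_lit 5) (nat_lit 40) (nat_lit 5) (nat_lit 41) (nat_lit 4) (nat_lit 321) (nat_lit 244) (nat_lit 215)) (XT.lf (nat_lit 0) (nat_lit 1812132496) (nat_lit 304) (nat_lit 4418041406) (nat_lit 76) (nat_lit 6450246608) (nat_lit 36) (nat_lit 5) (nat_lit 40) (nat_lit 5) (nat_lit 37) (nat_lit 5) (nat_lit 322) (nat_lit 244) (nat_lit 214)))))) (XT.nd (nat_lit 390) (nat_lit 456) (nat_lit 0) (XT.nd (nat_lit 156) (nat_lit 228) (nat_lit 0) (XT.nd (nat_lit 78) (nat_lit 0) (nat_lit 0) (XT.lf (nat_lit 0) (nat_lit 797257307) (nat_lit 228) (nat_lit 3622498439) (nat_lit 304) (nat_lit 8526832561) (nat_lit 33) (nat_lit 5) (nat_lit 36) (nat_lit 5) (nat_lit 37) (nat_lit 5) (nat_lit 323) (nat_lit 244) (nat_lit 213)) (XT.lf (nat_lit 0) (nat_lit 6188871854) (nat_lit 228) (nat_lit 913862037) (nat_lit 304) (nat_lit 6118185375) (nat_lit 33) (nat_lit 5) (nat_lit 36) (nat_lit 5) (nat_lit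 37) (nat_lit 5) (nat_lit 324) (nat_lit 244) (nat_lit 212))) (XT.nd (nat_lit 78) (nat_lit 228) (nat_lit 0) (XT.lf (nat_lit 0) (nat_lit 9837914012) (nat_lit 304) (nat_lit 1849183714) (nat_lit 76) (nat_lit 1817320281) (nat_lit 33) (nat_lit 5) (nat_lit 37) (nat_lit 5) (nat_lit 34) (nat_lit 4) (nat_lit 325) (nat_lit 244) (nat_lit 211)) (XT.nd (nat_lit 78) (nat_lit 76) (nat_lit 0) (XT.lf (nat_lit 0) (nat_lit 3480159447) (nat_lit 152) (nat_lit 9172519854) (nat_lit 228) (nat_lit 1143903153) (nat_lit 31) (nat_lit 5) (nat_lit 33) (nat_lit 5) (nat_lit 34) (nat_lit 4) (nat_lit 326) (nat_lit 244) (nat_lit 210)) (XT.lf (nat_lit 0) (nat_lit 1400024519) (nat_lit 228) (nat_lit 5172004738) (nat_lit 76) (nat_lit 7525923961) (nat_lit 30) (nat_lit 5) (nat_lit 33) (nat_lit 5) (nat_lit 31) (nat_lit 5) (nat_lit 327) (nat_lit 244) (nat_lit 209))))) (XT.nd (nat_lit 234) (nat_lit 228) (nat_lit 0) (XT.nd (nat_lit 78)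 (nat_lit 0) (nat_lit 0) (XT.lf (nat_lit 0) (nat_lit 50208575) (nat_lit 228) (nat_lit 3904029362) (nat_lit 304) (nat_lit 10455157900) (nat_lit 27) (nat_lit 5) (nat_lit 30) (nat_lit 5) (nat_lit 31) (nat_lit 5) (nat_lit 328) (nat_lit 244) (nat_lit 208)) (XT.nd (nat_lit 78) (nat_lit 0) (nat_lit 0) (XT.lf (nat_lit 0) (nat_lit 5469566773) (nat_lit 228) (nat_lit 1124852331) (nat_lit 304) (nat_lit 8135559365) (nat_lit 27) (nat_lit 5) (nat_lit 30) (nat_lit 5) (nat_lit 31) (nat_lit 5) (nat_lit 329) (nat_lit 244) (nat_lit 207)) (XT.lf (nat_lit 0) (nat_lit 9288661434) (nat_lit 304) (nat_lit 4090122621) (nat_lit 76) (nat_lit 1682223586) (nat_lit 27) (nat_lit 5) (nat_lit 31) (nat_lit 5) (nat_lit 28) (nat_lit 4) (nat_lit 330) (nat_lit 244) (nat_lit 206)))) (XT.nd (nat_lit 78) (nat_lit 76) (nat_lit 0) (XT.lf (nat_lit 0) (nat_lit 1184389562) (nat_lit 152) (nat_lit 10861234467) (nat_lit 228) (nat_lit 3356959425)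 (nat_lit 25) (nat_lit 5) (nat_lit 27) (nat_lit 5) (nat_lit 28) (nat_lit 4) (nat_lit 331) (nat_lit 244) (nat_lit 205)) (XT.nd (nat_lit 78) (nat_lit 76) (nat_lit 0) (XT.lf (nat_lit 0) (nat_lit 6638736774) (nat_lit 152) (nat_lit 8247816766) (nat_lit 228) (nat_lit 867885703) (nat_lit 25) (nat_lit 5) (nat_lit 27) (nat_lit 5) (nat_lit 28) (nat_lit 4) (nat_lit 332) (nat_lit 244) (nat_lit 204)) (XT.lf (nat_lit 0) (nat_lit 1623438056) (nat_lit 228) (nat_lit 3937718003) (nat_lit 76) (nat_lit 10556451890) (nat_lit 24) (nat_lit 5) (nat_lit 27) (nat_lit 5) (nat_lit 25) (nat_lit 5) (nat_lit 333) (nat_lit 244) (nat_lit 203))))))) (XT.nd (nat_lit 858) (nat_lit 380) (nat_lit 0) (XT.nd (nat_lit 390) (nat_lit 228) (nat_lit 0) (XT.nd (nat_lit 156) (nat_lit 152) (nat_lit 0) (XT.nd (nat_lit 78) (nat_lit 0) (nat_lit 0) (XT.lf (nat_lit 0) (nat_lit 1353938078) (nat_lit 152) (nat_lit 2792950386) (nat_lit 228) (nat_lit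 12345345013) (nat_lit 22) (nat_lit 5) (nat_lit 24) (nat_lit 5) (nat_lit 25) (nat_lit 5) (nat_lit 334) (nat_lit 244) (nat_lit 202)) (XT.lf (nat_lit 0) (nat_lit 6748916811) (nat_lit 228) (nat_lit 10052694954) (nat_lit 76) (nat_lit 76462359) (nat_lit 22) (nat_lit 5) (nat_lit 25) (nat_lit 5) (nat_lit 23) (nat_lit 4) (nat_lit 335) (nat_lit 244) (nat_lit 201))) (XT.nd (nat_lit 78) (nat_lit 152) (nat_lit 0) (XT.lf (nat_lit 0) (nat_lit 9419918273) (nat_lit 228) (nat_lit 4900333992) (nat_lit 76) (nat_lit 2955571121) (nat_lit 22) (nat_lit 5) (nat_lit 25) (nat_lit 5) (nat_lit 23) (nat_lit 4) (nat_lit 336) (nat_lit 244) (nat_lit 200)) (XT.nd (nat_lit 78) (nat_lit 0) (nat_lit 0) (XT.lf (nat_lit 0) (nat_lit 357105510) (nat_lit 152) (nat_lit 11781706395) (nat_lit 228) (nat_lit 5547719353) (nat_lit 20) (nat_lit 5) (nat_lit 22) (nat_lit 5) (nat_lit 23) (nat_lit 4) (nat_lit 337) (nat_lit 244) (nat_lit 199))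 (XT.lf (nat_lit 0) (nat_lit 5816813076) (nat_lit 152) (nat_lit 9136773981) (nat_lit 228) (nat_lit 3155601144) (nat_lit 20) (nat_lit 5) (nat_lit 22) (nat_lit 5) (nat_lit 23) (nat_lit 4) (nat_lit 338) (nat_lit 244) (nat_lit 198))))) (XT.nd (nat_lit 234) (nat_lit 0) (nat_lit 0) (XT.nd (nat_lit 78) (nat_lit 228) (nat_lit 0) (XT.lf (nat_lit 0) (nat_lit 11386033067) (nat_lit 152) (nat_lit 6432627681) (nat_lit 228) (nat_lit 726944052) (nat_lit 20) (nat_lit 5) (nat_lit 22) (nat_lit 5) (nat_lit 23) (nat_lit 4) (nat_lit 339) (nat_lit 244) (nat_lit 197)) (XT.nd (nat_lit 78) (nat_lit 152) (nat_lit 0) (XT.lf (nat_lit 0) (nat_lit 1706413083) (nat_lit 228) (nat_lit 1943260140) (nat_lit 76) (nat_lit 15345987283) (nat_lit 19) (nat_lit 5) (nat_lit 22) (nat_lit 5) (nat_lit 20) (nat_lit 5) (nat_lit 340) (nat_lit 244) (nat_lit 196)) (XT.lf (nat_lit 0) (nat_lit 3437560758) (nat_lit 152) (nat_lit 761088535) (nat_lit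 228) (nat_lit 15260388878) (nat_lit 17) (nat_lit 5) (nat_lit 19) (nat_lit 5) (nat_lit 20) (nat_lit 5) (nat_lit 341) (nat_lit 244) (nat_lit 195)))) (XT.nd (nat_lit 78) (nat_lit 0) (nat_lit 0) (XT.lf (nat_lit 0) (nat_lit 6774468559) (nat_lit 228) (nat_lit 10989746008) (nat_lit 76) (nat_lit 2171887528) (nat_lit 17) (nat_lit 5) (nat_lit 20) (nat_lit 5) (nat_lit 18) (nat_lit 4) (nat_lit 342) (nat_lit 244) (nat_lit 194)) (XT.nd (nat_lit 78) (nat_lit 0) (nat_lit 0) (XT.lf (nat_lit 0) (nat_lit 9403753041) (nat_lit 228) (nat_lit 5865259023) (nat_lit 76) (nat_lit 5159228121) (nat_lit 17) (nat_lit 5) (nat_lit 20) (nat_lit 5) (nat_lit 18) (nat_lit 4) (nat_lit 343) (nat_lit 244) (nat_lit 193)) (XT.lf (nat_lit 0) (nat_lit 12081484125) (nat_lit 228) (nat_lit 636222703) (nat_lit 76) (nat_lit 8218395118) (nat_lit 17) (nat_lit 5) (nat_lit 20) (nat_lit 5) (nat_lit 18) (nat_lit 4) (nat_lit 344) (nat_lit 244) (nat_lit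 192)))))) (XT.nd (nat_lit 390) (nat_lit 76) (nat_lit 0) (XT.nd (nat_lit 156) (nat_lit 228) (nat_lit 0) (XT.nd (nat_lit 78) (nat_lit 0) (nat_lit 0) (XT.lf (nat_lit 0) (nat_lit 4795509679) (nat_lit 76) (nat_lit 10060589270) (nat_lit 152) (nat_lit 6602649272) (nat_lit 16) (nat_lit 5) (nat_lit 17) (nat_lit 5) (nat_lit 18) (nat_lit 4) (nat_lit 345) (nat_lit 244) (nat_lit 191)) (XT.lf (nat_lit 0) (nat_lit 10355951444) (nat_lit 76) (nat_lit 7335285831) (nat_lit 152) (nat_lit 4306561953) (nat_lit 16) (nat_lit 5) (nat_lit 17) (nat_lit 5) (nat_lit 18) (nat_lit 4) (nat_lit 346) (nat_lit 244) (nat_lit 190))) (XT.nd (nat_lit 78) (nat_lit 228) (nat_lit 0) (XT.lf (nat_lit 0) (nat_lit 16037299152) (nat_lit 76) (nat_lit 4545839781) (nat_lit 152) (nat_lit 1970774176) (nat_lit 16) (nat_lit 5) (nat_lit 17) (nat_lit 5) (nat_lit 18) (nat_lit 4) (nat_lit 347) (nat_lit 244) (nat_lit 189)) (XT.nd (nat_lit 78) (nat_lit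 152) (nat_lit 0) (XT.lf (nat_lit 0) (nat_lit 398817781) (nat_lit 152) (nat_lit 1286968682) (nat_lit 76) (nat_lit 21441672027) (nat_lit 15) (nat_lit 5) (nat_lit 17) (nat_lit 5) (nat_lit 16) (nat_lit 5) (nat_lit 348) (nat_lit 244) (nat_lit 188)) (XT.lf (nat_lit 0) (nat_lit 2825022598) (nat_lit 228) (nat_lit 19613287203) (nat_lit 76) (nat_lit 1278599982) (nat_lit 13) (nat_lit 5) (nat_lit 16) (nat_lit 5) (nat_lit 14) (nat_lit 4) (nat_lit 349) (nat_lit 244) (nat_lit 187))))) (XT.nd (nat_lit 234) (nat_lit 76) (nat_lit 0) (XT.nd (nat_lit 78) (nat_lit 0) (nat_lit 0) (XT.lf (nat_lit 0) (nat_lit 5327065358) (nat_lit 228) (nat_lit 14702253398) (nat_lit 76) (nat_lit 4294672174) (nat_lit 13) (nat_lit 5) (nat_lit 16) (nat_lit 5) (nat_lit 14) (nat_lit 4) (nat_lit 350) (nat_lit 244) (nat_lit 186)) (XT.nd (nat_lit 78) (nat_lit 0) (nat_lit 0) (XT.lf (nat_lit 0) (nat_lit 7878185235) (nat_lit 228) (nat_lit 9686696548)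 (nat_lit 76) (nat_lit 7385219014) (nat_lit 13) (nat_lit 5) (nat_lit 16) (nat_lit 5) (nat_lit 14) (nat_lit 4) (nat_lit 351) (nat_lit 244) (nat_lit 185)) (XT.lf (nat_lit 0) (nat_lit 10480611364) (nat_lit 228) (nat_lit 4562234128) (nat_lit 76) (nat_lit 10552940982) (nat_lit 13) (nat_lit 5) (nat_lit 16) (nat_lit 5) (nat_lit 14) (nat_lit 4) (nat_lit 352) (nat_lit 244) (nat_lit 184)))) (XT.nd (nat_lit 78) (nat_lit 0) (nat_lit 0) (XT.lf (nat_lit 0) (nat_lit 689057542) (nat_lit 76) (nat_lit 12454183811) (nat_lit 152) (nat_lit 13118172090) (nat_lit 12) (nat_lit 5) (nat_lit 13) (nat_lit 5) (nat_lit 14) (nat_lit 4) (nat_lit 353) (nat_lit 244) (nat_lit 183)) (XT.nd (nat_lit 78) (nat_lit 0) (nat_lit 0) (XT.lf (nat_lit 0) (nat_lit 6151454266) (nat_lit 76) (nat_lit 9756202330) (nat_lit 152) (nat_lit 11038729076) (nat_lit 12) (nat_lit 5) (nat_lit 13) (nat_lit 5) (nat_lit 14) (nat_lit 4) (nat_lit 354) (nat_lit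 244) (nat_lit 182)) (XT.lf (nat_lit 0) (nat_lit 11738931608) (nat_lit 76) (nat_lit 6992613209) (nat_lit 152) (nat_lit 8921098700) (nat_lit 12) (nat_lit 5) (nat_lit 13) (nat_lit 5) (nat_lit 14) (nat_lit 4) (nat_lit 355) (nat_lit 244) (nat_lit 181))))))))
noncomputable def xc69 : XT := (XT.nd (nat_lit 1716) (nat_lit 152) (nat_lit 0) (XT.nd (nat_lit 858) (nat_lit 152) (nat_lit 0) (XT.nd (nat_lit 390) (nat_lit 76) (nat_lit 0) (XT.nd (nat_lit 156) (nat_lit 228) (nat_lit 0) (XT.nd (nat_lit 78) (nat_lit 0) (nat_lit 0) (XT.lf (nat_lit 0) (nat_lit 17456371830) (nat_lit 76) (nat_lit 4161001662) (nat_lit 152) (nat_lit 6763430604) (nat_lit 12) (nat_lit 5) (nat_lit 13) (nat_lit 5) (nat_lit 14) (nat_lit 4) (nat_lit 356) (nat_lit 244) (nat_lit 180)) (XT.lf (nat_lit 0) (nat_lit 23308770752) (nat_lit 76) (nat_lit 1258893465) (nat_lit 152) (nat_lit 4563839447) (nat_lit 12) (nat_lit 5) (nat_lit 13) (nat_lit 5)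 (nat_lit 14) (nat_lit 4) (nat_lit 357) (nat_lit 244) (nat_lit 179))) (XT.nd (nat_lit 78) (nat_lit 228) (nat_lit 0) (XT.lf (nat_lit 0) (nat_lit 27601492536) (nat_lit 152) (nat_lit 620653671) (nat_lit 0) (nat_lit 1682757039) (nat_lit 12) (nat_lit 5) (nat_lit 14) (nat_lit 4) (nat_lit 12) (nat_lit 4) (nat_lit 358) (nat_lit 244) (nat_lit 178)) (XT.nd (nat_lit 78) (nat_lit 0) (nat_lit 0) (XT.lf (nat_lit 0) (nat_lit 62159525) (nat_lit 228) (nat_lit 25917643516) (nat_lit 76) (nat_lit 4720588393) (nat_lit 9) (nat_lit 5) (nat_lit 12) (nat_lit 5) (nat_lit 10) (nat_lit 4) (nat_lit 359) (nat_lit 244) (nat_lit 177)) (XT.lf (nat_lit 0) (nat_lit 2437800970) (nat_lit 228) (nat_lit 21216539789) (nat_lit 76) (nat_lit 7865184673) (nat_lit 9) (nat_lit 5) (nat_lit 12) (nat_lit 5) (nat_lit 10) (nat_lit 4) (nat_lit 360) (nat_lit 244) (nat_lit 176))))) (XT.nd (nat_lit 234) (nat_lit 76) (nat_lit 0) (XT.nd (nat_lit 78)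 (nat_lit 0) (nat_lit 0) (XT.lf (nat_lit 0) (nat_lit 4864392179) (nat_lit 228) (nat_lit 16408470708) (nat_lit 76) (nat_lit 11091006706) (nat_lit 9) (nat_lit 5) (nat_lit 12) (nat_lit 5) (nat_lit 10) (nat_lit 4) (nat_lit 361) (nat_lit 244) (nat_lit 175)) (XT.nd (nat_lit 78) (nat_lit 0) (nat_lit 0) (XT.lf (nat_lit 0) (nat_lit 7344053475) (nat_lit 228) (nat_lit 11489235046) (nat_lit 76) (nat_lit 14400873171) (nat_lit 9) (nat_lit 5) (nat_lit 12) (nat_lit 5) (nat_lit 10) (nat_lit 4) (nat_lit 362) (nat_lit 244) (nat_lit 174)) (XT.lf (nat_lit 0) (nat_lit 9878951553) (nat_lit 228) (nat_lit 6454534444) (nat_lit 76) (nat_lit 17797676184) (nat_lit 9) (nat_lit 5) (nat_lit 12) (nat_lit 5) (nat_lit 10) (nat_lit 4) (nat_lit 363) (nat_lit 244) (nat_lit 173)))) (XT.nd (nat_lit 78) (nat_lit 76) (nat_lit 0) (XT.lf (nat_lit 0) (nat_lit 12471301371) (nat_lit 228) (nat_lit 1299969647) (nat_lit 76) (nat_lit 21284383827)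 (nat_lit 9) (nat_lit 5) (nat_lit 12) (nat_lit 5) (nat_lit 10) (nat_lit 4) (nat_lit 364) (nat_lit 244) (nat_lit 172)) (XT.nd (nat_lit 78) (nat_lit 0) (nat_lit 0) (XT.lf (nat_lit 0) (nat_lit 4058152503) (nat_lit 76) (nat_lit 11104225032) (nat_lit 152) (nat_lit 20844899676) (nat_lit 8) (nat_lit 5) (nat_lit 9) (nat_lit 5) (nat_lit 10) (nat_lit 4) (nat_lit 365) (nat_lit 244) (nat_lit 171)) (XT.lf (nat_lit 0) (nat_lit 9573694414) (nat_lit 76) (nat_lit 8355802844) (nat_lit 152) (nat_lit 19058114561) (nat_lit 8) (nat_lit 5) (nat_lit 9) (nat_lit 5) (nat_lit 10) (nat_lit 4) (nat_lit 366) (nat_lit 244) (nat_lit 170)))))) (XT.nd (nat_lit 390) (nat_lit 152) (nat_lit 0) (XT.nd (nat_lit 156) (nat_lit 0) (nat_lit 0) (XT.nd (nat_lit 78) (nat_lit 0) (nat_lit 0) (XT.lf (nat_lit 0) (nat_lit 15225603544) (nat_lit 76) (nat_lit 5536730068) (nat_lit 152) (nat_lit 17235564005) (nat_lit 8) (nat_lit 5) (nat_lit 9) (nat_lit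 5) (nat_lit 10) (nat_lit 4) (nat_lit 367) (nat_lit 244) (nat_lit 169)) (XT.lf (nat_lit 0) (nat_lit 21018818456) (nat_lit 76) (nat_lit 2644543434) (nat_lit 152) (nat_lit 15375655488) (nat_lit 8) (nat_lit 5) (nat_lit 9) (nat_lit 5) (nat_lit 10) (nat_lit 4) (nat_lit 368) (nat_lit 244) (nat_lit 168))) (XT.nd (nat_lit 78) (nat_lit 0) (nat_lit 0) (XT.lf (nat_lit 0) (nat_lit 26638224577) (nat_lit 152) (nat_lit 13156587243) (nat_lit 0) (nat_lit 316975770) (nat_lit 8) (nat_lit 5) (nat_lit 10) (nat_lit 4) (nat_lit 8) (nat_lit 4) (nat_lit 369) (nat_lit 244) (nat_lit 167)) (XT.nd (nat_lit 78) (nat_lit 0) (nat_lit 0) (XT.lf (nat_lit 0) (nat_lit 29712583752) (nat_lit 152) (nat_lit 8200271962) (nat_lit 0) (nat_lit 3303598032) (nat_lit 8) (nat_lit 5) (nat_lit 10) (nat_lit 4) (nat_lit 8) (nat_lit 4) (nat_lit 370) (nat_lit 244) (nat_lit 166)) (XT.lf (nat_lit 0) (nat_lit 32863704778) (nat_lit 152) (nat_lit 3121501348)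 (nat_lit 0) (nat_lit 6369537590) (nat_lit 8) (nat_lit 5) (nat_lit 10) (nat_lit 4) (nat_lit 8) (nat_lit 4) (nat_lit 371) (nat_lit 244) (nat_lit 165))))) (XT.nd (nat_lit 234) (nat_lit 76) (nat_lit 0) (XT.nd (nat_lit 78) (nat_lit 0) (nat_lit 0) (XT.lf (nat_lit 0) (nat_lit 2125641275) (nat_lit 76) (nat_lit 33989132750) (nat_lit 76) (nat_lit 7412265108) (nat_lit 7) (nat_lit 4) (nat_lit 8) (nat_lit 5) (nat_lit 8) (nat_lit 4) (nat_lit 372) (nat_lit 244) (nat_lit 164)) (XT.nd (nat_lit 78) (nat_lit 0) (nat_lit 0) (XT.lf (nat_lit 0) (nat_lit 7568965576) (nat_lit 76) (nat_lit 31911107440) (nat_lit 76) (nat_lit 5253948095) (nat_lit 7) (nat_lit 4) (nat_lit 8) (nat_lit 5) (nat_lit 8) (nat_lit 4) (nat_lit 373) (nat_lit 244) (nat_lit 163)) (XT.lf (nat_lit 0) (nat_lit 13151103860) (nat_lit 76) (nat_lit 29780835489) (nat_lit 76) (nat_lit 3045723034) (nat_lit 7) (nat_lit 4) (nat_lit 8) (nat_lit 5) (nat_lit 8)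 (nat_lit 4) (nat_lit 374) (nat_lit 244) (nat_lit 162)))) (XT.nd (nat_lit 78) (nat_lit 76) (nat_lit 0) (XT.lf (nat_lit 0) (nat_lit 18876933722) (nat_lit 76) (nat_lit 27596455495) (nat_lit 76) (nat_lit 785660409) (nat_lit 7) (nat_lit 4) (nat_lit 8) (nat_lit 5) (nat_lit 8) (nat_lit 4) (nat_lit 375) (nat_lit 244) (nat_lit 161)) (XT.nd (nat_lit 78) (nat_lit 0) (nat_lit 0) (XT.lf (nat_lit 0) (nat_lit 1498393622) (nat_lit 152) (nat_lit 23842534314) (nat_lit 76) (nat_lit 23237933856) (nat_lit 6) (nat_lit 5) (nat_lit 8) (nat_lit 5) (nat_lit 7) (nat_lit 4) (nat_lit 376) (nat_lit 244) (nat_lit 160)) (XT.lf (nat_lit 0) (nat_lit 3821861272) (nat_lit 152) (nat_lit 19197233123) (nat_lit 76) (nat_lit 26919356143) (nat_lit 6) (nat_lit 5) (nat_lit 8) (nat_lit 5) (nat_lit 7) (nat_lit 4) (nat_lit 377) (nat_lit 244) (nat_lit 159))))))) (XT.nd (nat_lit 858) (nat_lit 76) (nat_lit 0) (XT.nd (nat_lit 390) (nat_lit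 0) (nat_lit 0) (XT.nd (nat_lit 156) (nat_lit 76) (nat_lit 0) (XT.nd (nat_lit 78) (nat_lit 0) (nat_lit 0) (XT.lf (nat_lit 0) (nat_lit 6202103819) (nat_lit 152) (nat_lit 14434601081) (nat_lit 76) (nat_lit 30702525520) (nat_lit 6) (nat_lit 5) (nat_lit 8) (nat_lit 5) (nat_lit 7) (nat_lit 4) (nat_lit 378) (nat_lit 244) (nat_lit 158)) (XT.lf (nat_lit 0) (nat_lit 8641201088) (nat_lit 152) (nat_lit 9550476663) (nat_lit 76) (nat_lit 34590747671) (nat_lit 6) (nat_lit 5) (nat_lit 8) (nat_lit 5) (nat_lit 7) (nat_lit 4) (nat_lit 379) (nat_lit 244) (nat_lit 157))) (XT.nd (nat_lit 78) (nat_lit 76) (nat_lit 0) (XT.lf (nat_lit 0) (nat_lit 11141284327) (nat_lit 152) (nat_lit 4540592190) (nat_lit 76) (nat_lit 38587420070) (nat_lit 6) (nat_lit 5) (nat_lit 8) (nat_lit 5) (nat_lit 7) (nat_lit 4) (nat_lit 380) (nat_lit 244) (nat_lit 156)) (XT.nd (nat_lit 78) (nat_lit 0) (nat_lit 0) (XT.lf (nat_lit 0) (nat_lit 611359738)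 (nat_lit 76) (nat_lit 13099055101) (nat_lit 152) (nat_lit 42090551981) (nat_lit 5) (nat_lit 5) (nat_lit 6) (nat_lit 5) (nat_lit 7) (nat_lit 4) (nat_lit 381) (nat_lit 244) (nat_lit 155)) (XT.lf (nat_lit 0) (nat_lit 5990986640) (nat_lit 76) (nat_lit 10399804459) (nat_lit 152) (nat_lit 40986784767) (nat_lit 5) (nat_lit 5) (nat_lit 6) (nat_lit 5) (nat_lit 7) (nat_lit 4) (nat_lit 382) (nat_lit 244) (nat_lit 154))))) (XT.nd (nat_lit 234) (nat_lit 0) (nat_lit 0) (XT.nd (nat_lit 78) (nat_lit 0) (nat_lit 0) (XT.lf (nat_lit 0) (nat_lit 11512622473) (nat_lit 76) (nat_lit 7627617099) (nat_lit 152) (nat_lit 39861597241) (nat_lit 5) (nat_lit 5) (nat_lit 6) (nat_lit 5) (nat_lit 7) (nat_lit 4) (nat_lit 383) (nat_lit 244) (nat_lit 153)) (XT.nd (nat_lit 78) (nat_lit 0) (nat_lit 0) (XT.lf (nat_lit 0) (nat_lit 17181091967) (nat_lit 76) (nat_lit 4780070723) (nat_lit 152) (nat_lit 38714006227) (nat_lit 5) (nat_lit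 5) (nat_lit 6) (nat_lit 5) (nat_lit 7) (nat_lit 4) (nat_lit 384) (nat_lit 244) (nat_lit 152)) (XT.lf (nat_lit 0) (nat_lit 23001348153) (nat_lit 76) (nat_lit 1854677182) (nat_lit 152) (nat_lit 37543008978) (nat_lit 5) (nat_lit 5) (nat_lit 6) (nat_lit 5) (nat_lit 7) (nat_lit 4) (nat_lit 385) (nat_lit 244) (nat_lit 151)))) (XT.nd (nat_lit 78) (nat_lit 0) (nat_lit 0) (XT.lf (nat_lit 0) (nat_lit 27838422269) (nat_lit 152) (nat_lit 35207527868) (nat_lit 0) (nat_lit 1128657199) (nat_lit 5) (nat_lit 5) (nat_lit 7) (nat_lit 4) (nat_lit 5) (nat_lit 4) (nat_lit 386) (nat_lit 244) (nat_lit 150)) (XT.nd (nat_lit 78) (nat_lit 0) (nat_lit 0) (XT.lf (nat_lit 0) (nat_lit 30918510956) (nat_lit 152) (nat_lit 30927492257) (nat_lit 0) (nat_lit 4157209696) (nat_lit 5) (nat_lit 5) (nat_lit 7) (nat_lit 4) (nat_lit 5) (nat_lit 4) (nat_lit 387) (nat_lit 244) (nat_lit 149)) (XT.lf (nat_lit 0) (nat_lit 34081154445) (nat_lit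 152) (nat_lit 26536011199) (nat_lit 0) (nat_lit 7269818050) (nat_lit 5) (nat_lit 5) (nat_lit 7) (nat_lit 4) (nat_lit 5) (nat_lit 4) (nat_lit 388) (nat_lit 244) (nat_lit 148)))))) (XT.nd (nat_lit 390) (nat_lit 76) (nat_lit 0) (XT.nd (nat_lit 156) (nat_lit 0) (nat_lit 0) (XT.nd (nat_lit 78) (nat_lit 0) (nat_lit 0) (XT.lf (nat_lit 0) (nat_lit 37329116210) (nat_lit 152) (nat_lit 22029247478) (nat_lit 0) (nat_lit 10469202015) (nat_lit 5) (nat_lit 5) (nat_lit 7) (nat_lit 4) (nat_lit 5) (nat_lit 4) (nat_lit 389) (nat_lit 244) (nat_lit 147)) (XT.lf (nat_lit 0) (nat_lit 40665234277) (nat_lit 152) (nat_lit 17403263145) (nat_lit 0) (nat_lit 13758157168) (nat_lit 5) (nat_lit 5) (nat_lit 7) (nat_lit 4) (nat_lit 5) (nat_lit 4) (nat_lit 390) (nat_lit 244) (nat_lit 146))) (XT.nd (nat_lit 78) (nat_lit 0) (nat_lit 0) (XT.lf (nat_lit 0) (nat_lit 44092423701) (nat_lit 152) (nat_lit 12654016078) (nat_lit 0) (nat_lit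 17139557355) (nat_lit 5) (nat_lit 5) (nat_lit 7) (nat_lit 4) (nat_lit 5) (nat_lit 4) (nat_lit 391) (nat_lit 244) (nat_lit 145)) (XT.nd (nat_lit 78) (nat_lit 0) (nat_lit 0) (XT.lf (nat_lit 0) (nat_lit 47613679112) (nat_lit 152) (nat_lit 7777356448) (nat_lit 0) (nat_lit 20616357197) (nat_lit 5) (nat_lit 5) (nat_lit 7) (nat_lit 4) (nat_lit 5) (nat_lit 4) (nat_lit 392) (nat_lit 244) (nat_lit 144)) (XT.lf (nat_lit 0) (nat_lit 51232077336) (nat_lit 152) (nat_lit 2769023099) (nat_lit 0) (nat_lit 24191594674) (nat_lit 5) (nat_lit 5) (nat_lit 7) (nat_lit 4) (nat_lit 5) (nat_lit 4) (nat_lit 393) (nat_lit 244) (nat_lit 143))))) (XT.nd (nat_lit 234) (nat_lit 0) (nat_lit 0) (XT.nd (nat_lit 78) (nat_lit 0) (nat_lit 0) (XT.lf (nat_lit 0) (nat_lit 2422634509) (nat_lit 76) (nat_lit 52551433415) (nat_lit 76) (nat_lit 25469047115) (nat_lit 4) (nat_lit 4) (nat_lit 5) (nat_lit 5) (nat_lit 5) (nat_lit 4) (nat_lit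 394) (nat_lit 244) (nat_lit 142)) (XT.nd (nat_lit 78) (nat_lit 0) (nat_lit 0) (XT.lf (nat_lit 0) (nat_lit 7812743256) (nat_lit 76) (nat_lit 51035394307) (nat_lit 76) (nat_lit 23912324864) (nat_lit 4) (nat_lit 4) (nat_lit 5) (nat_lit 5) (nat_lit 5) (nat_lit 4) (nat_lit 395) (nat_lit 244) (nat_lit 141)) (XT.lf (nat_lit 0) (nat_lit 13350903954) (nat_lit 76) (nat_lit 49479620121) (nat_lit 76) (nat_lit 22317052480) (nat_lit 4) (nat_lit 4) (nat_lit 5) (nat_lit 5) (nat_lit 5) (nat_lit 4) (nat_lit 396) (nat_lit 244) (nat_lit 140)))) (XT.nd (nat_lit 78) (nat_lit 0) (nat_lit 0) (XT.lf (nat_lit 0) (nat_lit 19041955774) (nat_lit 76) (nat_lit 47882751443) (nat_lit 76) (nat_lit 20681836038) (nat_lit 4) (nat_lit 4) (nat_lit 5) (nat_lit 5) (nat_lit 5) (nat_lit 4) (nat_lit 397) (nat_lit 244) (nat_lit 139)) (XT.nd (nat_lit 32214) (nat_lit 0) (nat_lit 9044) (XT.lf (nat_lit 0) (nat_lit 24890871479) (nat_lit 76)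 (nat_lit 46243392950) (nat_lit 76) (nat_lit 19005246705) (nat_lit 4) (nat_lit 4) (nat_lit 5) (nat_lit 5) (nat_lit 5) (nat_lit 4) (nat_lit 398) (nat_lit 244) (nat_lit 138)) (XT.lf (nat_lit 0) (nat_lit 3140809168) (nat_lit 532) (nat_lit 324885354) (nat_lit 532) (nat_lit 324885354) (nat_lit 123) (nat_lit 4) (nat_lit 130) (nat_lit 5) (nat_lit 130) (nat_lit 4) (nat_lit 290) (nat_lit 245) (nat_lit 245))))))))
noncomputable def xc70 : XT := (XT.nd (nat_lit 1716) (nat_lit 2356) (nat_lit 0) (XT.nd (nat_lit 858) (nat_lit 1824) (nat_lit 0) (XT.nd (nat_lit 390) (nat_lit 1748) (nat_lit 0) (XT.nd (nat_lit 156) (nat_lit 532) (nat_lit 0) (XT.nd (nat_lit 78) (nat_lit 532) (nat_lit 0) (XT.lf (nat_lit 0) (nat_lit 2293542225) (nat_lit 532) (nat_lit 4407652138) (nat_lit 0) (nat_lit 962453460) (nat_lit 116) (nat_lit 5) (nat_lit 123) (nat_lit 4) (nat_lit 116) (nat_lit 4) (nat_lit 291) (nat_lit 245) (nat_lit 244))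 (XT.lf (nat_lit 0) (nat_lit 124199645) (nat_lit 532) (nat_lit 5124907643) (nat_lit 532) (nat_lit 2501499689) (nat_lit 109) (nat_lit 4) (nat_lit 116) (nat_lit 5) (nat_lit 116) (nat_lit 4) (nat_lit 292) (nat_lit 245) (nat_lit 243))) (XT.nd (nat_lit 78) (nat_lit 456) (nat_lit 0) (XT.lf (nat_lit 0) (nat_lit 405871580) (nat_lit 608) (nat_lit 3054167469) (nat_lit 76) (nat_lit 4381441280) (nat_lit 108) (nat_lit 5) (nat_lit 116) (nat_lit 5) (nat_lit 109) (nat_lit 4) (nat_lit 293) (nat_lit 245) (nat_lit 242)) (XT.nd (nat_lit 78) (nat_lit 0) (nat_lit 0) (XT.lf (nat_lit 0) (nat_lit 1570941975) (nat_lit 456) (nat_lit 1713375037) (nat_lit 532) (nat_lit 4652270306) (nat_lit 102) (nat_lit 5) (nat_lit 108) (nat_lit 5) (nat_lit 109) (nat_lit 4) (nat_lit 294) (nat_lit 245) (nat_lit 241)) (XT.lf (nat_lit 0) (nat_lit 6201521237) (nat_lit 532) (nat_lit 1729196045) (nat_lit 0) (nat_lit 105524454) (nat_lit 102) (nat_lit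 5) (nat_lit 109) (nat_lit 4) (nat_lit 102) (nat_lit 4) (nat_lit 295) (nat_lit 245) (nat_lit 240))))) (XT.nd (nat_lit 234) (nat_lit 836) (nat_lit 0) (XT.nd (nat_lit 78) (nat_lit 380) (nat_lit 0) (XT.lf (nat_lit 0) (nat_lit 1014505110) (nat_lit 532) (nat_lit 5151317294) (nat_lit 76) (nat_lit 1973967356) (nat_lit 95) (nat_lit 5) (nat_lit 102) (nat_lit 5) (nat_lit 96) (nat_lit 4) (nat_lit 296) (nat_lit 245) (nat_lit 239)) (XT.nd (nat_lit 78) (nat_lit 380) (nat_lit 0) (XT.lf (nat_lit 0) (nat_lit 3853122407) (nat_lit 532) (nat_lit 471221156) (nat_lit 76) (nat_lit 3923575745) (nat_lit 95) (nat_lit 5) (nat_lit 102) (nat_lit 5) (nat_lit 96) (nat_lit 4) (nat_lit 297) (nat_lit 245) (nat_lit 238)) (XT.lf (nat_lit 0) (nat_lit 4346639965) (nat_lit 380) (nat_lit 2397435587) (nat_lit 456) (nat_lit 1616438551) (nat_lit 90) (nat_lit 5) (nat_lit 95) (nat_lit 5) (nat_lit 96) (nat_lit 4) (nat_lit 298) (nat_lit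 245) (nat_lit 237)))) (XT.nd (nat_lit 78) (nat_lit 380) (nat_lit 0) (XT.lf (nat_lit 0) (nat_lit 756803846) (nat_lit 380) (nat_lit 402031970) (nat_lit 456) (nat_lit 7319378959) (nat_lit 84) (nat_lit 5) (nat_lit 89) (nat_lit 5) (nat_lit 90) (nat_lit 5) (nat_lit 299) (nat_lit 245) (nat_lit 236)) (XT.nd (nat_lit 78) (nat_lit 380) (nat_lit 0) (XT.lf (nat_lit 0) (nat_lit 3968671048) (nat_lit 456) (nat_lit 2967342585) (nat_lit 76) (nat_lit 1663655555) (nat_lit 84) (nat_lit 5) (nat_lit 90) (nat_lit 5) (nat_lit 85) (nat_lit 4) (nat_lit 300) (nat_lit 245) (nat_lit 235)) (XT.lf (nat_lit 0) (nat_lit 1874868068) (nat_lit 380) (nat_lit 4939029350) (nat_lit 456) (nat_lit 1912547220) (nat_lit 79) (nat_lit 5) (nat_lit 84) (nat_lit 5) (nat_lit 85) (nat_lit 4) (nat_lit 301) (nat_lit 245) (nat_lit 234)))))) (XT.nd (nat_lit 390) (nat_lit 988) (nat_lit 0) (XT.nd (nat_lit 156) (nat_lit 380) (nat_lit 0) (XT.nd (nat_lit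 78) (nat_lit 380) (nat_lit 0) (XT.lf (nat_lit 0) (nat_lit 829840307) (nat_lit 456) (nat_lit 2029612614) (nat_lit 76) (nat_lit 5998721706) (nat_lit 78) (nat_lit 5) (nat_lit 84) (nat_lit 5) (nat_lit 79) (nat_lit 5) (nat_lit 302) (nat_lit 245) (nat_lit 233)) (XT.lf (nat_lit 0) (nat_lit 2889177269) (nat_lit 380) (nat_lit 686149132) (nat_lit 456) (nat_lit 5419376455) (nat_lit 73) (nat_lit 5) (nat_lit 78) (nat_lit 5) (nat_lit 79) (nat_lit 5) (nat_lit 303) (nat_lit 245) (nat_lit 232))) (XT.nd (nat_lit 78) (nat_lit 380) (nat_lit 0) (XT.lf (nat_lit 0) (nat_lit 6371311064) (nat_lit 456) (nat_lit 1239182305) (nat_lit 76) (nat_lit 1525976378) (nat_lit 73) (nat_lit 5) (nat_lit 79) (nat_lit 5) (nat_lit 74) (nat_lit 4) (nat_lit 304) (nat_lit 245) (nat_lit 231)) (XT.nd (nat_lit 78) (nat_lit 76) (nat_lit 0) (XT.lf (nat_lit 0) (nat_lit 3755682426) (nat_lit 304) (nat_lit 5472867715) (nat_lit 380) (nat_lit 54799655)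 (nat_lit 69) (nat_lit 5) (nat_lit 73) (nat_lit 5) (nat_lit 74) (nat_lit 4) (nat_lit 305) (nat_lit 245) (nat_lit 230)) (XT.lf (nat_lit 0) (nat_lit 2630879328) (nat_lit 380) (nat_lit 619506137) (nat_lit 76) (nat_lit 6185210048) (nat_lit 68) (nat_lit 5) (nat_lit 73) (nat_lit 5) (nat_lit 69) (nat_lit 5) (nat_lit 306) (nat_lit 245) (nat_lit 229))))) (XT.nd (nat_lit 234) (nat_lit 304) (nat_lit 0) (XT.nd (nat_lit 78) (nat_lit 380) (nat_lit 0) (XT.lf (nat_lit 0) (nat_lit 4439851112) (nat_lit 304) (nat_lit 935532552) (nat_lit 380) (nat_lit 4217793968) (nat_lit 64) (nat_lit 5) (nat_lit 68) (nat_lit 5) (nat_lit 69) (nat_lit 5) (nat_lit 307) (nat_lit 245) (nat_lit 228)) (XT.nd (nat_lit 78) (nat_lit 380) (nat_lit 0) (XT.lf (nat_lit 0) (nat_lit 8160024195) (nat_lit 380) (nat_lit 188783526) (nat_lit 76) (nat_lit 1408106631) (nat_lit 64) (nat_lit 5) (nat_lit 69) (nat_lit 5) (nat_lit 65) (nat_lit 4) (nat_lit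 308) (nat_lit 245) (nat_lit 227)) (XT.lf (nat_lit 0) (nat_lit 1076968693) (nat_lit 380) (nat_lit 5005505674) (nat_lit 76) (nat_lit 3843047411) (nat_lit 59) (nat_lit 5) (nat_lit 64) (nat_lit 5) (nat_lit 60) (nat_lit 5) (nat_lit 309) (nat_lit 245) (nat_lit 226)))) (XT.nd (nat_lit 78) (nat_lit 304) (nat_lit 0) (XT.lf (nat_lit 0) (nat_lit 3740505974) (nat_lit 380) (nat_lit 10328566) (nat_lit 76) (nat_lit 6349779296) (nat_lit 59) (nat_lit 5) (nat_lit 64) (nat_lit 5) (nat_lit 60) (nat_lit 5) (nat_lit 310) (nat_lit 245) (nat_lit 225)) (XT.nd (nat_lit 78) (nat_lit 0) (nat_lit 0) (XT.lf (nat_lit 0) (nat_lit 5156373503) (nat_lit 304) (nat_lit 1318533694) (nat_lit 380) (nat_lit 3806465919) (nat_lit 55) (nat_lit 5) (nat_lit 59) (nat_lit 5) (nat_lit 60) (nat_lit 5) (nat_lit 311) (nat_lit 245) (nat_lit 224)) (XT.lf (nat_lit 0) (nat_lit 9245003319) (nat_lit 380) (nat_lit 80519434) (nat_lit 76) (nat_lit 1143561559)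 (nat_lit 55) (nat_lit 5) (nat_lit 60) (nat_lit 5) (nat_lit 56) (nat_lit 4) (nat_lit 312) (nat_lit 245) (nat_lit 223))))))) (XT.nd (nat_lit 858) (nat_lit 912) (nat_lit 0) (XT.nd (nat_lit 390) (nat_lit 532) (nat_lit 0) (XT.nd (nat_lit 156) (nat_lit 608) (nat_lit 0) (XT.nd (nat_lit 78) (nat_lit 0) (nat_lit 0) (XT.lf (nat_lit 0) (nat_lit 1413838483) (nat_lit 304) (nat_lit 5551517754) (nat_lit 76) (nat_lit 3696605200) (nat_lit 51) (nat_lit 5) (nat_lit 55) (nat_lit 5) (nat_lit 52) (nat_lit 5) (nat_lit 313) (nat_lit 245) (nat_lit 222)) (XT.lf (nat_lit 0) (nat_lit 4051171034) (nat_lit 304) (nat_lit 491943906) (nat_lit 76) (nat_lit 6318927224) (nat_lit 51) (nat_lit 5) (nat_lit 55) (nat_lit 5) (nat_lit 52) (nat_lit 5) (nat_lit 314) (nat_lit 245) (nat_lit 221))) (XT.nd (nat_lit 78) (nat_lit 304) (nat_lit 0) (XT.lf (nat_lit 0) (nat_lit 4736105513) (nat_lit 304) (nat_lit 2022730960) (nat_lit 380) (nat_lit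 4309675975) (nat_lit 47) (nat_lit 5) (nat_lit 51) (nat_lit 5) (nat_lit 52) (nat_lit 5) (nat_lit 315) (nat_lit 245) (nat_lit 220)) (XT.nd (nat_lit 78) (nat_lit 304) (nat_lit 0) (XT.lf (nat_lit 0) (nat_lit 9504599974) (nat_lit 380) (nat_lit 1232010931) (nat_lit 76) (nat_lit 545979815) (nat_lit 47) (nat_lit 5) (nat_lit 52) (nat_lit 5) (nat_lit 48) (nat_lit 4) (nat_lit 316) (nat_lit 245) (nat_lit 219)) (XT.lf (nat_lit 0) (nat_lit 819836723) (nat_lit 304) (nat_lit 7505801529) (nat_lit 76) (nat_lit 3177135444) (nat_lit 43) (nat_lit 5) (nat_lit 47) (nat_lit 5) (nat_lit 44) (nat_lit 5) (nat_lit 317) (nat_lit 245) (nat_lit 218))))) (XT.nd (nat_lit 234) (nat_lit 304) (nat_lit 0) (XT.nd (nat_lit 78) (nat_lit 228) (nat_lit 0) (XT.lf (nat_lit 0) (nat_lit 3420522575) (nat_lit 304) (nat_lit 2413526635) (nat_lit 76) (nat_lit 5896274800) (nat_lit 43) (nat_lit 5) (nat_lit 47) (nat_lit 5) (nat_lit 44) (nat_lit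 5) (nat_lit 318) (nat_lit 245) (nat_lit 217)) (XT.nd (nat_lit 78) (nat_lit 0) (nat_lit 0) (XT.lf (nat_lit 0) (nat_lit 2813911064) (nat_lit 228) (nat_lit 3261974097) (nat_lit 304) (nat_lit 5889622539) (nat_lit 40) (nat_lit 5) (nat_lit 43) (nat_lit 5) (nat_lit 44) (nat_lit 5) (nat_lit 319) (nat_lit 245) (nat_lit 216)) (XT.lf (nat_lit 0) (nat_lit 8175842774) (nat_lit 228) (nat_lit 609822390) (nat_lit 304) (nat_lit 3422942486) (nat_lit 40) (nat_lit 5) (nat_lit 43) (nat_lit 5) (nat_lit 44) (nat_lit 5) (nat_lit 320) (nat_lit 245) (nat_lit 215)))) (XT.nd (nat_lit 78) (nat_lit 76) (nat_lit 0) (XT.lf (nat_lit 0) (nat_lit 1171034870) (nat_lit 228) (nat_lit 10388980025) (nat_lit 304) (nat_lit 899587848) (nat_lit 37) (nat_lit 5) (nat_lit 40) (nat_lit 5) (nat_lit 41) (nat_lit 4) (nat_lit 321) (nat_lit 245) (nat_lit 214)) (XT.nd (nat_lit 78) (nat_lit 0) (nat_lit 0) (XT.lf (nat_lit 0) (nat_lit 1665256863)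 (nat_lit 304) (nat_lit 6197475759) (nat_lit 76) (nat_lit 4855031081) (nat_lit 36) (nat_lit 5) (nat_lit 40) (nat_lit 5) (nat_lit 37) (nat_lit 5) (nat_lit 322) (nat_lit 245) (nat_lit 213)) (XT.lf (nat_lit 0) (nat_lit 4242158427) (nat_lit 304) (nat_lit 1031886557) (nat_lit 76) (nat_lit 7710853445) (nat_lit 36) (nat_lit 5) (nat_lit 40) (nat_lit 5) (nat_lit 37) (nat_lit 5) (nat_lit 323) (nat_lit 245) (nat_lit 212)))))) (XT.nd (nat_lit 390) (nat_lit 456) (nat_lit 0) (XT.nd (nat_lit 156) (nat_lit 228) (nat_lit 0) (XT.nd (nat_lit 78) (nat_lit 0) (nat_lit 0) (XT.lf (nat_lit 0) (nat_lit 4305374096) (nat_lit 228) (nat_lit 2586934494) (nat_lit 304) (nat_lit 6367949593) (nat_lit 33) (nat_lit 5) (nat_lit 36) (nat_lit 5) (nat_lit 37) (nat_lit 5) (nat_lit 324) (nat_lit 245) (nat_lit 211)) (XT.lf (nat_lit 0) (nat_lit 9589252522) (nat_lit 304) (nat_lit 3789370678) (nat_lit 76) (nat_lit 166323489) (nat_lit 33)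 (nat_lit 5) (nat_lit 37) (nat_lit 5) (nat_lit 34) (nat_lit 4) (nat_lit 325) (nat_lit 245) (nat_lit 210))) (XT.nd (nat_lit 78) (nat_lit 76) (nat_lit 0) (XT.lf (nat_lit 0) (nat_lit 1468253848) (nat_lit 152) (nat_lit 10894915953) (nat_lit 228) (nat_lit 1475208209) (nat_lit 31) (nat_lit 5) (nat_lit 33) (nat_lit 5) (nat_lit 34) (nat_lit 4) (nat_lit 326) (nat_lit 245) (nat_lit 209)) (XT.nd (nat_lit 78) (nat_lit 0) (nat_lit 0) (XT.lf (nat_lit 0) (nat_lit 1053744319) (nat_lit 228) (nat_lit 7255127826) (nat_lit 76) (nat_lit 5831654428) (nat_lit 30) (nat_lit 5) (nat_lit 33) (nat_lit 5) (nat_lit 31) (nat_lit 5) (nat_lit 327) (nat_lit 245) (nat_lit 208)) (XT.lf (nat_lit 0) (nat_lit 3586659474) (nat_lit 228) (nat_lit 2065551194) (nat_lit 76) (nat_lit 8800435392) (nat_lit 30) (nat_lit 5) (nat_lit 33) (nat_lit 5) (nat_lit 31) (nat_lit 5) (nat_lit 328) (nat_lit 245) (nat_lit 207))))) (XT.nd (nat_lit 234) (nat_lit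 228) (nat_lit 0) (XT.nd (nat_lit 78) (nat_lit 0) (nat_lit 0) (XT.lf (nat_lit 0) (nat_lit 3281351915) (nat_lit 228) (nat_lit 2904727554) (nat_lit 304) (nat_lit 8588408873) (nat_lit 27) (nat_lit 5) (nat_lit 30) (nat_lit 5) (nat_lit 31) (nat_lit 5) (nat_lit 329) (nat_lit 245) (nat_lit 206)) (XT.nd (nat_lit 78) (nat_lit 0) (nat_lit 0) (XT.lf (nat_lit 0) (nat_lit 8769223759) (nat_lit 228) (nat_lit 74692378) (nat_lit 304) (nat_lit 6262729288) (nat_lit 27) (nat_lit 5) (nat_lit 30) (nat_lit 5) (nat_lit 31) (nat_lit 5) (nat_lit 330) (nat_lit 245) (nat_lit 205)) (XT.lf (nat_lit 0) (nat_lit 11569344212) (nat_lit 304) (nat_lit 1115366864) (nat_lit 76) (nat_lit 2764490898) (nat_lit 27) (nat_lit 5) (nat_lit 31) (nat_lit 5) (nat_lit 28) (nat_lit 4) (nat_lit 331) (nat_lit 245) (nat_lit 204)))) (XT.nd (nat_lit 78) (nat_lit 76) (nat_lit 0) (XT.lf (nat_lit 0) (nat_lit 4287013435) (nat_lit 152) (nat_lit 10093173668)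 (nat_lit 228) (nat_lit 1421806948) (nat_lit 25) (nat_lit 5) (nat_lit 27) (nat_lit 5) (nat_lit 28) (nat_lit 4) (nat_lit 332) (nat_lit 245) (nat_lit 203)) (XT.nd (nat_lit 78) (nat_lit 0) (nat_lit 0) (XT.lf (nat_lit 0) (nat_lit 1061515809) (nat_lit 228) (nat_lit 6360979500) (nat_lit 76) (nat_lit 8743423244) (nat_lit 24) (nat_lit 5) (nat_lit 27) (nat_lit 5) (nat_lit 25) (nat_lit 5) (nat_lit 333) (nat_lit 245) (nat_lit 202)) (XT.lf (nat_lit 0) (nat_lit 3553689199) (nat_lit 228) (nat_lit 1124197974) (nat_lit 76) (nat_lit 11863626048) (nat_lit 24) (nat_lit 5) (nat_lit 27) (nat_lit 5) (nat_lit 25) (nat_lit 5) (nat_lit 334) (nat_lit 245) (nat_lit 201))))))))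
noncomputable def xc71 : XT := (XT.nd (nat_lit 1716) (nat_lit 456) (nat_lit 0) (XT.nd (nat_lit 858) (nat_lit 304) (nat_lit 0) (XT.nd (nat_lit 390) (nat_lit 304) (nat_lit 0) (XT.nd (nat_lit 156) (nat_lit 152) (nat_lit 0) (XT.nd (nat_lit 78) (nat_lit 0) (nat_lit 0) (XT.lf (nat_lit 0) (nat_lit 4297466108) (nat_lit 152) (nat_lit 1828479188) (nat_lit 228) (nat_lit 10802331673) (nat_lit 22) (nat_lit 5) (nat_lit 24) (nat_lit 5) (nat_lit 25) (nat_lit 5) (nat_lit 335) (nat_lit 245) (nat_lit 200)) (XT.lf (nat_lit 0) (nat_lit 8761798579) (nat_lit 228) (nat_lit 7488686593) (nat_lit 76) (nat_lit 1076624567) (nat_lit 22) (nat_lit 5) (nat_lit 25) (nat_lit 5) (nat_lit 23) (nat_lit 4) (nat_lit 336) (nat_lit 245) (nat_lit 199))) (XT.nd (nat_lit 78) (nat_lit 152) (nat_lit 0) (XT.lf (nat_lit 0) (nat_lit 11460199573) (nat_lit 228) (nat_lit 2265218566) (nat_lit 76) (nat_lit 4013042465) (nat_lit 22) (nat_lit 5) (nat_lit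 25) (nat_lit 5) (nat_lit 23) (nat_lit 4) (nat_lit 337) (nat_lit 245) (nat_lit 198)) (XT.nd (nat_lit 78) (nat_lit 0) (nat_lit 0) (XT.lf (nat_lit 0) (nat_lit 3122668381) (nat_lit 152) (nat_lit 11113278260) (nat_lit 228) (nat_lit 3926369140) (nat_lit 20) (nat_lit 5) (nat_lit 22) (nat_lit 5) (nat_lit 23) (nat_lit 4) (nat_lit 338) (nat_lit 245) (nat_lit 197)) (XT.lf (nat_lit 0) (nat_lit 8665928833) (nat_lit 152) (nat_lit 8418761349) (nat_lit 228) (nat_lit 1514558699) (nat_lit 20) (nat_lit 5) (nat_lit 22) (nat_lit 5) (nat_lit 23) (nat_lit 4) (nat_lit 339) (nat_lit 245) (nat_lit 196))))) (XT.nd (nat_lit 234) (nat_lit 76) (nat_lit 0) (XT.nd (nat_lit 78) (nat_lit 152) (nat_lit 0) (XT.lf (nat_lit 0) (nat_lit 918130826) (nat_lit 228) (nat_lit 4734985090) (nat_lit 76) (nat_lit 13396921974) (nat_lit 19) (nat_lit 5) (nat_lit 22) (nat_lit 5) (nat_lit 20) (nat_lit 5) (nat_lit 340) (nat_lit 245) (nat_lit 195))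 (XT.nd (nat_lit 78) (nat_lit 0) (nat_lit 0) (XT.lf (nat_lit 0) (nat_lit 564977806) (nat_lit 152) (nat_lit 2802206489) (nat_lit 228) (nat_lit 16147551081) (nat_lit 17) (nat_lit 5) (nat_lit 19) (nat_lit 5) (nat_lit 20) (nat_lit 5) (nat_lit 341) (nat_lit 245) (nat_lit 194)) (XT.lf (nat_lit 0) (nat_lit 5907942254) (nat_lit 228) (nat_lit 13923361766) (nat_lit 76) (nat_lit 161570749) (nat_lit 17) (nat_lit 5) (nat_lit 20) (nat_lit 5) (nat_lit 18) (nat_lit 4) (nat_lit 342) (nat_lit 245) (nat_lit 193)))) (XT.nd (nat_lit 78) (nat_lit 76) (nat_lit 0) (XT.lf (nat_lit 0) (nat_lit 8522235636) (nat_lit 228) (nat_lit 8823103980) (nat_lit 76) (nat_lit 3140145917) (nat_lit 17) (nat_lit 5) (nat_lit 20) (nat_lit 5) (nat_lit 18) (nat_lit 4) (nat_lit 343) (nat_lit 245) (nat_lit 192)) (XT.nd (nat_lit 78) (nat_lit 76) (nat_lit 0) (XT.lf (nat_lit 0) (nat_lit 11185412254) (nat_lit 228) (nat_lit 3617591155) (nat_lit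 76) (nat_lit 6190802792) (nat_lit 17) (nat_lit 5) (nat_lit 20) (nat_lit 5) (nat_lit 18) (nat_lit 4) (nat_lit 344) (nat_lit 245) (nat_lit 191)) (XT.lf (nat_lit 0) (nat_lit 1731513277) (nat_lit 76) (nat_lit 12184930243) (nat_lit 152) (nat_lit 7601338086) (nat_lit 16) (nat_lit 5) (nat_lit 17) (nat_lit 5) (nat_lit 18) (nat_lit 4) (nat_lit 345) (nat_lit 245) (nat_lit 190)))))) (XT.nd (nat_lit 390) (nat_lit 76) (nat_lit 0) (XT.nd (nat_lit 156) (nat_lit 228) (nat_lit 0) (XT.nd (nat_lit 78) (nat_lit 0) (nat_lit 0) (XT.lf (nat_lit 0) (nat_lit 7269340603) (nat_lit 76) (nat_lit 9468304880) (nat_lit 152) (nat_lit 5319626216) (nat_lit 16) (nat_lit 5) (nat_lit 17) (nat_lit 5) (nat_lit 18) (nat_lit 4) (nat_lit 346) (nat_lit 245) (nat_lit 189)) (XT.lf (nat_lit 0) (nat_lit 12928732545) (nat_lit 76) (nat_lit 6687284146) (nat_lit 152) (nat_lit 2997795187) (nat_lit 16) (nat_lit 5) (nat_lit 17) (nat_lit 5) (nat_lit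 18) (nat_lit 4) (nat_lit 347) (nat_lit 245) (nat_lit 188))) (XT.nd (nat_lit 78) (nat_lit 228) (nat_lit 0) (XT.lf (nat_lit 0) (nat_lit 18714634201) (nat_lit 76) (nat_lit 3839438023) (nat_lit 152) (nat_lit 633816212) (nat_lit 16) (nat_lit 5) (nat_lit 17) (nat_lit 5) (nat_lit 18) (nat_lit 4) (nat_lit 348) (nat_lit 245) (nat_lit 187)) (XT.nd (nat_lit 78) (nat_lit 0) (nat_lit 0) (XT.lf (nat_lit 0) (nat_lit 851660793) (nat_lit 152) (nat_lit 896277736) (nat_lit 228) (nat_lit 22031307178) (nat_lit 13) (nat_lit 5) (nat_lit 15) (nat_lit 5) (nat_lit 16) (nat_lit 5) (nat_lit 349) (nat_lit 245) (nat_lit 186)) (XT.lf (nat_lit 0) (nat_lit 4228565638) (nat_lit 228) (nat_lit 18029023209) (nat_lit 76) (nat_lit 2129398585) (nat_lit 13) (nat_lit 5) (nat_lit 16) (nat_lit 5) (nat_lit 14) (nat_lit 4) (nat_lit 350) (nat_lit 245) (nat_lit 185))))) (XT.nd (nat_lit 234) (nat_lit 76) (nat_lit 0) (XT.nd (nat_lit 78) (nat_lit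 0) (nat_lit 0) (XT.lf (nat_lit 0) (nat_lit 6767258252) (nat_lit 228) (nat_lit 13033939824) (nat_lit 76) (nat_lit 5212289624) (nat_lit 13) (nat_lit 5) (nat_lit 16) (nat_lit 5) (nat_lit 14) (nat_lit 4) (nat_lit 351) (nat_lit 245) (nat_lit 184)) (XT.nd (nat_lit 78) (nat_lit 0) (nat_lit 0) (XT.lf (nat_lit 0) (nat_lit 9357619077) (nat_lit 228) (nat_lit 7929354555) (nat_lit 76) (nat_lit 8372578774) (nat_lit 13) (nat_lit 5) (nat_lit 16) (nat_lit 5) (nat_lit 14) (nat_lit 4) (nat_lit 352) (nat_lit 245) (nat_lit 183)) (XT.lf (nat_lit 0) (nat_lit 12001911536) (nat_lit 228) (nat_lit 2710807085) (nat_lit 76) (nat_lit 11613027453) (nat_lit 13) (nat_lit 5) (nat_lit 16) (nat_lit 5) (nat_lit 14) (nat_lit 4) (nat_lit 353) (nat_lit 245) (nat_lit 182)))) (XT.nd (nat_lit 78) (nat_lit 0) (nat_lit 0) (XT.lf (nat_lit 0) (nat_lit 2678530256) (nat_lit 76) (nat_lit 12049663589) (nat_lit 152) (nat_lit 12283684537) (nat_lit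 12) (nat_lit 5) (nat_lit 13) (nat_lit 5) (nat_lit 14) (nat_lit 4) (nat_lit 354) (nat_lit 245) (nat_lit 181)) (XT.nd (nat_lit 78) (nat_lit 0) (nat_lit 0) (XT.lf (nat_lit 0) (nat_lit 8247455164) (nat_lit 76) (nat_lit 9293407102) (nat_lit 152) (nat_lit 10177626177) (nat_lit 12) (nat_lit 5) (nat_lit 13) (nat_lit 5) (nat_lit 14) (nat_lit 4) (nat_lit 355) (nat_lit 245) (nat_lit 180)) (XT.lf (nat_lit 0) (nat_lit 13946883314) (nat_lit 76) (nat_lit 6468914618) (nat_lit 152) (nat_lit 8031193047) (nat_lit 12) (nat_lit 5) (nat_lit 13) (nat_lit 5) (nat_lit 14) (nat_lit 4) (nat_lit 356) (nat_lit 245) (nat_lit 179))))))) (XT.nd (nat_lit 858) (nat_lit 152) (nat_lit 0) (XT.nd (nat_lit 390) (nat_lit 76) (nat_lit 0) (XT.nd (nat_lit 156) (nat_lit 228) (nat_lit 0) (XT.nd (nat_lit 78) (nat_lit 0) (nat_lit 0) (XT.lf (nat_lit 0) (nat_lit 19781794788) (nat_lit 76) (nat_lit 3573718132) (nat_lit 152) (nat_lit 5842509625)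 (nat_lit 12) (nat_lit 5) (nat_lit 13) (nat_lit 5) (nat_lit 14) (nat_lit 4) (nat_lit 357) (nat_lit 245) (nat_lit 178)) (XT.lf (nat_lit 0) (nat_lit 25757288053) (nat_lit 76) (nat_lit 605287861) (nat_lit 152) (nat_lit 3609663469) (nat_lit 12) (nat_lit 5) (nat_lit 13) (nat_lit 5) (nat_lit 14) (nat_lit 4) (nat_lit 358) (nat_lit 245) (nat_lit 177))) (XT.nd (nat_lit 78) (nat_lit 76) (nat_lit 0) (XT.lf (nat_lit 0) (nat_lit 1106411624) (nat_lit 152) (nat_lit 28367283197) (nat_lit 152) (nat_lit 1295600759) (nat_lit 10) (nat_lit 4) (nat_lit 12) (nat_lit 5) (nat_lit 12) (nat_lit 4) (nat_lit 359) (nat_lit 245) (nat_lit 176)) (XT.nd (nat_lit 78) (nat_lit 0) (nat_lit 0) (XT.lf (nat_lit 0) (nat_lit 1095312926) (nat_lit 228) (nat_lit 24966108269) (nat_lit 76) (nat_lit 5527695377) (nat_lit 9) (nat_lit 5) (nat_lit 12) (nat_lit 5) (nat_lit 10) (nat_lit 4) (nat_lit 360) (nat_lit 245) (nat_lit 175)) (XT.lf (nat_lit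 0) (nat_lit 3512186082) (nat_lit 228) (nat_lit 20174332534) (nat_lit 76) (nat_lit 8747246361) (nat_lit 9) (nat_lit 5) (nat_lit 12) (nat_lit 5) (nat_lit 10) (nat_lit 4) (nat_lit 361) (nat_lit 245) (nat_lit 174))))) (XT.nd (nat_lit 234) (nat_lit 76) (nat_lit 0) (XT.nd (nat_lit 78) (nat_lit 0) (nat_lit 0) (XT.lf (nat_lit 0) (nat_lit 5982412374) (nat_lit 228) (nat_lit 15270915655) (nat_lit 76) (nat_lit 12051024429) (nat_lit 9) (nat_lit 5) (nat_lit 12) (nat_lit 5) (nat_lit 10) (nat_lit 4) (nat_lit 362) (nat_lit 245) (nat_lit 173)) (XT.nd (nat_lit 78) (nat_lit 0) (nat_lit 0) (XT.lf (nat_lit 0) (nat_lit 8508150254) (nat_lit 228) (nat_lit 10251573094) (nat_lit 76) (nat_lit 15441916377) (nat_lit 9) (nat_lit 5) (nat_lit 12) (nat_lit 5) (nat_lit 10) (nat_lit 4) (nat_lit 363) (nat_lit 245) (nat_lit 172)) (XT.lf (nat_lit 0) (nat_lit 11091606677) (nat_lit 228) (nat_lit 5111919017) (nat_lit 76) (nat_lit 18922885122)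 (nat_lit 9) (nat_lit 5) (nat_lit 12) (nat_lit 5) (nat_lit 10) (nat_lit 4) (nat_lit 364) (nat_lit 245) (nat_lit 171)))) (XT.nd (nat_lit 78) (nat_lit 0) (nat_lit 0) (XT.lf (nat_lit 0) (nat_lit 155573330) (nat_lit 76) (nat_lit 13580961167) (nat_lit 152) (nat_lit 22342894420) (nat_lit 8) (nat_lit 5) (nat_lit 9) (nat_lit 5) (nat_lit 10) (nat_lit 4) (nat_lit 365) (nat_lit 245) (nat_lit 170)) (XT.nd (nat_lit 78) (nat_lit 0) (nat_lit 0) (XT.lf (nat_lit 0) (nat_lit 5656780740) (nat_lit 76) (nat_lit 10838352810) (nat_lit 152) (nat_lit 20564896552) (nat_lit 8) (nat_lit 5) (nat_lit 9) (nat_lit 5) (nat_lit 10) (nat_lit 4) (nat_lit 366) (nat_lit 245) (nat_lit 169)) (XT.lf (nat_lit 0) (nat_lit 11294772879) (nat_lit 76) (nat_lit 8024924529) (nat_lit 152) (nat_lit 18750877304) (nat_lit 8) (nat_lit 5) (nat_lit 9) (nat_lit 5) (nat_lit 10) (nat_lit 4) (nat_lit 367) (nat_lit 245) (nat_lit 168)))))) (XT.nd (nat_lit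 468) (nat_lit 76) (nat_lit 0) (XT.nd (nat_lit 234) (nat_lit 76) (nat_lit 0) (XT.nd (nat_lit 78) (nat_lit 0) (nat_lit 0) (XT.lf (nat_lit 0) (nat_lit 17074476148) (nat_lit 76) (nat_lit 5138217988) (nat_lit 152) (nat_lit 16899251611) (nat_lit 8) (nat_lit 5) (nat_lit 9) (nat_lit 5) (nat_lit 10) (nat_lit 4) (nat_lit 368) (nat_lit 245) (nat_lit 167)) (XT.nd (nat_lit 78) (nat_lit 0) (nat_lit 0) (XT.lf (nat_lit 0) (nat_lit 23000940774) (nat_lit 76) (nat_lit 2175710823) (nat_lit 152) (nat_lit 15008401547) (nat_lit 8) (nat_lit 5) (nat_lit 9) (nat_lit 5) (nat_lit 10) (nat_lit 4) (nat_lit 369) (nat_lit 245) (nat_lit 166)) (XT.lf (nat_lit 0) (nat_lit 28222476349) (nat_lit 152) (nat_lit 12219806040) (nat_lit 0) (nat_lit 848302678) (nat_lit 8) (nat_lit 5) (nat_lit 10) (nat_lit 4) (nat_lit 8) (nat_lit 4) (nat_lit 370) (nat_lit 245) (nat_lit 165)))) (XT.nd (nat_lit 78) (nat_lit 76) (nat_lit 0) (XT.lf (nat_lit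 0) (nat_lit 31366199162) (nat_lit 152) (nat_lit 7153582237) (nat_lit 0) (nat_lit 3909325036) (nat_lit 8) (nat_lit 5) (nat_lit 10) (nat_lit 4) (nat_lit 8) (nat_lit 4) (nat_lit 371) (nat_lit 245) (nat_lit 164)) (XT.nd (nat_lit 78) (nat_lit 76) (nat_lit 0) (XT.lf (nat_lit 0) (nat_lit 34589652715) (nat_lit 152) (nat_lit 1960099900) (nat_lit 0) (nat_lit 7052486886) (nat_lit 8) (nat_lit 5) (nat_lit 10) (nat_lit 4) (nat_lit 8) (nat_lit 4) (nat_lit 372) (nat_lit 245) (nat_lit 163)) (XT.lf (nat_lit 0) (nat_lit 3432152625) (nat_lit 76) (nat_lit 34496492942) (nat_lit 76) (nat_lit 6881374004) (nat_lit 7) (nat_lit 4) (nat_lit 8) (nat_lit 5) (nat_lit 8) (nat_lit 4) (nat_lit 373) (nat_lit 245) (nat_lit 162))))) (XT.nd (nat_lit 234) (nat_lit 76) (nat_lit 0) (XT.nd (nat_lit 78) (nat_lit 0) (nat_lit 0) (XT.lf (nat_lit 0) (nat_lit 9002580283) (nat_lit 76) (nat_lit 32371048634) (nat_lit 76) (nat_lit 4680247065)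 (nat_lit 7) (nat_lit 4) (nat_lit 8) (nat_lit 5) (nat_lit 8) (nat_lit 4) (nat_lit 374) (nat_lit 245) (nat_lit 161)) (XT.nd (nat_lit 78) (nat_lit 0) (nat_lit 0) (XT.lf (nat_lit 0) (nat_lit 14717040606) (nat_lit 76) (nat_lit 30191355671) (nat_lit 76) (nat_lit 2427075819) (nat_lit 7) (nat_lit 4) (nat_lit 8) (nat_lit 5) (nat_lit 8) (nat_lit 4) (nat_lit 375) (nat_lit 245) (nat_lit 160)) (XT.lf (nat_lit 0) (nat_lit 20580526812) (nat_lit 76) (nat_lit 27955509467) (nat_lit 76) (nat_lit 119891477) (nat_lit 7) (nat_lit 4) (nat_lit 8) (nat_lit 5) (nat_lit 8) (nat_lit 4) (nat_lit 376) (nat_lit 245) (nat_lit 159)))) (XT.nd (nat_lit 78) (nat_lit 0) (nat_lit 0) (XT.lf (nat_lit 0) (nat_lit 2199546656) (nat_lit 152) (nat_lit 23439798605) (nat_lit 76) (nat_lit 24376404570) (nat_lit 6) (nat_lit 5) (nat_lit 8) (nat_lit 5) (nat_lit 7) (nat_lit 4) (nat_lit 377) (nat_lit 245) (nat_lit 158)) (XT.nd (nat_lit 78) (nat_lit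 0) (nat_lit 0) (XT.lf (nat_lit 0) (nat_lit 4573605679) (nat_lit 152) (nat_lit 18687701827) (nat_lit 76) (nat_lit 28155415175) (nat_lit 6) (nat_lit 5) (nat_lit 8) (nat_lit 5) (nat_lit 7) (nat_lit 4) (nat_lit 378) (nat_lit 245) (nat_lit 157)) (XT.lf (nat_lit 0) (nat_lit 7006699525) (nat_lit 152) (nat_lit 13813805822) (nat_lit 76) (nat_lit 32039599683) (nat_lit 6) (nat_lit 5) (nat_lit 8) (nat_lit 5) (nat_lit 7) (nat_lit 4) (nat_lit 379) (nat_lit 245) (nat_lit 156))))))))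
noncomputable def xc72 : XT := (XT.nd (nat_lit 33696) (nat_lit 0) (nat_lit 3876) (XT.nd (nat_lit 858) (nat_lit 76) (nat_lit 0) (XT.nd (nat_lit 390) (nat_lit 0) (nat_lit 0) (XT.nd (nat_lit 156) (nat_lit 76) (nat_lit 0) (XT.nd (nat_lit 78) (nat_lit 0) (nat_lit 0) (XT.lf (nat_lit 0) (nat_lit 9500954199) (nat_lit 152) (nat_lit 8813851846) (nat_lit 76) (nat_lit 36032352039) (nat_lit 6) (nat_lit 5) (nat_lit 8) (nat_lit 5) (nat_lit 7) (nat_lit 4) (nat_lit 380) (nat_lit 245) (nat_lit 155)) (XT.lf (nat_lit 0) (nat_lit 12058549147) (nat_lit 152) (nat_lit 3683471007) (nat_lit 76) (nat_lit 40137161059) (nat_lit 6) (nat_lit 5) (nat_lit 8) (nat_lit 5) (nat_lit 7) (nat_lit 4) (nat_lit 381) (nat_lit 245) (nat_lit 154))) (XT.nd (nat_lit 78) (nat_lit 0) (nat_lit 0) (XT.lf (nat_lit 0) (nat_lit 1613300862) (nat_lit 76) (nat_lit 13083926332) (nat_lit 152) (nat_lit 42759820640) (nat_lit 5) (nat_lit 5) (nat_lit 6)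 (nat_lit 5) (nat_lit 7) (nat_lit 4) (nat_lit 382) (nat_lit 245) (nat_lit 153)) (XT.nd (nat_lit 78) (nat_lit 0) (nat_lit 0) (XT.lf (nat_lit 0) (nat_lit 7125668018) (nat_lit 76) (nat_lit 10315584590) (nat_lit 152) (nat_lit 41640225300) (nat_lit 5) (nat_lit 5) (nat_lit 6) (nat_lit 5) (nat_lit 7) (nat_lit 4) (nat_lit 383) (nat_lit 245) (nat_lit 152)) (XT.lf (nat_lit 0) (nat_lit 12785138796) (nat_lit 76) (nat_lit 7471771824) (nat_lit 152) (nat_lit 40498063594) (nat_lit 5) (nat_lit 5) (nat_lit 6) (nat_lit 5) (nat_lit 7) (nat_lit 4) (nat_lit 384) (nat_lit 245) (nat_lit 151))))) (XT.nd (nat_lit 234) (nat_lit 0) (nat_lit 0) (XT.nd (nat_lit 78) (nat_lit 0) (nat_lit 0) (XT.lf (nat_lit 0) (nat_lit 18596658366) (nat_lit 76) (nat_lit 4550003147) (nat_lit 152) (nat_lit 39332337518) (nat_lit 5) (nat_lit 5) (nat_lit 6) (nat_lit 5) (nat_lit 7) (nat_lit 4) (nat_lit 385) (nat_lit 245) (nat_lit 150)) (XT.nd (nat_lit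 78) (nat_lit 0) (nat_lit 0) (XT.lf (nat_lit 0) (nat_lit 24565304753) (nat_lit 76) (nat_lit 1547725559) (nat_lit 152) (nat_lit 38142028474) (nat_lit 5) (nat_lit 5) (nat_lit 6) (nat_lit 5) (nat_lit 7) (nat_lit 4) (nat_lit 386) (nat_lit 245) (nat_lit 149)) (XT.lf (nat_lit 0) (nat_lit 29173390152) (nat_lit 152) (nat_lit 35403193260) (nat_lit 0) (nat_lit 1507678531) (nat_lit 5) (nat_lit 5) (nat_lit 7) (nat_lit 4) (nat_lit 5) (nat_lit 4) (nat_lit 387) (nat_lit 245) (nat_lit 148)))) (XT.nd (nat_lit 78) (nat_lit 0) (nat_lit 0) (XT.lf (nat_lit 0) (nat_lit 32331323775) (nat_lit 152) (nat_lit 31019821448) (nat_lit 0) (nat_lit 4617034353) (nat_lit 5) (nat_lit 5) (nat_lit 7) (nat_lit 4) (nat_lit 5) (nat_lit 4) (nat_lit 388) (nat_lit 245) (nat_lit 147)) (XT.nd (nat_lit 78) (nat_lit 0) (nat_lit 0) (XT.lf (nat_lit 0) (nat_lit 35574712855) (nat_lit 152) (nat_lit 26520930781) (nat_lit 0) (nat_lit 7813260519)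 (nat_lit 5) (nat_lit 5) (nat_lit 7) (nat_lit 4) (nat_lit 5) (nat_lit 4) (nat_lit 389) (nat_lit 245) (nat_lit 146)) (XT.lf (nat_lit 0) (nat_lit 38906391422) (nat_lit 152) (nat_lit 21902590190) (nat_lit 0) (nat_lit 11099149849) (nat_lit 5) (nat_lit 5) (nat_lit 7) (nat_lit 4) (nat_lit 5) (nat_lit 4) (nat_lit 390) (nat_lit 245) (nat_lit 145)))))) (XT.nd (nat_lit 390) (nat_lit 0) (nat_lit 0) (XT.nd (nat_lit 156) (nat_lit 76) (nat_lit 0) (XT.nd (nat_lit 78) (nat_lit 0) (nat_lit 0) (XT.lf (nat_lit 0) (nat_lit 42329270650) (nat_lit 152) (nat_lit 17160764231) (nat_lit 0) (nat_lit 14477573509) (nat_lit 5) (nat_lit 5) (nat_lit 7) (nat_lit 4) (nat_lit 5) (nat_lit 4) (nat_lit 391) (nat_lit 245) (nat_lit 144)) (XT.lf (nat_lit 0) (nat_lit 45846341407) (nat_lit 152) (nat_lit 12291309561) (nat_lit 0) (nat_lit 17951483518) (nat_lit 5) (nat_lit 5) (nat_lit 7) (nat_lit 4) (nat_lit 5) (nat_lit 4) (nat_lit 392)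 (nat_lit 245) (nat_lit 143))) (XT.nd (nat_lit 78) (nat_lit 76) (nat_lit 0) (XT.lf (nat_lit 0) (nat_lit 49460676859) (nat_lit 152) (nat_lit 7289971318) (nat_lit 0) (nat_lit 21523915332) (nat_lit 5) (nat_lit 5) (nat_lit 7) (nat_lit 4) (nat_lit 5) (nat_lit 4) (nat_lit 393) (nat_lit 245) (nat_lit 142)) (XT.nd (nat_lit 78) (nat_lit 76) (nat_lit 0) (XT.lf (nat_lit 0) (nat_lit 53175435164) (nat_lit 152) (nat_lit 2152379400) (nat_lit 0) (nat_lit 25197990494) (nat_lit 5) (nat_lit 5) (nat_lit 7) (nat_lit 4) (nat_lit 5) (nat_lit 4) (nat_lit 394) (nat_lit 245) (nat_lit 141)) (XT.lf (nat_lit 0) (nat_lit 3188167992) (nat_lit 76) (nat_lit 53836340857) (nat_lit 76) (nat_lit 25819397990) (nat_lit 4) (nat_lit 4) (nat_lit 5) (nat_lit 5) (nat_lit 5) (nat_lit 4) (nat_lit 395) (nat_lit 245) (nat_lit 140))))) (XT.nd (nat_lit 32214) (nat_lit 0) (nat_lit 8968) (XT.nd (nat_lit 78) (nat_lit 0) (nat_lit 0) (XT.lf (nat_lit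 0) (nat_lit 8719799774) (nat_lit 76) (nat_lit 52283314816) (nat_lit 76) (nat_lit 24228024184) (nat_lit 4) (nat_lit 4) (nat_lit 5) (nat_lit 5) (nat_lit 5) (nat_lit 4) (nat_lit 396) (nat_lit 245) (nat_lit 139)) (XT.nd (nat_lit 78) (nat_lit 0) (nat_lit 0) (XT.lf (nat_lit 0) (nat_lit 14404512840) (nat_lit 76) (nat_lit 50689114239) (nat_lit 76) (nat_lit 22596592767) (nat_lit 4) (nat_lit 4) (nat_lit 5) (nat_lit 5) (nat_lit 5) (nat_lit 4) (nat_lit 397) (nat_lit 245) (nat_lit 138)) (XT.lf (nat_lit 0) (nat_lit 20247274415) (nat_lit 76) (nat_lit 49052346136) (nat_lit 76) (nat_lit 20923678218) (nat_lit 4) (nat_lit 4) (nat_lit 5) (nat_lit 5) (nat_lit 5) (nat_lit 4) (nat_lit 398) (nat_lit 245) (nat_lit 137)))) (XT.nd (nat_lit 78) (nat_lit 608) (nat_lit 0) (XT.lf (nat_lit 0) (nat_lit 1183027821) (nat_lit 1140) (nat_lit 1346828406) (nat_lit 0) (nat_lit 1183027821) (nat_lit 130) (nat_lit 5) (nat_lit 145) (nat_lit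 4) (nat_lit 130) (nat_lit 4) (nat_lit 288) (nat_lit 246) (nat_lit 246)) (XT.nd (nat_lit 78) (nat_lit 76) (nat_lit 0) (XT.lf (nat_lit 0) (nat_lit 1722444930) (nat_lit 532) (nat_lit 3595856599) (nat_lit 532) (nat_lit 2183704528) (nat_lit 123) (nat_lit 4) (nat_lit 130) (nat_lit 5) (nat_lit 130) (nat_lit 4) (nat_lit 289) (nat_lit 246) (nat_lit 245)) (XT.lf (nat_lit 0) (nat_lit 705411277) (nat_lit 608) (nat_lit 1351188605) (nat_lit 76) (nat_lit 5525754940) (nat_lit 122) (nat_lit 5) (nat_lit 130) (nat_lit 5) (nat_lit 123) (nat_lit 4) (nat_lit 290) (nat_lit 246) (nat_lit 244))))))) (XT.nd (nat_lit 858) (nat_lit 1824) (nat_lit 0) (XT.nd (nat_lit 390) (nat_lit 1748) (nat_lit 0) (XT.nd (nat_lit 156) (nat_lit 1064) (nat_lit 0) (XT.nd (nat_lit 78) (nat_lit 0) (nat_lit 0) (XT.lf (nat_lit 0) (nat_lit 3162784996) (nat_lit 456) (nat_lit 421967348) (nat_lit 532) (nat_lit 4081589637) (nat_lit 116) (nat_lit 5)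 (nat_lit 122) (nat_lit 5) (nat_lit 123) (nat_lit 4) (nat_lit 291) (nat_lit 246) (nat_lit 243)) (XT.lf (nat_lit 0) (nat_lit 6494956591) (nat_lit 532) (nat_lit 14000376) (nat_lit 0) (nat_lit 1245848384) (nat_lit 116) (nat_lit 5) (nat_lit 123) (nat_lit 4) (nat_lit 116) (nat_lit 4) (nat_lit 292) (nat_lit 246) (nat_lit 242))) (XT.nd (nat_lit 78) (nat_lit 456) (nat_lit 0) (XT.lf (nat_lit 0) (nat_lit 1583268028) (nat_lit 608) (nat_lit 3253208889) (nat_lit 76) (nat_lit 3010179643) (nat_lit 108) (nat_lit 5) (nat_lit 116) (nat_lit 5) (nat_lit 109) (nat_lit 4) (nat_lit 293) (nat_lit 246) (nat_lit 241)) (XT.nd (nat_lit 78) (nat_lit 0) (nat_lit 0) (XT.lf (nat_lit 0) (nat_lit 1323948669) (nat_lit 456) (nat_lit 3096665510) (nat_lit 532) (nat_lit 3522513572) (nat_lit 102) (nat_lit 5) (nat_lit 108) (nat_lit 5) (nat_lit 109) (nat_lit 4) (nat_lit 294) (nat_lit 246) (nat_lit 240)) (XT.lf (nat_lit 0) (nat_lit 6018408682)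 (nat_lit 456) (nat_lit 1280367503) (nat_lit 532) (nat_lit 745304652) (nat_lit 102) (nat_lit 5) (nat_lit 108) (nat_lit 5) (nat_lit 109) (nat_lit 4) (nat_lit 295) (nat_lit 246) (nat_lit 239))))) (XT.nd (nat_lit 234) (nat_lit 836) (nat_lit 0) (XT.nd (nat_lit 78) (nat_lit 380) (nat_lit 0) (XT.lf (nat_lit 0) (nat_lit 2029565560) (nat_lit 532) (nat_lit 5504130320) (nat_lit 76) (nat_lit 615331815) (nat_lit 95) (nat_lit 5) (nat_lit 102) (nat_lit 5) (nat_lit 96) (nat_lit 4) (nat_lit 296) (nat_lit 246) (nat_lit 238)) (XT.nd (nat_lit 78) (nat_lit 380) (nat_lit 0) (XT.lf (nat_lit 0) (nat_lit 4831431511) (nat_lit 532) (nat_lit 867116203) (nat_lit 76) (nat_lit 2559828661) (nat_lit 95) (nat_lit 5) (nat_lit 102) (nat_lit 5) (nat_lit 96) (nat_lit 4) (nat_lit 297) (nat_lit 246) (nat_lit 237)) (XT.lf (nat_lit 0) (nat_lit 3900206182) (nat_lit 380) (nat_lit 3782206159) (nat_lit 456) (nat_lit 689871191) (nat_lit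 90) (nat_lit 5) (nat_lit 95) (nat_lit 5) (nat_lit 96) (nat_lit 4) (nat_lit 298) (nat_lit 246) (nat_lit 236)))) (XT.nd (nat_lit 78) (nat_lit 380) (nat_lit 0) (XT.lf (nat_lit 0) (nat_lit 237326791) (nat_lit 380) (nat_lit 1789507709) (nat_lit 456) (nat_lit 6464203841) (nat_lit 84) (nat_lit 5) (nat_lit 89) (nat_lit 5) (nat_lit 90) (nat_lit 5) (nat_lit 299) (nat_lit 246) (nat_lit 235)) (XT.nd (nat_lit 78) (nat_lit 380) (nat_lit 0) (XT.lf (nat_lit 0) (nat_lit 4788403003) (nat_lit 456) (nat_lit 3529204785) (nat_lit 76) (nat_lit 296436558) (nat_lit 84) (nat_lit 5) (nat_lit 90) (nat_lit 5) (nat_lit 85) (nat_lit 4) (nat_lit 300) (nat_lit 246) (nat_lit 234)) (XT.lf (nat_lit 0) (nat_lit 1259345442) (nat_lit 380) (nat_lit 6334455051) (nat_lit 456) (nat_lit 1148314742) (nat_lit 79) (nat_lit 5) (nat_lit 84) (nat_lit 5) (nat_lit 85) (nat_lit 4) (nat_lit 301) (nat_lit 246) (nat_lit 233)))))) (XT.nd (nat_lit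 390) (nat_lit 988) (nat_lit 0) (XT.nd (nat_lit 156) (nat_lit 380) (nat_lit 0) (XT.nd (nat_lit 78) (nat_lit 380) (nat_lit 0) (XT.lf (nat_lit 0) (nat_lit 1545413407) (nat_lit 456) (nat_lit 2710159562) (nat_lit 76) (nat_lit 4619159057) (nat_lit 78) (nat_lit 5) (nat_lit 84) (nat_lit 5) (nat_lit 79) (nat_lit 5) (nat_lit 302) (nat_lit 246) (nat_lit 232)) (XT.lf (nat_lit 0) (nat_lit 2153490483) (nat_lit 380) (nat_lit 2097573602) (nat_lit 456) (nat_lit 4761483270) (nat_lit 73) (nat_lit 5) (nat_lit 78) (nat_lit 5) (nat_lit 79) (nat_lit 5) (nat_lit 303) (nat_lit 246) (nat_lit 231))) (XT.nd (nat_lit 78) (nat_lit 380) (nat_lit 0) (XT.lf (nat_lit 0) (nat_lit 7001205117) (nat_lit 456) (nat_lit 2020506797) (nat_lit 76) (nat_lit 134067000) (nat_lit 73) (nat_lit 5) (nat_lit 79) (nat_lit 5) (nat_lit 74) (nat_lit 4) (nat_lit 304) (nat_lit 246) (nat_lit 230)) (XT.nd (nat_lit 78) (nat_lit 0) (nat_lit 0) (XT.lf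 (nat_lit 0) (nat_lit 505074993) (nat_lit 380) (nat_lit 6391026266) (nat_lit 76) (nat_lit 2407677600) (nat_lit 68) (nat_lit 5) (nat_lit 73) (nat_lit 5) (nat_lit 69) (nat_lit 5) (nat_lit 305) (nat_lit 246) (nat_lit 229)) (XT.lf (nat_lit 0) (nat_lit 3158491455) (nat_lit 380) (nat_lit 1523856695) (nat_lit 76) (nat_lit 4774678192) (nat_lit 68) (nat_lit 5) (nat_lit 73) (nat_lit 5) (nat_lit 69) (nat_lit 5) (nat_lit 306) (nat_lit 246) (nat_lit 228))))) (XT.nd (nat_lit 234) (nat_lit 304) (nat_lit 0) (XT.nd (nat_lit 78) (nat_lit 380) (nat_lit 0) (XT.lf (nat_lit 0) (nat_lit 3477434024) (nat_lit 304) (nat_lit 2386025782) (nat_lit 380) (nat_lit 3752414129) (nat_lit 64) (nat_lit 5) (nat_lit 68) (nat_lit 5) (nat_lit 69) (nat_lit 5) (nat_lit 307) (nat_lit 246) (nat_lit 227)) (XT.nd (nat_lit 78) (nat_lit 380) (nat_lit 0) (XT.lf (nat_lit 0) (nat_lit 8581031708) (nat_lit 304) (nat_lit 23487153) (nat_lit 380)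 (nat_lit 1176476318) (nat_lit 64) (nat_lit 5) (nat_lit 68) (nat_lit 5) (nat_lit 69) (nat_lit 5) (nat_lit 308) (nat_lit 246) (nat_lit 226)) (XT.lf (nat_lit 0) (nat_lit 1449204026) (nat_lit 380) (nat_lit 6104963922) (nat_lit 76) (nat_lit 2396585316) (nat_lit 59) (nat_lit 5) (nat_lit 64) (nat_lit 5) (nat_lit 60) (nat_lit 5) (nat_lit 309) (nat_lit 246) (nat_lit 225)))) (XT.nd (nat_lit 78) (nat_lit 304) (nat_lit 0) (XT.lf (nat_lit 0) (nat_lit 4083870177) (nat_lit 380) (nat_lit 1148678326) (nat_lit 76) (nat_lit 4894233491) (nat_lit 59) (nat_lit 5) (nat_lit 64) (nat_lit 5) (nat_lit 60) (nat_lit 5) (nat_lit 310) (nat_lit 246) (nat_lit 224)) (XT.nd (nat_lit 78) (nat_lit 0) (nat_lit 0) (XT.lf (nat_lit 0) (nat_lit 3956858128) (nat_lit 304) (nat_lit 2821852575) (nat_lit 380) (nat_lit 3530085878) (nat_lit 55) (nat_lit 5) (nat_lit 59) (nat_lit 5) (nat_lit 60) (nat_lit 5) (nat_lit 311) (nat_lit 246) (nat_lit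 223)) (XT.lf (nat_lit 0) (nat_lit 9163208667) (nat_lit 304) (nat_lit 346813560) (nat_lit 380) (nat_lit 987715578) (nat_lit 55) (nat_lit 5) (nat_lit 59) (nat_lit 5) (nat_lit 60) (nat_lit 5) (nat_lit 312) (nat_lit 246) (nat_lit 222))))))))
noncomputable def xc73 : XT := (XT.nd (nat_lit 1716) (nat_lit 912) (nat_lit 0) (XT.nd (nat_lit 858) (nat_lit 912) (nat_lit 0) (XT.nd (nat_lit 390) (nat_lit 532) (nat_lit 0) (XT.nd (nat_lit 156) (nat_lit 608) (nat_lit 0) (XT.nd (nat_lit 78) (nat_lit 0) (nat_lit 0) (XT.lf (nat_lit 0) (nat_lit 1602283790) (nat_lit 304) (nat_lit 6896748252) (nat_lit 76) (nat_lit 2192876632) (nat_lit 51) (nat_lit 5) (nat_lit 55) (nat_lit 5) (nat_lit 52) (nat_lit 5) (nat_lit 313) (nat_lit 246) (nat_lit 221)) (XT.lf (nat_lit 0) (nat_lit 4212860956) (nat_lit 304) (nat_lit 1874479882) (nat_lit 76) (nat_lit 4805512073) (nat_lit 51) (nat_lit 5) (nat_lit 55) (nat_lit 5) (nat_lit 52) (nat_lit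 5) (nat_lit 314) (nat_lit 246) (nat_lit 220))) (XT.nd (nat_lit 78) (nat_lit 304) (nat_lit 0) (XT.lf (nat_lit 0) (nat_lit 3289114622) (nat_lit 304) (nat_lit 3591526309) (nat_lit 380) (nat_lit 4219937902) (nat_lit 47) (nat_lit 5) (nat_lit 51) (nat_lit 5) (nat_lit 52) (nat_lit 5) (nat_lit 315) (nat_lit 246) (nat_lit 219)) (XT.nd (nat_lit 78) (nat_lit 304) (nat_lit 0) (XT.lf (nat_lit 0) (nat_lit 8573238401) (nat_lit 304) (nat_lit 1022249025) (nat_lit 380) (nat_lit 1720154544) (nat_lit 47) (nat_lit 5) (nat_lit 51) (nat_lit 5) (nat_lit 52) (nat_lit 5) (nat_lit 316) (nat_lit 246) (nat_lit 218)) (XT.lf (nat_lit 0) (nat_lit 826194669) (nat_lit 304) (nat_lit 9107125603) (nat_lit 76) (nat_lit 1604052547) (nat_lit 43) (nat_lit 5) (nat_lit 47) (nat_lit 5) (nat_lit 44) (nat_lit 5) (nat_lit 317) (nat_lit 246) (nat_lit 217))))) (XT.nd (nat_lit 234) (nat_lit 304) (nat_lit 0) (XT.nd (nat_lit 78) (nat_lit 228)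 (nat_lit 0) (XT.lf (nat_lit 0) (nat_lit 3402056444) (nat_lit 304) (nat_lit 4050572375) (nat_lit 76) (nat_lit 4313091525) (nat_lit 43) (nat_lit 5) (nat_lit 47) (nat_lit 5) (nat_lit 44) (nat_lit 5) (nat_lit 318) (nat_lit 246) (nat_lit 216)) (XT.nd (nat_lit 78) (nat_lit 0) (nat_lit 0) (XT.lf (nat_lit 0) (nat_lit 1108913450) (nat_lit 228) (nat_lit 4908015054) (nat_lit 304) (nat_lit 5985241204) (nat_lit 40) (nat_lit 5) (nat_lit 43) (nat_lit 5) (nat_lit 44) (nat_lit 5) (nat_lit 319) (nat_lit 246) (nat_lit 215)) (XT.lf (nat_lit 0) (nat_lit 6436503944) (nat_lit 228) (nat_lit 2266475382) (nat_lit 304) (nat_lit 3543051683) (nat_lit 40) (nat_lit 5) (nat_lit 43) (nat_lit 5) (nat_lit 44) (nat_lit 5) (nat_lit 320) (nat_lit 246) (nat_lit 214)))) (XT.nd (nat_lit 78) (nat_lit 304) (nat_lit 0) (XT.lf (nat_lit 0) (nat_lit 11427010513) (nat_lit 304) (nat_lit 646634788) (nat_lit 76) (nat_lit 424938391) (nat_lit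 40) (nat_lit 5) (nat_lit 44) (nat_lit 5) (nat_lit 41) (nat_lit 4) (nat_lit 321) (nat_lit 246) (nat_lit 213)) (XT.nd (nat_lit 78) (nat_lit 0) (nat_lit 0) (XT.lf (nat_lit 0) (nat_lit 1467167297) (nat_lit 304) (nat_lit 8099622009) (nat_lit 76) (nat_lit 3190934029) (nat_lit 36) (nat_lit 5) (nat_lit 40) (nat_lit 5) (nat_lit 37) (nat_lit 5) (nat_lit 322) (nat_lit 246) (nat_lit 212)) (XT.lf (nat_lit 0) (nat_lit 4021682488) (nat_lit 304) (nat_lit 2967190235) (nat_lit 76) (nat_lit 6036700886) (nat_lit 36) (nat_lit 5) (nat_lit 40) (nat_lit 5) (nat_lit 37) (nat_lit 5) (nat_lit 323) (nat_lit 246) (nat_lit 211)))))) (XT.nd (nat_lit 390) (nat_lit 456) (nat_lit 0) (XT.nd (nat_lit 156) (nat_lit 228) (nat_lit 0) (XT.nd (nat_lit 78) (nat_lit 0) (nat_lit 0) (XT.lf (nat_lit 0) (nat_lit 2298721726) (nat_lit 228) (nat_lit 4332087414) (nat_lit 304) (nat_lit 6671397607) (nat_lit 33) (nat_lit 5) (nat_lit 36) (nat_lit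 5) (nat_lit 37) (nat_lit 5) (nat_lit 324) (nat_lit 246) (nat_lit 210)) (XT.lf (nat_lit 0) (nat_lit 7718727109) (nat_lit 228) (nat_lit 1585987624) (nat_lit 304) (nat_lit 4282913103) (nat_lit 33) (nat_lit 5) (nat_lit 36) (nat_lit 5) (nat_lit 37) (nat_lit 5) (nat_lit 325) (nat_lit 246) (nat_lit 209))) (XT.nd (nat_lit 78) (nat_lit 228) (nat_lit 0) (XT.lf (nat_lit 0) (nat_lit 12028390889) (nat_lit 304) (nat_lit 656195338) (nat_lit 76) (nat_lit 1198020392) (nat_lit 33) (nat_lit 5) (nat_lit 37) (nat_lit 5) (nat_lit 34) (nat_lit 4) (nat_lit 326) (nat_lit 246) (nat_lit 208)) (XT.nd (nat_lit 78) (nat_lit 0) (nat_lit 0) (XT.lf (nat_lit 0) (nat_lit 654819988) (nat_lit 228) (nat_lit 9465008179) (nat_lit 76) (nat_lit 4065893610) (nat_lit 30) (nat_lit 5) (nat_lit 33) (nat_lit 5) (nat_lit 31) (nat_lit 5) (nat_lit 327) (nat_lit 246) (nat_lit 207)) (XT.lf (nat_lit 0) (nat_lit 3167525795) (nat_lit 228) (nat_lit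 4306166431) (nat_lit 76) (nat_lit 7024792132) (nat_lit 30) (nat_lit 5) (nat_lit 33) (nat_lit 5) (nat_lit 31) (nat_lit 5) (nat_lit 328) (nat_lit 246) (nat_lit 206))))) (XT.nd (nat_lit 234) (nat_lit 228) (nat_lit 0) (XT.nd (nat_lit 78) (nat_lit 0) (nat_lit 0) (XT.lf (nat_lit 0) (nat_lit 965710478) (nat_lit 228) (nat_lit 4759355223) (nat_lit 304) (nat_lit 9096553083) (nat_lit 27) (nat_lit 5) (nat_lit 30) (nat_lit 5) (nat_lit 31) (nat_lit 5) (nat_lit 329) (nat_lit 246) (nat_lit 205)) (XT.nd (nat_lit 78) (nat_lit 0) (nat_lit 0) (XT.lf (nat_lit 0) (nat_lit 6424035174) (nat_lit 228) (nat_lit 1939533921) (nat_lit 304) (nat_lit 6790821471) (nat_lit 27) (nat_lit 5) (nat_lit 30) (nat_lit 5) (nat_lit 31) (nat_lit 5) (nat_lit 330) (nat_lit 246) (nat_lit 204)) (XT.lf (nat_lit 0) (nat_lit 11052205680) (nat_lit 304) (nat_lit 3519562617) (nat_lit 76) (nat_lit 926316252) (nat_lit 27) (nat_lit 5) (nat_lit 31)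 (nat_lit 5) (nat_lit 28) (nat_lit 4) (nat_lit 331) (nat_lit 246) (nat_lit 203)))) (XT.nd (nat_lit 78) (nat_lit 76) (nat_lit 0) (XT.lf (nat_lit 0) (nat_lit 1806067606) (nat_lit 152) (nat_lit 12014816586) (nat_lit 228) (nat_lit 2031290075) (nat_lit 25) (nat_lit 5) (nat_lit 27) (nat_lit 5) (nat_lit 28) (nat_lit 4) (nat_lit 332) (nat_lit 246) (nat_lit 202)) (XT.nd (nat_lit 78) (nat_lit 0) (nat_lit 0) (XT.lf (nat_lit 0) (nat_lit 445663756) (nat_lit 228) (nat_lit 8914701169) (nat_lit 76) (nat_lit 6856488300) (nat_lit 24) (nat_lit 5) (nat_lit 27) (nat_lit 5) (nat_lit 25) (nat_lit 5) (nat_lit 333) (nat_lit 246) (nat_lit 201)) (XT.lf (nat_lit 0) (nat_lit 2920106915) (nat_lit 228) (nat_lit 3705545225) (nat_lit 76) (nat_lit 9967357593) (nat_lit 24) (nat_lit 5) (nat_lit 27) (nat_lit 5) (nat_lit 25) (nat_lit 5) (nat_lit 334) (nat_lit 246) (nat_lit 200))))))) (XT.nd (nat_lit 858) (nat_lit 380) (nat_lit 0)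 (XT.nd (nat_lit 390) (nat_lit 228) (nat_lit 0) (XT.nd (nat_lit 156) (nat_lit 152) (nat_lit 0) (XT.nd (nat_lit 78) (nat_lit 0) (nat_lit 0) (XT.lf (nat_lit 0) (nat_lit 1637390243) (nat_lit 152) (nat_lit 3812188677) (nat_lit 228) (nat_lit 11531507146) (nat_lit 22) (nat_lit 5) (nat_lit 24) (nat_lit 5) (nat_lit 25) (nat_lit 5) (nat_lit 335) (nat_lit 246) (nat_lit 199)) (XT.lf (nat_lit 0) (nat_lit 7162661075) (nat_lit 152) (nat_lit 895248250) (nat_lit 228) (nat_lit 9322863411) (nat_lit 22) (nat_lit 5) (nat_lit 24) (nat_lit 5) (nat_lit 25) (nat_lit 5) (nat_lit 336) (nat_lit 246) (nat_lit 198))) (XT.nd (nat_lit 78) (nat_lit 152) (nat_lit 0) (XT.lf (nat_lit 0) (nat_lit 10731141615) (nat_lit 228) (nat_lit 5012254525) (nat_lit 76) (nat_lit 2049509916) (nat_lit 22) (nat_lit 5) (nat_lit 25) (nat_lit 5) (nat_lit 23) (nat_lit 4) (nat_lit 337) (nat_lit 246) (nat_lit 197)) (XT.nd (nat_lit 78) (nat_lit 0) (nat_lit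 0) (XT.lf (nat_lit 0) (nat_lit 295001481) (nat_lit 152) (nat_lit 13168625326) (nat_lit 228) (nat_lit 4754458877) (nat_lit 20) (nat_lit 5) (nat_lit 22) (nat_lit 5) (nat_lit 23) (nat_lit 4) (nat_lit 338) (nat_lit 246) (nat_lit 196)) (XT.lf (nat_lit 0) (nat_lit 5813058496) (nat_lit 152) (nat_lit 10483457335) (nat_lit 228) (nat_lit 2359004409) (nat_lit 20) (nat_lit 5) (nat_lit 22) (nat_lit 5) (nat_lit 23) (nat_lit 4) (nat_lit 339) (nat_lit 246) (nat_lit 195))))) (XT.nd (nat_lit 234) (nat_lit 0) (nat_lit 0) (XT.nd (nat_lit 78) (nat_lit 152) (nat_lit 0) (XT.lf (nat_lit 0) (nat_lit 74593577) (nat_lit 228) (nat_lit 7660813019) (nat_lit 76) (nat_lit 11371637603) (nat_lit 19) (nat_lit 5) (nat_lit 22) (nat_lit 5) (nat_lit 20) (nat_lit 5) (nat_lit 340) (nat_lit 246) (nat_lit 194)) (XT.nd (nat_lit 78) (nat_lit 152) (nat_lit 0) (XT.lf (nat_lit 0) (nat_lit 2503099905) (nat_lit 228) (nat_lit 2395956002) (nat_lit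 76) (nat_lit 14673325822) (nat_lit 19) (nat_lit 5) (nat_lit 22) (nat_lit 5) (nat_lit 20) (nat_lit 5) (nat_lit 341) (nat_lit 246) (nat_lit 193)) (XT.lf (nat_lit 0) (nat_lit 3038681481) (nat_lit 152) (nat_lit 1965197426) (nat_lit 228) (nat_lit 15047864525) (nat_lit 17) (nat_lit 5) (nat_lit 19) (nat_lit 5) (nat_lit 20) (nat_lit 5) (nat_lit 342) (nat_lit 246) (nat_lit 192)))) (XT.nd (nat_lit 78) (nat_lit 0) (nat_lit 0) (XT.lf (nat_lit 0) (nat_lit 7584727143) (nat_lit 228) (nat_lit 11917436980) (nat_lit 76) (nat_lit 1043215699) (nat_lit 17) (nat_lit 5) (nat_lit 20) (nat_lit 5) (nat_lit 18) (nat_lit 4) (nat_lit 343) (nat_lit 246) (nat_lit 191)) (XT.nd (nat_lit 78) (nat_lit 0) (nat_lit 0) (XT.lf (nat_lit 0) (nat_lit 10233773212) (nat_lit 228) (nat_lit 6734762499) (nat_lit 76) (nat_lit 4085610321) (nat_lit 17) (nat_lit 5) (nat_lit 20) (nat_lit 5) (nat_lit 18) (nat_lit 4) (nat_lit 344) (nat_lit 246)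 (nat_lit 190)) (XT.lf (nat_lit 0) (nat_lit 12934441133) (nat_lit 228) (nat_lit 1441619277) (nat_lit 76) (nat_lit 7202992922) (nat_lit 17) (nat_lit 5) (nat_lit 20) (nat_lit 5) (nat_lit 18) (nat_lit 4) (nat_lit 345) (nat_lit 246) (nat_lit 189)))))) (XT.nd (nat_lit 390) (nat_lit 76) (nat_lit 0) (XT.nd (nat_lit 156) (nat_lit 228) (nat_lit 0) (XT.nd (nat_lit 78) (nat_lit 0) (nat_lit 0) (XT.lf (nat_lit 0) (nat_lit 4045561233) (nat_lit 76) (nat_lit 11682417891) (nat_lit 152) (nat_lit 6391414604) (nat_lit 16) (nat_lit 5) (nat_lit 17) (nat_lit 5) (nat_lit 18) (nat_lit 4) (nat_lit 346) (nat_lit 246) (nat_lit 188)) (XT.lf (nat_lit 0) (nat_lit 9683636897) (nat_lit 76) (nat_lit 8909577075) (nat_lit 152) (nat_lit 4083133814) (nat_lit 16) (nat_lit 5) (nat_lit 17) (nat_lit 5) (nat_lit 18) (nat_lit 4) (nat_lit 347) (nat_lit 246) (nat_lit 187))) (XT.nd (nat_lit 78) (nat_lit 228) (nat_lit 0) (XT.lf (nat_lit 0)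 (nat_lit 15448843138) (nat_lit 76) (nat_lit 6069672620) (nat_lit 152) (nat_lit 1732310412) (nat_lit 16) (nat_lit 5) (nat_lit 17) (nat_lit 5) (nat_lit 18) (nat_lit 4) (nat_lit 348) (nat_lit 246) (nat_lit 186)) (XT.nd (nat_lit 78) (nat_lit 152) (nat_lit 0) (XT.lf (nat_lit 0) (nat_lit 650170059) (nat_lit 152) (nat_lit 2503487555) (nat_lit 76) (nat_lit 20689482013) (nat_lit 15) (nat_lit 5) (nat_lit 17) (nat_lit 5) (nat_lit 16) (nat_lit 5) (nat_lit 349) (nat_lit 246) (nat_lit 185)) (XT.lf (nat_lit 0) (nat_lit 2954333940) (nat_lit 152) (nat_lit 118690568) (nat_lit 228) (nat_lit 21379607607) (nat_lit 13) (nat_lit 5) (nat_lit 15) (nat_lit 5) (nat_lit 16) (nat_lit 5) (nat_lit 350) (nat_lit 246) (nat_lit 184))))) (XT.nd (nat_lit 234) (nat_lit 76) (nat_lit 0) (XT.nd (nat_lit 78) (nat_lit 0) (nat_lit 0) (XT.lf (nat_lit 0) (nat_lit 5598510892) (nat_lit 228) (nat_lit 16521951016) (nat_lit 76) (nat_lit 2959083732)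 (nat_lit 13) (nat_lit 5) (nat_lit 16) (nat_lit 5) (nat_lit 14) (nat_lit 4) (nat_lit 351) (nat_lit 246) (nat_lit 183)) (XT.nd (nat_lit 78) (nat_lit 0) (nat_lit 0) (XT.lf (nat_lit 0) (nat_lit 8177157830) (nat_lit 228) (nat_lit 11436663952) (nat_lit 76) (nat_lit 6112156555) (nat_lit 13) (nat_lit 5) (nat_lit 16) (nat_lit 5) (nat_lit 14) (nat_lit 4) (nat_lit 352) (nat_lit 246) (nat_lit 182)) (XT.lf (nat_lit 0) (nat_lit 10810077582) (nat_lit 228) (nat_lit 6236852603) (nat_lit 76) (nat_lit 9345599091) (nat_lit 13) (nat_lit 5) (nat_lit 16) (nat_lit 5) (nat_lit 14) (nat_lit 4) (nat_lit 353) (nat_lit 246) (nat_lit 181)))) (XT.nd (nat_lit 78) (nat_lit 76) (nat_lit 0) (XT.lf (nat_lit 0) (nat_lit 13499570758) (nat_lit 228) (nat_lit 917973444) (nat_lit 76) (nat_lit 12662236678) (nat_lit 13) (nat_lit 5) (nat_lit 16) (nat_lit 5) (nat_lit 14) (nat_lit 4) (nat_lit 354) (nat_lit 246) (nat_lit 180)) (XT.nd (nat_lit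 78) (nat_lit 0) (nat_lit 0) (XT.lf (nat_lit 0) (nat_lit 4614669920) (nat_lit 76) (nat_lit 11677676509) (nat_lit 152) (nat_lit 11494656460) (nat_lit 12) (nat_lit 5) (nat_lit 13) (nat_lit 5) (nat_lit 14) (nat_lit 4) (nat_lit 355) (nat_lit 246) (nat_lit 179)) (XT.lf (nat_lit 0) (nat_lit 10296610622) (nat_lit 76) (nat_lit 8860095735) (nat_lit 152) (nat_lit 9359131065) (nat_lit 12) (nat_lit 5) (nat_lit 13) (nat_lit 5) (nat_lit 14) (nat_lit 4) (nat_lit 356) (nat_lit 246) (nat_lit 178))))))))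
noncomputable def xc74 : XT := (XT.nd (nat_lit 1716) (nat_lit 152) (nat_lit 0) (XT.nd (nat_lit 858) (nat_lit 152) (nat_lit 0) (XT.nd (nat_lit 390) (nat_lit 76) (nat_lit 0) (XT.nd (nat_lit 156) (nat_lit 228) (nat_lit 0) (XT.nd (nat_lit 78) (nat_lit 0) (nat_lit 0) (XT.lf (nat_lit 0) (nat_lit 16114543991) (nat_lit 76) (nat_lit 5971609648) (nat_lit 152) (nat_lit 7181037677) (nat_lit 12) (nat_lit 5) (nat_lit 13) (nat_lit 5) (nat_lit 14) (nat_lit 4) (nat_lit 357) (nat_lit 246) (nat_lit 177)) (XT.lf (nat_lit 0) (nat_lit 22073553658) (nat_lit 76) (nat_lit 3009694328) (nat_lit 152) (nat_lit 4958473107) (nat_lit 12) (nat_lit 5) (nat_lit 13) (nat_lit 5) (nat_lit 14) (nat_lit 4) (nat_lit 358) (nat_lit 246) (nat_lit 176))) (XT.nd (nat_lit 78) (nat_lit 228) (nat_lit 0) (XT.lf (nat_lit 0) (nat_lit 28150879664) (nat_lit 152) (nat_lit 2661528445) (nat_lit 0) (nat_lit 27687275) (nat_lit 12) (nat_lit 5) (nat_lit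 14) (nat_lit 4) (nat_lit 12) (nat_lit 4) (nat_lit 359) (nat_lit 246) (nat_lit 175)) (XT.nd (nat_lit 78) (nat_lit 76) (nat_lit 0) (XT.lf (nat_lit 0) (nat_lit 2797071875) (nat_lit 152) (nat_lit 28550959999) (nat_lit 152) (nat_lit 313290840) (nat_lit 10) (nat_lit 4) (nat_lit 12) (nat_lit 5) (nat_lit 12) (nat_lit 4) (nat_lit 360) (nat_lit 246) (nat_lit 174)) (XT.lf (nat_lit 0) (nat_lit 2100260744) (nat_lit 228) (nat_lit 24085282343) (nat_lit 76) (nat_lit 6320813760) (nat_lit 9) (nat_lit 5) (nat_lit 12) (nat_lit 5) (nat_lit 10) (nat_lit 4) (nat_lit 361) (nat_lit 246) (nat_lit 173))))) (XT.nd (nat_lit 234) (nat_lit 76) (nat_lit 0) (XT.nd (nat_lit 78) (nat_lit 0) (nat_lit 0) (XT.lf (nat_lit 0) (nat_lit 4561326839) (nat_lit 228) (nat_lit 19197223506) (nat_lit 76) (nat_lit 9618680763) (nat_lit 9) (nat_lit 5) (nat_lit 12) (nat_lit 5) (nat_lit 10) (nat_lit 4) (nat_lit 362) (nat_lit 246) (nat_lit 172))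 (XT.nd (nat_lit 78) (nat_lit 0) (nat_lit 0) (XT.lf (nat_lit 0) (nat_lit 7078171323) (nat_lit 228) (nat_lit 14192791664) (nat_lit 76) (nat_lit 13003833813) (nat_lit 9) (nat_lit 5) (nat_lit 12) (nat_lit 5) (nat_lit 10) (nat_lit 4) (nat_lit 363) (nat_lit 246) (nat_lit 171)) (XT.lf (nat_lit 0) (nat_lit 9652993380) (nat_lit 228) (nat_lit 9067614015) (nat_lit 76) (nat_lit 16479230812) (nat_lit 9) (nat_lit 5) (nat_lit 12) (nat_lit 5) (nat_lit 10) (nat_lit 4) (nat_lit 364) (nat_lit 246) (nat_lit 170)))) (XT.nd (nat_lit 78) (nat_lit 76) (nat_lit 0) (XT.lf (nat_lit 0) (nat_lit 12288042856) (nat_lit 228) (nat_lit 3817212246) (nat_lit 76) (nat_lit 20047908514) (nat_lit 9) (nat_lit 5) (nat_lit 12) (nat_lit 5) (nat_lit 10) (nat_lit 4) (nat_lit 365) (nat_lit 246) (nat_lit 169)) (XT.nd (nat_lit 78) (nat_lit 0) (nat_lit 0) (XT.lf (nat_lit 0) (nat_lit 1594108163) (nat_lit 76) (nat_lit 13406837601) (nat_lit 152)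 (nat_lit 22134200559) (nat_lit 8) (nat_lit 5) (nat_lit 9) (nat_lit 5) (nat_lit 10) (nat_lit 4) (nat_lit 366) (nat_lit 246) (nat_lit 168)) (XT.lf (nat_lit 0) (nat_lit 7218588659) (nat_lit 76) (nat_lit 10598889413) (nat_lit 152) (nat_lit 20328464135) (nat_lit 8) (nat_lit 5) (nat_lit 9) (nat_lit 5) (nat_lit 10) (nat_lit 4) (nat_lit 367) (nat_lit 246) (nat_lit 167)))))) (XT.nd (nat_lit 390) (nat_lit 152) (nat_lit 0) (XT.nd (nat_lit 156) (nat_lit 0) (nat_lit 0) (XT.nd (nat_lit 78) (nat_lit 0) (nat_lit 0) (XT.lf (nat_lit 0) (nat_lit 12985173830) (nat_lit 76) (nat_lit 7717503351) (nat_lit 152) (nat_lit 18484880018) (nat_lit 8) (nat_lit 5) (nat_lit 9) (nat_lit 5) (nat_lit 10) (nat_lit 4) (nat_lit 368) (nat_lit 246) (nat_lit 166)) (XT.lf (nat_lit 0) (nat_lit 18898902437) (nat_lit 76) (nat_lit 4760161699) (nat_lit 152) (nat_lit 16601837309) (nat_lit 8) (nat_lit 5) (nat_lit 9) (nat_lit 5) (nat_lit 10)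 (nat_lit 4) (nat_lit 369) (nat_lit 246) (nat_lit 165))) (XT.nd (nat_lit 78) (nat_lit 0) (nat_lit 0) (XT.lf (nat_lit 0) (nat_lit 24964941817) (nat_lit 76) (nat_lit 1724280372) (nat_lit 152) (nat_lit 14677690632) (nat_lit 8) (nat_lit 5) (nat_lit 9) (nat_lit 5) (nat_lit 10) (nat_lit 4) (nat_lit 370) (nat_lit 246) (nat_lit 164)) (XT.nd (nat_lit 78) (nat_lit 0) (nat_lit 0) (XT.lf (nat_lit 0) (nat_lit 29809187433) (nat_lit 152) (nat_lit 11331353732) (nat_lit 0) (nat_lit 1365614926) (nat_lit 8) (nat_lit 5) (nat_lit 10) (nat_lit 4) (nat_lit 8) (nat_lit 4) (nat_lit 371) (nat_lit 246) (nat_lit 163)) (XT.lf (nat_lit 0) (nat_lit 33025667461) (nat_lit 152) (nat_lit 6149697967) (nat_lit 0) (nat_lit 4504141844) (nat_lit 8) (nat_lit 5) (nat_lit 10) (nat_lit 4) (nat_lit 8) (nat_lit 4) (nat_lit 372) (nat_lit 246) (nat_lit 162))))) (XT.nd (nat_lit 234) (nat_lit 76) (nat_lit 0) (XT.nd (nat_lit 78) (nat_lit 76)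 (nat_lit 0) (XT.lf (nat_lit 0) (nat_lit 36324897950) (nat_lit 152) (nat_lit 835901210) (nat_lit 0) (nat_lit 7727689703) (nat_lit 8) (nat_lit 5) (nat_lit 10) (nat_lit 4) (nat_lit 8) (nat_lit 4) (nat_lit 373) (nat_lit 246) (nat_lit 161)) (XT.nd (nat_lit 78) (nat_lit 0) (nat_lit 0) (XT.lf (nat_lit 0) (nat_lit 4706520834) (nat_lit 76) (nat_lit 35048482848) (nat_lit 76) (nat_lit 6377796318) (nat_lit 7) (nat_lit 4) (nat_lit 8) (nat_lit 5) (nat_lit 8) (nat_lit 4) (nat_lit 374) (nat_lit 246) (nat_lit 160)) (XT.lf (nat_lit 0) (nat_lit 10409942770) (nat_lit 76) (nat_lit 32873340401) (nat_lit 76) (nat_lit 4131315732) (nat_lit 7) (nat_lit 4) (nat_lit 8) (nat_lit 5) (nat_lit 8) (nat_lit 4) (nat_lit 375) (nat_lit 246) (nat_lit 159)))) (XT.nd (nat_lit 78) (nat_lit 76) (nat_lit 0) (XT.lf (nat_lit 0) (nat_lit 16262712095) (nat_lit 76) (nat_lit 30641912174) (nat_lit 76) (nat_lit 1830627177) (nat_lit 7) (nat_lit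 4) (nat_lit 8) (nat_lit 5) (nat_lit 8) (nat_lit 4) (nat_lit 376) (nat_lit 246) (nat_lit 158)) (XT.nd (nat_lit 78) (nat_lit 0) (nat_lit 0) (XT.lf (nat_lit 0) (nat_lit 516010046) (nat_lit 152) (nat_lit 27831027639) (nat_lit 76) (nat_lit 21748722142) (nat_lit 6) (nat_lit 5) (nat_lit 8) (nat_lit 5) (nat_lit 7) (nat_lit 4) (nat_lit 377) (nat_lit 246) (nat_lit 157)) (XT.lf (nat_lit 0) (nat_lit 2884065647) (nat_lit 152) (nat_lit 23089159273) (nat_lit 76) (nat_lit 25523695104) (nat_lit 6) (nat_lit 5) (nat_lit 8) (nat_lit 5) (nat_lit 7) (nat_lit 4) (nat_lit 378) (nat_lit 246) (nat_lit 156))))))) (XT.nd (nat_lit 858) (nat_lit 76) (nat_lit 0) (XT.nd (nat_lit 390) (nat_lit 0) (nat_lit 0) (XT.nd (nat_lit 156) (nat_lit 76) (nat_lit 0) (XT.nd (nat_lit 78) (nat_lit 0) (nat_lit 0) (XT.lf (nat_lit 0) (nat_lit 5311330928) (nat_lit 152) (nat_lit 18225193765) (nat_lit 76) (nat_lit 29403959569) (nat_lit 6) (nat_lit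 5) (nat_lit 8) (nat_lit 5) (nat_lit 7) (nat_lit 4) (nat_lit 379) (nat_lit 246) (nat_lit 155)) (XT.lf (nat_lit 0) (nat_lit 7799926800) (nat_lit 152) (nat_lit 13234881048) (nat_lit 76) (nat_lit 33392906060) (nat_lit 6) (nat_lit 5) (nat_lit 8) (nat_lit 5) (nat_lit 7) (nat_lit 4) (nat_lit 380) (nat_lit 246) (nat_lit 154))) (XT.nd (nat_lit 78) (nat_lit 76) (nat_lit 0) (XT.lf (nat_lit 0) (nat_lit 10352027766) (nat_lit 152) (nat_lit 8113860655) (nat_lit 76) (nat_lit 37494020064) (nat_lit 6) (nat_lit 5) (nat_lit 8) (nat_lit 5) (nat_lit 7) (nat_lit 4) (nat_lit 381) (nat_lit 246) (nat_lit 153)) (XT.nd (nat_lit 78) (nat_lit 76) (nat_lit 0) (XT.lf (nat_lit 0) (nat_lit 12969863817) (nat_lit 152) (nat_lit 2857657907) (nat_lit 76) (nat_lit 41710885078) (nat_lit 6) (nat_lit 5) (nat_lit 8) (nat_lit 5) (nat_lit 7) (nat_lit 4) (nat_lit 382) (nat_lit 246) (nat_lit 152)) (XT.lf (nat_lit 0) (nat_lit 2588837537)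 (nat_lit 76) (nat_lit 13091770334) (nat_lit 152) (nat_lit 43483233695) (nat_lit 5) (nat_lit 5) (nat_lit 6) (nat_lit 5) (nat_lit 7) (nat_lit 4) (nat_lit 383) (nat_lit 246) (nat_lit 151))))) (XT.nd (nat_lit 234) (nat_lit 0) (nat_lit 0) (XT.nd (nat_lit 78) (nat_lit 0) (nat_lit 0) (XT.lf (nat_lit 0) (nat_lit 8239571698) (nat_lit 76) (nat_lit 10251582430) (nat_lit 152) (nat_lit 42346343162) (nat_lit 5) (nat_lit 5) (nat_lit 6) (nat_lit 5) (nat_lit 7) (nat_lit 4) (nat_lit 384) (nat_lit 246) (nat_lit 150)) (XT.nd (nat_lit 78) (nat_lit 0) (nat_lit 0) (XT.lf (nat_lit 0) (nat_lit 14042609115) (nat_lit 76) (nat_lit 7333333039) (nat_lit 152) (nat_lit 41185734729) (nat_lit 5) (nat_lit 5) (nat_lit 6) (nat_lit 5) (nat_lit 7) (nat_lit 4) (nat_lit 385) (nat_lit 246) (nat_lit 149)) (XT.lf (nat_lit 0) (nat_lit 20003020403) (nat_lit 76) (nat_lit 4334472232) (nat_lit 152) (nat_lit 40000394271) (nat_lit 5) (nat_lit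 5) (nat_lit 6) (nat_lit 5) (nat_lit 7) (nat_lit 4) (nat_lit 386) (nat_lit 246) (nat_lit 148)))) (XT.nd (nat_lit 78) (nat_lit 0) (nat_lit 0) (XT.lf (nat_lit 0) (nat_lit 26126013688) (nat_lit 76) (nat_lit 1252379647) (nat_lit 152) (nat_lit 38789286054) (nat_lit 5) (nat_lit 5) (nat_lit 6) (nat_lit 5) (nat_lit 7) (nat_lit 4) (nat_lit 387) (nat_lit 246) (nat_lit 147)) (XT.nd (nat_lit 78) (nat_lit 0) (nat_lit 0) (XT.lf (nat_lit 0) (nat_lit 30519715634) (nat_lit 152) (nat_lit 35654128304) (nat_lit 0) (nat_lit 1878256814) (nat_lit 5) (nat_lit 5) (nat_lit 7) (nat_lit 4) (nat_lit 5) (nat_lit 4) (nat_lit 388) (nat_lit 246) (nat_lit 146)) (XT.lf (nat_lit 0) (nat_lit 33758665213) (nat_lit 152) (nat_lit 31162881379) (nat_lit 0) (nat_lit 5071417157) (nat_lit 5) (nat_lit 5) (nat_lit 7) (nat_lit 4) (nat_lit 5) (nat_lit 4) (nat_lit 389) (nat_lit 246) (nat_lit 145)))))) (XT.nd (nat_lit 390) (nat_lit 76) (nat_lit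 0) (XT.nd (nat_lit 156) (nat_lit 0) (nat_lit 0) (XT.nd (nat_lit 78) (nat_lit 0) (nat_lit 0) (XT.lf (nat_lit 0) (nat_lit 37086033585) (nat_lit 152) (nat_lit 26551961896) (nat_lit 0) (nat_lit 8354329960) (nat_lit 5) (nat_lit 5) (nat_lit 7) (nat_lit 4) (nat_lit 5) (nat_lit 4) (nat_lit 390) (nat_lit 246) (nat_lit 144)) (XT.lf (nat_lit 0) (nat_lit 40504728159) (nat_lit 152) (nat_lit 21817340897) (nat_lit 0) (nat_lit 11729863787) (nat_lit 5) (nat_lit 5) (nat_lit 7) (nat_lit 4) (nat_lit 5) (nat_lit 4) (nat_lit 391) (nat_lit 246) (nat_lit 143))) (XT.nd (nat_lit 78) (nat_lit 0) (nat_lit 0) (XT.lf (nat_lit 0) (nat_lit 44017736144) (nat_lit 152) (nat_lit 16954881334) (nat_lit 0) (nat_lit 15200968134) (nat_lit 5) (nat_lit 5) (nat_lit 7) (nat_lit 4) (nat_lit 5) (nat_lit 4) (nat_lit 392) (nat_lit 246) (nat_lit 142)) (XT.nd (nat_lit 78) (nat_lit 0) (nat_lit 0) (XT.lf (nat_lit 0) (nat_lit 47628127157) (nat_lit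 152) (nat_lit 11960334456) (nat_lit 0) (nat_lit 18770676004) (nat_lit 5) (nat_lit 5) (nat_lit 7) (nat_lit 4) (nat_lit 5) (nat_lit 4) (nat_lit 393) (nat_lit 246) (nat_lit 141)) (XT.lf (nat_lit 0) (nat_lit 51339055911) (nat_lit 152) (nat_lit 6829336097) (nat_lit 0) (nat_lit 22442106560) (nat_lit 5) (nat_lit 5) (nat_lit 7) (nat_lit 4) (nat_lit 5) (nat_lit 4) (nat_lit 394) (nat_lit 246) (nat_lit 140))))) (XT.nd (nat_lit 234) (nat_lit 0) (nat_lit 0) (XT.nd (nat_lit 78) (nat_lit 76) (nat_lit 0) (XT.lf (nat_lit 0) (nat_lit 55153764963) (nat_lit 152) (nat_lit 1557402858) (nat_lit 0) (nat_lit 26218467847) (nat_lit 5) (nat_lit 5) (nat_lit 7) (nat_lit 4) (nat_lit 5) (nat_lit 4) (nat_lit 395) (nat_lit 246) (nat_lit 139)) (XT.nd (nat_lit 78) (nat_lit 0) (nat_lit 0) (XT.lf (nat_lit 0) (nat_lit 3936894799) (nat_lit 76) (nat_lit 55176536597) (nat_lit 76) (nat_lit 26204008642) (nat_lit 4) (nat_lit 4) (nat_lit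 5) (nat_lit 5) (nat_lit 5) (nat_lit 4) (nat_lit 396) (nat_lit 246) (nat_lit 138)) (XT.lf (nat_lit 0) (nat_lit 9615453736) (nat_lit 76) (nat_lit 53584926410) (nat_lit 76) (nat_lit 24576252008) (nat_lit 4) (nat_lit 4) (nat_lit 5) (nat_lit 5) (nat_lit 5) (nat_lit 4) (nat_lit 397) (nat_lit 246) (nat_lit 137)))) (XT.nd (nat_lit 31902) (nat_lit 0) (nat_lit 9576) (XT.lf (nat_lit 0) (nat_lit 15452240428) (nat_lit 76) (nat_lit 51950673248) (nat_lit 76) (nat_lit 22906905210) (nat_lit 4) (nat_lit 4) (nat_lit 5) (nat_lit 5) (nat_lit 5) (nat_lit 4) (nat_lit 398) (nat_lit 246) (nat_lit 136)) (XT.nd (nat_lit 78) (nat_lit 1140) (nat_lit 0) (XT.lf (nat_lit 0) (nat_lit 1657839467) (nat_lit 988) (nat_lit 991982495) (nat_lit 988) (nat_lit 991982495) (nat_lit 145) (nat_lit 4) (nat_lit 158) (nat_lit 5) (nat_lit 158) (nat_lit 4) (nat_lit 286) (nat_lit 247) (nat_lit 247)) (XT.lf (nat_lit 0) (nat_lit 313615429) (nat_lit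 1064) (nat_lit 578880906) (nat_lit 1140) (nat_lit 6461426938) (nat_lit 130) (nat_lit 5) (nat_lit 144) (nat_lit 5) (nat_lit 145) (nat_lit 4) (nat_lit 287) (nat_lit 247) (nat_lit 246))))))))
noncomputable def xc75 : XT := (XT.nd (nat_lit 1716) (nat_lit 2432) (nat_lit 0) (XT.nd (nat_lit 858) (nat_lit 2280) (nat_lit 0) (XT.nd (nat_lit 390) (nat_lit 2052) (nat_lit 0) (XT.nd (nat_lit 156) (nat_lit 532) (nat_lit 0) (XT.nd (nat_lit 78) (nat_lit 532) (nat_lit 0) (XT.lf (nat_lit 0) (nat_lit 3778226945) (nat_lit 1140) (nat_lit 2737414660) (nat_lit 0) (nat_lit 911558242) (nat_lit 130) (nat_lit 5) (nat_lit 145) (nat_lit 4) (nat_lit 130) (nat_lit 4) (nat_lit 288) (nat_lit 247) (nat_lit 245)) (XT.lf (nat_lit 0) (nat_lit 1634487368) (nat_lit 532) (nat_lit 5054027990) (nat_lit 532) (nat_lit 816337859) (nat_lit 123) (nat_lit 4) (nat_lit 130) (nat_lit 5) (nat_lit 130) (nat_lit 4) (nat_lit 289) (nat_lit 247) (nat_lit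 244))) (XT.nd (nat_lit 78) (nat_lit 456) (nat_lit 0) (XT.lf (nat_lit 0) (nat_lit 2005228437) (nat_lit 608) (nat_lit 1498165167) (nat_lit 76) (nat_lit 4082787771) (nat_lit 122) (nat_lit 5) (nat_lit 130) (nat_lit 5) (nat_lit 123) (nat_lit 4) (nat_lit 290) (nat_lit 247) (nat_lit 243)) (XT.nd (nat_lit 78) (nat_lit 0) (nat_lit 0) (XT.lf (nat_lit 0) (nat_lit 2970277279) (nat_lit 456) (nat_lit 1872764772) (nat_lit 532) (nat_lit 2828515699) (nat_lit 116) (nat_lit 5) (nat_lit 122) (nat_lit 5) (nat_lit 123) (nat_lit 4) (nat_lit 291) (nat_lit 247) (nat_lit 242)) (XT.lf (nat_lit 0) (nat_lit 7519512804) (nat_lit 456) (nat_lit 182600355) (nat_lit 532) (nat_lit 59581171) (nat_lit 116) (nat_lit 5) (nat_lit 122) (nat_lit 5) (nat_lit 123) (nat_lit 4) (nat_lit 292) (nat_lit 247) (nat_lit 241))))) (XT.nd (nat_lit 234) (nat_lit 912) (nat_lit 0) (XT.nd (nat_lit 78) (nat_lit 532) (nat_lit 0) (XT.lf (nat_lit 0) (nat_lit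 2717374558) (nat_lit 608) (nat_lit 3545779830) (nat_lit 76) (nat_lit 1591458428) (nat_lit 108) (nat_lit 5) (nat_lit 116) (nat_lit 5) (nat_lit 109) (nat_lit 4) (nat_lit 293) (nat_lit 247) (nat_lit 240)) (XT.nd (nat_lit 78) (nat_lit 76) (nat_lit 0) (XT.lf (nat_lit 0) (nat_lit 982845699) (nat_lit 456) (nat_lit 4530999003) (nat_lit 532) (nat_lit 2438592987) (nat_lit 102) (nat_lit 5) (nat_lit 108) (nat_lit 5) (nat_lit 109) (nat_lit 4) (nat_lit 294) (nat_lit 247) (nat_lit 239)) (XT.lf (nat_lit 0) (nat_lit 294621040) (nat_lit 532) (nat_lit 2421669549) (nat_lit 76) (nat_lit 5338244244) (nat_lit 101) (nat_lit 5) (nat_lit 108) (nat_lit 5) (nat_lit 102) (nat_lit 5) (nat_lit 295) (nat_lit 247) (nat_lit 238)))) (XT.nd (nat_lit 78) (nat_lit 456) (nat_lit 0) (XT.lf (nat_lit 0) (nat_lit 2198011088) (nat_lit 456) (nat_lit 810250122) (nat_lit 532) (nat_lit 5152522736) (nat_lit 95) (nat_lit 5) (nat_lit 101) (nat_lit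 5) (nat_lit 102) (nat_lit 5) (nat_lit 296) (nat_lit 247) (nat_lit 237)) (XT.nd (nat_lit 78) (nat_lit 456) (nat_lit 0) (XT.lf (nat_lit 0) (nat_lit 5766657622) (nat_lit 532) (nat_lit 1359797326) (nat_lit 76) (nat_lit 1145094958) (nat_lit 95) (nat_lit 5) (nat_lit 102) (nat_lit 5) (nat_lit 96) (nat_lit 4) (nat_lit 297) (nat_lit 247) (nat_lit 236)) (XT.lf (nat_lit 0) (nat_lit 187278183) (nat_lit 456) (nat_lit 5032296520) (nat_lit 76) (nat_lit 3167133278) (nat_lit 89) (nat_lit 5) (nat_lit 95) (nat_lit 5) (nat_lit 90) (nat_lit 5) (nat_lit 298) (nat_lit 247) (nat_lit 235)))))) (XT.nd (nat_lit 390) (nat_lit 1064) (nat_lit 0) (XT.nd (nat_lit 156) (nat_lit 836) (nat_lit 0) (XT.nd (nat_lit 78) (nat_lit 380) (nat_lit 0) (XT.lf (nat_lit 0) (nat_lit 2853780015) (nat_lit 456) (nat_lit 375155175) (nat_lit 76) (nat_lit 5277534504) (nat_lit 89) (nat_lit 5) (nat_lit 95) (nat_lit 5) (nat_lit 90) (nat_lit 5) (nat_lit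 299) (nat_lit 247) (nat_lit 234)) (XT.lf (nat_lit 0) (nat_lit 4427286428) (nat_lit 380) (nat_lit 1147630651) (nat_lit 456) (nat_lit 3055872135) (nat_lit 84) (nat_lit 5) (nat_lit 89) (nat_lit 5) (nat_lit 90) (nat_lit 5) (nat_lit 300) (nat_lit 247) (nat_lit 233))) (XT.nd (nat_lit 78) (nat_lit 456) (nat_lit 0) (XT.lf (nat_lit 0) (nat_lit 541637832) (nat_lit 380) (nat_lit 7787821596) (nat_lit 456) (nat_lit 431023972) (nat_lit 79) (nat_lit 5) (nat_lit 84) (nat_lit 5) (nat_lit 85) (nat_lit 4) (nat_lit 301) (nat_lit 247) (nat_lit 232)) (XT.nd (nat_lit 78) (nat_lit 380) (nat_lit 0) (XT.lf (nat_lit 0) (nat_lit 2215943707) (nat_lit 456) (nat_lit 3493914313) (nat_lit 76) (nat_lit 3184110265) (nat_lit 78) (nat_lit 5) (nat_lit 84) (nat_lit 5) (nat_lit 79) (nat_lit 5) (nat_lit 302) (nat_lit 247) (nat_lit 231)) (XT.lf (nat_lit 0) (nat_lit 1313753381) (nat_lit 380) (nat_lit 3567959672) (nat_lit 456) (nat_lit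 4151356358) (nat_lit 73) (nat_lit 5) (nat_lit 78) (nat_lit 5) (nat_lit 79) (nat_lit 5) (nat_lit 303) (nat_lit 247) (nat_lit 230))))) (XT.nd (nat_lit 234) (nat_lit 684) (nat_lit 0) (XT.nd (nat_lit 78) (nat_lit 380) (nat_lit 0) (XT.lf (nat_lit 0) (nat_lit 6257680970) (nat_lit 380) (nat_lit 1341599060) (nat_lit 456) (nat_lit 1578084917) (nat_lit 73) (nat_lit 5) (nat_lit 78) (nat_lit 5) (nat_lit 79) (nat_lit 5) (nat_lit 304) (nat_lit 247) (nat_lit 229)) (XT.nd (nat_lit 78) (nat_lit 0) (nat_lit 0) (XT.lf (nat_lit 0) (nat_lit 1017322301) (nat_lit 380) (nat_lit 7362972237) (nat_lit 76) (nat_lit 946575646) (nat_lit 68) (nat_lit 5) (nat_lit 73) (nat_lit 5) (nat_lit 69) (nat_lit 5) (nat_lit 305) (nat_lit 247) (nat_lit 228)) (XT.lf (nat_lit 0) (nat_lit 3640454119) (nat_lit 380) (nat_lit 2535088972) (nat_lit 76) (nat_lit 3305562509) (nat_lit 68) (nat_lit 5) (nat_lit 73) (nat_lit 5) (nat_lit 69) (nat_lit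 5) (nat_lit 306) (nat_lit 247) (nat_lit 227)))) (XT.nd (nat_lit 78) (nat_lit 380) (nat_lit 0) (XT.lf (nat_lit 0) (nat_lit 2407175097) (nat_lit 304) (nat_lit 3898556823) (nat_lit 380) (nat_lit 3335489069) (nat_lit 64) (nat_lit 5) (nat_lit 68) (nat_lit 5) (nat_lit 69) (nat_lit 5) (nat_lit 307) (nat_lit 247) (nat_lit 226)) (XT.nd (nat_lit 78) (nat_lit 380) (nat_lit 0) (XT.lf (nat_lit 0) (nat_lit 7473004678) (nat_lit 304) (nat_lit 1544877064) (nat_lit 380) (nat_lit 789402602) (nat_lit 64) (nat_lit 5) (nat_lit 68) (nat_lit 5) (nat_lit 69) (nat_lit 5) (nat_lit 308) (nat_lit 247) (nat_lit 225)) (XT.lf (nat_lit 0) (nat_lit 1773998026) (nat_lit 380) (nat_lit 7316355687) (nat_lit 76) (nat_lit 888289427) (nat_lit 59) (nat_lit 5) (nat_lit 64) (nat_lit 5) (nat_lit 60) (nat_lit 5) (nat_lit 309) (nat_lit 247) (nat_lit 224))))))) (XT.nd (nat_lit 858) (nat_lit 988) (nat_lit 0) (XT.nd (nat_lit 390) (nat_lit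 836) (nat_lit 0) (XT.nd (nat_lit 156) (nat_lit 304) (nat_lit 0) (XT.nd (nat_lit 78) (nat_lit 304) (nat_lit 0) (XT.lf (nat_lit 0) (nat_lit 4380633955) (nat_lit 380) (nat_lit 2397828841) (nat_lit 76) (nat_lit 3377118466) (nat_lit 59) (nat_lit 5) (nat_lit 64) (nat_lit 5) (nat_lit 60) (nat_lit 5) (nat_lit 310) (nat_lit 247) (nat_lit 223)) (XT.lf (nat_lit 0) (nat_lit 2645458502) (nat_lit 304) (nat_lit 4390196195) (nat_lit 380) (nat_lit 3303202235) (nat_lit 55) (nat_lit 5) (nat_lit 59) (nat_lit 5) (nat_lit 60) (nat_lit 5) (nat_lit 311) (nat_lit 247) (nat_lit 222))) (XT.nd (nat_lit 78) (nat_lit 304) (nat_lit 0) (XT.lf (nat_lit 0) (nat_lit 7815509463) (nat_lit 304) (nat_lit 1924686652) (nat_lit 380) (nat_lit 788469699) (nat_lit 55) (nat_lit 5) (nat_lit 59) (nat_lit 5) (nat_lit 60) (nat_lit 5) (nat_lit 312) (nat_lit 247) (nat_lit 221)) (XT.nd (nat_lit 78) (nat_lit 0) (nat_lit 0) (XT.lf (nat_lit 0) (nat_lit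 1742069024) (nat_lit 304) (nat_lit 8358065785) (nat_lit 76) (nat_lit 624372442) (nat_lit 51) (nat_lit 5) (nat_lit 55) (nat_lit 5) (nat_lit 52) (nat_lit 5) (nat_lit 313) (nat_lit 247) (nat_lit 220)) (XT.lf (nat_lit 0) (nat_lit 4326670088) (nat_lit 304) (nat_lit 3372016326) (nat_lit 76) (nat_lit 3227603433) (nat_lit 51) (nat_lit 5) (nat_lit 55) (nat_lit 5) (nat_lit 52) (nat_lit 5) (nat_lit 314) (nat_lit 247) (nat_lit 219))))) (XT.nd (nat_lit 234) (nat_lit 228) (nat_lit 0) (XT.nd (nat_lit 78) (nat_lit 304) (nat_lit 0) (XT.lf (nat_lit 0) (nat_lit 1725910443) (nat_lit 304) (nat_lit 5228293628) (nat_lit 380) (nat_lit 4181076432) (nat_lit 47) (nat_lit 5) (nat_lit 51) (nat_lit 5) (nat_lit 52) (nat_lit 5) (nat_lit 315) (nat_lit 247) (nat_lit 218)) (XT.nd (nat_lit 78) (nat_lit 304) (nat_lit 0) (XT.lf (nat_lit 0) (nat_lit 6975214976) (nat_lit 304) (nat_lit 2669015920) (nat_lit 380) (nat_lit 1706913019)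 (nat_lit 47) (nat_lit 5) (nat_lit 51) (nat_lit 5) (nat_lit 52) (nat_lit 5) (nat_lit 316) (nat_lit 247) (nat_lit 217)) (XT.lf (nat_lit 0) (nat_lit 745253006) (nat_lit 228) (nat_lit 37457536) (nat_lit 304) (nat_lit 10791906910) (nat_lit 43) (nat_lit 5) (nat_lit 46) (nat_lit 5) (nat_lit 47) (nat_lit 5) (nat_lit 317) (nat_lit 247) (nat_lit 216)))) (XT.nd (nat_lit 78) (nat_lit 228) (nat_lit 0) (XT.lf (nat_lit 0) (nat_lit 3334111207) (nat_lit 304) (nat_lit 5807132382) (nat_lit 76) (nat_lit 2662506180) (nat_lit 43) (nat_lit 5) (nat_lit 47) (nat_lit 5) (nat_lit 44) (nat_lit 5) (nat_lit 318) (nat_lit 247) (nat_lit 215)) (XT.nd (nat_lit 78) (nat_lit 228) (nat_lit 0) (XT.lf (nat_lit 0) (nat_lit 5914924640) (nat_lit 304) (nat_lit 702956547) (nat_lit 76) (nat_lit 5423389179) (nat_lit 43) (nat_lit 5) (nat_lit 47) (nat_lit 5) (nat_lit 44) (nat_lit 5) (nat_lit 319) (nat_lit 247) (nat_lit 214)) (XT.lf (nat_lit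 0) (nat_lit 4577302746) (nat_lit 228) (nat_lit 3993742944) (nat_lit 304) (nat_lit 3715031904) (nat_lit 40) (nat_lit 5) (nat_lit 43) (nat_lit 5) (nat_lit 44) (nat_lit 5) (nat_lit 320) (nat_lit 247) (nat_lit 213)))))) (XT.nd (nat_lit 468) (nat_lit 456) (nat_lit 0) (XT.nd (nat_lit 234) (nat_lit 228) (nat_lit 0) (XT.nd (nat_lit 78) (nat_lit 304) (nat_lit 0) (XT.lf (nat_lit 0) (nat_lit 9964668860) (nat_lit 228) (nat_lit 1303874924) (nat_lit 304) (nat_lit 1270929121) (nat_lit 40) (nat_lit 5) (nat_lit 43) (nat_lit 5) (nat_lit 44) (nat_lit 5) (nat_lit 321) (nat_lit 247) (nat_lit 212)) (XT.nd (nat_lit 78) (nat_lit 0) (nat_lit 0) (XT.lf (nat_lit 0) (nat_lit 1217690708) (nat_lit 304) (nat_lit 10126142225) (nat_lit 76) (nat_lit 1456501386) (nat_lit 36) (nat_lit 5) (nat_lit 40) (nat_lit 5) (nat_lit 37) (nat_lit 5) (nat_lit 322) (nat_lit 247) (nat_lit 211)) (XT.lf (nat_lit 0) (nat_lit 3750471557) (nat_lit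 304) (nat_lit 5025902129) (nat_lit 76) (nat_lit 4292505615) (nat_lit 36) (nat_lit 5) (nat_lit 40) (nat_lit 5) (nat_lit 37) (nat_lit 5) (nat_lit 323) (nat_lit 247) (nat_lit 210)))) (XT.nd (nat_lit 78) (nat_lit 0) (nat_lit 0) (XT.lf (nat_lit 0) (nat_lit 167161356) (nat_lit 228) (nat_lit 6150845688) (nat_lit 304) (nat_lit 7028794564) (nat_lit 33) (nat_lit 5) (nat_lit 36) (nat_lit 5) (nat_lit 37) (nat_lit 5) (nat_lit 324) (nat_lit 247) (nat_lit 209)) (XT.nd (nat_lit 78) (nat_lit 0) (nat_lit 0) (XT.lf (nat_lit 0) (nat_lit 5556219096) (nat_lit 228) (nat_lit 3414909352) (nat_lit 304) (nat_lit 4661758003) (nat_lit 33) (nat_lit 5) (nat_lit 36) (nat_lit 5) (nat_lit 37) (nat_lit 5) (nat_lit 325) (nat_lit 247) (nat_lit 208)) (XT.lf (nat_lit 0) (nat_lit 11045954668) (nat_lit 228) (nat_lit 616925812) (nat_lit 304) (nat_lit 2265981533) (nat_lit 33) (nat_lit 5) (nat_lit 36) (nat_lit 5) (nat_lit 37) (nat_lit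 5) (nat_lit 326) (nat_lit 247) (nat_lit 207))))) (XT.nd (nat_lit 234) (nat_lit 228) (nat_lit 0) (XT.nd (nat_lit 78) (nat_lit 0) (nat_lit 0) (XT.lf (nat_lit 0) (nat_lit 202902950) (nat_lit 228) (nat_lit 11803576758) (nat_lit 76) (nat_lit 2227098610) (nat_lit 30) (nat_lit 5) (nat_lit 33) (nat_lit 5) (nat_lit 31) (nat_lit 5) (nat_lit 327) (nat_lit 247) (nat_lit 206)) (XT.nd (nat_lit 78) (nat_lit 0) (nat_lit 0) (XT.lf (nat_lit 0) (nat_lit 2695988030) (nat_lit 228) (nat_lit 6674574705) (nat_lit 76) (nat_lit 5176402526) (nat_lit 30) (nat_lit 5) (nat_lit 33) (nat_lit 5) (nat_lit 31) (nat_lit 5) (nat_lit 328) (nat_lit 247) (nat_lit 205)) (XT.lf (nat_lit 0) (nat_lit 5225195688) (nat_lit 228) (nat_lit 1450512862) (nat_lit 76) (nat_lit 8195275806) (nat_lit 30) (nat_lit 5) (nat_lit 33) (nat_lit 5) (nat_lit 31) (nat_lit 5) (nat_lit 329) (nat_lit 247) (nat_lit 204)))) (XT.nd (nat_lit 78) (nat_lit 0) (nat_lit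 0) (XT.lf (nat_lit 0) (nat_lit 3950257231) (nat_lit 228) (nat_lit 3880450967) (nat_lit 304) (nat_lit 7374071357) (nat_lit 27) (nat_lit 5) (nat_lit 30) (nat_lit 5) (nat_lit 31) (nat_lit 5) (nat_lit 330) (nat_lit 247) (nat_lit 203)) (XT.nd (nat_lit 78) (nat_lit 0) (nat_lit 0) (XT.lf (nat_lit 0) (nat_lit 9486246946) (nat_lit 228) (nat_lit 1005792839) (nat_lit 304) (nat_lit 5057285612) (nat_lit 27) (nat_lit 5) (nat_lit 30) (nat_lit 5) (nat_lit 31) (nat_lit 5) (nat_lit 331) (nat_lit 247) (nat_lit 202)) (XT.lf (nat_lit 0) (nat_lit 13215906441) (nat_lit 304) (nat_lit 790535328) (nat_lit 76) (nat_lit 1898349457) (nat_lit 27) (nat_lit 5) (nat_lit 31) (nat_lit 5) (nat_lit 28) (nat_lit 4) (nat_lit 332) (nat_lit 247) (nat_lit 201))))))))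
noncomputable def xc76 : XT := (XT.nd (nat_lit 1716) (nat_lit 456) (nat_lit 0) (XT.nd (nat_lit 858) (nat_lit 304) (nat_lit 0) (XT.nd (nat_lit 390) (nat_lit 380) (nat_lit 0) (XT.nd (nat_lit 156) (nat_lit 152) (nat_lit 0) (XT.nd (nat_lit 78) (nat_lit 76) (nat_lit 0) (XT.lf (nat_lit 0) (nat_lit 4667073467) (nat_lit 152) (nat_lit 11374189606) (nat_lit 228) (nat_lit 229127325) (nat_lit 25) (nat_lit 5) (nat_lit 27) (nat_lit 5) (nat_lit 28) (nat_lit 4) (nat_lit 333) (nat_lit 247) (nat_lit 200)) (XT.lf (nat_lit 0) (nat_lit 2232573117) (nat_lit 228) (nat_lit 6418779428) (nat_lit 76) (nat_lit 7995805912) (nat_lit 24) (nat_lit 5) (nat_lit 27) (nat_lit 5) (nat_lit 25) (nat_lit 5) (nat_lit 334) (nat_lit 247) (nat_lit 199))) (XT.nd (nat_lit 78) (nat_lit 152) (nat_lit 0) (XT.lf (nat_lit 0) (nat_lit 4729593083) (nat_lit 228) (nat_lit 1133835100) (nat_lit 76) (nat_lit 11172808382) (nat_lit 24) (nat_lit 5) (nat_lit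 27) (nat_lit 5) (nat_lit 25) (nat_lit 5) (nat_lit 335) (nat_lit 247) (nat_lit 198)) (XT.nd (nat_lit 78) (nat_lit 0) (nat_lit 0) (XT.lf (nat_lit 0) (nat_lit 4343085721) (nat_lit 152) (nat_lit 2967248207) (nat_lit 228) (nat_lit 10126444387) (nat_lit 22) (nat_lit 5) (nat_lit 24) (nat_lit 5) (nat_lit 25) (nat_lit 5) (nat_lit 336) (nat_lit 247) (nat_lit 197)) (XT.lf (nat_lit 0) (nat_lit 9947568274) (nat_lit 228) (nat_lit 7893371103) (nat_lit 76) (nat_lit 9078791) (nat_lit 22) (nat_lit 5) (nat_lit 25) (nat_lit 5) (nat_lit 23) (nat_lit 4) (nat_lit 337) (nat_lit 247) (nat_lit 196))))) (XT.nd (nat_lit 234) (nat_lit 228) (nat_lit 0) (XT.nd (nat_lit 78) (nat_lit 152) (nat_lit 0) (XT.lf (nat_lit 0) (nat_lit 12661605488) (nat_lit 228) (nat_lit 2616583264) (nat_lit 76) (nat_lit 2997588306) (nat_lit 22) (nat_lit 5) (nat_lit 25) (nat_lit 5) (nat_lit 23) (nat_lit 4) (nat_lit 338) (nat_lit 247) (nat_lit 195))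 (XT.nd (nat_lit 78) (nat_lit 0) (nat_lit 0) (XT.lf (nat_lit 0) (nat_lit 2824929257) (nat_lit 152) (nat_lit 12628519743) (nat_lit 228) (nat_lit 3261019047) (nat_lit 20) (nat_lit 5) (nat_lit 22) (nat_lit 5) (nat_lit 23) (nat_lit 4) (nat_lit 339) (nat_lit 247) (nat_lit 194)) (XT.lf (nat_lit 0) (nat_lit 8435098534) (nat_lit 152) (nat_lit 9890034508) (nat_lit 228) (nat_lit 841353573) (nat_lit 20) (nat_lit 5) (nat_lit 22) (nat_lit 5) (nat_lit 23) (nat_lit 4) (nat_lit 340) (nat_lit 247) (nat_lit 193)))) (XT.nd (nat_lit 78) (nat_lit 152) (nat_lit 0) (XT.lf (nat_lit 0) (nat_lit 1588894641) (nat_lit 228) (nat_lit 5481823196) (nat_lit 76) (nat_lit 12561812157) (nat_lit 19) (nat_lit 5) (nat_lit 22) (nat_lit 5) (nat_lit 20) (nat_lit 5) (nat_lit 341) (nat_lit 247) (nat_lit 192)) (XT.nd (nat_lit 78) (nat_lit 152) (nat_lit 0) (XT.lf (nat_lit 0) (nat_lit 4046215481) (nat_lit 228) (nat_lit 129180106) (nat_lit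 76) (nat_lit 15937822127) (nat_lit 19) (nat_lit 5) (nat_lit 22) (nat_lit 5) (nat_lit 20) (nat_lit 5) (nat_lit 342) (nat_lit 247) (nat_lit 191)) (XT.lf (nat_lit 0) (nat_lit 5445568516) (nat_lit 152) (nat_lit 1155951578) (nat_lit 228) (nat_lit 14006121944) (nat_lit 17) (nat_lit 5) (nat_lit 19) (nat_lit 5) (nat_lit 20) (nat_lit 5) (nat_lit 343) (nat_lit 247) (nat_lit 190)))))) (XT.nd (nat_lit 390) (nat_lit 228) (nat_lit 0) (XT.nd (nat_lit 156) (nat_lit 76) (nat_lit 0) (XT.nd (nat_lit 78) (nat_lit 0) (nat_lit 0) (XT.lf (nat_lit 0) (nat_lit 9225735469) (nat_lit 228) (nat_lit 9990460477) (nat_lit 76) (nat_lit 1900978216) (nat_lit 17) (nat_lit 5) (nat_lit 20) (nat_lit 5) (nat_lit 18) (nat_lit 4) (nat_lit 344) (nat_lit 247) (nat_lit 189)) (XT.lf (nat_lit 0) (nat_lit 11913083992) (nat_lit 228) (nat_lit 4718844585) (nat_lit 76) (nat_lit 5010572850) (nat_lit 17) (nat_lit 5) (nat_lit 20) (nat_lit 5) (nat_lit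 18) (nat_lit 4) (nat_lit 345) (nat_lit 247) (nat_lit 188))) (XT.nd (nat_lit 78) (nat_lit 0) (nat_lit 0) (XT.lf (nat_lit 0) (nat_lit 681796437) (nat_lit 76) (nat_lit 13979559525) (nat_lit 152) (nat_lit 7522863630) (nat_lit 16) (nat_lit 5) (nat_lit 17) (nat_lit 5) (nat_lit 18) (nat_lit 4) (nat_lit 346) (nat_lit 247) (nat_lit 187)) (XT.nd (nat_lit 78) (nat_lit 0) (nat_lit 0) (XT.lf (nat_lit 0) (nat_lit 6299176686) (nat_lit 76) (nat_lit 11214660377) (nat_lit 152) (nat_lit 5227738412) (nat_lit 16) (nat_lit 5) (nat_lit 17) (nat_lit 5) (nat_lit 18) (nat_lit 4) (nat_lit 347) (nat_lit 247) (nat_lit 186)) (XT.lf (nat_lit 0) (nat_lit 12044290292) (nat_lit 76) (nat_lit 8382466280) (nat_lit 152) (nat_lit 2889687411) (nat_lit 16) (nat_lit 5) (nat_lit 17) (nat_lit 5) (nat_lit 18) (nat_lit 4) (nat_lit 348) (nat_lit 247) (nat_lit 185))))) (XT.nd (nat_lit 234) (nat_lit 0) (nat_lit 0) (XT.nd (nat_lit 78) (nat_lit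 228) (nat_lit 0) (XT.lf (nat_lit 0) (nat_lit 17922157255) (nat_lit 76) (nat_lit 5480502501) (nat_lit 152) (nat_lit 506667668) (nat_lit 16) (nat_lit 5) (nat_lit 17) (nat_lit 5) (nat_lit 18) (nat_lit 4) (nat_lit 349) (nat_lit 247) (nat_lit 184)) (XT.nd (nat_lit 78) (nat_lit 152) (nat_lit 0) (XT.lf (nat_lit 0) (nat_lit 1885870542) (nat_lit 152) (nat_lit 601319206) (nat_lit 76) (nat_lit 22032999441) (nat_lit 15) (nat_lit 5) (nat_lit 17) (nat_lit 5) (nat_lit 16) (nat_lit 5) (nat_lit 350) (nat_lit 247) (nat_lit 183)) (XT.lf (nat_lit 0) (nat_lit 4370921920) (nat_lit 228) (nat_lit 20153777900) (nat_lit 76) (nat_lit 623632519) (nat_lit 13) (nat_lit 5) (nat_lit 16) (nat_lit 5) (nat_lit 14) (nat_lit 4) (nat_lit 351) (nat_lit 247) (nat_lit 182)))) (XT.nd (nat_lit 78) (nat_lit 0) (nat_lit 0) (XT.lf (nat_lit 0) (nat_lit 6938196151) (nat_lit 228) (nat_lit 15087226957) (nat_lit 76) (nat_lit 3769699198) (nat_lit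 13) (nat_lit 5) (nat_lit 16) (nat_lit 5) (nat_lit 14) (nat_lit 4) (nat_lit 352) (nat_lit 247) (nat_lit 181)) (XT.nd (nat_lit 78) (nat_lit 0) (nat_lit 0) (XT.lf (nat_lit 0) (nat_lit 9560074441) (nat_lit 228) (nat_lit 9905606017) (nat_lit 76) (nat_lit 6996339653) (nat_lit 13) (nat_lit 5) (nat_lit 16) (nat_lit 5) (nat_lit 14) (nat_lit 4) (nat_lit 353) (nat_lit 247) (nat_lit 180)) (XT.lf (nat_lit 0) (nat_lit 12238847750) (nat_lit 228) (nat_lit 4604387449) (nat_lit 76) (nat_lit 10306373278) (nat_lit 13) (nat_lit 5) (nat_lit 16) (nat_lit 5) (nat_lit 14) (nat_lit 4) (nat_lit 354) (nat_lit 247) (nat_lit 179))))))) (XT.nd (nat_lit 858) (nat_lit 152) (nat_lit 0) (XT.nd (nat_lit 390) (nat_lit 228) (nat_lit 0) (XT.nd (nat_lit 156) (nat_lit 0) (nat_lit 0) (XT.nd (nat_lit 78) (nat_lit 0) (nat_lit 0) (XT.lf (nat_lit 0) (nat_lit 837401600) (nat_lit 76) (nat_lit 14147504771) (nat_lit 152) (nat_lit 12873340354)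 (nat_lit 12) (nat_lit 5) (nat_lit 13) (nat_lit 5) (nat_lit 14) (nat_lit 4) (nat_lit 355) (nat_lit 247) (nat_lit 178)) (XT.lf (nat_lit 0) (nat_lit 6502364196) (nat_lit 76) (nat_lit 11336634397) (nat_lit 152) (nat_lit 10748404992) (nat_lit 12) (nat_lit 5) (nat_lit 13) (nat_lit 5) (nat_lit 14) (nat_lit 4) (nat_lit 356) (nat_lit 247) (nat_lit 177))) (XT.nd (nat_lit 78) (nat_lit 0) (nat_lit 0) (XT.lf (nat_lit 0) (nat_lit 12303813967) (nat_lit 76) (nat_lit 8454663260) (nat_lit 152) (nat_lit 8580593190) (nat_lit 12) (nat_lit 5) (nat_lit 13) (nat_lit 5) (nat_lit 14) (nat_lit 4) (nat_lit 357) (nat_lit 247) (nat_lit 176)) (XT.nd (nat_lit 78) (nat_lit 0) (nat_lit 0) (XT.lf (nat_lit 0) (nat_lit 18246820142) (nat_lit 76) (nat_lit 5499073134) (nat_lit 152) (nat_lit 6368010742) (nat_lit 12) (nat_lit 5) (nat_lit 13) (nat_lit 5) (nat_lit 14) (nat_lit 4) (nat_lit 358) (nat_lit 247) (nat_lit 175)) (XT.lf (nat_lit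 0) (nat_lit 24336575639) (nat_lit 76) (nat_lit 2467281465) (nat_lit 152) (nat_lit 4108724324) (nat_lit 12) (nat_lit 5) (nat_lit 13) (nat_lit 5) (nat_lit 14) (nat_lit 4) (nat_lit 359) (nat_lit 247) (nat_lit 174))))) (XT.nd (nat_lit 234) (nat_lit 0) (nat_lit 0) (XT.nd (nat_lit 78) (nat_lit 228) (nat_lit 0) (XT.lf (nat_lit 0) (nat_lit 29941225096) (nat_lit 152) (nat_lit 1163583295) (nat_lit 0) (nat_lit 630806596) (nat_lit 12) (nat_lit 5) (nat_lit 14) (nat_lit 4) (nat_lit 12) (nat_lit 4) (nat_lit 360) (nat_lit 247) (nat_lit 173)) (XT.nd (nat_lit 78) (nat_lit 0) (nat_lit 0) (XT.lf (nat_lit 0) (nat_lit 627382444) (nat_lit 228) (nat_lit 28144737471) (nat_lit 76) (nat_lit 3809588719) (nat_lit 9) (nat_lit 5) (nat_lit 12) (nat_lit 5) (nat_lit 10) (nat_lit 4) (nat_lit 361) (nat_lit 247) (nat_lit 172)) (XT.lf (nat_lit 0) (nat_lit 3079555143) (nat_lit 228) (nat_lit 23271589353) (nat_lit 76) (nat_lit 7101716824)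 (nat_lit 9) (nat_lit 5) (nat_lit 12) (nat_lit 5) (nat_lit 10) (nat_lit 4) (nat_lit 362) (nat_lit 247) (nat_lit 171)))) (XT.nd (nat_lit 78) (nat_lit 0) (nat_lit 0) (XT.lf (nat_lit 0) (nat_lit 5587765262) (nat_lit 228) (nat_lit 18281633939) (nat_lit 76) (nat_lit 10481298129) (nat_lit 9) (nat_lit 5) (nat_lit 12) (nat_lit 5) (nat_lit 10) (nat_lit 4) (nat_lit 363) (nat_lit 247) (nat_lit 170)) (XT.nd (nat_lit 78) (nat_lit 0) (nat_lit 0) (XT.lf (nat_lit 0) (nat_lit 8154204442) (nat_lit 228) (nat_lit 13170511073) (nat_lit 76) (nat_lit 13951285666) (nat_lit 9) (nat_lit 5) (nat_lit 12) (nat_lit 5) (nat_lit 10) (nat_lit 4) (nat_lit 364) (nat_lit 247) (nat_lit 169)) (XT.lf (nat_lit 0) (nat_lit 10781115200) (nat_lit 228) (nat_lit 7933754725) (nat_lit 76) (nat_lit 17514711463) (nat_lit 9) (nat_lit 5) (nat_lit 12) (nat_lit 5) (nat_lit 10) (nat_lit 4) (nat_lit 365) (nat_lit 247) (nat_lit 168)))))) (XT.nd (nat_lit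 390) (nat_lit 76) (nat_lit 0) (XT.nd (nat_lit 156) (nat_lit 0) (nat_lit 0) (XT.nd (nat_lit 78) (nat_lit 76) (nat_lit 0) (XT.lf (nat_lit 0) (nat_lit 13470792898) (nat_lit 228) (nat_lit 2566789089) (nat_lit 76) (nat_lit 21174689193) (nat_lit 9) (nat_lit 5) (nat_lit 12) (nat_lit 5) (nat_lit 10) (nat_lit 4) (nat_lit 366) (nat_lit 247) (nat_lit 167)) (XT.lf (nat_lit 0) (nat_lit 2993489172) (nat_lit 76) (nat_lit 13260873815) (nat_lit 152) (nat_lit 21969702971) (nat_lit 8) (nat_lit 5) (nat_lit 9) (nat_lit 5) (nat_lit 10) (nat_lit 4) (nat_lit 367) (nat_lit 247) (nat_lit 166))) (XT.nd (nat_lit 78) (nat_lit 0) (nat_lit 0) (XT.lf (nat_lit 0) (nat_lit 8747338324) (nat_lit 76) (nat_lit 10384653266) (nat_lit 152) (nat_lit 20133926209) (nat_lit 8) (nat_lit 5) (nat_lit 9) (nat_lit 5) (nat_lit 10) (nat_lit 4) (nat_lit 368) (nat_lit 247) (nat_lit 165)) (XT.nd (nat_lit 78) (nat_lit 0) (nat_lit 0) (XT.lf (nat_lit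 0) (nat_lit 14648701864) (nat_lit 76) (nat_lit 7432326675) (nat_lit 152) (nat_lit 18258463457) (nat_lit 8) (nat_lit 5) (nat_lit 9) (nat_lit 5) (nat_lit 10) (nat_lit 4) (nat_lit 369) (nat_lit 247) (nat_lit 164)) (XT.lf (nat_lit 0) (nat_lit 20702736326) (nat_lit 76) (nat_lit 4401314340) (nat_lit 152) (nat_lit 16341675961) (nat_lit 8) (nat_lit 5) (nat_lit 9) (nat_lit 5) (nat_lit 10) (nat_lit 4) (nat_lit 370) (nat_lit 247) (nat_lit 163))))) (XT.nd (nat_lit 234) (nat_lit 76) (nat_lit 0) (XT.nd (nat_lit 78) (nat_lit 0) (nat_lit 0) (XT.lf (nat_lit 0) (nat_lit 26914731640) (nat_lit 76) (nat_lit 1288967803) (nat_lit 152) (nat_lit 14381888858) (nat_lit 8) (nat_lit 5) (nat_lit 9) (nat_lit 5) (nat_lit 10) (nat_lit 4) (nat_lit 371) (nat_lit 247) (nat_lit 162)) (XT.nd (nat_lit 78) (nat_lit 0) (nat_lit 0) (XT.lf (nat_lit 0) (nat_lit 31401018711) (nat_lit 152) (nat_lit 10488292658) (nat_lit 0) (nat_lit 1870211584)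 (nat_lit 8) (nat_lit 5) (nat_lit 10) (nat_lit 4) (nat_lit 8) (nat_lit 4) (nat_lit 372) (nat_lit 247) (nat_lit 161)) (XT.lf (nat_lit 0) (nat_lit 34693675984) (nat_lit 152) (nat_lit 5185643580) (nat_lit 0) (nat_lit 5089390575) (nat_lit 8) (nat_lit 5) (nat_lit 10) (nat_lit 4) (nat_lit 8) (nat_lit 4) (nat_lit 373) (nat_lit 247) (nat_lit 160)))) (XT.nd (nat_lit 78) (nat_lit 0) (nat_lit 0) (XT.lf (nat_lit 0) (nat_lit 259171675) (nat_lit 76) (nat_lit 37815477636) (nat_lit 76) (nat_lit 8139854089) (nat_lit 7) (nat_lit 4) (nat_lit 8) (nat_lit 5) (nat_lit 8) (nat_lit 4) (nat_lit 374) (nat_lit 247) (nat_lit 159)) (XT.nd (nat_lit 78) (nat_lit 0) (nat_lit 0) (XT.lf (nat_lit 0) (nat_lit 5951876730) (nat_lit 76) (nat_lit 35644753166) (nat_lit 76) (nat_lit 5899869291) (nat_lit 7) (nat_lit 4) (nat_lit 8) (nat_lit 5) (nat_lit 8) (nat_lit 4) (nat_lit 375) (nat_lit 247) (nat_lit 158)) (XT.lf (nat_lit 0) (nat_lit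 11794241315) (nat_lit 76) (nat_lit 33417614237) (nat_lit 76) (nat_lit 3605487324) (nat_lit 7) (nat_lit 4) (nat_lit 8) (nat_lit 5) (nat_lit 8) (nat_lit 4) (nat_lit 376) (nat_lit 247) (nat_lit 157))))))))
noncomputable def xc77 : XT := (XT.nd (nat_lit 33384) (nat_lit 0) (nat_lit 4864) (XT.nd (nat_lit 858) (nat_lit 76) (nat_lit 0) (XT.nd (nat_lit 390) (nat_lit 76) (nat_lit 0) (XT.nd (nat_lit 156) (nat_lit 0) (nat_lit 0) (XT.nd (nat_lit 78) (nat_lit 76) (nat_lit 0) (XT.lf (nat_lit 0) (nat_lit 17791370411) (nat_lit 76) (nat_lit 31132114806) (nat_lit 76) (nat_lit 1254703390) (nat_lit 7) (nat_lit 4) (nat_lit 8) (nat_lit 5) (nat_lit 8) (nat_lit 4) (nat_lit 377) (nat_lit 247) (nat_lit 156)) (XT.lf (nat_lit 0) (nat_lit 1132007426) (nat_lit 152) (nat_lit 27642819351) (nat_lit 76) (nat_lit 22805065745) (nat_lit 6) (nat_lit 5) (nat_lit 8) (nat_lit 5) (nat_lit 7) (nat_lit 4) (nat_lit 378) (nat_lit 247) (nat_lit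 155))) (XT.nd (nat_lit 78) (nat_lit 0) (nat_lit 0) (XT.lf (nat_lit 0) (nat_lit 3553613906) (nat_lit 152) (nat_lit 22788495102) (nat_lit 76) (nat_lit 26681524344) (nat_lit 6) (nat_lit 5) (nat_lit 8) (nat_lit 5) (nat_lit 7) (nat_lit 4) (nat_lit 379) (nat_lit 247) (nat_lit 154)) (XT.nd (nat_lit 78) (nat_lit 0) (nat_lit 0) (XT.lf (nat_lit 0) (nat_lit 6036715797) (nat_lit 152) (nat_lit 17807542831) (nat_lit 76) (nat_lit 30666775819) (nat_lit 6) (nat_lit 5) (nat_lit 8) (nat_lit 5) (nat_lit 7) (nat_lit 4) (nat_lit 380) (nat_lit 247) (nat_lit 153)) (XT.lf (nat_lit 0) (nat_lit 8583482800) (nat_lit 152) (nat_lit 12695610250) (nat_lit 76) (nat_lit 34764302429) (nat_lit 6) (nat_lit 5) (nat_lit 8) (nat_lit 5) (nat_lit 7) (nat_lit 4) (nat_lit 381) (nat_lit 247) (nat_lit 152))))) (XT.nd (nat_lit 234) (nat_lit 0) (nat_lit 0) (XT.nd (nat_lit 78) (nat_lit 76) (nat_lit 0) (XT.lf (nat_lit 0) (nat_lit 11196140245)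 (nat_lit 152) (nat_lit 7448230620) (nat_lit 76) (nat_lit 38977684537) (nat_lit 6) (nat_lit 5) (nat_lit 8) (nat_lit 5) (nat_lit 7) (nat_lit 4) (nat_lit 382) (nat_lit 247) (nat_lit 151)) (XT.nd (nat_lit 78) (nat_lit 76) (nat_lit 0) (XT.lf (nat_lit 0) (nat_lit 13876971038) (nat_lit 152) (nat_lit 2060818854) (nat_lit 76) (nat_lit 43310603738) (nat_lit 6) (nat_lit 5) (nat_lit 8) (nat_lit 5) (nat_lit 7) (nat_lit 4) (nat_lit 383) (nat_lit 247) (nat_lit 150)) (XT.lf (nat_lit 0) (nat_lit 3540418818) (nat_lit 76) (nat_lit 13121931504) (nat_lit 152) (nat_lit 44260459933) (nat_lit 5) (nat_lit 5) (nat_lit 6) (nat_lit 5) (nat_lit 7) (nat_lit 4) (nat_lit 384) (nat_lit 247) (nat_lit 149)))) (XT.nd (nat_lit 78) (nat_lit 0) (nat_lit 0) (XT.lf (nat_lit 0) (nat_lit 9335221136) (nat_lit 76) (nat_lit 10207098894) (nat_lit 152) (nat_lit 43104820085) (nat_lit 5) (nat_lit 5) (nat_lit 6) (nat_lit 5) (nat_lit 7) (nat_lit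 4) (nat_lit 385) (nat_lit 247) (nat_lit 148)) (XT.nd (nat_lit 78) (nat_lit 0) (nat_lit 0) (XT.lf (nat_lit 0) (nat_lit 15287637182) (nat_lit 76) (nat_lit 7211555351) (nat_lit 152) (nat_lit 41924303496) (nat_lit 5) (nat_lit 5) (nat_lit 6) (nat_lit 5) (nat_lit 7) (nat_lit 4) (nat_lit 386) (nat_lit 247) (nat_lit 147)) (XT.lf (nat_lit 0) (nat_lit 21402868096) (nat_lit 76) (nat_lit 4132683410) (nat_lit 152) (nat_lit 40717878648) (nat_lit 5) (nat_lit 5) (nat_lit 6) (nat_lit 5) (nat_lit 7) (nat_lit 4) (nat_lit 387) (nat_lit 247) (nat_lit 146)))))) (XT.nd (nat_lit 390) (nat_lit 76) (nat_lit 0) (XT.nd (nat_lit 156) (nat_lit 0) (nat_lit 0) (XT.nd (nat_lit 78) (nat_lit 0) (nat_lit 0) (XT.lf (nat_lit 0) (nat_lit 27686257284) (nat_lit 76) (nat_lit 967792794) (nat_lit 152) (nat_lit 39484491383) (nat_lit 5) (nat_lit 5) (nat_lit 6) (nat_lit 5) (nat_lit 7) (nat_lit 4) (nat_lit 388) (nat_lit 247) (nat_lit 145))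 (XT.lf (nat_lit 0) (nat_lit 31879386447) (nat_lit 152) (nat_lit 35959155345) (nat_lit 0) (nat_lit 2241276144) (nat_lit 5) (nat_lit 5) (nat_lit 7) (nat_lit 4) (nat_lit 5) (nat_lit 4) (nat_lit 389) (nat_lit 247) (nat_lit 144))) (XT.nd (nat_lit 78) (nat_lit 0) (nat_lit 0) (XT.lf (nat_lit 0) (nat_lit 35202570165) (nat_lit 152) (nat_lit 31355440821) (nat_lit 0) (nat_lit 5521299114) (nat_lit 5) (nat_lit 5) (nat_lit 7) (nat_lit 4) (nat_lit 5) (nat_lit 4) (nat_lit 390) (nat_lit 247) (nat_lit 143)) (XT.nd (nat_lit 78) (nat_lit 0) (nat_lit 0) (XT.lf (nat_lit 0) (nat_lit 38617201967) (nat_lit 152) (nat_lit 26627814929) (nat_lit 0) (nat_lit 8894027279) (nat_lit 5) (nat_lit 5) (nat_lit 7) (nat_lit 4) (nat_lit 5) (nat_lit 4) (nat_lit 391) (nat_lit 247) (nat_lit 142)) (XT.lf (nat_lit 0) (nat_lit 42126265512) (nat_lit 152) (nat_lit 21772146732) (nat_lit 0) (nat_lit 12362407681) (nat_lit 5) (nat_lit 5) (nat_lit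 7) (nat_lit 4) (nat_lit 5) (nat_lit 4) (nat_lit 392) (nat_lit 247) (nat_lit 141))))) (XT.nd (nat_lit 234) (nat_lit 76) (nat_lit 0) (XT.nd (nat_lit 78) (nat_lit 0) (nat_lit 0) (XT.lf (nat_lit 0) (nat_lit 45732826974) (nat_lit 152) (nat_lit 16784193413) (nat_lit 0) (nat_lit 15929470945) (nat_lit 5) (nat_lit 5) (nat_lit 7) (nat_lit 4) (nat_lit 5) (nat_lit 4) (nat_lit 393) (nat_lit 247) (nat_lit 140)) (XT.nd (nat_lit 78) (nat_lit 0) (nat_lit 0) (XT.lf (nat_lit 0) (nat_lit 49440037716) (nat_lit 152) (nat_lit 11659596566) (nat_lit 0) (nat_lit 19598333922) (nat_lit 5) (nat_lit 5) (nat_lit 7) (nat_lit 4) (nat_lit 5) (nat_lit 4) (nat_lit 394) (nat_lit 247) (nat_lit 139)) (XT.lf (nat_lit 0) (nat_lit 53251137048) (nat_lit 152) (nat_lit 6393878390) (nat_lit 0) (nat_lit 23372202415) (nat_lit 5) (nat_lit 5) (nat_lit 7) (nat_lit 4) (nat_lit 5) (nat_lit 4) (nat_lit 395) (nat_lit 247) (nat_lit 138)))) (XT.nd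 (nat_lit 78) (nat_lit 76) (nat_lit 0) (XT.lf (nat_lit 0) (nat_lit 57169455057) (nat_lit 152) (nat_lit 982437769) (nat_lit 0) (nat_lit 27254373978) (nat_lit 5) (nat_lit 5) (nat_lit 7) (nat_lit 4) (nat_lit 5) (nat_lit 4) (nat_lit 396) (nat_lit 247) (nat_lit 137)) (XT.nd (nat_lit 78) (nat_lit 0) (nat_lit 0) (XT.lf (nat_lit 0) (nat_lit 4670593845) (nat_lit 76) (nat_lit 56572718277) (nat_lit 76) (nat_lit 26622543560) (nat_lit 4) (nat_lit 4) (nat_lit 5) (nat_lit 5) (nat_lit 5) (nat_lit 4) (nat_lit 397) (nat_lit 247) (nat_lit 136)) (XT.lf (nat_lit 0) (nat_lit 10501579680) (nat_lit 76) (nat_lit 54940906806) (nat_lit 76) (nat_lit 24956660597) (nat_lit 4) (nat_lit 4) (nat_lit 5) (nat_lit 5) (nat_lit 5) (nat_lit 4) (nat_lit 398) (nat_lit 247) (nat_lit 135))))))) (XT.nd (nat_lit 858) (nat_lit 2584) (nat_lit 0) (XT.nd (nat_lit 390) (nat_lit 2128) (nat_lit 0) (XT.nd (nat_lit 156) (nat_lit 2128) (nat_lit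 0) (XT.nd (nat_lit 78) (nat_lit 0) (nat_lit 0) (XT.lf (nat_lit 0) (nat_lit 508737592) (nat_lit 988) (nat_lit 2559507219) (nat_lit 0) (nat_lit 508737592) (nat_lit 158) (nat_lit 5) (nat_lit 171) (nat_lit 4) (nat_lit 158) (nat_lit 4) (nat_lit 284) (nat_lit 248) (nat_lit 248)) (XT.lf (nat_lit 0) (nat_lit 3892778309) (nat_lit 988) (nat_lit 975110677) (nat_lit 0) (nat_lit 2349681614) (nat_lit 158) (nat_lit 5) (nat_lit 171) (nat_lit 4) (nat_lit 158) (nat_lit 4) (nat_lit 285) (nat_lit 248) (nat_lit 247))) (XT.nd (nat_lit 78) (nat_lit 1140) (nat_lit 0) (XT.lf (nat_lit 0) (nat_lit 3273959894) (nat_lit 988) (nat_lit 3526173640) (nat_lit 988) (nat_lit 484924813) (nat_lit 145) (nat_lit 4) (nat_lit 158) (nat_lit 5) (nat_lit 158) (nat_lit 4) (nat_lit 286) (nat_lit 248) (nat_lit 246)) (XT.nd (nat_lit 78) (nat_lit 0) (nat_lit 0) (XT.lf (nat_lit 0) (nat_lit 212565446) (nat_lit 1064) (nat_lit 2106809384) (nat_lit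 1140) (nat_lit 5037014271) (nat_lit 130) (nat_lit 5) (nat_lit 144) (nat_lit 5) (nat_lit 145) (nat_lit 4) (nat_lit 287) (nat_lit 248) (nat_lit 245)) (XT.lf (nat_lit 0) (nat_lit 4556847044) (nat_lit 1064) (nat_lit 598209396) (nat_lit 1140) (nat_lit 2276267392) (nat_lit 130) (nat_lit 5) (nat_lit 144) (nat_lit 5) (nat_lit 145) (nat_lit 4) (nat_lit 288) (nat_lit 248) (nat_lit 244))))) (XT.nd (nat_lit 234) (nat_lit 1064) (nat_lit 0) (XT.nd (nat_lit 78) (nat_lit 456) (nat_lit 0) (XT.lf (nat_lit 0) (nat_lit 497536247) (nat_lit 608) (nat_lit 6056932445) (nat_lit 76) (nat_lit 955935001) (nat_lit 122) (nat_lit 5) (nat_lit 130) (nat_lit 5) (nat_lit 123) (nat_lit 4) (nat_lit 289) (nat_lit 248) (nat_lit 243)) (XT.nd (nat_lit 78) (nat_lit 456) (nat_lit 0) (XT.lf (nat_lit 0) (nat_lit 3263495901) (nat_lit 608) (nat_lit 1734353537) (nat_lit 76) (nat_lit 2594980699) (nat_lit 122) (nat_lit 5) (nat_lit 130) (nat_lit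 5) (nat_lit 123) (nat_lit 4) (nat_lit 290) (nat_lit 248) (nat_lit 242)) (XT.lf (nat_lit 0) (nat_lit 2688023217) (nat_lit 456) (nat_lit 3372051787) (nat_lit 532) (nat_lit 1619507759) (nat_lit 116) (nat_lit 5) (nat_lit 122) (nat_lit 5) (nat_lit 123) (nat_lit 4) (nat_lit 291) (nat_lit 248) (nat_lit 241)))) (XT.nd (nat_lit 78) (nat_lit 988) (nat_lit 0) (XT.lf (nat_lit 0) (nat_lit 1088705298) (nat_lit 532) (nat_lit 584563178) (nat_lit 76) (nat_lit 6097399381) (nat_lit 115) (nat_lit 5) (nat_lit 122) (nat_lit 5) (nat_lit 116) (nat_lit 5) (nat_lit 292) (nat_lit 248) (nat_lit 240)) (XT.nd (nat_lit 78) (nat_lit 456) (nat_lit 0) (XT.lf (nat_lit 0) (nat_lit 3809182138) (nat_lit 608) (nat_lit 3932135938) (nat_lit 76) (nat_lit 124037975) (nat_lit 108) (nat_lit 5) (nat_lit 116) (nat_lit 5) (nat_lit 109) (nat_lit 4) (nat_lit 293) (nat_lit 248) (nat_lit 239)) (XT.lf (nat_lit 0) (nat_lit 547335014) (nat_lit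 456) (nat_lit 6017628817) (nat_lit 532) (nat_lit 1399561437) (nat_lit 102) (nat_lit 5) (nat_lit 108) (nat_lit 5) (nat_lit 109) (nat_lit 4) (nat_lit 294) (nat_lit 248) (nat_lit 238)))))) (XT.nd (nat_lit 468) (nat_lit 1216) (nat_lit 0) (XT.nd (nat_lit 234) (nat_lit 836) (nat_lit 0) (XT.nd (nat_lit 78) (nat_lit 456) (nat_lit 0) (XT.lf (nat_lit 0) (nat_lit 1277079017) (nat_lit 532) (nat_lit 2920352223) (nat_lit 76) (nat_lit 3870097079) (nat_lit 101) (nat_lit 5) (nat_lit 108) (nat_lit 5) (nat_lit 102) (nat_lit 5) (nat_lit 295) (nat_lit 248) (nat_lit 237)) (XT.nd (nat_lit 78) (nat_lit 0) (nat_lit 0) (XT.lf (nat_lit 0) (nat_lit 1648709955) (nat_lit 456) (nat_lit 2301487920) (nat_lit 532) (nat_lit 4224908390) (nat_lit 95) (nat_lit 5) (nat_lit 101) (nat_lit 5) (nat_lit 102) (nat_lit 5) (nat_lit 296) (nat_lit 248) (nat_lit 236)) (XT.lf (nat_lit 0) (nat_lit 6334506220) (nat_lit 456) (nat_lit 328267214)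 (nat_lit 532) (nat_lit 1624583316) (nat_lit 95) (nat_lit 5) (nat_lit 101) (nat_lit 5) (nat_lit 102) (nat_lit 5) (nat_lit 297) (nat_lit 248) (nat_lit 235)))) (XT.nd (nat_lit 78) (nat_lit 380) (nat_lit 0) (XT.lf (nat_lit 0) (nat_lit 1006921176) (nat_lit 456) (nat_lit 5699383146) (nat_lit 76) (nat_lit 1697364869) (nat_lit 89) (nat_lit 5) (nat_lit 95) (nat_lit 5) (nat_lit 90) (nat_lit 5) (nat_lit 298) (nat_lit 248) (nat_lit 234)) (XT.nd (nat_lit 78) (nat_lit 380) (nat_lit 0) (XT.lf (nat_lit 0) (nat_lit 3639966058) (nat_lit 456) (nat_lit 1082047853) (nat_lit 76) (nat_lit 3802521273) (nat_lit 89) (nat_lit 5) (nat_lit 95) (nat_lit 5) (nat_lit 90) (nat_lit 5) (nat_lit 299) (nat_lit 248) (nat_lit 233)) (XT.lf (nat_lit 0) (nat_lit 3666909402) (nat_lit 380) (nat_lit 2654402035) (nat_lit 456) (nat_lit 2328834660) (nat_lit 84) (nat_lit 5) (nat_lit 89) (nat_lit 5) (nat_lit 90) (nat_lit 5) (nat_lit 300) (nat_lit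 248) (nat_lit 232))))) (XT.nd (nat_lit 234) (nat_lit 380) (nat_lit 0) (XT.nd (nat_lit 78) (nat_lit 760) (nat_lit 0) (XT.lf (nat_lit 0) (nat_lit 243087273) (nat_lit 456) (nat_lit 280883425) (nat_lit 76) (nat_lit 8257290758) (nat_lit 83) (nat_lit 5) (nat_lit 89) (nat_lit 5) (nat_lit 84) (nat_lit 5) (nat_lit 301) (nat_lit 248) (nat_lit 231)) (XT.nd (nat_lit 78) (nat_lit 380) (nat_lit 0) (XT.lf (nat_lit 0) (nat_lit 2842017106) (nat_lit 456) (nat_lit 4381561701) (nat_lit 76) (nat_lit 1692321404) (nat_lit 78) (nat_lit 5) (nat_lit 84) (nat_lit 5) (nat_lit 79) (nat_lit 5) (nat_lit 302) (nat_lit 248) (nat_lit 230)) (XT.lf (nat_lit 0) (nat_lit 369232210) (nat_lit 380) (nat_lit 5098592145) (nat_lit 456) (nat_lit 3588462599) (nat_lit 73) (nat_lit 5) (nat_lit 78) (nat_lit 5) (nat_lit 79) (nat_lit 5) (nat_lit 303) (nat_lit 248) (nat_lit 229)))) (XT.nd (nat_lit 78) (nat_lit 380) (nat_lit 0) (XT.lf (nat_lit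 0) (nat_lit 5275093916) (nat_lit 380) (nat_lit 2879948219) (nat_lit 456) (nat_lit 1046535057) (nat_lit 73) (nat_lit 5) (nat_lit 78) (nat_lit 5) (nat_lit 79) (nat_lit 5) (nat_lit 304) (nat_lit 248) (nat_lit 228)) (XT.nd (nat_lit 78) (nat_lit 0) (nat_lit 0) (XT.lf (nat_lit 0) (nat_lit 903029356) (nat_lit 304) (nat_lit 586063445) (nat_lit 380) (nat_lit 7863397942) (nat_lit 68) (nat_lit 5) (nat_lit 72) (nat_lit 5) (nat_lit 73) (nat_lit 5) (nat_lit 305) (nat_lit 248) (nat_lit 227)) (XT.lf (nat_lit 0) (nat_lit 4077188452) (nat_lit 380) (nat_lit 3654086566) (nat_lit 76) (nat_lit 1776579305) (nat_lit 68) (nat_lit 5) (nat_lit 73) (nat_lit 5) (nat_lit 69) (nat_lit 5) (nat_lit 306) (nat_lit 248) (nat_lit 226))))))))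
noncomputable def xc78 : XT := (XT.nd (nat_lit 1716) (nat_lit 1140) (nat_lit 0) (XT.nd (nat_lit 858) (nat_lit 1216) (nat_lit 0) (XT.nd (nat_lit 390) (nat_lit 684) (nat_lit 0) (XT.nd (nat_lit 156) (nat_lit 684) (nat_lit 0) (XT.nd (nat_lit 78) (nat_lit 0) (nat_lit 0) (XT.lf (nat_lit 0) (nat_lit 1228139153) (nat_lit 304) (nat_lit 5474447303) (nat_lit 380) (nat_lit 2966654485) (nat_lit 64) (nat_lit 5) (nat_lit 68) (nat_lit 5) (nat_lit 69) (nat_lit 5) (nat_lit 307) (nat_lit 248) (nat_lit 225)) (XT.lf (nat_lit 0) (nat_lit 6257300673) (nat_lit 304) (nat_lit 3129368390) (nat_lit 380) (nat_lit 449549906) (nat_lit 64) (nat_lit 5) (nat_lit 68) (nat_lit 5) (nat_lit 69) (nat_lit 5) (nat_lit 308) (nat_lit 248) (nat_lit 224))) (XT.nd (nat_lit 78) (nat_lit 304) (nat_lit 0) (XT.lf (nat_lit 0) (nat_lit 1361577753) (nat_lit 304) (nat_lit 696754371) (nat_lit 380) (nat_lit 7950682725) (nat_lit 59) (nat_lit 5) (nat_lit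 63) (nat_lit 5) (nat_lit 64) (nat_lit 5) (nat_lit 309) (nat_lit 248) (nat_lit 223)) (XT.nd (nat_lit 78) (nat_lit 304) (nat_lit 0) (XT.lf (nat_lit 0) (nat_lit 4631056616) (nat_lit 380) (nat_lit 3758871602) (nat_lit 76) (nat_lit 1797108586) (nat_lit 59) (nat_lit 5) (nat_lit 64) (nat_lit 5) (nat_lit 60) (nat_lit 5) (nat_lit 310) (nat_lit 248) (nat_lit 222)) (XT.lf (nat_lit 0) (nat_lit 1221028743) (nat_lit 304) (nat_lit 6024934952) (nat_lit 380) (nat_lit 3125616743) (nat_lit 55) (nat_lit 5) (nat_lit 59) (nat_lit 5) (nat_lit 60) (nat_lit 5) (nat_lit 311) (nat_lit 248) (nat_lit 221))))) (XT.nd (nat_lit 234) (nat_lit 380) (nat_lit 0) (XT.nd (nat_lit 78) (nat_lit 304) (nat_lit 0) (XT.lf (nat_lit 0) (nat_lit 6355837394) (nat_lit 304) (nat_lit 3568677323) (nat_lit 380) (nat_lit 637716986) (nat_lit 55) (nat_lit 5) (nat_lit 59) (nat_lit 5) (nat_lit 60) (nat_lit 5) (nat_lit 312) (nat_lit 248) (nat_lit 220))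 (XT.nd (nat_lit 78) (nat_lit 0) (nat_lit 0) (XT.lf (nat_lit 0) (nat_lit 812836595) (nat_lit 228) (nat_lit 1030384418) (nat_lit 304) (nat_lit 8916267500) (nat_lit 51) (nat_lit 5) (nat_lit 54) (nat_lit 5) (nat_lit 55) (nat_lit 5) (nat_lit 313) (nat_lit 248) (nat_lit 219)) (XT.lf (nat_lit 0) (nat_lit 4392697875) (nat_lit 304) (nat_lit 4985861765) (nat_lit 76) (nat_lit 1583822549) (nat_lit 51) (nat_lit 5) (nat_lit 55) (nat_lit 5) (nat_lit 52) (nat_lit 5) (nat_lit 314) (nat_lit 248) (nat_lit 218)))) (XT.nd (nat_lit 78) (nat_lit 76) (nat_lit 0) (XT.lf (nat_lit 0) (nat_lit 45127070) (nat_lit 304) (nat_lit 6934463104) (nat_lit 380) (nat_lit 4193057608) (nat_lit 47) (nat_lit 5) (nat_lit 51) (nat_lit 5) (nat_lit 52) (nat_lit 5) (nat_lit 315) (nat_lit 248) (nat_lit 217)) (XT.nd (nat_lit 78) (nat_lit 76) (nat_lit 0) (XT.lf (nat_lit 0) (nat_lit 5260626509) (nat_lit 304) (nat_lit 4384893720) (nat_lit 380)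 (nat_lit 1743767929) (nat_lit 47) (nat_lit 5) (nat_lit 51) (nat_lit 5) (nat_lit 52) (nat_lit 5) (nat_lit 316) (nat_lit 248) (nat_lit 216)) (XT.lf (nat_lit 0) (nat_lit 715732960) (nat_lit 380) (nat_lit 1055010678) (nat_lit 76) (nat_lit 9843004900) (nat_lit 46) (nat_lit 5) (nat_lit 51) (nat_lit 5) (nat_lit 47) (nat_lit 5) (nat_lit 317) (nat_lit 248) (nat_lit 215)))))) (XT.nd (nat_lit 390) (nat_lit 456) (nat_lit 0) (XT.nd (nat_lit 156) (nat_lit 532) (nat_lit 0) (XT.nd (nat_lit 78) (nat_lit 0) (nat_lit 0) (XT.lf (nat_lit 0) (nat_lit 3216627495) (nat_lit 304) (nat_lit 7684741513) (nat_lit 76) (nat_lit 943076506) (nat_lit 43) (nat_lit 5) (nat_lit 47) (nat_lit 5) (nat_lit 44) (nat_lit 5) (nat_lit 318) (nat_lit 248) (nat_lit 214)) (XT.lf (nat_lit 0) (nat_lit 5774723381) (nat_lit 304) (nat_lit 2613256062) (nat_lit 76) (nat_lit 3694716228) (nat_lit 43) (nat_lit 5) (nat_lit 47) (nat_lit 5) (nat_lit 44)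 (nat_lit 5) (nat_lit 319) (nat_lit 248) (nat_lit 213))) (XT.nd (nat_lit 78) (nat_lit 304) (nat_lit 0) (XT.lf (nat_lit 0) (nat_lit 2596614634) (nat_lit 228) (nat_lit 5793134341) (nat_lit 304) (nat_lit 3939033423) (nat_lit 40) (nat_lit 5) (nat_lit 43) (nat_lit 5) (nat_lit 44) (nat_lit 5) (nat_lit 320) (nat_lit 248) (nat_lit 212)) (XT.nd (nat_lit 78) (nat_lit 304) (nat_lit 0) (XT.lf (nat_lit 0) (nat_lit 7952553671) (nat_lit 228) (nat_lit 3112977835) (nat_lit 304) (nat_lit 1517342946) (nat_lit 40) (nat_lit 5) (nat_lit 43) (nat_lit 5) (nat_lit 44) (nat_lit 5) (nat_lit 321) (nat_lit 248) (nat_lit 211)) (XT.lf (nat_lit 0) (nat_lit 563294621) (nat_lit 228) (nat_lit 356743725) (nat_lit 304) (nat_lit 11925492666) (nat_lit 36) (nat_lit 5) (nat_lit 39) (nat_lit 5) (nat_lit 40) (nat_lit 5) (nat_lit 322) (nat_lit 248) (nat_lit 210))))) (XT.nd (nat_lit 234) (nat_lit 228) (nat_lit 0) (XT.nd (nat_lit 78) (nat_lit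 228) (nat_lit 0) (XT.lf (nat_lit 0) (nat_lit 3428288654) (nat_lit 304) (nat_lit 7209821112) (nat_lit 76) (nat_lit 2476743578) (nat_lit 36) (nat_lit 5) (nat_lit 40) (nat_lit 5) (nat_lit 37) (nat_lit 5) (nat_lit 323) (nat_lit 248) (nat_lit 209)) (XT.nd (nat_lit 78) (nat_lit 228) (nat_lit 0) (XT.lf (nat_lit 0) (nat_lit 5973730582) (nat_lit 304) (nat_lit 2050363291) (nat_lit 76) (nat_lit 5369384814) (nat_lit 36) (nat_lit 5) (nat_lit 40) (nat_lit 5) (nat_lit 37) (nat_lit 5) (nat_lit 324) (nat_lit 248) (nat_lit 208)) (XT.lf (nat_lit 0) (nat_lit 3267841943) (nat_lit 228) (nat_lit 5318729618) (nat_lit 304) (nat_lit 5094239438) (nat_lit 33) (nat_lit 5) (nat_lit 36) (nat_lit 5) (nat_lit 37) (nat_lit 5) (nat_lit 325) (nat_lit 248) (nat_lit 207)))) (XT.nd (nat_lit 78) (nat_lit 228) (nat_lit 0) (XT.lf (nat_lit 0) (nat_lit 8728406393) (nat_lit 228) (nat_lit 2530326108) (nat_lit 304) (nat_lit 2718679710)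 (nat_lit 33) (nat_lit 5) (nat_lit 36) (nat_lit 5) (nat_lit 37) (nat_lit 5) (nat_lit 326) (nat_lit 248) (nat_lit 206)) (XT.nd (nat_lit 78) (nat_lit 76) (nat_lit 0) (XT.lf (nat_lit 0) (nat_lit 8207373) (nat_lit 152) (nat_lit 13967421638) (nat_lit 228) (nat_lit 308420060) (nat_lit 31) (nat_lit 5) (nat_lit 33) (nat_lit 5) (nat_lit 34) (nat_lit 4) (nat_lit 327) (nat_lit 248) (nat_lit 205)) (XT.lf (nat_lit 0) (nat_lit 2171634157) (nat_lit 228) (nat_lit 9172845500) (nat_lit 76) (nat_lit 3253651478) (nat_lit 30) (nat_lit 5) (nat_lit 33) (nat_lit 5) (nat_lit 31) (nat_lit 5) (nat_lit 328) (nat_lit 248) (nat_lit 204))))))) (XT.nd (nat_lit 858) (nat_lit 532) (nat_lit 0) (XT.nd (nat_lit 390) (nat_lit 228) (nat_lit 0) (XT.nd (nat_lit 156) (nat_lit 152) (nat_lit 0) (XT.nd (nat_lit 78) (nat_lit 228) (nat_lit 0) (XT.lf (nat_lit 0) (nat_lit 4682347398) (nat_lit 228) (nat_lit 3976910430) (nat_lit 76) (nat_lit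 6263480923) (nat_lit 30) (nat_lit 5) (nat_lit 33) (nat_lit 5) (nat_lit 31) (nat_lit 5) (nat_lit 329) (nat_lit 248) (nat_lit 203)) (XT.lf (nat_lit 0) (nat_lit 1345728376) (nat_lit 228) (nat_lit 5899139463) (nat_lit 304) (nat_lit 8012988581) (nat_lit 27) (nat_lit 5) (nat_lit 30) (nat_lit 5) (nat_lit 31) (nat_lit 5) (nat_lit 330) (nat_lit 248) (nat_lit 202))) (XT.nd (nat_lit 78) (nat_lit 152) (nat_lit 0) (XT.lf (nat_lit 0) (nat_lit 6854678265) (nat_lit 228) (nat_lit 3033828477) (nat_lit 304) (nat_lit 5714458057) (nat_lit 27) (nat_lit 5) (nat_lit 30) (nat_lit 5) (nat_lit 31) (nat_lit 5) (nat_lit 331) (nat_lit 248) (nat_lit 201)) (XT.nd (nat_lit 78) (nat_lit 152) (nat_lit 0) (XT.lf (nat_lit 0) (nat_lit 12475604566) (nat_lit 228) (nat_lit 100980198) (nat_lit 304) (nat_lit 3382950354) (nat_lit 27) (nat_lit 5) (nat_lit 30) (nat_lit 5) (nat_lit 31) (nat_lit 5) (nat_lit 332) (nat_lit 248) (nat_lit 200))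 (XT.lf (nat_lit 0) (nat_lit 1894615094) (nat_lit 152) (nat_lit 13462943308) (nat_lit 228) (nat_lit 968937311) (nat_lit 25) (nat_lit 5) (nat_lit 27) (nat_lit 5) (nat_lit 28) (nat_lit 4) (nat_lit 333) (nat_lit 248) (nat_lit 199))))) (XT.nd (nat_lit 234) (nat_lit 0) (nat_lit 0) (XT.nd (nat_lit 78) (nat_lit 152) (nat_lit 0) (XT.lf (nat_lit 0) (nat_lit 1490487046) (nat_lit 228) (nat_lit 9266271370) (nat_lit 76) (nat_lit 5947248289) (nat_lit 24) (nat_lit 5) (nat_lit 27) (nat_lit 5) (nat_lit 25) (nat_lit 5) (nat_lit 334) (nat_lit 248) (nat_lit 198)) (XT.nd (nat_lit 78) (nat_lit 152) (nat_lit 0) (XT.lf (nat_lit 0) (nat_lit 3971281340) (nat_lit 228) (nat_lit 4006608363) (nat_lit 76) (nat_lit 9115709275) (nat_lit 24) (nat_lit 5) (nat_lit 27) (nat_lit 5) (nat_lit 25) (nat_lit 5) (nat_lit 335) (nat_lit 248) (nat_lit 197)) (XT.lf (nat_lit 0) (nat_lit 1388105173) (nat_lit 152) (nat_lit 5119758851) (nat_lit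 228) (nat_lit 10987628043) (nat_lit 22) (nat_lit 5) (nat_lit 24) (nat_lit 5) (nat_lit 25) (nat_lit 5) (nat_lit 336) (nat_lit 248) (nat_lit 196)))) (XT.nd (nat_lit 78) (nat_lit 0) (nat_lit 0) (XT.lf (nat_lit 0) (nat_lit 6977453862) (nat_lit 152) (nat_lit 2152027620) (nat_lit 228) (nat_lit 8779744766) (nat_lit 22) (nat_lit 5) (nat_lit 24) (nat_lit 5) (nat_lit 25) (nat_lit 5) (nat_lit 337) (nat_lit 248) (nat_lit 195)) (XT.nd (nat_lit 78) (nat_lit 0) (nat_lit 0) (XT.lf (nat_lit 0) (nat_lit 11807674570) (nat_lit 228) (nat_lit 5658289812) (nat_lit 76) (nat_lit 870121147) (nat_lit 22) (nat_lit 5) (nat_lit 25) (nat_lit 5) (nat_lit 23) (nat_lit 4) (nat_lit 338) (nat_lit 248) (nat_lit 194)) (XT.lf (nat_lit 0) (nat_lit 14557647096) (nat_lit 228) (nat_lit 295194913) (nat_lit 76) (nat_lit 3923214977) (nat_lit 22) (nat_lit 5) (nat_lit 25) (nat_lit 5) (nat_lit 23) (nat_lit 4) (nat_lit 339) (nat_lit 248) (nat_lit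 193)))))) (XT.nd (nat_lit 390) (nat_lit 152) (nat_lit 0) (XT.nd (nat_lit 156) (nat_lit 152) (nat_lit 0) (XT.nd (nat_lit 78) (nat_lit 76) (nat_lit 0) (XT.lf (nat_lit 0) (nat_lit 5286034691) (nat_lit 152) (nat_lit 12125893251) (nat_lit 228) (nat_lit 1816693339) (nat_lit 20) (nat_lit 5) (nat_lit 22) (nat_lit 5) (nat_lit 23) (nat_lit 4) (nat_lit 340) (nat_lit 248) (nat_lit 192)) (XT.lf (nat_lit 0) (nat_lit 618338771) (nat_lit 228) (nat_lit 8706344914) (nat_lit 76) (nat_lit 10370711968) (nat_lit 19) (nat_lit 5) (nat_lit 22) (nat_lit 5) (nat_lit 20) (nat_lit 5) (nat_lit 341) (nat_lit 248) (nat_lit 191))) (XT.nd (nat_lit 78) (nat_lit 152) (nat_lit 0) (XT.lf (nat_lit 0) (nat_lit 3061826119) (nat_lit 228) (nat_lit 3375739468) (nat_lit 76) (nat_lit 13738954415) (nat_lit 19) (nat_lit 5) (nat_lit 22) (nat_lit 5) (nat_lit 20) (nat_lit 5) (nat_lit 342) (nat_lit 248) (nat_lit 190)) (XT.nd (nat_lit 78) (nat_lit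 0) (nat_lit 0) (XT.lf (nat_lit 0) (nat_lit 2112574668) (nat_lit 152) (nat_lit 3459086714) (nat_lit 228) (nat_lit 15100668020) (nat_lit 17) (nat_lit 5) (nat_lit 19) (nat_lit 5) (nat_lit 20) (nat_lit 5) (nat_lit 343) (nat_lit 248) (nat_lit 189)) (XT.lf (nat_lit 0) (nat_lit 7791729982) (nat_lit 152) (nat_lit 372266688) (nat_lit 228) (nat_lit 13018841641) (nat_lit 17) (nat_lit 5) (nat_lit 19) (nat_lit 5) (nat_lit 20) (nat_lit 5) (nat_lit 344) (nat_lit 248) (nat_lit 188))))) (XT.nd (nat_lit 234) (nat_lit 76) (nat_lit 0) (XT.nd (nat_lit 78) (nat_lit 76) (nat_lit 0) (XT.lf (nat_lit 0) (nat_lit 10834835284) (nat_lit 228) (nat_lit 8136814302) (nat_lit 76) (nat_lit 2737031076) (nat_lit 17) (nat_lit 5) (nat_lit 20) (nat_lit 5) (nat_lit 18) (nat_lit 4) (nat_lit 345) (nat_lit 248) (nat_lit 187)) (XT.nd (nat_lit 78) (nat_lit 76) (nat_lit 0) (XT.lf (nat_lit 0) (nat_lit 13563998601) (nat_lit 228) (nat_lit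 2769769156) (nat_lit 76) (nat_lit 5917223544) (nat_lit 17) (nat_lit 5) (nat_lit 20) (nat_lit 5) (nat_lit 18) (nat_lit 4) (nat_lit 346) (nat_lit 248) (nat_lit 186)) (XT.lf (nat_lit 0) (nat_lit 2772394618) (nat_lit 76) (nat_lit 13604548204) (nat_lit 152) (nat_lit 6432609121) (nat_lit 16) (nat_lit 5) (nat_lit 17) (nat_lit 5) (nat_lit 18) (nat_lit 4) (nat_lit 347) (nat_lit 248) (nat_lit 185)))) (XT.nd (nat_lit 78) (nat_lit 76) (nat_lit 0) (XT.lf (nat_lit 0) (nat_lit 8498000810) (nat_lit 76) (nat_lit 10779839891) (nat_lit 152) (nat_lit 4106958508) (nat_lit 16) (nat_lit 5) (nat_lit 17) (nat_lit 5) (nat_lit 18) (nat_lit 4) (nat_lit 348) (nat_lit 248) (nat_lit 184)) (XT.nd (nat_lit 78) (nat_lit 76) (nat_lit 0) (XT.lf (nat_lit 0) (nat_lit 14356928538) (nat_lit 76) (nat_lit 7885143863) (nat_lit 152) (nat_lit 1735977979) (nat_lit 16) (nat_lit 5) (nat_lit 17) (nat_lit 5) (nat_lit 18) (nat_lit 4) (nat_lit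 349) (nat_lit 248) (nat_lit 183)) (XT.lf (nat_lit 0) (nat_lit 669088034) (nat_lit 152) (nat_lit 4242086263) (nat_lit 76) (nat_lit 19678452740) (nat_lit 15) (nat_lit 5) (nat_lit 17) (nat_lit 5) (nat_lit 16) (nat_lit 5) (nat_lit 350) (nat_lit 248) (nat_lit 182))))))))
noncomputable def xc79 : XT := (XT.nd (nat_lit 1716) (nat_lit 228) (nat_lit 0) (XT.nd (nat_lit 858) (nat_lit 152) (nat_lit 0) (XT.nd (nat_lit 390) (nat_lit 228) (nat_lit 0) (XT.nd (nat_lit 156) (nat_lit 0) (nat_lit 0) (XT.nd (nat_lit 78) (nat_lit 0) (nat_lit 0) (XT.lf (nat_lit 0) (nat_lit 1269176847) (nat_lit 152) (nat_lit 1831850707) (nat_lit 228) (nat_lit 22118352079) (nat_lit 13) (nat_lit 5) (nat_lit 15) (nat_lit 5) (nat_lit 16) (nat_lit 5) (nat_lit 351) (nat_lit 248) (nat_lit 181)) (XT.lf (nat_lit 0) (nat_lit 5639651454) (nat_lit 228) (nat_lit 18884233383) (nat_lit 76) (nat_lit 1343159896) (nat_lit 13) (nat_lit 5) (nat_lit 16)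 (nat_lit 5) (nat_lit 14) (nat_lit 4) (nat_lit 352) (nat_lit 248) (nat_lit 180))) (XT.nd (nat_lit 78) (nat_lit 0) (nat_lit 0) (XT.lf (nat_lit 0) (nat_lit 8250809877) (nat_lit 228) (nat_lit 13720273034) (nat_lit 76) (nat_lit 4563196389) (nat_lit 13) (nat_lit 5) (nat_lit 16) (nat_lit 5) (nat_lit 14) (nat_lit 4) (nat_lit 353) (nat_lit 248) (nat_lit 179)) (XT.nd (nat_lit 78) (nat_lit 0) (nat_lit 0) (XT.lf (nat_lit 0) (nat_lit 10919175549) (nat_lit 228) (nat_lit 8436200672) (nat_lit 76) (nat_lit 7866818401) (nat_lit 13) (nat_lit 5) (nat_lit 16) (nat_lit 5) (nat_lit 14) (nat_lit 4) (nat_lit 354) (nat_lit 248) (nat_lit 178)) (XT.lf (nat_lit 0) (nat_lit 13647080051) (nat_lit 228) (nat_lit 3027399145) (nat_lit 76) (nat_lit 11256912592) (nat_lit 13) (nat_lit 5) (nat_lit 16) (nat_lit 5) (nat_lit 14) (nat_lit 4) (nat_lit 355) (nat_lit 248) (nat_lit 177))))) (XT.nd (nat_lit 234) (nat_lit 152) (nat_lit 0)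 (XT.nd (nat_lit 78) (nat_lit 0) (nat_lit 0) (XT.lf (nat_lit 0) (nat_lit 2560828674) (nat_lit 76) (nat_lit 13900694567) (nat_lit 152) (nat_lit 12200228757) (nat_lit 12) (nat_lit 5) (nat_lit 13) (nat_lit 5) (nat_lit 14) (nat_lit 4) (nat_lit 356) (nat_lit 248) (nat_lit 176)) (XT.nd (nat_lit 78) (nat_lit 0) (nat_lit 0) (XT.lf (nat_lit 0) (nat_lit 8346274954) (nat_lit 76) (nat_lit 11025048625) (nat_lit 152) (nat_lit 10042399077) (nat_lit 12) (nat_lit 5) (nat_lit 13) (nat_lit 5) (nat_lit 14) (nat_lit 4) (nat_lit 357) (nat_lit 248) (nat_lit 175)) (XT.lf (nat_lit 0) (nat_lit 14273743757) (nat_lit 76) (nat_lit 8075599465) (nat_lit 152) (nat_lit 7839508010) (nat_lit 12) (nat_lit 5) (nat_lit 13) (nat_lit 5) (nat_lit 14) (nat_lit 4) (nat_lit 358) (nat_lit 248) (nat_lit 174)))) (XT.nd (nat_lit 78) (nat_lit 152) (nat_lit 0) (XT.lf (nat_lit 0) (nat_lit 20348414427) (nat_lit 76) (nat_lit 5049769899) (nat_lit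 152) (nat_lit 5589630699) (nat_lit 12) (nat_lit 5) (nat_lit 13) (nat_lit 5) (nat_lit 14) (nat_lit 4) (nat_lit 359) (nat_lit 248) (nat_lit 173)) (XT.nd (nat_lit 78) (nat_lit 152) (nat_lit 0) (XT.lf (nat_lit 0) (nat_lit 26575594928) (nat_lit 76) (nat_lit 1944915997) (nat_lit 152) (nat_lit 3290801233) (nat_lit 12) (nat_lit 5) (nat_lit 13) (nat_lit 5) (nat_lit 14) (nat_lit 4) (nat_lit 360) (nat_lit 248) (nat_lit 172)) (XT.lf (nat_lit 0) (nat_lit 294474815) (nat_lit 152) (nat_lit 31439342865) (nat_lit 152) (nat_lit 925801519) (nat_lit 10) (nat_lit 4) (nat_lit 12) (nat_lit 5) (nat_lit 12) (nat_lit 4) (nat_lit 361) (nat_lit 248) (nat_lit 171)))))) (XT.nd (nat_lit 390) (nat_lit 76) (nat_lit 0) (XT.nd (nat_lit 156) (nat_lit 0) (nat_lit 0) (XT.nd (nat_lit 78) (nat_lit 0) (nat_lit 0) (XT.lf (nat_lit 0) (nat_lit 1535802536) (nat_lit 228) (nat_lit 27497573323) (nat_lit 76) (nat_lit 4497933324) (nat_lit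 9) (nat_lit 5) (nat_lit 12) (nat_lit 5) (nat_lit 10) (nat_lit 4) (nat_lit 362) (nat_lit 248) (nat_lit 170)) (XT.lf (nat_lit 0) (nat_lit 4035629777) (nat_lit 228) (nat_lit 22521672692) (nat_lit 76) (nat_lit 7872105167) (nat_lit 9) (nat_lit 5) (nat_lit 12) (nat_lit 5) (nat_lit 10) (nat_lit 4) (nat_lit 363) (nat_lit 248) (nat_lit 169))) (XT.nd (nat_lit 78) (nat_lit 0) (nat_lit 0) (XT.lf (nat_lit 0) (nat_lit 6593930239) (nat_lit 228) (nat_lit 17424195247) (nat_lit 76) (nat_lit 11336840799) (nat_lit 9) (nat_lit 5) (nat_lit 12) (nat_lit 5) (nat_lit 10) (nat_lit 4) (nat_lit 364) (nat_lit 248) (nat_lit 168)) (XT.nd (nat_lit 78) (nat_lit 0) (nat_lit 0) (XT.lf (nat_lit 0) (nat_lit 9212939331) (nat_lit 228) (nat_lit 12200686880) (nat_lit 76) (nat_lit 14895167660) (nat_lit 9) (nat_lit 5) (nat_lit 12) (nat_lit 5) (nat_lit 10) (nat_lit 4) (nat_lit 365) (nat_lit 248) (nat_lit 167)) (XT.lf (nat_lit 0) (nat_lit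 11894945507) (nat_lit 228) (nat_lit 6846583362) (nat_lit 76) (nat_lit 18550194966) (nat_lit 9) (nat_lit 5) (nat_lit 12) (nat_lit 5) (nat_lit 10) (nat_lit 4) (nat_lit 366) (nat_lit 248) (nat_lit 166))))) (XT.nd (nat_lit 234) (nat_lit 0) (nat_lit 0) (XT.nd (nat_lit 78) (nat_lit 76) (nat_lit 0) (XT.lf (nat_lit 0) (nat_lit 14642292268) (nat_lit 228) (nat_lit 1357206349) (nat_lit 76) (nat_lit 22305116430) (nat_lit 9) (nat_lit 5) (nat_lit 12) (nat_lit 5) (nat_lit 10) (nat_lit 4) (nat_lit 367) (nat_lit 248) (nat_lit 165)) (XT.nd (nat_lit 78) (nat_lit 0) (nat_lit 0) (XT.lf (nat_lit 0) (nat_lit 4357266667) (nat_lit 76) (nat_lit 13141998253) (nat_lit 152) (nat_lit 21847831098) (nat_lit 8) (nat_lit 5) (nat_lit 9) (nat_lit 5) (nat_lit 10) (nat_lit 4) (nat_lit 368) (nat_lit 248) (nat_lit 164)) (XT.lf (nat_lit 0) (nat_lit 10246625289) (nat_lit 76) (nat_lit 10194540654) (nat_lit 152) (nat_lit 19979727528)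 (nat_lit 8) (nat_lit 5) (nat_lit 9) (nat_lit 5) (nat_lit 10) (nat_lit 4) (nat_lit 369) (nat_lit 248) (nat_lit 163)))) (XT.nd (nat_lit 78) (nat_lit 0) (nat_lit 0) (XT.lf (nat_lit 0) (nat_lit 16289004489) (nat_lit 76) (nat_lit 7168255495) (nat_lit 152) (nat_lit 18070084868) (nat_lit 8) (nat_lit 5) (nat_lit 9) (nat_lit 5) (nat_lit 10) (nat_lit 4) (nat_lit 370) (nat_lit 248) (nat_lit 162)) (XT.nd (nat_lit 78) (nat_lit 0) (nat_lit 0) (XT.lf (nat_lit 0) (nat_lit 22489684016) (nat_lit 76) (nat_lit 4060498450) (nat_lit 152) (nat_lit 16117234500) (nat_lit 8) (nat_lit 5) (nat_lit 9) (nat_lit 5) (nat_lit 10) (nat_lit 4) (nat_lit 371) (nat_lit 248) (nat_lit 161)) (XT.lf (nat_lit 0) (nat_lit 28854081939) (nat_lit 76) (nat_lit 868554001) (nat_lit 152) (nat_lit 14119470048) (nat_lit 8) (nat_lit 5) (nat_lit 9) (nat_lit 5) (nat_lit 10) (nat_lit 4) (nat_lit 372) (nat_lit 248) (nat_lit 160))))))) (XT.nd (nat_lit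 858) (nat_lit 76) (nat_lit 0) (XT.nd (nat_lit 390) (nat_lit 76) (nat_lit 0) (XT.nd (nat_lit 156) (nat_lit 76) (nat_lit 0) (XT.nd (nat_lit 78) (nat_lit 0) (nat_lit 0) (XT.lf (nat_lit 0) (nat_lit 33000562378) (nat_lit 152) (nat_lit 9687848888) (nat_lit 0) (nat_lit 2363331986) (nat_lit 8) (nat_lit 5) (nat_lit 10) (nat_lit 4) (nat_lit 8) (nat_lit 4) (nat_lit 373) (nat_lit 248) (nat_lit 159)) (XT.lf (nat_lit 0) (nat_lit 36372848502) (nat_lit 152) (nat_lit 4258598761) (nat_lit 0) (nat_lit 5666357782) (nat_lit 8) (nat_lit 5) (nat_lit 10) (nat_lit 4) (nat_lit 8) (nat_lit 4) (nat_lit 374) (nat_lit 248) (nat_lit 158))) (XT.nd (nat_lit 78) (nat_lit 0) (nat_lit 0) (XT.lf (nat_lit 0) (nat_lit 1338947088) (nat_lit 76) (nat_lit 38508015589) (nat_lit 76) (nat_lit 7734281831) (nat_lit 7) (nat_lit 4) (nat_lit 8) (nat_lit 5) (nat_lit 8) (nat_lit 4) (nat_lit 375) (nat_lit 248) (nat_lit 157)) (XT.nd (nat_lit 78)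 (nat_lit 0) (nat_lit 0) (XT.lf (nat_lit 0) (nat_lit 7171209985) (nat_lit 76) (nat_lit 36285041027) (nat_lit 76) (nat_lit 5446022767) (nat_lit 7) (nat_lit 4) (nat_lit 8) (nat_lit 5) (nat_lit 8) (nat_lit 4) (nat_lit 376) (nat_lit 248) (nat_lit 156)) (XT.lf (nat_lit 0) (nat_lit 13158531617) (nat_lit 76) (nat_lit 34003584670) (nat_lit 76) (nat_lit 3101183398) (nat_lit 7) (nat_lit 4) (nat_lit 8) (nat_lit 5) (nat_lit 8) (nat_lit 4) (nat_lit 377) (nat_lit 248) (nat_lit 155))))) (XT.nd (nat_lit 234) (nat_lit 0) (nat_lit 0) (XT.nd (nat_lit 78) (nat_lit 76) (nat_lit 0) (XT.lf (nat_lit 0) (nat_lit 19306143622) (nat_lit 76) (nat_lit 31661653013) (nat_lit 76) (nat_lit 697714836) (nat_lit 7) (nat_lit 4) (nat_lit 8) (nat_lit 5) (nat_lit 8) (nat_lit 4) (nat_lit 378) (nat_lit 248) (nat_lit 154)) (XT.nd (nat_lit 78) (nat_lit 0) (nat_lit 0) (XT.lf (nat_lit 0) (nat_lit 1732012590) (nat_lit 152) (nat_lit 27507697185)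 (nat_lit 76) (nat_lit 23869915180) (nat_lit 6) (nat_lit 5) (nat_lit 8) (nat_lit 5) (nat_lit 7) (nat_lit 4) (nat_lit 379) (nat_lit 248) (nat_lit 153)) (XT.lf (nat_lit 0) (nat_lit 4209780519) (nat_lit 152) (nat_lit 22535832725) (nat_lit 76) (nat_lit 27851579261) (nat_lit 6) (nat_lit 5) (nat_lit 8) (nat_lit 5) (nat_lit 7) (nat_lit 4) (nat_lit 380) (nat_lit 248) (nat_lit 152)))) (XT.nd (nat_lit 78) (nat_lit 0) (nat_lit 0) (XT.lf (nat_lit 0) (nat_lit 6751368917) (nat_lit 152) (nat_lit 17432723262) (nat_lit 76) (nat_lit 31945622965) (nat_lit 6) (nat_lit 5) (nat_lit 8) (nat_lit 5) (nat_lit 7) (nat_lit 4) (nat_lit 381) (nat_lit 248) (nat_lit 151)) (XT.nd (nat_lit 78) (nat_lit 0) (nat_lit 0) (XT.lf (nat_lit 0) (nat_lit 9358998591) (nat_lit 152) (nat_lit 12193909767) (nat_lit 76) (nat_lit 36155623610) (nat_lit 6) (nat_lit 5) (nat_lit 8) (nat_lit 5) (nat_lit 7) (nat_lit 4) (nat_lit 382) (nat_lit 248)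 (nat_lit 150)) (XT.lf (nat_lit 0) (nat_lit 12034948052) (nat_lit 152) (nat_lit 6814814636) (nat_lit 76) (nat_lit 40485259838) (nat_lit 6) (nat_lit 5) (nat_lit 8) (nat_lit 5) (nat_lit 7) (nat_lit 4) (nat_lit 383) (nat_lit 248) (nat_lit 149)))))) (XT.nd (nat_lit 468) (nat_lit 0) (nat_lit 0) (XT.nd (nat_lit 234) (nat_lit 0) (nat_lit 0) (XT.nd (nat_lit 78) (nat_lit 76) (nat_lit 0) (XT.lf (nat_lit 0) (nat_lit 14781555508) (nat_lit 152) (nat_lit 1290737689) (nat_lit 76) (nat_lit 44938314826) (nat_lit 6) (nat_lit 5) (nat_lit 8) (nat_lit 5) (nat_lit 7) (nat_lit 4) (nat_lit 384) (nat_lit 248) (nat_lit 148)) (XT.nd (nat_lit 78) (nat_lit 0) (nat_lit 0) (XT.lf (nat_lit 0) (nat_lit 4470381175) (nat_lit 76) (nat_lit 13173811771) (nat_lit 152) (nat_lit 45091270457) (nat_lit 5) (nat_lit 5) (nat_lit 6) (nat_lit 5) (nat_lit 7) (nat_lit 4) (nat_lit 385) (nat_lit 248) (nat_lit 147)) (XT.lf (nat_lit 0) (nat_lit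 10415034850) (nat_lit 76) (nat_lit 10181488872) (nat_lit 152) (nat_lit 43915437237) (nat_lit 5) (nat_lit 5) (nat_lit 6) (nat_lit 5) (nat_lit 7) (nat_lit 4) (nat_lit 386) (nat_lit 248) (nat_lit 146)))) (XT.nd (nat_lit 78) (nat_lit 0) (nat_lit 0) (XT.lf (nat_lit 0) (nat_lit 16522729482) (nat_lit 76) (nat_lit 7105743770) (nat_lit 152) (nat_lit 42713559348) (nat_lit 5) (nat_lit 5) (nat_lit 6) (nat_lit 5) (nat_lit 7) (nat_lit 4) (nat_lit 387) (nat_lit 248) (nat_lit 145)) (XT.nd (nat_lit 78) (nat_lit 0) (nat_lit 0) (XT.lf (nat_lit 0) (nat_lit 22798801891) (nat_lit 76) (nat_lit 3943888920) (nat_lit 152) (nat_lit 41484586607) (nat_lit 5) (nat_lit 5) (nat_lit 6) (nat_lit 5) (nat_lit 7) (nat_lit 4) (nat_lit 388) (nat_lit 248) (nat_lit 144)) (XT.lf (nat_lit 0) (nat_lit 29248736024) (nat_lit 76) (nat_lit 693161537) (nat_lit 152) (nat_lit 40227445153) (nat_lit 5) (nat_lit 5) (nat_lit 6) (nat_lit 5) (nat_lit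 7) (nat_lit 4) (nat_lit 389) (nat_lit 248) (nat_lit 143))))) (XT.nd (nat_lit 234) (nat_lit 0) (nat_lit 0) (XT.nd (nat_lit 78) (nat_lit 0) (nat_lit 0) (XT.lf (nat_lit 0) (nat_lit 33254355414) (nat_lit 152) (nat_lit 36317224181) (nat_lit 0) (nat_lit 2597581848) (nat_lit 5) (nat_lit 5) (nat_lit 7) (nat_lit 4) (nat_lit 5) (nat_lit 4) (nat_lit 390) (nat_lit 248) (nat_lit 142)) (XT.nd (nat_lit 78) (nat_lit 0) (nat_lit 0) (XT.lf (nat_lit 0) (nat_lit 36665042778) (nat_lit 152) (nat_lit 31596389654) (nat_lit 0) (nat_lit 5967586068) (nat_lit 5) (nat_lit 5) (nat_lit 7) (nat_lit 4) (nat_lit 5) (nat_lit 4) (nat_lit 391) (nat_lit 248) (nat_lit 141)) (XT.lf (nat_lit 0) (nat_lit 40170276772) (nat_lit 152) (nat_lit 26747315016) (nat_lit 0) (nat_lit 9433321864) (nat_lit 5) (nat_lit 5) (nat_lit 7) (nat_lit 4) (nat_lit 5) (nat_lit 4) (nat_lit 392) (nat_lit 248) (nat_lit 140)))) (XT.nd (nat_lit 78) (nat_lit 0)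 (nat_lit 0) (XT.lf (nat_lit 0) (nat_lit 43773120222) (nat_lit 152) (nat_lit 21765763210) (nat_lit 0) (nat_lit 12997817549) (nat_lit 5) (nat_lit 5) (nat_lit 7) (nat_lit 4) (nat_lit 5) (nat_lit 4) (nat_lit 393) (nat_lit 248) (nat_lit 139)) (XT.nd (nat_lit 78) (nat_lit 0) (nat_lit 0) (XT.lf (nat_lit 0) (nat_lit 47476721243) (nat_lit 152) (nat_lit 16647381425) (nat_lit 0) (nat_lit 16664187731) (nat_lit 5) (nat_lit 5) (nat_lit 7) (nat_lit 4) (nat_lit 5) (nat_lit 4) (nat_lit 394) (nat_lit 248) (nat_lit 138)) (XT.lf (nat_lit 0) (nat_lit 51284315993) (nat_lit 152) (nat_lit 11387697289) (nat_lit 0) (nat_lit 20435636035) (nat_lit 5) (nat_lit 5) (nat_lit 7) (nat_lit 4) (nat_lit 5) (nat_lit 4) (nat_lit 395) (nat_lit 248) (nat_lit 137))))))))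
noncomputable def xc80 : XT := (XT.nd (nat_lit 33228) (nat_lit 0) (nat_lit 2660) (XT.nd (nat_lit 32370) (nat_lit 0) (nat_lit 6080) (XT.nd (nat_lit 31902) (nat_lit 0) (nat_lit 8968) (XT.nd (nat_lit 156) (nat_lit 76) (nat_lit 0) (XT.nd (nat_lit 78) (nat_lit 0) (nat_lit 0) (XT.lf (nat_lit 0) (nat_lit 55199231495) (nat_lit 152) (nat_lit 5982114960) (nat_lit 0) (nat_lit 24315457900) (nat_lit 5) (nat_lit 5) (nat_lit 7) (nat_lit 4) (nat_lit 5) (nat_lit 4) (nat_lit 396) (nat_lit 248) (nat_lit 136)) (XT.lf (nat_lit 0) (nat_lit 59224888549) (nat_lit 152) (nat_lit 425911115) (nat_lit 0) (nat_lit 28307043462) (nat_lit 5) (nat_lit 5) (nat_lit 7) (nat_lit 4) (nat_lit 5) (nat_lit 4) (nat_lit 397) (nat_lit 248) (nat_lit 135))) (XT.nd (nat_lit 31590) (nat_lit 0) (nat_lit 12692) (XT.lf (nat_lit 0) (nat_lit 5390966352) (nat_lit 76) (nat_lit 58025659635) (nat_lit 76) (nat_lit 27074735429) (nat_lit 4) (nat_lit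 4) (nat_lit 5) (nat_lit 5) (nat_lit 5) (nat_lit 4) (nat_lit 398) (nat_lit 248) (nat_lit 134)) (XT.nd (nat_lit 78) (nat_lit 0) (nat_lit 0) (XT.lf (nat_lit 0) (nat_lit 441132531) (nat_lit 836) (nat_lit 1538405246) (nat_lit 836) (nat_lit 1538405246) (nat_lit 171) (nat_lit 4) (nat_lit 182) (nat_lit 5) (nat_lit 182) (nat_lit 4) (nat_lit 282) (nat_lit 249) (nat_lit 249)) (XT.lf (nat_lit 0) (nat_lit 4984648896) (nat_lit 836) (nat_lit 1873158576) (nat_lit 836) (nat_lit 236087291) (nat_lit 171) (nat_lit 4) (nat_lit 182) (nat_lit 5) (nat_lit 182) (nat_lit 4) (nat_lit 283) (nat_lit 249) (nat_lit 248))))) (XT.nd (nat_lit 234) (nat_lit 1672) (nat_lit 0) (XT.nd (nat_lit 78) (nat_lit 1064) (nat_lit 0) (XT.lf (nat_lit 0) (nat_lit 1988552061) (nat_lit 912) (nat_lit 580419831) (nat_lit 988) (nat_lit 4586306057) (nat_lit 158) (nat_lit 5) (nat_lit 170) (nat_lit 5) (nat_lit 171) (nat_lit 4) (nat_lit 284) (nat_lit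 249) (nat_lit 247)) (XT.nd (nat_lit 78) (nat_lit 1064) (nat_lit 0) (XT.lf (nat_lit 0) (nat_lit 5396489608) (nat_lit 988) (nat_lit 1058147729) (nat_lit 0) (nat_lit 765851184) (nat_lit 158) (nat_lit 5) (nat_lit 171) (nat_lit 4) (nat_lit 158) (nat_lit 4) (nat_lit 285) (nat_lit 249) (nat_lit 246)) (XT.lf (nat_lit 0) (nat_lit 953284505) (nat_lit 1064) (nat_lit 4149987510) (nat_lit 76) (nat_lit 2185855510) (nat_lit 144) (nat_lit 5) (nat_lit 158) (nat_lit 5) (nat_lit 145) (nat_lit 4) (nat_lit 286) (nat_lit 249) (nat_lit 245)))) (XT.nd (nat_lit 78) (nat_lit 608) (nat_lit 0) (XT.lf (nat_lit 0) (nat_lit 25064949) (nat_lit 1064) (nat_lit 3680537058) (nat_lit 1140) (nat_lit 3656148704) (nat_lit 130) (nat_lit 5) (nat_lit 144) (nat_lit 5) (nat_lit 145) (nat_lit 4) (nat_lit 287) (nat_lit 249) (nat_lit 244)) (XT.nd (nat_lit 78) (nat_lit 608) (nat_lit 0) (XT.lf (nat_lit 0) (nat_lit 4329450324) (nat_lit 1064)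 (nat_lit 2171918581) (nat_lit 1140) (nat_lit 936666103) (nat_lit 130) (nat_lit 5) (nat_lit 144) (nat_lit 5) (nat_lit 145) (nat_lit 4) (nat_lit 288) (nat_lit 249) (nat_lit 243)) (XT.lf (nat_lit 0) (nat_lit 1170775219) (nat_lit 532) (nat_lit 588759076) (nat_lit 608) (nat_lit 5758881538) (nat_lit 122) (nat_lit 5) (nat_lit 129) (nat_lit 5) (nat_lit 130) (nat_lit 5) (nat_lit 289) (nat_lit 249) (nat_lit 242)))))) (XT.nd (nat_lit 390) (nat_lit 1368) (nat_lit 0) (XT.nd (nat_lit 156) (nat_lit 1064) (nat_lit 0) (XT.nd (nat_lit 78) (nat_lit 456) (nat_lit 0) (XT.lf (nat_lit 0) (nat_lit 4481313124) (nat_lit 608) (nat_lit 2059960093) (nat_lit 76) (nat_lit 1061033700) (nat_lit 122) (nat_lit 5) (nat_lit 130) (nat_lit 5) (nat_lit 123) (nat_lit 4) (nat_lit 290) (nat_lit 249) (nat_lit 241)) (XT.lf (nat_lit 0) (nat_lit 2315776179) (nat_lit 456) (nat_lit 4921138449) (nat_lit 532) (nat_lit 453509402) (nat_lit 116)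 (nat_lit 5) (nat_lit 122) (nat_lit 5) (nat_lit 123) (nat_lit 4) (nat_lit 291) (nat_lit 249) (nat_lit 240))) (XT.nd (nat_lit 78) (nat_lit 988) (nat_lit 0) (XT.lf (nat_lit 0) (nat_lit 2194774116) (nat_lit 532) (nat_lit 1018717620) (nat_lit 76) (nat_lit 4568923844) (nat_lit 115) (nat_lit 5) (nat_lit 122) (nat_lit 5) (nat_lit 116) (nat_lit 5) (nat_lit 292) (nat_lit 249) (nat_lit 239)) (XT.nd (nat_lit 78) (nat_lit 456) (nat_lit 0) (XT.lf (nat_lit 0) (nat_lit 3452210603) (nat_lit 532) (nat_lit 1421094600) (nat_lit 608) (nat_lit 3005180635) (nat_lit 108) (nat_lit 5) (nat_lit 115) (nat_lit 5) (nat_lit 116) (nat_lit 5) (nat_lit 293) (nat_lit 249) (nat_lit 238)) (XT.lf (nat_lit 0) (nat_lit 17036071) (nat_lit 456) (nat_lit 7557853949) (nat_lit 532) (nat_lit 404511029) (nat_lit 102) (nat_lit 5) (nat_lit 108) (nat_lit 5) (nat_lit 109) (nat_lit 4) (nat_lit 294) (nat_lit 249) (nat_lit 237))))) (XT.nd (nat_lit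 234) (nat_lit 836) (nat_lit 0) (XT.nd (nat_lit 78) (nat_lit 456) (nat_lit 0) (XT.lf (nat_lit 0) (nat_lit 2217471314) (nat_lit 532) (nat_lit 3514991596) (nat_lit 76) (nat_lit 2350824667) (nat_lit 101) (nat_lit 5) (nat_lit 108) (nat_lit 5) (nat_lit 102) (nat_lit 5) (nat_lit 295) (nat_lit 249) (nat_lit 236)) (XT.nd (nat_lit 78) (nat_lit 0) (nat_lit 0) (XT.lf (nat_lit 0) (nat_lit 1002727651) (nat_lit 456) (nat_lit 3847438292) (nat_lit 532) (nat_lit 3342022206) (nat_lit 95) (nat_lit 5) (nat_lit 101) (nat_lit 5) (nat_lit 102) (nat_lit 5) (nat_lit 296) (nat_lit 249) (nat_lit 235)) (XT.lf (nat_lit 0) (nat_lit 5650166205) (nat_lit 456) (nat_lit 1878988468) (nat_lit 532) (nat_lit 776398261) (nat_lit 95) (nat_lit 5) (nat_lit 101) (nat_lit 5) (nat_lit 102) (nat_lit 5) (nat_lit 297) (nat_lit 249) (nat_lit 234)))) (XT.nd (nat_lit 78) (nat_lit 380) (nat_lit 0) (XT.lf (nat_lit 0) (nat_lit 1783235850) (nat_lit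 456) (nat_lit 6467288657) (nat_lit 76) (nat_lit 172856420) (nat_lit 89) (nat_lit 5) (nat_lit 95) (nat_lit 5) (nat_lit 90) (nat_lit 5) (nat_lit 298) (nat_lit 249) (nat_lit 233)) (XT.nd (nat_lit 78) (nat_lit 380) (nat_lit 0) (XT.lf (nat_lit 0) (nat_lit 4383798257) (nat_lit 456) (nat_lit 1888600017) (nat_lit 76) (nat_lit 2272920763) (nat_lit 89) (nat_lit 5) (nat_lit 95) (nat_lit 5) (nat_lit 90) (nat_lit 5) (nat_lit 299) (nat_lit 249) (nat_lit 232)) (XT.lf (nat_lit 0) (nat_lit 2806037505) (nat_lit 380) (nat_lit 4219294520) (nat_lit 456) (nat_lit 1646887073) (nat_lit 84) (nat_lit 5) (nat_lit 89) (nat_lit 5) (nat_lit 90) (nat_lit 5) (nat_lit 300) (nat_lit 249) (nat_lit 231))))))) (XT.nd (nat_lit 858) (nat_lit 1520) (nat_lit 0) (XT.nd (nat_lit 390) (nat_lit 988) (nat_lit 0) (XT.nd (nat_lit 156) (nat_lit 456) (nat_lit 0) (XT.nd (nat_lit 78) (nat_lit 380) (nat_lit 0) (XT.lf (nat_lit 0) (nat_lit 880355695)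 (nat_lit 456) (nat_lit 1208250508) (nat_lit 76) (nat_lit 6715562109) (nat_lit 83) (nat_lit 5) (nat_lit 89) (nat_lit 5) (nat_lit 84) (nat_lit 5) (nat_lit 301) (nat_lit 249) (nat_lit 230)) (XT.lf (nat_lit 0) (nat_lit 3424180659) (nat_lit 456) (nat_lit 5373877339) (nat_lit 76) (nat_lit 142488968) (nat_lit 78) (nat_lit 5) (nat_lit 84) (nat_lit 5) (nat_lit 79) (nat_lit 5) (nat_lit 302) (nat_lit 249) (nat_lit 229))) (XT.nd (nat_lit 78) (nat_lit 456) (nat_lit 0) (XT.lf (nat_lit 0) (nat_lit 6016455339) (nat_lit 456) (nat_lit 667611558) (nat_lit 76) (nat_lit 2397957018) (nat_lit 78) (nat_lit 5) (nat_lit 84) (nat_lit 5) (nat_lit 79) (nat_lit 5) (nat_lit 303) (nat_lit 249) (nat_lit 228)) (XT.nd (nat_lit 78) (nat_lit 76) (nat_lit 0) (XT.lf (nat_lit 0) (nat_lit 4188006200) (nat_lit 380) (nat_lit 4479656469) (nat_lit 456) (nat_lit 560813573) (nat_lit 73) (nat_lit 5) (nat_lit 78) (nat_lit 5) (nat_lit 79)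 (nat_lit 5) (nat_lit 304) (nat_lit 249) (nat_lit 227)) (XT.lf (nat_lit 0) (nat_lit 1927687530) (nat_lit 456) (nat_lit 269782163) (nat_lit 76) (nat_lit 7182986564) (nat_lit 72) (nat_lit 5) (nat_lit 78) (nat_lit 5) (nat_lit 73) (nat_lit 5) (nat_lit 305) (nat_lit 249) (nat_lit 226))))) (XT.nd (nat_lit 234) (nat_lit 380) (nat_lit 0) (XT.nd (nat_lit 78) (nat_lit 304) (nat_lit 0) (XT.lf (nat_lit 0) (nat_lit 4469076066) (nat_lit 380) (nat_lit 4881827244) (nat_lit 76) (nat_lit 186392576) (nat_lit 68) (nat_lit 5) (nat_lit 73) (nat_lit 5) (nat_lit 69) (nat_lit 5) (nat_lit 306) (nat_lit 249) (nat_lit 225)) (XT.nd (nat_lit 78) (nat_lit 304) (nat_lit 0) (XT.lf (nat_lit 0) (nat_lit 7054953707) (nat_lit 380) (nat_lit 59519477) (nat_lit 76) (nat_lit 2585467587) (nat_lit 68) (nat_lit 5) (nat_lit 73) (nat_lit 5) (nat_lit 69) (nat_lit 5) (nat_lit 307) (nat_lit 249) (nat_lit 224)) (XT.lf (nat_lit 0) (nat_lit 4932857428)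 (nat_lit 304) (nat_lit 4778345637) (nat_lit 380) (nat_lit 156621270) (nat_lit 64) (nat_lit 5) (nat_lit 68) (nat_lit 5) (nat_lit 69) (nat_lit 5) (nat_lit 308) (nat_lit 249) (nat_lit 223)))) (XT.nd (nat_lit 78) (nat_lit 304) (nat_lit 0) (XT.lf (nat_lit 0) (nat_lit 2305671218) (nat_lit 380) (nat_lit 59018684) (nat_lit 76) (nat_lit 7677108533) (nat_lit 63) (nat_lit 5) (nat_lit 68) (nat_lit 5) (nat_lit 64) (nat_lit 5) (nat_lit 309) (nat_lit 249) (nat_lit 222)) (XT.nd (nat_lit 78) (nat_lit 0) (nat_lit 0) (XT.lf (nat_lit 0) (nat_lit 4835356976) (nat_lit 380) (nat_lit 5232995870) (nat_lit 76) (nat_lit 152823260) (nat_lit 59) (nat_lit 5) (nat_lit 64) (nat_lit 5) (nat_lit 60) (nat_lit 5) (nat_lit 310) (nat_lit 249) (nat_lit 221)) (XT.lf (nat_lit 0) (nat_lit 7412875156) (nat_lit 380) (nat_lit 311476797) (nat_lit 76) (nat_lit 2682552126) (nat_lit 59) (nat_lit 5) (nat_lit 64) (nat_lit 5) (nat_lit 60) (nat_lit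 5) (nat_lit 311) (nat_lit 249) (nat_lit 220)))))) (XT.nd (nat_lit 390) (nat_lit 608) (nat_lit 0) (XT.nd (nat_lit 156) (nat_lit 532) (nat_lit 0) (XT.nd (nat_lit 78) (nat_lit 76) (nat_lit 0) (XT.lf (nat_lit 0) (nat_lit 4782917020) (nat_lit 304) (nat_lit 5280222071) (nat_lit 380) (nat_lit 535325715) (nat_lit 55) (nat_lit 5) (nat_lit 59) (nat_lit 5) (nat_lit 60) (nat_lit 5) (nat_lit 312) (nat_lit 249) (nat_lit 219)) (XT.lf (nat_lit 0) (nat_lit 1911001858) (nat_lit 380) (nat_lit 846932656) (nat_lit 76) (nat_lit 8038793300) (nat_lit 54) (nat_lit 5) (nat_lit 59) (nat_lit 5) (nat_lit 55) (nat_lit 5) (nat_lit 313) (nat_lit 249) (nat_lit 218))) (XT.nd (nat_lit 78) (nat_lit 304) (nat_lit 0) (XT.lf (nat_lit 0) (nat_lit 4282449975) (nat_lit 228) (nat_lit 129799751) (nat_lit 304) (nat_lit 6588874318) (nat_lit 51) (nat_lit 5) (nat_lit 54) (nat_lit 5) (nat_lit 55) (nat_lit 5) (nat_lit 314) (nat_lit 249) (nat_lit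 217)) (XT.nd (nat_lit 78) (nat_lit 304) (nat_lit 0) (XT.lf (nat_lit 0) (nat_lit 6973688709) (nat_lit 304) (nat_lit 1720463545) (nat_lit 76) (nat_lit 2518055044) (nat_lit 51) (nat_lit 5) (nat_lit 55) (nat_lit 5) (nat_lit 52) (nat_lit 5) (nat_lit 315) (nat_lit 249) (nat_lit 216)) (XT.lf (nat_lit 0) (nat_lit 3427974816) (nat_lit 304) (nat_lit 6171381738) (nat_lit 380) (nat_lit 1830751476) (nat_lit 47) (nat_lit 5) (nat_lit 51) (nat_lit 5) (nat_lit 52) (nat_lit 5) (nat_lit 316) (nat_lit 249) (nat_lit 215))))) (XT.nd (nat_lit 234) (nat_lit 304) (nat_lit 0) (XT.nd (nat_lit 78) (nat_lit 228) (nat_lit 0) (XT.lf (nat_lit 0) (nat_lit 607458409) (nat_lit 380) (nat_lit 2960017635) (nat_lit 76) (nat_lit 8087856576) (nat_lit 46) (nat_lit 5) (nat_lit 51) (nat_lit 5) (nat_lit 47) (nat_lit 5) (nat_lit 317) (nat_lit 249) (nat_lit 214)) (XT.nd (nat_lit 78) (nat_lit 0) (nat_lit 0) (XT.lf (nat_lit 0) (nat_lit 2194252731)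 (nat_lit 228) (nat_lit 863550899) (nat_lit 304) (nat_lit 8829790478) (nat_lit 43) (nat_lit 5) (nat_lit 46) (nat_lit 5) (nat_lit 47) (nat_lit 5) (nat_lit 318) (nat_lit 249) (nat_lit 213)) (XT.lf (nat_lit 0) (nat_lit 5585542667) (nat_lit 304) (nat_lit 4645293184) (nat_lit 76) (nat_lit 1895965755) (nat_lit 43) (nat_lit 5) (nat_lit 47) (nat_lit 5) (nat_lit 44) (nat_lit 5) (nat_lit 319) (nat_lit 249) (nat_lit 212)))) (XT.nd (nat_lit 78) (nat_lit 76) (nat_lit 0) (XT.lf (nat_lit 0) (nat_lit 492708910) (nat_lit 228) (nat_lit 7666221854) (nat_lit 304) (nat_lit 4215251969) (nat_lit 40) (nat_lit 5) (nat_lit 43) (nat_lit 5) (nat_lit 44) (nat_lit 5) (nat_lit 320) (nat_lit 249) (nat_lit 211)) (XT.nd (nat_lit 78) (nat_lit 76) (nat_lit 0) (XT.lf (nat_lit 0) (nat_lit 5818136221) (nat_lit 228) (nat_lit 4995494004) (nat_lit 304) (nat_lit 1815321013) (nat_lit 40) (nat_lit 5) (nat_lit 43) (nat_lit 5) (nat_lit 44)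 (nat_lit 5) (nat_lit 321) (nat_lit 249) (nat_lit 210)) (XT.lf (nat_lit 0) (nat_lit 601746664) (nat_lit 304) (nat_lit 1655403883) (nat_lit 76) (nat_lit 10635368464) (nat_lit 39) (nat_lit 5) (nat_lit 43) (nat_lit 5) (nat_lit 40) (nat_lit 5) (nat_lit 322) (nat_lit 249) (nat_lit 209))))))))
noncomputable def xc81 : XT := (XT.nd (nat_lit 1716) (nat_lit 608) (nat_lit 0) (XT.nd (nat_lit 858) (nat_lit 760) (nat_lit 0) (XT.nd (nat_lit 390) (nat_lit 456) (nat_lit 0) (XT.nd (nat_lit 156) (nat_lit 228) (nat_lit 0) (XT.nd (nat_lit 78) (nat_lit 0) (nat_lit 0) (XT.lf (nat_lit 0) (nat_lit 3054852259) (nat_lit 304) (nat_lit 9520855465) (nat_lit 76) (nat_lit 587828188) (nat_lit 36) (nat_lit 5) (nat_lit 40) (nat_lit 5) (nat_lit 37) (nat_lit 5) (nat_lit 323) (nat_lit 249) (nat_lit 208)) (XT.lf (nat_lit 0) (nat_lit 5580404186) (nat_lit 304) (nat_lit 4390857589) (nat_lit 76) (nat_lit 3471535236) (nat_lit 36) (nat_lit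 5) (nat_lit 40) (nat_lit 5) (nat_lit 37) (nat_lit 5) (nat_lit 324) (nat_lit 249) (nat_lit 207))) (XT.nd (nat_lit 78) (nat_lit 0) (nat_lit 0) (XT.lf (nat_lit 0) (nat_lit 851596097) (nat_lit 228) (nat_lit 7299111953) (nat_lit 304) (nat_lit 5580735304) (nat_lit 33) (nat_lit 5) (nat_lit 36) (nat_lit 5) (nat_lit 37) (nat_lit 5) (nat_lit 325) (nat_lit 249) (nat_lit 206)) (XT.nd (nat_lit 78) (nat_lit 0) (nat_lit 0) (XT.lf (nat_lit 0) (nat_lit 6283839069) (nat_lit 228) (nat_lit 4520009443) (nat_lit 304) (nat_lit 3224803482) (nat_lit 33) (nat_lit 5) (nat_lit 36) (nat_lit 5) (nat_lit 37) (nat_lit 5) (nat_lit 326) (nat_lit 249) (nat_lit 205)) (XT.lf (nat_lit 0) (nat_lit 11823231272) (nat_lit 228) (nat_lit 1675864956) (nat_lit 304) (nat_lit 836877832) (nat_lit 33) (nat_lit 5) (nat_lit 36) (nat_lit 5) (nat_lit 37) (nat_lit 5) (nat_lit 327) (nat_lit 249) (nat_lit 204))))) (XT.nd (nat_lit 234) (nat_lit 228)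 (nat_lit 0) (XT.nd (nat_lit 78) (nat_lit 0) (nat_lit 0) (XT.lf (nat_lit 0) (nat_lit 1594006003) (nat_lit 228) (nat_lit 11803161769) (nat_lit 76) (nat_lit 1254858913) (nat_lit 30) (nat_lit 5) (nat_lit 33) (nat_lit 5) (nat_lit 31) (nat_lit 5) (nat_lit 328) (nat_lit 249) (nat_lit 203)) (XT.nd (nat_lit 78) (nat_lit 0) (nat_lit 0) (XT.lf (nat_lit 0) (nat_lit 4086763499) (nat_lit 228) (nat_lit 6634534247) (nat_lit 76) (nat_lit 4255907936) (nat_lit 30) (nat_lit 5) (nat_lit 33) (nat_lit 5) (nat_lit 31) (nat_lit 5) (nat_lit 329) (nat_lit 249) (nat_lit 202)) (XT.lf (nat_lit 0) (nat_lit 6618915216) (nat_lit 228) (nat_lit 1364667629) (nat_lit 76) (nat_lit 7329683324) (nat_lit 30) (nat_lit 5) (nat_lit 33) (nat_lit 5) (nat_lit 31) (nat_lit 5) (nat_lit 330) (nat_lit 249) (nat_lit 201)))) (XT.nd (nat_lit 78) (nat_lit 0) (nat_lit 0) (XT.lf (nat_lit 0) (nat_lit 4090870439) (nat_lit 228) (nat_lit 5141127221)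 (nat_lit 304) (nat_lit 6427324413) (nat_lit 27) (nat_lit 5) (nat_lit 30) (nat_lit 5) (nat_lit 31) (nat_lit 5) (nat_lit 331) (nat_lit 249) (nat_lit 200)) (XT.nd (nat_lit 78) (nat_lit 0) (nat_lit 0) (XT.lf (nat_lit 0) (nat_lit 9686309109) (nat_lit 228) (nat_lit 2217089520) (nat_lit 304) (nat_lit 4113024007) (nat_lit 27) (nat_lit 5) (nat_lit 30) (nat_lit 5) (nat_lit 31) (nat_lit 5) (nat_lit 332) (nat_lit 249) (nat_lit 199)) (XT.lf (nat_lit 0) (nat_lit 14629545193) (nat_lit 304) (nat_lit 993375153) (nat_lit 76) (nat_lit 762136759) (nat_lit 27) (nat_lit 5) (nat_lit 31) (nat_lit 5) (nat_lit 28) (nat_lit 4) (nat_lit 333) (nat_lit 249) (nat_lit 198)))))) (XT.nd (nat_lit 390) (nat_lit 380) (nat_lit 0) (XT.nd (nat_lit 156) (nat_lit 152) (nat_lit 0) (XT.nd (nat_lit 78) (nat_lit 0) (nat_lit 0) (XT.lf (nat_lit 0) (nat_lit 693200279) (nat_lit 228) (nat_lit 12250509151) (nat_lit 76) (nat_lit 3819894724) (nat_lit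 24) (nat_lit 5) (nat_lit 27) (nat_lit 5) (nat_lit 25) (nat_lit 5) (nat_lit 334) (nat_lit 249) (nat_lit 197)) (XT.lf (nat_lit 0) (nat_lit 3158241492) (nat_lit 228) (nat_lit 7015391115) (nat_lit 76) (nat_lit 6980063006) (nat_lit 24) (nat_lit 5) (nat_lit 27) (nat_lit 5) (nat_lit 25) (nat_lit 5) (nat_lit 335) (nat_lit 249) (nat_lit 196))) (XT.nd (nat_lit 78) (nat_lit 152) (nat_lit 0) (XT.lf (nat_lit 0) (nat_lit 5666186609) (nat_lit 228) (nat_lit 1671594579) (nat_lit 76) (nat_lit 10218692463) (nat_lit 24) (nat_lit 5) (nat_lit 27) (nat_lit 5) (nat_lit 25) (nat_lit 5) (nat_lit 336) (nat_lit 249) (nat_lit 195)) (XT.nd (nat_lit 78) (nat_lit 0) (nat_lit 0) (XT.lf (nat_lit 0) (nat_lit 3860889658) (nat_lit 152) (nat_lit 4395450613) (nat_lit 228) (nat_lit 9714836542) (nat_lit 22) (nat_lit 5) (nat_lit 24) (nat_lit 5) (nat_lit 25) (nat_lit 5) (nat_lit 337) (nat_lit 249) (nat_lit 194)) (XT.lf (nat_lit 0) (nat_lit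 9547108865) (nat_lit 152) (nat_lit 1364257377) (nat_lit 228) (nat_lit 7487389204) (nat_lit 22) (nat_lit 5) (nat_lit 24) (nat_lit 5) (nat_lit 25) (nat_lit 5) (nat_lit 338) (nat_lit 249) (nat_lit 193))))) (XT.nd (nat_lit 234) (nat_lit 228) (nat_lit 0) (XT.nd (nat_lit 78) (nat_lit 152) (nat_lit 0) (XT.lf (nat_lit 0) (nat_lit 13633937276) (nat_lit 228) (nat_lit 3498052245) (nat_lit 76) (nat_lit 1707583056) (nat_lit 22) (nat_lit 5) (nat_lit 25) (nat_lit 5) (nat_lit 23) (nat_lit 4) (nat_lit 339) (nat_lit 249) (nat_lit 192)) (XT.nd (nat_lit 78) (nat_lit 0) (nat_lit 0) (XT.lf (nat_lit 0) (nat_lit 1997041291) (nat_lit 152) (nat_lit 14445689738) (nat_lit 228) (nat_lit 2850793398) (nat_lit 20) (nat_lit 5) (nat_lit 22) (nat_lit 5) (nat_lit 23) (nat_lit 4) (nat_lit 340) (nat_lit 249) (nat_lit 191)) (XT.lf (nat_lit 0) (nat_lit 7684560643) (nat_lit 152) (nat_lit 11658788642) (nat_lit 228) (nat_lit 417563938)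 (nat_lit 20) (nat_lit 5) (nat_lit 22) (nat_lit 5) (nat_lit 23) (nat_lit 4) (nat_lit 341) (nat_lit 249) (nat_lit 190)))) (XT.nd (nat_lit 78) (nat_lit 152) (nat_lit 0) (XT.lf (nat_lit 0) (nat_lit 2020641011) (nat_lit 228) (nat_lit 6763129025) (nat_lit 76) (nat_lit 11458811864) (nat_lit 19) (nat_lit 5) (nat_lit 22) (nat_lit 5) (nat_lit 20) (nat_lit 5) (nat_lit 342) (nat_lit 249) (nat_lit 189)) (XT.nd (nat_lit 78) (nat_lit 152) (nat_lit 0) (XT.lf (nat_lit 0) (nat_lit 4497129522) (nat_lit 228) (nat_lit 1336811422) (nat_lit 76) (nat_lit 14905471142) (nat_lit 19) (nat_lit 5) (nat_lit 22) (nat_lit 5) (nat_lit 20) (nat_lit 5) (nat_lit 343) (nat_lit 249) (nat_lit 188)) (XT.lf (nat_lit 0) (nat_lit 4295169783) (nat_lit 152) (nat_lit 2768331706) (nat_lit 228) (nat_lit 14187218195) (nat_lit 17) (nat_lit 5) (nat_lit 19) (nat_lit 5) (nat_lit 20) (nat_lit 5) (nat_lit 344) (nat_lit 249) (nat_lit 187))))))) (XT.nd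 (nat_lit 858) (nat_lit 304) (nat_lit 0) (XT.nd (nat_lit 390) (nat_lit 228) (nat_lit 0) (XT.nd (nat_lit 156) (nat_lit 76) (nat_lit 0) (XT.nd (nat_lit 78) (nat_lit 0) (nat_lit 0) (XT.lf (nat_lit 0) (nat_lit 9698752851) (nat_lit 228) (nat_lit 11698515004) (nat_lit 76) (nat_lit 380381011) (nat_lit 17) (nat_lit 5) (nat_lit 20) (nat_lit 5) (nat_lit 18) (nat_lit 4) (nat_lit 345) (nat_lit 249) (nat_lit 186)) (XT.lf (nat_lit 0) (nat_lit 12415727031) (nat_lit 228) (nat_lit 6351170415) (nat_lit 76) (nat_lit 3553446385) (nat_lit 17) (nat_lit 5) (nat_lit 20) (nat_lit 5) (nat_lit 18) (nat_lit 4) (nat_lit 346) (nat_lit 249) (nat_lit 185))) (XT.nd (nat_lit 78) (nat_lit 76) (nat_lit 0) (XT.lf (nat_lit 0) (nat_lit 15190187188) (nat_lit 228) (nat_lit 882232797) (nat_lit 76) (nat_lit 6807657121) (nat_lit 17) (nat_lit 5) (nat_lit 20) (nat_lit 5) (nat_lit 18) (nat_lit 4) (nat_lit 347) (nat_lit 249) (nat_lit 184))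 (XT.nd (nat_lit 78) (nat_lit 0) (nat_lit 0) (XT.lf (nat_lit 0) (nat_lit 4806875994) (nat_lit 76) (nat_lit 13263888245) (nat_lit 152) (nat_lit 5385187340) (nat_lit 16) (nat_lit 5) (nat_lit 17) (nat_lit 5) (nat_lit 18) (nat_lit 4) (nat_lit 348) (nat_lit 249) (nat_lit 183)) (XT.lf (nat_lit 0) (nat_lit 10647416113) (nat_lit 76) (nat_lit 10376248286) (nat_lit 152) (nat_lit 3025895366) (nat_lit 16) (nat_lit 5) (nat_lit 17) (nat_lit 5) (nat_lit 18) (nat_lit 4) (nat_lit 349) (nat_lit 249) (nat_lit 182))))) (XT.nd (nat_lit 234) (nat_lit 0) (nat_lit 0) (XT.nd (nat_lit 78) (nat_lit 228) (nat_lit 0) (XT.lf (nat_lit 0) (nat_lit 16626932781) (nat_lit 76) (nat_lit 7415885750) (nat_lit 152) (nat_lit 618861301) (nat_lit 16) (nat_lit 5) (nat_lit 17) (nat_lit 5) (nat_lit 18) (nat_lit 4) (nat_lit 350) (nat_lit 249) (nat_lit 181)) (XT.nd (nat_lit 78) (nat_lit 152) (nat_lit 0) (XT.lf (nat_lit 0) (nat_lit 1802151735)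 (nat_lit 152) (nat_lit 2559863978) (nat_lit 76) (nat_lit 20930300883) (nat_lit 15) (nat_lit 5) (nat_lit 17) (nat_lit 5) (nat_lit 16) (nat_lit 5) (nat_lit 351) (nat_lit 249) (nat_lit 180)) (XT.lf (nat_lit 0) (nat_lit 3098996977) (nat_lit 152) (nat_lit 1192858595) (nat_lit 228) (nat_lit 21649608893) (nat_lit 13) (nat_lit 5) (nat_lit 15) (nat_lit 5) (nat_lit 16) (nat_lit 5) (nat_lit 352) (nat_lit 249) (nat_lit 179)))) (XT.nd (nat_lit 78) (nat_lit 0) (nat_lit 0) (XT.lf (nat_lit 0) (nat_lit 6881139872) (nat_lit 228) (nat_lit 17684186858) (nat_lit 76) (nat_lit 2044043251) (nat_lit 13) (nat_lit 5) (nat_lit 16) (nat_lit 5) (nat_lit 14) (nat_lit 4) (nat_lit 353) (nat_lit 249) (nat_lit 178)) (XT.nd (nat_lit 78) (nat_lit 0) (nat_lit 0) (XT.lf (nat_lit 0) (nat_lit 9539401041) (nat_lit 228) (nat_lit 12416761297) (nat_lit 76) (nat_lit 5341440395) (nat_lit 13) (nat_lit 5) (nat_lit 16) (nat_lit 5) (nat_lit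 14) (nat_lit 4) (nat_lit 354) (nat_lit 249) (nat_lit 177)) (XT.lf (nat_lit 0) (nat_lit 12257495348) (nat_lit 228) (nat_lit 7024121713) (nat_lit 76) (nat_lit 8725491025) (nat_lit 13) (nat_lit 5) (nat_lit 16) (nat_lit 5) (nat_lit 14) (nat_lit 4) (nat_lit 355) (nat_lit 249) (nat_lit 176)))))) (XT.nd (nat_lit 390) (nat_lit 228) (nat_lit 0) (XT.nd (nat_lit 156) (nat_lit 0) (nat_lit 0) (XT.nd (nat_lit 78) (nat_lit 76) (nat_lit 0) (XT.lf (nat_lit 0) (nat_lit 15037797824) (nat_lit 228) (nat_lit 1501556091) (nat_lit 76) (nat_lit 12199152079) (nat_lit 13) (nat_lit 5) (nat_lit 16) (nat_lit 5) (nat_lit 14) (nat_lit 4) (nat_lit 356) (nat_lit 249) (nat_lit 175)) (XT.lf (nat_lit 0) (nat_lit 4238468905) (nat_lit 76) (nat_lit 13685011712) (nat_lit 152) (nat_lit 11567732643) (nat_lit 12) (nat_lit 5) (nat_lit 13) (nat_lit 5) (nat_lit 14) (nat_lit 4) (nat_lit 357) (nat_lit 249) (nat_lit 174))) (XT.nd (nat_lit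 78) (nat_lit 0) (nat_lit 0) (XT.lf (nat_lit 0) (nat_lit 10150852882) (nat_lit 76) (nat_lit 10741524654) (nat_lit 152) (nat_lit 9374250684) (nat_lit 12) (nat_lit 5) (nat_lit 13) (nat_lit 5) (nat_lit 14) (nat_lit 4) (nat_lit 358) (nat_lit 249) (nat_lit 173)) (XT.nd (nat_lit 78) (nat_lit 0) (nat_lit 0) (XT.lf (nat_lit 0) (nat_lit 16210878090) (nat_lit 76) (nat_lit 7721483537) (nat_lit 152) (nat_lit 7133508429) (nat_lit 12) (nat_lit 5) (nat_lit 13) (nat_lit 5) (nat_lit 14) (nat_lit 4) (nat_lit 359) (nat_lit 249) (nat_lit 172)) (XT.lf (nat_lit 0) (nat_lit 22423839695) (nat_lit 76) (nat_lit 4622249489) (nat_lit 152) (nat_lit 4843547950) (nat_lit 12) (nat_lit 5) (nat_lit 13) (nat_lit 5) (nat_lit 14) (nat_lit 4) (nat_lit 360) (nat_lit 249) (nat_lit 171))))) (XT.nd (nat_lit 234) (nat_lit 0) (nat_lit 0) (XT.nd (nat_lit 78) (nat_lit 228) (nat_lit 0) (XT.lf (nat_lit 0) (nat_lit 28795166499) (nat_lit 76)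 (nat_lit 1441114441) (nat_lit 152) (nat_lit 2502368308) (nat_lit 12) (nat_lit 5) (nat_lit 13) (nat_lit 5) (nat_lit 14) (nat_lit 4) (nat_lit 361) (nat_lit 249) (nat_lit 170)) (XT.nd (nat_lit 78) (nat_lit 76) (nat_lit 0) (XT.lf (nat_lit 0) (nat_lit 1733055432) (nat_lit 152) (nat_lit 31806868343) (nat_lit 152) (nat_lit 72698501) (nat_lit 10) (nat_lit 4) (nat_lit 12) (nat_lit 5) (nat_lit 12) (nat_lit 4) (nat_lit 362) (nat_lit 249) (nat_lit 169)) (XT.lf (nat_lit 0) (nat_lit 2420408631) (nat_lit 228) (nat_lit 26916612812) (nat_lit 76) (nat_lit 5173975050) (nat_lit 9) (nat_lit 5) (nat_lit 12) (nat_lit 5) (nat_lit 10) (nat_lit 4) (nat_lit 363) (nat_lit 249) (nat_lit 168)))) (XT.nd (nat_lit 78) (nat_lit 0) (nat_lit 0) (XT.lf (nat_lit 0) (nat_lit 4970807426) (nat_lit 228) (nat_lit 21832383348) (nat_lit 76) (nat_lit 8633611746) (nat_lit 9) (nat_lit 5) (nat_lit 12) (nat_lit 5) (nat_lit 10) (nat_lit 4)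 (nat_lit 364) (nat_lit 249) (nat_lit 167)) (XT.nd (nat_lit 78) (nat_lit 0) (nat_lit 0) (XT.lf (nat_lit 0) (nat_lit 7582144997) (nat_lit 228) (nat_lit 16621737100) (nat_lit 76) (nat_lit 12186988182) (nat_lit 9) (nat_lit 5) (nat_lit 12) (nat_lit 5) (nat_lit 10) (nat_lit 4) (nat_lit 365) (nat_lit 249) (nat_lit 166)) (XT.lf (nat_lit 0) (nat_lit 10256703094) (nat_lit 228) (nat_lit 11280121074) (nat_lit 76) (nat_lit 15837209252) (nat_lit 9) (nat_lit 5) (nat_lit 12) (nat_lit 5) (nat_lit 10) (nat_lit 4) (nat_lit 366) (nat_lit 249) (nat_lit 165))))))))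
noncomputable def xc82 : XT := (XT.nd (nat_lit 1716) (nat_lit 0) (nat_lit 0) (XT.nd (nat_lit 858) (nat_lit 152) (nat_lit 0) (XT.nd (nat_lit 390) (nat_lit 76) (nat_lit 0) (XT.nd (nat_lit 156) (nat_lit 76) (nat_lit 0) (XT.nd (nat_lit 78) (nat_lit 0) (nat_lit 0) (XT.lf (nat_lit 0) (nat_lit 12996818710) (nat_lit 228) (nat_lit 5802867841) (nat_lit 76) (nat_lit 19587464467) (nat_lit 9) (nat_lit 5) (nat_lit 12) (nat_lit 5) (nat_lit 10) (nat_lit 4) (nat_lit 367) (nat_lit 249) (nat_lit 164)) (XT.lf (nat_lit 0) (nat_lit 15804886121) (nat_lit 228) (nat_lit 185191451) (nat_lit 76) (nat_lit 23441030751) (nat_lit 9) (nat_lit 5) (nat_lit 12) (nat_lit 5) (nat_lit 10) (nat_lit 4) (nat_lit 368) (nat_lit 249) (nat_lit 163))) (XT.nd (nat_lit 78) (nat_lit 0) (nat_lit 0) (XT.lf (nat_lit 0) (nat_lit 5688826236) (nat_lit 76) (nat_lit 13049217221) (nat_lit 152) (nat_lit 21767133539) (nat_lit 8) (nat_lit 5) (nat_lit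 9) (nat_lit 5) (nat_lit 10) (nat_lit 4) (nat_lit 369) (nat_lit 249) (nat_lit 162)) (XT.nd (nat_lit 78) (nat_lit 0) (nat_lit 0) (XT.lf (nat_lit 0) (nat_lit 11719889648) (nat_lit 76) (nat_lit 10027521553) (nat_lit 152) (nat_lit 19864427614) (nat_lit 8) (nat_lit 5) (nat_lit 9) (nat_lit 5) (nat_lit 10) (nat_lit 4) (nat_lit 370) (nat_lit 249) (nat_lit 161)) (XT.lf (nat_lit 0) (nat_lit 17909582973) (nat_lit 76) (nat_lit 6924220325) (nat_lit 152) (nat_lit 17918311938) (nat_lit 8) (nat_lit 5) (nat_lit 9) (nat_lit 5) (nat_lit 10) (nat_lit 4) (nat_lit 371) (nat_lit 249) (nat_lit 160))))) (XT.nd (nat_lit 234) (nat_lit 76) (nat_lit 0) (XT.nd (nat_lit 78) (nat_lit 0) (nat_lit 0) (XT.lf (nat_lit 0) (nat_lit 24263314682) (nat_lit 76) (nat_lit 3736601912) (nat_lit 152) (nat_lit 15927086024) (nat_lit 8) (nat_lit 5) (nat_lit 9) (nat_lit 5) (nat_lit 10) (nat_lit 4) (nat_lit 372) (nat_lit 249) (nat_lit 159)) (XT.nd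 (nat_lit 78) (nat_lit 0) (nat_lit 0) (XT.lf (nat_lit 0) (nat_lit 30786636578) (nat_lit 76) (nat_lit 461881018) (nat_lit 152) (nat_lit 13889009964) (nat_lit 8) (nat_lit 5) (nat_lit 9) (nat_lit 5) (nat_lit 10) (nat_lit 4) (nat_lit 373) (nat_lit 249) (nat_lit 158)) (XT.lf (nat_lit 0) (nat_lit 34610348414) (nat_lit 152) (nat_lit 8927402678) (nat_lit 0) (nat_lit 2846159606) (nat_lit 8) (nat_lit 5) (nat_lit 10) (nat_lit 4) (nat_lit 8) (nat_lit 4) (nat_lit 374) (nat_lit 249) (nat_lit 157)))) (XT.nd (nat_lit 78) (nat_lit 76) (nat_lit 0) (XT.lf (nat_lit 0) (nat_lit 38065751593) (nat_lit 152) (nat_lit 3365889077) (nat_lit 0) (nat_lit 6236278282) (nat_lit 8) (nat_lit 5) (nat_lit 10) (nat_lit 4) (nat_lit 8) (nat_lit 4) (nat_lit 375) (nat_lit 249) (nat_lit 156)) (XT.nd (nat_lit 78) (nat_lit 0) (nat_lit 0) (XT.lf (nat_lit 0) (nat_lit 2389578562) (nat_lit 76) (nat_lit 39246698063) (nat_lit 76) (nat_lit 7353841741)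 (nat_lit 7) (nat_lit 4) (nat_lit 8) (nat_lit 5) (nat_lit 8) (nat_lit 4) (nat_lit 376) (nat_lit 249) (nat_lit 155)) (XT.lf (nat_lit 0) (nat_lit 8367378384) (nat_lit 76) (nat_lit 36969167021) (nat_lit 76) (nat_lit 5014773794) (nat_lit 7) (nat_lit 4) (nat_lit 8) (nat_lit 5) (nat_lit 8) (nat_lit 4) (nat_lit 377) (nat_lit 249) (nat_lit 154)))))) (XT.nd (nat_lit 390) (nat_lit 76) (nat_lit 0) (XT.nd (nat_lit 156) (nat_lit 76) (nat_lit 0) (XT.nd (nat_lit 78) (nat_lit 0) (nat_lit 0) (XT.lf (nat_lit 0) (nat_lit 14505745913) (nat_lit 76) (nat_lit 34631046350) (nat_lit 76) (nat_lit 2616908555) (nat_lit 7) (nat_lit 4) (nat_lit 8) (nat_lit 5) (nat_lit 8) (nat_lit 4) (nat_lit 378) (nat_lit 249) (nat_lit 153)) (XT.lf (nat_lit 0) (nat_lit 20810044774) (nat_lit 76) (nat_lit 32230293029) (nat_lit 76) (nat_lit 158150800) (nat_lit 7) (nat_lit 4) (nat_lit 8) (nat_lit 5) (nat_lit 8) (nat_lit 4) (nat_lit 379) (nat_lit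 249) (nat_lit 152))) (XT.nd (nat_lit 78) (nat_lit 0) (nat_lit 0) (XT.lf (nat_lit 0) (nat_lit 2317524614) (nat_lit 152) (nat_lit 27423882246) (nat_lit 76) (nat_lit 24944856507) (nat_lit 6) (nat_lit 5) (nat_lit 8) (nat_lit 5) (nat_lit 7) (nat_lit 4) (nat_lit 380) (nat_lit 249) (nat_lit 151)) (XT.nd (nat_lit 78) (nat_lit 0) (nat_lit 0) (XT.lf (nat_lit 0) (nat_lit 4854085241) (nat_lit 152) (nat_lit 22329338917) (nat_lit 76) (nat_lit 29035518747) (nat_lit 6) (nat_lit 5) (nat_lit 8) (nat_lit 5) (nat_lit 7) (nat_lit 4) (nat_lit 381) (nat_lit 249) (nat_lit 150)) (XT.lf (nat_lit 0) (nat_lit 7456833583) (nat_lit 152) (nat_lit 17098842057) (nat_lit 76) (nat_lit 33242236419) (nat_lit 6) (nat_lit 5) (nat_lit 8) (nat_lit 5) (nat_lit 7) (nat_lit 4) (nat_lit 382) (nat_lit 249) (nat_lit 149))))) (XT.nd (nat_lit 234) (nat_lit 76) (nat_lit 0) (XT.nd (nat_lit 78) (nat_lit 0) (nat_lit 0) (XT.lf (nat_lit 0) (nat_lit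 10128043887) (nat_lit 152) (nat_lit 11727821328) (nat_lit 76) (nat_lit 37568685294) (nat_lit 6) (nat_lit 5) (nat_lit 8) (nat_lit 5) (nat_lit 7) (nat_lit 4) (nat_lit 383) (nat_lit 249) (nat_lit 148)) (XT.nd (nat_lit 78) (nat_lit 0) (nat_lit 0) (XT.lf (nat_lit 0) (nat_lit 12870050220) (nat_lit 152) (nat_lit 6211583608) (nat_lit 76) (nat_lit 42018645765) (nat_lit 6) (nat_lit 5) (nat_lit 8) (nat_lit 5) (nat_lit 7) (nat_lit 4) (nat_lit 384) (nat_lit 249) (nat_lit 147)) (XT.lf (nat_lit 0) (nat_lit 15685248510) (nat_lit 152) (nat_lit 545308880) (nat_lit 76) (nat_lit 46596006146) (nat_lit 6) (nat_lit 5) (nat_lit 8) (nat_lit 5) (nat_lit 7) (nat_lit 4) (nat_lit 385) (nat_lit 249) (nat_lit 146)))) (XT.nd (nat_lit 78) (nat_lit 0) (nat_lit 0) (XT.lf (nat_lit 0) (nat_lit 5380955795) (nat_lit 76) (nat_lit 13246867882) (nat_lit 152) (nat_lit 45975535317) (nat_lit 5) (nat_lit 5) (nat_lit 6) (nat_lit 5) (nat_lit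 7) (nat_lit 4) (nat_lit 386) (nat_lit 249) (nat_lit 145)) (XT.nd (nat_lit 78) (nat_lit 0) (nat_lit 0) (XT.lf (nat_lit 0) (nat_lit 11481333648) (nat_lit 76) (nat_lit 10174158546) (nat_lit 152) (nat_lit 44778071953) (nat_lit 5) (nat_lit 5) (nat_lit 6) (nat_lit 5) (nat_lit 7) (nat_lit 4) (nat_lit 387) (nat_lit 249) (nat_lit 144)) (XT.lf (nat_lit 0) (nat_lit 17750302388) (nat_lit 76) (nat_lit 7015251042) (nat_lit 152) (nat_lit 43553385157) (nat_lit 5) (nat_lit 5) (nat_lit 6) (nat_lit 5) (nat_lit 7) (nat_lit 4) (nat_lit 388) (nat_lit 249) (nat_lit 143))))))) (XT.nd (nat_lit 32292) (nat_lit 0) (nat_lit 8360) (XT.nd (nat_lit 390) (nat_lit 0) (nat_lit 0) (XT.nd (nat_lit 156) (nat_lit 0) (nat_lit 0) (XT.nd (nat_lit 78) (nat_lit 0) (nat_lit 0) (XT.lf (nat_lit 0) (nat_lit 24193339755) (nat_lit 76) (nat_lit 3767385160) (nat_lit 152) (nat_lit 42300404815) (nat_lit 5) (nat_lit 5) (nat_lit 6) (nat_lit 5)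 (nat_lit 7) (nat_lit 4) (nat_lit 389) (nat_lit 249) (nat_lit 142)) (XT.lf (nat_lit 0) (nat_lit 30816075588) (nat_lit 76) (nat_lit 427722958) (nat_lit 152) (nat_lit 41018036090) (nat_lit 5) (nat_lit 5) (nat_lit 6) (nat_lit 5) (nat_lit 7) (nat_lit 4) (nat_lit 390) (nat_lit 249) (nat_lit 141))) (XT.nd (nat_lit 78) (nat_lit 0) (nat_lit 0) (XT.lf (nat_lit 0) (nat_lit 34646544823) (nat_lit 152) (nat_lit 36727406545) (nat_lit 0) (nat_lit 2947983070) (nat_lit 5) (nat_lit 5) (nat_lit 7) (nat_lit 4) (nat_lit 5) (nat_lit 4) (nat_lit 391) (nat_lit 249) (nat_lit 140)) (XT.nd (nat_lit 78) (nat_lit 0) (nat_lit 0) (XT.lf (nat_lit 0) (nat_lit 38148060805) (nat_lit 152) (nat_lit 31884733420) (nat_lit 0) (nat_lit 6411151288) (nat_lit 5) (nat_lit 5) (nat_lit 7) (nat_lit 4) (nat_lit 5) (nat_lit 4) (nat_lit 392) (nat_lit 249) (nat_lit 139)) (XT.lf (nat_lit 0) (nat_lit 41747294535) (nat_lit 152) (nat_lit 26909396676)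 (nat_lit 0) (nat_lit 9973154178) (nat_lit 5) (nat_lit 5) (nat_lit 7) (nat_lit 4) (nat_lit 5) (nat_lit 4) (nat_lit 393) (nat_lit 249) (nat_lit 138))))) (XT.nd (nat_lit 234) (nat_lit 0) (nat_lit 0) (XT.nd (nat_lit 78) (nat_lit 0) (nat_lit 0) (XT.lf (nat_lit 0) (nat_lit 45447390974) (nat_lit 152) (nat_lit 21797048932) (nat_lit 0) (nat_lit 13637104171) (nat_lit 5) (nat_lit 5) (nat_lit 7) (nat_lit 4) (nat_lit 5) (nat_lit 4) (nat_lit 394) (nat_lit 249) (nat_lit 137)) (XT.nd (nat_lit 78) (nat_lit 0) (nat_lit 0) (XT.lf (nat_lit 0) (nat_lit 49251583216) (nat_lit 152) (nat_lit 16543223087) (nat_lit 0) (nat_lit 17406202776) (nat_lit 5) (nat_lit 5) (nat_lit 7) (nat_lit 4) (nat_lit 5) (nat_lit 4) (nat_lit 395) (nat_lit 249) (nat_lit 136)) (XT.lf (nat_lit 0) (nat_lit 53163195313) (nat_lit 152) (nat_lit 11143328420) (nat_lit 0) (nat_lit 21283743381) (nat_lit 5) (nat_lit 5) (nat_lit 7) (nat_lit 4) (nat_lit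 5) (nat_lit 4) (nat_lit 396) (nat_lit 249) (nat_lit 135)))) (XT.nd (nat_lit 31512) (nat_lit 0) (nat_lit 13452) (XT.lf (nat_lit 0) (nat_lit 57185645178) (nat_lit 152) (nat_lit 5592646577) (nat_lit 0) (nat_lit 25273114127) (nat_lit 5) (nat_lit 5) (nat_lit 7) (nat_lit 4) (nat_lit 5) (nat_lit 4) (nat_lit 397) (nat_lit 249) (nat_lit 134)) (XT.nd (nat_lit 78) (nat_lit 836) (nat_lit 0) (XT.lf (nat_lit 0) (nat_lit 3419115147) (nat_lit 684) (nat_lit 22967063) (nat_lit 684) (nat_lit 22967063) (nat_lit 193) (nat_lit 4) (nat_lit 202) (nat_lit 5) (nat_lit 202) (nat_lit 4) (nat_lit 280) (nat_lit 250) (nat_lit 250)) (XT.lf (nat_lit 0) (nat_lit 2775222249) (nat_lit 836) (nat_lit 3117346588) (nat_lit 0) (nat_lit 1089038826) (nat_lit 182) (nat_lit 5) (nat_lit 193) (nat_lit 4) (nat_lit 182) (nat_lit 4) (nat_lit 281) (nat_lit 250) (nat_lit 249)))))) (XT.nd (nat_lit 390) (nat_lit 2204) (nat_lit 0) (XT.nd (nat_lit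 156) (nat_lit 1976) (nat_lit 0) (XT.nd (nat_lit 78) (nat_lit 76) (nat_lit 0) (XT.lf (nat_lit 0) (nat_lit 842305104) (nat_lit 836) (nat_lit 4759168159) (nat_lit 836) (nat_lit 1435913451) (nat_lit 171) (nat_lit 4) (nat_lit 182) (nat_lit 5) (nat_lit 182) (nat_lit 4) (nat_lit 282) (nat_lit 250) (nat_lit 248)) (XT.lf (nat_lit 0) (nat_lit 1334287451) (nat_lit 912) (nat_lit 2204040776) (nat_lit 76) (nat_lit 3558131720) (nat_lit 170) (nat_lit 5) (nat_lit 182) (nat_lit 5) (nat_lit 171) (nat_lit 4) (nat_lit 283) (nat_lit 250) (nat_lit 247))) (XT.nd (nat_lit 78) (nat_lit 1064) (nat_lit 0) (XT.lf (nat_lit 0) (nat_lit 1850116068) (nat_lit 912) (nat_lit 2241439137) (nat_lit 988) (nat_lit 3067686599) (nat_lit 158) (nat_lit 5) (nat_lit 170) (nat_lit 5) (nat_lit 171) (nat_lit 4) (nat_lit 284) (nat_lit 250) (nat_lit 246)) (XT.nd (nat_lit 78) (nat_lit 1064) (nat_lit 0) (XT.lf (nat_lit 0) (nat_lit 5993347231)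 (nat_lit 912) (nat_lit 877214523) (nat_lit 988) (nat_lit 355512187) (nat_lit 158) (nat_lit 5) (nat_lit 170) (nat_lit 5) (nat_lit 171) (nat_lit 4) (nat_lit 285) (nat_lit 250) (nat_lit 245)) (XT.lf (nat_lit 0) (nat_lit 2342237797) (nat_lit 1064) (nat_lit 4379635683) (nat_lit 76) (nat_lit 574099014) (nat_lit 144) (nat_lit 5) (nat_lit 158) (nat_lit 5) (nat_lit 145) (nat_lit 4) (nat_lit 286) (nat_lit 250) (nat_lit 244))))) (XT.nd (nat_lit 234) (nat_lit 532) (nat_lit 0) (XT.nd (nat_lit 78) (nat_lit 1672) (nat_lit 0) (XT.lf (nat_lit 0) (nat_lit 5054783154) (nat_lit 1064) (nat_lit 244190035) (nat_lit 76) (nat_lit 2070967778) (nat_lit 144) (nat_lit 5) (nat_lit 158) (nat_lit 5) (nat_lit 145) (nat_lit 4) (nat_lit 287) (nat_lit 250) (nat_lit 243)) (XT.nd (nat_lit 78) (nat_lit 532) (nat_lit 0) (XT.lf (nat_lit 0) (nat_lit 354736585) (nat_lit 1140) (nat_lit 3434483873) (nat_lit 76) (nat_lit 3658282552) (nat_lit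 129) (nat_lit 5) (nat_lit 144) (nat_lit 5) (nat_lit 130) (nat_lit 5) (nat_lit 288) (nat_lit 250) (nat_lit 242)) (XT.lf (nat_lit 0) (nat_lit 789936463) (nat_lit 532) (nat_lit 2200925389) (nat_lit 608) (nat_lit 4538145006) (nat_lit 122) (nat_lit 5) (nat_lit 129) (nat_lit 5) (nat_lit 130) (nat_lit 5) (nat_lit 289) (nat_lit 250) (nat_lit 241)))) (XT.nd (nat_lit 78) (nat_lit 532) (nat_lit 0) (XT.lf (nat_lit 0) (nat_lit 5134095696) (nat_lit 532) (nat_lit 530750422) (nat_lit 608) (nat_lit 1949620821) (nat_lit 122) (nat_lit 5) (nat_lit 129) (nat_lit 5) (nat_lit 130) (nat_lit 5) (nat_lit 290) (nat_lit 250) (nat_lit 240)) (XT.nd (nat_lit 78) (nat_lit 0) (nat_lit 0) (XT.lf (nat_lit 0) (nat_lit 657414369) (nat_lit 532) (nat_lit 5857325365) (nat_lit 76) (nat_lit 1189157937) (nat_lit 115) (nat_lit 5) (nat_lit 122) (nat_lit 5) (nat_lit 116) (nat_lit 5) (nat_lit 291) (nat_lit 250) (nat_lit 239)) (XT.lf (nat_lit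 0) (nat_lit 3260754391) (nat_lit 532) (nat_lit 1544451482) (nat_lit 76) (nat_lit 2991759073) (nat_lit 115) (nat_lit 5) (nat_lit 122) (nat_lit 5) (nat_lit 116) (nat_lit 5) (nat_lit 292) (nat_lit 250) (nat_lit 238))))))))
noncomputable def xc83 : XT := (XT.nd (nat_lit 1716) (nat_lit 2204) (nat_lit 0) (XT.nd (nat_lit 858) (nat_lit 2052) (nat_lit 0) (XT.nd (nat_lit 390) (nat_lit 1216) (nat_lit 0) (XT.nd (nat_lit 156) (nat_lit 988) (nat_lit 0) (XT.nd (nat_lit 78) (nat_lit 76) (nat_lit 0) (XT.lf (nat_lit 0) (nat_lit 2877696049) (nat_lit 532) (nat_lit 3021024228) (nat_lit 608) (nat_lit 1995651971) (nat_lit 108) (nat_lit 5) (nat_lit 115) (nat_lit 5) (nat_lit 116) (nat_lit 5) (nat_lit 293) (nat_lit 250) (nat_lit 237)) (XT.lf (nat_lit 0) (nat_lit 554039797) (nat_lit 608) (nat_lit 613347370) (nat_lit 76) (nat_lit 6829014167) (nat_lit 107) (nat_lit 5) (nat_lit 115) (nat_lit 5) (nat_lit 108) (nat_lit 5)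 (nat_lit 294) (nat_lit 250) (nat_lit 236))) (XT.nd (nat_lit 78) (nat_lit 532) (nat_lit 0) (XT.lf (nat_lit 0) (nat_lit 3116619635) (nat_lit 532) (nat_lit 4206107255) (nat_lit 76) (nat_lit 779099489) (nat_lit 101) (nat_lit 5) (nat_lit 108) (nat_lit 5) (nat_lit 102) (nat_lit 5) (nat_lit 295) (nat_lit 250) (nat_lit 235)) (XT.nd (nat_lit 78) (nat_lit 76) (nat_lit 0) (XT.lf (nat_lit 0) (nat_lit 259499725) (nat_lit 456) (nat_lit 5449452067) (nat_lit 532) (nat_lit 2503092729) (nat_lit 95) (nat_lit 5) (nat_lit 101) (nat_lit 5) (nat_lit 102) (nat_lit 5) (nat_lit 296) (nat_lit 250) (nat_lit 234)) (XT.lf (nat_lit 0) (nat_lit 28278010) (nat_lit 532) (nat_lit 3457070606) (nat_lit 76) (nat_lit 4841134220) (nat_lit 94) (nat_lit 5) (nat_lit 101) (nat_lit 5) (nat_lit 95) (nat_lit 5) (nat_lit 297) (nat_lit 250) (nat_lit 233))))) (XT.nd (nat_lit 234) (nat_lit 456) (nat_lit 0) (XT.nd (nat_lit 78) (nat_lit 380)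 (nat_lit 0) (XT.lf (nat_lit 0) (nat_lit 1094961121) (nat_lit 380) (nat_lit 1435740636) (nat_lit 456) (nat_lit 5914744619) (nat_lit 89) (nat_lit 5) (nat_lit 94) (nat_lit 5) (nat_lit 95) (nat_lit 5) (nat_lit 298) (nat_lit 250) (nat_lit 232)) (XT.nd (nat_lit 78) (nat_lit 380) (nat_lit 0) (XT.lf (nat_lit 0) (nat_lit 5085926562) (nat_lit 456) (nat_lit 2795516420) (nat_lit 76) (nat_lit 687396430) (nat_lit 89) (nat_lit 5) (nat_lit 95) (nat_lit 5) (nat_lit 90) (nat_lit 5) (nat_lit 299) (nat_lit 250) (nat_lit 231)) (XT.lf (nat_lit 0) (nat_lit 1843918519) (nat_lit 380) (nat_lit 5843675487) (nat_lit 456) (nat_lit 1009433495) (nat_lit 84) (nat_lit 5) (nat_lit 89) (nat_lit 5) (nat_lit 90) (nat_lit 5) (nat_lit 300) (nat_lit 250) (nat_lit 230)))) (XT.nd (nat_lit 78) (nat_lit 380) (nat_lit 0) (XT.lf (nat_lit 0) (nat_lit 1474912089) (nat_lit 456) (nat_lit 2238069461) (nat_lit 76) (nat_lit 5116811836) (nat_lit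 83) (nat_lit 5) (nat_lit 89) (nat_lit 5) (nat_lit 84) (nat_lit 5) (nat_lit 301) (nat_lit 250) (nat_lit 229)) (XT.nd (nat_lit 78) (nat_lit 0) (nat_lit 0) (XT.lf (nat_lit 0) (nat_lit 2481390579) (nat_lit 380) (nat_lit 1495932290) (nat_lit 456) (nat_lit 4990175825) (nat_lit 78) (nat_lit 5) (nat_lit 83) (nat_lit 5) (nat_lit 84) (nat_lit 5) (nat_lit 302) (nat_lit 250) (nat_lit 228)) (XT.lf (nat_lit 0) (nat_lit 6526107749) (nat_lit 456) (nat_lit 1801698520) (nat_lit 76) (nat_lit 782555843) (nat_lit 78) (nat_lit 5) (nat_lit 84) (nat_lit 5) (nat_lit 79) (nat_lit 5) (nat_lit 303) (nat_lit 250) (nat_lit 227)))))) (XT.nd (nat_lit 390) (nat_lit 912) (nat_lit 0) (XT.nd (nat_lit 156) (nat_lit 684) (nat_lit 0) (XT.nd (nat_lit 78) (nat_lit 76) (nat_lit 0) (XT.lf (nat_lit 0) (nat_lit 2995467938) (nat_lit 380) (nat_lit 6142121612) (nat_lit 456) (nat_lit 120496046) (nat_lit 73) (nat_lit 5) (nat_lit 78) (nat_lit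 5) (nat_lit 79) (nat_lit 5) (nat_lit 304) (nat_lit 250) (nat_lit 226)) (XT.lf (nat_lit 0) (nat_lit 2331288498) (nat_lit 456) (nat_lit 1531632622) (nat_lit 76) (nat_lit 5547936081) (nat_lit 72) (nat_lit 5) (nat_lit 78) (nat_lit 5) (nat_lit 73) (nat_lit 5) (nat_lit 305) (nat_lit 250) (nat_lit 225))) (XT.nd (nat_lit 78) (nat_lit 380) (nat_lit 0) (XT.lf (nat_lit 0) (nat_lit 3335264592) (nat_lit 304) (nat_lit 1495571140) (nat_lit 380) (nat_lit 4738188993) (nat_lit 68) (nat_lit 5) (nat_lit 72) (nat_lit 5) (nat_lit 73) (nat_lit 5) (nat_lit 306) (nat_lit 250) (nat_lit 224)) (XT.nd (nat_lit 78) (nat_lit 380) (nat_lit 0) (XT.lf (nat_lit 0) (nat_lit 7375429514) (nat_lit 380) (nat_lit 1431981396) (nat_lit 76) (nat_lit 925567755) (nat_lit 68) (nat_lit 5) (nat_lit 73) (nat_lit 5) (nat_lit 69) (nat_lit 5) (nat_lit 307) (nat_lit 250) (nat_lit 223)) (XT.lf (nat_lit 0) (nat_lit 87890076) (nat_lit 380) (nat_lit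 6404472066) (nat_lit 76) (nat_lit 3409740069) (nat_lit 63) (nat_lit 5) (nat_lit 68) (nat_lit 5) (nat_lit 64) (nat_lit 5) (nat_lit 308) (nat_lit 250) (nat_lit 222))))) (XT.nd (nat_lit 234) (nat_lit 608) (nat_lit 0) (XT.nd (nat_lit 78) (nat_lit 304) (nat_lit 0) (XT.lf (nat_lit 0) (nat_lit 2521121337) (nat_lit 380) (nat_lit 1564167955) (nat_lit 76) (nat_lit 5991586554) (nat_lit 63) (nat_lit 5) (nat_lit 68) (nat_lit 5) (nat_lit 64) (nat_lit 5) (nat_lit 309) (nat_lit 250) (nat_lit 221)) (XT.nd (nat_lit 78) (nat_lit 0) (nat_lit 0) (XT.lf (nat_lit 0) (nat_lit 3420814878) (nat_lit 304) (nat_lit 1588165086) (nat_lit 380) (nat_lit 5248591041) (nat_lit 59) (nat_lit 5) (nat_lit 63) (nat_lit 5) (nat_lit 64) (nat_lit 5) (nat_lit 310) (nat_lit 250) (nat_lit 220)) (XT.lf (nat_lit 0) (nat_lit 7546327240) (nat_lit 380) (nat_lit 1933518801) (nat_lit 76) (nat_lit 964718912) (nat_lit 59) (nat_lit 5) (nat_lit 64)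 (nat_lit 5) (nat_lit 60) (nat_lit 5) (nat_lit 311) (nat_lit 250) (nat_lit 219)))) (XT.nd (nat_lit 78) (nat_lit 304) (nat_lit 0) (XT.lf (nat_lit 0) (nat_lit 3095373943) (nat_lit 304) (nat_lit 7060816419) (nat_lit 380) (nat_lit 481206416) (nat_lit 55) (nat_lit 5) (nat_lit 59) (nat_lit 5) (nat_lit 60) (nat_lit 5) (nat_lit 312) (nat_lit 250) (nat_lit 218)) (XT.nd (nat_lit 78) (nat_lit 228) (nat_lit 0) (XT.lf (nat_lit 0) (nat_lit 1939988471) (nat_lit 380) (nat_lit 2606714496) (nat_lit 76) (nat_lit 6289719196) (nat_lit 54) (nat_lit 5) (nat_lit 59) (nat_lit 5) (nat_lit 55) (nat_lit 5) (nat_lit 313) (nat_lit 250) (nat_lit 217)) (XT.lf (nat_lit 0) (nat_lit 2455179902) (nat_lit 228) (nat_lit 1945116238) (nat_lit 304) (nat_lit 6641804523) (nat_lit 51) (nat_lit 5) (nat_lit 54) (nat_lit 5) (nat_lit 55) (nat_lit 5) (nat_lit 314) (nat_lit 250) (nat_lit 216))))))) (XT.nd (nat_lit 858) (nat_lit 1064) (nat_lit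 0) (XT.nd (nat_lit 390) (nat_lit 532) (nat_lit 0) (XT.nd (nat_lit 156) (nat_lit 304) (nat_lit 0) (XT.nd (nat_lit 78) (nat_lit 304) (nat_lit 0) (XT.lf (nat_lit 0) (nat_lit 6921205760) (nat_lit 304) (nat_lit 3603440337) (nat_lit 76) (nat_lit 729806188) (nat_lit 51) (nat_lit 5) (nat_lit 55) (nat_lit 5) (nat_lit 52) (nat_lit 5) (nat_lit 315) (nat_lit 250) (nat_lit 215)) (XT.lf (nat_lit 0) (nat_lit 1475658551) (nat_lit 304) (nat_lit 8030040982) (nat_lit 380) (nat_lit 1967939665) (nat_lit 47) (nat_lit 5) (nat_lit 51) (nat_lit 5) (nat_lit 52) (nat_lit 5) (nat_lit 316) (nat_lit 250) (nat_lit 214))) (XT.nd (nat_lit 78) (nat_lit 228) (nat_lit 0) (XT.lf (nat_lit 0) (nat_lit 450628454) (nat_lit 380) (nat_lit 4985975002) (nat_lit 76) (nat_lit 6263017492) (nat_lit 46) (nat_lit 5) (nat_lit 51) (nat_lit 5) (nat_lit 47) (nat_lit 5) (nat_lit 317) (nat_lit 250) (nat_lit 213)) (XT.nd (nat_lit 78) (nat_lit 0) (nat_lit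 0) (XT.lf (nat_lit 0) (nat_lit 96854294) (nat_lit 228) (nat_lit 2762289164) (nat_lit 304) (nat_lit 9074040519) (nat_lit 43) (nat_lit 5) (nat_lit 46) (nat_lit 5) (nat_lit 47) (nat_lit 5) (nat_lit 318) (nat_lit 250) (nat_lit 212)) (XT.lf (nat_lit 0) (nat_lit 5347217194) (nat_lit 304) (nat_lit 6800843480) (nat_lit 76) (nat_lit 25566037) (nat_lit 43) (nat_lit 5) (nat_lit 47) (nat_lit 5) (nat_lit 44) (nat_lit 5) (nat_lit 319) (nat_lit 250) (nat_lit 211))))) (XT.nd (nat_lit 234) (nat_lit 228) (nat_lit 0) (XT.nd (nat_lit 78) (nat_lit 304) (nat_lit 0) (XT.lf (nat_lit 0) (nat_lit 7895079300) (nat_lit 304) (nat_lit 1702372242) (nat_lit 76) (nat_lit 2824366034) (nat_lit 43) (nat_lit 5) (nat_lit 47) (nat_lit 5) (nat_lit 44) (nat_lit 5) (nat_lit 320) (nat_lit 250) (nat_lit 210)) (XT.nd (nat_lit 78) (nat_lit 76) (nat_lit 0) (XT.lf (nat_lit 0) (nat_lit 3559551487) (nat_lit 228) (nat_lit 6953068348) (nat_lit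 304) (nat_lit 2165123691) (nat_lit 40) (nat_lit 5) (nat_lit 43) (nat_lit 5) (nat_lit 44) (nat_lit 5) (nat_lit 321) (nat_lit 250) (nat_lit 209)) (XT.lf (nat_lit 0) (nat_lit 238659693) (nat_lit 304) (nat_lit 3988619075) (nat_lit 76) (nat_lit 8714776938) (nat_lit 39) (nat_lit 5) (nat_lit 43) (nat_lit 5) (nat_lit 40) (nat_lit 5) (nat_lit 322) (nat_lit 250) (nat_lit 208)))) (XT.nd (nat_lit 78) (nat_lit 0) (nat_lit 0) (XT.lf (nat_lit 0) (nat_lit 1240051203) (nat_lit 228) (nat_lit 1403273994) (nat_lit 304) (nat_lit 10571239671) (nat_lit 36) (nat_lit 5) (nat_lit 39) (nat_lit 5) (nat_lit 40) (nat_lit 5) (nat_lit 323) (nat_lit 250) (nat_lit 207)) (XT.nd (nat_lit 78) (nat_lit 0) (nat_lit 0) (XT.lf (nat_lit 0) (nat_lit 5136077314) (nat_lit 304) (nat_lit 6859628549) (nat_lit 76) (nat_lit 1499142014) (nat_lit 36) (nat_lit 5) (nat_lit 40) (nat_lit 5) (nat_lit 37) (nat_lit 5) (nat_lit 324) (nat_lit 250) (nat_lit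 206)) (XT.lf (nat_lit 0) (nat_lit 7679446882) (nat_lit 304) (nat_lit 1661561394) (nat_lit 76) (nat_lit 4443330788) (nat_lit 36) (nat_lit 5) (nat_lit 40) (nat_lit 5) (nat_lit 37) (nat_lit 5) (nat_lit 325) (nat_lit 250) (nat_lit 205)))))) (XT.nd (nat_lit 468) (nat_lit 380) (nat_lit 0) (XT.nd (nat_lit 234) (nat_lit 228) (nat_lit 0) (XT.nd (nat_lit 78) (nat_lit 228) (nat_lit 0) (XT.lf (nat_lit 0) (nat_lit 3710116667) (nat_lit 228) (nat_lit 6587714376) (nat_lit 304) (nat_lit 3784795093) (nat_lit 33) (nat_lit 5) (nat_lit 36) (nat_lit 5) (nat_lit 37) (nat_lit 5) (nat_lit 326) (nat_lit 250) (nat_lit 204)) (XT.nd (nat_lit 78) (nat_lit 228) (nat_lit 0) (XT.lf (nat_lit 0) (nat_lit 9222813161) (nat_lit 228) (nat_lit 3752336974) (nat_lit 304) (nat_lit 1415370626) (nat_lit 33) (nat_lit 5) (nat_lit 36) (nat_lit 5) (nat_lit 37) (nat_lit 5) (nat_lit 327) (nat_lit 250) (nat_lit 203)) (XT.lf (nat_lit 0) (nat_lit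 132579380) (nat_lit 152) (nat_lit 838075558) (nat_lit 228) (nat_lit 13737802384) (nat_lit 30) (nat_lit 5) (nat_lit 32) (nat_lit 5) (nat_lit 33) (nat_lit 5) (nat_lit 328) (nat_lit 250) (nat_lit 202)))) (XT.nd (nat_lit 78) (nat_lit 228) (nat_lit 0) (XT.lf (nat_lit 0) (nat_lit 3437923578) (nat_lit 228) (nat_lit 9425706507) (nat_lit 76) (nat_lit 2170802655) (nat_lit 30) (nat_lit 5) (nat_lit 33) (nat_lit 5) (nat_lit 31) (nat_lit 5) (nat_lit 329) (nat_lit 250) (nat_lit 201)) (XT.nd (nat_lit 78) (nat_lit 228) (nat_lit 0) (XT.lf (nat_lit 0) (nat_lit 5953150284) (nat_lit 228) (nat_lit 4181579872) (nat_lit 76) (nat_lit 5236301653) (nat_lit 30) (nat_lit 5) (nat_lit 33) (nat_lit 5) (nat_lit 31) (nat_lit 5) (nat_lit 330) (nat_lit 250) (nat_lit 200)) (XT.lf (nat_lit 0) (nat_lit 1192408489) (nat_lit 228) (nat_lit 7329530400) (nat_lit 304) (nat_lit 7196507572) (nat_lit 27) (nat_lit 5) (nat_lit 30) (nat_lit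 5) (nat_lit 31) (nat_lit 5) (nat_lit 331) (nat_lit 250) (nat_lit 199))))) (XT.nd (nat_lit 234) (nat_lit 228) (nat_lit 0) (XT.nd (nat_lit 78) (nat_lit 152) (nat_lit 0) (XT.lf (nat_lit 0) (nat_lit 6763101888) (nat_lit 228) (nat_lit 4414046658) (nat_lit 304) (nat_lit 4898913279) (nat_lit 27) (nat_lit 5) (nat_lit 30) (nat_lit 5) (nat_lit 31) (nat_lit 5) (nat_lit 332) (nat_lit 250) (nat_lit 198)) (XT.nd (nat_lit 78) (nat_lit 152) (nat_lit 0) (XT.lf (nat_lit 0) (nat_lit 12452146282) (nat_lit 228) (nat_lit 1427957177) (nat_lit 304) (nat_lit 2565316799) (nat_lit 27) (nat_lit 5) (nat_lit 30) (nat_lit 5) (nat_lit 31) (nat_lit 5) (nat_lit 333) (nat_lit 250) (nat_lit 197)) (XT.lf (nat_lit 0) (nat_lit 1450286996) (nat_lit 152) (nat_lit 15212500990) (nat_lit 228) (nat_lit 163167836) (nat_lit 25) (nat_lit 5) (nat_lit 27) (nat_lit 5) (nat_lit 28) (nat_lit 4) (nat_lit 334) (nat_lit 250) (nat_lit 196)))) (XT.nd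 (nat_lit 78) (nat_lit 152) (nat_lit 0) (XT.lf (nat_lit 0) (nat_lit 2289763116) (nat_lit 228) (nat_lit 10162812390) (nat_lit 76) (nat_lit 4764003476) (nat_lit 24) (nat_lit 5) (nat_lit 27) (nat_lit 5) (nat_lit 25) (nat_lit 5) (nat_lit 335) (nat_lit 250) (nat_lit 195)) (XT.nd (nat_lit 78) (nat_lit 152) (nat_lit 0) (XT.lf (nat_lit 0) (nat_lit 4782859444) (nat_lit 228) (nat_lit 4842151843) (nat_lit 76) (nat_lit 7994816265) (nat_lit 24) (nat_lit 5) (nat_lit 27) (nat_lit 5) (nat_lit 25) (nat_lit 5) (nat_lit 336) (nat_lit 250) (nat_lit 194)) (XT.lf (nat_lit 0) (nat_lit 604322920) (nat_lit 152) (nat_lit 6722969775) (nat_lit 228) (nat_lit 10708633971) (nat_lit 22) (nat_lit 5) (nat_lit 24) (nat_lit 5) (nat_lit 25) (nat_lit 5) (nat_lit 337) (nat_lit 250) (nat_lit 193))))))))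
noncomputable def xc84 : XT := (XT.nd (nat_lit 1716) (nat_lit 456) (nat_lit 0) (XT.nd (nat_lit 858) (nat_lit 304) (nat_lit 0) (XT.nd (nat_lit 390) (nat_lit 228) (nat_lit 0) (XT.nd (nat_lit 156) (nat_lit 228) (nat_lit 0) (XT.nd (nat_lit 78) (nat_lit 0) (nat_lit 0) (XT.lf (nat_lit 0) (nat_lit 6268300219) (nat_lit 152) (nat_lit 3699808237) (nat_lit 228) (nat_lit 8495846779) (nat_lit 22) (nat_lit 5) (nat_lit 24) (nat_lit 5) (nat_lit 25) (nat_lit 5) (nat_lit 338) (nat_lit 250) (nat_lit 192)) (XT.lf (nat_lit 0) (nat_lit 12058360841) (nat_lit 152) (nat_lit 601781318) (nat_lit 228) (nat_lit 6245569269) (nat_lit 22) (nat_lit 5) (nat_lit 24) (nat_lit 5) (nat_lit 25) (nat_lit 5) (nat_lit 339) (nat_lit 250) (nat_lit 191))) (XT.nd (nat_lit 78) (nat_lit 228) (nat_lit 0) (XT.lf (nat_lit 0) (nat_lit 15430487179) (nat_lit 228) (nat_lit 1406758295) (nat_lit 76) (nat_lit 2523593537) (nat_lit 22) (nat_lit 5) (nat_lit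 25) (nat_lit 5) (nat_lit 23) (nat_lit 4) (nat_lit 340) (nat_lit 250) (nat_lit 190)) (XT.nd (nat_lit 78) (nat_lit 76) (nat_lit 0) (XT.lf (nat_lit 0) (nat_lit 4231656327) (nat_lit 152) (nat_lit 14072379453) (nat_lit 228) (nat_lit 1525025743) (nat_lit 20) (nat_lit 5) (nat_lit 22) (nat_lit 5) (nat_lit 23) (nat_lit 4) (nat_lit 341) (nat_lit 250) (nat_lit 189)) (XT.lf (nat_lit 0) (nat_lit 921750383) (nat_lit 228) (nat_lit 10294308632) (nat_lit 76) (nat_lit 9095402117) (nat_lit 19) (nat_lit 5) (nat_lit 22) (nat_lit 5) (nat_lit 20) (nat_lit 5) (nat_lit 342) (nat_lit 250) (nat_lit 188))))) (XT.nd (nat_lit 234) (nat_lit 76) (nat_lit 0) (XT.nd (nat_lit 78) (nat_lit 152) (nat_lit 0) (XT.lf (nat_lit 0) (nat_lit 3385579289) (nat_lit 228) (nat_lit 4888158595) (nat_lit 76) (nat_lit 12534953011) (nat_lit 19) (nat_lit 5) (nat_lit 22) (nat_lit 5) (nat_lit 20) (nat_lit 5) (nat_lit 343) (nat_lit 250) (nat_lit 187))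 (XT.nd (nat_lit 78) (nat_lit 0) (nat_lit 0) (XT.lf (nat_lit 0) (nat_lit 653173993) (nat_lit 152) (nat_lit 5251477293) (nat_lit 228) (nat_lit 15416785418) (nat_lit 17) (nat_lit 5) (nat_lit 19) (nat_lit 5) (nat_lit 20) (nat_lit 5) (nat_lit 344) (nat_lit 250) (nat_lit 186)) (XT.lf (nat_lit 0) (nat_lit 6421590976) (nat_lit 152) (nat_lit 2102463183) (nat_lit 228) (nat_lit 13324805835) (nat_lit 17) (nat_lit 5) (nat_lit 19) (nat_lit 5) (nat_lit 20) (nat_lit 5) (nat_lit 345) (nat_lit 250) (nat_lit 185)))) (XT.nd (nat_lit 78) (nat_lit 76) (nat_lit 0) (XT.lf (nat_lit 0) (nat_lit 11208984065) (nat_lit 228) (nat_lit 10078841021) (nat_lit 76) (nat_lit 1104709312) (nat_lit 17) (nat_lit 5) (nat_lit 20) (nat_lit 5) (nat_lit 18) (nat_lit 4) (nat_lit 346) (nat_lit 250) (nat_lit 184)) (XT.nd (nat_lit 78) (nat_lit 76) (nat_lit 0) (XT.lf (nat_lit 0) (nat_lit 13971954792) (nat_lit 228) (nat_lit 4628473067) (nat_lit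 76) (nat_lit 4352202079) (nat_lit 17) (nat_lit 5) (nat_lit 20) (nat_lit 5) (nat_lit 18) (nat_lit 4) (nat_lit 347) (nat_lit 250) (nat_lit 183)) (XT.lf (nat_lit 0) (nat_lit 967690589) (nat_lit 76) (nat_lit 15836781870) (nat_lit 152) (nat_lit 6725490805) (nat_lit 16) (nat_lit 5) (nat_lit 17) (nat_lit 5) (nat_lit 18) (nat_lit 4) (nat_lit 348) (nat_lit 250) (nat_lit 182)))))) (XT.nd (nat_lit 390) (nat_lit 76) (nat_lit 0) (XT.nd (nat_lit 156) (nat_lit 228) (nat_lit 0) (XT.nd (nat_lit 78) (nat_lit 0) (nat_lit 0) (XT.lf (nat_lit 0) (nat_lit 6790378661) (nat_lit 76) (nat_lit 12955992463) (nat_lit 152) (nat_lit 4377546943) (nat_lit 16) (nat_lit 5) (nat_lit 17) (nat_lit 5) (nat_lit 18) (nat_lit 4) (nat_lit 349) (nat_lit 250) (nat_lit 181)) (XT.lf (nat_lit 0) (nat_lit 12752563245) (nat_lit 76) (nat_lit 10002280949) (nat_lit 152) (nat_lit 1981530463) (nat_lit 16) (nat_lit 5) (nat_lit 17) (nat_lit 5) (nat_lit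 18) (nat_lit 4) (nat_lit 350) (nat_lit 250) (nat_lit 180))) (XT.nd (nat_lit 78) (nat_lit 152) (nat_lit 0) (XT.lf (nat_lit 0) (nat_lit 455585203) (nat_lit 152) (nat_lit 6512880694) (nat_lit 76) (nat_lit 18399268294) (nat_lit 15) (nat_lit 5) (nat_lit 17) (nat_lit 5) (nat_lit 16) (nat_lit 5) (nat_lit 351) (nat_lit 250) (nat_lit 179)) (XT.nd (nat_lit 78) (nat_lit 152) (nat_lit 0) (XT.lf (nat_lit 0) (nat_lit 2905317107) (nat_lit 152) (nat_lit 931046859) (nat_lit 76) (nat_lit 22181731977) (nat_lit 15) (nat_lit 5) (nat_lit 17) (nat_lit 5) (nat_lit 16) (nat_lit 5) (nat_lit 352) (nat_lit 250) (nat_lit 178)) (XT.lf (nat_lit 0) (nat_lit 4880858228) (nat_lit 152) (nat_lit 574532153) (nat_lit 228) (nat_lit 21231801705) (nat_lit 13) (nat_lit 5) (nat_lit 15) (nat_lit 5) (nat_lit 16) (nat_lit 5) (nat_lit 353) (nat_lit 250) (nat_lit 177))))) (XT.nd (nat_lit 234) (nat_lit 76) (nat_lit 0) (XT.nd (nat_lit 78)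 (nat_lit 0) (nat_lit 0) (XT.lf (nat_lit 0) (nat_lit 8098318600) (nat_lit 228) (nat_lit 16549547486) (nat_lit 76) (nat_lit 2728032621) (nat_lit 13) (nat_lit 5) (nat_lit 16) (nat_lit 5) (nat_lit 14) (nat_lit 4) (nat_lit 354) (nat_lit 250) (nat_lit 176)) (XT.nd (nat_lit 78) (nat_lit 0) (nat_lit 0) (XT.lf (nat_lit 0) (nat_lit 10806888444) (nat_lit 228) (nat_lit 11172599108) (nat_lit 76) (nat_lit 6106215716) (nat_lit 13) (nat_lit 5) (nat_lit 16) (nat_lit 5) (nat_lit 14) (nat_lit 4) (nat_lit 355) (nat_lit 250) (nat_lit 175)) (XT.lf (nat_lit 0) (nat_lit 13577943870) (nat_lit 228) (nat_lit 5665267667) (nat_lit 76) (nat_lit 9574180134) (nat_lit 13) (nat_lit 5) (nat_lit 16) (nat_lit 5) (nat_lit 14) (nat_lit 4) (nat_lit 356) (nat_lit 250) (nat_lit 174)))) (XT.nd (nat_lit 78) (nat_lit 76) (nat_lit 0) (XT.lf (nat_lit 0) (nat_lit 16413906188) (nat_lit 228) (nat_lit 22740932) (nat_lit 76) (nat_lit 13134956134)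 (nat_lit 13) (nat_lit 5) (nat_lit 16) (nat_lit 5) (nat_lit 14) (nat_lit 4) (nat_lit 357) (nat_lit 250) (nat_lit 173)) (XT.nd (nat_lit 78) (nat_lit 0) (nat_lit 0) (XT.lf (nat_lit 0) (nat_lit 5874544992) (nat_lit 76) (nat_lit 13499178151) (nat_lit 152) (nat_lit 10973579802) (nat_lit 12) (nat_lit 5) (nat_lit 13) (nat_lit 5) (nat_lit 14) (nat_lit 4) (nat_lit 358) (nat_lit 250) (nat_lit 172)) (XT.lf (nat_lit 0) (nat_lit 11920351304) (nat_lit 76) (nat_lit 10484756887) (nat_lit 152) (nat_lit 8741706534) (nat_lit 12) (nat_lit 5) (nat_lit 13) (nat_lit 5) (nat_lit 14) (nat_lit 4) (nat_lit 359) (nat_lit 250) (nat_lit 171))))))) (XT.nd (nat_lit 858) (nat_lit 152) (nat_lit 0) (XT.nd (nat_lit 390) (nat_lit 76) (nat_lit 0) (XT.nd (nat_lit 156) (nat_lit 228) (nat_lit 0) (XT.nd (nat_lit 78) (nat_lit 0) (nat_lit 0) (XT.lf (nat_lit 0) (nat_lit 18119508155) (nat_lit 76) (nat_lit 7390979007) (nat_lit 152) (nat_lit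 6460356721) (nat_lit 12) (nat_lit 5) (nat_lit 13) (nat_lit 5) (nat_lit 14) (nat_lit 4) (nat_lit 360) (nat_lit 250) (nat_lit 170)) (XT.lf (nat_lit 0) (nat_lit 24477432286) (nat_lit 76) (nat_lit 4215141210) (nat_lit 152) (nat_lit 4127536950) (nat_lit 12) (nat_lit 5) (nat_lit 13) (nat_lit 5) (nat_lit 14) (nat_lit 4) (nat_lit 361) (nat_lit 250) (nat_lit 169))) (XT.nd (nat_lit 78) (nat_lit 228) (nat_lit 0) (XT.lf (nat_lit 0) (nat_lit 30999679164) (nat_lit 76) (nat_lit 954468492) (nat_lit 152) (nat_lit 1741208835) (nat_lit 12) (nat_lit 5) (nat_lit 13) (nat_lit 5) (nat_lit 14) (nat_lit 4) (nat_lit 362) (nat_lit 250) (nat_lit 168)) (XT.nd (nat_lit 78) (nat_lit 0) (nat_lit 0) (XT.lf (nat_lit 0) (nat_lit 740690467) (nat_lit 228) (nat_lit 31470294538) (nat_lit 76) (nat_lit 2384550188) (nat_lit 9) (nat_lit 5) (nat_lit 12) (nat_lit 5) (nat_lit 10) (nat_lit 4) (nat_lit 363) (nat_lit 250) (nat_lit 167)) (XT.lf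 (nat_lit 0) (nat_lit 3283417741) (nat_lit 228) (nat_lit 26398927192) (nat_lit 76) (nat_lit 5839236460) (nat_lit 9) (nat_lit 5) (nat_lit 12) (nat_lit 5) (nat_lit 10) (nat_lit 4) (nat_lit 364) (nat_lit 250) (nat_lit 166))))) (XT.nd (nat_lit 234) (nat_lit 76) (nat_lit 0) (XT.nd (nat_lit 78) (nat_lit 0) (nat_lit 0) (XT.lf (nat_lit 0) (nat_lit 5887307232) (nat_lit 228) (nat_lit 21200768436) (nat_lit 76) (nat_lit 9387806660) (nat_lit 9) (nat_lit 5) (nat_lit 12) (nat_lit 5) (nat_lit 10) (nat_lit 4) (nat_lit 365) (nat_lit 250) (nat_lit 165)) (XT.nd (nat_lit 78) (nat_lit 0) (nat_lit 0) (XT.lf (nat_lit 0) (nat_lit 8554634184) (nat_lit 228) (nat_lit 15871276191) (nat_lit 76) (nat_lit 13033361480) (nat_lit 9) (nat_lit 5) (nat_lit 12) (nat_lit 5) (nat_lit 10) (nat_lit 4) (nat_lit 366) (nat_lit 250) (nat_lit 164)) (XT.lf (nat_lit 0) (nat_lit 11287729272) (nat_lit 228) (nat_lit 10405793618) (nat_lit 76) (nat_lit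 16779086357) (nat_lit 9) (nat_lit 5) (nat_lit 12) (nat_lit 5) (nat_lit 10) (nat_lit 4) (nat_lit 367) (nat_lit 250) (nat_lit 163)))) (XT.nd (nat_lit 78) (nat_lit 76) (nat_lit 0) (XT.lf (nat_lit 0) (nat_lit 14088980636) (nat_lit 228) (nat_lit 4799545052) (nat_lit 76) (nat_lit 20628254253) (nat_lit 9) (nat_lit 5) (nat_lit 12) (nat_lit 5) (nat_lit 10) (nat_lit 4) (nat_lit 368) (nat_lit 250) (nat_lit 162)) (XT.nd (nat_lit 78) (nat_lit 0) (nat_lit 0) (XT.lf (nat_lit 0) (nat_lit 971322162) (nat_lit 76) (nat_lit 15998850752) (nat_lit 152) (nat_lit 23622243301) (nat_lit 8) (nat_lit 5) (nat_lit 9) (nat_lit 5) (nat_lit 10) (nat_lit 4) (nat_lit 369) (nat_lit 250) (nat_lit 161)) (XT.lf (nat_lit 0) (nat_lit 6991399373) (nat_lit 76) (nat_lit 12981610902) (nat_lit 152) (nat_lit 21726272069) (nat_lit 8) (nat_lit 5) (nat_lit 9) (nat_lit 5) (nat_lit 10) (nat_lit 4) (nat_lit 370) (nat_lit 250) (nat_lit 160))))))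 (XT.nd (nat_lit 390) (nat_lit 152) (nat_lit 0) (XT.nd (nat_lit 156) (nat_lit 0) (nat_lit 0) (XT.nd (nat_lit 78) (nat_lit 0) (nat_lit 0) (XT.lf (nat_lit 0) (nat_lit 13170426483) (nat_lit 76) (nat_lit 9882635709) (nat_lit 152) (nat_lit 19786694931) (nat_lit 8) (nat_lit 5) (nat_lit 9) (nat_lit 5) (nat_lit 10) (nat_lit 4) (nat_lit 371) (nat_lit 250) (nat_lit 159)) (XT.lf (nat_lit 0) (nat_lit 19513802643) (nat_lit 76) (nat_lit 6699217332) (nat_lit 152) (nat_lit 17801817111) (nat_lit 8) (nat_lit 5) (nat_lit 9) (nat_lit 5) (nat_lit 10) (nat_lit 4) (nat_lit 372) (nat_lit 250) (nat_lit 158))) (XT.nd (nat_lit 78) (nat_lit 0) (nat_lit 0) (XT.lf (nat_lit 0) (nat_lit 26027070608) (nat_lit 76) (nat_lit 3428574142) (nat_lit 152) (nat_lit 15769904250) (nat_lit 8) (nat_lit 5) (nat_lit 9) (nat_lit 5) (nat_lit 10) (nat_lit 4) (nat_lit 373) (nat_lit 250) (nat_lit 157)) (XT.nd (nat_lit 78) (nat_lit 0) (nat_lit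 0) (XT.lf (nat_lit 0) (nat_lit 32715921583) (nat_lit 76) (nat_lit 67848296) (nat_lit 152) (nat_lit 13689180890) (nat_lit 8) (nat_lit 5) (nat_lit 9) (nat_lit 5) (nat_lit 10) (nat_lit 4) (nat_lit 374) (nat_lit 250) (nat_lit 156)) (XT.lf (nat_lit 0) (nat_lit 36232850745) (nat_lit 152) (nat_lit 8204479471) (nat_lit 0) (nat_lit 3319825721) (nat_lit 8) (nat_lit 5) (nat_lit 10) (nat_lit 4) (nat_lit 8) (nat_lit 4) (nat_lit 375) (nat_lit 250) (nat_lit 155))))) (XT.nd (nat_lit 234) (nat_lit 76) (nat_lit 0) (XT.nd (nat_lit 78) (nat_lit 76) (nat_lit 0) (XT.lf (nat_lit 0) (nat_lit 39774900722) (nat_lit 152) (nat_lit 2504977120) (nat_lit 0) (nat_lit 6800338793) (nat_lit 8) (nat_lit 5) (nat_lit 10) (nat_lit 4) (nat_lit 8) (nat_lit 4) (nat_lit 376) (nat_lit 250) (nat_lit 154)) (XT.nd (nat_lit 78) (nat_lit 0) (nat_lit 0) (XT.lf (nat_lit 0) (nat_lit 3413724268) (nat_lit 76) (nat_lit 40031453144) (nat_lit 76)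 (nat_lit 6997146647) (nat_lit 7) (nat_lit 4) (nat_lit 8) (nat_lit 5) (nat_lit 8) (nat_lit 4) (nat_lit 377) (nat_lit 250) (nat_lit 153)) (XT.lf (nat_lit 0) (nat_lit 9543116578) (nat_lit 76) (nat_lit 37697032458) (nat_lit 76) (nat_lit 4604721527) (nat_lit 7) (nat_lit 4) (nat_lit 8) (nat_lit 5) (nat_lit 8) (nat_lit 4) (nat_lit 378) (nat_lit 250) (nat_lit 152)))) (XT.nd (nat_lit 78) (nat_lit 76) (nat_lit 0) (XT.lf (nat_lit 0) (nat_lit 15838701634) (nat_lit 76) (nat_lit 35299871358) (nat_lit 76) (nat_lit 2151245441) (nat_lit 7) (nat_lit 4) (nat_lit 8) (nat_lit 5) (nat_lit 8) (nat_lit 4) (nat_lit 379) (nat_lit 250) (nat_lit 151)) (XT.nd (nat_lit 78) (nat_lit 0) (nat_lit 0) (XT.lf (nat_lit 0) (nat_lit 358294657) (nat_lit 152) (nat_lit 32475962505) (nat_lit 76) (nat_lit 21944067700) (nat_lit 6) (nat_lit 5) (nat_lit 8) (nat_lit 5) (nat_lit 7) (nat_lit 4) (nat_lit 380) (nat_lit 250) (nat_lit 150)) (XT.lf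 (nat_lit 0) (nat_lit 2889973952) (nat_lit 152) (nat_lit 27389735810) (nat_lit 76) (nat_lit 26031446967) (nat_lit 6) (nat_lit 5) (nat_lit 8) (nat_lit 5) (nat_lit 7) (nat_lit 4) (nat_lit 381) (nat_lit 250) (nat_lit 149))))))))
noncomputable def xc85 : XT := (XT.nd (nat_lit 32994) (nat_lit 0) (nat_lit 5092) (XT.nd (nat_lit 858) (nat_lit 0) (nat_lit 0) (XT.nd (nat_lit 390) (nat_lit 0) (nat_lit 0) (XT.nd (nat_lit 156) (nat_lit 76) (nat_lit 0) (XT.nd (nat_lit 78) (nat_lit 0) (nat_lit 0) (XT.lf (nat_lit 0) (nat_lit 5487983137) (nat_lit 152) (nat_lit 22167313353) (nat_lit 76) (nat_lit 30234977285) (nat_lit 6) (nat_lit 5) (nat_lit 8) (nat_lit 5) (nat_lit 7) (nat_lit 4) (nat_lit 382) (nat_lit 250) (nat_lit 148)) (XT.lf (nat_lit 0) (nat_lit 8154592318) (nat_lit 152) (nat_lit 16804131851) (nat_lit 76) (nat_lit 34558331643) (nat_lit 6) (nat_lit 5) (nat_lit 8) (nat_lit 5) (nat_lit 7) (nat_lit 4) (nat_lit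 383) (nat_lit 250) (nat_lit 147))) (XT.nd (nat_lit 78) (nat_lit 76) (nat_lit 0) (XT.lf (nat_lit 0) (nat_lit 10892131541) (nat_lit 152) (nat_lit 11295505029) (nat_lit 76) (nat_lit 39005287728) (nat_lit 6) (nat_lit 5) (nat_lit 8) (nat_lit 5) (nat_lit 7) (nat_lit 4) (nat_lit 384) (nat_lit 250) (nat_lit 146)) (XT.nd (nat_lit 78) (nat_lit 76) (nat_lit 0) (XT.lf (nat_lit 0) (nat_lit 13702992831) (nat_lit 152) (nat_lit 5636619524) (nat_lit 76) (nat_lit 43579731230) (nat_lit 6) (nat_lit 5) (nat_lit 8) (nat_lit 5) (nat_lit 7) (nat_lit 4) (nat_lit 385) (nat_lit 250) (nat_lit 145)) (XT.lf (nat_lit 0) (nat_lit 181001307) (nat_lit 76) (nat_lit 16410370868) (nat_lit 152) (nat_lit 48106397824) (nat_lit 5) (nat_lit 5) (nat_lit 6) (nat_lit 5) (nat_lit 7) (nat_lit 4) (nat_lit 386) (nat_lit 250) (nat_lit 144))))) (XT.nd (nat_lit 234) (nat_lit 0) (nat_lit 0) (XT.nd (nat_lit 78) (nat_lit 0) (nat_lit 0) (XT.lf (nat_lit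 0) (nat_lit 6274275491) (nat_lit 76) (nat_lit 13340608878) (nat_lit 152) (nat_lit 46913220405) (nat_lit 5) (nat_lit 5) (nat_lit 6) (nat_lit 5) (nat_lit 7) (nat_lit 4) (nat_lit 387) (nat_lit 250) (nat_lit 143)) (XT.nd (nat_lit 78) (nat_lit 0) (nat_lit 0) (XT.lf (nat_lit 0) (nat_lit 12536347465) (nat_lit 76) (nat_lit 10184562874) (nat_lit 152) (nat_lit 45692694721) (nat_lit 5) (nat_lit 5) (nat_lit 6) (nat_lit 5) (nat_lit 7) (nat_lit 4) (nat_lit 388) (nat_lit 250) (nat_lit 142)) (XT.lf (nat_lit 0) (nat_lit 18972688942) (nat_lit 76) (nat_lit 6939475148) (nat_lit 152) (nat_lit 44443754294) (nat_lit 5) (nat_lit 5) (nat_lit 6) (nat_lit 5) (nat_lit 7) (nat_lit 4) (nat_lit 389) (nat_lit 250) (nat_lit 141)))) (XT.nd (nat_lit 78) (nat_lit 0) (nat_lit 0) (XT.lf (nat_lit 0) (nat_lit 25588923912) (nat_lit 76) (nat_lit 3602510185) (nat_lit 152) (nat_lit 43165307816) (nat_lit 5) (nat_lit 5) (nat_lit 6) (nat_lit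 5) (nat_lit 7) (nat_lit 4) (nat_lit 390) (nat_lit 250) (nat_lit 140)) (XT.nd (nat_lit 78) (nat_lit 0) (nat_lit 0) (XT.lf (nat_lit 0) (nat_lit 32390833548) (nat_lit 76) (nat_lit 170752191) (nat_lit 152) (nat_lit 41856238199) (nat_lit 5) (nat_lit 5) (nat_lit 6) (nat_lit 5) (nat_lit 7) (nat_lit 4) (nat_lit 391) (nat_lit 250) (nat_lit 139)) (XT.lf (nat_lit 0) (nat_lit 36057850627) (nat_lit 152) (nat_lit 37188890952) (nat_lit 0) (nat_lit 3293255221) (nat_lit 5) (nat_lit 5) (nat_lit 7) (nat_lit 4) (nat_lit 5) (nat_lit 4) (nat_lit 392) (nat_lit 250) (nat_lit 138)))))) (XT.nd (nat_lit 31668) (nat_lit 0) (nat_lit 12540) (XT.nd (nat_lit 156) (nat_lit 0) (nat_lit 0) (XT.nd (nat_lit 78) (nat_lit 0) (nat_lit 0) (XT.lf (nat_lit 0) (nat_lit 39653579775) (nat_lit 152) (nat_lit 32219588248) (nat_lit 0) (nat_lit 6852837922) (nat_lit 5) (nat_lit 5) (nat_lit 7) (nat_lit 4) (nat_lit 5) (nat_lit 4) (nat_lit 393)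 (nat_lit 250) (nat_lit 137)) (XT.lf (nat_lit 0) (nat_lit 43350273706) (nat_lit 152) (nat_lit 27113098796) (nat_lit 0) (nat_lit 10514438217) (nat_lit 5) (nat_lit 5) (nat_lit 7) (nat_lit 4) (nat_lit 5) (nat_lit 4) (nat_lit 394) (nat_lit 250) (nat_lit 136))) (XT.nd (nat_lit 78) (nat_lit 0) (nat_lit 0) (XT.lf (nat_lit 0) (nat_lit 47151162543) (nat_lit 152) (nat_lit 21864960612) (nat_lit 0) (nat_lit 14281255561) (nat_lit 5) (nat_lit 5) (nat_lit 7) (nat_lit 4) (nat_lit 5) (nat_lit 4) (nat_lit 395) (nat_lit 250) (nat_lit 135)) (XT.nd (nat_lit 78) (nat_lit 0) (nat_lit 0) (XT.lf (nat_lit 0) (nat_lit 51059567451) (nat_lit 152) (nat_lit 16470587947) (nat_lit 0) (nat_lit 18156581350) (nat_lit 5) (nat_lit 5) (nat_lit 7) (nat_lit 4) (nat_lit 5) (nat_lit 4) (nat_lit 396) (nat_lit 250) (nat_lit 134)) (XT.lf (nat_lit 0) (nat_lit 55078903539) (nat_lit 152) (nat_lit 10925267270) (nat_lit 0) (nat_lit 22143801790)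 (nat_lit 5) (nat_lit 5) (nat_lit 7) (nat_lit 4) (nat_lit 5) (nat_lit 4) (nat_lit 397) (nat_lit 250) (nat_lit 133))))) (XT.nd (nat_lit 234) (nat_lit 1672) (nat_lit 0) (XT.nd (nat_lit 78) (nat_lit 760) (nat_lit 0) (XT.lf (nat_lit 0) (nat_lit 1477578620) (nat_lit 684) (nat_lit 462023382) (nat_lit 0) (nat_lit 1477578620) (nat_lit 202) (nat_lit 5) (nat_lit 211) (nat_lit 4) (nat_lit 202) (nat_lit 4) (nat_lit 278) (nat_lit 251) (nat_lit 251)) (XT.nd (nat_lit 78) (nat_lit 76) (nat_lit 0) (XT.lf (nat_lit 0) (nat_lit 2909141792) (nat_lit 684) (nat_lit 2880311876) (nat_lit 684) (nat_lit 1091439883) (nat_lit 193) (nat_lit 4) (nat_lit 202) (nat_lit 5) (nat_lit 202) (nat_lit 4) (nat_lit 279) (nat_lit 251) (nat_lit 250)) (XT.lf (nat_lit 0) (nat_lit 1664538169) (nat_lit 760) (nat_lit 146628435) (nat_lit 76) (nat_lit 5119953684) (nat_lit 192) (nat_lit 5) (nat_lit 202) (nat_lit 5) (nat_lit 193) (nat_lit 4) (nat_lit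 280) (nat_lit 251) (nat_lit 249)))) (XT.nd (nat_lit 78) (nat_lit 912) (nat_lit 0) (XT.lf (nat_lit 0) (nat_lit 3781324489) (nat_lit 760) (nat_lit 648798087) (nat_lit 836) (nat_lit 2554320944) (nat_lit 182) (nat_lit 5) (nat_lit 192) (nat_lit 5) (nat_lit 193) (nat_lit 4) (nat_lit 281) (nat_lit 251) (nat_lit 248)) (XT.nd (nat_lit 78) (nat_lit 0) (nat_lit 0) (XT.lf (nat_lit 0) (nat_lit 161737857) (nat_lit 912) (nat_lit 6321085378) (nat_lit 76) (nat_lit 559019215) (nat_lit 170) (nat_lit 5) (nat_lit 182) (nat_lit 5) (nat_lit 171) (nat_lit 4) (nat_lit 282) (nat_lit 251) (nat_lit 247)) (XT.lf (nat_lit 0) (nat_lit 2862065132) (nat_lit 912) (nat_lit 2382517707) (nat_lit 76) (nat_lit 1857345591) (nat_lit 170) (nat_lit 5) (nat_lit 182) (nat_lit 5) (nat_lit 171) (nat_lit 4) (nat_lit 283) (nat_lit 251) (nat_lit 246))))))) (XT.nd (nat_lit 858) (nat_lit 2660) (nat_lit 0) (XT.nd (nat_lit 390) (nat_lit 1672)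 (nat_lit 0) (XT.nd (nat_lit 156) (nat_lit 2128) (nat_lit 0) (XT.nd (nat_lit 78) (nat_lit 76) (nat_lit 0) (XT.lf (nat_lit 0) (nat_lit 1629795932) (nat_lit 912) (nat_lit 3946784357) (nat_lit 988) (nat_lit 1589578805) (nat_lit 158) (nat_lit 5) (nat_lit 170) (nat_lit 5) (nat_lit 171) (nat_lit 4) (nat_lit 284) (nat_lit 251) (nat_lit 245)) (XT.lf (nat_lit 0) (nat_lit 1060328775) (nat_lit 988) (nat_lit 1508891049) (nat_lit 76) (nat_lit 4664815192) (nat_lit 157) (nat_lit 5) (nat_lit 170) (nat_lit 5) (nat_lit 158) (nat_lit 5) (nat_lit 285) (nat_lit 251) (nat_lit 244))) (XT.nd (nat_lit 78) (nat_lit 1140) (nat_lit 0) (XT.lf (nat_lit 0) (nat_lit 2599226165) (nat_lit 988) (nat_lit 1103997474) (nat_lit 1064) (nat_lit 3602197066) (nat_lit 144) (nat_lit 5) (nat_lit 157) (nat_lit 5) (nat_lit 158) (nat_lit 5) (nat_lit 286) (nat_lit 251) (nat_lit 243)) (XT.nd (nat_lit 78) (nat_lit 1140) (nat_lit 0) (XT.lf (nat_lit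 0) (nat_lit 6366776886) (nat_lit 1064) (nat_lit 598114947) (nat_lit 76) (nat_lit 416114802) (nat_lit 144) (nat_lit 5) (nat_lit 158) (nat_lit 5) (nat_lit 145) (nat_lit 4) (nat_lit 287) (nat_lit 251) (nat_lit 242)) (XT.lf (nat_lit 0) (nat_lit 1588638102) (nat_lit 1140) (nat_lit 3857597535) (nat_lit 76) (nat_lit 2013346320) (nat_lit 129) (nat_lit 5) (nat_lit 144) (nat_lit 5) (nat_lit 130) (nat_lit 5) (nat_lit 288) (nat_lit 251) (nat_lit 241))))) (XT.nd (nat_lit 234) (nat_lit 608) (nat_lit 0) (XT.nd (nat_lit 78) (nat_lit 532) (nat_lit 0) (XT.lf (nat_lit 0) (nat_lit 320275278) (nat_lit 532) (nat_lit 3862947646) (nat_lit 608) (nat_lit 3359244254) (nat_lit 122) (nat_lit 5) (nat_lit 129) (nat_lit 5) (nat_lit 130) (nat_lit 5) (nat_lit 289) (nat_lit 251) (nat_lit 240)) (XT.nd (nat_lit 78) (nat_lit 532) (nat_lit 0) (XT.lf (nat_lit 0) (nat_lit 4627418266) (nat_lit 532) (nat_lit 2193485746) (nat_lit 608)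 (nat_lit 808243566) (nat_lit 122) (nat_lit 5) (nat_lit 129) (nat_lit 5) (nat_lit 130) (nat_lit 5) (nat_lit 290) (nat_lit 251) (nat_lit 239)) (XT.lf (nat_lit 0) (nat_lit 1278151846) (nat_lit 456) (nat_lit 445409863) (nat_lit 532) (nat_lit 5996399870) (nat_lit 115) (nat_lit 5) (nat_lit 121) (nat_lit 5) (nat_lit 122) (nat_lit 5) (nat_lit 291) (nat_lit 251) (nat_lit 238)))) (XT.nd (nat_lit 78) (nat_lit 608) (nat_lit 0) (XT.lf (nat_lit 0) (nat_lit 4287577564) (nat_lit 532) (nat_lit 2162224142) (nat_lit 76) (nat_lit 1364526962) (nat_lit 115) (nat_lit 5) (nat_lit 122) (nat_lit 5) (nat_lit 116) (nat_lit 5) (nat_lit 292) (nat_lit 251) (nat_lit 237)) (XT.nd (nat_lit 78) (nat_lit 76) (nat_lit 0) (XT.lf (nat_lit 0) (nat_lit 2210426990) (nat_lit 532) (nat_lit 4674680303) (nat_lit 608) (nat_lit 1027958352) (nat_lit 108) (nat_lit 5) (nat_lit 115) (nat_lit 5) (nat_lit 116) (nat_lit 5) (nat_lit 293) (nat_lit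 251) (nat_lit 236)) (XT.lf (nat_lit 0) (nat_lit 1469030550) (nat_lit 608) (nat_lit 1345512837) (nat_lit 76) (nat_lit 5201396770) (nat_lit 107) (nat_lit 5) (nat_lit 115) (nat_lit 5) (nat_lit 108) (nat_lit 5) (nat_lit 294) (nat_lit 251) (nat_lit 235)))))) (XT.nd (nat_lit 390) (nat_lit 1292) (nat_lit 0) (XT.nd (nat_lit 156) (nat_lit 912) (nat_lit 0) (XT.nd (nat_lit 78) (nat_lit 0) (nat_lit 0) (XT.lf (nat_lit 0) (nat_lit 3120310330) (nat_lit 456) (nat_lit 863297858) (nat_lit 532) (nat_lit 4139303776) (nat_lit 101) (nat_lit 5) (nat_lit 107) (nat_lit 5) (nat_lit 108) (nat_lit 5) (nat_lit 295) (nat_lit 251) (nat_lit 234)) (XT.lf (nat_lit 0) (nat_lit 6532896737) (nat_lit 532) (nat_lit 570273681) (nat_lit 76) (nat_lit 1131354587) (nat_lit 101) (nat_lit 5) (nat_lit 108) (nat_lit 5) (nat_lit 102) (nat_lit 5) (nat_lit 296) (nat_lit 251) (nat_lit 233))) (XT.nd (nat_lit 78) (nat_lit 380) (nat_lit 0) (XT.lf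 (nat_lit 0) (nat_lit 776385868) (nat_lit 532) (nat_lit 4365382337) (nat_lit 76) (nat_lit 3208193147) (nat_lit 94) (nat_lit 5) (nat_lit 101) (nat_lit 5) (nat_lit 95) (nat_lit 5) (nat_lit 297) (nat_lit 251) (nat_lit 232)) (XT.nd (nat_lit 78) (nat_lit 0) (nat_lit 0) (XT.lf (nat_lit 0) (nat_lit 132042151) (nat_lit 380) (nat_lit 3106374531) (nat_lit 456) (nat_lit 5231814797) (nat_lit 89) (nat_lit 5) (nat_lit 94) (nat_lit 5) (nat_lit 95) (nat_lit 5) (nat_lit 298) (nat_lit 251) (nat_lit 231)) (XT.lf (nat_lit 0) (nat_lit 4781879309) (nat_lit 380) (nat_lit 974452206) (nat_lit 456) (nat_lit 2838504338) (nat_lit 89) (nat_lit 5) (nat_lit 94) (nat_lit 5) (nat_lit 95) (nat_lit 5) (nat_lit 299) (nat_lit 251) (nat_lit 230))))) (XT.nd (nat_lit 234) (nat_lit 456) (nat_lit 0) (XT.nd (nat_lit 78) (nat_lit 456) (nat_lit 0) (XT.lf (nat_lit 0) (nat_lit 779711756) (nat_lit 380) (nat_lit 7528964300) (nat_lit 456) (nat_lit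 415916930) (nat_lit 84) (nat_lit 5) (nat_lit 89) (nat_lit 5) (nat_lit 90) (nat_lit 5) (nat_lit 300) (nat_lit 251) (nat_lit 229)) (XT.nd (nat_lit 78) (nat_lit 380) (nat_lit 0) (XT.lf (nat_lit 0) (nat_lit 2027275972) (nat_lit 456) (nat_lit 3371240127) (nat_lit 76) (nat_lit 3459642973) (nat_lit 83) (nat_lit 5) (nat_lit 89) (nat_lit 5) (nat_lit 84) (nat_lit 5) (nat_lit 301) (nat_lit 251) (nat_lit 228)) (XT.lf (nat_lit 0) (nat_lit 1290324354) (nat_lit 380) (nat_lit 3199203397) (nat_lit 456) (nat_lit 4507623174) (nat_lit 78) (nat_lit 5) (nat_lit 83) (nat_lit 5) (nat_lit 84) (nat_lit 5) (nat_lit 302) (nat_lit 251) (nat_lit 227)))) (XT.nd (nat_lit 78) (nat_lit 456) (nat_lit 0) (XT.lf (nat_lit 0) (nat_lit 6091185821) (nat_lit 380) (nat_lit 911251310) (nat_lit 456) (nat_lit 2138732868) (nat_lit 78) (nat_lit 5) (nat_lit 83) (nat_lit 5) (nat_lit 84) (nat_lit 5) (nat_lit 303) (nat_lit 251) (nat_lit 226))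 (XT.nd (nat_lit 78) (nat_lit 0) (nat_lit 0) (XT.lf (nat_lit 0) (nat_lit 269439884) (nat_lit 456) (nat_lit 7596635590) (nat_lit 76) (nat_lit 1424276409) (nat_lit 72) (nat_lit 5) (nat_lit 78) (nat_lit 5) (nat_lit 73) (nat_lit 5) (nat_lit 304) (nat_lit 251) (nat_lit 225)) (XT.lf (nat_lit 0) (nat_lit 2691567896) (nat_lit 456) (nat_lit 2901245963) (nat_lit 76) (nat_lit 3851166694) (nat_lit 72) (nat_lit 5) (nat_lit 78) (nat_lit 5) (nat_lit 73) (nat_lit 5) (nat_lit 305) (nat_lit 251) (nat_lit 224))))))))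
noncomputable def xc86 : XT := (XT.nd (nat_lit 1716) (nat_lit 1292) (nat_lit 0) (XT.nd (nat_lit 858) (nat_lit 1368) (nat_lit 0) (XT.nd (nat_lit 390) (nat_lit 608) (nat_lit 0) (XT.nd (nat_lit 156) (nat_lit 684) (nat_lit 0) (XT.nd (nat_lit 78) (nat_lit 0) (nat_lit 0) (XT.lf (nat_lit 0) (nat_lit 1904293752) (nat_lit 304) (nat_lit 3246556086) (nat_lit 380) (nat_lit 4452576735) (nat_lit 68) (nat_lit 5) (nat_lit 72) (nat_lit 5) (nat_lit 73) (nat_lit 5) (nat_lit 306) (nat_lit 251) (nat_lit 223)) (XT.lf (nat_lit 0) (nat_lit 6846266531) (nat_lit 304) (nat_lit 814046867) (nat_lit 380) (nat_lit 2108189507) (nat_lit 68) (nat_lit 5) (nat_lit 72) (nat_lit 5) (nat_lit 73) (nat_lit 5) (nat_lit 307) (nat_lit 251) (nat_lit 222))) (XT.nd (nat_lit 78) (nat_lit 304) (nat_lit 0) (XT.lf (nat_lit 0) (nat_lit 283798717) (nat_lit 380) (nat_lit 7988914389) (nat_lit 76) (nat_lit 1666363541) (nat_lit 63) (nat_lit 5) (nat_lit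 68) (nat_lit 5) (nat_lit 64) (nat_lit 5) (nat_lit 308) (nat_lit 251) (nat_lit 221)) (XT.nd (nat_lit 78) (nat_lit 304) (nat_lit 0) (XT.lf (nat_lit 0) (nat_lit 2691782423) (nat_lit 380) (nat_lit 3181754524) (nat_lit 76) (nat_lit 4241133435) (nat_lit 63) (nat_lit 5) (nat_lit 68) (nat_lit 5) (nat_lit 64) (nat_lit 5) (nat_lit 309) (nat_lit 251) (nat_lit 220)) (XT.lf (nat_lit 0) (nat_lit 1738215861) (nat_lit 304) (nat_lit 3400738827) (nat_lit 380) (nat_lit 5157692291) (nat_lit 59) (nat_lit 5) (nat_lit 63) (nat_lit 5) (nat_lit 64) (nat_lit 5) (nat_lit 310) (nat_lit 251) (nat_lit 219))))) (XT.nd (nat_lit 234) (nat_lit 228) (nat_lit 0) (XT.nd (nat_lit 78) (nat_lit 380) (nat_lit 0) (XT.lf (nat_lit 0) (nat_lit 6806325504) (nat_lit 304) (nat_lit 836413898) (nat_lit 380) (nat_lit 2841967477) (nat_lit 59) (nat_lit 5) (nat_lit 63) (nat_lit 5) (nat_lit 64) (nat_lit 5) (nat_lit 311) (nat_lit 251) (nat_lit 218))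 (XT.nd (nat_lit 78) (nat_lit 76) (nat_lit 0) (XT.lf (nat_lit 0) (nat_lit 1291733612) (nat_lit 304) (nat_lit 8912016227) (nat_lit 380) (nat_lit 475311803) (nat_lit 55) (nat_lit 5) (nat_lit 59) (nat_lit 5) (nat_lit 60) (nat_lit 5) (nat_lit 312) (nat_lit 251) (nat_lit 217)) (XT.lf (nat_lit 0) (nat_lit 1922392698) (nat_lit 380) (nat_lit 4483907966) (nat_lit 76) (nat_lit 4472539986) (nat_lit 54) (nat_lit 5) (nat_lit 59) (nat_lit 5) (nat_lit 55) (nat_lit 5) (nat_lit 313) (nat_lit 251) (nat_lit 216)))) (XT.nd (nat_lit 78) (nat_lit 0) (nat_lit 0) (XT.lf (nat_lit 0) (nat_lit 509107062) (nat_lit 228) (nat_lit 3832191936) (nat_lit 304) (nat_lit 6744514680) (nat_lit 51) (nat_lit 5) (nat_lit 54) (nat_lit 5) (nat_lit 55) (nat_lit 5) (nat_lit 314) (nat_lit 251) (nat_lit 215)) (XT.nd (nat_lit 78) (nat_lit 0) (nat_lit 0) (XT.lf (nat_lit 0) (nat_lit 5681707226) (nat_lit 228) (nat_lit 1151018748) (nat_lit 304)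 (nat_lit 4466374765) (nat_lit 51) (nat_lit 5) (nat_lit 54) (nat_lit 5) (nat_lit 55) (nat_lit 5) (nat_lit 315) (nat_lit 251) (nat_lit 214)) (XT.lf (nat_lit 0) (nat_lit 9370215943) (nat_lit 304) (nat_lit 586358508) (nat_lit 76) (nat_lit 1563172790) (nat_lit 51) (nat_lit 5) (nat_lit 55) (nat_lit 5) (nat_lit 52) (nat_lit 5) (nat_lit 316) (nat_lit 251) (nat_lit 213)))))) (XT.nd (nat_lit 390) (nat_lit 532) (nat_lit 0) (XT.nd (nat_lit 156) (nat_lit 456) (nat_lit 0) (XT.nd (nat_lit 78) (nat_lit 0) (nat_lit 0) (XT.lf (nat_lit 0) (nat_lit 245106057) (nat_lit 380) (nat_lit 7134653033) (nat_lit 76) (nat_lit 4366893130) (nat_lit 46) (nat_lit 5) (nat_lit 51) (nat_lit 5) (nat_lit 47) (nat_lit 5) (nat_lit 317) (nat_lit 251) (nat_lit 212)) (XT.lf (nat_lit 0) (nat_lit 2631652428) (nat_lit 380) (nat_lit 2083338250) (nat_lit 76) (nat_lit 7265928908) (nat_lit 46) (nat_lit 5) (nat_lit 51) (nat_lit 5) (nat_lit 47)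 (nat_lit 5) (nat_lit 318) (nat_lit 251) (nat_lit 211))) (XT.nd (nat_lit 78) (nat_lit 228) (nat_lit 0) (XT.lf (nat_lit 0) (nat_lit 3122052238) (nat_lit 228) (nat_lit 1956291550) (nat_lit 304) (nat_lit 7144303960) (nat_lit 43) (nat_lit 5) (nat_lit 46) (nat_lit 5) (nat_lit 47) (nat_lit 5) (nat_lit 319) (nat_lit 251) (nat_lit 210)) (XT.nd (nat_lit 78) (nat_lit 228) (nat_lit 0) (XT.lf (nat_lit 0) (nat_lit 7587216577) (nat_lit 304) (nat_lit 4012364185) (nat_lit 76) (nat_lit 872470209) (nat_lit 43) (nat_lit 5) (nat_lit 47) (nat_lit 5) (nat_lit 44) (nat_lit 5) (nat_lit 320) (nat_lit 251) (nat_lit 209)) (XT.lf (nat_lit 0) (nat_lit 1174825947) (nat_lit 228) (nat_lit 8987411369) (nat_lit 304) (nat_lit 2567056632) (nat_lit 40) (nat_lit 5) (nat_lit 43) (nat_lit 5) (nat_lit 44) (nat_lit 5) (nat_lit 321) (nat_lit 251) (nat_lit 208))))) (XT.nd (nat_lit 234) (nat_lit 228) (nat_lit 0) (XT.nd (nat_lit 78) (nat_lit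 304) (nat_lit 0) (XT.lf (nat_lit 0) (nat_lit 6543198536) (nat_lit 228) (nat_lit 6272660340) (nat_lit 304) (nat_lit 178436495) (nat_lit 40) (nat_lit 5) (nat_lit 43) (nat_lit 5) (nat_lit 44) (nat_lit 5) (nat_lit 322) (nat_lit 251) (nat_lit 207)) (XT.nd (nat_lit 78) (nat_lit 228) (nat_lit 0) (XT.lf (nat_lit 0) (nat_lit 2198835021) (nat_lit 304) (nat_lit 1272433631) (nat_lit 76) (nat_lit 9796551533) (nat_lit 39) (nat_lit 5) (nat_lit 43) (nat_lit 5) (nat_lit 40) (nat_lit 5) (nat_lit 323) (nat_lit 251) (nat_lit 206)) (XT.lf (nat_lit 0) (nat_lit 4085294363) (nat_lit 228) (nat_lit 560454792) (nat_lit 304) (nat_lit 8903765993) (nat_lit 36) (nat_lit 5) (nat_lit 39) (nat_lit 5) (nat_lit 40) (nat_lit 5) (nat_lit 324) (nat_lit 251) (nat_lit 205)))) (XT.nd (nat_lit 78) (nat_lit 228) (nat_lit 0) (XT.lf (nat_lit 0) (nat_lit 7165529120) (nat_lit 304) (nat_lit 4287726220) (nat_lit 76) (nat_lit 2386494425) (nat_lit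 36) (nat_lit 5) (nat_lit 40) (nat_lit 5) (nat_lit 37) (nat_lit 5) (nat_lit 325) (nat_lit 251) (nat_lit 204)) (XT.nd (nat_lit 78) (nat_lit 0) (nat_lit 0) (XT.lf (nat_lit 0) (nat_lit 1004990303) (nat_lit 228) (nat_lit 8735247640) (nat_lit 304) (nat_lit 4399143854) (nat_lit 33) (nat_lit 5) (nat_lit 36) (nat_lit 5) (nat_lit 37) (nat_lit 5) (nat_lit 326) (nat_lit 251) (nat_lit 203)) (XT.lf (nat_lit 0) (nat_lit 6491768633) (nat_lit 228) (nat_lit 5908381970) (nat_lit 304) (nat_lit 2047681702) (nat_lit 33) (nat_lit 5) (nat_lit 36) (nat_lit 5) (nat_lit 37) (nat_lit 5) (nat_lit 327) (nat_lit 251) (nat_lit 202))))))) (XT.nd (nat_lit 858) (nat_lit 456) (nat_lit 0) (XT.nd (nat_lit 390) (nat_lit 380) (nat_lit 0) (XT.nd (nat_lit 156) (nat_lit 228) (nat_lit 0) (XT.nd (nat_lit 78) (nat_lit 152) (nat_lit 0) (XT.lf (nat_lit 0) (nat_lit 332309255) (nat_lit 304) (nat_lit 2677820955) (nat_lit 76) (nat_lit 11756403955)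 (nat_lit 32) (nat_lit 5) (nat_lit 36) (nat_lit 5) (nat_lit 33) (nat_lit 5) (nat_lit 328) (nat_lit 251) (nat_lit 201)) (XT.lf (nat_lit 0) (nat_lit 2735260687) (nat_lit 228) (nat_lit 12352866100) (nat_lit 76) (nat_lit 6343143) (nat_lit 30) (nat_lit 5) (nat_lit 33) (nat_lit 5) (nat_lit 31) (nat_lit 5) (nat_lit 329) (nat_lit 251) (nat_lit 200))) (XT.nd (nat_lit 78) (nat_lit 228) (nat_lit 0) (XT.lf (nat_lit 0) (nat_lit 5234055343) (nat_lit 228) (nat_lit 7133729739) (nat_lit 76) (nat_lit 3063806812) (nat_lit 30) (nat_lit 5) (nat_lit 33) (nat_lit 5) (nat_lit 31) (nat_lit 5) (nat_lit 330) (nat_lit 251) (nat_lit 199)) (XT.nd (nat_lit 78) (nat_lit 228) (nat_lit 0) (XT.lf (nat_lit 0) (nat_lit 7775428343) (nat_lit 228) (nat_lit 1807271964) (nat_lit 76) (nat_lit 6197157768) (nat_lit 30) (nat_lit 5) (nat_lit 33) (nat_lit 5) (nat_lit 31) (nat_lit 5) (nat_lit 331) (nat_lit 251) (nat_lit 198)) (XT.lf (nat_lit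 0) (nat_lit 3703428643) (nat_lit 228) (nat_lit 6693771283) (nat_lit 304) (nat_lit 5741304871) (nat_lit 27) (nat_lit 5) (nat_lit 30) (nat_lit 5) (nat_lit 31) (nat_lit 5) (nat_lit 332) (nat_lit 251) (nat_lit 197))))) (XT.nd (nat_lit 234) (nat_lit 152) (nat_lit 0) (XT.nd (nat_lit 78) (nat_lit 228) (nat_lit 0) (XT.lf (nat_lit 0) (nat_lit 9369148245) (nat_lit 228) (nat_lit 3715744728) (nat_lit 304) (nat_lit 3423455505) (nat_lit 27) (nat_lit 5) (nat_lit 30) (nat_lit 5) (nat_lit 31) (nat_lit 5) (nat_lit 333) (nat_lit 251) (nat_lit 196)) (XT.nd (nat_lit 78) (nat_lit 228) (nat_lit 0) (XT.lf (nat_lit 0) (nat_lit 15158869214) (nat_lit 228) (nat_lit 664268388) (nat_lit 304) (nat_lit 1067106232) (nat_lit 27) (nat_lit 5) (nat_lit 30) (nat_lit 5) (nat_lit 31) (nat_lit 5) (nat_lit 334) (nat_lit 251) (nat_lit 195)) (XT.lf (nat_lit 0) (nat_lit 1365087348) (nat_lit 228) (nat_lit 13451622363) (nat_lit 76) (nat_lit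 2465594323) (nat_lit 24) (nat_lit 5) (nat_lit 27) (nat_lit 5) (nat_lit 25) (nat_lit 5) (nat_lit 335) (nat_lit 251) (nat_lit 194)))) (XT.nd (nat_lit 78) (nat_lit 152) (nat_lit 0) (XT.lf (nat_lit 0) (nat_lit 3843767376) (nat_lit 228) (nat_lit 8153423941) (nat_lit 76) (nat_lit 5688818113) (nat_lit 24) (nat_lit 5) (nat_lit 27) (nat_lit 5) (nat_lit 25) (nat_lit 5) (nat_lit 336) (nat_lit 251) (nat_lit 193)) (XT.nd (nat_lit 78) (nat_lit 152) (nat_lit 0) (XT.lf (nat_lit 0) (nat_lit 6368395098) (nat_lit 228) (nat_lit 2740549583) (nat_lit 76) (nat_lit 8993781659) (nat_lit 24) (nat_lit 5) (nat_lit 27) (nat_lit 5) (nat_lit 25) (nat_lit 5) (nat_lit 337) (nat_lit 251) (nat_lit 192)) (XT.lf (nat_lit 0) (nat_lit 2847291318) (nat_lit 152) (nat_lit 6121255087) (nat_lit 228) (nat_lit 9563451379) (nat_lit 22) (nat_lit 5) (nat_lit 24) (nat_lit 5) (nat_lit 25) (nat_lit 5) (nat_lit 338) (nat_lit 251) (nat_lit 191))))))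 (XT.nd (nat_lit 390) (nat_lit 228) (nat_lit 0) (XT.nd (nat_lit 156) (nat_lit 228) (nat_lit 0) (XT.nd (nat_lit 78) (nat_lit 0) (nat_lit 0) (XT.lf (nat_lit 0) (nat_lit 8616386808) (nat_lit 152) (nat_lit 3030798813) (nat_lit 228) (nat_lit 7326992463) (nat_lit 22) (nat_lit 5) (nat_lit 24) (nat_lit 5) (nat_lit 25) (nat_lit 5) (nat_lit 339) (nat_lit 251) (nat_lit 190)) (XT.lf (nat_lit 0) (nat_lit 14381106430) (nat_lit 228) (nat_lit 4914545380) (nat_lit 76) (nat_lit 134768208) (nat_lit 22) (nat_lit 5) (nat_lit 25) (nat_lit 5) (nat_lit 23) (nat_lit 4) (nat_lit 340) (nat_lit 251) (nat_lit 189))) (XT.nd (nat_lit 78) (nat_lit 76) (nat_lit 0) (XT.lf (nat_lit 0) (nat_lit 633564700) (nat_lit 152) (nat_lit 16573809089) (nat_lit 228) (nat_lit 2692708173) (nat_lit 20) (nat_lit 5) (nat_lit 22) (nat_lit 5) (nat_lit 23) (nat_lit 4) (nat_lit 341) (nat_lit 251) (nat_lit 188)) (XT.nd (nat_lit 78) (nat_lit 76) (nat_lit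 0) (XT.lf (nat_lit 0) (nat_lit 6408472919) (nat_lit 152) (nat_lit 13734176647) (nat_lit 228) (nat_lit 240498961) (nat_lit 20) (nat_lit 5) (nat_lit 22) (nat_lit 5) (nat_lit 23) (nat_lit 4) (nat_lit 342) (nat_lit 251) (nat_lit 187)) (XT.lf (nat_lit 0) (nat_lit 2215732066) (nat_lit 228) (nat_lit 8585793909) (nat_lit 76) (nat_lit 10079309608) (nat_lit 19) (nat_lit 5) (nat_lit 22) (nat_lit 5) (nat_lit 20) (nat_lit 5) (nat_lit 343) (nat_lit 251) (nat_lit 186))))) (XT.nd (nat_lit 234) (nat_lit 76) (nat_lit 0) (XT.nd (nat_lit 78) (nat_lit 152) (nat_lit 0) (XT.lf (nat_lit 0) (nat_lit 4716592466) (nat_lit 228) (nat_lit 3076216963) (nat_lit 76) (nat_lit 13601336968) (nat_lit 19) (nat_lit 5) (nat_lit 22) (nat_lit 5) (nat_lit 20) (nat_lit 5) (nat_lit 344) (nat_lit 251) (nat_lit 185)) (XT.nd (nat_lit 78) (nat_lit 0) (nat_lit 0) (XT.lf (nat_lit 0) (nat_lit 2612153776) (nat_lit 152) (nat_lit 4681916298) (nat_lit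 228) (nat_lit 14628775480) (nat_lit 17) (nat_lit 5) (nat_lit 19) (nat_lit 5) (nat_lit 20) (nat_lit 5) (nat_lit 345) (nat_lit 251) (nat_lit 184)) (XT.lf (nat_lit 0) (nat_lit 8497136339) (nat_lit 152) (nat_lit 1459609589) (nat_lit 228) (nat_lit 12510459234) (nat_lit 17) (nat_lit 5) (nat_lit 19) (nat_lit 5) (nat_lit 20) (nat_lit 5) (nat_lit 346) (nat_lit 251) (nat_lit 183)))) (XT.nd (nat_lit 78) (nat_lit 76) (nat_lit 0) (XT.lf (nat_lit 0) (nat_lit 12694531209) (nat_lit 228) (nat_lit 8523699009) (nat_lit 76) (nat_lit 1809843118) (nat_lit 17) (nat_lit 5) (nat_lit 20) (nat_lit 5) (nat_lit 18) (nat_lit 4) (nat_lit 347) (nat_lit 251) (nat_lit 182)) (XT.nd (nat_lit 78) (nat_lit 76) (nat_lit 0) (XT.lf (nat_lit 0) (nat_lit 15506916953) (nat_lit 228) (nat_lit 2963922170) (nat_lit 76) (nat_lit 5135188070) (nat_lit 17) (nat_lit 5) (nat_lit 20) (nat_lit 5) (nat_lit 18) (nat_lit 4) (nat_lit 348) (nat_lit 251)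 (nat_lit 181)) (XT.lf (nat_lit 0) (nat_lit 2782445955) (nat_lit 76) (nat_lit 15626630540) (nat_lit 152) (nat_lit 5792113765) (nat_lit 16) (nat_lit 5) (nat_lit 17) (nat_lit 5) (nat_lit 18) (nat_lit 4) (nat_lit 349) (nat_lit 251) (nat_lit 180))))))))
noncomputable def xc87 : XT := (XT.nd (nat_lit 1716) (nat_lit 228) (nat_lit 0) (XT.nd (nat_lit 858) (nat_lit 304) (nat_lit 0) (XT.nd (nat_lit 390) (nat_lit 76) (nat_lit 0) (XT.nd (nat_lit 156) (nat_lit 228) (nat_lit 0) (XT.nd (nat_lit 78) (nat_lit 0) (nat_lit 0) (XT.lf (nat_lit 0) (nat_lit 8727803272) (nat_lit 76) (nat_lit 12679376329) (nat_lit 152) (nat_lit 3406793969) (nat_lit 16) (nat_lit 5) (nat_lit 17) (nat_lit 5) (nat_lit 18) (nat_lit 4) (nat_lit 350) (nat_lit 251) (nat_lit 179)) (XT.lf (nat_lit 0) (nat_lit 14818356890) (nat_lit 76) (nat_lit 9656431021) (nat_lit 152) (nat_lit 970996394) (nat_lit 16) (nat_lit 5) (nat_lit 17) (nat_lit 5) (nat_lit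 18) (nat_lit 4) (nat_lit 351) (nat_lit 251) (nat_lit 178))) (XT.nd (nat_lit 78) (nat_lit 152) (nat_lit 0) (XT.lf (nat_lit 0) (nat_lit 1487797244) (nat_lit 152) (nat_lit 5052332126) (nat_lit 76) (nat_lit 19556607573) (nat_lit 15) (nat_lit 5) (nat_lit 17) (nat_lit 5) (nat_lit 16) (nat_lit 5) (nat_lit 352) (nat_lit 251) (nat_lit 177)) (XT.nd (nat_lit 78) (nat_lit 0) (nat_lit 0) (XT.lf (nat_lit 0) (nat_lit 661636518) (nat_lit 152) (nat_lit 3326078297) (nat_lit 228) (nat_lit 22779636822) (nat_lit 13) (nat_lit 5) (nat_lit 15) (nat_lit 5) (nat_lit 16) (nat_lit 5) (nat_lit 353) (nat_lit 251) (nat_lit 176)) (XT.lf (nat_lit 0) (nat_lit 6594669027) (nat_lit 228) (nat_lit 20838170409) (nat_lit 76) (nat_lit 24311518) (nat_lit 13) (nat_lit 5) (nat_lit 16) (nat_lit 5) (nat_lit 14) (nat_lit 4) (nat_lit 354) (nat_lit 251) (nat_lit 175))))) (XT.nd (nat_lit 234) (nat_lit 76) (nat_lit 0) (XT.nd (nat_lit 78) (nat_lit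 0) (nat_lit 0) (XT.lf (nat_lit 0) (nat_lit 9293991820) (nat_lit 228) (nat_lit 15476456213) (nat_lit 76) (nat_lit 3396797978) (nat_lit 13) (nat_lit 5) (nat_lit 16) (nat_lit 5) (nat_lit 14) (nat_lit 4) (nat_lit 355) (nat_lit 251) (nat_lit 174)) (XT.nd (nat_lit 78) (nat_lit 0) (nat_lit 0) (XT.lf (nat_lit 0) (nat_lit 12056069526) (nat_lit 228) (nat_lit 9983915240) (nat_lit 76) (nat_lit 6859231681) (nat_lit 13) (nat_lit 5) (nat_lit 16) (nat_lit 5) (nat_lit 14) (nat_lit 4) (nat_lit 356) (nat_lit 251) (nat_lit 173)) (XT.lf (nat_lit 0) (nat_lit 14883315612) (nat_lit 228) (nat_lit 4355748181) (nat_lit 76) (nat_lit 10414638056) (nat_lit 13) (nat_lit 5) (nat_lit 16) (nat_lit 5) (nat_lit 14) (nat_lit 4) (nat_lit 357) (nat_lit 251) (nat_lit 172)))) (XT.nd (nat_lit 78) (nat_lit 0) (nat_lit 0) (XT.lf (nat_lit 0) (nat_lit 1441083507) (nat_lit 76) (nat_lit 16350969554) (nat_lit 152) (nat_lit 12638892836) (nat_lit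 12) (nat_lit 5) (nat_lit 13) (nat_lit 5) (nat_lit 14) (nat_lit 4) (nat_lit 358) (nat_lit 251) (nat_lit 171)) (XT.nd (nat_lit 78) (nat_lit 0) (nat_lit 0) (XT.lf (nat_lit 0) (nat_lit 7473085065) (nat_lit 76) (nat_lit 13342004459) (nat_lit 152) (nat_lit 10415630235) (nat_lit 12) (nat_lit 5) (nat_lit 13) (nat_lit 5) (nat_lit 14) (nat_lit 4) (nat_lit 359) (nat_lit 251) (nat_lit 170)) (XT.lf (nat_lit 0) (nat_lit 13658839244) (nat_lit 76) (nat_lit 10253523830) (nat_lit 152) (nat_lit 8142640292) (nat_lit 12) (nat_lit 5) (nat_lit 13) (nat_lit 5) (nat_lit 14) (nat_lit 4) (nat_lit 360) (nat_lit 251) (nat_lit 169)))))) (XT.nd (nat_lit 390) (nat_lit 76) (nat_lit 0) (XT.nd (nat_lit 156) (nat_lit 228) (nat_lit 0) (XT.nd (nat_lit 78) (nat_lit 0) (nat_lit 0) (XT.lf (nat_lit 0) (nat_lit 20003751071) (nat_lit 76) (nat_lit 7082828995) (nat_lit 152) (nat_lit 5817936900) (nat_lit 12) (nat_lit 5) (nat_lit 13) (nat_lit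 5) (nat_lit 14) (nat_lit 4) (nat_lit 361) (nat_lit 251) (nat_lit 168)) (XT.lf (nat_lit 0) (nat_lit 26513364644) (nat_lit 76) (nat_lit 3827149445) (nat_lit 152) (nat_lit 3439488764) (nat_lit 12) (nat_lit 5) (nat_lit 13) (nat_lit 5) (nat_lit 14) (nat_lit 4) (nat_lit 362) (nat_lit 251) (nat_lit 167))) (XT.nd (nat_lit 78) (nat_lit 228) (nat_lit 0) (XT.lf (nat_lit 0) (nat_lit 33193367976) (nat_lit 76) (nat_lit 483640410) (nat_lit 152) (nat_lit 1005217630) (nat_lit 12) (nat_lit 5) (nat_lit 13) (nat_lit 5) (nat_lit 14) (nat_lit 4) (nat_lit 363) (nat_lit 251) (nat_lit 166)) (XT.nd (nat_lit 78) (nat_lit 0) (nat_lit 0) (XT.lf (nat_lit 0) (nat_lit 1530286764) (nat_lit 228) (nat_lit 31127816962) (nat_lit 76) (nat_lit 2951273256) (nat_lit 9) (nat_lit 5) (nat_lit 12) (nat_lit 5) (nat_lit 10) (nat_lit 4) (nat_lit 364) (nat_lit 251) (nat_lit 165)) (XT.lf (nat_lit 0) (nat_lit 4126945111) (nat_lit 228) (nat_lit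 25941781986) (nat_lit 76) (nat_lit 6495177207) (nat_lit 9) (nat_lit 5) (nat_lit 12) (nat_lit 5) (nat_lit 10) (nat_lit 4) (nat_lit 365) (nat_lit 251) (nat_lit 164))))) (XT.nd (nat_lit 234) (nat_lit 76) (nat_lit 0) (XT.nd (nat_lit 78) (nat_lit 0) (nat_lit 0) (XT.lf (nat_lit 0) (nat_lit 6787251534) (nat_lit 228) (nat_lit 20624060401) (nat_lit 76) (nat_lit 10136201688) (nat_lit 9) (nat_lit 5) (nat_lit 12) (nat_lit 5) (nat_lit 10) (nat_lit 4) (nat_lit 366) (nat_lit 251) (nat_lit 163)) (XT.nd (nat_lit 78) (nat_lit 0) (nat_lit 0) (XT.lf (nat_lit 0) (nat_lit 9513530574) (nat_lit 228) (nat_lit 15170005653) (nat_lit 76) (nat_lit 13877528177) (nat_lit 9) (nat_lit 5) (nat_lit 12) (nat_lit 5) (nat_lit 10) (nat_lit 4) (nat_lit 367) (nat_lit 251) (nat_lit 162)) (XT.lf (nat_lit 0) (nat_lit 12308164416) (nat_lit 228) (nat_lit 9574852063) (nat_lit 76) (nat_lit 17722425794) (nat_lit 9) (nat_lit 5) (nat_lit 12)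 (nat_lit 5) (nat_lit 10) (nat_lit 4) (nat_lit 368) (nat_lit 251) (nat_lit 161)))) (XT.nd (nat_lit 78) (nat_lit 76) (nat_lit 0) (XT.lf (nat_lit 0) (nat_lit 15173594974) (nat_lit 228) (nat_lit 3833710663) (nat_lit 76) (nat_lit 21674254159) (nat_lit 9) (nat_lit 5) (nat_lit 12) (nat_lit 5) (nat_lit 10) (nat_lit 4) (nat_lit 369) (nat_lit 251) (nat_lit 160)) (XT.nd (nat_lit 78) (nat_lit 0) (nat_lit 0) (XT.lf (nat_lit 0) (nat_lit 2099401972) (nat_lit 76) (nat_lit 16033104784) (nat_lit 152) (nat_lit 23657245089) (nat_lit 8) (nat_lit 5) (nat_lit 9) (nat_lit 5) (nat_lit 10) (nat_lit 4) (nat_lit 370) (nat_lit 251) (nat_lit 159)) (XT.lf (nat_lit 0) (nat_lit 8268073534) (nat_lit 76) (nat_lit 12938329626) (nat_lit 152) (nat_lit 21724016046) (nat_lit 8) (nat_lit 5) (nat_lit 9) (nat_lit 5) (nat_lit 10) (nat_lit 4) (nat_lit 371) (nat_lit 251) (nat_lit 158))))))) (XT.nd (nat_lit 858) (nat_lit 76) (nat_lit 0)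 (XT.nd (nat_lit 390) (nat_lit 152) (nat_lit 0) (XT.nd (nat_lit 156) (nat_lit 0) (nat_lit 0) (XT.nd (nat_lit 78) (nat_lit 0) (nat_lit 0) (XT.lf (nat_lit 0) (nat_lit 14601395763) (nat_lit 76) (nat_lit 9758988952) (nat_lit 152) (nat_lit 19745301425) (nat_lit 8) (nat_lit 5) (nat_lit 9) (nat_lit 5) (nat_lit 10) (nat_lit 4) (nat_lit 372) (nat_lit 251) (nat_lit 157)) (XT.lf (nat_lit 0) (nat_lit 21104902630) (nat_lit 76) (nat_lit 6492304698) (nat_lit 152) (nat_lit 17719372251) (nat_lit 8) (nat_lit 5) (nat_lit 9) (nat_lit 5) (nat_lit 10) (nat_lit 4) (nat_lit 373) (nat_lit 251) (nat_lit 156))) (XT.nd (nat_lit 78) (nat_lit 0) (nat_lit 0) (XT.lf (nat_lit 0) (nat_lit 27784276812) (nat_lit 76) (nat_lit 3135422479) (nat_lit 152) (nat_lit 15644458297) (nat_lit 8) (nat_lit 5) (nat_lit 9) (nat_lit 5) (nat_lit 10) (nat_lit 4) (nat_lit 374) (nat_lit 251) (nat_lit 155)) (XT.nd (nat_lit 78) (nat_lit 0) (nat_lit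 0) (XT.lf (nat_lit 0) (nat_lit 34333787792) (nat_lit 152) (nat_lit 13207179667) (nat_lit 0) (nat_lit 308452100) (nat_lit 8) (nat_lit 5) (nat_lit 10) (nat_lit 4) (nat_lit 8) (nat_lit 4) (nat_lit 375) (nat_lit 251) (nat_lit 154)) (XT.lf (nat_lit 0) (nat_lit 37870493142) (nat_lit 152) (nat_lit 7516741400) (nat_lit 0) (nat_lit 3785412883) (nat_lit 8) (nat_lit 5) (nat_lit 10) (nat_lit 4) (nat_lit 8) (nat_lit 4) (nat_lit 376) (nat_lit 251) (nat_lit 153))))) (XT.nd (nat_lit 234) (nat_lit 76) (nat_lit 0) (XT.nd (nat_lit 78) (nat_lit 76) (nat_lit 0) (XT.lf (nat_lit 0) (nat_lit 41502766068) (nat_lit 152) (nat_lit 1673454147) (nat_lit 0) (nat_lit 7359681374) (nat_lit 8) (nat_lit 5) (nat_lit 10) (nat_lit 4) (nat_lit 8) (nat_lit 4) (nat_lit 377) (nat_lit 251) (nat_lit 152)) (XT.nd (nat_lit 78) (nat_lit 0) (nat_lit 0) (XT.lf (nat_lit 0) (nat_lit 4413919338) (nat_lit 76) (nat_lit 40862290356) (nat_lit 76)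 (nat_lit 6662890676) (nat_lit 7) (nat_lit 4) (nat_lit 8) (nat_lit 5) (nat_lit 8) (nat_lit 4) (nat_lit 378) (nat_lit 251) (nat_lit 151)) (XT.lf (nat_lit 0) (nat_lit 10701044389) (nat_lit 76) (nat_lit 38468616847) (nat_lit 76) (nat_lit 4214542425) (nat_lit 7) (nat_lit 4) (nat_lit 8) (nat_lit 5) (nat_lit 8) (nat_lit 4) (nat_lit 379) (nat_lit 251) (nat_lit 150)))) (XT.nd (nat_lit 78) (nat_lit 76) (nat_lit 0) (XT.lf (nat_lit 0) (nat_lit 17160109589) (nat_lit 76) (nat_lit 36010006736) (nat_lit 76) (nat_lit 1702850040) (nat_lit 7) (nat_lit 4) (nat_lit 8) (nat_lit 5) (nat_lit 8) (nat_lit 4) (nat_lit 380) (nat_lit 251) (nat_lit 149)) (XT.nd (nat_lit 78) (nat_lit 0) (nat_lit 0) (XT.lf (nat_lit 0) (nat_lit 857318835) (nat_lit 152) (nat_lit 32618335649) (nat_lit 76) (nat_lit 22930782707) (nat_lit 6) (nat_lit 5) (nat_lit 8) (nat_lit 5) (nat_lit 7) (nat_lit 4) (nat_lit 381) (nat_lit 251) (nat_lit 148)) (XT.lf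 (nat_lit 0) (nat_lit 3450726897) (nat_lit 152) (nat_lit 27403752417) (nat_lit 76) (nat_lit 27131218508) (nat_lit 6) (nat_lit 5) (nat_lit 8) (nat_lit 5) (nat_lit 7) (nat_lit 4) (nat_lit 382) (nat_lit 251) (nat_lit 147)))))) (XT.nd (nat_lit 468) (nat_lit 0) (nat_lit 0) (XT.nd (nat_lit 234) (nat_lit 76) (nat_lit 0) (XT.nd (nat_lit 78) (nat_lit 0) (nat_lit 0) (XT.lf (nat_lit 0) (nat_lit 6112868968) (nat_lit 152) (nat_lit 22048181815) (nat_lit 76) (nat_lit 31451568479) (nat_lit 6) (nat_lit 5) (nat_lit 8) (nat_lit 5) (nat_lit 7) (nat_lit 4) (nat_lit 383) (nat_lit 251) (nat_lit 146)) (XT.nd (nat_lit 78) (nat_lit 0) (nat_lit 0) (XT.lf (nat_lit 0) (nat_lit 8846071191) (nat_lit 152) (nat_lit 16546944215) (nat_lit 76) (nat_lit 35895607685) (nat_lit 6) (nat_lit 5) (nat_lit 8) (nat_lit 5) (nat_lit 7) (nat_lit 4) (nat_lit 384) (nat_lit 251) (nat_lit 145)) (XT.lf (nat_lit 0) (nat_lit 11652721802) (nat_lit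 152) (nat_lit 10895232713) (nat_lit 76) (nat_lit 40467219265) (nat_lit 6) (nat_lit 5) (nat_lit 8) (nat_lit 5) (nat_lit 7) (nat_lit 4) (nat_lit 385) (nat_lit 251) (nat_lit 144)))) (XT.nd (nat_lit 78) (nat_lit 76) (nat_lit 0) (XT.lf (nat_lit 0) (nat_lit 14535273212) (nat_lit 152) (nat_lit 5088108919) (nat_lit 76) (nat_lit 45170397833) (nat_lit 6) (nat_lit 5) (nat_lit 8) (nat_lit 5) (nat_lit 7) (nat_lit 4) (nat_lit 386) (nat_lit 251) (nat_lit 143)) (XT.nd (nat_lit 78) (nat_lit 0) (nat_lit 0) (XT.lf (nat_lit 0) (nat_lit 897005154) (nat_lit 76) (nat_lit 16607861566) (nat_lit 152) (nat_lit 49120870369) (nat_lit 5) (nat_lit 5) (nat_lit 6) (nat_lit 5) (nat_lit 7) (nat_lit 4) (nat_lit 387) (nat_lit 251) (nat_lit 142)) (XT.lf (nat_lit 0) (nat_lit 7152381238) (nat_lit 76) (nat_lit 13454593719) (nat_lit 152) (nat_lit 47904384600) (nat_lit 5) (nat_lit 5) (nat_lit 6) (nat_lit 5) (nat_lit 7) (nat_lit 4) (nat_lit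 388) (nat_lit 251) (nat_lit 141))))) (XT.nd (nat_lit 234) (nat_lit 0) (nat_lit 0) (XT.nd (nat_lit 78) (nat_lit 0) (nat_lit 0) (XT.lf (nat_lit 0) (nat_lit 13582221853) (nat_lit 76) (nat_lit 10212203231) (nat_lit 152) (nat_lit 46659366420) (nat_lit 5) (nat_lit 5) (nat_lit 6) (nat_lit 5) (nat_lit 7) (nat_lit 4) (nat_lit 389) (nat_lit 251) (nat_lit 140)) (XT.nd (nat_lit 78) (nat_lit 0) (nat_lit 0) (XT.lf (nat_lit 0) (nat_lit 20192145304) (nat_lit 76) (nat_lit 6877856947) (nat_lit 152) (nat_lit 45384727949) (nat_lit 5) (nat_lit 5) (nat_lit 6) (nat_lit 5) (nat_lit 7) (nat_lit 4) (nat_lit 390) (nat_lit 251) (nat_lit 139)) (XT.lf (nat_lit 0) (nat_lit 26987927253) (nat_lit 76) (nat_lit 3448641359) (nat_lit 152) (nat_lit 44079355426) (nat_lit 5) (nat_lit 5) (nat_lit 6) (nat_lit 5) (nat_lit 7) (nat_lit 4) (nat_lit 391) (nat_lit 251) (nat_lit 138)))) (XT.nd (nat_lit 78) (nat_lit 0) (nat_lit 0) (XT.lf (nat_lit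 0) (nat_lit 33897819842) (nat_lit 152) (nat_lit 42664422312) (nat_lit 0) (nat_lit 76909288) (nat_lit 5) (nat_lit 5) (nat_lit 7) (nat_lit 4) (nat_lit 5) (nat_lit 4) (nat_lit 392) (nat_lit 251) (nat_lit 137)) (XT.nd (nat_lit 78) (nat_lit 0) (nat_lit 0) (XT.lf (nat_lit 0) (nat_lit 37490146482) (nat_lit 152) (nat_lit 37700977899) (nat_lit 0) (nat_lit 3634142290) (nat_lit 5) (nat_lit 5) (nat_lit 7) (nat_lit 4) (nat_lit 5) (nat_lit 4) (nat_lit 393) (nat_lit 251) (nat_lit 136)) (XT.lf (nat_lit 0) (nat_lit 41183537008) (nat_lit 152) (nat_lit 32600176108) (nat_lit 0) (nat_lit 7293461325) (nat_lit 5) (nat_lit 5) (nat_lit 7) (nat_lit 4) (nat_lit 5) (nat_lit 4) (nat_lit 394) (nat_lit 251) (nat_lit 135))))))))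
noncomputable def xc88 : XT := (XT.nd (nat_lit 32838) (nat_lit 0) (nat_lit 3496) (XT.nd (nat_lit 31980) (nat_lit 0) (nat_lit 7752) (XT.nd (nat_lit 31512) (nat_lit 0) (nat_lit 12540) (XT.nd (nat_lit 156) (nat_lit 0) (nat_lit 0) (XT.nd (nat_lit 78) (nat_lit 0) (nat_lit 0) (XT.lf (nat_lit 0) (nat_lit 44981218656) (nat_lit 152) (nat_lit 27357559927) (nat_lit 0) (nat_lit 11058063853) (nat_lit 5) (nat_lit 5) (nat_lit 7) (nat_lit 4) (nat_lit 5) (nat_lit 4) (nat_lit 395) (nat_lit 251) (nat_lit 134)) (XT.lf (nat_lit 0) (nat_lit 48886509787) (nat_lit 152) (nat_lit 21968548428) (nat_lit 0) (nat_lit 14931239335) (nat_lit 5) (nat_lit 5) (nat_lit 7) (nat_lit 4) (nat_lit 5) (nat_lit 4) (nat_lit 396) (nat_lit 251) (nat_lit 133))) (XT.nd (nat_lit 31200) (nat_lit 0) (nat_lit 14972) (XT.lf (nat_lit 0) (nat_lit 52902822792) (nat_lit 152) (nat_lit 16428432768) (nat_lit 0) (nat_lit 18916372098) (nat_lit 5) (nat_lit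 5) (nat_lit 7) (nat_lit 4) (nat_lit 5) (nat_lit 4) (nat_lit 397) (nat_lit 251) (nat_lit 132)) (XT.nd (nat_lit 78) (nat_lit 684) (nat_lit 0) (XT.lf (nat_lit 0) (nat_lit 2592420549) (nat_lit 532) (nat_lit 391377475) (nat_lit 532) (nat_lit 391377475) (nat_lit 211) (nat_lit 4) (nat_lit 218) (nat_lit 5) (nat_lit 218) (nat_lit 4) (nat_lit 276) (nat_lit 252) (nat_lit 252)) (XT.lf (nat_lit 0) (nat_lit 1984987428) (nat_lit 684) (nat_lit 4663979395) (nat_lit 0) (nat_lit 142449275) (nat_lit 202) (nat_lit 5) (nat_lit 211) (nat_lit 4) (nat_lit 202) (nat_lit 4) (nat_lit 277) (nat_lit 252) (nat_lit 251))))) (XT.nd (nat_lit 234) (nat_lit 1672) (nat_lit 0) (XT.nd (nat_lit 78) (nat_lit 760) (nat_lit 0) (XT.lf (nat_lit 0) (nat_lit 4752987400) (nat_lit 684) (nat_lit 961342275) (nat_lit 0) (nat_lit 1121577254) (nat_lit 202) (nat_lit 5) (nat_lit 211) (nat_lit 4) (nat_lit 202) (nat_lit 4) (nat_lit 278) (nat_lit 252)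 (nat_lit 250)) (XT.nd (nat_lit 78) (nat_lit 0) (nat_lit 0) (XT.lf (nat_lit 0) (nat_lit 646332571) (nat_lit 760) (nat_lit 4056123951) (nat_lit 76) (nat_lit 2181314895) (nat_lit 192) (nat_lit 5) (nat_lit 202) (nat_lit 5) (nat_lit 193) (nat_lit 4) (nat_lit 279) (nat_lit 252) (nat_lit 249)) (XT.lf (nat_lit 0) (nat_lit 3337916873) (nat_lit 760) (nat_lit 278391241) (nat_lit 76) (nat_lit 3318855261) (nat_lit 192) (nat_lit 5) (nat_lit 202) (nat_lit 5) (nat_lit 193) (nat_lit 4) (nat_lit 280) (nat_lit 252) (nat_lit 248)))) (XT.nd (nat_lit 78) (nat_lit 912) (nat_lit 0) (XT.lf (nat_lit 0) (nat_lit 3610402073) (nat_lit 760) (nat_lit 2449615588) (nat_lit 836) (nat_lit 929955100) (nat_lit 182) (nat_lit 5) (nat_lit 192) (nat_lit 5) (nat_lit 193) (nat_lit 4) (nat_lit 281) (nat_lit 252) (nat_lit 247)) (XT.nd (nat_lit 78) (nat_lit 0) (nat_lit 0) (XT.lf (nat_lit 0) (nat_lit 493316628) (nat_lit 836) (nat_lit 1211827279)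 (nat_lit 912) (nat_lit 5343408447) (nat_lit 170) (nat_lit 5) (nat_lit 181) (nat_lit 5) (nat_lit 182) (nat_lit 5) (nat_lit 282) (nat_lit 252) (nat_lit 246)) (XT.lf (nat_lit 0) (nat_lit 4353187613) (nat_lit 912) (nat_lit 2642563195) (nat_lit 76) (nat_lit 114622262) (nat_lit 170) (nat_lit 5) (nat_lit 182) (nat_lit 5) (nat_lit 171) (nat_lit 4) (nat_lit 283) (nat_lit 252) (nat_lit 245)))))) (XT.nd (nat_lit 390) (nat_lit 1672) (nat_lit 0) (XT.nd (nat_lit 156) (nat_lit 2128) (nat_lit 0) (XT.nd (nat_lit 78) (nat_lit 76) (nat_lit 0) (XT.lf (nat_lit 0) (nat_lit 1327399142) (nat_lit 912) (nat_lit 5697945599) (nat_lit 988) (nat_lit 150691123) (nat_lit 158) (nat_lit 5) (nat_lit 170) (nat_lit 5) (nat_lit 171) (nat_lit 4) (nat_lit 284) (nat_lit 252) (nat_lit 244)) (XT.lf (nat_lit 0) (nat_lit 2431953188) (nat_lit 988) (nat_lit 1872021163) (nat_lit 76) (nat_lit 2940850176) (nat_lit 157) (nat_lit 5) (nat_lit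 170) (nat_lit 5) (nat_lit 158) (nat_lit 5) (nat_lit 285) (nat_lit 252) (nat_lit 243))) (XT.nd (nat_lit 78) (nat_lit 1140) (nat_lit 0) (XT.lf (nat_lit 0) (nat_lit 2192206956) (nat_lit 988) (nat_lit 2840684514) (nat_lit 1064) (nat_lit 2284725138) (nat_lit 144) (nat_lit 5) (nat_lit 157) (nat_lit 5) (nat_lit 158) (nat_lit 5) (nat_lit 286) (nat_lit 252) (nat_lit 242)) (XT.nd (nat_lit 78) (nat_lit 1064) (nat_lit 0) (XT.lf (nat_lit 0) (nat_lit 255417058) (nat_lit 1064) (nat_lit 1052610593) (nat_lit 76) (nat_lit 6086483888) (nat_lit 143) (nat_lit 5) (nat_lit 157) (nat_lit 5) (nat_lit 144) (nat_lit 5) (nat_lit 287) (nat_lit 252) (nat_lit 241)) (XT.lf (nat_lit 0) (nat_lit 2784394342) (nat_lit 1140) (nat_lit 4369291573) (nat_lit 76) (nat_lit 320866602) (nat_lit 129) (nat_lit 5) (nat_lit 144) (nat_lit 5) (nat_lit 130) (nat_lit 5) (nat_lit 288) (nat_lit 252) (nat_lit 240))))) (XT.nd (nat_lit 234) (nat_lit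 608) (nat_lit 0) (XT.nd (nat_lit 78) (nat_lit 1064) (nat_lit 0) (XT.lf (nat_lit 0) (nat_lit 5339953128) (nat_lit 1140) (nat_lit 233962408) (nat_lit 76) (nat_lit 1984824207) (nat_lit 129) (nat_lit 5) (nat_lit 144) (nat_lit 5) (nat_lit 130) (nat_lit 5) (nat_lit 289) (nat_lit 252) (nat_lit 239)) (XT.nd (nat_lit 78) (nat_lit 456) (nat_lit 0) (XT.lf (nat_lit 0) (nat_lit 287695232) (nat_lit 608) (nat_lit 3616908108) (nat_lit 76) (nat_lit 3741985776) (nat_lit 121) (nat_lit 5) (nat_lit 129) (nat_lit 5) (nat_lit 122) (nat_lit 5) (nat_lit 290) (nat_lit 252) (nat_lit 238)) (XT.lf (nat_lit 0) (nat_lit 606393662) (nat_lit 456) (nat_lit 2156198445) (nat_lit 532) (nat_lit 4975932118) (nat_lit 115) (nat_lit 5) (nat_lit 121) (nat_lit 5) (nat_lit 122) (nat_lit 5) (nat_lit 291) (nat_lit 252) (nat_lit 237)))) (XT.nd (nat_lit 78) (nat_lit 608) (nat_lit 0) (XT.lf (nat_lit 0) (nat_lit 4958773769) (nat_lit 456) (nat_lit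 320447424) (nat_lit 532) (nat_lit 2555208314) (nat_lit 115) (nat_lit 5) (nat_lit 121) (nat_lit 5) (nat_lit 122) (nat_lit 5) (nat_lit 292) (nat_lit 252) (nat_lit 236)) (XT.nd (nat_lit 78) (nat_lit 76) (nat_lit 0) (XT.lf (nat_lit 0) (nat_lit 1449820375) (nat_lit 532) (nat_lit 6383507769) (nat_lit 608) (nat_lit 101254219) (nat_lit 108) (nat_lit 5) (nat_lit 115) (nat_lit 5) (nat_lit 116) (nat_lit 5) (nat_lit 293) (nat_lit 252) (nat_lit 235)) (XT.lf (nat_lit 0) (nat_lit 2344816708) (nat_lit 608) (nat_lit 2172370381) (nat_lit 76) (nat_lit 3521094281) (nat_lit 107) (nat_lit 5) (nat_lit 115) (nat_lit 5) (nat_lit 108) (nat_lit 5) (nat_lit 294) (nat_lit 252) (nat_lit 234))))))) (XT.nd (nat_lit 858) (nat_lit 1596) (nat_lit 0) (XT.nd (nat_lit 390) (nat_lit 1292) (nat_lit 0) (XT.nd (nat_lit 156) (nat_lit 912) (nat_lit 0) (XT.nd (nat_lit 78) (nat_lit 0) (nat_lit 0) (XT.lf (nat_lit 0) (nat_lit 2241521774)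 (nat_lit 456) (nat_lit 2577546829) (nat_lit 532) (nat_lit 3327497935) (nat_lit 101) (nat_lit 5) (nat_lit 107) (nat_lit 5) (nat_lit 108) (nat_lit 5) (nat_lit 295) (nat_lit 252) (nat_lit 233)) (XT.lf (nat_lit 0) (nat_lit 6762445554) (nat_lit 456) (nat_lit 563539014) (nat_lit 532) (nat_lit 933566760) (nat_lit 101) (nat_lit 5) (nat_lit 107) (nat_lit 5) (nat_lit 108) (nat_lit 5) (nat_lit 296) (nat_lit 252) (nat_lit 232))) (XT.nd (nat_lit 78) (nat_lit 380) (nat_lit 0) (XT.lf (nat_lit 0) (nat_lit 1483729326) (nat_lit 532) (nat_lit 5373652379) (nat_lit 76) (nat_lit 1518851190) (nat_lit 94) (nat_lit 5) (nat_lit 101) (nat_lit 5) (nat_lit 95) (nat_lit 5) (nat_lit 297) (nat_lit 252) (nat_lit 231)) (XT.nd (nat_lit 78) (nat_lit 380) (nat_lit 0) (XT.lf (nat_lit 0) (nat_lit 3914261000) (nat_lit 532) (nat_lit 913578508) (nat_lit 76) (nat_lit 3669700526) (nat_lit 94) (nat_lit 5) (nat_lit 101) (nat_lit 5) (nat_lit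 95) (nat_lit 5) (nat_lit 298) (nat_lit 252) (nat_lit 230)) (XT.lf (nat_lit 0) (nat_lit 3683643566) (nat_lit 380) (nat_lit 2709895234) (nat_lit 456) (nat_lit 2229854076) (nat_lit 89) (nat_lit 5) (nat_lit 94) (nat_lit 5) (nat_lit 95) (nat_lit 5) (nat_lit 299) (nat_lit 252) (nat_lit 229))))) (XT.nd (nat_lit 234) (nat_lit 836) (nat_lit 0) (XT.nd (nat_lit 78) (nat_lit 380) (nat_lit 0) (XT.lf (nat_lit 0) (nat_lit 140453164) (nat_lit 456) (nat_lit 386406022) (nat_lit 76) (nat_lit 8227775047) (nat_lit 88) (nat_lit 5) (nat_lit 94) (nat_lit 5) (nat_lit 89) (nat_lit 5) (nat_lit 300) (nat_lit 252) (nat_lit 228)) (XT.nd (nat_lit 78) (nat_lit 0) (nat_lit 0) (XT.lf (nat_lit 0) (nat_lit 2537929992) (nat_lit 456) (nat_lit 4608752654) (nat_lit 76) (nat_lit 1742607508) (nat_lit 83) (nat_lit 5) (nat_lit 89) (nat_lit 5) (nat_lit 84) (nat_lit 5) (nat_lit 301) (nat_lit 252) (nat_lit 227)) (XT.lf (nat_lit 0) (nat_lit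 4959904846) (nat_lit 456) (nat_lit 6011288) (nat_lit 76) (nat_lit 4063653573) (nat_lit 83) (nat_lit 5) (nat_lit 89) (nat_lit 5) (nat_lit 84) (nat_lit 5) (nat_lit 302) (nat_lit 252) (nat_lit 226)))) (XT.nd (nat_lit 78) (nat_lit 456) (nat_lit 0) (XT.lf (nat_lit 0) (nat_lit 4761416147) (nat_lit 380) (nat_lit 2683957219) (nat_lit 456) (nat_lit 1729115721) (nat_lit 78) (nat_lit 5) (nat_lit 83) (nat_lit 5) (nat_lit 84) (nat_lit 5) (nat_lit 303) (nat_lit 252) (nat_lit 225)) (XT.nd (nat_lit 78) (nat_lit 0) (nat_lit 0) (XT.lf (nat_lit 0) (nat_lit 280257610) (nat_lit 380) (nat_lit 336196558) (nat_lit 456) (nat_lit 8708809626) (nat_lit 72) (nat_lit 5) (nat_lit 77) (nat_lit 5) (nat_lit 78) (nat_lit 5) (nat_lit 304) (nat_lit 252) (nat_lit 224)) (XT.lf (nat_lit 0) (nat_lit 3008840529) (nat_lit 456) (nat_lit 4379818934) (nat_lit 76) (nat_lit 2091195789) (nat_lit 72) (nat_lit 5) (nat_lit 78) (nat_lit 5) (nat_lit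 73) (nat_lit 5) (nat_lit 305) (nat_lit 252) (nat_lit 223)))))) (XT.nd (nat_lit 390) (nat_lit 912) (nat_lit 0) (XT.nd (nat_lit 156) (nat_lit 380) (nat_lit 0) (XT.nd (nat_lit 78) (nat_lit 0) (nat_lit 0) (XT.lf (nat_lit 0) (nat_lit 363187961) (nat_lit 304) (nat_lit 5064382670) (nat_lit 380) (nat_lit 4213015683) (nat_lit 68) (nat_lit 5) (nat_lit 72) (nat_lit 5) (nat_lit 73) (nat_lit 5) (nat_lit 306) (nat_lit 252) (nat_lit 222)) (XT.lf (nat_lit 0) (nat_lit 5273018682) (nat_lit 304) (nat_lit 2638718393) (nat_lit 380) (nat_lit 1894750973) (nat_lit 68) (nat_lit 5) (nat_lit 72) (nat_lit 5) (nat_lit 73) (nat_lit 5) (nat_lit 307) (nat_lit 252) (nat_lit 221))) (XT.nd (nat_lit 78) (nat_lit 0) (nat_lit 0) (XT.lf (nat_lit 0) (nat_lit 289201434) (nat_lit 304) (nat_lit 146539270) (nat_lit 380) (nat_lit 9543042156) (nat_lit 63) (nat_lit 5) (nat_lit 67) (nat_lit 5) (nat_lit 68) (nat_lit 5) (nat_lit 308) (nat_lit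 252) (nat_lit 220)) (XT.nd (nat_lit 78) (nat_lit 0) (nat_lit 0) (XT.lf (nat_lit 0) (nat_lit 2817803596) (nat_lit 380) (nat_lit 4913191817) (nat_lit 76) (nat_lit 2424219656) (nat_lit 63) (nat_lit 5) (nat_lit 68) (nat_lit 5) (nat_lit 64) (nat_lit 5) (nat_lit 309) (nat_lit 252) (nat_lit 219)) (XT.lf (nat_lit 0) (nat_lit 5224468825) (nat_lit 380) (nat_lit 58381914) (nat_lit 76) (nat_lit 5055615213) (nat_lit 63) (nat_lit 5) (nat_lit 68) (nat_lit 5) (nat_lit 64) (nat_lit 5) (nat_lit 310) (nat_lit 252) (nat_lit 218))))) (XT.nd (nat_lit 234) (nat_lit 228) (nat_lit 0) (XT.nd (nat_lit 78) (nat_lit 380) (nat_lit 0) (XT.lf (nat_lit 0) (nat_lit 4977630473) (nat_lit 304) (nat_lit 2726648235) (nat_lit 380) (nat_lit 2823023744) (nat_lit 59) (nat_lit 5) (nat_lit 63) (nat_lit 5) (nat_lit 64) (nat_lit 5) (nat_lit 311) (nat_lit 252) (nat_lit 217)) (XT.nd (nat_lit 78) (nat_lit 380) (nat_lit 0) (XT.lf (nat_lit 0)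 (nat_lit 10104950353) (nat_lit 304) (nat_lit 107998784) (nat_lit 380) (nat_lit 510333962) (nat_lit 59) (nat_lit 5) (nat_lit 63) (nat_lit 5) (nat_lit 64) (nat_lit 5) (nat_lit 312) (nat_lit 252) (nat_lit 216)) (XT.lf (nat_lit 0) (nat_lit 1858199164) (nat_lit 380) (nat_lit 6480153333) (nat_lit 76) (nat_lit 2585667841) (nat_lit 54) (nat_lit 5) (nat_lit 59) (nat_lit 5) (nat_lit 55) (nat_lit 5) (nat_lit 313) (nat_lit 252) (nat_lit 215)))) (XT.nd (nat_lit 78) (nat_lit 228) (nat_lit 0) (XT.lf (nat_lit 0) (nat_lit 4250178095) (nat_lit 380) (nat_lit 1527077165) (nat_lit 76) (nat_lit 5354596886) (nat_lit 54) (nat_lit 5) (nat_lit 59) (nat_lit 5) (nat_lit 55) (nat_lit 5) (nat_lit 314) (nat_lit 252) (nat_lit 214)) (XT.nd (nat_lit 78) (nat_lit 0) (nat_lit 0) (XT.lf (nat_lit 0) (nat_lit 3585420980) (nat_lit 228) (nat_lit 3119535386) (nat_lit 304) (nat_lit 4641331777) (nat_lit 51) (nat_lit 5) (nat_lit 54) (nat_lit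 5) (nat_lit 55) (nat_lit 5) (nat_lit 315) (nat_lit 252) (nat_lit 213)) (XT.lf (nat_lit 0) (nat_lit 8824042624) (nat_lit 228) (nat_lit 382032506) (nat_lit 304) (nat_lit 2361998684) (nat_lit 51) (nat_lit 5) (nat_lit 54) (nat_lit 5) (nat_lit 55) (nat_lit 5) (nat_lit 316) (nat_lit 252) (nat_lit 212))))))))
noncomputable def xc89 : XT := (XT.nd (nat_lit 1716) (nat_lit 912) (nat_lit 0) (XT.nd (nat_lit 858) (nat_lit 684) (nat_lit 0) (XT.nd (nat_lit 390) (nat_lit 760) (nat_lit 0) (XT.nd (nat_lit 156) (nat_lit 228) (nat_lit 0) (XT.nd (nat_lit 78) (nat_lit 76) (nat_lit 0) (XT.lf (nat_lit 0) (nat_lit 2388444524) (nat_lit 304) (nat_lit 9398547059) (nat_lit 380) (nat_lit 9473218) (nat_lit 47) (nat_lit 5) (nat_lit 51) (nat_lit 5) (nat_lit 52) (nat_lit 5) (nat_lit 317) (nat_lit 252) (nat_lit 211)) (XT.lf (nat_lit 0) (nat_lit 2356833143) (nat_lit 380) (nat_lit 4385376117) (nat_lit 76) (nat_lit 5289182342)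 (nat_lit 46) (nat_lit 5) (nat_lit 51) (nat_lit 5) (nat_lit 47) (nat_lit 5) (nat_lit 318) (nat_lit 252) (nat_lit 210))) (XT.nd (nat_lit 78) (nat_lit 0) (nat_lit 0) (XT.lf (nat_lit 0) (nat_lit 745719595) (nat_lit 228) (nat_lit 4015132179) (nat_lit 304) (nat_lit 7513590851) (nat_lit 43) (nat_lit 5) (nat_lit 46) (nat_lit 5) (nat_lit 47) (nat_lit 5) (nat_lit 319) (nat_lit 252) (nat_lit 209)) (XT.nd (nat_lit 78) (nat_lit 0) (nat_lit 0) (XT.lf (nat_lit 0) (nat_lit 6064514179) (nat_lit 228) (nat_lit 1177138568) (nat_lit 304) (nat_lit 5283076688) (nat_lit 43) (nat_lit 5) (nat_lit 46) (nat_lit 5) (nat_lit 47) (nat_lit 5) (nat_lit 320) (nat_lit 252) (nat_lit 208)) (XT.lf (nat_lit 0) (nat_lit 9775039377) (nat_lit 304) (nat_lit 1312012516) (nat_lit 76) (nat_lit 1696209770) (nat_lit 43) (nat_lit 5) (nat_lit 47) (nat_lit 5) (nat_lit 44) (nat_lit 5) (nat_lit 321) (nat_lit 252) (nat_lit 207))))) (XT.nd (nat_lit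 234) (nat_lit 228) (nat_lit 0) (XT.nd (nat_lit 78) (nat_lit 304) (nat_lit 0) (XT.lf (nat_lit 0) (nat_lit 4003139176) (nat_lit 228) (nat_lit 8393926857) (nat_lit 304) (nat_lit 652183956) (nat_lit 40) (nat_lit 5) (nat_lit 43) (nat_lit 5) (nat_lit 44) (nat_lit 5) (nat_lit 322) (nat_lit 252) (nat_lit 206)) (XT.nd (nat_lit 78) (nat_lit 228) (nat_lit 0) (XT.lf (nat_lit 0) (nat_lit 1715928395) (nat_lit 304) (nat_lit 3889616425) (nat_lit 76) (nat_lit 7717955527) (nat_lit 39) (nat_lit 5) (nat_lit 43) (nat_lit 5) (nat_lit 40) (nat_lit 5) (nat_lit 323) (nat_lit 252) (nat_lit 205)) (XT.lf (nat_lit 0) (nat_lit 1389563721) (nat_lit 228) (nat_lit 2729498141) (nat_lit 304) (nat_lit 9487482609) (nat_lit 36) (nat_lit 5) (nat_lit 39) (nat_lit 5) (nat_lit 40) (nat_lit 5) (nat_lit 324) (nat_lit 252) (nat_lit 204)))) (XT.nd (nat_lit 78) (nat_lit 228) (nat_lit 0) (XT.lf (nat_lit 0) (nat_lit 6600319647) (nat_lit 304)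 (nat_lit 7045810792) (nat_lit 76) (nat_lit 251839014) (nat_lit 36) (nat_lit 5) (nat_lit 40) (nat_lit 5) (nat_lit 37) (nat_lit 5) (nat_lit 325) (nat_lit 252) (nat_lit 203)) (XT.nd (nat_lit 78) (nat_lit 228) (nat_lit 0) (XT.lf (nat_lit 0) (nat_lit 9148210599) (nat_lit 304) (nat_lit 1798117657) (nat_lit 76) (nat_lit 3252111457) (nat_lit 36) (nat_lit 5) (nat_lit 40) (nat_lit 5) (nat_lit 37) (nat_lit 5) (nat_lit 326) (nat_lit 252) (nat_lit 202)) (XT.lf (nat_lit 0) (nat_lit 3627711339) (nat_lit 228) (nat_lit 8145883867) (nat_lit 304) (nat_lit 2734363564) (nat_lit 33) (nat_lit 5) (nat_lit 36) (nat_lit 5) (nat_lit 37) (nat_lit 5) (nat_lit 327) (nat_lit 252) (nat_lit 201)))))) (XT.nd (nat_lit 390) (nat_lit 228) (nat_lit 0) (XT.nd (nat_lit 156) (nat_lit 380) (nat_lit 0) (XT.nd (nat_lit 78) (nat_lit 76) (nat_lit 0) (XT.lf (nat_lit 0) (nat_lit 9203581232) (nat_lit 228) (nat_lit 5259010904) (nat_lit 304)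 (nat_lit 364690205) (nat_lit 33) (nat_lit 5) (nat_lit 36) (nat_lit 5) (nat_lit 37) (nat_lit 5) (nat_lit 328) (nat_lit 252) (nat_lit 200)) (XT.lf (nat_lit 0) (nat_lit 2002843573) (nat_lit 304) (nat_lit 278275950) (nat_lit 76) (nat_lit 12875509708) (nat_lit 32) (nat_lit 5) (nat_lit 36) (nat_lit 5) (nat_lit 33) (nat_lit 5) (nat_lit 329) (nat_lit 252) (nat_lit 199))) (XT.nd (nat_lit 78) (nat_lit 228) (nat_lit 0) (XT.lf (nat_lit 0) (nat_lit 4461002059) (nat_lit 228) (nat_lit 10223696779) (nat_lit 76) (nat_lit 810300503) (nat_lit 30) (nat_lit 5) (nat_lit 33) (nat_lit 5) (nat_lit 31) (nat_lit 5) (nat_lit 330) (nat_lit 252) (nat_lit 198)) (XT.nd (nat_lit 78) (nat_lit 228) (nat_lit 0) (XT.lf (nat_lit 0) (nat_lit 6986886277) (nat_lit 228) (nat_lit 4920794734) (nat_lit 76) (nat_lit 3936077390) (nat_lit 30) (nat_lit 5) (nat_lit 33) (nat_lit 5) (nat_lit 31) (nat_lit 5) (nat_lit 331) (nat_lit 252) (nat_lit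 197)) (XT.lf (nat_lit 0) (nat_lit 504615873) (nat_lit 228) (nat_lit 9058255388) (nat_lit 304) (nat_lit 6640934852) (nat_lit 27) (nat_lit 5) (nat_lit 30) (nat_lit 5) (nat_lit 31) (nat_lit 5) (nat_lit 332) (nat_lit 252) (nat_lit 196))))) (XT.nd (nat_lit 234) (nat_lit 0) (nat_lit 0) (XT.nd (nat_lit 78) (nat_lit 228) (nat_lit 0) (XT.lf (nat_lit 0) (nat_lit 6147690046) (nat_lit 228) (nat_lit 6088056917) (nat_lit 304) (nat_lit 4338373946) (nat_lit 27) (nat_lit 5) (nat_lit 30) (nat_lit 5) (nat_lit 31) (nat_lit 5) (nat_lit 333) (nat_lit 252) (nat_lit 195)) (XT.nd (nat_lit 78) (nat_lit 228) (nat_lit 0) (XT.lf (nat_lit 0) (nat_lit 11915425162) (nat_lit 228) (nat_lit 3044180658) (nat_lit 304) (nat_lit 1996867839) (nat_lit 27) (nat_lit 5) (nat_lit 30) (nat_lit 5) (nat_lit 31) (nat_lit 5) (nat_lit 334) (nat_lit 252) (nat_lit 194)) (XT.lf (nat_lit 0) (nat_lit 383406218) (nat_lit 228) (nat_lit 16884694749)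 (nat_lit 76) (nat_lit 82827229) (nat_lit 24) (nat_lit 5) (nat_lit 27) (nat_lit 5) (nat_lit 25) (nat_lit 5) (nat_lit 335) (nat_lit 252) (nat_lit 193)))) (XT.nd (nat_lit 78) (nat_lit 0) (nat_lit 0) (XT.lf (nat_lit 0) (nat_lit 2848089839) (nat_lit 228) (nat_lit 11608304217) (nat_lit 76) (nat_lit 3298683059) (nat_lit 24) (nat_lit 5) (nat_lit 27) (nat_lit 5) (nat_lit 25) (nat_lit 5) (nat_lit 336) (nat_lit 252) (nat_lit 192)) (XT.nd (nat_lit 78) (nat_lit 0) (nat_lit 0) (XT.lf (nat_lit 0) (nat_lit 5359128816) (nat_lit 228) (nat_lit 6216602567) (nat_lit 76) (nat_lit 6596493245) (nat_lit 24) (nat_lit 5) (nat_lit 27) (nat_lit 5) (nat_lit 25) (nat_lit 5) (nat_lit 337) (nat_lit 252) (nat_lit 191)) (XT.lf (nat_lit 0) (nat_lit 7918717260) (nat_lit 228) (nat_lit 704878601) (nat_lit 76) (nat_lit 9979139369) (nat_lit 24) (nat_lit 5) (nat_lit 27) (nat_lit 5) (nat_lit 25) (nat_lit 5) (nat_lit 338) (nat_lit 252)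 (nat_lit 190))))))) (XT.nd (nat_lit 858) (nat_lit 380) (nat_lit 0) (XT.nd (nat_lit 390) (nat_lit 152) (nat_lit 0) (XT.nd (nat_lit 156) (nat_lit 228) (nat_lit 0) (XT.nd (nat_lit 78) (nat_lit 0) (nat_lit 0) (XT.lf (nat_lit 0) (nat_lit 5029833924) (nat_lit 152) (nat_lit 5547607622) (nat_lit 228) (nat_lit 8468093057) (nat_lit 22) (nat_lit 5) (nat_lit 24) (nat_lit 5) (nat_lit 25) (nat_lit 5) (nat_lit 339) (nat_lit 252) (nat_lit 189)) (XT.lf (nat_lit 0) (nat_lit 10910921001) (nat_lit 152) (nat_lit 2386494508) (nat_lit 228) (nat_lit 6204800427) (nat_lit 22) (nat_lit 5) (nat_lit 24) (nat_lit 5) (nat_lit 25) (nat_lit 5) (nat_lit 340) (nat_lit 252) (nat_lit 188))) (XT.nd (nat_lit 78) (nat_lit 228) (nat_lit 0) (XT.lf (nat_lit 0) (nat_lit 16082327762) (nat_lit 228) (nat_lit 3052115126) (nat_lit 76) (nat_lit 838696028) (nat_lit 22) (nat_lit 5) (nat_lit 25) (nat_lit 5) (nat_lit 23) (nat_lit 4) (nat_lit 341)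 (nat_lit 252) (nat_lit 187)) (XT.nd (nat_lit 78) (nat_lit 76) (nat_lit 0) (XT.lf (nat_lit 0) (nat_lit 2642733682) (nat_lit 152) (nat_lit 16332795994) (nat_lit 228) (nat_lit 1481957812) (nat_lit 20) (nat_lit 5) (nat_lit 22) (nat_lit 5) (nat_lit 23) (nat_lit 4) (nat_lit 342) (nat_lit 252) (nat_lit 186)) (XT.lf (nat_lit 0) (nat_lit 986565658) (nat_lit 228) (nat_lit 12432948310) (nat_lit 76) (nat_lit 7536395227) (nat_lit 19) (nat_lit 5) (nat_lit 22) (nat_lit 5) (nat_lit 20) (nat_lit 5) (nat_lit 343) (nat_lit 252) (nat_lit 185))))) (XT.nd (nat_lit 234) (nat_lit 0) (nat_lit 0) (XT.nd (nat_lit 78) (nat_lit 152) (nat_lit 0) (XT.lf (nat_lit 0) (nat_lit 3475840726) (nat_lit 228) (nat_lit 6941827542) (nat_lit 76) (nat_lit 11051917408) (nat_lit 19) (nat_lit 5) (nat_lit 22) (nat_lit 5) (nat_lit 20) (nat_lit 5) (nat_lit 344) (nat_lit 252) (nat_lit 184)) (XT.nd (nat_lit 78) (nat_lit 152) (nat_lit 0) (XT.lf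 (nat_lit 0) (nat_lit 6016960819) (nat_lit 228) (nat_lit 1322347953) (nat_lit 76) (nat_lit 14660084370) (nat_lit 19) (nat_lit 5) (nat_lit 22) (nat_lit 5) (nat_lit 20) (nat_lit 5) (nat_lit 345) (nat_lit 252) (nat_lit 183)) (XT.lf (nat_lit 0) (nat_lit 4518574344) (nat_lit 152) (nat_lit 4137007292) (nat_lit 228) (nat_lit 13888909835) (nat_lit 17) (nat_lit 5) (nat_lit 19) (nat_lit 5) (nat_lit 20) (nat_lit 5) (nat_lit 346) (nat_lit 252) (nat_lit 182)))) (XT.nd (nat_lit 78) (nat_lit 0) (nat_lit 0) (XT.lf (nat_lit 0) (nat_lit 10526862036) (nat_lit 152) (nat_lit 837993513) (nat_lit 228) (nat_lit 11741376011) (nat_lit 17) (nat_lit 5) (nat_lit 19) (nat_lit 5) (nat_lit 20) (nat_lit 5) (nat_lit 347) (nat_lit 252) (nat_lit 181)) (XT.nd (nat_lit 78) (nat_lit 0) (nat_lit 0) (XT.lf (nat_lit 0) (nat_lit 14158671530) (nat_lit 228) (nat_lit 7028531251) (nat_lit 76) (nat_lit 2497555817) (nat_lit 17) (nat_lit 5)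 (nat_lit 20) (nat_lit 5) (nat_lit 18) (nat_lit 4) (nat_lit 348) (nat_lit 252) (nat_lit 180)) (XT.lf (nat_lit 0) (nat_lit 17023876291) (nat_lit 228) (nat_lit 1352957574) (nat_lit 76) (nat_lit 5904212067) (nat_lit 17) (nat_lit 5) (nat_lit 20) (nat_lit 5) (nat_lit 18) (nat_lit 4) (nat_lit 349) (nat_lit 252) (nat_lit 179)))))) (XT.nd (nat_lit 390) (nat_lit 76) (nat_lit 0) (XT.nd (nat_lit 156) (nat_lit 228) (nat_lit 0) (XT.nd (nat_lit 78) (nat_lit 0) (nat_lit 0) (XT.lf (nat_lit 0) (nat_lit 4549136081) (nat_lit 76) (nat_lit 15449511099) (nat_lit 152) (nat_lit 4895897195) (nat_lit 16) (nat_lit 5) (nat_lit 17) (nat_lit 5) (nat_lit 18) (nat_lit 4) (nat_lit 350) (nat_lit 252) (nat_lit 178)) (XT.lf (nat_lit 0) (nat_lit 10623828387) (nat_lit 76) (nat_lit 12432652418) (nat_lit 152) (nat_lit 2470182271) (nat_lit 16) (nat_lit 5) (nat_lit 17) (nat_lit 5) (nat_lit 18) (nat_lit 4) (nat_lit 351) (nat_lit 252)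 (nat_lit 177))) (XT.nd (nat_lit 78) (nat_lit 152) (nat_lit 0) (XT.lf (nat_lit 0) (nat_lit 8267920) (nat_lit 152) (nat_lit 9328932539) (nat_lit 76) (nat_lit 16841149407) (nat_lit 15) (nat_lit 5) (nat_lit 17) (nat_lit 5) (nat_lit 16) (nat_lit 5) (nat_lit 352) (nat_lit 252) (nat_lit 176)) (XT.nd (nat_lit 78) (nat_lit 152) (nat_lit 0) (XT.lf (nat_lit 0) (nat_lit 2492507026) (nat_lit 152) (nat_lit 3643024544) (nat_lit 76) (nat_lit 20713916819) (nat_lit 15) (nat_lit 5) (nat_lit 17) (nat_lit 5) (nat_lit 16) (nat_lit 5) (nat_lit 353) (nat_lit 252) (nat_lit 175)) (XT.lf (nat_lit 0) (nat_lit 2227060438) (nat_lit 152) (nat_lit 2827255322) (nat_lit 228) (nat_lit 22486299393) (nat_lit 13) (nat_lit 5) (nat_lit 15) (nat_lit 5) (nat_lit 16) (nat_lit 5) (nat_lit 354) (nat_lit 252) (nat_lit 174))))) (XT.nd (nat_lit 234) (nat_lit 76) (nat_lit 0) (XT.nd (nat_lit 78) (nat_lit 0) (nat_lit 0) (XT.lf (nat_lit 0) (nat_lit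 7717483527) (nat_lit 228) (nat_lit 19939453680) (nat_lit 76) (nat_lit 594870357) (nat_lit 13) (nat_lit 5) (nat_lit 16) (nat_lit 5) (nat_lit 14) (nat_lit 4) (nat_lit 355) (nat_lit 252) (nat_lit 173)) (XT.nd (nat_lit 78) (nat_lit 0) (nat_lit 0) (XT.lf (nat_lit 0) (nat_lit 10470845000) (nat_lit 228) (nat_lit 14461272383) (nat_lit 76) (nat_lit 4051934435) (nat_lit 13) (nat_lit 5) (nat_lit 16) (nat_lit 5) (nat_lit 14) (nat_lit 4) (nat_lit 356) (nat_lit 252) (nat_lit 172)) (XT.lf (nat_lit 0) (nat_lit 13289628724) (nat_lit 228) (nat_lit 8847046759) (nat_lit 76) (nat_lit 7602127581) (nat_lit 13) (nat_lit 5) (nat_lit 16) (nat_lit 5) (nat_lit 14) (nat_lit 4) (nat_lit 357) (nat_lit 252) (nat_lit 171)))) (XT.nd (nat_lit 78) (nat_lit 76) (nat_lit 0) (XT.lf (nat_lit 0) (nat_lit 16176297713) (nat_lit 228) (nat_lit 3091871172) (nat_lit 76) (nat_lit 11248551905) (nat_lit 13) (nat_lit 5) (nat_lit 16) (nat_lit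 5) (nat_lit 14) (nat_lit 4) (nat_lit 358) (nat_lit 252) (nat_lit 170)) (XT.nd (nat_lit 78) (nat_lit 0) (nat_lit 0) (XT.lf (nat_lit 0) (nat_lit 2865193413) (nat_lit 76) (nat_lit 16295722878) (nat_lit 152) (nat_lit 12156742183) (nat_lit 12) (nat_lit 5) (nat_lit 13) (nat_lit 5) (nat_lit 14) (nat_lit 4) (nat_lit 359) (nat_lit 252) (nat_lit 169)) (XT.lf (nat_lit 0) (nat_lit 9037935288) (nat_lit 76) (nat_lit 13212385211) (nat_lit 152) (nat_lit 9891868619) (nat_lit 12) (nat_lit 5) (nat_lit 13) (nat_lit 5) (nat_lit 14) (nat_lit 4) (nat_lit 360) (nat_lit 252) (nat_lit 168))))))))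
noncomputable def xc90 : XT := (XT.nd (nat_lit 1716) (nat_lit 76) (nat_lit 0) (XT.nd (nat_lit 858) (nat_lit 152) (nat_lit 0) (XT.nd (nat_lit 390) (nat_lit 76) (nat_lit 0) (XT.nd (nat_lit 156) (nat_lit 228) (nat_lit 0) (XT.nd (nat_lit 78) (nat_lit 0) (nat_lit 0) (XT.lf (nat_lit 0) (nat_lit 15370213810) (nat_lit 76) (nat_lit 10046683544) (nat_lit 152) (nat_lit 7575045206) (nat_lit 12) (nat_lit 5) (nat_lit 13) (nat_lit 5) (nat_lit 14) (nat_lit 4) (nat_lit 361) (nat_lit 252) (nat_lit 167)) (XT.lf (nat_lit 0) (nat_lit 21867562039) (nat_lit 76) (nat_lit 6795851728) (nat_lit 152) (nat_lit 5204247537) (nat_lit 12) (nat_lit 5) (nat_lit 13) (nat_lit 5) (nat_lit 14) (nat_lit 4) (nat_lit 362) (nat_lit 252) (nat_lit 166))) (XT.nd (nat_lit 78) (nat_lit 228) (nat_lit 0) (XT.lf (nat_lit 0) (nat_lit 28535657269) (nat_lit 76) (nat_lit 3457049232) (nat_lit 152) (nat_lit 2777404039) (nat_lit 12) (nat_lit 5) (nat_lit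 13) (nat_lit 5) (nat_lit 14) (nat_lit 4) (nat_lit 363) (nat_lit 252) (nat_lit 165)) (XT.nd (nat_lit 78) (nat_lit 228) (nat_lit 0) (XT.lf (nat_lit 0) (nat_lit 35380325991) (nat_lit 76) (nat_lit 27358654) (nat_lit 152) (nat_lit 292394170) (nat_lit 12) (nat_lit 5) (nat_lit 13) (nat_lit 5) (nat_lit 14) (nat_lit 4) (nat_lit 364) (nat_lit 252) (nat_lit 164)) (XT.lf (nat_lit 0) (nat_lit 2299520452) (nat_lit 228) (nat_lit 30848920382) (nat_lit 76) (nat_lit 3506572281) (nat_lit 9) (nat_lit 5) (nat_lit 12) (nat_lit 5) (nat_lit 10) (nat_lit 4) (nat_lit 365) (nat_lit 252) (nat_lit 163))))) (XT.nd (nat_lit 234) (nat_lit 76) (nat_lit 0) (XT.nd (nat_lit 78) (nat_lit 0) (nat_lit 0) (XT.lf (nat_lit 0) (nat_lit 4953010828) (nat_lit 228) (nat_lit 25542626622) (nat_lit 76) (nat_lit 7143198375) (nat_lit 9) (nat_lit 5) (nat_lit 12) (nat_lit 5) (nat_lit 10) (nat_lit 4) (nat_lit 366) (nat_lit 252) (nat_lit 162)) (XT.nd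 (nat_lit 78) (nat_lit 0) (nat_lit 0) (XT.lf (nat_lit 0) (nat_lit 7672672347) (nat_lit 228) (nat_lit 20099666850) (nat_lit 76) (nat_lit 10880254585) (nat_lit 9) (nat_lit 5) (nat_lit 12) (nat_lit 5) (nat_lit 10) (nat_lit 4) (nat_lit 367) (nat_lit 252) (nat_lit 161)) (XT.lf (nat_lit 0) (nat_lit 10460881410) (nat_lit 228) (nat_lit 14515285081) (nat_lit 76) (nat_lit 14721006300) (nat_lit 9) (nat_lit 5) (nat_lit 12) (nat_lit 5) (nat_lit 10) (nat_lit 4) (nat_lit 368) (nat_lit 252) (nat_lit 160)))) (XT.nd (nat_lit 78) (nat_lit 76) (nat_lit 0) (XT.lf (nat_lit 0) (nat_lit 13320074319) (nat_lit 228) (nat_lit 8784601760) (nat_lit 76) (nat_lit 18668809518) (nat_lit 9) (nat_lit 5) (nat_lit 12) (nat_lit 5) (nat_lit 10) (nat_lit 4) (nat_lit 369) (nat_lit 252) (nat_lit 159)) (XT.nd (nat_lit 78) (nat_lit 76) (nat_lit 0) (XT.lf (nat_lit 0) (nat_lit 16252749395) (nat_lit 228) (nat_lit 2902609493) (nat_lit 76)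 (nat_lit 22727113774) (nat_lit 9) (nat_lit 5) (nat_lit 12) (nat_lit 5) (nat_lit 10) (nat_lit 4) (nat_lit 370) (nat_lit 252) (nat_lit 158)) (XT.lf (nat_lit 0) (nat_lit 3198240517) (nat_lit 76) (nat_lit 16093972099) (nat_lit 152) (nat_lit 23731968087) (nat_lit 8) (nat_lit 5) (nat_lit 9) (nat_lit 5) (nat_lit 10) (nat_lit 4) (nat_lit 371) (nat_lit 252) (nat_lit 157)))))) (XT.nd (nat_lit 390) (nat_lit 152) (nat_lit 0) (XT.nd (nat_lit 156) (nat_lit 0) (nat_lit 0) (XT.nd (nat_lit 78) (nat_lit 0) (nat_lit 0) (XT.lf (nat_lit 0) (nat_lit 9521801648) (nat_lit 76) (nat_lit 12918590361) (nat_lit 152) (nat_lit 21759237154) (nat_lit 8) (nat_lit 5) (nat_lit 9) (nat_lit 5) (nat_lit 10) (nat_lit 4) (nat_lit 372) (nat_lit 252) (nat_lit 156)) (XT.lf (nat_lit 0) (nat_lit 16015831721) (nat_lit 76) (nat_lit 9655749734) (nat_lit 152) (nat_lit 19739117387) (nat_lit 8) (nat_lit 5) (nat_lit 9) (nat_lit 5) (nat_lit 10)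 (nat_lit 4) (nat_lit 373) (nat_lit 252) (nat_lit 155))) (XT.nd (nat_lit 78) (nat_lit 0) (nat_lit 0) (XT.lf (nat_lit 0) (nat_lit 22686005132) (nat_lit 76) (nat_lit 6302599192) (nat_lit 152) (nat_lit 17669843632) (nat_lit 8) (nat_lit 5) (nat_lit 9) (nat_lit 5) (nat_lit 10) (nat_lit 4) (nat_lit 374) (nat_lit 252) (nat_lit 154)) (XT.nd (nat_lit 78) (nat_lit 0) (nat_lit 0) (XT.lf (nat_lit 0) (nat_lit 29538150187) (nat_lit 76) (nat_lit 2856208797) (nat_lit 152) (nat_lit 15549607786) (nat_lit 8) (nat_lit 5) (nat_lit 9) (nat_lit 5) (nat_lit 10) (nat_lit 4) (nat_lit 375) (nat_lit 252) (nat_lit 153)) (XT.lf (nat_lit 0) (nat_lit 35898419751) (nat_lit 152) (nat_lit 12696722770) (nat_lit 0) (nat_lit 673038081) (nat_lit 8) (nat_lit 5) (nat_lit 10) (nat_lit 4) (nat_lit 8) (nat_lit 4) (nat_lit 376) (nat_lit 252) (nat_lit 152))))) (XT.nd (nat_lit 234) (nat_lit 76) (nat_lit 0) (XT.nd (nat_lit 78) (nat_lit 76)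 (nat_lit 0) (XT.lf (nat_lit 0) (nat_lit 39525654854) (nat_lit 152) (nat_lit 6861979285) (nat_lit 0) (nat_lit 4243958199) (nat_lit 8) (nat_lit 5) (nat_lit 10) (nat_lit 4) (nat_lit 8) (nat_lit 4) (nat_lit 377) (nat_lit 252) (nat_lit 151)) (XT.nd (nat_lit 78) (nat_lit 76) (nat_lit 0) (XT.lf (nat_lit 0) (nat_lit 43251778097) (nat_lit 152) (nat_lit 869032183) (nat_lit 0) (nat_lit 7915406699) (nat_lit 8) (nat_lit 5) (nat_lit 10) (nat_lit 4) (nat_lit 8) (nat_lit 4) (nat_lit 378) (nat_lit 252) (nat_lit 150)) (XT.lf (nat_lit 0) (nat_lit 5392583825) (nat_lit 76) (nat_lit 41739298304) (nat_lit 76) (nat_lit 6349844632) (nat_lit 7) (nat_lit 4) (nat_lit 8) (nat_lit 5) (nat_lit 8) (nat_lit 4) (nat_lit 379) (nat_lit 252) (nat_lit 149)))) (XT.nd (nat_lit 78) (nat_lit 76) (nat_lit 0) (XT.lf (nat_lit 0) (nat_lit 11843674659) (nat_lit 76) (nat_lit 39283975584) (nat_lit 76) (nat_lit 3842985722) (nat_lit 7) (nat_lit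 4) (nat_lit 8) (nat_lit 5) (nat_lit 8) (nat_lit 4) (nat_lit 380) (nat_lit 252) (nat_lit 148)) (XT.nd (nat_lit 78) (nat_lit 76) (nat_lit 0) (XT.lf (nat_lit 0) (nat_lit 18472581748) (nat_lit 76) (nat_lit 36761472211) (nat_lit 76) (nat_lit 1270447215) (nat_lit 7) (nat_lit 4) (nat_lit 8) (nat_lit 5) (nat_lit 8) (nat_lit 4) (nat_lit 381) (nat_lit 252) (nat_lit 147)) (XT.lf (nat_lit 0) (nat_lit 1343284737) (nat_lit 152) (nat_lit 32812734779) (nat_lit 76) (nat_lit 23928248063) (nat_lit 6) (nat_lit 5) (nat_lit 8) (nat_lit 5) (nat_lit 7) (nat_lit 4) (nat_lit 382) (nat_lit 252) (nat_lit 146))))))) (XT.nd (nat_lit 858) (nat_lit 0) (nat_lit 0) (XT.nd (nat_lit 390) (nat_lit 76) (nat_lit 0) (XT.nd (nat_lit 156) (nat_lit 0) (nat_lit 0) (XT.nd (nat_lit 78) (nat_lit 0) (nat_lit 0) (XT.lf (nat_lit 0) (nat_lit 4001089808) (nat_lit 152) (nat_lit 27464553399) (nat_lit 76) (nat_lit 28245681156) (nat_lit 6) (nat_lit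 5) (nat_lit 8) (nat_lit 5) (nat_lit 7) (nat_lit 4) (nat_lit 383) (nat_lit 252) (nat_lit 145)) (XT.lf (nat_lit 0) (nat_lit 6730081352) (nat_lit 152) (nat_lit 21970489802) (nat_lit 76) (nat_lit 32686888439) (nat_lit 6) (nat_lit 5) (nat_lit 8) (nat_lit 5) (nat_lit 7) (nat_lit 4) (nat_lit 384) (nat_lit 252) (nat_lit 144))) (XT.nd (nat_lit 78) (nat_lit 0) (nat_lit 0) (XT.lf (nat_lit 0) (nat_lit 9532643924) (nat_lit 152) (nat_lit 16325743350) (nat_lit 76) (nat_lit 37255750581) (nat_lit 6) (nat_lit 5) (nat_lit 8) (nat_lit 5) (nat_lit 7) (nat_lit 4) (nat_lit 385) (nat_lit 252) (nat_lit 143)) (XT.nd (nat_lit 78) (nat_lit 0) (nat_lit 0) (XT.lf (nat_lit 0) (nat_lit 12411226365) (nat_lit 152) (nat_lit 10525381741) (nat_lit 76) (nat_lit 41956259791) (nat_lit 6) (nat_lit 5) (nat_lit 8) (nat_lit 5) (nat_lit 7) (nat_lit 4) (nat_lit 386) (nat_lit 252) (nat_lit 142)) (XT.lf (nat_lit 0) (nat_lit 15368343942)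 (nat_lit 152) (nat_lit 4564336698) (nat_lit 76) (nat_lit 46792523309) (nat_lit 6) (nat_lit 5) (nat_lit 8) (nat_lit 5) (nat_lit 7) (nat_lit 4) (nat_lit 387) (nat_lit 252) (nat_lit 141))))) (XT.nd (nat_lit 234) (nat_lit 0) (nat_lit 0) (XT.nd (nat_lit 78) (nat_lit 0) (nat_lit 0) (XT.lf (nat_lit 0) (nat_lit 1593699272) (nat_lit 76) (nat_lit 16828200883) (nat_lit 152) (nat_lit 50190387336) (nat_lit 5) (nat_lit 5) (nat_lit 6) (nat_lit 5) (nat_lit 7) (nat_lit 4) (nat_lit 388) (nat_lit 252) (nat_lit 140)) (XT.nd (nat_lit 78) (nat_lit 0) (nat_lit 0) (XT.lf (nat_lit 0) (nat_lit 8017228369) (nat_lit 76) (nat_lit 13588429075) (nat_lit 152) (nat_lit 48949177164) (nat_lit 5) (nat_lit 5) (nat_lit 6) (nat_lit 5) (nat_lit 7) (nat_lit 4) (nat_lit 389) (nat_lit 252) (nat_lit 139)) (XT.lf (nat_lit 0) (nat_lit 14621024133) (nat_lit 76) (nat_lit 10256625197) (nat_lit 152) (nat_lit 47678235787) (nat_lit 5) (nat_lit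 5) (nat_lit 6) (nat_lit 5) (nat_lit 7) (nat_lit 4) (nat_lit 390) (nat_lit 252) (nat_lit 138)))) (XT.nd (nat_lit 78) (nat_lit 0) (nat_lit 0) (XT.lf (nat_lit 0) (nat_lit 21410856871) (nat_lit 76) (nat_lit 6829877964) (nat_lit 152) (nat_lit 46376452676) (nat_lit 5) (nat_lit 5) (nat_lit 6) (nat_lit 5) (nat_lit 7) (nat_lit 4) (nat_lit 391) (nat_lit 252) (nat_lit 137)) (XT.nd (nat_lit 78) (nat_lit 0) (nat_lit 0) (XT.lf (nat_lit 0) (nat_lit 28392659448) (nat_lit 76) (nat_lit 3305193133) (nat_lit 152) (nat_lit 45042690349) (nat_lit 5) (nat_lit 5) (nat_lit 6) (nat_lit 5) (nat_lit 7) (nat_lit 4) (nat_lit 392) (nat_lit 252) (nat_lit 136)) (XT.lf (nat_lit 0) (nat_lit 35255104278) (nat_lit 152) (nat_lit 43358355193) (nat_lit 0) (nat_lit 314254831) (nat_lit 5) (nat_lit 5) (nat_lit 7) (nat_lit 4) (nat_lit 5) (nat_lit 4) (nat_lit 393) (nat_lit 252) (nat_lit 135)))))) (XT.nd (nat_lit 31356) (nat_lit 0) (nat_lit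 14212) (XT.nd (nat_lit 156) (nat_lit 0) (nat_lit 0) (XT.nd (nat_lit 78) (nat_lit 0) (nat_lit 0) (XT.lf (nat_lit 0) (nat_lit 38945287614) (nat_lit 152) (nat_lit 38263075404) (nat_lit 0) (nat_lit 3971359050) (nat_lit 5) (nat_lit 5) (nat_lit 7) (nat_lit 4) (nat_lit 5) (nat_lit 4) (nat_lit 394) (nat_lit 252) (nat_lit 134)) (XT.lf (nat_lit 0) (nat_lit 42739855486) (nat_lit 152) (nat_lit 33025820389) (nat_lit 0) (nat_lit 7733811272) (nat_lit 5) (nat_lit 5) (nat_lit 7) (nat_lit 4) (nat_lit 5) (nat_lit 4) (nat_lit 395) (nat_lit 252) (nat_lit 133))) (XT.nd (nat_lit 78) (nat_lit 0) (nat_lit 0) (XT.lf (nat_lit 0) (nat_lit 46642123533) (nat_lit 152) (nat_lit 27642013907) (nat_lit 0) (nat_lit 11604899077) (nat_lit 5) (nat_lit 5) (nat_lit 7) (nat_lit 4) (nat_lit 5) (nat_lit 4) (nat_lit 396) (nat_lit 252) (nat_lit 132)) (XT.nd (nat_lit 31044) (nat_lit 0) (nat_lit 16188) (XT.lf (nat_lit 0) (nat_lit 50655501505)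 (nat_lit 152) (nat_lit 22106951660) (nat_lit 0) (nat_lit 15588004970) (nat_lit 5) (nat_lit 5) (nat_lit 7) (nat_lit 4) (nat_lit 5) (nat_lit 4) (nat_lit 397) (nat_lit 252) (nat_lit 131)) (XT.lf (nat_lit 0) (nat_lit 1156094691) (nat_lit 532) (nat_lit 1026052011) (nat_lit 0) (nat_lit 1156094691) (nat_lit 218) (nat_lit 5) (nat_lit 225) (nat_lit 4) (nat_lit 218) (nat_lit 4) (nat_lit 274) (nat_lit 253) (nat_lit 253))))) (XT.nd (nat_lit 234) (nat_lit 760) (nat_lit 0) (XT.nd (nat_lit 78) (nat_lit 684) (nat_lit 0) (XT.lf (nat_lit 0) (nat_lit 1509874465) (nat_lit 532) (nat_lit 3578627304) (nat_lit 532) (nat_lit 1623878578) (nat_lit 211) (nat_lit 4) (nat_lit 218) (nat_lit 5) (nat_lit 218) (nat_lit 4) (nat_lit 275) (nat_lit 253) (nat_lit 252)) (XT.nd (nat_lit 78) (nat_lit 608) (nat_lit 0) (XT.lf (nat_lit 0) (nat_lit 1103337325) (nat_lit 608) (nat_lit 1612788253) (nat_lit 76) (nat_lit 4035471617) (nat_lit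 210) (nat_lit 5) (nat_lit 218) (nat_lit 5) (nat_lit 211) (nat_lit 4) (nat_lit 276) (nat_lit 253) (nat_lit 251)) (XT.lf (nat_lit 0) (nat_lit 2037322440) (nat_lit 608) (nat_lit 1771753233) (nat_lit 684) (nat_lit 2984967224) (nat_lit 202) (nat_lit 5) (nat_lit 210) (nat_lit 5) (nat_lit 211) (nat_lit 4) (nat_lit 277) (nat_lit 253) (nat_lit 250)))) (XT.nd (nat_lit 78) (nat_lit 760) (nat_lit 0) (XT.lf (nat_lit 0) (nat_lit 5759716918) (nat_lit 608) (nat_lit 764268347) (nat_lit 684) (nat_lit 316339663) (nat_lit 202) (nat_lit 5) (nat_lit 210) (nat_lit 5) (nat_lit 211) (nat_lit 4) (nat_lit 278) (nat_lit 253) (nat_lit 249)) (XT.nd (nat_lit 78) (nat_lit 0) (nat_lit 0) (XT.lf (nat_lit 0) (nat_lit 2326816810) (nat_lit 760) (nat_lit 4228738668) (nat_lit 76) (nat_lit 333860288) (nat_lit 192) (nat_lit 5) (nat_lit 202) (nat_lit 5) (nat_lit 193) (nat_lit 4) (nat_lit 279) (nat_lit 253) (nat_lit 248)) (XT.lf (nat_lit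 0) (nat_lit 4976560503) (nat_lit 760) (nat_lit 486830256) (nat_lit 76) (nat_lit 1478853828) (nat_lit 192) (nat_lit 5) (nat_lit 202) (nat_lit 5) (nat_lit 193) (nat_lit 4) (nat_lit 280) (nat_lit 253) (nat_lit 247))))))))
noncomputable def xc91 : XT := (XT.nd (nat_lit 1716) (nat_lit 3572) (nat_lit 0) (XT.nd (nat_lit 858) (nat_lit 2888) (nat_lit 0) (XT.nd (nat_lit 390) (nat_lit 2736) (nat_lit 0) (XT.nd (nat_lit 156) (nat_lit 988) (nat_lit 0) (XT.nd (nat_lit 78) (nat_lit 836) (nat_lit 0) (XT.lf (nat_lit 0) (nat_lit 644311253) (nat_lit 836) (nat_lit 3642495663) (nat_lit 76) (nat_lit 2711524100) (nat_lit 181) (nat_lit 5) (nat_lit 192) (nat_lit 5) (nat_lit 182) (nat_lit 5) (nat_lit 281) (nat_lit 253) (nat_lit 246)) (XT.lf (nat_lit 0) (nat_lit 179928230) (nat_lit 836) (nat_lit 3037991295) (nat_lit 912) (nat_lit 3840189455) (nat_lit 170) (nat_lit 5) (nat_lit 181) (nat_lit 5) (nat_lit 182) (nat_lit 5)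 (nat_lit 282) (nat_lit 253) (nat_lit 245))) (XT.nd (nat_lit 78) (nat_lit 988) (nat_lit 0) (XT.lf (nat_lit 0) (nat_lit 4120517294) (nat_lit 836) (nat_lit 1704828377) (nat_lit 912) (nat_lit 1295963941) (nat_lit 170) (nat_lit 5) (nat_lit 181) (nat_lit 5) (nat_lit 182) (nat_lit 5) (nat_lit 283) (nat_lit 253) (nat_lit 244)) (XT.nd (nat_lit 78) (nat_lit 0) (nat_lit 0) (XT.lf (nat_lit 0) (nat_lit 927298396) (nat_lit 912) (nat_lit 301436355) (nat_lit 988) (nat_lit 5959698525) (nat_lit 157) (nat_lit 5) (nat_lit 169) (nat_lit 5) (nat_lit 170) (nat_lit 5) (nat_lit 284) (nat_lit 253) (nat_lit 243)) (XT.lf (nat_lit 0) (nat_lit 3767496882) (nat_lit 988) (nat_lit 2319016949) (nat_lit 76) (nat_lit 1172040595) (nat_lit 157) (nat_lit 5) (nat_lit 170) (nat_lit 5) (nat_lit 158) (nat_lit 5) (nat_lit 285) (nat_lit 253) (nat_lit 242))))) (XT.nd (nat_lit 234) (nat_lit 608) (nat_lit 0) (XT.nd (nat_lit 78) (nat_lit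 1140) (nat_lit 0) (XT.lf (nat_lit 0) (nat_lit 1700720811) (nat_lit 988) (nat_lit 4626053902) (nat_lit 1064) (nat_lit 1005964999) (nat_lit 144) (nat_lit 5) (nat_lit 157) (nat_lit 5) (nat_lit 158) (nat_lit 5) (nat_lit 286) (nat_lit 253) (nat_lit 241)) (XT.nd (nat_lit 78) (nat_lit 1064) (nat_lit 0) (XT.lf (nat_lit 0) (nat_lit 1472536774) (nat_lit 1064) (nat_lit 1606934914) (nat_lit 76) (nat_lit 4331029965) (nat_lit 143) (nat_lit 5) (nat_lit 157) (nat_lit 5) (nat_lit 144) (nat_lit 5) (nat_lit 287) (nat_lit 253) (nat_lit 240)) (XT.lf (nat_lit 0) (nat_lit 2508069041) (nat_lit 1064) (nat_lit 1448908897) (nat_lit 1140) (nat_lit 3535032000) (nat_lit 129) (nat_lit 5) (nat_lit 143) (nat_lit 5) (nat_lit 144) (nat_lit 5) (nat_lit 288) (nat_lit 253) (nat_lit 239)))) (XT.nd (nat_lit 78) (nat_lit 608) (nat_lit 0) (XT.lf (nat_lit 0) (nat_lit 6463708583) (nat_lit 1140) (nat_lit 869920755) (nat_lit 76) (nat_lit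 244160074) (nat_lit 129) (nat_lit 5) (nat_lit 144) (nat_lit 5) (nat_lit 130) (nat_lit 5) (nat_lit 289) (nat_lit 253) (nat_lit 238)) (XT.nd (nat_lit 78) (nat_lit 0) (nat_lit 0) (XT.lf (nat_lit 0) (nat_lit 1329868305) (nat_lit 608) (nat_lit 4331018999) (nat_lit 76) (nat_lit 2005782273) (nat_lit 121) (nat_lit 5) (nat_lit 129) (nat_lit 5) (nat_lit 122) (nat_lit 5) (nat_lit 290) (nat_lit 253) (nat_lit 237)) (XT.lf (nat_lit 0) (nat_lit 3765266923) (nat_lit 608) (nat_lit 154211934) (nat_lit 76) (nat_lit 3840427367) (nat_lit 121) (nat_lit 5) (nat_lit 129) (nat_lit 5) (nat_lit 122) (nat_lit 5) (nat_lit 291) (nat_lit 253) (nat_lit 236)))))) (XT.nd (nat_lit 390) (nat_lit 1368) (nat_lit 0) (XT.nd (nat_lit 156) (nat_lit 456) (nat_lit 0) (XT.nd (nat_lit 78) (nat_lit 608) (nat_lit 0) (XT.lf (nat_lit 0) (nat_lit 4160777091) (nat_lit 456) (nat_lit 2086588539) (nat_lit 532) (nat_lit 1609594982) (nat_lit 115)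 (nat_lit 5) (nat_lit 121) (nat_lit 5) (nat_lit 122) (nat_lit 5) (nat_lit 292) (nat_lit 253) (nat_lit 235)) (XT.lf (nat_lit 0) (nat_lit 585593650) (nat_lit 532) (nat_lit 186142382) (nat_lit 608) (nat_lit 7186925036) (nat_lit 107) (nat_lit 5) (nat_lit 114) (nat_lit 5) (nat_lit 115) (nat_lit 5) (nat_lit 293) (nat_lit 253) (nat_lit 234))) (XT.nd (nat_lit 78) (nat_lit 456) (nat_lit 0) (XT.lf (nat_lit 0) (nat_lit 3182163522) (nat_lit 608) (nat_lit 3094642497) (nat_lit 76) (nat_lit 1786638474) (nat_lit 107) (nat_lit 5) (nat_lit 115) (nat_lit 5) (nat_lit 108) (nat_lit 5) (nat_lit 294) (nat_lit 253) (nat_lit 233)) (XT.nd (nat_lit 78) (nat_lit 0) (nat_lit 0) (XT.lf (nat_lit 0) (nat_lit 1266452958) (nat_lit 456) (nat_lit 4349639704) (nat_lit 532) (nat_lit 2556947254) (nat_lit 101) (nat_lit 5) (nat_lit 107) (nat_lit 5) (nat_lit 108) (nat_lit 5) (nat_lit 295) (nat_lit 253) (nat_lit 232)) (XT.lf (nat_lit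 0) (nat_lit 5753938217) (nat_lit 456) (nat_lit 2338700633) (nat_lit 532) (nat_lit 194394593) (nat_lit 101) (nat_lit 5) (nat_lit 107) (nat_lit 5) (nat_lit 108) (nat_lit 5) (nat_lit 296) (nat_lit 253) (nat_lit 231))))) (XT.nd (nat_lit 234) (nat_lit 456) (nat_lit 0) (XT.nd (nat_lit 78) (nat_lit 380) (nat_lit 0) (XT.lf (nat_lit 0) (nat_lit 1920252611) (nat_lit 456) (nat_lit 232912740) (nat_lit 532) (nat_lit 6252087902) (nat_lit 94) (nat_lit 5) (nat_lit 100) (nat_lit 5) (nat_lit 101) (nat_lit 5) (nat_lit 297) (nat_lit 253) (nat_lit 230)) (XT.nd (nat_lit 78) (nat_lit 380) (nat_lit 0) (XT.lf (nat_lit 0) (nat_lit 4552108736) (nat_lit 532) (nat_lit 2056449037) (nat_lit 76) (nat_lit 1919039623) (nat_lit 94) (nat_lit 5) (nat_lit 101) (nat_lit 5) (nat_lit 95) (nat_lit 5) (nat_lit 298) (nat_lit 253) (nat_lit 229)) (XT.lf (nat_lit 0) (nat_lit 2484597498) (nat_lit 380) (nat_lit 4506768522) (nat_lit 456) (nat_lit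 1663371590) (nat_lit 89) (nat_lit 5) (nat_lit 94) (nat_lit 5) (nat_lit 95) (nat_lit 5) (nat_lit 299) (nat_lit 253) (nat_lit 228)))) (XT.nd (nat_lit 78) (nat_lit 380) (nat_lit 0) (XT.lf (nat_lit 0) (nat_lit 667545351) (nat_lit 456) (nat_lit 1655344399) (nat_lit 76) (nat_lit 6463857714) (nat_lit 88) (nat_lit 5) (nat_lit 94) (nat_lit 5) (nat_lit 89) (nat_lit 5) (nat_lit 300) (nat_lit 253) (nat_lit 227)) (XT.nd (nat_lit 78) (nat_lit 0) (nat_lit 0) (XT.lf (nat_lit 0) (nat_lit 2971164012) (nat_lit 380) (nat_lit 36507268) (nat_lit 456) (nat_lit 5915532025) (nat_lit 83) (nat_lit 5) (nat_lit 88) (nat_lit 5) (nat_lit 89) (nat_lit 5) (nat_lit 301) (nat_lit 253) (nat_lit 226)) (XT.lf (nat_lit 0) (nat_lit 5402233517) (nat_lit 456) (nat_lit 1381611308) (nat_lit 76) (nat_lit 2280537492) (nat_lit 83) (nat_lit 5) (nat_lit 89) (nat_lit 5) (nat_lit 84) (nat_lit 5) (nat_lit 302) (nat_lit 253) (nat_lit 225)))))))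 (XT.nd (nat_lit 858) (nat_lit 1368) (nat_lit 0) (XT.nd (nat_lit 390) (nat_lit 1064) (nat_lit 0) (XT.nd (nat_lit 156) (nat_lit 684) (nat_lit 0) (XT.nd (nat_lit 78) (nat_lit 76) (nat_lit 0) (XT.lf (nat_lit 0) (nat_lit 3326094917) (nat_lit 380) (nat_lit 4521536452) (nat_lit 456) (nat_lit 1362947284) (nat_lit 78) (nat_lit 5) (nat_lit 83) (nat_lit 5) (nat_lit 84) (nat_lit 5) (nat_lit 303) (nat_lit 253) (nat_lit 224)) (XT.lf (nat_lit 0) (nat_lit 946646459) (nat_lit 456) (nat_lit 1232134582) (nat_lit 76) (nat_lit 7183402189) (nat_lit 77) (nat_lit 5) (nat_lit 83) (nat_lit 5) (nat_lit 78) (nat_lit 5) (nat_lit 304) (nat_lit 253) (nat_lit 223))) (XT.nd (nat_lit 78) (nat_lit 304) (nat_lit 0) (XT.lf (nat_lit 0) (nat_lit 3283383628) (nat_lit 456) (nat_lit 5968643494) (nat_lit 76) (nat_lit 266485527) (nat_lit 72) (nat_lit 5) (nat_lit 78) (nat_lit 5) (nat_lit 73) (nat_lit 5) (nat_lit 305) (nat_lit 253) (nat_lit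 222)) (XT.nd (nat_lit 78) (nat_lit 304) (nat_lit 0) (XT.lf (nat_lit 0) (nat_lit 5673634399) (nat_lit 456) (nat_lit 1264238553) (nat_lit 76) (nat_lit 2742291628) (nat_lit 72) (nat_lit 5) (nat_lit 78) (nat_lit 5) (nat_lit 73) (nat_lit 5) (nat_lit 306) (nat_lit 253) (nat_lit 221)) (XT.lf (nat_lit 0) (nat_lit 3589225461) (nat_lit 304) (nat_lit 4531620581) (nat_lit 380) (nat_lit 1726393470) (nat_lit 68) (nat_lit 5) (nat_lit 72) (nat_lit 5) (nat_lit 73) (nat_lit 5) (nat_lit 307) (nat_lit 253) (nat_lit 220))))) (XT.nd (nat_lit 234) (nat_lit 684) (nat_lit 0) (XT.nd (nat_lit 78) (nat_lit 304) (nat_lit 0) (XT.lf (nat_lit 0) (nat_lit 573890469) (nat_lit 380) (nat_lit 1473443269) (nat_lit 76) (nat_lit 7973020558) (nat_lit 67) (nat_lit 5) (nat_lit 72) (nat_lit 5) (nat_lit 68) (nat_lit 5) (nat_lit 308) (nat_lit 253) (nat_lit 219)) (XT.nd (nat_lit 78) (nat_lit 0) (nat_lit 0) (XT.lf (nat_lit 0) (nat_lit 2899294971)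 (nat_lit 380) (nat_lit 6759992740) (nat_lit 76) (nat_lit 539257620) (nat_lit 63) (nat_lit 5) (nat_lit 68) (nat_lit 5) (nat_lit 64) (nat_lit 5) (nat_lit 309) (nat_lit 253) (nat_lit 218)) (XT.lf (nat_lit 0) (nat_lit 5282855111) (nat_lit 380) (nat_lit 1935514517) (nat_lit 76) (nat_lit 3164177095) (nat_lit 63) (nat_lit 5) (nat_lit 68) (nat_lit 5) (nat_lit 64) (nat_lit 5) (nat_lit 310) (nat_lit 253) (nat_lit 217)))) (XT.nd (nat_lit 78) (nat_lit 380) (nat_lit 0) (XT.lf (nat_lit 0) (nat_lit 3033104939) (nat_lit 304) (nat_lit 4688435959) (nat_lit 380) (nat_lit 2851131731) (nat_lit 59) (nat_lit 5) (nat_lit 63) (nat_lit 5) (nat_lit 64) (nat_lit 5) (nat_lit 311) (nat_lit 253) (nat_lit 216)) (XT.nd (nat_lit 78) (nat_lit 380) (nat_lit 0) (XT.lf (nat_lit 0) (nat_lit 8131265293) (nat_lit 304) (nat_lit 2076886971) (nat_lit 380) (nat_lit 561216846) (nat_lit 59) (nat_lit 5) (nat_lit 63) (nat_lit 5) (nat_lit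 64) (nat_lit 5) (nat_lit 312) (nat_lit 253) (nat_lit 215)) (XT.lf (nat_lit 0) (nat_lit 1747351777) (nat_lit 380) (nat_lit 8597194888) (nat_lit 76) (nat_lit 627454040) (nat_lit 54) (nat_lit 5) (nat_lit 59) (nat_lit 5) (nat_lit 55) (nat_lit 5) (nat_lit 313) (nat_lit 253) (nat_lit 214)))))) (XT.nd (nat_lit 468) (nat_lit 760) (nat_lit 0) (XT.nd (nat_lit 234) (nat_lit 380) (nat_lit 0) (XT.nd (nat_lit 78) (nat_lit 228) (nat_lit 0) (XT.lf (nat_lit 0) (nat_lit 4117938941) (nat_lit 380) (nat_lit 3673249156) (nat_lit 76) (nat_lit 3389335644) (nat_lit 54) (nat_lit 5) (nat_lit 59) (nat_lit 5) (nat_lit 55) (nat_lit 5) (nat_lit 314) (nat_lit 253) (nat_lit 213)) (XT.nd (nat_lit 78) (nat_lit 0) (nat_lit 0) (XT.lf (nat_lit 0) (nat_lit 1367691115) (nat_lit 228) (nat_lit 5162939214) (nat_lit 304) (nat_lit 4865640049) (nat_lit 51) (nat_lit 5) (nat_lit 54) (nat_lit 5) (nat_lit 55) (nat_lit 5) (nat_lit 315) (nat_lit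 253) (nat_lit 212)) (XT.lf (nat_lit 0) (nat_lit 6578308057) (nat_lit 228) (nat_lit 2433008046) (nat_lit 304) (nat_lit 2607399572) (nat_lit 51) (nat_lit 5) (nat_lit 54) (nat_lit 5) (nat_lit 55) (nat_lit 5) (nat_lit 316) (nat_lit 253) (nat_lit 211)))) (XT.nd (nat_lit 78) (nat_lit 76) (nat_lit 0) (XT.lf (nat_lit 0) (nat_lit 38162074) (nat_lit 304) (nat_lit 11491854378) (nat_lit 380) (nat_lit 319001968) (nat_lit 47) (nat_lit 5) (nat_lit 51) (nat_lit 5) (nat_lit 52) (nat_lit 5) (nat_lit 317) (nat_lit 253) (nat_lit 210)) (XT.nd (nat_lit 78) (nat_lit 0) (nat_lit 0) (XT.lf (nat_lit 0) (nat_lit 2033514447) (nat_lit 380) (nat_lit 6813160774) (nat_lit 76) (nat_lit 3237996839) (nat_lit 46) (nat_lit 5) (nat_lit 51) (nat_lit 5) (nat_lit 47) (nat_lit 5) (nat_lit 318) (nat_lit 253) (nat_lit 209)) (XT.lf (nat_lit 0) (nat_lit 4411112370) (nat_lit 380) (nat_lit 1723727384) (nat_lit 76) (nat_lit 6193717383) (nat_lit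 46) (nat_lit 5) (nat_lit 51) (nat_lit 5) (nat_lit 47) (nat_lit 5) (nat_lit 319) (nat_lit 253) (nat_lit 208))))) (XT.nd (nat_lit 234) (nat_lit 304) (nat_lit 0) (XT.nd (nat_lit 78) (nat_lit 228) (nat_lit 0) (XT.lf (nat_lit 0) (nat_lit 3533916787) (nat_lit 228) (nat_lit 3322147573) (nat_lit 304) (nat_lit 5723895285) (nat_lit 43) (nat_lit 5) (nat_lit 46) (nat_lit 5) (nat_lit 47) (nat_lit 5) (nat_lit 320) (nat_lit 253) (nat_lit 207)) (XT.nd (nat_lit 78) (nat_lit 228) (nat_lit 0) (XT.lf (nat_lit 0) (nat_lit 8931717181) (nat_lit 228) (nat_lit 422706540) (nat_lit 304) (nat_lit 3485158026) (nat_lit 43) (nat_lit 5) (nat_lit 46) (nat_lit 5) (nat_lit 47) (nat_lit 5) (nat_lit 321) (nat_lit 253) (nat_lit 206)) (XT.lf (nat_lit 0) (nat_lit 1333449079) (nat_lit 228) (nat_lit 10595341849) (nat_lit 304) (nat_lit 1178246846) (nat_lit 40) (nat_lit 5) (nat_lit 43) (nat_lit 5) (nat_lit 44) (nat_lit 5) (nat_lit 322)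 (nat_lit 253) (nat_lit 205)))) (XT.nd (nat_lit 78) (nat_lit 228) (nat_lit 0) (XT.lf (nat_lit 0) (nat_lit 1182263232) (nat_lit 304) (nat_lit 6637981902) (nat_lit 76) (nat_lit 5561766475) (nat_lit 39) (nat_lit 5) (nat_lit 43) (nat_lit 5) (nat_lit 40) (nat_lit 5) (nat_lit 323) (nat_lit 253) (nat_lit 204)) (XT.nd (nat_lit 78) (nat_lit 228) (nat_lit 0) (XT.lf (nat_lit 0) (nat_lit 3554692126) (nat_lit 304) (nat_lit 1411105918) (nat_lit 76) (nat_lit 8700213527) (nat_lit 39) (nat_lit 5) (nat_lit 43) (nat_lit 5) (nat_lit 40) (nat_lit 5) (nat_lit 324) (nat_lit 253) (nat_lit 203)) (XT.lf (nat_lit 0) (nat_lit 4001006505) (nat_lit 228) (nat_lit 2001558288) (nat_lit 304) (nat_lit 7955907004) (nat_lit 36) (nat_lit 5) (nat_lit 39) (nat_lit 5) (nat_lit 40) (nat_lit 5) (nat_lit 325) (nat_lit 253) (nat_lit 202))))))))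
noncomputable def xc92 : XT := (XT.nd (nat_lit 1716) (nat_lit 608) (nat_lit 0) (XT.nd (nat_lit 858) (nat_lit 532) (nat_lit 0) (XT.nd (nat_lit 390) (nat_lit 456) (nat_lit 0) (XT.nd (nat_lit 156) (nat_lit 228) (nat_lit 0) (XT.nd (nat_lit 78) (nat_lit 228) (nat_lit 0) (XT.lf (nat_lit 0) (nat_lit 8514557979) (nat_lit 304) (nat_lit 4715204195) (nat_lit 76) (nat_lit 1030289524) (nat_lit 36) (nat_lit 5) (nat_lit 40) (nat_lit 5) (nat_lit 37) (nat_lit 5) (nat_lit 326) (nat_lit 253) (nat_lit 201)) (XT.lf (nat_lit 0) (nat_lit 628138703) (nat_lit 228) (nat_lit 10466797765) (nat_lit 304) (nat_lit 3476016227) (nat_lit 33) (nat_lit 5) (nat_lit 36) (nat_lit 5) (nat_lit 37) (nat_lit 5) (nat_lit 327) (nat_lit 253) (nat_lit 200))) (XT.nd (nat_lit 78) (nat_lit 228) (nat_lit 0) (XT.lf (nat_lit 0) (nat_lit 6180289805) (nat_lit 228) (nat_lit 7587714242) (nat_lit 304) (nat_lit 1122780930) (nat_lit 33) (nat_lit 5)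 (nat_lit 36) (nat_lit 5) (nat_lit 37) (nat_lit 5) (nat_lit 328) (nat_lit 253) (nat_lit 199)) (XT.nd (nat_lit 78) (nat_lit 152) (nat_lit 0) (XT.lf (nat_lit 0) (nat_lit 1243898068) (nat_lit 304) (nat_lit 3381151219) (nat_lit 76) (nat_lit 10595799694) (nat_lit 32) (nat_lit 5) (nat_lit 36) (nat_lit 5) (nat_lit 33) (nat_lit 5) (nat_lit 329) (nat_lit 253) (nat_lit 198)) (XT.lf (nat_lit 0) (nat_lit 2091717102) (nat_lit 152) (nat_lit 1556560456) (nat_lit 228) (nat_lit 11912583117) (nat_lit 30) (nat_lit 5) (nat_lit 32) (nat_lit 5) (nat_lit 33) (nat_lit 5) (nat_lit 330) (nat_lit 253) (nat_lit 197))))) (XT.nd (nat_lit 234) (nat_lit 228) (nat_lit 0) (XT.nd (nat_lit 78) (nat_lit 228) (nat_lit 0) (XT.lf (nat_lit 0) (nat_lit 6144161512) (nat_lit 228) (nat_lit 8174148559) (nat_lit 76) (nat_lit 1592237066) (nat_lit 30) (nat_lit 5) (nat_lit 33) (nat_lit 5) (nat_lit 31) (nat_lit 5) (nat_lit 331) (nat_lit 253)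 (nat_lit 196)) (XT.nd (nat_lit 78) (nat_lit 228) (nat_lit 0) (XT.lf (nat_lit 0) (nat_lit 8700696157) (nat_lit 228) (nat_lit 2780788359) (nat_lit 76) (nat_lit 4789720438) (nat_lit 30) (nat_lit 5) (nat_lit 33) (nat_lit 5) (nat_lit 31) (nat_lit 5) (nat_lit 332) (nat_lit 253) (nat_lit 195)) (XT.lf (nat_lit 0) (nat_lit 2784956819) (nat_lit 228) (nat_lit 8546966638) (nat_lit 304) (nat_lit 5310871567) (nat_lit 27) (nat_lit 5) (nat_lit 30) (nat_lit 5) (nat_lit 31) (nat_lit 5) (nat_lit 333) (nat_lit 253) (nat_lit 194)))) (XT.nd (nat_lit 78) (nat_lit 228) (nat_lit 0) (XT.lf (nat_lit 0) (nat_lit 8531346446) (nat_lit 228) (nat_lit 5510469099) (nat_lit 304) (nat_lit 2983776300) (nat_lit 27) (nat_lit 5) (nat_lit 30) (nat_lit 5) (nat_lit 31) (nat_lit 5) (nat_lit 334) (nat_lit 253) (nat_lit 193)) (XT.nd (nat_lit 78) (nat_lit 228) (nat_lit 0) (XT.lf (nat_lit 0) (nat_lit 14408058498) (nat_lit 228) (nat_lit 2397419159)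 (nat_lit 304) (nat_lit 615270122) (nat_lit 27) (nat_lit 5) (nat_lit 30) (nat_lit 5) (nat_lit 31) (nat_lit 5) (nat_lit 335) (nat_lit 253) (nat_lit 192)) (XT.lf (nat_lit 0) (nat_lit 1794956823) (nat_lit 228) (nat_lit 15209811499) (nat_lit 76) (nat_lit 822322634) (nat_lit 24) (nat_lit 5) (nat_lit 27) (nat_lit 5) (nat_lit 25) (nat_lit 5) (nat_lit 336) (nat_lit 253) (nat_lit 191)))))) (XT.nd (nat_lit 390) (nat_lit 380) (nat_lit 0) (XT.nd (nat_lit 156) (nat_lit 152) (nat_lit 0) (XT.nd (nat_lit 78) (nat_lit 0) (nat_lit 0) (XT.lf (nat_lit 0) (nat_lit 4292802843) (nat_lit 228) (nat_lit 9838665875) (nat_lit 76) (nat_lit 4113187811) (nat_lit 24) (nat_lit 5) (nat_lit 27) (nat_lit 5) (nat_lit 25) (nat_lit 5) (nat_lit 337) (nat_lit 253) (nat_lit 190)) (XT.lf (nat_lit 0) (nat_lit 6839582592) (nat_lit 228) (nat_lit 4346899217) (nat_lit 76) (nat_lit 7489091208) (nat_lit 24) (nat_lit 5) (nat_lit 27) (nat_lit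 5) (nat_lit 25) (nat_lit 5) (nat_lit 338) (nat_lit 253) (nat_lit 189))) (XT.nd (nat_lit 78) (nat_lit 0) (nat_lit 0) (XT.lf (nat_lit 0) (nat_lit 1295568308) (nat_lit 152) (nat_lit 8154406897) (nat_lit 228) (nat_lit 9669868129) (nat_lit 22) (nat_lit 5) (nat_lit 24) (nat_lit 5) (nat_lit 25) (nat_lit 5) (nat_lit 339) (nat_lit 253) (nat_lit 188)) (XT.nd (nat_lit 78) (nat_lit 0) (nat_lit 0) (XT.lf (nat_lit 0) (nat_lit 7157469319) (nat_lit 152) (nat_lit 5000221997) (nat_lit 228) (nat_lit 7419221470) (nat_lit 22) (nat_lit 5) (nat_lit 24) (nat_lit 5) (nat_lit 25) (nat_lit 5) (nat_lit 340) (nat_lit 253) (nat_lit 187)) (XT.lf (nat_lit 0) (nat_lit 13157414046) (nat_lit 152) (nat_lit 1765066185) (nat_lit 228) (nat_lit 5125979025) (nat_lit 22) (nat_lit 5) (nat_lit 24) (nat_lit 5) (nat_lit 25) (nat_lit 5) (nat_lit 341) (nat_lit 253) (nat_lit 186))))) (XT.nd (nat_lit 234) (nat_lit 152) (nat_lit 0) (XT.nd (nat_lit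 78) (nat_lit 228) (nat_lit 0) (XT.lf (nat_lit 0) (nat_lit 17761694700) (nat_lit 228) (nat_lit 1249186529) (nat_lit 76) (nat_lit 1523565435) (nat_lit 22) (nat_lit 5) (nat_lit 25) (nat_lit 5) (nat_lit 23) (nat_lit 4) (nat_lit 342) (nat_lit 253) (nat_lit 185)) (XT.nd (nat_lit 78) (nat_lit 76) (nat_lit 0) (XT.lf (nat_lit 0) (nat_lit 4597934291) (nat_lit 152) (nat_lit 16126929776) (nat_lit 228) (nat_lit 309024139) (nat_lit 20) (nat_lit 5) (nat_lit 22) (nat_lit 5) (nat_lit 23) (nat_lit 4) (nat_lit 343) (nat_lit 253) (nat_lit 184)) (XT.lf (nat_lit 0) (nat_lit 2175033207) (nat_lit 228) (nat_lit 10959781240) (nat_lit 76) (nat_lit 8413194376) (nat_lit 19) (nat_lit 5) (nat_lit 22) (nat_lit 5) (nat_lit 20) (nat_lit 5) (nat_lit 344) (nat_lit 253) (nat_lit 183)))) (XT.nd (nat_lit 78) (nat_lit 152) (nat_lit 0) (XT.lf (nat_lit 0) (nat_lit 4705233015) (nat_lit 228) (nat_lit 5357698370) (nat_lit 76) (nat_lit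 12015229583) (nat_lit 19) (nat_lit 5) (nat_lit 22) (nat_lit 5) (nat_lit 20) (nat_lit 5) (nat_lit 345) (nat_lit 253) (nat_lit 182)) (XT.nd (nat_lit 78) (nat_lit 0) (nat_lit 0) (XT.lf (nat_lit 0) (nat_lit 385686378) (nat_lit 152) (nat_lit 6907837387) (nat_lit 228) (nat_lit 15331262008) (nat_lit 17) (nat_lit 5) (nat_lit 19) (nat_lit 5) (nat_lit 20) (nat_lit 5) (nat_lit 346) (nat_lit 253) (nat_lit 181)) (XT.lf (nat_lit 0) (nat_lit 6377249639) (nat_lit 152) (nat_lit 3615093856) (nat_lit 228) (nat_lit 13194512082) (nat_lit 17) (nat_lit 5) (nat_lit 19) (nat_lit 5) (nat_lit 20) (nat_lit 5) (nat_lit 347) (nat_lit 253) (nat_lit 180))))))) (XT.nd (nat_lit 858) (nat_lit 304) (nat_lit 0) (XT.nd (nat_lit 390) (nat_lit 228) (nat_lit 0) (XT.nd (nat_lit 156) (nat_lit 76) (nat_lit 0) (XT.nd (nat_lit 78) (nat_lit 0) (nat_lit 0) (XT.lf (nat_lit 0) (nat_lit 12515598057) (nat_lit 152) (nat_lit 235925887) (nat_lit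 228) (nat_lit 11014913361) (nat_lit 17) (nat_lit 5) (nat_lit 19) (nat_lit 5) (nat_lit 20) (nat_lit 5) (nat_lit 348) (nat_lit 253) (nat_lit 179)) (XT.lf (nat_lit 0) (nat_lit 15604549958) (nat_lit 228) (nat_lit 5589016062) (nat_lit 76) (nat_lit 3169539147) (nat_lit 17) (nat_lit 5) (nat_lit 20) (nat_lit 5) (nat_lit 18) (nat_lit 4) (nat_lit 349) (nat_lit 253) (nat_lit 178))) (XT.nd (nat_lit 78) (nat_lit 0) (nat_lit 0) (XT.lf (nat_lit 0) (nat_lit 212910411) (nat_lit 76) (nat_lit 18315105766) (nat_lit 152) (nat_lit 6450141299) (nat_lit 16) (nat_lit 5) (nat_lit 17) (nat_lit 5) (nat_lit 18) (nat_lit 4) (nat_lit 350) (nat_lit 253) (nat_lit 177)) (XT.nd (nat_lit 78) (nat_lit 0) (nat_lit 0) (XT.lf (nat_lit 0) (nat_lit 6272203384) (nat_lit 76) (nat_lit 15304156431) (nat_lit 152) (nat_lit 4034215356) (nat_lit 16) (nat_lit 5) (nat_lit 17) (nat_lit 5) (nat_lit 18) (nat_lit 4) (nat_lit 351) (nat_lit 253) (nat_lit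 176)) (XT.lf (nat_lit 0) (nat_lit 12482925006) (nat_lit 76) (nat_lit 12214525193) (nat_lit 152) (nat_lit 1565104482) (nat_lit 16) (nat_lit 5) (nat_lit 17) (nat_lit 5) (nat_lit 18) (nat_lit 4) (nat_lit 352) (nat_lit 253) (nat_lit 175))))) (XT.nd (nat_lit 234) (nat_lit 0) (nat_lit 0) (XT.nd (nat_lit 78) (nat_lit 152) (nat_lit 0) (XT.lf (nat_lit 0) (nat_lit 940628448) (nat_lit 152) (nat_lit 8093385422) (nat_lit 76) (nat_lit 17900375170) (nat_lit 15) (nat_lit 5) (nat_lit 17) (nat_lit 5) (nat_lit 16) (nat_lit 5) (nat_lit 353) (nat_lit 253) (nat_lit 174)) (XT.nd (nat_lit 78) (nat_lit 152) (nat_lit 0) (XT.lf (nat_lit 0) (nat_lit 3472245820) (nat_lit 152) (nat_lit 2281038491) (nat_lit 76) (nat_lit 21873189936) (nat_lit 15) (nat_lit 5) (nat_lit 17) (nat_lit 5) (nat_lit 16) (nat_lit 5) (nat_lit 354) (nat_lit 253) (nat_lit 173)) (XT.lf (nat_lit 0) (nat_lit 3750724759) (nat_lit 152) (nat_lit 2347830053)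 (nat_lit 228) (nat_lit 22240229940) (nat_lit 13) (nat_lit 5) (nat_lit 15) (nat_lit 5) (nat_lit 16) (nat_lit 5) (nat_lit 355) (nat_lit 253) (nat_lit 172)))) (XT.nd (nat_lit 78) (nat_lit 0) (nat_lit 0) (XT.lf (nat_lit 0) (nat_lit 8820885145) (nat_lit 228) (nat_lit 19101251352) (nat_lit 76) (nat_lit 1149835417) (nat_lit 13) (nat_lit 5) (nat_lit 16) (nat_lit 5) (nat_lit 14) (nat_lit 4) (nat_lit 356) (nat_lit 253) (nat_lit 171)) (XT.nd (nat_lit 78) (nat_lit 0) (nat_lit 0) (XT.lf (nat_lit 0) (nat_lit 11631452984) (nat_lit 228) (nat_lit 13500561100) (nat_lit 76) (nat_lit 4694967176) (nat_lit 13) (nat_lit 5) (nat_lit 16) (nat_lit 5) (nat_lit 14) (nat_lit 4) (nat_lit 357) (nat_lit 253) (nat_lit 170)) (XT.lf (nat_lit 0) (nat_lit 14510145386) (nat_lit 228) (nat_lit 7758526652) (nat_lit 76) (nat_lit 8336477532) (nat_lit 13) (nat_lit 5) (nat_lit 16) (nat_lit 5) (nat_lit 14) (nat_lit 4) (nat_lit 358) (nat_lit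 253) (nat_lit 169)))))) (XT.nd (nat_lit 390) (nat_lit 228) (nat_lit 0) (XT.nd (nat_lit 156) (nat_lit 0) (nat_lit 0) (XT.nd (nat_lit 78) (nat_lit 76) (nat_lit 0) (XT.lf (nat_lit 0) (nat_lit 17459477712) (nat_lit 228) (nat_lit 1870130696) (nat_lit 76) (nat_lit 12077548389) (nat_lit 13) (nat_lit 5) (nat_lit 16) (nat_lit 5) (nat_lit 14) (nat_lit 4) (nat_lit 359) (nat_lit 253) (nat_lit 168)) (XT.lf (nat_lit 0) (nat_lit 4252758605) (nat_lit 76) (nat_lit 16270148563) (nat_lit 152) (nat_lit 11709570155) (nat_lit 12) (nat_lit 5) (nat_lit 13) (nat_lit 5) (nat_lit 14) (nat_lit 4) (nat_lit 360) (nat_lit 253) (nat_lit 167))) (XT.nd (nat_lit 78) (nat_lit 0) (nat_lit 0) (XT.lf (nat_lit 0) (nat_lit 10572771783) (nat_lit 76) (nat_lit 13109294630) (nat_lit 152) (nat_lit 9400397208) (nat_lit 12) (nat_lit 5) (nat_lit 13) (nat_lit 5) (nat_lit 14) (nat_lit 4) (nat_lit 361) (nat_lit 253) (nat_lit 166)) (XT.nd (nat_lit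 78) (nat_lit 0) (nat_lit 0) (XT.lf (nat_lit 0) (nat_lit 17058211910) (nat_lit 76) (nat_lit 9863169353) (nat_lit 152) (nat_lit 7037027174) (nat_lit 12) (nat_lit 5) (nat_lit 13) (nat_lit 5) (nat_lit 14) (nat_lit 4) (nat_lit 362) (nat_lit 253) (nat_lit 165)) (XT.lf (nat_lit 0) (nat_lit 23714745877) (nat_lit 76) (nat_lit 6528936312) (nat_lit 152) (nat_lit 4617394974) (nat_lit 12) (nat_lit 5) (nat_lit 13) (nat_lit 5) (nat_lit 14) (nat_lit 4) (nat_lit 363) (nat_lit 253) (nat_lit 164))))) (XT.nd (nat_lit 234) (nat_lit 0) (nat_lit 0) (XT.nd (nat_lit 78) (nat_lit 228) (nat_lit 0) (XT.lf (nat_lit 0) (nat_lit 30548190071) (nat_lit 76) (nat_lit 3103682099) (nat_lit 152) (nat_lit 2139386365) (nat_lit 12) (nat_lit 5) (nat_lit 13) (nat_lit 5) (nat_lit 14) (nat_lit 4) (nat_lit 364) (nat_lit 253) (nat_lit 163)) (XT.nd (nat_lit 78) (nat_lit 0) (nat_lit 0) (XT.lf (nat_lit 0) (nat_lit 403436478) (nat_lit 228)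 (nat_lit 35926471415) (nat_lit 76) (nat_lit 419380481) (nat_lit 9) (nat_lit 5) (nat_lit 12) (nat_lit 5) (nat_lit 10) (nat_lit 4) (nat_lit 365) (nat_lit 253) (nat_lit 162)) (XT.lf (nat_lit 0) (nat_lit 3050309332) (nat_lit 228) (nat_lit 30631272630) (nat_lit 76) (nat_lit 4051736296) (nat_lit 9) (nat_lit 5) (nat_lit 12) (nat_lit 5) (nat_lit 10) (nat_lit 4) (nat_lit 366) (nat_lit 253) (nat_lit 161)))) (XT.nd (nat_lit 78) (nat_lit 0) (nat_lit 0) (XT.lf (nat_lit 0) (nat_lit 5763546072) (nat_lit 228) (nat_lit 25199084679) (nat_lit 76) (nat_lit 7784646604) (nat_lit 9) (nat_lit 5) (nat_lit 12) (nat_lit 5) (nat_lit 10) (nat_lit 4) (nat_lit 367) (nat_lit 253) (nat_lit 160)) (XT.nd (nat_lit 78) (nat_lit 0) (nat_lit 0) (XT.lf (nat_lit 0) (nat_lit 8545517487) (nat_lit 228) (nat_lit 19625160990) (nat_lit 76) (nat_lit 11621373172) (nat_lit 9) (nat_lit 5) (nat_lit 12) (nat_lit 5) (nat_lit 10) (nat_lit 4) (nat_lit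 368) (nat_lit 253) (nat_lit 159)) (XT.lf (nat_lit 0) (nat_lit 11398654425) (nat_lit 228) (nat_lit 13904631143) (nat_lit 76) (nat_lit 15565268480) (nat_lit 9) (nat_lit 5) (nat_lit 12) (nat_lit 5) (nat_lit 10) (nat_lit 4) (nat_lit 369) (nat_lit 253) (nat_lit 158))))))))
noncomputable def xc93 : XT := (XT.nd (nat_lit 1716) (nat_lit 0) (nat_lit 0) (XT.nd (nat_lit 858) (nat_lit 152) (nat_lit 0) (XT.nd (nat_lit 390) (nat_lit 76) (nat_lit 0) (XT.nd (nat_lit 156) (nat_lit 76) (nat_lit 0) (XT.nd (nat_lit 78) (nat_lit 0) (nat_lit 0) (XT.lf (nat_lit 0) (nat_lit 14325449920) (nat_lit 228) (nat_lit 8032496618) (nat_lit 76) (nat_lit 19619778648) (nat_lit 9) (nat_lit 5) (nat_lit 12) (nat_lit 5) (nat_lit 10) (nat_lit 4) (nat_lit 370) (nat_lit 253) (nat_lit 157)) (XT.lf (nat_lit 0) (nat_lit 17328461364) (nat_lit 228) (nat_lit 2003626423) (nat_lit 76) (nat_lit 23788446454) (nat_lit 9) (nat_lit 5) (nat_lit 12)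 (nat_lit 5) (nat_lit 10) (nat_lit 4) (nat_lit 371) (nat_lit 253) (nat_lit 156))) (XT.nd (nat_lit 78) (nat_lit 0) (nat_lit 0) (XT.lf (nat_lit 0) (nat_lit 4270581818) (nat_lit 76) (nat_lit 16180782375) (nat_lit 152) (nat_lit 23845384049) (nat_lit 8) (nat_lit 5) (nat_lit 9) (nat_lit 5) (nat_lit 10) (nat_lit 4) (nat_lit 372) (nat_lit 253) (nat_lit 155)) (XT.nd (nat_lit 78) (nat_lit 0) (nat_lit 0) (XT.lf (nat_lit 0) (nat_lit 10755411121) (nat_lit 76) (nat_lit 12921673425) (nat_lit 152) (nat_lit 21830904481) (nat_lit 8) (nat_lit 5) (nat_lit 9) (nat_lit 5) (nat_lit 10) (nat_lit 4) (nat_lit 373) (nat_lit 253) (nat_lit 154)) (XT.lf (nat_lit 0) (nat_lit 17416651744) (nat_lit 76) (nat_lit 9572145870) (nat_lit 152) (nat_lit 19767106649) (nat_lit 8) (nat_lit 5) (nat_lit 9) (nat_lit 5) (nat_lit 10) (nat_lit 4) (nat_lit 374) (nat_lit 253) (nat_lit 153))))) (XT.nd (nat_lit 234) (nat_lit 76) (nat_lit 0) (XT.nd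 (nat_lit 78) (nat_lit 0) (nat_lit 0) (XT.lf (nat_lit 0) (nat_lit 24260124190) (nat_lit 76) (nat_lit 6129272938) (nat_lit 152) (nat_lit 17652187232) (nat_lit 8) (nat_lit 5) (nat_lit 9) (nat_lit 5) (nat_lit 10) (nat_lit 4) (nat_lit 375) (nat_lit 253) (nat_lit 152)) (XT.nd (nat_lit 78) (nat_lit 0) (nat_lit 0) (XT.lf (nat_lit 0) (nat_lit 31291808191) (nat_lit 76) (nat_lit 2590046294) (nat_lit 152) (nat_lit 15484298245) (nat_lit 8) (nat_lit 5) (nat_lit 9) (nat_lit 5) (nat_lit 10) (nat_lit 4) (nat_lit 376) (nat_lit 253) (nat_lit 151)) (XT.lf (nat_lit 0) (nat_lit 37479301390) (nat_lit 152) (nat_lit 12222998865) (nat_lit 0) (nat_lit 1028164107) (nat_lit 8) (nat_lit 5) (nat_lit 10) (nat_lit 4) (nat_lit 8) (nat_lit 4) (nat_lit 377) (nat_lit 253) (nat_lit 150)))) (XT.nd (nat_lit 78) (nat_lit 76) (nat_lit 0) (XT.lf (nat_lit 0) (nat_lit 41200676001) (nat_lit 152) (nat_lit 6238105083) (nat_lit 0) (nat_lit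 4696456444) (nat_lit 8) (nat_lit 5) (nat_lit 10) (nat_lit 4) (nat_lit 8) (nat_lit 4) (nat_lit 378) (nat_lit 253) (nat_lit 149)) (XT.nd (nat_lit 78) (nat_lit 76) (nat_lit 0) (XT.lf (nat_lit 0) (nat_lit 45024332897) (nat_lit 152) (nat_lit 89536565) (nat_lit 0) (nat_lit 8468577151) (nat_lit 8) (nat_lit 5) (nat_lit 10) (nat_lit 4) (nat_lit 8) (nat_lit 4) (nat_lit 379) (nat_lit 253) (nat_lit 148)) (XT.lf (nat_lit 0) (nat_lit 6352030211) (nat_lit 76) (nat_lit 42662642526) (nat_lit 76) (nat_lit 6056851645) (nat_lit 7) (nat_lit 4) (nat_lit 8) (nat_lit 5) (nat_lit 8) (nat_lit 4) (nat_lit 380) (nat_lit 253) (nat_lit 147)))))) (XT.nd (nat_lit 390) (nat_lit 76) (nat_lit 0) (XT.nd (nat_lit 156) (nat_lit 76) (nat_lit 0) (XT.nd (nat_lit 78) (nat_lit 0) (nat_lit 0) (XT.lf (nat_lit 0) (nat_lit 12973420696) (nat_lit 76) (nat_lit 40143237835) (nat_lit 76) (nat_lit 3488869152) (nat_lit 7) (nat_lit 4) (nat_lit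 8) (nat_lit 5) (nat_lit 8) (nat_lit 4) (nat_lit 381) (nat_lit 253) (nat_lit 146)) (XT.lf (nat_lit 0) (nat_lit 19778638616) (nat_lit 76) (nat_lit 37554358109) (nat_lit 76) (nat_lit 852826514) (nat_lit 7) (nat_lit 4) (nat_lit 8) (nat_lit 5) (nat_lit 8) (nat_lit 4) (nat_lit 382) (nat_lit 253) (nat_lit 145))) (XT.nd (nat_lit 78) (nat_lit 0) (nat_lit 0) (XT.lf (nat_lit 0) (nat_lit 1817409594) (nat_lit 152) (nat_lit 33057979355) (nat_lit 76) (nat_lit 24937868411) (nat_lit 6) (nat_lit 5) (nat_lit 8) (nat_lit 5) (nat_lit 7) (nat_lit 4) (nat_lit 383) (nat_lit 253) (nat_lit 144)) (XT.nd (nat_lit 78) (nat_lit 0) (nat_lit 0) (XT.lf (nat_lit 0) (nat_lit 4542313099) (nat_lit 152) (nat_lit 27570880809) (nat_lit 76) (nat_lit 29376326256) (nat_lit 6) (nat_lit 5) (nat_lit 8) (nat_lit 5) (nat_lit 7) (nat_lit 4) (nat_lit 384) (nat_lit 253) (nat_lit 143)) (XT.lf (nat_lit 0) (nat_lit 7340906702) (nat_lit 152) (nat_lit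 21932896543) (nat_lit 76) (nat_lit 33942519040) (nat_lit 6) (nat_lit 5) (nat_lit 8) (nat_lit 5) (nat_lit 7) (nat_lit 4) (nat_lit 385) (nat_lit 253) (nat_lit 142))))) (XT.nd (nat_lit 234) (nat_lit 76) (nat_lit 0) (XT.nd (nat_lit 78) (nat_lit 0) (nat_lit 0) (XT.lf (nat_lit 0) (nat_lit 10215635775) (nat_lit 152) (nat_lit 16139100162) (nat_lit 76) (nat_lit 38640436639) (nat_lit 6) (nat_lit 5) (nat_lit 8) (nat_lit 5) (nat_lit 7) (nat_lit 4) (nat_lit 386) (nat_lit 253) (nat_lit 141)) (XT.nd (nat_lit 78) (nat_lit 0) (nat_lit 0) (XT.lf (nat_lit 0) (nat_lit 13169012217) (nat_lit 152) (nat_lit 10184429127) (nat_lit 76) (nat_lit 43474184032) (nat_lit 6) (nat_lit 5) (nat_lit 8) (nat_lit 5) (nat_lit 7) (nat_lit 4) (nat_lit 387) (nat_lit 253) (nat_lit 140)) (XT.lf (nat_lit 0) (nat_lit 16203616650) (nat_lit 152) (nat_lit 4063680327) (nat_lit 76) (nat_lit 48447984879) (nat_lit 6) (nat_lit 5) (nat_lit 8) (nat_lit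 5) (nat_lit 7) (nat_lit 4) (nat_lit 388) (nat_lit 253) (nat_lit 139)))) (XT.nd (nat_lit 78) (nat_lit 0) (nat_lit 0) (XT.lf (nat_lit 0) (nat_lit 2272845875) (nat_lit 76) (nat_lit 17071102778) (nat_lit 152) (nat_lit 51315187331) (nat_lit 5) (nat_lit 5) (nat_lit 6) (nat_lit 5) (nat_lit 7) (nat_lit 4) (nat_lit 389) (nat_lit 253) (nat_lit 138)) (XT.nd (nat_lit 78) (nat_lit 0) (nat_lit 0) (XT.lf (nat_lit 0) (nat_lit 8870692428) (nat_lit 76) (nat_lit 13741767256) (nat_lit 152) (nat_lit 50047835367) (nat_lit 5) (nat_lit 5) (nat_lit 6) (nat_lit 5) (nat_lit 7) (nat_lit 4) (nat_lit 390) (nat_lit 253) (nat_lit 137)) (XT.lf (nat_lit 0) (nat_lit 15654749233) (nat_lit 76) (nat_lit 10317416485) (nat_lit 152) (nat_lit 48749537121) (nat_lit 5) (nat_lit 5) (nat_lit 6) (nat_lit 5) (nat_lit 7) (nat_lit 4) (nat_lit 391) (nat_lit 253) (nat_lit 136))))))) (XT.nd (nat_lit 31668) (nat_lit 0) (nat_lit 9424) (XT.nd (nat_lit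 390) (nat_lit 0) (nat_lit 0) (XT.nd (nat_lit 156) (nat_lit 0) (nat_lit 0) (XT.nd (nat_lit 78) (nat_lit 0) (nat_lit 0) (XT.lf (nat_lit 0) (nat_lit 22630944108) (nat_lit 76) (nat_lit 6795058316) (nat_lit 152) (nat_lit 47419158159) (nat_lit 5) (nat_lit 5) (nat_lit 6) (nat_lit 5) (nat_lit 7) (nat_lit 4) (nat_lit 392) (nat_lit 253) (nat_lit 135)) (XT.lf (nat_lit 0) (nat_lit 29805372756) (nat_lit 76) (nat_lit 3171614959) (nat_lit 152) (nat_lit 46055536014) (nat_lit 5) (nat_lit 5) (nat_lit 6) (nat_lit 5) (nat_lit 7) (nat_lit 4) (nat_lit 393) (nat_lit 253) (nat_lit 134))) (XT.nd (nat_lit 78) (nat_lit 0) (nat_lit 0) (XT.lf (nat_lit 0) (nat_lit 36633569773) (nat_lit 152) (nat_lit 44106744847) (nat_lit 0) (nat_lit 545228583) (nat_lit 5) (nat_lit 5) (nat_lit 7) (nat_lit 4) (nat_lit 5) (nat_lit 4) (nat_lit 394) (nat_lit 253) (nat_lit 133)) (XT.nd (nat_lit 78) (nat_lit 0) (nat_lit 0) (XT.lf (nat_lit 0) (nat_lit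 40425114560) (nat_lit 152) (nat_lit 38874694848) (nat_lit 0) (nat_lit 4305593129) (nat_lit 5) (nat_lit 5) (nat_lit 7) (nat_lit 4) (nat_lit 5) (nat_lit 4) (nat_lit 395) (nat_lit 253) (nat_lit 132)) (XT.lf (nat_lit 0) (nat_lit 44324447575) (nat_lit 152) (nat_lit 33495941780) (nat_lit 0) (nat_lit 8174654064) (nat_lit 5) (nat_lit 5) (nat_lit 7) (nat_lit 4) (nat_lit 5) (nat_lit 4) (nat_lit 396) (nat_lit 253) (nat_lit 131))))) (XT.nd (nat_lit 31044) (nat_lit 0) (nat_lit 15580) (XT.nd (nat_lit 30888) (nat_lit 0) (nat_lit 16188) (XT.lf (nat_lit 0) (nat_lit 48334976001) (nat_lit 152) (nat_lit 27965785760) (nat_lit 0) (nat_lit 12155792121) (nat_lit 5) (nat_lit 5) (nat_lit 7) (nat_lit 4) (nat_lit 5) (nat_lit 4) (nat_lit 397) (nat_lit 253) (nat_lit 130)) (XT.nd (nat_lit 78) (nat_lit 532) (nat_lit 0) (XT.lf (nat_lit 0) (nat_lit 2133952049) (nat_lit 380) (nat_lit 586383739) (nat_lit 380) (nat_lit 586383739)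 (nat_lit 225) (nat_lit 4) (nat_lit 230) (nat_lit 5) (nat_lit 230) (nat_lit 4) (nat_lit 272) (nat_lit 254) (nat_lit 254)) (XT.lf (nat_lit 0) (nat_lit 1088553640) (nat_lit 456) (nat_lit 469252549) (nat_lit 532) (nat_lit 5086434653) (nat_lit 218) (nat_lit 5) (nat_lit 224) (nat_lit 5) (nat_lit 225) (nat_lit 4) (nat_lit 273) (nat_lit 254) (nat_lit 253)))) (XT.nd (nat_lit 78) (nat_lit 608) (nat_lit 0) (XT.lf (nat_lit 0) (nat_lit 4279445040) (nat_lit 532) (nat_lit 2087340087) (nat_lit 0) (nat_lit 311305125) (nat_lit 218) (nat_lit 5) (nat_lit 225) (nat_lit 4) (nat_lit 218) (nat_lit 4) (nat_lit 274) (nat_lit 254) (nat_lit 252)) (XT.nd (nat_lit 78) (nat_lit 0) (nat_lit 0) (XT.lf (nat_lit 0) (nat_lit 288964955) (nat_lit 608) (nat_lit 5279355353) (nat_lit 76) (nat_lit 1147163587) (nat_lit 210) (nat_lit 5) (nat_lit 218) (nat_lit 5) (nat_lit 211) (nat_lit 4) (nat_lit 275) (nat_lit 254) (nat_lit 251)) (XT.lf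 (nat_lit 0) (nat_lit 2940040099) (nat_lit 608) (nat_lit 1740210963) (nat_lit 76) (nat_lit 2075519423) (nat_lit 210) (nat_lit 5) (nat_lit 218) (nat_lit 5) (nat_lit 211) (nat_lit 4) (nat_lit 276) (nat_lit 254) (nat_lit 250)))))) (XT.nd (nat_lit 468) (nat_lit 3952) (nat_lit 0) (XT.nd (nat_lit 234) (nat_lit 836) (nat_lit 0) (XT.nd (nat_lit 78) (nat_lit 760) (nat_lit 0) (XT.lf (nat_lit 0) (nat_lit 1872743021) (nat_lit 608) (nat_lit 3728295097) (nat_lit 684) (nat_lit 1198718767) (nat_lit 202) (nat_lit 5) (nat_lit 210) (nat_lit 5) (nat_lit 211) (nat_lit 4) (nat_lit 277) (nat_lit 254) (nat_lit 249)) (XT.nd (nat_lit 78) (nat_lit 684) (nat_lit 0) (XT.lf (nat_lit 0) (nat_lit 1398394213) (nat_lit 684) (nat_lit 1299682977) (nat_lit 76) (nat_lit 4149009871) (nat_lit 201) (nat_lit 5) (nat_lit 210) (nat_lit 5) (nat_lit 202) (nat_lit 5) (nat_lit 278) (nat_lit 254) (nat_lit 248)) (XT.lf (nat_lit 0) (nat_lit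 2403199903) (nat_lit 684) (nat_lit 1584813431) (nat_lit 760) (nat_lit 2909675916) (nat_lit 192) (nat_lit 5) (nat_lit 201) (nat_lit 5) (nat_lit 202) (nat_lit 5) (nat_lit 279) (nat_lit 254) (nat_lit 247)))) (XT.nd (nat_lit 78) (nat_lit 836) (nat_lit 0) (XT.lf (nat_lit 0) (nat_lit 6176186536) (nat_lit 684) (nat_lit 409652172) (nat_lit 760) (nat_lit 366413266) (nat_lit 192) (nat_lit 5) (nat_lit 201) (nat_lit 5) (nat_lit 202) (nat_lit 5) (nat_lit 280) (nat_lit 254) (nat_lit 246)) (XT.nd (nat_lit 78) (nat_lit 0) (nat_lit 0) (XT.lf (nat_lit 0) (nat_lit 2165241514) (nat_lit 836) (nat_lit 3994395705) (nat_lit 76) (nat_lit 849820211) (nat_lit 181) (nat_lit 5) (nat_lit 192) (nat_lit 5) (nat_lit 182) (nat_lit 5) (nat_lit 281) (nat_lit 254) (nat_lit 245)) (XT.lf (nat_lit 0) (nat_lit 4697963428) (nat_lit 836) (nat_lit 209860324) (nat_lit 76) (nat_lit 2162799621) (nat_lit 181) (nat_lit 5) (nat_lit 192) (nat_lit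 5) (nat_lit 182) (nat_lit 5) (nat_lit 282) (nat_lit 254) (nat_lit 244))))) (XT.nd (nat_lit 234) (nat_lit 2128) (nat_lit 0) (XT.nd (nat_lit 78) (nat_lit 912) (nat_lit 0) (XT.lf (nat_lit 0) (nat_lit 127263104) (nat_lit 912) (nat_lit 3443928724) (nat_lit 76) (nat_lit 3563963464) (nat_lit 169) (nat_lit 5) (nat_lit 181) (nat_lit 5) (nat_lit 170) (nat_lit 5) (nat_lit 283) (nat_lit 254) (nat_lit 243)) (XT.nd (nat_lit 78) (nat_lit 0) (nat_lit 0) (XT.lf (nat_lit 0) (nat_lit 428013705) (nat_lit 912) (nat_lit 2156115294) (nat_lit 988) (nat_lit 4619200238) (nat_lit 157) (nat_lit 5) (nat_lit 169) (nat_lit 5) (nat_lit 170) (nat_lit 5) (nat_lit 284) (nat_lit 254) (nat_lit 242)) (XT.lf (nat_lit 0) (nat_lit 4418473076) (nat_lit 912) (nat_lit 655959241) (nat_lit 988) (nat_lit 2200615227) (nat_lit 157) (nat_lit 5) (nat_lit 169) (nat_lit 5) (nat_lit 170) (nat_lit 5) (nat_lit 285) (nat_lit 254) (nat_lit 241))))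 (XT.nd (nat_lit 78) (nat_lit 1064) (nat_lit 0) (XT.lf (nat_lit 0) (nat_lit 230611101) (nat_lit 1064) (nat_lit 6228725849) (nat_lit 76) (nat_lit 891398455) (nat_lit 143) (nat_lit 5) (nat_lit 157) (nat_lit 5) (nat_lit 144) (nat_lit 5) (nat_lit 286) (nat_lit 254) (nat_lit 240)) (XT.nd (nat_lit 78) (nat_lit 1064) (nat_lit 0) (XT.lf (nat_lit 0) (nat_lit 2653864226) (nat_lit 1064) (nat_lit 2247702927) (nat_lit 76) (nat_lit 2527839878) (nat_lit 143) (nat_lit 5) (nat_lit 157) (nat_lit 5) (nat_lit 144) (nat_lit 5) (nat_lit 287) (nat_lit 254) (nat_lit 239)) (XT.lf (nat_lit 0) (nat_lit 1820494542) (nat_lit 1064) (nat_lit 3276620250) (nat_lit 1140) (nat_lit 2415163644) (nat_lit 129) (nat_lit 5) (nat_lit 143) (nat_lit 5) (nat_lit 144) (nat_lit 5) (nat_lit 288) (nat_lit 254) (nat_lit 238))))))))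
noncomputable def xc94 : XT := (XT.nd (nat_lit 1716) (nat_lit 2508) (nat_lit 0) (XT.nd (nat_lit 858) (nat_lit 1976) (nat_lit 0) (XT.nd (nat_lit 390) (nat_lit 1900) (nat_lit 0) (XT.nd (nat_lit 156) (nat_lit 532) (nat_lit 0) (XT.nd (nat_lit 78) (nat_lit 608) (nat_lit 0) (XT.lf (nat_lit 0) (nat_lit 5989697612) (nat_lit 1064) (nat_lit 1577862293) (nat_lit 1140) (nat_lit 31710260) (nat_lit 129) (nat_lit 5) (nat_lit 143) (nat_lit 5) (nat_lit 144) (nat_lit 5) (nat_lit 289) (nat_lit 254) (nat_lit 237)) (XT.lf (nat_lit 0) (nat_lit 2334958032) (nat_lit 608) (nat_lit 5136916634) (nat_lit 76) (nat_lit 217764921) (nat_lit 121) (nat_lit 5) (nat_lit 129) (nat_lit 5) (nat_lit 122) (nat_lit 5) (nat_lit 290) (nat_lit 254) (nat_lit 236))) (XT.nd (nat_lit 78) (nat_lit 532) (nat_lit 0) (XT.lf (nat_lit 0) (nat_lit 4737668077) (nat_lit 608) (nat_lit 993761785) (nat_lit 76) (nat_lit 2052540224) (nat_lit 121) (nat_lit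 5) (nat_lit 129) (nat_lit 5) (nat_lit 122) (nat_lit 5) (nat_lit 291) (nat_lit 254) (nat_lit 235)) (XT.nd (nat_lit 78) (nat_lit 76) (nat_lit 0) (XT.lf (nat_lit 0) (nat_lit 3271196260) (nat_lit 456) (nat_lit 3908282850) (nat_lit 532) (nat_lit 702863893) (nat_lit 115) (nat_lit 5) (nat_lit 121) (nat_lit 5) (nat_lit 122) (nat_lit 5) (nat_lit 292) (nat_lit 254) (nat_lit 234)) (XT.lf (nat_lit 0) (nat_lit 1623608584) (nat_lit 532) (nat_lit 382595620) (nat_lit 76) (nat_lit 5978796311) (nat_lit 114) (nat_lit 5) (nat_lit 121) (nat_lit 5) (nat_lit 115) (nat_lit 5) (nat_lit 293) (nat_lit 254) (nat_lit 233))))) (XT.nd (nat_lit 234) (nat_lit 836) (nat_lit 0) (XT.nd (nat_lit 78) (nat_lit 532) (nat_lit 0) (XT.lf (nat_lit 0) (nat_lit 3978281255) (nat_lit 532) (nat_lit 3555576) (nat_lit 608) (nat_lit 4109613658) (nat_lit 107) (nat_lit 5) (nat_lit 114) (nat_lit 5) (nat_lit 115) (nat_lit 5) (nat_lit 294) (nat_lit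 254) (nat_lit 232)) (XT.nd (nat_lit 78) (nat_lit 76) (nat_lit 0) (XT.lf (nat_lit 0) (nat_lit 194251880) (nat_lit 456) (nat_lit 6181124915) (nat_lit 532) (nat_lit 1826978436) (nat_lit 101) (nat_lit 5) (nat_lit 107) (nat_lit 5) (nat_lit 108) (nat_lit 5) (nat_lit 295) (nat_lit 254) (nat_lit 231)) (XT.lf (nat_lit 0) (nat_lit 495253140) (nat_lit 532) (nat_lit 3672910979) (nat_lit 76) (nat_lit 4149018331) (nat_lit 100) (nat_lit 5) (nat_lit 107) (nat_lit 5) (nat_lit 101) (nat_lit 5) (nat_lit 296) (nat_lit 254) (nat_lit 230)))) (XT.nd (nat_lit 78) (nat_lit 380) (nat_lit 0) (XT.lf (nat_lit 0) (nat_lit 723020375) (nat_lit 456) (nat_lit 2075490741) (nat_lit 532) (nat_lit 5638139699) (nat_lit 94) (nat_lit 5) (nat_lit 100) (nat_lit 5) (nat_lit 101) (nat_lit 5) (nat_lit 297) (nat_lit 254) (nat_lit 229)) (XT.nd (nat_lit 78) (nat_lit 380) (nat_lit 0) (XT.lf (nat_lit 0) (nat_lit 5151247963) (nat_lit 532) (nat_lit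 3300144680) (nat_lit 76) (nat_lit 109075268) (nat_lit 94) (nat_lit 5) (nat_lit 101) (nat_lit 5) (nat_lit 95) (nat_lit 5) (nat_lit 298) (nat_lit 254) (nat_lit 228)) (XT.lf (nat_lit 0) (nat_lit 1183693394) (nat_lit 380) (nat_lit 6366642153) (nat_lit 456) (nat_lit 1138561895) (nat_lit 89) (nat_lit 5) (nat_lit 94) (nat_lit 5) (nat_lit 95) (nat_lit 5) (nat_lit 299) (nat_lit 254) (nat_lit 227)))))) (XT.nd (nat_lit 390) (nat_lit 1064) (nat_lit 0) (XT.nd (nat_lit 156) (nat_lit 456) (nat_lit 0) (XT.nd (nat_lit 78) (nat_lit 380) (nat_lit 0) (XT.lf (nat_lit 0) (nat_lit 1154603258) (nat_lit 456) (nat_lit 3027591186) (nat_lit 76) (nat_lit 4639466228) (nat_lit 88) (nat_lit 5) (nat_lit 94) (nat_lit 5) (nat_lit 89) (nat_lit 5) (nat_lit 300) (nat_lit 254) (nat_lit 226)) (XT.lf (nat_lit 0) (nat_lit 1539783845) (nat_lit 380) (nat_lit 1914476468) (nat_lit 456) (nat_lit 5505147346) (nat_lit 83) (nat_lit 5) (nat_lit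 88) (nat_lit 5) (nat_lit 89) (nat_lit 5) (nat_lit 301) (nat_lit 254) (nat_lit 225))) (XT.nd (nat_lit 78) (nat_lit 456) (nat_lit 0) (XT.lf (nat_lit 0) (nat_lit 5804496879) (nat_lit 456) (nat_lit 2862856563) (nat_lit 76) (nat_lit 434637834) (nat_lit 83) (nat_lit 5) (nat_lit 89) (nat_lit 5) (nat_lit 84) (nat_lit 5) (nat_lit 302) (nat_lit 254) (nat_lit 224)) (XT.nd (nat_lit 78) (nat_lit 76) (nat_lit 0) (XT.lf (nat_lit 0) (nat_lit 1783967965) (nat_lit 380) (nat_lit 6425594662) (nat_lit 456) (nat_lit 1039907603) (nat_lit 78) (nat_lit 5) (nat_lit 83) (nat_lit 5) (nat_lit 84) (nat_lit 5) (nat_lit 303) (nat_lit 254) (nat_lit 223)) (XT.lf (nat_lit 0) (nat_lit 1238006866) (nat_lit 456) (nat_lit 2847319266) (nat_lit 76) (nat_lit 5316485272) (nat_lit 77) (nat_lit 5) (nat_lit 83) (nat_lit 5) (nat_lit 78) (nat_lit 5) (nat_lit 304) (nat_lit 254) (nat_lit 222))))) (XT.nd (nat_lit 234) (nat_lit 380) (nat_lit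 0) (XT.nd (nat_lit 78) (nat_lit 304) (nat_lit 0) (XT.lf (nat_lit 0) (nat_lit 1874473730) (nat_lit 380) (nat_lit 1656890398) (nat_lit 456) (nat_lit 6028144581) (nat_lit 72) (nat_lit 5) (nat_lit 77) (nat_lit 5) (nat_lit 78) (nat_lit 5) (nat_lit 305) (nat_lit 254) (nat_lit 221)) (XT.nd (nat_lit 78) (nat_lit 304) (nat_lit 0) (XT.lf (nat_lit 0) (nat_lit 5881427520) (nat_lit 456) (nat_lit 2995299935) (nat_lit 76) (nat_lit 845703360) (nat_lit 72) (nat_lit 5) (nat_lit 78) (nat_lit 5) (nat_lit 73) (nat_lit 5) (nat_lit 306) (nat_lit 254) (nat_lit 220)) (XT.lf (nat_lit 0) (nat_lit 1793415592) (nat_lit 304) (nat_lit 6494407424) (nat_lit 380) (nat_lit 1602969889) (nat_lit 68) (nat_lit 5) (nat_lit 72) (nat_lit 5) (nat_lit 73) (nat_lit 5) (nat_lit 307) (nat_lit 254) (nat_lit 219)))) (XT.nd (nat_lit 78) (nat_lit 304) (nat_lit 0) (XT.lf (nat_lit 0) (nat_lit 671466295) (nat_lit 380) (nat_lit 3343933053) (nat_lit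 76) (nat_lit 6049235003) (nat_lit 67) (nat_lit 5) (nat_lit 72) (nat_lit 5) (nat_lit 68) (nat_lit 5) (nat_lit 308) (nat_lit 254) (nat_lit 218)) (XT.nd (nat_lit 78) (nat_lit 0) (nat_lit 0) (XT.lf (nat_lit 0) (nat_lit 1506635269) (nat_lit 304) (nat_lit 1443568954) (nat_lit 380) (nat_lit 7294078515) (nat_lit 63) (nat_lit 5) (nat_lit 67) (nat_lit 5) (nat_lit 68) (nat_lit 5) (nat_lit 309) (nat_lit 254) (nat_lit 217)) (XT.lf (nat_lit 0) (nat_lit 5297455769) (nat_lit 380) (nat_lit 3928741013) (nat_lit 76) (nat_lit 1203232290) (nat_lit 63) (nat_lit 5) (nat_lit 68) (nat_lit 5) (nat_lit 64) (nat_lit 5) (nat_lit 310) (nat_lit 254) (nat_lit 216))))))) (XT.nd (nat_lit 858) (nat_lit 988) (nat_lit 0) (XT.nd (nat_lit 390) (nat_lit 836) (nat_lit 0) (XT.nd (nat_lit 156) (nat_lit 380) (nat_lit 0) (XT.nd (nat_lit 78) (nat_lit 0) (nat_lit 0) (XT.lf (nat_lit 0) (nat_lit 971049803) (nat_lit 304) (nat_lit 6723491255)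 (nat_lit 380) (nat_lit 2926315998) (nat_lit 59) (nat_lit 5) (nat_lit 63) (nat_lit 5) (nat_lit 64) (nat_lit 5) (nat_lit 311) (nat_lit 254) (nat_lit 215)) (XT.lf (nat_lit 0) (nat_lit 6040899938) (nat_lit 304) (nat_lit 4118835921) (nat_lit 380) (nat_lit 658512663) (nat_lit 59) (nat_lit 5) (nat_lit 63) (nat_lit 5) (nat_lit 64) (nat_lit 5) (nat_lit 312) (nat_lit 254) (nat_lit 214))) (XT.nd (nat_lit 78) (nat_lit 0) (nat_lit 0) (XT.lf (nat_lit 0) (nat_lit 171765448) (nat_lit 304) (nat_lit 1431751100) (nat_lit 380) (nat_lit 9418894242) (nat_lit 54) (nat_lit 5) (nat_lit 58) (nat_lit 5) (nat_lit 59) (nat_lit 5) (nat_lit 313) (nat_lit 254) (nat_lit 213)) (XT.nd (nat_lit 78) (nat_lit 0) (nat_lit 0) (XT.lf (nat_lit 0) (nat_lit 3939572138) (nat_lit 380) (nat_lit 5941218719) (nat_lit 76) (nat_lit 1351226949) (nat_lit 54) (nat_lit 5) (nat_lit 59) (nat_lit 5) (nat_lit 55) (nat_lit 5) (nat_lit 314) (nat_lit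 254) (nat_lit 212)) (XT.lf (nat_lit 0) (nat_lit 6318952651) (nat_lit 380) (nat_lit 954425256) (nat_lit 76) (nat_lit 4175432498) (nat_lit 54) (nat_lit 5) (nat_lit 59) (nat_lit 5) (nat_lit 55) (nat_lit 5) (nat_lit 315) (nat_lit 254) (nat_lit 211))))) (XT.nd (nat_lit 234) (nat_lit 228) (nat_lit 0) (XT.nd (nat_lit 78) (nat_lit 380) (nat_lit 0) (XT.lf (nat_lit 0) (nat_lit 4210007720) (nat_lit 228) (nat_lit 4560435738) (nat_lit 304) (nat_lit 2901733368) (nat_lit 51) (nat_lit 5) (nat_lit 54) (nat_lit 5) (nat_lit 55) (nat_lit 5) (nat_lit 316) (nat_lit 254) (nat_lit 210)) (XT.nd (nat_lit 78) (nat_lit 380) (nat_lit 0) (XT.lf (nat_lit 0) (nat_lit 9495352319) (nat_lit 228) (nat_lit 1770666586) (nat_lit 304) (nat_lit 637198372) (nat_lit 51) (nat_lit 5) (nat_lit 54) (nat_lit 5) (nat_lit 55) (nat_lit 5) (nat_lit 317) (nat_lit 254) (nat_lit 209)) (XT.lf (nat_lit 0) (nat_lit 1661413828) (nat_lit 380) (nat_lit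 9368813585) (nat_lit 76) (nat_lit 1110580100) (nat_lit 46) (nat_lit 5) (nat_lit 51) (nat_lit 5) (nat_lit 47) (nat_lit 5) (nat_lit 318) (nat_lit 254) (nat_lit 208)))) (XT.nd (nat_lit 78) (nat_lit 228) (nat_lit 0) (XT.lf (nat_lit 0) (nat_lit 4020320106) (nat_lit 380) (nat_lit 4305701212) (nat_lit 76) (nat_lit 4059272249) (nat_lit 46) (nat_lit 5) (nat_lit 51) (nat_lit 5) (nat_lit 47) (nat_lit 5) (nat_lit 319) (nat_lit 254) (nat_lit 207)) (XT.nd (nat_lit 78) (nat_lit 0) (nat_lit 0) (XT.lf (nat_lit 0) (nat_lit 874493650) (nat_lit 228) (nat_lit 5547067216) (nat_lit 304) (nat_lit 6216485602) (nat_lit 43) (nat_lit 5) (nat_lit 46) (nat_lit 5) (nat_lit 47) (nat_lit 5) (nat_lit 320) (nat_lit 254) (nat_lit 206)) (XT.lf (nat_lit 0) (nat_lit 6246990192) (nat_lit 228) (nat_lit 2655068130) (nat_lit 304) (nat_lit 3996184024) (nat_lit 43) (nat_lit 5) (nat_lit 46) (nat_lit 5) (nat_lit 47) (nat_lit 5) (nat_lit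 321) (nat_lit 254) (nat_lit 205)))))) (XT.nd (nat_lit 390) (nat_lit 456) (nat_lit 0) (XT.nd (nat_lit 156) (nat_lit 228) (nat_lit 0) (XT.nd (nat_lit 78) (nat_lit 304) (nat_lit 0) (XT.lf (nat_lit 0) (nat_lit 11424737669) (nat_lit 304) (nat_lit 1439554535) (nat_lit 76) (nat_lit 302993620) (nat_lit 43) (nat_lit 5) (nat_lit 47) (nat_lit 5) (nat_lit 44) (nat_lit 5) (nat_lit 322) (nat_lit 254) (nat_lit 204)) (XT.lf (nat_lit 0) (nat_lit 597373221) (nat_lit 304) (nat_lit 9519931548) (nat_lit 76) (nat_lit 3326100329) (nat_lit 39) (nat_lit 5) (nat_lit 43) (nat_lit 5) (nat_lit 40) (nat_lit 5) (nat_lit 323) (nat_lit 254) (nat_lit 203))) (XT.nd (nat_lit 78) (nat_lit 228) (nat_lit 0) (XT.lf (nat_lit 0) (nat_lit 2952960137) (nat_lit 304) (nat_lit 4317510680) (nat_lit 76) (nat_lit 6457473192) (nat_lit 39) (nat_lit 5) (nat_lit 43) (nat_lit 5) (nat_lit 40) (nat_lit 5) (nat_lit 324) (nat_lit 254) (nat_lit 202))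 (XT.nd (nat_lit 78) (nat_lit 0) (nat_lit 0) (XT.lf (nat_lit 0) (nat_lit 1012543228) (nat_lit 228) (nat_lit 4343211203) (nat_lit 304) (nat_lit 8666034863) (nat_lit 36) (nat_lit 5) (nat_lit 39) (nat_lit 5) (nat_lit 40) (nat_lit 5) (nat_lit 325) (nat_lit 254) (nat_lit 201)) (XT.lf (nat_lit 0) (nat_lit 6543278072) (nat_lit 228) (nat_lit 1298267495) (nat_lit 304) (nat_lit 6482641446) (nat_lit 36) (nat_lit 5) (nat_lit 39) (nat_lit 5) (nat_lit 40) (nat_lit 5) (nat_lit 326) (nat_lit 254) (nat_lit 200))))) (XT.nd (nat_lit 234) (nat_lit 152) (nat_lit 0) (XT.nd (nat_lit 78) (nat_lit 304) (nat_lit 0) (XT.lf (nat_lit 0) (nat_lit 10387704911) (nat_lit 304) (nat_lit 2460599503) (nat_lit 76) (nat_lit 1787841002) (nat_lit 36) (nat_lit 5) (nat_lit 40) (nat_lit 5) (nat_lit 37) (nat_lit 5) (nat_lit 327) (nat_lit 254) (nat_lit 199)) (XT.nd (nat_lit 78) (nat_lit 76) (nat_lit 0) (XT.lf (nat_lit 0) (nat_lit 3019552890)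 (nat_lit 228) (nat_lit 10001630687) (nat_lit 304) (nat_lit 1936011722) (nat_lit 33) (nat_lit 5) (nat_lit 36) (nat_lit 5) (nat_lit 37) (nat_lit 5) (nat_lit 328) (nat_lit 254) (nat_lit 198)) (XT.lf (nat_lit 0) (nat_lit 431344240) (nat_lit 304) (nat_lit 6623168988) (nat_lit 76) (nat_lit 8233464571) (nat_lit 32) (nat_lit 5) (nat_lit 36) (nat_lit 5) (nat_lit 33) (nat_lit 5) (nat_lit 329) (nat_lit 254) (nat_lit 197)))) (XT.nd (nat_lit 78) (nat_lit 152) (nat_lit 0) (XT.lf (nat_lit 0) (nat_lit 2800867257) (nat_lit 304) (nat_lit 1213144593) (nat_lit 76) (nat_lit 11615050730) (nat_lit 32) (nat_lit 5) (nat_lit 36) (nat_lit 5) (nat_lit 33) (nat_lit 5) (nat_lit 330) (nat_lit 254) (nat_lit 196)) (XT.nd (nat_lit 78) (nat_lit 0) (nat_lit 0) (XT.lf (nat_lit 0) (nat_lit 4401660355) (nat_lit 152) (nat_lit 853057443) (nat_lit 228) (nat_lit 10725318841) (nat_lit 30) (nat_lit 5) (nat_lit 32) (nat_lit 5) (nat_lit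 33) (nat_lit 5) (nat_lit 331) (nat_lit 254) (nat_lit 195)) (XT.lf (nat_lit 0) (nat_lit 7788877904) (nat_lit 228) (nat_lit 6198372805) (nat_lit 76) (nat_lit 2354140805) (nat_lit 30) (nat_lit 5) (nat_lit 33) (nat_lit 5) (nat_lit 31) (nat_lit 5) (nat_lit 332) (nat_lit 254) (nat_lit 194))))))))
noncomputable def xc95 : XT := (XT.nd (nat_lit 1716) (nat_lit 532) (nat_lit 0) (XT.nd (nat_lit 858) (nat_lit 380) (nat_lit 0) (XT.nd (nat_lit 390) (nat_lit 304) (nat_lit 0) (XT.nd (nat_lit 156) (nat_lit 228) (nat_lit 0) (XT.nd (nat_lit 78) (nat_lit 228) (nat_lit 0) (XT.lf (nat_lit 0) (nat_lit 10379572912) (nat_lit 228) (nat_lit 707901126) (nat_lit 76) (nat_lit 5626748582) (nat_lit 30) (nat_lit 5) (nat_lit 33) (nat_lit 5) (nat_lit 31) (nat_lit 5) (nat_lit 333) (nat_lit 254) (nat_lit 193)) (XT.lf (nat_lit 0) (nat_lit 5003676105) (nat_lit 228) (nat_lit 8065288719) (nat_lit 304) (nat_lit 4028693962) (nat_lit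 27) (nat_lit 5) (nat_lit 30) (nat_lit 5) (nat_lit 31) (nat_lit 5) (nat_lit 334) (nat_lit 254) (nat_lit 192))) (XT.nd (nat_lit 78) (nat_lit 228) (nat_lit 0) (XT.lf (nat_lit 0) (nat_lit 10860267986) (nat_lit 228) (nat_lit 4959193930) (nat_lit 304) (nat_lit 1673771383) (nat_lit 27) (nat_lit 5) (nat_lit 30) (nat_lit 5) (nat_lit 31) (nat_lit 5) (nat_lit 335) (nat_lit 254) (nat_lit 191)) (XT.nd (nat_lit 78) (nat_lit 152) (nat_lit 0) (XT.lf (nat_lit 0) (nat_lit 710879419) (nat_lit 304) (nat_lit 1055566117) (nat_lit 76) (nat_lit 16134845401) (nat_lit 26) (nat_lit 5) (nat_lit 30) (nat_lit 5) (nat_lit 27) (nat_lit 5) (nat_lit 336) (nat_lit 254) (nat_lit 190)) (XT.lf (nat_lit 0) (nat_lit 3168485439) (nat_lit 228) (nat_lit 13609904417) (nat_lit 76) (nat_lit 1541695478) (nat_lit 24) (nat_lit 5) (nat_lit 27) (nat_lit 5) (nat_lit 25) (nat_lit 5) (nat_lit 337) (nat_lit 254) (nat_lit 189))))) (XT.nd (nat_lit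 234) (nat_lit 152) (nat_lit 0) (XT.nd (nat_lit 78) (nat_lit 152) (nat_lit 0) (XT.lf (nat_lit 0) (nat_lit 5702829561) (nat_lit 228) (nat_lit 8137513787) (nat_lit 76) (nat_lit 4911052538) (nat_lit 24) (nat_lit 5) (nat_lit 27) (nat_lit 5) (nat_lit 25) (nat_lit 5) (nat_lit 338) (nat_lit 254) (nat_lit 188)) (XT.nd (nat_lit 78) (nat_lit 152) (nat_lit 0) (XT.lf (nat_lit 0) (nat_lit 8288694955) (nat_lit 228) (nat_lit 2539139141) (nat_lit 76) (nat_lit 8368588306) (nat_lit 24) (nat_lit 5) (nat_lit 27) (nat_lit 5) (nat_lit 25) (nat_lit 5) (nat_lit 339) (nat_lit 254) (nat_lit 187)) (XT.lf (nat_lit 0) (nat_lit 3253600773) (nat_lit 152) (nat_lit 7706015945) (nat_lit 228) (nat_lit 8694998757) (nat_lit 22) (nat_lit 5) (nat_lit 24) (nat_lit 5) (nat_lit 25) (nat_lit 5) (nat_lit 340) (nat_lit 254) (nat_lit 186)))) (XT.nd (nat_lit 78) (nat_lit 152) (nat_lit 0) (XT.lf (nat_lit 0) (nat_lit 9235460792) (nat_lit 152)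 (nat_lit 4477390638) (nat_lit 228) (nat_lit 6413676352) (nat_lit 22) (nat_lit 5) (nat_lit 24) (nat_lit 5) (nat_lit 25) (nat_lit 5) (nat_lit 341) (nat_lit 254) (nat_lit 185)) (XT.nd (nat_lit 78) (nat_lit 152) (nat_lit 0) (XT.lf (nat_lit 0) (nat_lit 15361133937) (nat_lit 152) (nat_lit 1164777376) (nat_lit 228) (nat_lit 4087407170) (nat_lit 22) (nat_lit 5) (nat_lit 24) (nat_lit 5) (nat_lit 25) (nat_lit 5) (nat_lit 342) (nat_lit 254) (nat_lit 184)) (XT.lf (nat_lit 0) (nat_lit 509010968) (nat_lit 152) (nat_lit 18918617813) (nat_lit 228) (nat_lit 1686992911) (nat_lit 20) (nat_lit 5) (nat_lit 22) (nat_lit 5) (nat_lit 23) (nat_lit 4) (nat_lit 343) (nat_lit 254) (nat_lit 183)))))) (XT.nd (nat_lit 390) (nat_lit 152) (nat_lit 0) (XT.nd (nat_lit 156) (nat_lit 152) (nat_lit 0) (XT.nd (nat_lit 78) (nat_lit 0) (nat_lit 0) (XT.lf (nat_lit 0) (nat_lit 813033283) (nat_lit 228) (nat_lit 15133588889) (nat_lit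 76) (nat_lit 5682862192) (nat_lit 19) (nat_lit 5) (nat_lit 22) (nat_lit 5) (nat_lit 20) (nat_lit 5) (nat_lit 344) (nat_lit 254) (nat_lit 182)) (XT.lf (nat_lit 0) (nat_lit 3332630871) (nat_lit 228) (nat_lit 9548396038) (nat_lit 76) (nat_lit 9278944240) (nat_lit 19) (nat_lit 5) (nat_lit 22) (nat_lit 5) (nat_lit 20) (nat_lit 5) (nat_lit 345) (nat_lit 254) (nat_lit 181))) (XT.nd (nat_lit 78) (nat_lit 152) (nat_lit 0) (XT.lf (nat_lit 0) (nat_lit 5906920751) (nat_lit 228) (nat_lit 3828935496) (nat_lit 76) (nat_lit 12971175823) (nat_lit 19) (nat_lit 5) (nat_lit 22) (nat_lit 5) (nat_lit 20) (nat_lit 5) (nat_lit 346) (nat_lit 254) (nat_lit 180)) (XT.nd (nat_lit 78) (nat_lit 0) (nat_lit 0) (XT.lf (nat_lit 0) (nat_lit 2070187129) (nat_lit 152) (nat_lit 6487865077) (nat_lit 228) (nat_lit 14712495938) (nat_lit 17) (nat_lit 5) (nat_lit 19) (nat_lit 5) (nat_lit 20) (nat_lit 5) (nat_lit 347) (nat_lit 254)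 (nat_lit 179)) (XT.lf (nat_lit 0) (nat_lit 8192771167) (nat_lit 152) (nat_lit 3114607418) (nat_lit 228) (nat_lit 12543062076) (nat_lit 17) (nat_lit 5) (nat_lit 19) (nat_lit 5) (nat_lit 20) (nat_lit 5) (nat_lit 348) (nat_lit 254) (nat_lit 178))))) (XT.nd (nat_lit 234) (nat_lit 76) (nat_lit 0) (XT.nd (nat_lit 78) (nat_lit 76) (nat_lit 0) (XT.lf (nat_lit 0) (nat_lit 14123110735) (nat_lit 228) (nat_lit 9983726461) (nat_lit 76) (nat_lit 341404869) (nat_lit 17) (nat_lit 5) (nat_lit 20) (nat_lit 5) (nat_lit 18) (nat_lit 4) (nat_lit 349) (nat_lit 254) (nat_lit 177)) (XT.nd (nat_lit 78) (nat_lit 76) (nat_lit 0) (XT.lf (nat_lit 0) (nat_lit 17035188371) (nat_lit 228) (nat_lit 4201053472) (nat_lit 76) (nat_lit 3827408483) (nat_lit 17) (nat_lit 5) (nat_lit 20) (nat_lit 5) (nat_lit 18) (nat_lit 4) (nat_lit 350) (nat_lit 254) (nat_lit 176)) (XT.lf (nat_lit 0) (nat_lit 1759679491) (nat_lit 76) (nat_lit 18273452142)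 (nat_lit 152) (nat_lit 5664462281) (nat_lit 16) (nat_lit 5) (nat_lit 17) (nat_lit 5) (nat_lit 18) (nat_lit 4) (nat_lit 351) (nat_lit 254) (nat_lit 175)))) (XT.nd (nat_lit 78) (nat_lit 76) (nat_lit 0) (XT.lf (nat_lit 0) (nat_lit 7955885765) (nat_lit 76) (nat_lit 15189391030) (nat_lit 152) (nat_lit 3204578460) (nat_lit 16) (nat_lit 5) (nat_lit 17) (nat_lit 5) (nat_lit 18) (nat_lit 4) (nat_lit 352) (nat_lit 254) (nat_lit 174)) (XT.nd (nat_lit 78) (nat_lit 76) (nat_lit 0) (XT.lf (nat_lit 0) (nat_lit 14309370309) (nat_lit 76) (nat_lit 12023786100) (nat_lit 152) (nat_lit 689083484) (nat_lit 16) (nat_lit 5) (nat_lit 17) (nat_lit 5) (nat_lit 18) (nat_lit 4) (nat_lit 353) (nat_lit 254) (nat_lit 173)) (XT.lf (nat_lit 0) (nat_lit 1847452722) (nat_lit 152) (nat_lit 6907762918) (nat_lit 76) (nat_lit 18959576339) (nat_lit 15) (nat_lit 5) (nat_lit 17) (nat_lit 5) (nat_lit 16) (nat_lit 5) (nat_lit 354) (nat_lit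 254) (nat_lit 172))))))) (XT.nd (nat_lit 858) (nat_lit 304) (nat_lit 0) (XT.nd (nat_lit 390) (nat_lit 76) (nat_lit 0) (XT.nd (nat_lit 156) (nat_lit 0) (nat_lit 0) (XT.nd (nat_lit 78) (nat_lit 152) (nat_lit 0) (XT.lf (nat_lit 0) (nat_lit 4429428165) (nat_lit 152) (nat_lit 962650163) (nat_lit 76) (nat_lit 23036366134) (nat_lit 15) (nat_lit 5) (nat_lit 17) (nat_lit 5) (nat_lit 16) (nat_lit 5) (nat_lit 355) (nat_lit 254) (nat_lit 171)) (XT.lf (nat_lit 0) (nat_lit 5236469715) (nat_lit 152) (nat_lit 1886411877) (nat_lit 228) (nat_lit 22039627964) (nat_lit 13) (nat_lit 5) (nat_lit 15) (nat_lit 5) (nat_lit 16) (nat_lit 5) (nat_lit 356) (nat_lit 254) (nat_lit 170))) (XT.nd (nat_lit 78) (nat_lit 0) (nat_lit 0) (XT.lf (nat_lit 0) (nat_lit 9907339499) (nat_lit 228) (nat_lit 18320357383) (nat_lit 76) (nat_lit 1690616603) (nat_lit 13) (nat_lit 5) (nat_lit 16) (nat_lit 5) (nat_lit 14) (nat_lit 4) (nat_lit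 357) (nat_lit 254) (nat_lit 169)) (XT.nd (nat_lit 78) (nat_lit 0) (nat_lit 0) (XT.lf (nat_lit 0) (nat_lit 12778287641) (nat_lit 228) (nat_lit 12591081322) (nat_lit 76) (nat_lit 5327356117) (nat_lit 13) (nat_lit 5) (nat_lit 16) (nat_lit 5) (nat_lit 14) (nat_lit 4) (nat_lit 358) (nat_lit 254) (nat_lit 168)) (XT.lf (nat_lit 0) (nat_lit 15720101269) (nat_lit 228) (nat_lit 6715072150) (nat_lit 76) (nat_lit 9063795088) (nat_lit 13) (nat_lit 5) (nat_lit 16) (nat_lit 5) (nat_lit 14) (nat_lit 4) (nat_lit 359) (nat_lit 254) (nat_lit 167))))) (XT.nd (nat_lit 234) (nat_lit 0) (nat_lit 0) (XT.nd (nat_lit 78) (nat_lit 76) (nat_lit 0) (XT.lf (nat_lit 0) (nat_lit 18735350900) (nat_lit 228) (nat_lit 687195489) (nat_lit 76) (nat_lit 12903198365) (nat_lit 13) (nat_lit 5) (nat_lit 16) (nat_lit 5) (nat_lit 14) (nat_lit 4) (nat_lit 360) (nat_lit 254) (nat_lit 166)) (XT.nd (nat_lit 78) (nat_lit 0) (nat_lit 0) (XT.lf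 (nat_lit 0) (nat_lit 5607233049) (nat_lit 76) (nat_lit 16273338323) (nat_lit 152) (nat_lit 11295587871) (nat_lit 12) (nat_lit 5) (nat_lit 13) (nat_lit 5) (nat_lit 14) (nat_lit 4) (nat_lit 361) (nat_lit 254) (nat_lit 165)) (XT.lf (nat_lit 0) (nat_lit 12081111913) (nat_lit 76) (nat_lit 13031782501) (nat_lit 152) (nat_lit 8939429135) (nat_lit 12) (nat_lit 5) (nat_lit 13) (nat_lit 5) (nat_lit 14) (nat_lit 4) (nat_lit 362) (nat_lit 254) (nat_lit 164)))) (XT.nd (nat_lit 78) (nat_lit 0) (nat_lit 0) (XT.lf (nat_lit 0) (nat_lit 18726421351) (nat_lit 76) (nat_lit 9701985825) (nat_lit 152) (nat_lit 6526798195) (nat_lit 12) (nat_lit 5) (nat_lit 13) (nat_lit 5) (nat_lit 14) (nat_lit 4) (nat_lit 363) (nat_lit 254) (nat_lit 163)) (XT.nd (nat_lit 78) (nat_lit 0) (nat_lit 0) (XT.lf (nat_lit 0) (nat_lit 25548967946) (nat_lit 76) (nat_lit 6281038761) (nat_lit 152) (nat_lit 4055586926) (nat_lit 12) (nat_lit 5)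 (nat_lit 13) (nat_lit 5) (nat_lit 14) (nat_lit 4) (nat_lit 364) (nat_lit 254) (nat_lit 162)) (XT.lf (nat_lit 0) (nat_lit 32554713145) (nat_lit 76) (nat_lit 2765952135) (nat_lit 152) (nat_lit 1523636017) (nat_lit 12) (nat_lit 5) (nat_lit 13) (nat_lit 5) (nat_lit 14) (nat_lit 4) (nat_lit 365) (nat_lit 254) (nat_lit 161)))))) (XT.nd (nat_lit 468) (nat_lit 76) (nat_lit 0) (XT.nd (nat_lit 234) (nat_lit 0) (nat_lit 0) (XT.nd (nat_lit 78) (nat_lit 0) (nat_lit 0) (XT.lf (nat_lit 0) (nat_lit 1077484491) (nat_lit 228) (nat_lit 35894444816) (nat_lit 76) (nat_lit 859114174) (nat_lit 9) (nat_lit 5) (nat_lit 12) (nat_lit 5) (nat_lit 10) (nat_lit 4) (nat_lit 366) (nat_lit 254) (nat_lit 160)) (XT.nd (nat_lit 78) (nat_lit 0) (nat_lit 0) (XT.lf (nat_lit 0) (nat_lit 3784483582) (nat_lit 228) (nat_lit 30472714944) (nat_lit 76) (nat_lit 4587999335) (nat_lit 9) (nat_lit 5) (nat_lit 12) (nat_lit 5) (nat_lit 10) (nat_lit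 4) (nat_lit 367) (nat_lit 254) (nat_lit 159)) (XT.lf (nat_lit 0) (nat_lit 6560399027) (nat_lit 228) (nat_lit 24908944729) (nat_lit 76) (nat_lit 8420817993) (nat_lit 9) (nat_lit 5) (nat_lit 12) (nat_lit 5) (nat_lit 10) (nat_lit 4) (nat_lit 368) (nat_lit 254) (nat_lit 158)))) (XT.nd (nat_lit 78) (nat_lit 0) (nat_lit 0) (XT.lf (nat_lit 0) (nat_lit 9407656383) (nat_lit 228) (nat_lit 19198272625) (nat_lit 76) (nat_lit 12360919212) (nat_lit 9) (nat_lit 5) (nat_lit 12) (nat_lit 5) (nat_lit 10) (nat_lit 4) (nat_lit 369) (nat_lit 254) (nat_lit 157)) (XT.nd (nat_lit 78) (nat_lit 0) (nat_lit 0) (XT.lf (nat_lit 0) (nat_lit 12328743545) (nat_lit 228) (nat_lit 13335708724) (nat_lit 76) (nat_lit 16411745801) (nat_lit 9) (nat_lit 5) (nat_lit 12) (nat_lit 5) (nat_lit 10) (nat_lit 4) (nat_lit 370) (nat_lit 254) (nat_lit 156)) (XT.lf (nat_lit 0) (nat_lit 15326212919) (nat_lit 228) (nat_lit 7316130397) (nat_lit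 76) (nat_lit 20576837315) (nat_lit 9) (nat_lit 5) (nat_lit 12) (nat_lit 5) (nat_lit 10) (nat_lit 4) (nat_lit 371) (nat_lit 254) (nat_lit 155))))) (XT.nd (nat_lit 234) (nat_lit 0) (nat_lit 0) (XT.nd (nat_lit 78) (nat_lit 76) (nat_lit 0) (XT.lf (nat_lit 0) (nat_lit 18402683653) (nat_lit 228) (nat_lit 1134277818) (nat_lit 76) (nat_lit 24859833156) (nat_lit 9) (nat_lit 5) (nat_lit 12) (nat_lit 5) (nat_lit 10) (nat_lit 4) (nat_lit 372) (nat_lit 254) (nat_lit 154)) (XT.nd (nat_lit 78) (nat_lit 0) (nat_lit 0) (XT.lf (nat_lit 0) (nat_lit 5319044344) (nat_lit 76) (nat_lit 16292929490) (nat_lit 152) (nat_lit 23996561311) (nat_lit 8) (nat_lit 5) (nat_lit 9) (nat_lit 5) (nat_lit 10) (nat_lit 4) (nat_lit 373) (nat_lit 254) (nat_lit 153)) (XT.lf (nat_lit 0) (nat_lit 11971612358) (nat_lit 76) (nat_lit 12946919398) (nat_lit 152) (nat_lit 21938079908) (nat_lit 8) (nat_lit 5) (nat_lit 9) (nat_lit 5) (nat_lit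 10) (nat_lit 4) (nat_lit 374) (nat_lit 254) (nat_lit 152)))) (XT.nd (nat_lit 78) (nat_lit 0) (nat_lit 0) (XT.lf (nat_lit 0) (nat_lit 18806664795) (nat_lit 76) (nat_lit 9507461479) (nat_lit 152) (nat_lit 19828322073) (nat_lit 8) (nat_lit 5) (nat_lit 9) (nat_lit 5) (nat_lit 10) (nat_lit 4) (nat_lit 375) (nat_lit 254) (nat_lit 151)) (XT.nd (nat_lit 78) (nat_lit 0) (nat_lit 0) (XT.lf (nat_lit 0) (nat_lit 25830174031) (nat_lit 76) (nat_lit 5971550382) (nat_lit 152) (nat_lit 17665444330) (nat_lit 8) (nat_lit 5) (nat_lit 9) (nat_lit 5) (nat_lit 10) (nat_lit 4) (nat_lit 376) (nat_lit 254) (nat_lit 150)) (XT.lf (nat_lit 0) (nat_lit 33048277112) (nat_lit 76) (nat_lit 2336096475) (nat_lit 152) (nat_lit 15447556785) (nat_lit 8) (nat_lit 5) (nat_lit 9) (nat_lit 5) (nat_lit 10) (nat_lit 4) (nat_lit 377) (nat_lit 254) (nat_lit 149))))))))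
noncomputable def xc96 : XT := (XT.nd (nat_lit 32370) (nat_lit 0) (nat_lit 8284) (XT.nd (nat_lit 858) (nat_lit 76) (nat_lit 0) (XT.nd (nat_lit 390) (nat_lit 76) (nat_lit 0) (XT.nd (nat_lit 156) (nat_lit 76) (nat_lit 0) (XT.nd (nat_lit 78) (nat_lit 0) (nat_lit 0) (XT.lf (nat_lit 0) (nat_lit 39078681889) (nat_lit 152) (nat_lit 11784122247) (nat_lit 0) (nat_lit 1374717281) (nat_lit 8) (nat_lit 5) (nat_lit 10) (nat_lit 4) (nat_lit 8) (nat_lit 4) (nat_lit 378) (nat_lit 254) (nat_lit 148)) (XT.lf (nat_lit 0) (nat_lit 42897862745) (nat_lit 152) (nat_lit 5643144756) (nat_lit 0) (nat_lit 5143863002) (nat_lit 8) (nat_lit 5) (nat_lit 10) (nat_lit 4) (nat_lit 8) (nat_lit 4) (nat_lit 379) (nat_lit 254) (nat_lit 147))) (XT.nd (nat_lit 78) (nat_lit 0) (nat_lit 0) (XT.lf (nat_lit 0) (nat_lit 680377723) (nat_lit 76) (nat_lit 46148959798) (nat_lit 76) (nat_lit 8346382255) (nat_lit 7) (nat_lit 4) (nat_lit 8)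 (nat_lit 5) (nat_lit 8) (nat_lit 4) (nat_lit 380) (nat_lit 254) (nat_lit 146)) (XT.nd (nat_lit 78) (nat_lit 0) (nat_lit 0) (XT.lf (nat_lit 0) (nat_lit 7294470533) (nat_lit 76) (nat_lit 43632563534) (nat_lit 76) (nat_lit 5782823077) (nat_lit 7) (nat_lit 4) (nat_lit 8) (nat_lit 5) (nat_lit 8) (nat_lit 4) (nat_lit 381) (nat_lit 254) (nat_lit 145)) (XT.lf (nat_lit 0) (nat_lit 14092603332) (nat_lit 76) (nat_lit 41046604612) (nat_lit 76) (nat_lit 3151074918) (nat_lit 7) (nat_lit 4) (nat_lit 8) (nat_lit 5) (nat_lit 8) (nat_lit 4) (nat_lit 382) (nat_lit 254) (nat_lit 144))))) (XT.nd (nat_lit 234) (nat_lit 0) (nat_lit 0) (XT.nd (nat_lit 78) (nat_lit 76) (nat_lit 0) (XT.lf (nat_lit 0) (nat_lit 21080716236) (nat_lit 76) (nat_lit 38388823457) (nat_lit 76) (nat_lit 448838194) (nat_lit 7) (nat_lit 4) (nat_lit 8) (nat_lit 5) (nat_lit 8) (nat_lit 4) (nat_lit 383) (nat_lit 254) (nat_lit 143)) (XT.nd (nat_lit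 78) (nat_lit 0) (nat_lit 0) (XT.lf (nat_lit 0) (nat_lit 2280854791) (nat_lit 152) (nat_lit 33353010783) (nat_lit 76) (nat_lit 25961028410) (nat_lit 6) (nat_lit 5) (nat_lit 8) (nat_lit 5) (nat_lit 7) (nat_lit 4) (nat_lit 384) (nat_lit 254) (nat_lit 142)) (XT.lf (nat_lit 0) (nat_lit 5075595025) (nat_lit 152) (nat_lit 27721591745) (nat_lit 76) (nat_lit 30524629584) (nat_lit 6) (nat_lit 5) (nat_lit 8) (nat_lit 5) (nat_lit 7) (nat_lit 4) (nat_lit 385) (nat_lit 254) (nat_lit 141)))) (XT.nd (nat_lit 78) (nat_lit 0) (nat_lit 0) (XT.lf (nat_lit 0) (nat_lit 7946582964) (nat_lit 152) (nat_lit 21934169373) (nat_lit 76) (nat_lit 35220031058) (nat_lit 6) (nat_lit 5) (nat_lit 8) (nat_lit 5) (nat_lit 7) (nat_lit 4) (nat_lit 386) (nat_lit 254) (nat_lit 140)) (XT.nd (nat_lit 78) (nat_lit 0) (nat_lit 0) (XT.lf (nat_lit 0) (nat_lit 10896327238) (nat_lit 152) (nat_lit 15985686695) (nat_lit 76) (nat_lit 40051335610)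 (nat_lit 6) (nat_lit 5) (nat_lit 8) (nat_lit 5) (nat_lit 7) (nat_lit 4) (nat_lit 387) (nat_lit 254) (nat_lit 139)) (XT.lf (nat_lit 0) (nat_lit 13927405292) (nat_lit 152) (nat_lit 9870946009) (nat_lit 76) (nat_lit 45022764768) (nat_lit 6) (nat_lit 5) (nat_lit 8) (nat_lit 5) (nat_lit 7) (nat_lit 4) (nat_lit 388) (nat_lit 254) (nat_lit 138)))))) (XT.nd (nat_lit 390) (nat_lit 0) (nat_lit 0) (XT.nd (nat_lit 156) (nat_lit 0) (nat_lit 0) (XT.nd (nat_lit 78) (nat_lit 76) (nat_lit 0) (XT.lf (nat_lit 0) (nat_lit 17042465643) (nat_lit 152) (nat_lit 3584604336) (nat_lit 76) (nat_lit 50138662498) (nat_lit 6) (nat_lit 5) (nat_lit 8) (nat_lit 5) (nat_lit 7) (nat_lit 4) (nat_lit 389) (nat_lit 254) (nat_lit 137)) (XT.lf (nat_lit 0) (nat_lit 2936125628) (nat_lit 76) (nat_lit 17336328394) (nat_lit 152) (nat_lit 52495597212) (nat_lit 5) (nat_lit 5) (nat_lit 6) (nat_lit 5) (nat_lit 7) (nat_lit 4) (nat_lit 390)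 (nat_lit 254) (nat_lit 136))) (XT.nd (nat_lit 78) (nat_lit 0) (nat_lit 0) (XT.lf (nat_lit 0) (nat_lit 9714574732) (nat_lit 76) (nat_lit 13914304286) (nat_lit 152) (nat_lit 51200682331) (nat_lit 5) (nat_lit 5) (nat_lit 6) (nat_lit 5) (nat_lit 7) (nat_lit 4) (nat_lit 391) (nat_lit 254) (nat_lit 135)) (XT.nd (nat_lit 78) (nat_lit 0) (nat_lit 0) (XT.lf (nat_lit 0) (nat_lit 16685325236) (nat_lit 76) (nat_lit 10394205012) (nat_lit 152) (nat_lit 49873588189) (nat_lit 5) (nat_lit 5) (nat_lit 6) (nat_lit 5) (nat_lit 7) (nat_lit 4) (nat_lit 392) (nat_lit 254) (nat_lit 134)) (XT.lf (nat_lit 0) (nat_lit 23854468087) (nat_lit 76) (nat_lit 6772954756) (nat_lit 152) (nat_lit 48513155190) (nat_lit 5) (nat_lit 5) (nat_lit 6) (nat_lit 5) (nat_lit 7) (nat_lit 4) (nat_lit 393) (nat_lit 254) (nat_lit 133))))) (XT.nd (nat_lit 234) (nat_lit 0) (nat_lit 0) (XT.nd (nat_lit 78) (nat_lit 0) (nat_lit 0) (XT.lf (nat_lit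 0) (nat_lit 31228267585) (nat_lit 76) (nat_lit 3047389321) (nat_lit 152) (nat_lit 47118194605) (nat_lit 5) (nat_lit 5) (nat_lit 6) (nat_lit 5) (nat_lit 7) (nat_lit 4) (nat_lit 394) (nat_lit 254) (nat_lit 132)) (XT.nd (nat_lit 78) (nat_lit 0) (nat_lit 0) (XT.lf (nat_lit 0) (nat_lit 38034973291) (nat_lit 152) (nat_lit 44909293971) (nat_lit 0) (nat_lit 770413895) (nat_lit 5) (nat_lit 5) (nat_lit 7) (nat_lit 4) (nat_lit 5) (nat_lit 4) (nat_lit 395) (nat_lit 254) (nat_lit 131)) (XT.lf (nat_lit 0) (nat_lit 41931456759) (nat_lit 152) (nat_lit 39535447129) (nat_lit 0) (nat_lit 4637506995) (nat_lit 5) (nat_lit 5) (nat_lit 7) (nat_lit 4) (nat_lit 5) (nat_lit 4) (nat_lit 396) (nat_lit 254) (nat_lit 130)))) (XT.nd (nat_lit 30732) (nat_lit 0) (nat_lit 16720) (XT.lf (nat_lit 0) (nat_lit 45939218635) (nat_lit 152) (nat_lit 34010054437) (nat_lit 0) (nat_lit 8616734533) (nat_lit 5) (nat_lit 5) (nat_lit 7) (nat_lit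 4) (nat_lit 5) (nat_lit 4) (nat_lit 397) (nat_lit 254) (nat_lit 129)) (XT.nd (nat_lit 78) (nat_lit 380) (nat_lit 0) (XT.lf (nat_lit 0) (nat_lit 1024463806) (nat_lit 380) (nat_lit 1231219350) (nat_lit 0) (nat_lit 1024463806) (nat_lit 230) (nat_lit 5) (nat_lit 235) (nat_lit 4) (nat_lit 230) (nat_lit 4) (nat_lit 270) (nat_lit 255) (nat_lit 255)) (XT.lf (nat_lit 0) (nat_lit 844707777) (nat_lit 380) (nat_lit 3938655156) (nat_lit 380) (nat_lit 1802648444) (nat_lit 225) (nat_lit 4) (nat_lit 230) (nat_lit 5) (nat_lit 230) (nat_lit 4) (nat_lit 271) (nat_lit 255) (nat_lit 254))))))) (XT.nd (nat_lit 858) (nat_lit 5092) (nat_lit 0) (XT.nd (nat_lit 390) (nat_lit 2204) (nat_lit 0) (XT.nd (nat_lit 156) (nat_lit 608) (nat_lit 0) (XT.nd (nat_lit 78) (nat_lit 456) (nat_lit 0) (XT.lf (nat_lit 0) (nat_lit 897128780) (nat_lit 456) (nat_lit 2388628211) (nat_lit 76) (nat_lit 3329053815) (nat_lit 224) (nat_lit 5)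 (nat_lit 230) (nat_lit 5) (nat_lit 225) (nat_lit 4) (nat_lit 272) (nat_lit 255) (nat_lit 253)) (XT.lf (nat_lit 0) (nat_lit 999602723) (nat_lit 456) (nat_lit 2558423655) (nat_lit 532) (nat_lit 3088875147) (nat_lit 218) (nat_lit 5) (nat_lit 224) (nat_lit 5) (nat_lit 225) (nat_lit 4) (nat_lit 273) (nat_lit 255) (nat_lit 252))) (XT.nd (nat_lit 78) (nat_lit 608) (nat_lit 0) (XT.lf (nat_lit 0) (nat_lit 4472416313) (nat_lit 456) (nat_lit 1759286083) (nat_lit 532) (nat_lit 450704318) (nat_lit 218) (nat_lit 5) (nat_lit 224) (nat_lit 5) (nat_lit 225) (nat_lit 4) (nat_lit 274) (nat_lit 255) (nat_lit 251)) (XT.nd (nat_lit 78) (nat_lit 0) (nat_lit 0) (XT.lf (nat_lit 0) (nat_lit 1267066183) (nat_lit 532) (nat_lit 877686449) (nat_lit 608) (nat_lit 4576314680) (nat_lit 210) (nat_lit 5) (nat_lit 217) (nat_lit 5) (nat_lit 218) (nat_lit 5) (nat_lit 275) (nat_lit 255) (nat_lit 250)) (XT.lf (nat_lit 0) (nat_lit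 4744232626) (nat_lit 608) (nat_lit 1940365052) (nat_lit 76) (nat_lit 78502566) (nat_lit 210) (nat_lit 5) (nat_lit 218) (nat_lit 5) (nat_lit 211) (nat_lit 4) (nat_lit 276) (nat_lit 255) (nat_lit 249))))) (XT.nd (nat_lit 234) (nat_lit 836) (nat_lit 0) (XT.nd (nat_lit 78) (nat_lit 684) (nat_lit 0) (XT.lf (nat_lit 0) (nat_lit 541658967) (nat_lit 684) (nat_lit 5178922234) (nat_lit 76) (nat_lit 1087864438) (nat_lit 201) (nat_lit 5) (nat_lit 210) (nat_lit 5) (nat_lit 202) (nat_lit 5) (nat_lit 277) (nat_lit 255) (nat_lit 248)) (XT.nd (nat_lit 78) (nat_lit 684) (nat_lit 0) (XT.lf (nat_lit 0) (nat_lit 3073796777) (nat_lit 684) (nat_lit 1596756784) (nat_lit 76) (nat_lit 2186305729) (nat_lit 201) (nat_lit 5) (nat_lit 210) (nat_lit 5) (nat_lit 202) (nat_lit 5) (nat_lit 278) (nat_lit 255) (nat_lit 247)) (XT.lf (nat_lit 0) (nat_lit 2066900956) (nat_lit 684) (nat_lit 3552909561) (nat_lit 760) (nat_lit 1289135477)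 (nat_lit 192) (nat_lit 5) (nat_lit 201) (nat_lit 5) (nat_lit 202) (nat_lit 5) (nat_lit 279) (nat_lit 255) (nat_lit 246)))) (XT.nd (nat_lit 78) (nat_lit 760) (nat_lit 0) (XT.lf (nat_lit 0) (nat_lit 1189587929) (nat_lit 760) (nat_lit 1168982717) (nat_lit 76) (nat_lit 4605944641) (nat_lit 191) (nat_lit 5) (nat_lit 201) (nat_lit 5) (nat_lit 192) (nat_lit 5) (nat_lit 280) (nat_lit 255) (nat_lit 245)) (XT.nd (nat_lit 78) (nat_lit 0) (nat_lit 0) (XT.lf (nat_lit 0) (nat_lit 2586334234) (nat_lit 760) (nat_lit 1076323468) (nat_lit 836) (nat_lit 3360661813) (nat_lit 181) (nat_lit 5) (nat_lit 191) (nat_lit 5) (nat_lit 192) (nat_lit 5) (nat_lit 281) (nat_lit 255) (nat_lit 244)) (XT.lf (nat_lit 0) (nat_lit 6147017047) (nat_lit 836) (nat_lit 675479800) (nat_lit 76) (nat_lit 263596175) (nat_lit 181) (nat_lit 5) (nat_lit 192) (nat_lit 5) (nat_lit 182) (nat_lit 5) (nat_lit 282) (nat_lit 255) (nat_lit 243))))))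 (XT.nd (nat_lit 390) (nat_lit 2204) (nat_lit 0) (XT.nd (nat_lit 156) (nat_lit 1976) (nat_lit 0) (XT.nd (nat_lit 78) (nat_lit 0) (nat_lit 0) (XT.lf (nat_lit 0) (nat_lit 1490518150) (nat_lit 912) (nat_lit 3982104672) (nat_lit 76) (nat_lit 1679007036) (nat_lit 169) (nat_lit 5) (nat_lit 181) (nat_lit 5) (nat_lit 170) (nat_lit 5) (nat_lit 283) (nat_lit 255) (nat_lit 242)) (XT.lf (nat_lit 0) (nat_lit 3906624627) (nat_lit 912) (nat_lit 151473402) (nat_lit 76) (nat_lit 3163071949) (nat_lit 169) (nat_lit 5) (nat_lit 181) (nat_lit 5) (nat_lit 170) (nat_lit 5) (nat_lit 284) (nat_lit 255) (nat_lit 241))) (XT.nd (nat_lit 78) (nat_lit 1064) (nat_lit 0) (XT.lf (nat_lit 0) (nat_lit 3803335406) (nat_lit 912) (nat_lit 2556216031) (nat_lit 988) (nat_lit 934597358) (nat_lit 157) (nat_lit 5) (nat_lit 169) (nat_lit 5) (nat_lit 170) (nat_lit 5) (nat_lit 285) (nat_lit 255) (nat_lit 240)) (XT.nd (nat_lit 78) (nat_lit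 0) (nat_lit 0) (XT.lf (nat_lit 0) (nat_lit 438570655) (nat_lit 988) (nat_lit 982634760) (nat_lit 1064) (nat_lit 5949918942) (nat_lit 143) (nat_lit 5) (nat_lit 156) (nat_lit 5) (nat_lit 157) (nat_lit 5) (nat_lit 286) (nat_lit 255) (nat_lit 239)) (XT.lf (nat_lit 0) (nat_lit 3800431643) (nat_lit 1064) (nat_lit 2975474525) (nat_lit 76) (nat_lit 675338024) (nat_lit 143) (nat_lit 5) (nat_lit 157) (nat_lit 5) (nat_lit 144) (nat_lit 5) (nat_lit 287) (nat_lit 255) (nat_lit 238))))) (XT.nd (nat_lit 234) (nat_lit 532) (nat_lit 0) (XT.nd (nat_lit 78) (nat_lit 608) (nat_lit 0) (XT.lf (nat_lit 0) (nat_lit 1045176778) (nat_lit 1064) (nat_lit 5157478611) (nat_lit 1140) (nat_lit 1332814704) (nat_lit 129) (nat_lit 5) (nat_lit 143) (nat_lit 5) (nat_lit 144) (nat_lit 5) (nat_lit 288) (nat_lit 255) (nat_lit 237)) (XT.nd (nat_lit 78) (nat_lit 532) (nat_lit 0) (XT.lf (nat_lit 0) (nat_lit 996788736) (nat_lit 1140)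 (nat_lit 2451060752) (nat_lit 76) (nat_lit 4175426390) (nat_lit 128) (nat_lit 5) (nat_lit 143) (nat_lit 5) (nat_lit 129) (nat_lit 5) (nat_lit 289) (nat_lit 255) (nat_lit 236)) (XT.lf (nat_lit 0) (nat_lit 1663818555) (nat_lit 532) (nat_lit 1655942019) (nat_lit 608) (nat_lit 4395281105) (nat_lit 121) (nat_lit 5) (nat_lit 128) (nat_lit 5) (nat_lit 129) (nat_lit 5) (nat_lit 290) (nat_lit 255) (nat_lit 235)))) (XT.nd (nat_lit 78) (nat_lit 532) (nat_lit 0) (XT.lf (nat_lit 0) (nat_lit 5674816213) (nat_lit 608) (nat_lit 1924822401) (nat_lit 76) (nat_lit 211273094) (nat_lit 121) (nat_lit 5) (nat_lit 129) (nat_lit 5) (nat_lit 122) (nat_lit 5) (nat_lit 291) (nat_lit 255) (nat_lit 234)) (XT.nd (nat_lit 78) (nat_lit 0) (nat_lit 0) (XT.lf (nat_lit 0) (nat_lit 162542332) (nat_lit 532) (nat_lit 5622938436) (nat_lit 76) (nat_lit 2125070281) (nat_lit 114) (nat_lit 5) (nat_lit 121) (nat_lit 5) (nat_lit 115) (nat_lit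 5) (nat_lit 292) (nat_lit 255) (nat_lit 233)) (XT.lf (nat_lit 0) (nat_lit 2444682059) (nat_lit 532) (nat_lit 1433263045) (nat_lit 76) (nat_lit 4136079859) (nat_lit 114) (nat_lit 5) (nat_lit 121) (nat_lit 5) (nat_lit 115) (nat_lit 5) (nat_lit 293) (nat_lit 255) (nat_lit 232))))))))
noncomputable def xc97 : XT := (XT.nd (nat_lit 1716) (nat_lit 2280) (nat_lit 0) (XT.nd (nat_lit 858) (nat_lit 1748) (nat_lit 0) (XT.nd (nat_lit 390) (nat_lit 1292) (nat_lit 0) (XT.nd (nat_lit 156) (nat_lit 988) (nat_lit 0) (XT.nd (nat_lit 78) (nat_lit 0) (nat_lit 0) (XT.lf (nat_lit 0) (nat_lit 2874899011) (nat_lit 532) (nat_lit 1887679333) (nat_lit 608) (nat_lit 3359204195) (nat_lit 107) (nat_lit 5) (nat_lit 114) (nat_lit 5) (nat_lit 115) (nat_lit 5) (nat_lit 294) (nat_lit 255) (nat_lit 231)) (XT.lf (nat_lit 0) (nat_lit 7106966538) (nat_lit 608) (nat_lit 956972700) (nat_lit 76) (nat_lit 170317395) (nat_lit 107) (nat_lit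 5) (nat_lit 115) (nat_lit 5) (nat_lit 108) (nat_lit 5) (nat_lit 295) (nat_lit 255) (nat_lit 230))) (XT.nd (nat_lit 78) (nat_lit 456) (nat_lit 0) (XT.lf (nat_lit 0) (nat_lit 1142812963) (nat_lit 532) (nat_lit 4914182528) (nat_lit 76) (nat_lit 2293130195) (nat_lit 100) (nat_lit 5) (nat_lit 107) (nat_lit 5) (nat_lit 101) (nat_lit 5) (nat_lit 296) (nat_lit 255) (nat_lit 229)) (XT.nd (nat_lit 78) (nat_lit 456) (nat_lit 0) (XT.lf (nat_lit 0) (nat_lit 3410965390) (nat_lit 532) (nat_lit 563607990) (nat_lit 76) (nat_lit 4496160594) (nat_lit 100) (nat_lit 5) (nat_lit 107) (nat_lit 5) (nat_lit 101) (nat_lit 5) (nat_lit 297) (nat_lit 255) (nat_lit 228)) (XT.lf (nat_lit 0) (nat_lit 3932637675) (nat_lit 456) (nat_lit 1796836820) (nat_lit 532) (nat_lit 2866187633) (nat_lit 94) (nat_lit 5) (nat_lit 100) (nat_lit 5) (nat_lit 101) (nat_lit 5) (nat_lit 298) (nat_lit 255) (nat_lit 227))))) (XT.nd (nat_lit 234)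 (nat_lit 456) (nat_lit 0) (XT.nd (nat_lit 78) (nat_lit 836) (nat_lit 0) (XT.lf (nat_lit 0) (nat_lit 8073052551) (nat_lit 532) (nat_lit 215908456) (nat_lit 76) (nat_lit 436877713) (nat_lit 94) (nat_lit 5) (nat_lit 101) (nat_lit 5) (nat_lit 95) (nat_lit 5) (nat_lit 299) (nat_lit 255) (nat_lit 226)) (XT.nd (nat_lit 78) (nat_lit 380) (nat_lit 0) (XT.lf (nat_lit 0) (nat_lit 1602052471) (nat_lit 456) (nat_lit 4504345431) (nat_lit 76) (nat_lit 2753006459) (nat_lit 88) (nat_lit 5) (nat_lit 94) (nat_lit 5) (nat_lit 89) (nat_lit 5) (nat_lit 300) (nat_lit 255) (nat_lit 225)) (XT.lf (nat_lit 0) (nat_lit 2743198) (nat_lit 380) (nat_lit 3858259728) (nat_lit 456) (nat_lit 5137444455) (nat_lit 83) (nat_lit 5) (nat_lit 88) (nat_lit 5) (nat_lit 89) (nat_lit 5) (nat_lit 301) (nat_lit 255) (nat_lit 224)))) (XT.nd (nat_lit 78) (nat_lit 456) (nat_lit 0) (XT.lf (nat_lit 0) (nat_lit 4676486847) (nat_lit 380) (nat_lit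 1505026814) (nat_lit 456) (nat_lit 2960481768) (nat_lit 83) (nat_lit 5) (nat_lit 88) (nat_lit 5) (nat_lit 89) (nat_lit 5) (nat_lit 302) (nat_lit 255) (nat_lit 223)) (XT.nd (nat_lit 78) (nat_lit 76) (nat_lit 0) (XT.lf (nat_lit 0) (nat_lit 133687803) (nat_lit 380) (nat_lit 8397795589) (nat_lit 456) (nat_lit 759714411) (nat_lit 78) (nat_lit 5) (nat_lit 83) (nat_lit 5) (nat_lit 84) (nat_lit 5) (nat_lit 303) (nat_lit 255) (nat_lit 222)) (XT.lf (nat_lit 0) (nat_lit 1488095969) (nat_lit 456) (nat_lit 4572176602) (nat_lit 76) (nat_lit 3383991189) (nat_lit 77) (nat_lit 5) (nat_lit 83) (nat_lit 5) (nat_lit 78) (nat_lit 5) (nat_lit 304) (nat_lit 255) (nat_lit 221)))))) (XT.nd (nat_lit 390) (nat_lit 988) (nat_lit 0) (XT.nd (nat_lit 156) (nat_lit 380) (nat_lit 0) (XT.nd (nat_lit 78) (nat_lit 0) (nat_lit 0) (XT.lf (nat_lit 0) (nat_lit 85427787) (nat_lit 380) (nat_lit 3654909097) (nat_lit 456) (nat_lit 5862922225)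 (nat_lit 72) (nat_lit 5) (nat_lit 77) (nat_lit 5) (nat_lit 78) (nat_lit 5) (nat_lit 305) (nat_lit 255) (nat_lit 220)) (XT.lf (nat_lit 0) (nat_lit 4917634044) (nat_lit 380) (nat_lit 1140974070) (nat_lit 456) (nat_lit 3708589539) (nat_lit 72) (nat_lit 5) (nat_lit 77) (nat_lit 5) (nat_lit 78) (nat_lit 5) (nat_lit 306) (nat_lit 255) (nat_lit 219))) (XT.nd (nat_lit 78) (nat_lit 380) (nat_lit 0) (XT.lf (nat_lit 0) (nat_lit 8413928770) (nat_lit 456) (nat_lit 113716890) (nat_lit 76) (nat_lit 1409507176) (nat_lit 72) (nat_lit 5) (nat_lit 78) (nat_lit 5) (nat_lit 73) (nat_lit 5) (nat_lit 307) (nat_lit 255) (nat_lit 218)) (XT.nd (nat_lit 78) (nat_lit 0) (nat_lit 0) (XT.lf (nat_lit 0) (nat_lit 725773461) (nat_lit 380) (nat_lit 5329545688) (nat_lit 76) (nat_lit 4056425967) (nat_lit 67) (nat_lit 5) (nat_lit 72) (nat_lit 5) (nat_lit 68) (nat_lit 5) (nat_lit 308) (nat_lit 255) (nat_lit 217)) (XT.lf (nat_lit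 0) (nat_lit 2967934886) (nat_lit 380) (nat_lit 536598660) (nat_lit 76) (nat_lit 6788012937) (nat_lit 67) (nat_lit 5) (nat_lit 72) (nat_lit 5) (nat_lit 68) (nat_lit 5) (nat_lit 309) (nat_lit 255) (nat_lit 216))))) (XT.nd (nat_lit 234) (nat_lit 380) (nat_lit 0) (XT.nd (nat_lit 78) (nat_lit 304) (nat_lit 0) (XT.lf (nat_lit 0) (nat_lit 4430980316) (nat_lit 304) (nat_lit 845430032) (nat_lit 380) (nat_lit 5202499813) (nat_lit 63) (nat_lit 5) (nat_lit 67) (nat_lit 5) (nat_lit 68) (nat_lit 5) (nat_lit 310) (nat_lit 255) (nat_lit 215)) (XT.nd (nat_lit 78) (nat_lit 304) (nat_lit 0) (XT.lf (nat_lit 0) (nat_lit 7634890092) (nat_lit 380) (nat_lit 1186718702) (nat_lit 76) (nat_lit 1849940005) (nat_lit 63) (nat_lit 5) (nat_lit 68) (nat_lit 5) (nat_lit 64) (nat_lit 5) (nat_lit 311) (nat_lit 255) (nat_lit 214)) (XT.lf (nat_lit 0) (nat_lit 3832027754) (nat_lit 304) (nat_lit 6235629860) (nat_lit 380) (nat_lit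 802306429) (nat_lit 59) (nat_lit 5) (nat_lit 63) (nat_lit 5) (nat_lit 64) (nat_lit 5) (nat_lit 312) (nat_lit 255) (nat_lit 213)))) (XT.nd (nat_lit 78) (nat_lit 304) (nat_lit 0) (XT.lf (nat_lit 0) (nat_lit 1440442052) (nat_lit 380) (nat_lit 2117931624) (nat_lit 76) (nat_lit 7516504735) (nat_lit 58) (nat_lit 5) (nat_lit 63) (nat_lit 5) (nat_lit 59) (nat_lit 5) (nat_lit 313) (nat_lit 255) (nat_lit 212)) (XT.nd (nat_lit 78) (nat_lit 0) (nat_lit 0) (XT.lf (nat_lit 0) (nat_lit 2945722005) (nat_lit 304) (nat_lit 776665612) (nat_lit 380) (nat_lit 7563767747) (nat_lit 54) (nat_lit 5) (nat_lit 58) (nat_lit 5) (nat_lit 59) (nat_lit 5) (nat_lit 314) (nat_lit 255) (nat_lit 211)) (XT.lf (nat_lit 0) (nat_lit 6074725848) (nat_lit 380) (nat_lit 3372832586) (nat_lit 76) (nat_lit 2056246073) (nat_lit 54) (nat_lit 5) (nat_lit 59) (nat_lit 5) (nat_lit 55) (nat_lit 5) (nat_lit 315) (nat_lit 255) (nat_lit 210)))))))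 (XT.nd (nat_lit 858) (nat_lit 912) (nat_lit 0) (XT.nd (nat_lit 390) (nat_lit 760) (nat_lit 0) (XT.nd (nat_lit 156) (nat_lit 380) (nat_lit 0) (XT.nd (nat_lit 78) (nat_lit 0) (nat_lit 0) (XT.lf (nat_lit 0) (nat_lit 1717072224) (nat_lit 228) (nat_lit 6766174501) (nat_lit 304) (nat_lit 3245257259) (nat_lit 51) (nat_lit 5) (nat_lit 54) (nat_lit 5) (nat_lit 55) (nat_lit 5) (nat_lit 316) (nat_lit 255) (nat_lit 209)) (XT.lf (nat_lit 0) (nat_lit 6976788554) (nat_lit 228) (nat_lit 3983334537) (nat_lit 304) (nat_lit 1000024994) (nat_lit 51) (nat_lit 5) (nat_lit 54) (nat_lit 5) (nat_lit 55) (nat_lit 5) (nat_lit 317) (nat_lit 255) (nat_lit 208))) (XT.nd (nat_lit 78) (nat_lit 0) (nat_lit 0) (XT.lf (nat_lit 0) (nat_lit 134222755) (nat_lit 304) (nat_lit 1116717972) (nat_lit 380) (nat_lit 10948584248) (nat_lit 46) (nat_lit 5) (nat_lit 50) (nat_lit 5) (nat_lit 51) (nat_lit 5) (nat_lit 318) (nat_lit 255) (nat_lit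 207)) (XT.nd (nat_lit 78) (nat_lit 0) (nat_lit 0) (XT.lf (nat_lit 0) (nat_lit 3580965201) (nat_lit 380) (nat_lit 7017009657) (nat_lit 76) (nat_lit 1846941683) (nat_lit 46) (nat_lit 5) (nat_lit 51) (nat_lit 5) (nat_lit 47) (nat_lit 5) (nat_lit 319) (nat_lit 255) (nat_lit 206)) (XT.lf (nat_lit 0) (nat_lit 5956181124) (nat_lit 380) (nat_lit 1878689398) (nat_lit 76) (nat_lit 4863617582) (nat_lit 46) (nat_lit 5) (nat_lit 51) (nat_lit 5) (nat_lit 47) (nat_lit 5) (nat_lit 320) (nat_lit 255) (nat_lit 205))))) (XT.nd (nat_lit 234) (nat_lit 304) (nat_lit 0) (XT.nd (nat_lit 78) (nat_lit 228) (nat_lit 0) (XT.lf (nat_lit 0) (nat_lit 3431850693) (nat_lit 228) (nat_lit 4969067709) (nat_lit 304) (nat_lit 4558875200) (nat_lit 43) (nat_lit 5) (nat_lit 46) (nat_lit 5) (nat_lit 47) (nat_lit 5) (nat_lit 321) (nat_lit 255) (nat_lit 204)) (XT.nd (nat_lit 78) (nat_lit 228) (nat_lit 0) (XT.lf (nat_lit 0) (nat_lit 8891800124)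 (nat_lit 228) (nat_lit 2011990540) (nat_lit 304) (nat_lit 2325676370) (nat_lit 43) (nat_lit 5) (nat_lit 46) (nat_lit 5) (nat_lit 47) (nat_lit 5) (nat_lit 322) (nat_lit 255) (nat_lit 203)) (XT.lf (nat_lit 0) (nat_lit 969354514) (nat_lit 228) (nat_lit 12498334489) (nat_lit 304) (nat_lit 40033910) (nat_lit 40) (nat_lit 5) (nat_lit 43) (nat_lit 5) (nat_lit 44) (nat_lit 5) (nat_lit 323) (nat_lit 255) (nat_lit 202)))) (XT.nd (nat_lit 78) (nat_lit 228) (nat_lit 0) (XT.lf (nat_lit 0) (nat_lit 2299982776) (nat_lit 304) (nat_lit 7359305534) (nat_lit 76) (nat_lit 4133508313) (nat_lit 39) (nat_lit 5) (nat_lit 43) (nat_lit 5) (nat_lit 40) (nat_lit 5) (nat_lit 324) (nat_lit 255) (nat_lit 201)) (XT.nd (nat_lit 78) (nat_lit 228) (nat_lit 0) (XT.lf (nat_lit 0) (nat_lit 4677168706) (nat_lit 304) (nat_lit 2072061282) (nat_lit 76) (nat_lit 7338211926) (nat_lit 39) (nat_lit 5) (nat_lit 43) (nat_lit 5) (nat_lit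 40) (nat_lit 5) (nat_lit 325) (nat_lit 255) (nat_lit 200)) (XT.lf (nat_lit 0) (nat_lit 3394610178) (nat_lit 228) (nat_lit 3732403130) (nat_lit 304) (nat_lit 7263935551) (nat_lit 36) (nat_lit 5) (nat_lit 39) (nat_lit 5) (nat_lit 40) (nat_lit 5) (nat_lit 326) (nat_lit 255) (nat_lit 199)))))) (XT.nd (nat_lit 390) (nat_lit 456) (nat_lit 0) (XT.nd (nat_lit 156) (nat_lit 456) (nat_lit 0) (XT.nd (nat_lit 78) (nat_lit 0) (nat_lit 0) (XT.lf (nat_lit 0) (nat_lit 9022771223) (nat_lit 228) (nat_lit 617696676) (nat_lit 304) (nat_lit 5063450439) (nat_lit 36) (nat_lit 5) (nat_lit 39) (nat_lit 5) (nat_lit 40) (nat_lit 5) (nat_lit 327) (nat_lit 255) (nat_lit 198)) (XT.lf (nat_lit 0) (nat_lit 12224183068) (nat_lit 304) (nat_lit 275900363) (nat_lit 76) (nat_lit 2526406756) (nat_lit 36) (nat_lit 5) (nat_lit 40) (nat_lit 5) (nat_lit 37) (nat_lit 5) (nat_lit 328) (nat_lit 255) (nat_lit 197))) (XT.nd (nat_lit 78)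 (nat_lit 228) (nat_lit 0) (XT.lf (nat_lit 0) (nat_lit 5346514277) (nat_lit 228) (nat_lit 9567236200) (nat_lit 304) (nat_lit 444195768) (nat_lit 33) (nat_lit 5) (nat_lit 36) (nat_lit 5) (nat_lit 37) (nat_lit 5) (nat_lit 329) (nat_lit 255) (nat_lit 196)) (XT.nd (nat_lit 78) (nat_lit 152) (nat_lit 0) (XT.lf (nat_lit 0) (nat_lit 1919675099) (nat_lit 304) (nat_lit 4618523123) (nat_lit 76) (nat_lit 9161417096) (nat_lit 32) (nat_lit 5) (nat_lit 36) (nat_lit 5) (nat_lit 33) (nat_lit 5) (nat_lit 330) (nat_lit 255) (nat_lit 195)) (XT.lf (nat_lit 0) (nat_lit 907332346) (nat_lit 152) (nat_lit 3418700754) (nat_lit 228) (nat_lit 11726006873) (nat_lit 30) (nat_lit 5) (nat_lit 32) (nat_lit 5) (nat_lit 33) (nat_lit 5) (nat_lit 331) (nat_lit 255) (nat_lit 194))))) (XT.nd (nat_lit 234) (nat_lit 228) (nat_lit 0) (XT.nd (nat_lit 78) (nat_lit 228) (nat_lit 0) (XT.lf (nat_lit 0) (nat_lit 6651903906) (nat_lit 152)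 (nat_lit 171513879) (nat_lit 228) (nat_lit 9591105393) (nat_lit 30) (nat_lit 5) (nat_lit 32) (nat_lit 5) (nat_lit 33) (nat_lit 5) (nat_lit 332) (nat_lit 255) (nat_lit 193)) (XT.nd (nat_lit 78) (nat_lit 228) (nat_lit 0) (XT.lf (nat_lit 0) (nat_lit 9399103338) (nat_lit 228) (nat_lit 4290818277) (nat_lit 76) (nat_lit 3097907292) (nat_lit 30) (nat_lit 5) (nat_lit 33) (nat_lit 5) (nat_lit 31) (nat_lit 5) (nat_lit 333) (nat_lit 255) (nat_lit 192)) (XT.lf (nat_lit 0) (nat_lit 1329331707) (nat_lit 228) (nat_lit 10710871884) (nat_lit 304) (nat_lit 5132533859) (nat_lit 27) (nat_lit 5) (nat_lit 30) (nat_lit 5) (nat_lit 31) (nat_lit 5) (nat_lit 334) (nat_lit 255) (nat_lit 191)))) (XT.nd (nat_lit 78) (nat_lit 228) (nat_lit 0) (XT.lf (nat_lit 0) (nat_lit 7166389443) (nat_lit 228) (nat_lit 7611529670) (nat_lit 304) (nat_lit 2790799241) (nat_lit 27) (nat_lit 5) (nat_lit 30) (nat_lit 5) (nat_lit 31) (nat_lit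 5) (nat_lit 335) (nat_lit 255) (nat_lit 190)) (XT.nd (nat_lit 78) (nat_lit 228) (nat_lit 0) (XT.lf (nat_lit 0) (nat_lit 13140059575) (nat_lit 228) (nat_lit 4432515661) (nat_lit 304) (nat_lit 404804388) (nat_lit 27) (nat_lit 5) (nat_lit 30) (nat_lit 5) (nat_lit 31) (nat_lit 5) (nat_lit 336) (nat_lit 255) (nat_lit 189)) (XT.lf (nat_lit 0) (nat_lit 853651369) (nat_lit 152) (nat_lit 1142525474) (nat_lit 228) (nat_lit 16402070630) (nat_lit 24) (nat_lit 5) (nat_lit 26) (nat_lit 5) (nat_lit 27) (nat_lit 5) (nat_lit 337) (nat_lit 255) (nat_lit 188))))))))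
noncomputable def xc98 : XT := (XT.nd (nat_lit 1716) (nat_lit 456) (nat_lit 0) (XT.nd (nat_lit 858) (nat_lit 304) (nat_lit 0) (XT.nd (nat_lit 390) (nat_lit 380) (nat_lit 0) (XT.nd (nat_lit 156) (nat_lit 152) (nat_lit 0) (XT.nd (nat_lit 78) (nat_lit 0) (nat_lit 0) (XT.lf (nat_lit 0) (nat_lit 4507464888) (nat_lit 228) (nat_lit 12080034497) (nat_lit 76) (nat_lit 2242770705) (nat_lit 24) (nat_lit 5) (nat_lit 27) (nat_lit 5) (nat_lit 25) (nat_lit 5) (nat_lit 338) (nat_lit 255) (nat_lit 187)) (XT.lf (nat_lit 0) (nat_lit 7081608512) (nat_lit 228) (nat_lit 6499923615) (nat_lit 76) (nat_lit 5694135922) (nat_lit 24) (nat_lit 5) (nat_lit 27) (nat_lit 5) (nat_lit 25) (nat_lit 5) (nat_lit 339) (nat_lit 255) (nat_lit 186))) (XT.nd (nat_lit 78) (nat_lit 152) (nat_lit 0) (XT.lf (nat_lit 0) (nat_lit 9709874313) (nat_lit 228) (nat_lit 788404980) (nat_lit 76) (nat_lit 9236880720) (nat_lit 24) (nat_lit 5) (nat_lit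 27) (nat_lit 5) (nat_lit 25) (nat_lit 5) (nat_lit 340) (nat_lit 255) (nat_lit 185)) (XT.nd (nat_lit 78) (nat_lit 0) (nat_lit 0) (XT.lf (nat_lit 0) (nat_lit 5160206265) (nat_lit 152) (nat_lit 7283955628) (nat_lit 228) (nat_lit 7763497494) (nat_lit 22) (nat_lit 5) (nat_lit 24) (nat_lit 5) (nat_lit 25) (nat_lit 5) (nat_lit 341) (nat_lit 255) (nat_lit 184)) (XT.lf (nat_lit 0) (nat_lit 11268832838) (nat_lit 152) (nat_lit 3977497994) (nat_lit 228) (nat_lit 5448464093) (nat_lit 22) (nat_lit 5) (nat_lit 24) (nat_lit 5) (nat_lit 25) (nat_lit 5) (nat_lit 342) (nat_lit 255) (nat_lit 183))))) (XT.nd (nat_lit 234) (nat_lit 152) (nat_lit 0) (XT.nd (nat_lit 78) (nat_lit 228) (nat_lit 0) (XT.lf (nat_lit 0) (nat_lit 17527121569) (nat_lit 152) (nat_lit 583978596) (nat_lit 228) (nat_lit 3086123997) (nat_lit 22) (nat_lit 5) (nat_lit 24) (nat_lit 5) (nat_lit 25) (nat_lit 5) (nat_lit 343) (nat_lit 255) (nat_lit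 182)) (XT.nd (nat_lit 78) (nat_lit 76) (nat_lit 0) (XT.lf (nat_lit 0) (nat_lit 2241012557) (nat_lit 152) (nat_lit 18849374935) (nat_lit 228) (nat_lit 623516190) (nat_lit 20) (nat_lit 5) (nat_lit 22) (nat_lit 5) (nat_lit 23) (nat_lit 4) (nat_lit 344) (nat_lit 255) (nat_lit 181)) (XT.lf (nat_lit 0) (nat_lit 1897955027) (nat_lit 228) (nat_lit 13898102731) (nat_lit 76) (nat_lit 6448837409) (nat_lit 19) (nat_lit 5) (nat_lit 22) (nat_lit 5) (nat_lit 20) (nat_lit 5) (nat_lit 345) (nat_lit 255) (nat_lit 180)))) (XT.nd (nat_lit 78) (nat_lit 152) (nat_lit 0) (XT.lf (nat_lit 0) (nat_lit 4462251298) (nat_lit 228) (nat_lit 8194562652) (nat_lit 76) (nat_lit 10135457568) (nat_lit 19) (nat_lit 5) (nat_lit 22) (nat_lit 5) (nat_lit 20) (nat_lit 5) (nat_lit 346) (nat_lit 255) (nat_lit 179)) (XT.nd (nat_lit 78) (nat_lit 152) (nat_lit 0) (XT.lf (nat_lit 0) (nat_lit 7083780316) (nat_lit 228) (nat_lit 2351293593)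 (nat_lit 76) (nat_lit 13921616924) (nat_lit 19) (nat_lit 5) (nat_lit 22) (nat_lit 5) (nat_lit 20) (nat_lit 5) (nat_lit 347) (nat_lit 255) (nat_lit 178)) (XT.lf (nat_lit 0) (nat_lit 3709189868) (nat_lit 152) (nat_lit 6091297870) (nat_lit 228) (nat_lit 14137088905) (nat_lit 17) (nat_lit 5) (nat_lit 19) (nat_lit 5) (nat_lit 20) (nat_lit 5) (nat_lit 348) (nat_lit 255) (nat_lit 177)))))) (XT.nd (nat_lit 390) (nat_lit 228) (nat_lit 0) (XT.nd (nat_lit 156) (nat_lit 76) (nat_lit 0) (XT.nd (nat_lit 78) (nat_lit 0) (nat_lit 0) (XT.lf (nat_lit 0) (nat_lit 9969522385) (nat_lit 152) (nat_lit 2634061991) (nat_lit 228) (nat_lit 11932187033) (nat_lit 17) (nat_lit 5) (nat_lit 19) (nat_lit 5) (nat_lit 20) (nat_lit 5) (nat_lit 349) (nat_lit 255) (nat_lit 176)) (XT.lf (nat_lit 0) (nat_lit 15481271935) (nat_lit 228) (nat_lit 8772914884) (nat_lit 76) (nat_lit 898038433) (nat_lit 17) (nat_lit 5) (nat_lit 20) (nat_lit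 5) (nat_lit 18) (nat_lit 4) (nat_lit 350) (nat_lit 255) (nat_lit 175))) (XT.nd (nat_lit 78) (nat_lit 76) (nat_lit 0) (XT.lf (nat_lit 0) (nat_lit 18453494390) (nat_lit 228) (nat_lit 2860751706) (nat_lit 76) (nat_lit 4472707843) (nat_lit 17) (nat_lit 5) (nat_lit 20) (nat_lit 5) (nat_lit 18) (nat_lit 4) (nat_lit 351) (nat_lit 255) (nat_lit 174)) (XT.nd (nat_lit 78) (nat_lit 0) (nat_lit 0) (XT.lf (nat_lit 0) (nat_lit 3264427428) (nat_lit 76) (nat_lit 18264480857) (nat_lit 152) (nat_lit 4911422017) (nat_lit 16) (nat_lit 5) (nat_lit 17) (nat_lit 5) (nat_lit 18) (nat_lit 4) (nat_lit 352) (nat_lit 255) (nat_lit 173)) (XT.lf (nat_lit 0) (nat_lit 9604229865) (nat_lit 76) (nat_lit 15104126305) (nat_lit 152) (nat_lit 2404624423) (nat_lit 16) (nat_lit 5) (nat_lit 17) (nat_lit 5) (nat_lit 18) (nat_lit 4) (nat_lit 353) (nat_lit 255) (nat_lit 172))))) (XT.nd (nat_lit 234) (nat_lit 0) (nat_lit 0) (XT.nd (nat_lit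 78) (nat_lit 152) (nat_lit 0) (XT.lf (nat_lit 0) (nat_lit 157108878) (nat_lit 152) (nat_lit 11700613580) (nat_lit 76) (nat_lit 15948565298) (nat_lit 15) (nat_lit 5) (nat_lit 17) (nat_lit 5) (nat_lit 16) (nat_lit 5) (nat_lit 354) (nat_lit 255) (nat_lit 171)) (XT.nd (nat_lit 78) (nat_lit 152) (nat_lit 0) (XT.lf (nat_lit 0) (nat_lit 2731046178) (nat_lit 152) (nat_lit 5768569123) (nat_lit 76) (nat_lit 20020577707) (nat_lit 15) (nat_lit 5) (nat_lit 17) (nat_lit 5) (nat_lit 16) (nat_lit 5) (nat_lit 355) (nat_lit 255) (nat_lit 170)) (XT.lf (nat_lit 0) (nat_lit 321963368) (nat_lit 152) (nat_lit 5047490973) (nat_lit 228) (nat_lit 23886466404) (nat_lit 13) (nat_lit 5) (nat_lit 15) (nat_lit 5) (nat_lit 16) (nat_lit 5) (nat_lit 356) (nat_lit 255) (nat_lit 169)))) (XT.nd (nat_lit 78) (nat_lit 0) (nat_lit 0) (XT.lf (nat_lit 0) (nat_lit 6687958390) (nat_lit 152) (nat_lit 1441681699) (nat_lit 228) (nat_lit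 21882823708) (nat_lit 13) (nat_lit 5) (nat_lit 15) (nat_lit 5) (nat_lit 16) (nat_lit 5) (nat_lit 357) (nat_lit 255) (nat_lit 168)) (XT.nd (nat_lit 78) (nat_lit 0) (nat_lit 0) (XT.lf (nat_lit 0) (nat_lit 10979211206) (nat_lit 228) (nat_lit 17593757803) (nat_lit 76) (nat_lit 2218558331) (nat_lit 13) (nat_lit 5) (nat_lit 16) (nat_lit 5) (nat_lit 14) (nat_lit 4) (nat_lit 358) (nat_lit 255) (nat_lit 167)) (XT.lf (nat_lit 0) (nat_lit 13913725126) (nat_lit 228) (nat_lit 11729774634) (nat_lit 76) (nat_lit 5950500325) (nat_lit 13) (nat_lit 5) (nat_lit 16) (nat_lit 5) (nat_lit 14) (nat_lit 4) (nat_lit 359) (nat_lit 255) (nat_lit 166))))))) (XT.nd (nat_lit 858) (nat_lit 152) (nat_lit 0) (XT.nd (nat_lit 390) (nat_lit 228) (nat_lit 0) (XT.nd (nat_lit 156) (nat_lit 0) (nat_lit 0) (XT.nd (nat_lit 78) (nat_lit 76) (nat_lit 0) (XT.lf (nat_lit 0) (nat_lit 16921887663) (nat_lit 228) (nat_lit 5713573705) (nat_lit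 76) (nat_lit 9785537604) (nat_lit 13) (nat_lit 5) (nat_lit 16) (nat_lit 5) (nat_lit 14) (nat_lit 4) (nat_lit 360) (nat_lit 255) (nat_lit 165)) (XT.lf (nat_lit 0) (nat_lit 469258787) (nat_lit 76) (nat_lit 19541579321) (nat_lit 152) (nat_lit 13262273188) (nat_lit 12) (nat_lit 5) (nat_lit 13) (nat_lit 5) (nat_lit 14) (nat_lit 4) (nat_lit 361) (nat_lit 255) (nat_lit 164))) (XT.nd (nat_lit 78) (nat_lit 0) (nat_lit 0) (XT.lf (nat_lit 0) (nat_lit 6931913124) (nat_lit 76) (nat_lit 16304459863) (nat_lit 152) (nat_lit 10913115712) (nat_lit 12) (nat_lit 5) (nat_lit 13) (nat_lit 5) (nat_lit 14) (nat_lit 4) (nat_lit 362) (nat_lit 255) (nat_lit 163)) (XT.nd (nat_lit 78) (nat_lit 0) (nat_lit 0) (XT.lf (nat_lit 0) (nat_lit 13566324963) (nat_lit 76) (nat_lit 12978970336) (nat_lit 152) (nat_lit 8507282112) (nat_lit 12) (nat_lit 5) (nat_lit 13) (nat_lit 5) (nat_lit 14) (nat_lit 4) (nat_lit 363) (nat_lit 255)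 (nat_lit 162)) (XT.lf (nat_lit 0) (nat_lit 20378291364) (nat_lit 76) (nat_lit 9562204972) (nat_lit 152) (nat_lit 6042670201) (nat_lit 12) (nat_lit 5) (nat_lit 13) (nat_lit 5) (nat_lit 14) (nat_lit 4) (nat_lit 364) (nat_lit 255) (nat_lit 161))))) (XT.nd (nat_lit 234) (nat_lit 0) (nat_lit 0) (XT.nd (nat_lit 78) (nat_lit 228) (nat_lit 0) (XT.lf (nat_lit 0) (nat_lit 27373764530) (nat_lit 76) (nat_lit 6051178247) (nat_lit 152) (nat_lit 3517126437) (nat_lit 12) (nat_lit 5) (nat_lit 13) (nat_lit 5) (nat_lit 14) (nat_lit 4) (nat_lit 365) (nat_lit 255) (nat_lit 160)) (XT.nd (nat_lit 78) (nat_lit 228) (nat_lit 0) (XT.lf (nat_lit 0) (nat_lit 34558857011) (nat_lit 76) (nat_lit 2442822275) (nat_lit 152) (nat_lit 928444033) (nat_lit 12) (nat_lit 5) (nat_lit 13) (nat_lit 5) (nat_lit 14) (nat_lit 4) (nat_lit 366) (nat_lit 255) (nat_lit 159)) (XT.lf (nat_lit 0) (nat_lit 1733755598) (nat_lit 228) (nat_lit 35925165671)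 (nat_lit 76) (nat_lit 1287519590) (nat_lit 9) (nat_lit 5) (nat_lit 12) (nat_lit 5) (nat_lit 10) (nat_lit 4) (nat_lit 367) (nat_lit 255) (nat_lit 158)))) (XT.nd (nat_lit 78) (nat_lit 0) (nat_lit 0) (XT.lf (nat_lit 0) (nat_lit 4503791461) (nat_lit 228) (nat_lit 30371253198) (nat_lit 76) (nat_lit 5116544160) (nat_lit 9) (nat_lit 5) (nat_lit 12) (nat_lit 5) (nat_lit 10) (nat_lit 4) (nat_lit 368) (nat_lit 255) (nat_lit 157)) (XT.nd (nat_lit 78) (nat_lit 0) (nat_lit 0) (XT.lf (nat_lit 0) (nat_lit 7345340485) (nat_lit 228) (nat_lit 24670151717) (nat_lit 76) (nat_lit 9052961799) (nat_lit 9) (nat_lit 5) (nat_lit 12) (nat_lit 5) (nat_lit 10) (nat_lit 4) (nat_lit 369) (nat_lit 255) (nat_lit 156)) (XT.lf (nat_lit 0) (nat_lit 10260885576) (nat_lit 228) (nat_lit 18816879684) (nat_lit 76) (nat_lit 13100212096) (nat_lit 9) (nat_lit 5) (nat_lit 12) (nat_lit 5) (nat_lit 10) (nat_lit 4) (nat_lit 370) (nat_lit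 255) (nat_lit 155)))))) (XT.nd (nat_lit 390) (nat_lit 76) (nat_lit 0) (XT.nd (nat_lit 156) (nat_lit 76) (nat_lit 0) (XT.nd (nat_lit 78) (nat_lit 0) (nat_lit 0) (XT.lf (nat_lit 0) (nat_lit 13252974300) (nat_lit 228) (nat_lit 12806322587) (nat_lit 76) (nat_lit 17261831483) (nat_lit 9) (nat_lit 5) (nat_lit 12) (nat_lit 5) (nat_lit 10) (nat_lit 4) (nat_lit 371) (nat_lit 255) (nat_lit 154)) (XT.lf (nat_lit 0) (nat_lit 16324221101) (nat_lit 228) (nat_lit 6633228485) (nat_lit 76) (nat_lit 21541456326) (nat_lit 9) (nat_lit 5) (nat_lit 12) (nat_lit 5) (nat_lit 10) (nat_lit 4) (nat_lit 372) (nat_lit 255) (nat_lit 153))) (XT.nd (nat_lit 78) (nat_lit 76) (nat_lit 0) (XT.lf (nat_lit 0) (nat_lit 19477309595) (nat_lit 228) (nat_lit 292203411) (nat_lit 76) (nat_lit 25942826104) (nat_lit 9) (nat_lit 5) (nat_lit 12) (nat_lit 5) (nat_lit 10) (nat_lit 4) (nat_lit 373) (nat_lit 255) (nat_lit 152)) (XT.nd (nat_lit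 78) (nat_lit 0) (nat_lit 0) (XT.lf (nat_lit 0) (nat_lit 6346129173) (nat_lit 76) (nat_lit 16429868608) (nat_lit 152) (nat_lit 24184660375) (nat_lit 8) (nat_lit 5) (nat_lit 9) (nat_lit 5) (nat_lit 10) (nat_lit 4) (nat_lit 374) (nat_lit 255) (nat_lit 151)) (XT.lf (nat_lit 0) (nat_lit 13173006844) (nat_lit 76) (nat_lit 12993726236) (nat_lit 152) (nat_lit 22079913785) (nat_lit 8) (nat_lit 5) (nat_lit 9) (nat_lit 5) (nat_lit 10) (nat_lit 4) (nat_lit 375) (nat_lit 255) (nat_lit 150))))) (XT.nd (nat_lit 234) (nat_lit 76) (nat_lit 0) (XT.nd (nat_lit 78) (nat_lit 0) (nat_lit 0) (XT.lf (nat_lit 0) (nat_lit 20188579414) (nat_lit 76) (nat_lit 9461034115) (nat_lit 152) (nat_lit 19921901328) (nat_lit 8) (nat_lit 5) (nat_lit 9) (nat_lit 5) (nat_lit 10) (nat_lit 4) (nat_lit 376) (nat_lit 255) (nat_lit 149)) (XT.nd (nat_lit 78) (nat_lit 0) (nat_lit 0) (XT.lf (nat_lit 0) (nat_lit 27398976995) (nat_lit 76) (nat_lit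 5828705429) (nat_lit 152) (nat_lit 17708737362) (nat_lit 8) (nat_lit 5) (nat_lit 9) (nat_lit 5) (nat_lit 10) (nat_lit 4) (nat_lit 377) (nat_lit 255) (nat_lit 148)) (XT.lf (nat_lit 0) (nat_lit 34810499933) (nat_lit 76) (nat_lit 2093566297) (nat_lit 152) (nat_lit 15438488053) (nat_lit 8) (nat_lit 5) (nat_lit 9) (nat_lit 5) (nat_lit 10) (nat_lit 4) (nat_lit 378) (nat_lit 255) (nat_lit 147)))) (XT.nd (nat_lit 78) (nat_lit 76) (nat_lit 0) (XT.lf (nat_lit 0) (nat_lit 40698776776) (nat_lit 152) (nat_lit 11378322149) (nat_lit 0) (nat_lit 1713544105) (nat_lit 8) (nat_lit 5) (nat_lit 10) (nat_lit 4) (nat_lit 8) (nat_lit 4) (nat_lit 379) (nat_lit 255) (nat_lit 146)) (XT.nd (nat_lit 78) (nat_lit 76) (nat_lit 0) (XT.lf (nat_lit 0) (nat_lit 44619492249) (nat_lit 152) (nat_lit 5075231559) (nat_lit 0) (nat_lit 5587096665) (nat_lit 8) (nat_lit 5) (nat_lit 10) (nat_lit 4) (nat_lit 8) (nat_lit 4) (nat_lit 380)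 (nat_lit 255) (nat_lit 145)) (XT.lf (nat_lit 0) (nat_lit 1430769070) (nat_lit 76) (nat_lit 47232498235) (nat_lit 76) (nat_lit 8154313414) (nat_lit 7) (nat_lit 4) (nat_lit 8) (nat_lit 5) (nat_lit 8) (nat_lit 4) (nat_lit 381) (nat_lit 255) (nat_lit 144))))))))
noncomputable def xc99 : XT := (XT.nd (nat_lit 32214) (nat_lit 0) (nat_lit 7220) (XT.nd (nat_lit 858) (nat_lit 0) (nat_lit 0) (XT.nd (nat_lit 390) (nat_lit 76) (nat_lit 0) (XT.nd (nat_lit 156) (nat_lit 76) (nat_lit 0) (XT.nd (nat_lit 78) (nat_lit 0) (nat_lit 0) (XT.lf (nat_lit 0) (nat_lit 8222023111) (nat_lit 76) (nat_lit 44649375044) (nat_lit 76) (nat_lit 5526734654) (nat_lit 7) (nat_lit 4) (nat_lit 8) (nat_lit 5) (nat_lit 8) (nat_lit 4) (nat_lit 382) (nat_lit 255) (nat_lit 143)) (XT.lf (nat_lit 0) (nat_lit 15203457608) (nat_lit 76) (nat_lit 41994347026) (nat_lit 76) (nat_lit 2828545889) (nat_lit 7) (nat_lit 4) (nat_lit 8) (nat_lit 5)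 (nat_lit 8) (nat_lit 4) (nat_lit 383) (nat_lit 255) (nat_lit 142))) (XT.nd (nat_lit 78) (nat_lit 76) (nat_lit 0) (XT.lf (nat_lit 0) (nat_lit 22381172846) (nat_lit 76) (nat_lit 39265094253) (nat_lit 76) (nat_lit 57389478) (nat_lit 7) (nat_lit 4) (nat_lit 8) (nat_lit 5) (nat_lit 8) (nat_lit 4) (nat_lit 384) (nat_lit 255) (nat_lit 141)) (XT.nd (nat_lit 78) (nat_lit 0) (nat_lit 0) (XT.lf (nat_lit 0) (nat_lit 2734729496) (nat_lit 152) (nat_lit 33696887040) (nat_lit 76) (nat_lit 26999095710) (nat_lit 6) (nat_lit 5) (nat_lit 8) (nat_lit 5) (nat_lit 7) (nat_lit 4) (nat_lit 385) (nat_lit 255) (nat_lit 140)) (XT.lf (nat_lit 0) (nat_lit 5602085266) (nat_lit 152) (nat_lit 27915653025) (nat_lit 76) (nat_lit 31692054343) (nat_lit 6) (nat_lit 5) (nat_lit 8) (nat_lit 5) (nat_lit 7) (nat_lit 4) (nat_lit 386) (nat_lit 255) (nat_lit 139))))) (XT.nd (nat_lit 234) (nat_lit 76) (nat_lit 0) (XT.nd (nat_lit 78) (nat_lit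 0) (nat_lit 0) (XT.lf (nat_lit 0) (nat_lit 8548303161) (nat_lit 152) (nat_lit 21973178462) (nat_lit 76) (nat_lit 36520987205) (nat_lit 6) (nat_lit 5) (nat_lit 8) (nat_lit 5) (nat_lit 7) (nat_lit 4) (nat_lit 387) (nat_lit 255) (nat_lit 138)) (XT.nd (nat_lit 78) (nat_lit 0) (nat_lit 0) (XT.lf (nat_lit 0) (nat_lit 11575957548) (nat_lit 152) (nat_lit 15864270895) (nat_lit 76) (nat_lit 41490113751) (nat_lit 6) (nat_lit 5) (nat_lit 8) (nat_lit 5) (nat_lit 7) (nat_lit 4) (nat_lit 388) (nat_lit 255) (nat_lit 137)) (XT.lf (nat_lit 0) (nat_lit 14687693950) (nat_lit 152) (nat_lit 9583592447) (nat_lit 76) (nat_lit 46603775937) (nat_lit 6) (nat_lit 5) (nat_lit 8) (nat_lit 5) (nat_lit 7) (nat_lit 4) (nat_lit 389) (nat_lit 255) (nat_lit 136)))) (XT.nd (nat_lit 78) (nat_lit 76) (nat_lit 0) (XT.lf (nat_lit 0) (nat_lit 17886231359) (nat_lit 152) (nat_lit 3125655144) (nat_lit 76) (nat_lit 51866442010) (nat_lit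 6) (nat_lit 5) (nat_lit 8) (nat_lit 5) (nat_lit 7) (nat_lit 4) (nat_lit 390) (nat_lit 255) (nat_lit 135)) (XT.nd (nat_lit 78) (nat_lit 0) (nat_lit 0) (XT.lf (nat_lit 0) (nat_lit 3585142922) (nat_lit 76) (nat_lit 17623684278) (nat_lit 152) (nat_lit 53732030082) (nat_lit 5) (nat_lit 5) (nat_lit 6) (nat_lit 5) (nat_lit 7) (nat_lit 4) (nat_lit 391) (nat_lit 255) (nat_lit 134)) (XT.lf (nat_lit 0) (nat_lit 10550607629) (nat_lit 76) (nat_lit 14105778106) (nat_lit 152) (nat_lit 52408125087) (nat_lit 5) (nat_lit 5) (nat_lit 6) (nat_lit 5) (nat_lit 7) (nat_lit 4) (nat_lit 392) (nat_lit 255) (nat_lit 133)))))) (XT.nd (nat_lit 30888) (nat_lit 0) (nat_lit 16188) (XT.nd (nat_lit 156) (nat_lit 0) (nat_lit 0) (XT.nd (nat_lit 78) (nat_lit 0) (nat_lit 0) (XT.lf (nat_lit 0) (nat_lit 17714618639) (nat_lit 76) (nat_lit 10486657076) (nat_lit 152) (nat_lit 51050788346) (nat_lit 5) (nat_lit 5) (nat_lit 6) (nat_lit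 5) (nat_lit 7) (nat_lit 4) (nat_lit 393) (nat_lit 255) (nat_lit 132)) (XT.lf (nat_lit 0) (nat_lit 25083435767) (nat_lit 76) (nat_lit 6763158849) (nat_lit 152) (nat_lit 49658833837) (nat_lit 5) (nat_lit 5) (nat_lit 6) (nat_lit 5) (nat_lit 7) (nat_lit 4) (nat_lit 394) (nat_lit 255) (nat_lit 131))) (XT.nd (nat_lit 78) (nat_lit 0) (nat_lit 0) (XT.lf (nat_lit 0) (nat_lit 32663497785) (nat_lit 76) (nat_lit 2932029884) (nat_lit 152) (nat_lit 48231045288) (nat_lit 5) (nat_lit 5) (nat_lit 6) (nat_lit 5) (nat_lit 7) (nat_lit 4) (nat_lit 395) (nat_lit 255) (nat_lit 130)) (XT.nd (nat_lit 78) (nat_lit 0) (nat_lit 0) (XT.lf (nat_lit 0) (nat_lit 39461060123) (nat_lit 152) (nat_lit 45765807194) (nat_lit 0) (nat_lit 990367159) (nat_lit 5) (nat_lit 5) (nat_lit 7) (nat_lit 4) (nat_lit 5) (nat_lit 4) (nat_lit 396) (nat_lit 255) (nat_lit 129)) (XT.lf (nat_lit 0) (nat_lit 43466136028) (nat_lit 152) (nat_lit 40245039090)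 (nat_lit 0) (nat_lit 4967739823) (nat_lit 5) (nat_lit 5) (nat_lit 7) (nat_lit 4) (nat_lit 5) (nat_lit 4) (nat_lit 397) (nat_lit 255) (nat_lit 128))))) (XT.nd (nat_lit 234) (nat_lit 912) (nat_lit 0) (XT.nd (nat_lit 78) (nat_lit 380) (nat_lit 0) (XT.lf (nat_lit 0) (nat_lit 2069806573) (nat_lit 228) (nat_lit 594448573) (nat_lit 228) (nat_lit 594448573) (nat_lit 235) (nat_lit 4) (nat_lit 238) (nat_lit 5) (nat_lit 238) (nat_lit 4) (nat_lit 268) (nat_lit 256) (nat_lit 256)) (XT.nd (nat_lit 78) (nat_lit 0) (nat_lit 0) (XT.lf (nat_lit 0) (nat_lit 809134652) (nat_lit 304) (nat_lit 705754103) (nat_lit 380) (nat_lit 5023297919) (nat_lit 230) (nat_lit 5) (nat_lit 234) (nat_lit 5) (nat_lit 235) (nat_lit 4) (nat_lit 269) (nat_lit 256) (nat_lit 255)) (XT.lf (nat_lit 0) (nat_lit 4065183595) (nat_lit 304) (nat_lit 137456813) (nat_lit 380) (nat_lit 2359288857) (nat_lit 230) (nat_lit 5) (nat_lit 234) (nat_lit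 5) (nat_lit 235) (nat_lit 4) (nat_lit 270) (nat_lit 256) (nat_lit 254)))) (XT.nd (nat_lit 78) (nat_lit 456) (nat_lit 0) (XT.lf (nat_lit 0) (nat_lit 293635216) (nat_lit 456) (nat_lit 5813807059) (nat_lit 76) (nat_lit 481803029) (nat_lit 224) (nat_lit 5) (nat_lit 230) (nat_lit 5) (nat_lit 225) (nat_lit 4) (nat_lit 271) (nat_lit 256) (nat_lit 253)) (XT.nd (nat_lit 78) (nat_lit 456) (nat_lit 0) (XT.lf (nat_lit 0) (nat_lit 2912300175) (nat_lit 456) (nat_lit 2511308382) (nat_lit 76) (nat_lit 1195517815) (nat_lit 224) (nat_lit 5) (nat_lit 230) (nat_lit 5) (nat_lit 225) (nat_lit 4) (nat_lit 272) (nat_lit 256) (nat_lit 252)) (XT.lf (nat_lit 0) (nat_lit 841954469) (nat_lit 456) (nat_lit 4685129734) (nat_lit 532) (nat_lit 1125733188) (nat_lit 218) (nat_lit 5) (nat_lit 224) (nat_lit 5) (nat_lit 225) (nat_lit 4) (nat_lit 273) (nat_lit 256) (nat_lit 251))))))) (XT.nd (nat_lit 858) (nat_lit 5244) (nat_lit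 0) (XT.nd (nat_lit 390) (nat_lit 2432) (nat_lit 0) (XT.nd (nat_lit 156) (nat_lit 684) (nat_lit 0) (XT.nd (nat_lit 78) (nat_lit 532) (nat_lit 0) (XT.lf (nat_lit 0) (nat_lit 1438683617) (nat_lit 532) (nat_lit 2420757055) (nat_lit 76) (nat_lit 2829977423) (nat_lit 217) (nat_lit 5) (nat_lit 224) (nat_lit 5) (nat_lit 218) (nat_lit 5) (nat_lit 274) (nat_lit 256) (nat_lit 250)) (XT.lf (nat_lit 0) (nat_lit 1015342369) (nat_lit 532) (nat_lit 2964631265) (nat_lit 608) (nat_lit 2749534737) (nat_lit 210) (nat_lit 5) (nat_lit 217) (nat_lit 5) (nat_lit 218) (nat_lit 5) (nat_lit 275) (nat_lit 256) (nat_lit 249))) (XT.nd (nat_lit 78) (nat_lit 684) (nat_lit 0) (XT.lf (nat_lit 0) (nat_lit 4540402333) (nat_lit 532) (nat_lit 1996278501) (nat_lit 608) (nat_lit 236336360) (nat_lit 210) (nat_lit 5) (nat_lit 217) (nat_lit 5) (nat_lit 218) (nat_lit 5) (nat_lit 276) (nat_lit 256) (nat_lit 248)) (XT.nd (nat_lit 78) (nat_lit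 0) (nat_lit 0) (XT.lf (nat_lit 0) (nat_lit 1292055195) (nat_lit 608) (nat_lit 942746822) (nat_lit 684) (nat_lit 4584866310) (nat_lit 201) (nat_lit 5) (nat_lit 209) (nat_lit 5) (nat_lit 210) (nat_lit 5) (nat_lit 277) (nat_lit 256) (nat_lit 247)) (XT.lf (nat_lit 0) (nat_lit 4717504899) (nat_lit 684) (nat_lit 1969048160) (nat_lit 76) (nat_lit 183188322) (nat_lit 201) (nat_lit 5) (nat_lit 210) (nat_lit 5) (nat_lit 202) (nat_lit 5) (nat_lit 278) (nat_lit 256) (nat_lit 246))))) (XT.nd (nat_lit 234) (nat_lit 912) (nat_lit 0) (XT.nd (nat_lit 78) (nat_lit 760) (nat_lit 0) (XT.lf (nat_lit 0) (nat_lit 291270183) (nat_lit 760) (nat_lit 5271291882) (nat_lit 76) (nat_lit 1360646298) (nat_lit 191) (nat_lit 5) (nat_lit 201) (nat_lit 5) (nat_lit 192) (nat_lit 5) (nat_lit 279) (nat_lit 256) (nat_lit 245)) (XT.nd (nat_lit 78) (nat_lit 760) (nat_lit 0) (XT.lf (nat_lit 0) (nat_lit 2705938201) (nat_lit 760) (nat_lit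 1642957587) (nat_lit 76) (nat_lit 2630838488) (nat_lit 191) (nat_lit 5) (nat_lit 201) (nat_lit 5) (nat_lit 192) (nat_lit 5) (nat_lit 280) (nat_lit 256) (nat_lit 244)) (XT.lf (nat_lit 0) (nat_lit 2070907288) (nat_lit 760) (nat_lit 3065379376) (nat_lit 836) (nat_lit 1903690168) (nat_lit 181) (nat_lit 5) (nat_lit 191) (nat_lit 5) (nat_lit 192) (nat_lit 5) (nat_lit 281) (nat_lit 256) (nat_lit 243)))) (XT.nd (nat_lit 78) (nat_lit 836) (nat_lit 0) (XT.lf (nat_lit 0) (nat_lit 467699112) (nat_lit 836) (nat_lit 1241912617) (nat_lit 76) (nat_lit 5394339671) (nat_lit 180) (nat_lit 5) (nat_lit 191) (nat_lit 5) (nat_lit 181) (nat_lit 5) (nat_lit 282) (nat_lit 256) (nat_lit 242)) (XT.nd (nat_lit 78) (nat_lit 0) (nat_lit 0) (XT.lf (nat_lit 0) (nat_lit 2565238937) (nat_lit 836) (nat_lit 257517796) (nat_lit 912) (nat_lit 4348290436) (nat_lit 169) (nat_lit 5) (nat_lit 180) (nat_lit 5) (nat_lit 181) (nat_lit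 5) (nat_lit 283) (nat_lit 256) (nat_lit 241)) (XT.lf (nat_lit 0) (nat_lit 5200810034) (nat_lit 912) (nat_lit 804700643) (nat_lit 76) (nat_lit 1236357423) (nat_lit 169) (nat_lit 5) (nat_lit 181) (nat_lit 5) (nat_lit 170) (nat_lit 5) (nat_lit 284) (nat_lit 256) (nat_lit 240)))))) (XT.nd (nat_lit 468) (nat_lit 1596) (nat_lit 0) (XT.nd (nat_lit 234) (nat_lit 1672) (nat_lit 0) (XT.nd (nat_lit 78) (nat_lit 988) (nat_lit 0) (XT.lf (nat_lit 0) (nat_lit 290485741) (nat_lit 988) (nat_lit 4213645206) (nat_lit 76) (nat_lit 2812003202) (nat_lit 156) (nat_lit 5) (nat_lit 169) (nat_lit 5) (nat_lit 157) (nat_lit 5) (nat_lit 285) (nat_lit 256) (nat_lit 239)) (XT.nd (nat_lit 78) (nat_lit 988) (nat_lit 0) (XT.lf (nat_lit 0) (nat_lit 2589540564) (nat_lit 988) (nat_lit 333375618) (nat_lit 76) (nat_lit 4471206730) (nat_lit 156) (nat_lit 5) (nat_lit 169) (nat_lit 5) (nat_lit 157) (nat_lit 5) (nat_lit 286) (nat_lit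 256) (nat_lit 238)) (XT.lf (nat_lit 0) (nat_lit 3672745246) (nat_lit 988) (nat_lit 1252535773) (nat_lit 1064) (nat_lit 2550389993) (nat_lit 143) (nat_lit 5) (nat_lit 156) (nat_lit 5) (nat_lit 157) (nat_lit 5) (nat_lit 287) (nat_lit 256) (nat_lit 237)))) (XT.nd (nat_lit 78) (nat_lit 608) (nat_lit 0) (XT.lf (nat_lit 0) (nat_lit 181438286) (nat_lit 1064) (nat_lit 7093127448) (nat_lit 1140) (nat_lit 287039438) (nat_lit 129) (nat_lit 5) (nat_lit 143) (nat_lit 5) (nat_lit 144) (nat_lit 5) (nat_lit 288) (nat_lit 256) (nat_lit 236)) (XT.nd (nat_lit 78) (nat_lit 532) (nat_lit 0) (XT.lf (nat_lit 0) (nat_lit 1989780267) (nat_lit 1140) (nat_lit 3382908698) (nat_lit 76) (nat_lit 2277504914) (nat_lit 128) (nat_lit 5) (nat_lit 143) (nat_lit 5) (nat_lit 129) (nat_lit 5) (nat_lit 289) (nat_lit 256) (nat_lit 235)) (XT.lf (nat_lit 0) (nat_lit 681816223) (nat_lit 532) (nat_lit 3590062400) (nat_lit 608) (nat_lit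 3471417160) (nat_lit 121) (nat_lit 5) (nat_lit 128) (nat_lit 5) (nat_lit 129) (nat_lit 5) (nat_lit 290) (nat_lit 256) (nat_lit 234))))) (XT.nd (nat_lit 234) (nat_lit 1064) (nat_lit 0) (XT.nd (nat_lit 78) (nat_lit 532) (nat_lit 0) (XT.lf (nat_lit 0) (nat_lit 4875532278) (nat_lit 532) (nat_lit 1718517360) (nat_lit 608) (nat_lit 1246209411) (nat_lit 121) (nat_lit 5) (nat_lit 128) (nat_lit 5) (nat_lit 129) (nat_lit 5) (nat_lit 291) (nat_lit 256) (nat_lit 233)) (XT.nd (nat_lit 78) (nat_lit 0) (nat_lit 0) (XT.lf (nat_lit 0) (nat_lit 977630667) (nat_lit 532) (nat_lit 6737245258) (nat_lit 76) (nat_lit 226589400) (nat_lit 114) (nat_lit 5) (nat_lit 121) (nat_lit 5) (nat_lit 115) (nat_lit 5) (nat_lit 292) (nat_lit 256) (nat_lit 232)) (XT.lf (nat_lit 0) (nat_lit 3230044816) (nat_lit 532) (nat_lit 2578753724) (nat_lit 76) (nat_lit 2237130108) (nat_lit 114) (nat_lit 5) (nat_lit 121) (nat_lit 5) (nat_lit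 115) (nat_lit 5) (nat_lit 293) (nat_lit 256) (nat_lit 231)))) (XT.nd (nat_lit 78) (nat_lit 532) (nat_lit 0) (XT.lf (nat_lit 0) (nat_lit 1675732687) (nat_lit 532) (nat_lit 3831821510) (nat_lit 608) (nat_lit 2647438433) (nat_lit 107) (nat_lit 5) (nat_lit 114) (nat_lit 5) (nat_lit 115) (nat_lit 5) (nat_lit 294) (nat_lit 256) (nat_lit 230)) (XT.nd (nat_lit 78) (nat_lit 532) (nat_lit 0) (XT.lf (nat_lit 0) (nat_lit 6049858711) (nat_lit 532) (nat_lit 1772106520) (nat_lit 608) (nat_lit 446492845) (nat_lit 107) (nat_lit 5) (nat_lit 114) (nat_lit 5) (nat_lit 115) (nat_lit 5) (nat_lit 295) (nat_lit 256) (nat_lit 229)) (XT.lf (nat_lit 0) (nat_lit 1752644045) (nat_lit 532) (nat_lit 6256125837) (nat_lit 76) (nat_lit 377178116) (nat_lit 100) (nat_lit 5) (nat_lit 107) (nat_lit 5) (nat_lit 101) (nat_lit 5) (nat_lit 296) (nat_lit 256) (nat_lit 228))))))))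
noncomputable def xc100 : XT := (XT.nd (nat_lit 1716) (nat_lit 1976) (nat_lit 0) (XT.nd (nat_lit 858) (nat_lit 1672) (nat_lit 0) (XT.nd (nat_lit 390) (nat_lit 1216) (nat_lit 0) (XT.nd (nat_lit 156) (nat_lit 456) (nat_lit 0) (XT.nd (nat_lit 78) (nat_lit 456) (nat_lit 0) (XT.lf (nat_lit 0) (nat_lit 3993461096) (nat_lit 532) (nat_lit 1935889247) (nat_lit 76) (nat_lit 2578110231) (nat_lit 100) (nat_lit 5) (nat_lit 107) (nat_lit 5) (nat_lit 101) (nat_lit 5) (nat_lit 297) (nat_lit 256) (nat_lit 227)) (XT.lf (nat_lit 0) (nat_lit 2503004813) (nat_lit 456) (nat_lit 3768683683) (nat_lit 532) (nat_lit 2361990459) (nat_lit 94) (nat_lit 5) (nat_lit 100) (nat_lit 5) (nat_lit 101) (nat_lit 5) (nat_lit 298) (nat_lit 256) (nat_lit 226))) (XT.nd (nat_lit 78) (nat_lit 456) (nat_lit 0) (XT.lf (nat_lit 0) (nat_lit 7055543460) (nat_lit 456) (nat_lit 1529393406) (nat_lit 532) (nat_lit 179907962) (nat_lit 94) (nat_lit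 5) (nat_lit 100) (nat_lit 5) (nat_lit 101) (nat_lit 5) (nat_lit 299) (nat_lit 256) (nat_lit 225)) (XT.nd (nat_lit 78) (nat_lit 0) (nat_lit 0) (XT.lf (nat_lit 0) (nat_lit 2010283963) (nat_lit 456) (nat_lit 6086897504) (nat_lit 76) (nat_lit 802830045) (nat_lit 88) (nat_lit 5) (nat_lit 94) (nat_lit 5) (nat_lit 89) (nat_lit 5) (nat_lit 300) (nat_lit 256) (nat_lit 224)) (XT.lf (nat_lit 0) (nat_lit 4244031716) (nat_lit 456) (nat_lit 1609273279) (nat_lit 76) (nat_lit 3186578274) (nat_lit 88) (nat_lit 5) (nat_lit 94) (nat_lit 5) (nat_lit 89) (nat_lit 5) (nat_lit 301) (nat_lit 256) (nat_lit 223))))) (XT.nd (nat_lit 234) (nat_lit 380) (nat_lit 0) (XT.nd (nat_lit 78) (nat_lit 456) (nat_lit 0) (XT.lf (nat_lit 0) (nat_lit 3003320142) (nat_lit 380) (nat_lit 3520722133) (nat_lit 456) (nat_lit 2660674586) (nat_lit 83) (nat_lit 5) (nat_lit 88) (nat_lit 5) (nat_lit 89) (nat_lit 5) (nat_lit 302) (nat_lit 256)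 (nat_lit 222)) (XT.nd (nat_lit 78) (nat_lit 456) (nat_lit 0) (XT.lf (nat_lit 0) (nat_lit 7729883052) (nat_lit 380) (nat_lit 1110094719) (nat_lit 456) (nat_lit 495030976) (nat_lit 83) (nat_lit 5) (nat_lit 88) (nat_lit 5) (nat_lit 89) (nat_lit 5) (nat_lit 303) (nat_lit 256) (nat_lit 221)) (XT.lf (nat_lit 0) (nat_lit 1697132292) (nat_lit 456) (nat_lit 6408213748) (nat_lit 76) (nat_lit 1384231354) (nat_lit 77) (nat_lit 5) (nat_lit 83) (nat_lit 5) (nat_lit 78) (nat_lit 5) (nat_lit 304) (nat_lit 256) (nat_lit 220)))) (XT.nd (nat_lit 78) (nat_lit 380) (nat_lit 0) (XT.lf (nat_lit 0) (nat_lit 3925329749) (nat_lit 456) (nat_lit 1780701485) (nat_lit 76) (nat_lit 3943325486) (nat_lit 77) (nat_lit 5) (nat_lit 83) (nat_lit 5) (nat_lit 78) (nat_lit 5) (nat_lit 305) (nat_lit 256) (nat_lit 219)) (XT.nd (nat_lit 78) (nat_lit 0) (nat_lit 0) (XT.lf (nat_lit 0) (nat_lit 2987918875) (nat_lit 380) (nat_lit 3215407788)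 (nat_lit 456) (nat_lit 3611237679) (nat_lit 72) (nat_lit 5) (nat_lit 77) (nat_lit 5) (nat_lit 78) (nat_lit 5) (nat_lit 306) (nat_lit 256) (nat_lit 218)) (XT.lf (nat_lit 0) (nat_lit 7880627390) (nat_lit 380) (nat_lit 642049329) (nat_lit 456) (nat_lit 1462980999) (nat_lit 72) (nat_lit 5) (nat_lit 77) (nat_lit 5) (nat_lit 78) (nat_lit 5) (nat_lit 307) (nat_lit 256) (nat_lit 217)))))) (XT.nd (nat_lit 390) (nat_lit 684) (nat_lit 0) (XT.nd (nat_lit 156) (nat_lit 608) (nat_lit 0) (XT.nd (nat_lit 78) (nat_lit 0) (nat_lit 0) (XT.lf (nat_lit 0) (nat_lit 736859421) (nat_lit 380) (nat_lit 7432016173) (nat_lit 76) (nat_lit 1992852162) (nat_lit 67) (nat_lit 5) (nat_lit 72) (nat_lit 5) (nat_lit 68) (nat_lit 5) (nat_lit 308) (nat_lit 256) (nat_lit 216)) (XT.lf (nat_lit 0) (nat_lit 2957570551) (nat_lit 380) (nat_lit 2666468578) (nat_lit 76) (nat_lit 4719187565) (nat_lit 67) (nat_lit 5) (nat_lit 72) (nat_lit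 5) (nat_lit 68) (nat_lit 5) (nat_lit 309) (nat_lit 256) (nat_lit 215))) (XT.nd (nat_lit 78) (nat_lit 304) (nat_lit 0) (XT.lf (nat_lit 0) (nat_lit 2231591001) (nat_lit 304) (nat_lit 2992487607) (nat_lit 380) (nat_lit 5306823274) (nat_lit 63) (nat_lit 5) (nat_lit 67) (nat_lit 5) (nat_lit 68) (nat_lit 5) (nat_lit 310) (nat_lit 256) (nat_lit 214)) (XT.nd (nat_lit 78) (nat_lit 304) (nat_lit 0) (XT.lf (nat_lit 0) (nat_lit 7277780957) (nat_lit 304) (nat_lit 266168566) (nat_lit 380) (nat_lit 3180800222) (nat_lit 63) (nat_lit 5) (nat_lit 67) (nat_lit 5) (nat_lit 68) (nat_lit 5) (nat_lit 311) (nat_lit 256) (nat_lit 213)) (XT.lf (nat_lit 0) (nat_lit 1502718658) (nat_lit 304) (nat_lit 8429118415) (nat_lit 380) (nat_lit 992723790) (nat_lit 59) (nat_lit 5) (nat_lit 63) (nat_lit 5) (nat_lit 64) (nat_lit 5) (nat_lit 312) (nat_lit 256) (nat_lit 212))))) (XT.nd (nat_lit 234) (nat_lit 304) (nat_lit 0) (XT.nd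 (nat_lit 78) (nat_lit 304) (nat_lit 0) (XT.lf (nat_lit 0) (nat_lit 1233900081) (nat_lit 380) (nat_lit 4526356488) (nat_lit 76) (nat_lit 5369915419) (nat_lit 58) (nat_lit 5) (nat_lit 63) (nat_lit 5) (nat_lit 59) (nat_lit 5) (nat_lit 313) (nat_lit 256) (nat_lit 211)) (XT.nd (nat_lit 78) (nat_lit 0) (nat_lit 0) (XT.lf (nat_lit 0) (nat_lit 463273734) (nat_lit 304) (nat_lit 3009446635) (nat_lit 380) (nat_lit 7870067606) (nat_lit 54) (nat_lit 5) (nat_lit 58) (nat_lit 5) (nat_lit 59) (nat_lit 5) (nat_lit 314) (nat_lit 256) (nat_lit 210)) (XT.lf (nat_lit 0) (nat_lit 5643956607) (nat_lit 304) (nat_lit 141997797) (nat_lit 380) (nat_lit 5775699798) (nat_lit 54) (nat_lit 5) (nat_lit 58) (nat_lit 5) (nat_lit 59) (nat_lit 5) (nat_lit 315) (nat_lit 256) (nat_lit 209)))) (XT.nd (nat_lit 78) (nat_lit 304) (nat_lit 0) (XT.lf (nat_lit 0) (nat_lit 8158152038) (nat_lit 380) (nat_lit 885062248) (nat_lit 76) (nat_lit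 2744271768) (nat_lit 54) (nat_lit 5) (nat_lit 59) (nat_lit 5) (nat_lit 55) (nat_lit 5) (nat_lit 316) (nat_lit 256) (nat_lit 208)) (XT.nd (nat_lit 78) (nat_lit 76) (nat_lit 0) (XT.lf (nat_lit 0) (nat_lit 4332157791) (nat_lit 228) (nat_lit 6276039083) (nat_lit 304) (nat_lit 1411779661) (nat_lit 51) (nat_lit 5) (nat_lit 54) (nat_lit 5) (nat_lit 55) (nat_lit 5) (nat_lit 317) (nat_lit 256) (nat_lit 207)) (XT.lf (nat_lit 0) (nat_lit 828091014) (nat_lit 304) (nat_lit 2593448789) (nat_lit 76) (nat_lit 8838545314) (nat_lit 50) (nat_lit 5) (nat_lit 54) (nat_lit 5) (nat_lit 51) (nat_lit 5) (nat_lit 318) (nat_lit 256) (nat_lit 206))))))) (XT.nd (nat_lit 858) (nat_lit 684) (nat_lit 0) (XT.nd (nat_lit 390) (nat_lit 760) (nat_lit 0) (XT.nd (nat_lit 156) (nat_lit 228) (nat_lit 0) (XT.nd (nat_lit 78) (nat_lit 0) (nat_lit 0) (XT.lf (nat_lit 0) (nat_lit 2642960608) (nat_lit 304) (nat_lit 454067921) (nat_lit 380)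 (nat_lit 9410318681) (nat_lit 46) (nat_lit 5) (nat_lit 50) (nat_lit 5) (nat_lit 51) (nat_lit 5) (nat_lit 319) (nat_lit 256) (nat_lit 205)) (XT.lf (nat_lit 0) (nat_lit 5450774171) (nat_lit 380) (nat_lit 4745789025) (nat_lit 76) (nat_lit 2565036501) (nat_lit 46) (nat_lit 5) (nat_lit 51) (nat_lit 5) (nat_lit 47) (nat_lit 5) (nat_lit 320) (nat_lit 256) (nat_lit 204))) (XT.nd (nat_lit 78) (nat_lit 0) (nat_lit 0) (XT.lf (nat_lit 0) (nat_lit 483838855) (nat_lit 228) (nat_lit 7366727216) (nat_lit 304) (nat_lit 5173723227) (nat_lit 43) (nat_lit 5) (nat_lit 46) (nat_lit 5) (nat_lit 47) (nat_lit 5) (nat_lit 321) (nat_lit 256) (nat_lit 203)) (XT.nd (nat_lit 78) (nat_lit 0) (nat_lit 0) (XT.lf (nat_lit 0) (nat_lit 5920631677) (nat_lit 228) (nat_lit 4416460483) (nat_lit 304) (nat_lit 2957395655) (nat_lit 43) (nat_lit 5) (nat_lit 46) (nat_lit 5) (nat_lit 47) (nat_lit 5) (nat_lit 322) (nat_lit 256) (nat_lit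 202)) (XT.lf (nat_lit 0) (nat_lit 11474889529) (nat_lit 228) (nat_lit 1391108259) (nat_lit 304) (nat_lit 707829378) (nat_lit 43) (nat_lit 5) (nat_lit 46) (nat_lit 5) (nat_lit 47) (nat_lit 5) (nat_lit 323) (nat_lit 256) (nat_lit 201))))) (XT.nd (nat_lit 234) (nat_lit 228) (nat_lit 0) (XT.nd (nat_lit 78) (nat_lit 228) (nat_lit 0) (XT.lf (nat_lit 0) (nat_lit 1595189478) (nat_lit 304) (nat_lit 10539148358) (nat_lit 76) (nat_lit 1726288240) (nat_lit 39) (nat_lit 5) (nat_lit 43) (nat_lit 5) (nat_lit 40) (nat_lit 5) (nat_lit 324) (nat_lit 256) (nat_lit 200)) (XT.nd (nat_lit 78) (nat_lit 228) (nat_lit 0) (XT.lf (nat_lit 0) (nat_lit 3956962613) (nat_lit 304) (nat_lit 5274284003) (nat_lit 76) (nat_lit 4924517968) (nat_lit 39) (nat_lit 5) (nat_lit 43) (nat_lit 5) (nat_lit 40) (nat_lit 5) (nat_lit 325) (nat_lit 256) (nat_lit 199)) (XT.lf (nat_lit 0) (nat_lit 106496461) (nat_lit 228) (nat_lit 6253739514)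 (nat_lit 304) (nat_lit 8100462624) (nat_lit 36) (nat_lit 5) (nat_lit 39) (nat_lit 5) (nat_lit 40) (nat_lit 5) (nat_lit 326) (nat_lit 256) (nat_lit 198)))) (XT.nd (nat_lit 78) (nat_lit 228) (nat_lit 0) (XT.lf (nat_lit 0) (nat_lit 5713142472) (nat_lit 228) (nat_lit 3145813240) (nat_lit 304) (nat_lit 5915183472) (nat_lit 36) (nat_lit 5) (nat_lit 39) (nat_lit 5) (nat_lit 40) (nat_lit 5) (nat_lit 327) (nat_lit 256) (nat_lit 197)) (XT.nd (nat_lit 78) (nat_lit 228) (nat_lit 0) (XT.lf (nat_lit 0) (nat_lit 11404000118) (nat_lit 304) (nat_lit 3652730648) (nat_lit 76) (nat_lit 41168605) (nat_lit 36) (nat_lit 5) (nat_lit 40) (nat_lit 5) (nat_lit 37) (nat_lit 5) (nat_lit 328) (nat_lit 256) (nat_lit 196)) (XT.lf (nat_lit 0) (nat_lit 1881404608) (nat_lit 228) (nat_lit 12164903717) (nat_lit 304) (nat_lit 1384492272) (nat_lit 33) (nat_lit 5) (nat_lit 36) (nat_lit 5) (nat_lit 37) (nat_lit 5) (nat_lit 329) (nat_lit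 256) (nat_lit 195)))))) (XT.nd (nat_lit 390) (nat_lit 456) (nat_lit 0) (XT.nd (nat_lit 156) (nat_lit 152) (nat_lit 0) (XT.nd (nat_lit 78) (nat_lit 0) (nat_lit 0) (XT.lf (nat_lit 0) (nat_lit 983824245) (nat_lit 304) (nat_lit 8168210993) (nat_lit 76) (nat_lit 6621148502) (nat_lit 32) (nat_lit 5) (nat_lit 36) (nat_lit 5) (nat_lit 33) (nat_lit 5) (nat_lit 330) (nat_lit 256) (nat_lit 194)) (XT.lf (nat_lit 0) (nat_lit 3367962431) (nat_lit 304) (nat_lit 2680218665) (nat_lit 76) (nat_lit 10078118962) (nat_lit 32) (nat_lit 5) (nat_lit 36) (nat_lit 5) (nat_lit 33) (nat_lit 5) (nat_lit 331) (nat_lit 256) (nat_lit 193))) (XT.nd (nat_lit 78) (nat_lit 0) (nat_lit 0) (XT.lf (nat_lit 0) (nat_lit 2991051093) (nat_lit 152) (nat_lit 2834722662) (nat_lit 228) (nat_lit 10664221046) (nat_lit 30) (nat_lit 5) (nat_lit 32) (nat_lit 5) (nat_lit 33) (nat_lit 5) (nat_lit 332) (nat_lit 256) (nat_lit 192)) (XT.nd (nat_lit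 78) (nat_lit 0) (nat_lit 0) (XT.lf (nat_lit 0) (nat_lit 8362887305) (nat_lit 228) (nat_lit 8021269875) (nat_lit 76) (nat_lit 480324141) (nat_lit 30) (nat_lit 5) (nat_lit 33) (nat_lit 5) (nat_lit 31) (nat_lit 5) (nat_lit 333) (nat_lit 256) (nat_lit 191)) (XT.lf (nat_lit 0) (nat_lit 10978615411) (nat_lit 228) (nat_lit 2446212904) (nat_lit 76) (nat_lit 3825345654) (nat_lit 30) (nat_lit 5) (nat_lit 33) (nat_lit 5) (nat_lit 31) (nat_lit 5) (nat_lit 334) (nat_lit 256) (nat_lit 190))))) (XT.nd (nat_lit 234) (nat_lit 152) (nat_lit 0) (XT.nd (nat_lit 78) (nat_lit 76) (nat_lit 0) (XT.lf (nat_lit 0) (nat_lit 3323195207) (nat_lit 228) (nat_lit 10356743953) (nat_lit 304) (nat_lit 3967329739) (nat_lit 27) (nat_lit 5) (nat_lit 30) (nat_lit 5) (nat_lit 31) (nat_lit 5) (nat_lit 335) (nat_lit 256) (nat_lit 189)) (XT.nd (nat_lit 78) (nat_lit 76) (nat_lit 0) (XT.lf (nat_lit 0) (nat_lit 9278452533) (nat_lit 228)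 (nat_lit 7184094893) (nat_lit 304) (nat_lit 1593765804) (nat_lit 27) (nat_lit 5) (nat_lit 30) (nat_lit 5) (nat_lit 31) (nat_lit 5) (nat_lit 336) (nat_lit 256) (nat_lit 188)) (XT.lf (nat_lit 0) (nat_lit 810377183) (nat_lit 304) (nat_lit 3110250467) (nat_lit 76) (nat_lit 14557517857) (nat_lit 26) (nat_lit 5) (nat_lit 30) (nat_lit 5) (nat_lit 27) (nat_lit 5) (nat_lit 337) (nat_lit 256) (nat_lit 187)))) (XT.nd (nat_lit 78) (nat_lit 0) (nat_lit 0) (XT.lf (nat_lit 0) (nat_lit 2729126628) (nat_lit 152) (nat_lit 528396724) (nat_lit 228) (nat_lit 15654588818) (nat_lit 24) (nat_lit 5) (nat_lit 26) (nat_lit 5) (nat_lit 27) (nat_lit 5) (nat_lit 338) (nat_lit 256) (nat_lit 186)) (XT.nd (nat_lit 78) (nat_lit 0) (nat_lit 0) (XT.lf (nat_lit 0) (nat_lit 5815207343) (nat_lit 228) (nat_lit 10615527197) (nat_lit 76) (nat_lit 2927288590) (nat_lit 24) (nat_lit 5) (nat_lit 27) (nat_lit 5) (nat_lit 25) (nat_lit 5)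 (nat_lit 339) (nat_lit 256) (nat_lit 185)) (XT.lf (nat_lit 0) (nat_lit 8432424251) (nat_lit 228) (nat_lit 4921223911) (nat_lit 76) (nat_lit 6464217053) (nat_lit 24) (nat_lit 5) (nat_lit 27) (nat_lit 5) (nat_lit 25) (nat_lit 5) (nat_lit 340) (nat_lit 256) (nat_lit 184))))))))
noncomputable def xc101 : XT := (XT.nd (nat_lit 1716) (nat_lit 380) (nat_lit 0) (XT.nd (nat_lit 858) (nat_lit 380) (nat_lit 0) (XT.nd (nat_lit 390) (nat_lit 152) (nat_lit 0) (XT.nd (nat_lit 156) (nat_lit 228) (nat_lit 0) (XT.nd (nat_lit 78) (nat_lit 0) (nat_lit 0) (XT.lf (nat_lit 0) (nat_lit 928089563) (nat_lit 152) (nat_lit 10187213493) (nat_lit 228) (nat_lit 9176621907) (nat_lit 22) (nat_lit 5) (nat_lit 24) (nat_lit 5) (nat_lit 25) (nat_lit 5) (nat_lit 341) (nat_lit 256) (nat_lit 183)) (XT.lf (nat_lit 0) (nat_lit 7020166067) (nat_lit 152) (nat_lit 6886732197) (nat_lit 228) (nat_lit 6872497031) (nat_lit 22) (nat_lit 5)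 (nat_lit 24) (nat_lit 5) (nat_lit 25) (nat_lit 5) (nat_lit 342) (nat_lit 256) (nat_lit 182))) (XT.nd (nat_lit 78) (nat_lit 228) (nat_lit 0) (XT.lf (nat_lit 0) (nat_lit 13262386769) (nat_lit 152) (nat_lit 3499015069) (nat_lit 228) (nat_lit 4520747737) (nat_lit 22) (nat_lit 5) (nat_lit 24) (nat_lit 5) (nat_lit 25) (nat_lit 5) (nat_lit 343) (nat_lit 256) (nat_lit 181)) (XT.nd (nat_lit 78) (nat_lit 228) (nat_lit 0) (XT.lf (nat_lit 0) (nat_lit 19660206037) (nat_lit 152) (nat_lit 21101969) (nat_lit 228) (nat_lit 2119319096) (nat_lit 22) (nat_lit 5) (nat_lit 24) (nat_lit 5) (nat_lit 25) (nat_lit 5) (nat_lit 344) (nat_lit 256) (nat_lit 180)) (XT.lf (nat_lit 0) (nat_lit 399951882) (nat_lit 228) (nat_lit 18410619164) (nat_lit 76) (nat_lit 3522436183) (nat_lit 19) (nat_lit 5) (nat_lit 22) (nat_lit 5) (nat_lit 20) (nat_lit 5) (nat_lit 345) (nat_lit 256) (nat_lit 179))))) (XT.nd (nat_lit 234) (nat_lit 152)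 (nat_lit 0) (XT.nd (nat_lit 78) (nat_lit 0) (nat_lit 0) (XT.lf (nat_lit 0) (nat_lit 2954545620) (nat_lit 228) (nat_lit 12722535845) (nat_lit 76) (nat_lit 7203608358) (nat_lit 19) (nat_lit 5) (nat_lit 22) (nat_lit 5) (nat_lit 20) (nat_lit 5) (nat_lit 346) (nat_lit 256) (nat_lit 178)) (XT.nd (nat_lit 78) (nat_lit 0) (nat_lit 0) (XT.lf (nat_lit 0) (nat_lit 5566654703) (nat_lit 228) (nat_lit 6894273349) (nat_lit 76) (nat_lit 10984478409) (nat_lit 19) (nat_lit 5) (nat_lit 22) (nat_lit 5) (nat_lit 20) (nat_lit 5) (nat_lit 347) (nat_lit 256) (nat_lit 177)) (XT.lf (nat_lit 0) (nat_lit 8238561556) (nat_lit 228) (nat_lit 920739020) (nat_lit 76) (nat_lit 14868350008) (nat_lit 19) (nat_lit 5) (nat_lit 22) (nat_lit 5) (nat_lit 20) (nat_lit 5) (nat_lit 348) (nat_lit 256) (nat_lit 176)))) (XT.nd (nat_lit 78) (nat_lit 0) (nat_lit 0) (XT.lf (nat_lit 0) (nat_lit 5306842343) (nat_lit 152) (nat_lit 5716771127)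 (nat_lit 228) (nat_lit 13602787101) (nat_lit 17) (nat_lit 5) (nat_lit 19) (nat_lit 5) (nat_lit 20) (nat_lit 5) (nat_lit 349) (nat_lit 256) (nat_lit 175)) (XT.nd (nat_lit 78) (nat_lit 0) (nat_lit 0) (XT.lf (nat_lit 0) (nat_lit 11711692308) (nat_lit 152) (nat_lit 2172049210) (nat_lit 228) (nat_lit 11359653158) (nat_lit 17) (nat_lit 5) (nat_lit 19) (nat_lit 5) (nat_lit 20) (nat_lit 5) (nat_lit 350) (nat_lit 256) (nat_lit 174)) (XT.lf (nat_lit 0) (nat_lit 16826535693) (nat_lit 228) (nat_lit 7612477699) (nat_lit 76) (nat_lit 1440005902) (nat_lit 17) (nat_lit 5) (nat_lit 20) (nat_lit 5) (nat_lit 18) (nat_lit 4) (nat_lit 351) (nat_lit 256) (nat_lit 173)))))) (XT.nd (nat_lit 390) (nat_lit 228) (nat_lit 0) (XT.nd (nat_lit 156) (nat_lit 76) (nat_lit 0) (XT.nd (nat_lit 78) (nat_lit 76) (nat_lit 0) (XT.lf (nat_lit 0) (nat_lit 19862269707) (nat_lit 228) (nat_lit 1564414421) (nat_lit 76) (nat_lit 5106914628)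 (nat_lit 17) (nat_lit 5) (nat_lit 20) (nat_lit 5) (nat_lit 18) (nat_lit 4) (nat_lit 352) (nat_lit 256) (nat_lit 172)) (XT.lf (nat_lit 0) (nat_lit 4730969501) (nat_lit 76) (nat_lit 18287224549) (nat_lit 152) (nat_lit 4188773036) (nat_lit 16) (nat_lit 5) (nat_lit 17) (nat_lit 5) (nat_lit 18) (nat_lit 4) (nat_lit 353) (nat_lit 256) (nat_lit 171))) (XT.nd (nat_lit 78) (nat_lit 76) (nat_lit 0) (XT.lf (nat_lit 0) (nat_lit 11221103605) (nat_lit 76) (nat_lit 15047356179) (nat_lit 152) (nat_lit 1632111077) (nat_lit 16) (nat_lit 5) (nat_lit 17) (nat_lit 5) (nat_lit 18) (nat_lit 4) (nat_lit 354) (nat_lit 256) (nat_lit 170)) (XT.nd (nat_lit 78) (nat_lit 0) (nat_lit 0) (XT.lf (nat_lit 0) (nat_lit 965870566) (nat_lit 152) (nat_lit 10744421616) (nat_lit 76) (nat_lit 16904900002) (nat_lit 15) (nat_lit 5) (nat_lit 17) (nat_lit 5) (nat_lit 16) (nat_lit 5) (nat_lit 355) (nat_lit 256) (nat_lit 169)) (XT.lf (nat_lit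 0) (nat_lit 3593607100) (nat_lit 152) (nat_lit 4672489913) (nat_lit 76) (nat_lit 21085154014) (nat_lit 15) (nat_lit 5) (nat_lit 17) (nat_lit 5) (nat_lit 16) (nat_lit 5) (nat_lit 356) (nat_lit 256) (nat_lit 168))))) (XT.nd (nat_lit 234) (nat_lit 76) (nat_lit 0) (XT.nd (nat_lit 78) (nat_lit 0) (nat_lit 0) (XT.lf (nat_lit 0) (nat_lit 1588316039) (nat_lit 152) (nat_lit 4712194795) (nat_lit 228) (nat_lit 23808892343) (nat_lit 13) (nat_lit 5) (nat_lit 15) (nat_lit 5) (nat_lit 16) (nat_lit 5) (nat_lit 357) (nat_lit 256) (nat_lit 167)) (XT.nd (nat_lit 78) (nat_lit 0) (nat_lit 0) (XT.lf (nat_lit 0) (nat_lit 8108688181) (nat_lit 152) (nat_lit 1012387579) (nat_lit 228) (nat_lit 21768271474) (nat_lit 13) (nat_lit 5) (nat_lit 15) (nat_lit 5) (nat_lit 16) (nat_lit 5) (nat_lit 358) (nat_lit 256) (nat_lit 166)) (XT.lf (nat_lit 0) (nat_lit 12038770897) (nat_lit 228) (nat_lit 16918619928) (nat_lit 76) (nat_lit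 2734943745) (nat_lit 13) (nat_lit 5) (nat_lit 16) (nat_lit 5) (nat_lit 14) (nat_lit 4) (nat_lit 359) (nat_lit 256) (nat_lit 165)))) (XT.nd (nat_lit 78) (nat_lit 76) (nat_lit 0) (XT.lf (nat_lit 0) (nat_lit 15040052759) (nat_lit 228) (nat_lit 10913754660) (nat_lit 76) (nat_lit 6565742193) (nat_lit 13) (nat_lit 5) (nat_lit 16) (nat_lit 5) (nat_lit 14) (nat_lit 4) (nat_lit 360) (nat_lit 256) (nat_lit 164)) (XT.nd (nat_lit 78) (nat_lit 76) (nat_lit 0) (XT.lf (nat_lit 0) (nat_lit 18117812136) (nat_lit 228) (nat_lit 4751084592) (nat_lit 76) (nat_lit 10503110391) (nat_lit 13) (nat_lit 5) (nat_lit 16) (nat_lit 5) (nat_lit 14) (nat_lit 4) (nat_lit 361) (nat_lit 256) (nat_lit 163)) (XT.lf (nat_lit 0) (nat_lit 1606116244) (nat_lit 76) (nat_lit 19684061060) (nat_lit 152) (nat_lit 12959811486) (nat_lit 12) (nat_lit 5) (nat_lit 13) (nat_lit 5) (nat_lit 14) (nat_lit 4) (nat_lit 362) (nat_lit 256) (nat_lit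 162))))))) (XT.nd (nat_lit 858) (nat_lit 152) (nat_lit 0) (XT.nd (nat_lit 390) (nat_lit 228) (nat_lit 0) (XT.nd (nat_lit 156) (nat_lit 0) (nat_lit 0) (XT.nd (nat_lit 78) (nat_lit 0) (nat_lit 0) (XT.lf (nat_lit 0) (nat_lit 8229947889) (nat_lit 76) (nat_lit 16362753232) (nat_lit 152) (nat_lit 10560577244) (nat_lit 12) (nat_lit 5) (nat_lit 13) (nat_lit 5) (nat_lit 14) (nat_lit 4) (nat_lit 363) (nat_lit 256) (nat_lit 161)) (XT.lf (nat_lit 0) (nat_lit 15031642257) (nat_lit 76) (nat_lit 12950047769) (nat_lit 152) (nat_lit 8102372478) (nat_lit 12) (nat_lit 5) (nat_lit 13) (nat_lit 5) (nat_lit 14) (nat_lit 4) (nat_lit 364) (nat_lit 256) (nat_lit 160))) (XT.nd (nat_lit 78) (nat_lit 0) (nat_lit 0) (XT.lf (nat_lit 0) (nat_lit 22017142576) (nat_lit 76) (nat_lit 9442962697) (nat_lit 152) (nat_lit 5583049243) (nat_lit 12) (nat_lit 5) (nat_lit 13) (nat_lit 5) (nat_lit 14) (nat_lit 4) (nat_lit 365) (nat_lit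 256) (nat_lit 159)) (XT.nd (nat_lit 78) (nat_lit 0) (nat_lit 0) (XT.lf (nat_lit 0) (nat_lit 29192552681) (nat_lit 76) (nat_lit 5838433571) (nat_lit 152) (nat_lit 3000406187) (nat_lit 12) (nat_lit 5) (nat_lit 13) (nat_lit 5) (nat_lit 14) (nat_lit 4) (nat_lit 366) (nat_lit 256) (nat_lit 158)) (XT.lf (nat_lit 0) (nat_lit 36564142347) (nat_lit 76) (nat_lit 2133310804) (nat_lit 152) (nat_lit 352186632) (nat_lit 12) (nat_lit 5) (nat_lit 13) (nat_lit 5) (nat_lit 14) (nat_lit 4) (nat_lit 367) (nat_lit 256) (nat_lit 157))))) (XT.nd (nat_lit 234) (nat_lit 0) (nat_lit 0) (XT.nd (nat_lit 78) (nat_lit 0) (nat_lit 0) (XT.lf (nat_lit 0) (nat_lit 2373897753) (nat_lit 228) (nat_lit 36016859287) (nat_lit 76) (nat_lit 1705664444) (nat_lit 9) (nat_lit 5) (nat_lit 12) (nat_lit 5) (nat_lit 10) (nat_lit 4) (nat_lit 368) (nat_lit 256) (nat_lit 156)) (XT.nd (nat_lit 78) (nat_lit 0) (nat_lit 0) (XT.lf (nat_lit 0) (nat_lit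 5209904706) (nat_lit 228) (nat_lit 30325049674) (nat_lit 76) (nat_lit 5638505792) (nat_lit 9) (nat_lit 5) (nat_lit 12) (nat_lit 5) (nat_lit 10) (nat_lit 4) (nat_lit 369) (nat_lit 256) (nat_lit 155)) (XT.lf (nat_lit 0) (nat_lit 8120069147) (nat_lit 228) (nat_lit 24480798871) (nat_lit 76) (nat_lit 9682283962) (nat_lit 9) (nat_lit 5) (nat_lit 12) (nat_lit 5) (nat_lit 10) (nat_lit 4) (nat_lit 370) (nat_lit 256) (nat_lit 154)))) (XT.nd (nat_lit 78) (nat_lit 0) (nat_lit 0) (XT.lf (nat_lit 0) (nat_lit 11106933938) (nat_lit 228) (nat_lit 18479000251) (nat_lit 76) (nat_lit 13840532351) (nat_lit 9) (nat_lit 5) (nat_lit 12) (nat_lit 5) (nat_lit 10) (nat_lit 4) (nat_lit 371) (nat_lit 256) (nat_lit 153)) (XT.nd (nat_lit 78) (nat_lit 0) (nat_lit 0) (XT.lf (nat_lit 0) (nat_lit 14173108960) (nat_lit 228) (nat_lit 12314409523) (nat_lit 76) (nat_lit 18116884381) (nat_lit 9) (nat_lit 5) (nat_lit 12) (nat_lit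 5) (nat_lit 10) (nat_lit 4) (nat_lit 372) (nat_lit 256) (nat_lit 152)) (XT.lf (nat_lit 0) (nat_lit 17321273396) (nat_lit 228) (nat_lit 5981640154) (nat_lit 76) (nat_lit 22515076670) (nat_lit 9) (nat_lit 5) (nat_lit 12) (nat_lit 5) (nat_lit 10) (nat_lit 4) (nat_lit 373) (nat_lit 256) (nat_lit 151)))))) (XT.nd (nat_lit 390) (nat_lit 76) (nat_lit 0) (XT.nd (nat_lit 156) (nat_lit 0) (nat_lit 0) (XT.nd (nat_lit 78) (nat_lit 0) (nat_lit 0) (XT.lf (nat_lit 0) (nat_lit 535286718) (nat_lit 76) (nat_lit 20024036854) (nat_lit 152) (nat_lit 26508811083) (nat_lit 8) (nat_lit 5) (nat_lit 9) (nat_lit 5) (nat_lit 10) (nat_lit 4) (nat_lit 374) (nat_lit 256) (nat_lit 150)) (XT.lf (nat_lit 0) (nat_lit 7354227723) (nat_lit 76) (nat_lit 16591113458) (nat_lit 152) (nat_lit 24408929779) (nat_lit 8) (nat_lit 5) (nat_lit 9) (nat_lit 5) (nat_lit 10) (nat_lit 4) (nat_lit 375) (nat_lit 256) (nat_lit 149))) (XT.nd (nat_lit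 78) (nat_lit 0) (nat_lit 0) (XT.lf (nat_lit 0) (nat_lit 14362094792) (nat_lit 76) (nat_lit 13061546559) (nat_lit 152) (nat_lit 22255640901) (nat_lit 8) (nat_lit 5) (nat_lit 9) (nat_lit 5) (nat_lit 10) (nat_lit 4) (nat_lit 376) (nat_lit 256) (nat_lit 148)) (XT.nd (nat_lit 78) (nat_lit 0) (nat_lit 0) (XT.lf (nat_lit 0) (nat_lit 21565011304) (nat_lit 76) (nat_lit 9432252067) (nat_lit 152) (nat_lit 20047062933) (nat_lit 8) (nat_lit 5) (nat_lit 9) (nat_lit 5) (nat_lit 10) (nat_lit 4) (nat_lit 377) (nat_lit 256) (nat_lit 147)) (XT.lf (nat_lit 0) (nat_lit 28969271069) (nat_lit 76) (nat_lit 5700058755) (nat_lit 152) (nat_lit 17781266050) (nat_lit 8) (nat_lit 5) (nat_lit 9) (nat_lit 5) (nat_lit 10) (nat_lit 4) (nat_lit 378) (nat_lit 256) (nat_lit 146))))) (XT.nd (nat_lit 234) (nat_lit 76) (nat_lit 0) (XT.nd (nat_lit 78) (nat_lit 0) (nat_lit 0) (XT.lf (nat_lit 0) (nat_lit 36581343829) (nat_lit 76) (nat_lit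 1861705483) (nat_lit 152) (nat_lit 15456270431) (nat_lit 8) (nat_lit 5) (nat_lit 9) (nat_lit 5) (nat_lit 10) (nat_lit 4) (nat_lit 379) (nat_lit 256) (nat_lit 145)) (XT.nd (nat_lit 78) (nat_lit 0) (nat_lit 0) (XT.lf (nat_lit 0) (nat_lit 42341772722) (nat_lit 152) (nat_lit 11003936338) (nat_lit 0) (nat_lit 2045453120) (nat_lit 8) (nat_lit 5) (nat_lit 10) (nat_lit 4) (nat_lit 8) (nat_lit 4) (nat_lit 380) (nat_lit 256) (nat_lit 144)) (XT.lf (nat_lit 0) (nat_lit 46367817446) (nat_lit 152) (nat_lit 4532599695) (nat_lit 0) (nat_lit 6027042275) (nat_lit 8) (nat_lit 5) (nat_lit 10) (nat_lit 4) (nat_lit 8) (nat_lit 4) (nat_lit 381) (nat_lit 256) (nat_lit 143)))) (XT.nd (nat_lit 78) (nat_lit 0) (nat_lit 0) (XT.lf (nat_lit 0) (nat_lit 2161768318) (nat_lit 76) (nat_lit 48365817457) (nat_lit 76) (nat_lit 7981881539) (nat_lit 7) (nat_lit 4) (nat_lit 8) (nat_lit 5) (nat_lit 8) (nat_lit 4) (nat_lit 382) (nat_lit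 256) (nat_lit 142)) (XT.nd (nat_lit 78) (nat_lit 0) (nat_lit 0) (XT.lf (nat_lit 0) (nat_lit 9136718926) (nat_lit 76) (nat_lit 45713462388) (nat_lit 76) (nat_lit 5287622832) (nat_lit 7) (nat_lit 4) (nat_lit 8) (nat_lit 5) (nat_lit 8) (nat_lit 4) (nat_lit 383) (nat_lit 256) (nat_lit 141)) (XT.lf (nat_lit 0) (nat_lit 16308139125) (nat_lit 76) (nat_lit 42986804711) (nat_lit 76) (nat_lit 2520282012) (nat_lit 7) (nat_lit 4) (nat_lit 8) (nat_lit 5) (nat_lit 8) (nat_lit 4) (nat_lit 384) (nat_lit 256) (nat_lit 140))))))))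
noncomputable def xc102 : XT := (XT.nd (nat_lit 32136) (nat_lit 0) (nat_lit 7220) (XT.nd (nat_lit 858) (nat_lit 0) (nat_lit 0) (XT.nd (nat_lit 390) (nat_lit 76) (nat_lit 0) (XT.nd (nat_lit 156) (nat_lit 0) (nat_lit 0) (XT.nd (nat_lit 78) (nat_lit 0) (nat_lit 0) (XT.lf (nat_lit 0) (nat_lit 316264698) (nat_lit 152) (nat_lit 39864003559) (nat_lit 76) (nat_lit 23362836853) (nat_lit 6) (nat_lit 5) (nat_lit 8) (nat_lit 5) (nat_lit 7) (nat_lit 4) (nat_lit 385) (nat_lit 256) (nat_lit 139)) (XT.lf (nat_lit 0) (nat_lit 3180094089) (nat_lit 152) (nat_lit 34088777659) (nat_lit 76) (nat_lit 28053423796) (nat_lit 6) (nat_lit 5) (nat_lit 8) (nat_lit 5) (nat_lit 7) (nat_lit 4) (nat_lit 386) (nat_lit 256) (nat_lit 138))) (XT.nd (nat_lit 78) (nat_lit 0) (nat_lit 0) (XT.lf (nat_lit 0) (nat_lit 6122888317) (nat_lit 152) (nat_lit 28152136216) (nat_lit 76) (nat_lit 32880054046) (nat_lit 6) (nat_lit 5) (nat_lit 8)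 (nat_lit 5) (nat_lit 7) (nat_lit 4) (nat_lit 387) (nat_lit 256) (nat_lit 137)) (XT.nd (nat_lit 78) (nat_lit 0) (nat_lit 0) (XT.lf (nat_lit 0) (nat_lit 9147218755) (nat_lit 152) (nat_lit 22048891873) (nat_lit 76) (nat_lit 37846945047) (nat_lit 6) (nat_lit 5) (nat_lit 8) (nat_lit 5) (nat_lit 7) (nat_lit 4) (nat_lit 388) (nat_lit 256) (nat_lit 136)) (XT.lf (nat_lit 0) (nat_lit 12255728021) (nat_lit 152) (nat_lit 15773711700) (nat_lit 76) (nat_lit 42958436800) (nat_lit 6) (nat_lit 5) (nat_lit 8) (nat_lit 5) (nat_lit 7) (nat_lit 4) (nat_lit 389) (nat_lit 256) (nat_lit 135))))) (XT.nd (nat_lit 234) (nat_lit 0) (nat_lit 0) (XT.nd (nat_lit 78) (nat_lit 76) (nat_lit 0) (XT.lf (nat_lit 0) (nat_lit 15451132289) (nat_lit 152) (nat_lit 9321112528) (nat_lit 76) (nat_lit 48218995658) (nat_lit 6) (nat_lit 5) (nat_lit 8) (nat_lit 5) (nat_lit 7) (nat_lit 4) (nat_lit 390) (nat_lit 256) (nat_lit 134)) (XT.nd (nat_lit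 78) (nat_lit 76) (nat_lit 0) (XT.lf (nat_lit 0) (nat_lit 18736223659) (nat_lit 152) (nat_lit 2685456165) (nat_lit 76) (nat_lit 53633218225) (nat_lit 6) (nat_lit 5) (nat_lit 8) (nat_lit 5) (nat_lit 7) (nat_lit 4) (nat_lit 391) (nat_lit 256) (nat_lit 133)) (XT.lf (nat_lit 0) (nat_lit 4221430856) (nat_lit 76) (nat_lit 17933020720) (nat_lit 152) (nat_lit 55024983496) (nat_lit 5) (nat_lit 5) (nat_lit 6) (nat_lit 5) (nat_lit 7) (nat_lit 4) (nat_lit 392) (nat_lit 256) (nat_lit 132)))) (XT.nd (nat_lit 78) (nat_lit 0) (nat_lit 0) (XT.lf (nat_lit 0) (nat_lit 11380459495) (nat_lit 76) (nat_lit 14315966899) (nat_lit 152) (nat_lit 53670652830) (nat_lit 5) (nat_lit 5) (nat_lit 6) (nat_lit 5) (nat_lit 7) (nat_lit 4) (nat_lit 393) (nat_lit 256) (nat_lit 131)) (XT.nd (nat_lit 78) (nat_lit 0) (nat_lit 0) (XT.lf (nat_lit 0) (nat_lit 18744439370) (nat_lit 76) (nat_lit 10594475671) (nat_lit 152) (nat_lit 52281616842)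 (nat_lit 5) (nat_lit 5) (nat_lit 6) (nat_lit 5) (nat_lit 7) (nat_lit 4) (nat_lit 394) (nat_lit 256) (nat_lit 130)) (XT.lf (nat_lit 0) (nat_lit 26319805026) (nat_lit 76) (nat_lit 6765295249) (nat_lit 152) (nat_lit 50856661809) (nat_lit 5) (nat_lit 5) (nat_lit 6) (nat_lit 5) (nat_lit 7) (nat_lit 4) (nat_lit 395) (nat_lit 256) (nat_lit 129)))))) (XT.nd (nat_lit 30810) (nat_lit 0) (nat_lit 15580) (XT.nd (nat_lit 30576) (nat_lit 0) (nat_lit 17100) (XT.nd (nat_lit 30498) (nat_lit 0) (nat_lit 17708) (XT.lf (nat_lit 0) (nat_lit 34113175715) (nat_lit 76) (nat_lit 2825079746) (nat_lit 152) (nat_lit 49394542625) (nat_lit 5) (nat_lit 5) (nat_lit 6) (nat_lit 5) (nat_lit 7) (nat_lit 4) (nat_lit 396) (nat_lit 256) (nat_lit 128)) (XT.lf (nat_lit 0) (nat_lit 1095173822) (nat_lit 228) (nat_lit 1051686856) (nat_lit 0) (nat_lit 1095173822) (nat_lit 238) (nat_lit 5) (nat_lit 241) (nat_lit 4) (nat_lit 238) (nat_lit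 4) (nat_lit 266) (nat_lit 257) (nat_lit 257))) (XT.nd (nat_lit 78) (nat_lit 380) (nat_lit 0) (XT.lf (nat_lit 0) (nat_lit 966086318) (nat_lit 228) (nat_lit 3933962890) (nat_lit 228) (nat_lit 1599890683) (nat_lit 235) (nat_lit 4) (nat_lit 238) (nat_lit 5) (nat_lit 238) (nat_lit 4) (nat_lit 267) (nat_lit 257) (nat_lit 256)) (XT.nd (nat_lit 78) (nat_lit 304) (nat_lit 0) (XT.lf (nat_lit 0) (nat_lit 1073845183) (nat_lit 304) (nat_lit 2420256004) (nat_lit 76) (nat_lit 3024696950) (nat_lit 234) (nat_lit 5) (nat_lit 238) (nat_lit 5) (nat_lit 235) (nat_lit 4) (nat_lit 268) (nat_lit 257) (nat_lit 255)) (XT.lf (nat_lit 0) (nat_lit 723026798) (nat_lit 304) (nat_lit 2983020216) (nat_lit 380) (nat_lit 2834883152) (nat_lit 230) (nat_lit 5) (nat_lit 234) (nat_lit 5) (nat_lit 235) (nat_lit 4) (nat_lit 269) (nat_lit 257) (nat_lit 254))))) (XT.nd (nat_lit 234) (nat_lit 1064) (nat_lit 0) (XT.nd (nat_lit 78) (nat_lit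 456) (nat_lit 0) (XT.lf (nat_lit 0) (nat_lit 3948837665) (nat_lit 304) (nat_lit 2398498796) (nat_lit 380) (nat_lit 218967166) (nat_lit 230) (nat_lit 5) (nat_lit 234) (nat_lit 5) (nat_lit 235) (nat_lit 4) (nat_lit 270) (nat_lit 257) (nat_lit 253)) (XT.nd (nat_lit 78) (nat_lit 0) (nat_lit 0) (XT.lf (nat_lit 0) (nat_lit 605098363) (nat_lit 380) (nat_lit 1734904247) (nat_lit 456) (nat_lit 4254788901) (nat_lit 224) (nat_lit 5) (nat_lit 229) (nat_lit 5) (nat_lit 230) (nat_lit 5) (nat_lit 271) (nat_lit 257) (nat_lit 252)) (XT.lf (nat_lit 0) (nat_lit 3914492278) (nat_lit 380) (nat_lit 992440114) (nat_lit 456) (nat_lit 1719509135) (nat_lit 224) (nat_lit 5) (nat_lit 229) (nat_lit 5) (nat_lit 230) (nat_lit 5) (nat_lit 272) (nat_lit 257) (nat_lit 251)))) (XT.nd (nat_lit 78) (nat_lit 532) (nat_lit 0) (XT.lf (nat_lit 0) (nat_lit 605670938) (nat_lit 456) (nat_lit 185112341) (nat_lit 532) (nat_lit 5870924887)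 (nat_lit 217) (nat_lit 5) (nat_lit 223) (nat_lit 5) (nat_lit 224) (nat_lit 5) (nat_lit 273) (nat_lit 257) (nat_lit 250)) (XT.nd (nat_lit 78) (nat_lit 532) (nat_lit 0) (XT.lf (nat_lit 0) (nat_lit 3288501217) (nat_lit 532) (nat_lit 2706685860) (nat_lit 76) (nat_lit 704337597) (nat_lit 217) (nat_lit 5) (nat_lit 224) (nat_lit 5) (nat_lit 218) (nat_lit 5) (nat_lit 274) (nat_lit 257) (nat_lit 249)) (XT.lf (nat_lit 0) (nat_lit 692321251) (nat_lit 532) (nat_lit 5092663598) (nat_lit 608) (nat_lit 956166999) (nat_lit 210) (nat_lit 5) (nat_lit 217) (nat_lit 5) (nat_lit 218) (nat_lit 5) (nat_lit 275) (nat_lit 257) (nat_lit 248))))))) (XT.nd (nat_lit 858) (nat_lit 4256) (nat_lit 0) (XT.nd (nat_lit 390) (nat_lit 2660) (nat_lit 0) (XT.nd (nat_lit 156) (nat_lit 760) (nat_lit 0) (XT.nd (nat_lit 78) (nat_lit 608) (nat_lit 0) (XT.lf (nat_lit 0) (nat_lit 1485281117) (nat_lit 608) (nat_lit 2613738676) (nat_lit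 76) (nat_lit 2686614517) (nat_lit 209) (nat_lit 5) (nat_lit 217) (nat_lit 5) (nat_lit 210) (nat_lit 5) (nat_lit 276) (nat_lit 257) (nat_lit 247)) (XT.lf (nat_lit 0) (nat_lit 869845910) (nat_lit 608) (nat_lit 3037741170) (nat_lit 684) (nat_lit 2926133183) (nat_lit 201) (nat_lit 5) (nat_lit 209) (nat_lit 5) (nat_lit 210) (nat_lit 5) (nat_lit 277) (nat_lit 257) (nat_lit 246))) (XT.nd (nat_lit 78) (nat_lit 760) (nat_lit 0) (XT.lf (nat_lit 0) (nat_lit 4450058695) (nat_lit 608) (nat_lit 1899151942) (nat_lit 684) (nat_lit 535986276) (nat_lit 201) (nat_lit 5) (nat_lit 209) (nat_lit 5) (nat_lit 210) (nat_lit 5) (nat_lit 278) (nat_lit 257) (nat_lit 245)) (XT.nd (nat_lit 78) (nat_lit 0) (nat_lit 0) (XT.lf (nat_lit 0) (nat_lit 1141666749) (nat_lit 684) (nat_lit 679072158) (nat_lit 760) (nat_lit 5119277564) (nat_lit 191) (nat_lit 5) (nat_lit 200) (nat_lit 5) (nat_lit 201) (nat_lit 5) (nat_lit 279) (nat_lit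 257) (nat_lit 244)) (XT.lf (nat_lit 0) (nat_lit 4191112557) (nat_lit 760) (nat_lit 2194882011) (nat_lit 76) (nat_lit 612033335) (nat_lit 191) (nat_lit 5) (nat_lit 201) (nat_lit 5) (nat_lit 192) (nat_lit 5) (nat_lit 280) (nat_lit 257) (nat_lit 243))))) (XT.nd (nat_lit 234) (nat_lit 988) (nat_lit 0) (XT.nd (nat_lit 78) (nat_lit 912) (nat_lit 0) (XT.lf (nat_lit 0) (nat_lit 1476912031) (nat_lit 760) (nat_lit 5102172433) (nat_lit 836) (nat_lit 480609417) (nat_lit 181) (nat_lit 5) (nat_lit 191) (nat_lit 5) (nat_lit 192) (nat_lit 5) (nat_lit 281) (nat_lit 257) (nat_lit 242)) (XT.nd (nat_lit 78) (nat_lit 836) (nat_lit 0) (XT.lf (nat_lit 0) (nat_lit 1826621419) (nat_lit 836) (nat_lit 1900353073) (nat_lit 76) (nat_lit 3397518633) (nat_lit 180) (nat_lit 5) (nat_lit 191) (nat_lit 5) (nat_lit 181) (nat_lit 5) (nat_lit 282) (nat_lit 257) (nat_lit 241)) (XT.lf (nat_lit 0) (nat_lit 1862949995) (nat_lit 836)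 (nat_lit 2276649075) (nat_lit 912) (nat_lit 3053391439) (nat_lit 169) (nat_lit 5) (nat_lit 180) (nat_lit 5) (nat_lit 181) (nat_lit 5) (nat_lit 283) (nat_lit 257) (nat_lit 240)))) (XT.nd (nat_lit 78) (nat_lit 988) (nat_lit 0) (XT.lf (nat_lit 0) (nat_lit 5717514534) (nat_lit 836) (nat_lit 753429626) (nat_lit 912) (nat_lit 794403687) (nat_lit 169) (nat_lit 5) (nat_lit 180) (nat_lit 5) (nat_lit 181) (nat_lit 5) (nat_lit 284) (nat_lit 257) (nat_lit 239)) (XT.nd (nat_lit 78) (nat_lit 0) (nat_lit 0) (XT.lf (nat_lit 0) (nat_lit 1463918446) (nat_lit 988) (nat_lit 5031507475) (nat_lit 76) (nat_lit 845422718) (nat_lit 156) (nat_lit 5) (nat_lit 169) (nat_lit 5) (nat_lit 157) (nat_lit 5) (nat_lit 285) (nat_lit 257) (nat_lit 238)) (XT.lf (nat_lit 0) (nat_lit 3729677364) (nat_lit 988) (nat_lit 1181890743) (nat_lit 76) (nat_lit 2508391862) (nat_lit 156) (nat_lit 5) (nat_lit 169) (nat_lit 5) (nat_lit 157) (nat_lit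 5) (nat_lit 286) (nat_lit 257) (nat_lit 237)))))) (XT.nd (nat_lit 390) (nat_lit 1596) (nat_lit 0) (XT.nd (nat_lit 156) (nat_lit 1596) (nat_lit 0) (XT.nd (nat_lit 78) (nat_lit 76) (nat_lit 0) (XT.lf (nat_lit 0) (nat_lit 2776990667) (nat_lit 988) (nat_lit 3247490490) (nat_lit 1064) (nat_lit 1478375100) (nat_lit 143) (nat_lit 5) (nat_lit 156) (nat_lit 5) (nat_lit 157) (nat_lit 5) (nat_lit 287) (nat_lit 257) (nat_lit 236)) (XT.lf (nat_lit 0) (nat_lit 731179557) (nat_lit 1064) (nat_lit 778169574) (nat_lit 76) (nat_lit 6080482458) (nat_lit 142) (nat_lit 5) (nat_lit 156) (nat_lit 5) (nat_lit 143) (nat_lit 5) (nat_lit 288) (nat_lit 257) (nat_lit 235))) (XT.nd (nat_lit 78) (nat_lit 532) (nat_lit 0) (XT.lf (nat_lit 0) (nat_lit 2948750778) (nat_lit 1140) (nat_lit 4405625810) (nat_lit 76) (nat_lit 325680250) (nat_lit 128) (nat_lit 5) (nat_lit 143) (nat_lit 5) (nat_lit 129) (nat_lit 5) (nat_lit 289) (nat_lit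 257) (nat_lit 234)) (XT.nd (nat_lit 78) (nat_lit 532) (nat_lit 0) (XT.lf (nat_lit 0) (nat_lit 5193776774) (nat_lit 1140) (nat_lit 384294883) (nat_lit 76) (nat_lit 2196305953) (nat_lit 128) (nat_lit 5) (nat_lit 143) (nat_lit 5) (nat_lit 129) (nat_lit 5) (nat_lit 290) (nat_lit 257) (nat_lit 233)) (XT.lf (nat_lit 0) (nat_lit 3771978637) (nat_lit 532) (nat_lit 3710285710) (nat_lit 608) (nat_lit 390190620) (nat_lit 121) (nat_lit 5) (nat_lit 128) (nat_lit 5) (nat_lit 129) (nat_lit 5) (nat_lit 291) (nat_lit 257) (nat_lit 232))))) (XT.nd (nat_lit 234) (nat_lit 532) (nat_lit 0) (XT.nd (nat_lit 78) (nat_lit 532) (nat_lit 0) (XT.lf (nat_lit 0) (nat_lit 9563450) (nat_lit 456) (nat_lit 1764224080) (nat_lit 532) (nat_lit 6201019235) (nat_lit 114) (nat_lit 5) (nat_lit 120) (nat_lit 5) (nat_lit 121) (nat_lit 5) (nat_lit 292) (nat_lit 257) (nat_lit 231)) (XT.nd (nat_lit 78) (nat_lit 532) (nat_lit 0) (XT.lf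 (nat_lit 0) (nat_lit 3980383096) (nat_lit 532) (nat_lit 3820068571) (nat_lit 76) (nat_lit 280287779) (nat_lit 114) (nat_lit 5) (nat_lit 121) (nat_lit 5) (nat_lit 115) (nat_lit 5) (nat_lit 293) (nat_lit 257) (nat_lit 230)) (XT.lf (nat_lit 0) (nat_lit 379734470) (nat_lit 532) (nat_lit 5837680871) (nat_lit 608) (nat_lit 1973694438) (nat_lit 107) (nat_lit 5) (nat_lit 114) (nat_lit 5) (nat_lit 115) (nat_lit 5) (nat_lit 294) (nat_lit 257) (nat_lit 229)))) (XT.nd (nat_lit 78) (nat_lit 456) (nat_lit 0) (XT.lf (nat_lit 0) (nat_lit 194974044) (nat_lit 608) (nat_lit 3582645689) (nat_lit 76) (nat_lit 4527811992) (nat_lit 106) (nat_lit 5) (nat_lit 114) (nat_lit 5) (nat_lit 107) (nat_lit 5) (nat_lit 295) (nat_lit 257) (nat_lit 228)) (XT.nd (nat_lit 78) (nat_lit 0) (nat_lit 0) (XT.lf (nat_lit 0) (nat_lit 708605172) (nat_lit 456) (nat_lit 1632365369) (nat_lit 532) (nat_lit 6083239406) (nat_lit 100) (nat_lit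 5) (nat_lit 106) (nat_lit 5) (nat_lit 107) (nat_lit 5) (nat_lit 296) (nat_lit 257) (nat_lit 227)) (XT.lf (nat_lit 0) (nat_lit 4539557098) (nat_lit 532) (nat_lit 3409131208) (nat_lit 76) (nat_lit 598382906) (nat_lit 100) (nat_lit 5) (nat_lit 107) (nat_lit 5) (nat_lit 101) (nat_lit 5) (nat_lit 297) (nat_lit 257) (nat_lit 226))))))))
noncomputable def xc103 : XT := (XT.nd (nat_lit 1716) (nat_lit 2128) (nat_lit 0) (XT.nd (nat_lit 858) (nat_lit 1292) (nat_lit 0) (XT.nd (nat_lit 390) (nat_lit 1216) (nat_lit 0) (XT.nd (nat_lit 156) (nat_lit 760) (nat_lit 0) (XT.nd (nat_lit 78) (nat_lit 76) (nat_lit 0) (XT.lf (nat_lit 0) (nat_lit 971276898) (nat_lit 456) (nat_lit 5806017481) (nat_lit 532) (nat_lit 1897289309) (nat_lit 94) (nat_lit 5) (nat_lit 100) (nat_lit 5) (nat_lit 101) (nat_lit 5) (nat_lit 298) (nat_lit 257) (nat_lit 225)) (XT.lf (nat_lit 0) (nat_lit 253621961) (nat_lit 532) (nat_lit 3313572294)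 (nat_lit 76) (nat_lit 5239316431) (nat_lit 93) (nat_lit 5) (nat_lit 100) (nat_lit 5) (nat_lit 94) (nat_lit 5) (nat_lit 299) (nat_lit 257) (nat_lit 224))) (XT.nd (nat_lit 78) (nat_lit 380) (nat_lit 0) (XT.lf (nat_lit 0) (nat_lit 1154640822) (nat_lit 380) (nat_lit 1236903493) (nat_lit 456) (nat_lit 6551616597) (nat_lit 88) (nat_lit 5) (nat_lit 93) (nat_lit 5) (nat_lit 94) (nat_lit 5) (nat_lit 300) (nat_lit 257) (nat_lit 223)) (XT.nd (nat_lit 78) (nat_lit 380) (nat_lit 0) (XT.lf (nat_lit 0) (nat_lit 4588959153) (nat_lit 456) (nat_lit 3327560240) (nat_lit 76) (nat_lit 1167673802) (nat_lit 88) (nat_lit 5) (nat_lit 94) (nat_lit 5) (nat_lit 89) (nat_lit 5) (nat_lit 301) (nat_lit 257) (nat_lit 222)) (XT.lf (nat_lit 0) (nat_lit 1222561597) (nat_lit 380) (nat_lit 5605559266) (nat_lit 456) (nat_lit 2402199875) (nat_lit 83) (nat_lit 5) (nat_lit 88) (nat_lit 5) (nat_lit 89) (nat_lit 5) (nat_lit 302) (nat_lit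 257) (nat_lit 221))))) (XT.nd (nat_lit 234) (nat_lit 760) (nat_lit 0) (XT.nd (nat_lit 78) (nat_lit 456) (nat_lit 0) (XT.lf (nat_lit 0) (nat_lit 5921673726) (nat_lit 380) (nat_lit 3199078846) (nat_lit 456) (nat_lit 260625654) (nat_lit 83) (nat_lit 5) (nat_lit 88) (nat_lit 5) (nat_lit 89) (nat_lit 5) (nat_lit 303) (nat_lit 257) (nat_lit 220)) (XT.nd (nat_lit 78) (nat_lit 0) (nat_lit 0) (XT.lf (nat_lit 0) (nat_lit 1173844365) (nat_lit 380) (nat_lit 698165314) (nat_lit 456) (nat_lit 7665580885) (nat_lit 77) (nat_lit 5) (nat_lit 82) (nat_lit 5) (nat_lit 83) (nat_lit 5) (nat_lit 304) (nat_lit 257) (nat_lit 219)) (XT.lf (nat_lit 0) (nat_lit 4070950048) (nat_lit 456) (nat_lit 3757119951) (nat_lit 76) (nat_lit 1870238452) (nat_lit 77) (nat_lit 5) (nat_lit 83) (nat_lit 5) (nat_lit 78) (nat_lit 5) (nat_lit 305) (nat_lit 257) (nat_lit 218)))) (XT.nd (nat_lit 78) (nat_lit 380) (nat_lit 0) (XT.lf (nat_lit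 0) (nat_lit 944839160) (nat_lit 380) (nat_lit 5362579249) (nat_lit 456) (nat_lit 3557402595) (nat_lit 72) (nat_lit 5) (nat_lit 77) (nat_lit 5) (nat_lit 78) (nat_lit 5) (nat_lit 306) (nat_lit 257) (nat_lit 217)) (XT.nd (nat_lit 78) (nat_lit 380) (nat_lit 0) (XT.lf (nat_lit 0) (nat_lit 5811016951) (nat_lit 380) (nat_lit 2794244815) (nat_lit 456) (nat_lit 1431355172) (nat_lit 72) (nat_lit 5) (nat_lit 77) (nat_lit 5) (nat_lit 78) (nat_lit 5) (nat_lit 307) (nat_lit 257) (nat_lit 216)) (XT.lf (nat_lit 0) (nat_lit 559997381) (nat_lit 304) (nat_lit 146141278) (nat_lit 380) (nat_lit 9508445142) (nat_lit 67) (nat_lit 5) (nat_lit 71) (nat_lit 5) (nat_lit 72) (nat_lit 5) (nat_lit 308) (nat_lit 257) (nat_lit 215)))))) (XT.nd (nat_lit 390) (nat_lit 608) (nat_lit 0) (XT.nd (nat_lit 156) (nat_lit 684) (nat_lit 0) (XT.nd (nat_lit 78) (nat_lit 0) (nat_lit 0) (XT.lf (nat_lit 0) (nat_lit 2904619462) (nat_lit 380)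 (nat_lit 4914235415) (nat_lit 76) (nat_lit 2577947260) (nat_lit 67) (nat_lit 5) (nat_lit 72) (nat_lit 5) (nat_lit 68) (nat_lit 5) (nat_lit 309) (nat_lit 257) (nat_lit 214)) (XT.lf (nat_lit 0) (nat_lit 5129457141) (nat_lit 380) (nat_lit 85548806) (nat_lit 76) (nat_lit 5370772448) (nat_lit 67) (nat_lit 5) (nat_lit 72) (nat_lit 5) (nat_lit 68) (nat_lit 5) (nat_lit 310) (nat_lit 257) (nat_lit 213))) (XT.nd (nat_lit 78) (nat_lit 380) (nat_lit 0) (XT.lf (nat_lit 0) (nat_lit 4933365169) (nat_lit 304) (nat_lit 2495248287) (nat_lit 380) (nat_lit 3351683715) (nat_lit 63) (nat_lit 5) (nat_lit 67) (nat_lit 5) (nat_lit 68) (nat_lit 5) (nat_lit 311) (nat_lit 257) (nat_lit 212)) (XT.nd (nat_lit 78) (nat_lit 380) (nat_lit 0) (XT.lf (nat_lit 0) (nat_lit 9761278528) (nat_lit 380) (nat_lit 930543036) (nat_lit 76) (nat_lit 289991433) (nat_lit 63) (nat_lit 5) (nat_lit 68) (nat_lit 5) (nat_lit 64) (nat_lit 5) (nat_lit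 312) (nat_lit 257) (nat_lit 211)) (XT.lf (nat_lit 0) (nat_lit 982059046) (nat_lit 380) (nat_lit 7058965355) (nat_lit 76) (nat_lit 3147364966) (nat_lit 58) (nat_lit 5) (nat_lit 63) (nat_lit 5) (nat_lit 59) (nat_lit 5) (nat_lit 313) (nat_lit 257) (nat_lit 210))))) (XT.nd (nat_lit 234) (nat_lit 304) (nat_lit 0) (XT.nd (nat_lit 78) (nat_lit 304) (nat_lit 0) (XT.lf (nat_lit 0) (nat_lit 3197724642) (nat_lit 380) (nat_lit 2103212067) (nat_lit 76) (nat_lit 6100807243) (nat_lit 58) (nat_lit 5) (nat_lit 63) (nat_lit 5) (nat_lit 59) (nat_lit 5) (nat_lit 314) (nat_lit 257) (nat_lit 209)) (XT.nd (nat_lit 78) (nat_lit 0) (nat_lit 0) (XT.lf (nat_lit 0) (nat_lit 3011019462) (nat_lit 304) (nat_lit 2460926361) (nat_lit 380) (nat_lit 6149877420) (nat_lit 54) (nat_lit 5) (nat_lit 58) (nat_lit 5) (nat_lit 59) (nat_lit 5) (nat_lit 315) (nat_lit 257) (nat_lit 208)) (XT.lf (nat_lit 0) (nat_lit 7803937229) (nat_lit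 380) (nat_lit 3580273755) (nat_lit 76) (nat_lit 464691732) (nat_lit 54) (nat_lit 5) (nat_lit 59) (nat_lit 5) (nat_lit 55) (nat_lit 5) (nat_lit 316) (nat_lit 257) (nat_lit 207)))) (XT.nd (nat_lit 78) (nat_lit 76) (nat_lit 0) (XT.lf (nat_lit 0) (nat_lit 1559149189) (nat_lit 228) (nat_lit 8650783557) (nat_lit 304) (nat_lit 1872822158) (nat_lit 51) (nat_lit 5) (nat_lit 54) (nat_lit 5) (nat_lit 55) (nat_lit 5) (nat_lit 317) (nat_lit 257) (nat_lit 206)) (XT.nd (nat_lit 78) (nat_lit 0) (nat_lit 0) (XT.lf (nat_lit 0) (nat_lit 358725086) (nat_lit 304) (nat_lit 5448640057) (nat_lit 76) (nat_lit 6516188819) (nat_lit 50) (nat_lit 5) (nat_lit 54) (nat_lit 5) (nat_lit 51) (nat_lit 5) (nat_lit 318) (nat_lit 257) (nat_lit 205)) (XT.lf (nat_lit 0) (nat_lit 2585441283) (nat_lit 304) (nat_lit 286946201) (nat_lit 76) (nat_lit 9699732023) (nat_lit 50) (nat_lit 5) (nat_lit 54) (nat_lit 5) (nat_lit 51) (nat_lit 5)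 (nat_lit 319) (nat_lit 257) (nat_lit 204))))))) (XT.nd (nat_lit 858) (nat_lit 836) (nat_lit 0) (XT.nd (nat_lit 390) (nat_lit 456) (nat_lit 0) (XT.nd (nat_lit 156) (nat_lit 532) (nat_lit 0) (XT.nd (nat_lit 78) (nat_lit 0) (nat_lit 0) (XT.lf (nat_lit 0) (nat_lit 4896492221) (nat_lit 380) (nat_lit 7746374982) (nat_lit 76) (nat_lit 184821374) (nat_lit 46) (nat_lit 5) (nat_lit 51) (nat_lit 5) (nat_lit 47) (nat_lit 5) (nat_lit 320) (nat_lit 257) (nat_lit 203)) (XT.lf (nat_lit 0) (nat_lit 7275509588) (nat_lit 380) (nat_lit 2548893281) (nat_lit 76) (nat_lit 3266633244) (nat_lit 46) (nat_lit 5) (nat_lit 51) (nat_lit 5) (nat_lit 47) (nat_lit 5) (nat_lit 321) (nat_lit 257) (nat_lit 202))) (XT.nd (nat_lit 78) (nat_lit 304) (nat_lit 0) (XT.lf (nat_lit 0) (nat_lit 2814689421) (nat_lit 228) (nat_lit 6906487035) (nat_lit 304) (nat_lit 3641317641) (nat_lit 43) (nat_lit 5) (nat_lit 46) (nat_lit 5) (nat_lit 47)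 (nat_lit 5) (nat_lit 322) (nat_lit 257) (nat_lit 201)) (XT.nd (nat_lit 78) (nat_lit 304) (nat_lit 0) (XT.lf (nat_lit 0) (nat_lit 8347119948) (nat_lit 228) (nat_lit 3887554300) (nat_lit 304) (nat_lit 1407654144) (nat_lit 43) (nat_lit 5) (nat_lit 46) (nat_lit 5) (nat_lit 47) (nat_lit 5) (nat_lit 323) (nat_lit 257) (nat_lit 200)) (XT.lf (nat_lit 0) (nat_lit 63935954) (nat_lit 228) (nat_lit 781541103) (nat_lit 304) (nat_lit 13085789203) (nat_lit 39) (nat_lit 5) (nat_lit 42) (nat_lit 5) (nat_lit 43) (nat_lit 5) (nat_lit 324) (nat_lit 257) (nat_lit 199))))) (XT.nd (nat_lit 234) (nat_lit 228) (nat_lit 0) (XT.nd (nat_lit 78) (nat_lit 228) (nat_lit 0) (XT.lf (nat_lit 0) (nat_lit 3184773662) (nat_lit 304) (nat_lit 8616681355) (nat_lit 76) (nat_lit 2425653980) (nat_lit 39) (nat_lit 5) (nat_lit 43) (nat_lit 5) (nat_lit 40) (nat_lit 5) (nat_lit 325) (nat_lit 257) (nat_lit 198)) (XT.nd (nat_lit 78) (nat_lit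 228) (nat_lit 0) (XT.lf (nat_lit 0) (nat_lit 5572495277) (nat_lit 304) (nat_lit 3259074218) (nat_lit 76) (nat_lit 5700969131) (nat_lit 39) (nat_lit 5) (nat_lit 43) (nat_lit 5) (nat_lit 40) (nat_lit 5) (nat_lit 326) (nat_lit 257) (nat_lit 197)) (XT.lf (nat_lit 0) (nat_lit 2261821441) (nat_lit 228) (nat_lit 5763136181) (nat_lit 304) (nat_lit 6822437526) (nat_lit 36) (nat_lit 5) (nat_lit 39) (nat_lit 5) (nat_lit 40) (nat_lit 5) (nat_lit 327) (nat_lit 257) (nat_lit 196)))) (XT.nd (nat_lit 78) (nat_lit 228) (nat_lit 0) (XT.lf (nat_lit 0) (nat_lit 7973983432) (nat_lit 228) (nat_lit 2581725969) (nat_lit 304) (nat_lit 4615902106) (nat_lit 36) (nat_lit 5) (nat_lit 39) (nat_lit 5) (nat_lit 40) (nat_lit 5) (nat_lit 328) (nat_lit 257) (nat_lit 195)) (XT.nd (nat_lit 78) (nat_lit 228) (nat_lit 0) (XT.lf (nat_lit 0) (nat_lit 13141571144) (nat_lit 304) (nat_lit 1695449458) (nat_lit 76) (nat_lit 669212119)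 (nat_lit 36) (nat_lit 5) (nat_lit 40) (nat_lit 5) (nat_lit 37) (nat_lit 5) (nat_lit 329) (nat_lit 257) (nat_lit 194)) (XT.lf (nat_lit 0) (nat_lit 3984446492) (nat_lit 228) (nat_lit 11857731070) (nat_lit 304) (nat_lit 7652362) (nat_lit 33) (nat_lit 5) (nat_lit 36) (nat_lit 5) (nat_lit 37) (nat_lit 5) (nat_lit 330) (nat_lit 257) (nat_lit 193)))))) (XT.nd (nat_lit 468) (nat_lit 380) (nat_lit 0) (XT.nd (nat_lit 234) (nat_lit 228) (nat_lit 0) (XT.nd (nat_lit 78) (nat_lit 152) (nat_lit 0) (XT.lf (nat_lit 0) (nat_lit 2363530311) (nat_lit 304) (nat_lit 6396888244) (nat_lit 76) (nat_lit 7442947377) (nat_lit 32) (nat_lit 5) (nat_lit 36) (nat_lit 5) (nat_lit 33) (nat_lit 5) (nat_lit 331) (nat_lit 257) (nat_lit 192)) (XT.nd (nat_lit 78) (nat_lit 152) (nat_lit 0) (XT.lf (nat_lit 0) (nat_lit 4779866681) (nat_lit 304) (nat_lit 802985343) (nat_lit 76) (nat_lit 10985476531) (nat_lit 32) (nat_lit 5) (nat_lit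 36) (nat_lit 5) (nat_lit 33) (nat_lit 5) (nat_lit 332) (nat_lit 257) (nat_lit 191)) (XT.lf (nat_lit 0) (nat_lit 5019229961) (nat_lit 152) (nat_lit 2272635382) (nat_lit 228) (nat_lit 9651726118) (nat_lit 30) (nat_lit 5) (nat_lit 32) (nat_lit 5) (nat_lit 33) (nat_lit 5) (nat_lit 333) (nat_lit 257) (nat_lit 190)))) (XT.nd (nat_lit 78) (nat_lit 228) (nat_lit 0) (XT.lf (nat_lit 0) (nat_lit 9873520500) (nat_lit 228) (nat_lit 6346053679) (nat_lit 76) (nat_lit 1110754393) (nat_lit 30) (nat_lit 5) (nat_lit 33) (nat_lit 5) (nat_lit 31) (nat_lit 5) (nat_lit 334) (nat_lit 257) (nat_lit 189)) (XT.nd (nat_lit 78) (nat_lit 228) (nat_lit 0) (XT.lf (nat_lit 0) (nat_lit 12531028802) (nat_lit 228) (nat_lit 659546581) (nat_lit 76) (nat_lit 4538184206) (nat_lit 30) (nat_lit 5) (nat_lit 33) (nat_lit 5) (nat_lit 31) (nat_lit 5) (nat_lit 335) (nat_lit 257) (nat_lit 188)) (XT.lf (nat_lit 0) (nat_lit 5264707963) (nat_lit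 228) (nat_lit 10030766012) (nat_lit 304) (nat_lit 2842895832) (nat_lit 27) (nat_lit 5) (nat_lit 30) (nat_lit 5) (nat_lit 31) (nat_lit 5) (nat_lit 336) (nat_lit 257) (nat_lit 187))))) (XT.nd (nat_lit 234) (nat_lit 152) (nat_lit 0) (XT.nd (nat_lit 78) (nat_lit 228) (nat_lit 0) (XT.lf (nat_lit 0) (nat_lit 11344977856) (nat_lit 228) (nat_lit 6781481565) (nat_lit 304) (nat_lit 434342080) (nat_lit 27) (nat_lit 5) (nat_lit 30) (nat_lit 5) (nat_lit 31) (nat_lit 5) (nat_lit 337) (nat_lit 257) (nat_lit 186)) (XT.nd (nat_lit 78) (nat_lit 152) (nat_lit 0) (XT.lf (nat_lit 0) (nat_lit 1983891569) (nat_lit 304) (nat_lit 1442618005) (nat_lit 76) (nat_lit 15569524700) (nat_lit 26) (nat_lit 5) (nat_lit 30) (nat_lit 5) (nat_lit 27) (nat_lit 5) (nat_lit 338) (nat_lit 257) (nat_lit 185)) (XT.lf (nat_lit 0) (nat_lit 4488384886) (nat_lit 228) (nat_lit 14889546045) (nat_lit 76) (nat_lit 65628678) (nat_lit 24) (nat_lit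 5) (nat_lit 27) (nat_lit 5) (nat_lit 25) (nat_lit 5) (nat_lit 339) (nat_lit 257) (nat_lit 184)))) (XT.nd (nat_lit 78) (nat_lit 152) (nat_lit 0) (XT.lf (nat_lit 0) (nat_lit 7094874713) (nat_lit 228) (nat_lit 9211956690) (nat_lit 76) (nat_lit 3596910212) (nat_lit 24) (nat_lit 5) (nat_lit 27) (nat_lit 5) (nat_lit 25) (nat_lit 5) (nat_lit 340) (nat_lit 257) (nat_lit 183)) (XT.nd (nat_lit 78) (nat_lit 152) (nat_lit 0) (XT.lf (nat_lit 0) (nat_lit 9758417513) (nat_lit 228) (nat_lit 3396980703) (nat_lit 76) (nat_lit 7223000811) (nat_lit 24) (nat_lit 5) (nat_lit 27) (nat_lit 5) (nat_lit 25) (nat_lit 5) (nat_lit 341) (nat_lit 257) (nat_lit 182)) (XT.lf (nat_lit 0) (nat_lit 2611421196) (nat_lit 152) (nat_lit 9895022033) (nat_lit 228) (nat_lit 8360750285) (nat_lit 22) (nat_lit 5) (nat_lit 24) (nat_lit 5) (nat_lit 25) (nat_lit 5) (nat_lit 342) (nat_lit 257) (nat_lit 181))))))))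
noncomputable def xc104 : XT := (XT.nd (nat_lit 1716) (nat_lit 456) (nat_lit 0) (XT.nd (nat_lit 858) (nat_lit 380) (nat_lit 0) (XT.nd (nat_lit 390) (nat_lit 152) (nat_lit 0) (XT.nd (nat_lit 156) (nat_lit 228) (nat_lit 0) (XT.nd (nat_lit 78) (nat_lit 0) (nat_lit 0) (XT.lf (nat_lit 0) (nat_lit 8838041870) (nat_lit 152) (nat_lit 6512938177) (nat_lit 228) (nat_lit 6019283322) (nat_lit 22) (nat_lit 5) (nat_lit 24) (nat_lit 5) (nat_lit 25) (nat_lit 5) (nat_lit 343) (nat_lit 257) (nat_lit 180)) (XT.lf (nat_lit 0) (nat_lit 15220715480) (nat_lit 152) (nat_lit 3040494273) (nat_lit 228) (nat_lit 3627837527) (nat_lit 22) (nat_lit 5) (nat_lit 24) (nat_lit 5) (nat_lit 25) (nat_lit 5) (nat_lit 344) (nat_lit 257) (nat_lit 179))) (XT.nd (nat_lit 78) (nat_lit 228) (nat_lit 0) (XT.lf (nat_lit 0) (nat_lit 21244725192) (nat_lit 228) (nat_lit 664029363) (nat_lit 76) (nat_lit 515092502) (nat_lit 22) (nat_lit 5) (nat_lit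 25) (nat_lit 5) (nat_lit 23) (nat_lit 4) (nat_lit 345) (nat_lit 257) (nat_lit 178)) (XT.nd (nat_lit 78) (nat_lit 0) (nat_lit 0) (XT.lf (nat_lit 0) (nat_lit 1382486304) (nat_lit 228) (nat_lit 17416811557) (nat_lit 76) (nat_lit 4173066382) (nat_lit 19) (nat_lit 5) (nat_lit 22) (nat_lit 5) (nat_lit 20) (nat_lit 5) (nat_lit 346) (nat_lit 257) (nat_lit 177)) (XT.lf (nat_lit 0) (nat_lit 3985449820) (nat_lit 228) (nat_lit 11603118539) (nat_lit 76) (nat_lit 7948801185) (nat_lit 19) (nat_lit 5) (nat_lit 22) (nat_lit 5) (nat_lit 20) (nat_lit 5) (nat_lit 347) (nat_lit 257) (nat_lit 176))))) (XT.nd (nat_lit 234) (nat_lit 0) (nat_lit 0) (XT.nd (nat_lit 78) (nat_lit 152) (nat_lit 0) (XT.lf (nat_lit 0) (nat_lit 6648477481) (nat_lit 228) (nat_lit 5643729335) (nat_lit 76) (nat_lit 11827687107) (nat_lit 19) (nat_lit 5) (nat_lit 22) (nat_lit 5) (nat_lit 20) (nat_lit 5) (nat_lit 348) (nat_lit 257) (nat_lit 175))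 (XT.nd (nat_lit 78) (nat_lit 0) (nat_lit 0) (XT.lf (nat_lit 0) (nat_lit 475848813) (nat_lit 152) (nat_lit 8902621542) (nat_lit 228) (nat_lit 15341838802) (nat_lit 17) (nat_lit 5) (nat_lit 19) (nat_lit 5) (nat_lit 20) (nat_lit 5) (nat_lit 349) (nat_lit 257) (nat_lit 174)) (XT.lf (nat_lit 0) (nat_lit 6867100285) (nat_lit 152) (nat_lit 5362997911) (nat_lit 228) (nat_lit 13107473155) (nat_lit 17) (nat_lit 5) (nat_lit 19) (nat_lit 5) (nat_lit 20) (nat_lit 5) (nat_lit 350) (nat_lit 257) (nat_lit 173)))) (XT.nd (nat_lit 78) (nat_lit 0) (nat_lit 0) (XT.lf (nat_lit 0) (nat_lit 13423288389) (nat_lit 152) (nat_lit 1727233648) (nat_lit 228) (nat_lit 10823357744) (nat_lit 17) (nat_lit 5) (nat_lit 19) (nat_lit 5) (nat_lit 20) (nat_lit 5) (nat_lit 351) (nat_lit 257) (nat_lit 172)) (XT.nd (nat_lit 78) (nat_lit 0) (nat_lit 0) (XT.lf (nat_lit 0) (nat_lit 18161594370) (nat_lit 228) (nat_lit 6498949277) (nat_lit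 76) (nat_lit 1968667778) (nat_lit 17) (nat_lit 5) (nat_lit 20) (nat_lit 5) (nat_lit 18) (nat_lit 4) (nat_lit 352) (nat_lit 257) (nat_lit 171)) (XT.lf (nat_lit 0) (nat_lit 21264217999) (nat_lit 228) (nat_lit 308528647) (nat_lit 76) (nat_lit 5731444104) (nat_lit 17) (nat_lit 5) (nat_lit 20) (nat_lit 5) (nat_lit 18) (nat_lit 4) (nat_lit 353) (nat_lit 257) (nat_lit 170)))))) (XT.nd (nat_lit 390) (nat_lit 76) (nat_lit 0) (XT.nd (nat_lit 156) (nat_lit 228) (nat_lit 0) (XT.nd (nat_lit 78) (nat_lit 0) (nat_lit 0) (XT.lf (nat_lit 0) (nat_lit 6162944065) (nat_lit 76) (nat_lit 18340798649) (nat_lit 152) (nat_lit 3494385665) (nat_lit 16) (nat_lit 5) (nat_lit 17) (nat_lit 5) (nat_lit 18) (nat_lit 4) (nat_lit 354) (nat_lit 257) (nat_lit 169)) (XT.lf (nat_lit 0) (nat_lit 12810208053) (nat_lit 76) (nat_lit 15018152945) (nat_lit 152) (nat_lit 884908815) (nat_lit 16) (nat_lit 5) (nat_lit 17) (nat_lit 5) (nat_lit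 18) (nat_lit 4) (nat_lit 355) (nat_lit 257) (nat_lit 168))) (XT.nd (nat_lit 78) (nat_lit 152) (nat_lit 0) (XT.lf (nat_lit 0) (nat_lit 1752739437) (nat_lit 152) (nat_lit 9834583116) (nat_lit 76) (nat_lit 17862492610) (nat_lit 15) (nat_lit 5) (nat_lit 17) (nat_lit 5) (nat_lit 16) (nat_lit 5) (nat_lit 356) (nat_lit 257) (nat_lit 167)) (XT.nd (nat_lit 78) (nat_lit 152) (nat_lit 0) (XT.lf (nat_lit 0) (nat_lit 4437233520) (nat_lit 152) (nat_lit 3616381943) (nat_lit 76) (nat_lit 22155034467) (nat_lit 15) (nat_lit 5) (nat_lit 17) (nat_lit 5) (nat_lit 16) (nat_lit 5) (nat_lit 357) (nat_lit 257) (nat_lit 166)) (XT.lf (nat_lit 0) (nat_lit 2820519927) (nat_lit 152) (nat_lit 4394779502) (nat_lit 228) (nat_lit 23774579555) (nat_lit 13) (nat_lit 5) (nat_lit 15) (nat_lit 5) (nat_lit 16) (nat_lit 5) (nat_lit 358) (nat_lit 257) (nat_lit 165))))) (XT.nd (nat_lit 234) (nat_lit 76) (nat_lit 0) (XT.nd (nat_lit 78)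 (nat_lit 0) (nat_lit 0) (XT.lf (nat_lit 0) (nat_lit 9502001648) (nat_lit 152) (nat_lit 597340627) (nat_lit 228) (nat_lit 21694543348) (nat_lit 13) (nat_lit 5) (nat_lit 15) (nat_lit 5) (nat_lit 16) (nat_lit 5) (nat_lit 359) (nat_lit 257) (nat_lit 164)) (XT.nd (nat_lit 78) (nat_lit 0) (nat_lit 0) (XT.lf (nat_lit 0) (nat_lit 13088201868) (nat_lit 228) (nat_lit 16292282202) (nat_lit 76) (nat_lit 3240998716) (nat_lit 13) (nat_lit 5) (nat_lit 16) (nat_lit 5) (nat_lit 14) (nat_lit 4) (nat_lit 360) (nat_lit 257) (nat_lit 163)) (XT.lf (nat_lit 0) (nat_lit 16159475550) (nat_lit 228) (nat_lit 10140297083) (nat_lit 76) (nat_lit 7174371408) (nat_lit 13) (nat_lit 5) (nat_lit 16) (nat_lit 5) (nat_lit 14) (nat_lit 4) (nat_lit 361) (nat_lit 257) (nat_lit 162)))) (XT.nd (nat_lit 78) (nat_lit 76) (nat_lit 0) (XT.lf (nat_lit 0) (nat_lit 19310104954) (nat_lit 228) (nat_lit 3824811094) (nat_lit 76) (nat_lit 11217870644)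 (nat_lit 13) (nat_lit 5) (nat_lit 16) (nat_lit 5) (nat_lit 14) (nat_lit 4) (nat_lit 362) (nat_lit 257) (nat_lit 161)) (XT.nd (nat_lit 78) (nat_lit 0) (nat_lit 0) (XT.lf (nat_lit 0) (nat_lit 2712627277) (nat_lit 76) (nat_lit 19856291215) (nat_lit 152) (nat_lit 12688477734) (nat_lit 12) (nat_lit 5) (nat_lit 13) (nat_lit 5) (nat_lit 14) (nat_lit 4) (nat_lit 363) (nat_lit 257) (nat_lit 160)) (XT.lf (nat_lit 0) (nat_lit 9504348797) (nat_lit 76) (nat_lit 16447527405) (nat_lit 152) (nat_lit 10236493497) (nat_lit 12) (nat_lit 5) (nat_lit 13) (nat_lit 5) (nat_lit 14) (nat_lit 4) (nat_lit 364) (nat_lit 257) (nat_lit 159))))))) (XT.nd (nat_lit 858) (nat_lit 152) (nat_lit 0) (XT.nd (nat_lit 390) (nat_lit 76) (nat_lit 0) (XT.nd (nat_lit 156) (nat_lit 228) (nat_lit 0) (XT.nd (nat_lit 78) (nat_lit 0) (nat_lit 0) (XT.lf (nat_lit 0) (nat_lit 16480166740) (nat_lit 76) (nat_lit 12944269179) (nat_lit 152) (nat_lit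 7723209609) (nat_lit 12) (nat_lit 5) (nat_lit 13) (nat_lit 5) (nat_lit 14) (nat_lit 4) (nat_lit 365) (nat_lit 257) (nat_lit 158)) (XT.lf (nat_lit 0) (nat_lit 23646176479) (nat_lit 76) (nat_lit 9343455438) (nat_lit 152) (nat_lit 5146429998) (nat_lit 12) (nat_lit 5) (nat_lit 13) (nat_lit 5) (nat_lit 14) (nat_lit 4) (nat_lit 366) (nat_lit 257) (nat_lit 157))) (XT.nd (nat_lit 78) (nat_lit 228) (nat_lit 0) (XT.lf (nat_lit 0) (nat_lit 31008639578) (nat_lit 76) (nat_lit 5641939841) (nat_lit 152) (nat_lit 2503903108) (nat_lit 12) (nat_lit 5) (nat_lit 13) (nat_lit 5) (nat_lit 14) (nat_lit 4) (nat_lit 367) (nat_lit 257) (nat_lit 156)) (XT.nd (nat_lit 78) (nat_lit 152) (nat_lit 0) (XT.lf (nat_lit 0) (nat_lit 202646991) (nat_lit 152) (nat_lit 1631794724) (nat_lit 76) (nat_lit 38369295926) (nat_lit 11) (nat_lit 5) (nat_lit 13) (nat_lit 5) (nat_lit 12) (nat_lit 5) (nat_lit 368) (nat_lit 257) (nat_lit 155))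 (XT.lf (nat_lit 0) (nat_lit 2999483134) (nat_lit 228) (nat_lit 36167907667) (nat_lit 76) (nat_lit 2114567686) (nat_lit 9) (nat_lit 5) (nat_lit 12) (nat_lit 5) (nat_lit 10) (nat_lit 4) (nat_lit 369) (nat_lit 257) (nat_lit 154))))) (XT.nd (nat_lit 234) (nat_lit 76) (nat_lit 0) (XT.nd (nat_lit 78) (nat_lit 0) (nat_lit 0) (XT.lf (nat_lit 0) (nat_lit 5904423642) (nat_lit 228) (nat_lit 30332415340) (nat_lit 76) (nat_lit 6154974858) (nat_lit 9) (nat_lit 5) (nat_lit 12) (nat_lit 5) (nat_lit 10) (nat_lit 4) (nat_lit 370) (nat_lit 257) (nat_lit 153)) (XT.nd (nat_lit 78) (nat_lit 0) (nat_lit 0) (XT.lf (nat_lit 0) (nat_lit 8886216653) (nat_lit 228) (nat_lit 24339120095) (nat_lit 76) (nat_lit 10309950433) (nat_lit 9) (nat_lit 5) (nat_lit 12) (nat_lit 5) (nat_lit 10) (nat_lit 4) (nat_lit 371) (nat_lit 257) (nat_lit 152)) (XT.lf (nat_lit 0) (nat_lit 11947467618) (nat_lit 228) (nat_lit 18182785072) (nat_lit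 76) (nat_lit 14583124975) (nat_lit 9) (nat_lit 5) (nat_lit 12) (nat_lit 5) (nat_lit 10) (nat_lit 4) (nat_lit 372) (nat_lit 257) (nat_lit 151)))) (XT.nd (nat_lit 78) (nat_lit 76) (nat_lit 0) (XT.lf (nat_lit 0) (nat_lit 15090851415) (nat_lit 228) (nat_lit 11858030949) (nat_lit 76) (nat_lit 18978232323) (nat_lit 9) (nat_lit 5) (nat_lit 12) (nat_lit 5) (nat_lit 10) (nat_lit 4) (nat_lit 373) (nat_lit 257) (nat_lit 150)) (XT.nd (nat_lit 78) (nat_lit 76) (nat_lit 0) (XT.lf (nat_lit 0) (nat_lit 18319114691) (nat_lit 228) (nat_lit 5359331242) (nat_lit 76) (nat_lit 23499112864) (nat_lit 9) (nat_lit 5) (nat_lit 12) (nat_lit 5) (nat_lit 10) (nat_lit 4) (nat_lit 374) (nat_lit 257) (nat_lit 149)) (XT.lf (nat_lit 0) (nat_lit 1345243062) (nat_lit 76) (nat_lit 20302766495) (nat_lit 152) (nat_lit 26817405118) (nat_lit 8) (nat_lit 5) (nat_lit 9) (nat_lit 5) (nat_lit 10) (nat_lit 4) (nat_lit 375) (nat_lit 257)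 (nat_lit 148)))))) (XT.nd (nat_lit 390) (nat_lit 152) (nat_lit 0) (XT.nd (nat_lit 156) (nat_lit 0) (nat_lit 0) (XT.nd (nat_lit 78) (nat_lit 0) (nat_lit 0) (XT.lf (nat_lit 0) (nat_lit 8345629062) (nat_lit 76) (nat_lit 16776233790) (nat_lit 152) (nat_lit 24668702238) (nat_lit 8) (nat_lit 5) (nat_lit 9) (nat_lit 5) (nat_lit 10) (nat_lit 4) (nat_lit 376) (nat_lit 257) (nat_lit 147)) (XT.lf (nat_lit 0) (nat_lit 15541282401) (nat_lit 76) (nat_lit 13149885118) (nat_lit 152) (nat_lit 22464576696) (nat_lit 8) (nat_lit 5) (nat_lit 9) (nat_lit 5) (nat_lit 10) (nat_lit 4) (nat_lit 377) (nat_lit 257) (nat_lit 146))) (XT.nd (nat_lit 78) (nat_lit 0) (nat_lit 0) (XT.lf (nat_lit 0) (nat_lit 22938490541) (nat_lit 76) (nat_lit 9420551826) (nat_lit 152) (nat_lit 20203102557) (nat_lit 8) (nat_lit 5) (nat_lit 9) (nat_lit 5) (nat_lit 10) (nat_lit 4) (nat_lit 378) (nat_lit 257) (nat_lit 145)) (XT.nd (nat_lit 78) (nat_lit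 0) (nat_lit 0) (XT.lf (nat_lit 0) (nat_lit 30543717063) (nat_lit 76) (nat_lit 5584975272) (nat_lit 152) (nat_lit 17882303775) (nat_lit 8) (nat_lit 5) (nat_lit 9) (nat_lit 5) (nat_lit 10) (nat_lit 4) (nat_lit 379) (nat_lit 257) (nat_lit 144)) (XT.lf (nat_lit 0) (nat_lit 38363607311) (nat_lit 76) (nat_lit 1639803982) (nat_lit 152) (nat_lit 15500152469) (nat_lit 8) (nat_lit 5) (nat_lit 9) (nat_lit 5) (nat_lit 10) (nat_lit 4) (nat_lit 380) (nat_lit 257) (nat_lit 143))))) (XT.nd (nat_lit 234) (nat_lit 76) (nat_lit 0) (XT.nd (nat_lit 78) (nat_lit 76) (nat_lit 0) (XT.lf (nat_lit 0) (nat_lit 44009832147) (nat_lit 152) (nat_lit 10659405096) (nat_lit 0) (nat_lit 2371217404) (nat_lit 8) (nat_lit 5) (nat_lit 10) (nat_lit 4) (nat_lit 8) (nat_lit 4) (nat_lit 381) (nat_lit 257) (nat_lit 142)) (XT.nd (nat_lit 78) (nat_lit 76) (nat_lit 0) (XT.lf (nat_lit 0) (nat_lit 48145071623) (nat_lit 152) (nat_lit 4013578335)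 (nat_lit 0) (nat_lit 6464553242) (nat_lit 8) (nat_lit 5) (nat_lit 10) (nat_lit 4) (nat_lit 8) (nat_lit 4) (nat_lit 382) (nat_lit 257) (nat_lit 141)) (XT.lf (nat_lit 0) (nat_lit 2875199156) (nat_lit 76) (nat_lit 49549419256) (nat_lit 76) (nat_lit 7828217732) (nat_lit 7) (nat_lit 4) (nat_lit 8) (nat_lit 5) (nat_lit 8) (nat_lit 4) (nat_lit 383) (nat_lit 257) (nat_lit 140)))) (XT.nd (nat_lit 78) (nat_lit 76) (nat_lit 0) (XT.lf (nat_lit 0) (nat_lit 10040507667) (nat_lit 76) (nat_lit 46825281090) (nat_lit 76) (nat_lit 5064581368) (nat_lit 7) (nat_lit 4) (nat_lit 8) (nat_lit 5) (nat_lit 8) (nat_lit 4) (nat_lit 384) (nat_lit 257) (nat_lit 139)) (XT.nd (nat_lit 78) (nat_lit 76) (nat_lit 0) (XT.lf (nat_lit 0) (nat_lit 17408730069) (nat_lit 76) (nat_lit 44024384416) (nat_lit 76) (nat_lit 2225336930) (nat_lit 7) (nat_lit 4) (nat_lit 8) (nat_lit 5) (nat_lit 8) (nat_lit 4) (nat_lit 385) (nat_lit 257) (nat_lit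 138)) (XT.lf (nat_lit 0) (nat_lit 678493132) (nat_lit 152) (nat_lit 40458937266) (nat_lit 76) (nat_lit 24300960031) (nat_lit 6) (nat_lit 5) (nat_lit 8) (nat_lit 5) (nat_lit 7) (nat_lit 4) (nat_lit 386) (nat_lit 257) (nat_lit 137))))))))
noncomputable def xc105 : XT := (XT.nd (nat_lit 31980) (nat_lit 0) (nat_lit 7220) (XT.nd (nat_lit 31122) (nat_lit 0) (nat_lit 15504) (XT.nd (nat_lit 390) (nat_lit 76) (nat_lit 0) (XT.nd (nat_lit 156) (nat_lit 0) (nat_lit 0) (XT.nd (nat_lit 78) (nat_lit 0) (nat_lit 0) (XT.lf (nat_lit 0) (nat_lit 3617963411) (nat_lit 152) (nat_lit 34527959046) (nat_lit 76) (nat_lit 29125354736) (nat_lit 6) (nat_lit 5) (nat_lit 8) (nat_lit 5) (nat_lit 7) (nat_lit 4) (nat_lit 387) (nat_lit 257) (nat_lit 136)) (XT.lf (nat_lit 0) (nat_lit 6639066713) (nat_lit 152) (nat_lit 28430212980) (nat_lit 76) (nat_lit 34090075305) (nat_lit 6) (nat_lit 5) (nat_lit 8) (nat_lit 5) (nat_lit 7) (nat_lit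 4) (nat_lit 388) (nat_lit 257) (nat_lit 135))) (XT.nd (nat_lit 78) (nat_lit 0) (nat_lit 0) (XT.lf (nat_lit 0) (nat_lit 9744442838) (nat_lit 152) (nat_lit 22160370938) (nat_lit 76) (nat_lit 39199459842) (nat_lit 6) (nat_lit 5) (nat_lit 8) (nat_lit 5) (nat_lit 7) (nat_lit 4) (nat_lit 389) (nat_lit 257) (nat_lit 134)) (XT.nd (nat_lit 78) (nat_lit 0) (nat_lit 0) (XT.lf (nat_lit 0) (nat_lit 12936805222) (nat_lit 152) (nat_lit 15712954418) (nat_lit 76) (nat_lit 44457972859) (nat_lit 6) (nat_lit 5) (nat_lit 8) (nat_lit 5) (nat_lit 7) (nat_lit 4) (nat_lit 390) (nat_lit 257) (nat_lit 133)) (XT.lf (nat_lit 0) (nat_lit 16218943306) (nat_lit 152) (nat_lit 9082329756) (nat_lit 76) (nat_lit 49870209174) (nat_lit 6) (nat_lit 5) (nat_lit 8) (nat_lit 5) (nat_lit 7) (nat_lit 4) (nat_lit 391) (nat_lit 257) (nat_lit 132))))) (XT.nd (nat_lit 234) (nat_lit 0) (nat_lit 0) (XT.nd (nat_lit 78) (nat_lit 76) (nat_lit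 0) (XT.lf (nat_lit 0) (nat_lit 19593724979) (nat_lit 152) (nat_lit 2262703201) (nat_lit 76) (nat_lit 55440897923) (nat_lit 6) (nat_lit 5) (nat_lit 8) (nat_lit 5) (nat_lit 7) (nat_lit 4) (nat_lit 392) (nat_lit 257) (nat_lit 131)) (XT.nd (nat_lit 78) (nat_lit 0) (nat_lit 0) (XT.lf (nat_lit 0) (nat_lit 4846455953) (nat_lit 76) (nat_lit 18264230225) (nat_lit 152) (nat_lit 56375037846) (nat_lit 5) (nat_lit 5) (nat_lit 6) (nat_lit 5) (nat_lit 7) (nat_lit 4) (nat_lit 393) (nat_lit 257) (nat_lit 130)) (XT.lf (nat_lit 0) (nat_lit 12205739466) (nat_lit 76) (nat_lit 14544687540) (nat_lit 152) (nat_lit 54988835372) (nat_lit 5) (nat_lit 5) (nat_lit 6) (nat_lit 5) (nat_lit 7) (nat_lit 4) (nat_lit 394) (nat_lit 257) (nat_lit 129)))) (XT.nd (nat_lit 78) (nat_lit 0) (nat_lit 0) (XT.lf (nat_lit 0) (nat_lit 19776545547) (nat_lit 76) (nat_lit 10717398907) (nat_lit 152) (nat_lit 53566631324) (nat_lit 5) (nat_lit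 5) (nat_lit 6) (nat_lit 5) (nat_lit 7) (nat_lit 4) (nat_lit 395) (nat_lit 257) (nat_lit 128)) (XT.nd (nat_lit 30342) (nat_lit 0) (nat_lit 17936) (XT.lf (nat_lit 0) (nat_lit 27565489465) (nat_lit 76) (nat_lit 6779020093) (nat_lit 152) (nat_lit 52107183000) (nat_lit 5) (nat_lit 5) (nat_lit 6) (nat_lit 5) (nat_lit 7) (nat_lit 4) (nat_lit 396) (nat_lit 257) (nat_lit 127)) (XT.lf (nat_lit 0) (nat_lit 2424356400) (nat_lit 76) (nat_lit 403013107) (nat_lit 76) (nat_lit 403013107) (nat_lit 241) (nat_lit 4) (nat_lit 242) (nat_lit 5) (nat_lit 242) (nat_lit 4) (nat_lit 264) (nat_lit 258) (nat_lit 258)))))) (XT.nd (nat_lit 390) (nat_lit 1596) (nat_lit 0) (XT.nd (nat_lit 156) (nat_lit 608) (nat_lit 0) (XT.nd (nat_lit 78) (nat_lit 0) (nat_lit 0) (XT.lf (nat_lit 0) (nat_lit 1341203599) (nat_lit 152) (nat_lit 539299259) (nat_lit 228) (nat_lit 4591178070) (nat_lit 238) (nat_lit 5) (nat_lit 240) (nat_lit 5) (nat_lit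 241) (nat_lit 4) (nat_lit 265) (nat_lit 258) (nat_lit 257)) (XT.lf (nat_lit 0) (nat_lit 4349967297) (nat_lit 152) (nat_lit 196968108) (nat_lit 228) (nat_lit 1938825544) (nat_lit 238) (nat_lit 5) (nat_lit 240) (nat_lit 5) (nat_lit 241) (nat_lit 4) (nat_lit 266) (nat_lit 258) (nat_lit 256))) (XT.nd (nat_lit 78) (nat_lit 304) (nat_lit 0) (XT.lf (nat_lit 0) (nat_lit 689074505) (nat_lit 304) (nat_lit 5605434853) (nat_lit 76) (nat_lit 208692127) (nat_lit 234) (nat_lit 5) (nat_lit 238) (nat_lit 5) (nat_lit 235) (nat_lit 4) (nat_lit 267) (nat_lit 258) (nat_lit 255)) (XT.nd (nat_lit 78) (nat_lit 304) (nat_lit 0) (XT.lf (nat_lit 0) (nat_lit 3284034058) (nat_lit 304) (nat_lit 2537753874) (nat_lit 76) (nat_lit 701481240) (nat_lit 234) (nat_lit 5) (nat_lit 238) (nat_lit 5) (nat_lit 235) (nat_lit 4) (nat_lit 268) (nat_lit 258) (nat_lit 254)) (XT.lf (nat_lit 0) (nat_lit 572952414) (nat_lit 304) (nat_lit 5295669329)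 (nat_lit 380) (nat_lit 678444887) (nat_lit 230) (nat_lit 5) (nat_lit 234) (nat_lit 5) (nat_lit 235) (nat_lit 4) (nat_lit 269) (nat_lit 258) (nat_lit 253))))) (XT.nd (nat_lit 234) (nat_lit 1064) (nat_lit 0) (XT.nd (nat_lit 78) (nat_lit 456) (nat_lit 0) (XT.lf (nat_lit 0) (nat_lit 1853882886) (nat_lit 380) (nat_lit 2822792859) (nat_lit 76) (nat_lit 1896802457) (nat_lit 229) (nat_lit 5) (nat_lit 234) (nat_lit 5) (nat_lit 230) (nat_lit 5) (nat_lit 270) (nat_lit 258) (nat_lit 252)) (XT.nd (nat_lit 78) (nat_lit 76) (nat_lit 0) (XT.lf (nat_lit 0) (nat_lit 363345372) (nat_lit 380) (nat_lit 3998462836) (nat_lit 456) (nat_lit 2241714775) (nat_lit 224) (nat_lit 5) (nat_lit 229) (nat_lit 5) (nat_lit 230) (nat_lit 5) (nat_lit 271) (nat_lit 258) (nat_lit 251)) (XT.lf (nat_lit 0) (nat_lit 243765039) (nat_lit 456) (nat_lit 2995650733) (nat_lit 76) (nat_lit 3397199155) (nat_lit 223) (nat_lit 5) (nat_lit 229)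 (nat_lit 5) (nat_lit 224) (nat_lit 5) (nat_lit 272) (nat_lit 258) (nat_lit 250)))) (XT.nd (nat_lit 78) (nat_lit 608) (nat_lit 0) (XT.lf (nat_lit 0) (nat_lit 269368204) (nat_lit 456) (nat_lit 2405114880) (nat_lit 532) (nat_lit 3998481717) (nat_lit 217) (nat_lit 5) (nat_lit 223) (nat_lit 5) (nat_lit 224) (nat_lit 5) (nat_lit 273) (nat_lit 258) (nat_lit 249)) (XT.nd (nat_lit 78) (nat_lit 608) (nat_lit 0) (XT.lf (nat_lit 0) (nat_lit 3634428020) (nat_lit 456) (nat_lit 1489045285) (nat_lit 532) (nat_lit 1588962542) (nat_lit 217) (nat_lit 5) (nat_lit 223) (nat_lit 5) (nat_lit 224) (nat_lit 5) (nat_lit 274) (nat_lit 258) (nat_lit 248)) (XT.lf (nat_lit 0) (nat_lit 284698818) (nat_lit 532) (nat_lit 509842265) (nat_lit 608) (nat_lit 5961087561) (nat_lit 209) (nat_lit 5) (nat_lit 216) (nat_lit 5) (nat_lit 217) (nat_lit 5) (nat_lit 275) (nat_lit 258) (nat_lit 247))))))) (XT.nd (nat_lit 858) (nat_lit 4256)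 (nat_lit 0) (XT.nd (nat_lit 390) (nat_lit 2660) (nat_lit 0) (XT.nd (nat_lit 156) (nat_lit 760) (nat_lit 0) (XT.nd (nat_lit 78) (nat_lit 608) (nat_lit 0) (XT.lf (nat_lit 0) (nat_lit 3172267914) (nat_lit 608) (nat_lit 3070703088) (nat_lit 76) (nat_lit 558392610) (nat_lit 209) (nat_lit 5) (nat_lit 217) (nat_lit 5) (nat_lit 210) (nat_lit 5) (nat_lit 276) (nat_lit 258) (nat_lit 246)) (XT.lf (nat_lit 0) (nat_lit 373511926) (nat_lit 608) (nat_lit 5177298548) (nat_lit 684) (nat_lit 1300123211) (nat_lit 201) (nat_lit 5) (nat_lit 209) (nat_lit 5) (nat_lit 210) (nat_lit 5) (nat_lit 277) (nat_lit 258) (nat_lit 245))) (XT.nd (nat_lit 78) (nat_lit 684) (nat_lit 0) (XT.lf (nat_lit 0) (nat_lit 1030073621) (nat_lit 684) (nat_lit 2989488075) (nat_lit 76) (nat_lit 2883856082) (nat_lit 200) (nat_lit 5) (nat_lit 209) (nat_lit 5) (nat_lit 201) (nat_lit 5) (nat_lit 278) (nat_lit 258) (nat_lit 244)) (XT.nd (nat_lit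 78) (nat_lit 0) (nat_lit 0) (XT.lf (nat_lit 0) (nat_lit 541002297) (nat_lit 684) (nat_lit 2792010339) (nat_lit 760) (nat_lit 3626526635) (nat_lit 191) (nat_lit 5) (nat_lit 200) (nat_lit 5) (nat_lit 201) (nat_lit 5) (nat_lit 279) (nat_lit 258) (nat_lit 243)) (XT.lf (nat_lit 0) (nat_lit 4179509177) (nat_lit 684) (nat_lit 1481137141) (nat_lit 760) (nat_lit 1358338710) (nat_lit 191) (nat_lit 5) (nat_lit 200) (nat_lit 5) (nat_lit 201) (nat_lit 5) (nat_lit 280) (nat_lit 258) (nat_lit 242))))) (XT.nd (nat_lit 234) (nat_lit 988) (nat_lit 0) (XT.nd (nat_lit 78) (nat_lit 836) (nat_lit 0) (XT.lf (nat_lit 0) (nat_lit 793839260) (nat_lit 760) (nat_lit 99184124) (nat_lit 836) (nat_lit 6189173531) (nat_lit 180) (nat_lit 5) (nat_lit 190) (nat_lit 5) (nat_lit 191) (nat_lit 5) (nat_lit 281) (nat_lit 258) (nat_lit 241)) (XT.nd (nat_lit 78) (nat_lit 836) (nat_lit 0) (XT.lf (nat_lit 0) (nat_lit 3154593243) (nat_lit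 836) (nat_lit 2639739670) (nat_lit 76) (nat_lit 1353752341) (nat_lit 180) (nat_lit 5) (nat_lit 191) (nat_lit 5) (nat_lit 181) (nat_lit 5) (nat_lit 282) (nat_lit 258) (nat_lit 240)) (XT.lf (nat_lit 0) (nat_lit 1078999388) (nat_lit 836) (nat_lit 4346735559) (nat_lit 912) (nat_lit 1792237930) (nat_lit 169) (nat_lit 5) (nat_lit 180) (nat_lit 5) (nat_lit 181) (nat_lit 5) (nat_lit 283) (nat_lit 258) (nat_lit 239)))) (XT.nd (nat_lit 78) (nat_lit 912) (nat_lit 0) (XT.lf (nat_lit 0) (nat_lit 423601046) (nat_lit 912) (nat_lit 2391037239) (nat_lit 76) (nat_lit 4476705955) (nat_lit 168) (nat_lit 5) (nat_lit 180) (nat_lit 5) (nat_lit 169) (nat_lit 5) (nat_lit 284) (nat_lit 258) (nat_lit 238)) (XT.nd (nat_lit 78) (nat_lit 0) (nat_lit 0) (XT.lf (nat_lit 0) (nat_lit 1420612405) (nat_lit 912) (nat_lit 1195846247) (nat_lit 988) (nat_lit 4751779869) (nat_lit 156) (nat_lit 5) (nat_lit 168) (nat_lit 5) (nat_lit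 169) (nat_lit 5) (nat_lit 285) (nat_lit 258) (nat_lit 237)) (XT.lf (nat_lit 0) (nat_lit 4838396243) (nat_lit 988) (nat_lit 2116274234) (nat_lit 76) (nat_lit 494114102) (nat_lit 156) (nat_lit 5) (nat_lit 169) (nat_lit 5) (nat_lit 157) (nat_lit 5) (nat_lit 286) (nat_lit 258) (nat_lit 236)))))) (XT.nd (nat_lit 390) (nat_lit 1520) (nat_lit 0) (XT.nd (nat_lit 156) (nat_lit 1672) (nat_lit 0) (XT.nd (nat_lit 78) (nat_lit 76) (nat_lit 0) (XT.lf (nat_lit 0) (nat_lit 1794542824) (nat_lit 988) (nat_lit 5297828739) (nat_lit 1064) (nat_lit 440650749) (nat_lit 143) (nat_lit 5) (nat_lit 156) (nat_lit 5) (nat_lit 157) (nat_lit 5) (nat_lit 287) (nat_lit 258) (nat_lit 235)) (XT.lf (nat_lit 0) (nat_lit 1717493285) (nat_lit 1064) (nat_lit 1830098764) (nat_lit 76) (nat_lit 4073151061) (nat_lit 142) (nat_lit 5) (nat_lit 156) (nat_lit 5) (nat_lit 143) (nat_lit 5) (nat_lit 288) (nat_lit 258) (nat_lit 234))) (XT.nd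 (nat_lit 78) (nat_lit 608) (nat_lit 0) (XT.lf (nat_lit 0) (nat_lit 2175802713) (nat_lit 1064) (nat_lit 1715223264) (nat_lit 1140) (nat_lit 3821370235) (nat_lit 128) (nat_lit 5) (nat_lit 142) (nat_lit 5) (nat_lit 143) (nat_lit 5) (nat_lit 289) (nat_lit 258) (nat_lit 233)) (XT.nd (nat_lit 78) (nat_lit 608) (nat_lit 0) (XT.lf (nat_lit 0) (nat_lit 6089934756) (nat_lit 1140) (nat_lit 1527987715) (nat_lit 76) (nat_lit 190281620) (nat_lit 128) (nat_lit 5) (nat_lit 143) (nat_lit 5) (nat_lit 129) (nat_lit 5) (nat_lit 290) (nat_lit 258) (nat_lit 232)) (XT.lf (nat_lit 0) (nat_lit 422173333) (nat_lit 608) (nat_lit 5335131130) (nat_lit 76) (nat_lit 2150161104) (nat_lit 120) (nat_lit 5) (nat_lit 128) (nat_lit 5) (nat_lit 121) (nat_lit 5) (nat_lit 291) (nat_lit 258) (nat_lit 231))))) (XT.nd (nat_lit 234) (nat_lit 1064) (nat_lit 0) (XT.nd (nat_lit 78) (nat_lit 456) (nat_lit 0) (XT.lf (nat_lit 0) (nat_lit 2549872047)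 (nat_lit 608) (nat_lit 1257776180) (nat_lit 76) (nat_lit 4203011376) (nat_lit 120) (nat_lit 5) (nat_lit 128) (nat_lit 5) (nat_lit 121) (nat_lit 5) (nat_lit 292) (nat_lit 258) (nat_lit 230)) (XT.nd (nat_lit 78) (nat_lit 0) (nat_lit 0) (XT.lf (nat_lit 0) (nat_lit 2942663763) (nat_lit 456) (nat_lit 1770709916) (nat_lit 532) (nat_lit 3404603461) (nat_lit 114) (nat_lit 5) (nat_lit 120) (nat_lit 5) (nat_lit 121) (nat_lit 5) (nat_lit 293) (nat_lit 258) (nat_lit 229)) (XT.lf (nat_lit 0) (nat_lit 6902531425) (nat_lit 532) (nat_lit 994436823) (nat_lit 76) (nat_lit 332904818) (nat_lit 114) (nat_lit 5) (nat_lit 121) (nat_lit 5) (nat_lit 115) (nat_lit 5) (nat_lit 294) (nat_lit 258) (nat_lit 228)))) (XT.nd (nat_lit 78) (nat_lit 456) (nat_lit 0) (XT.lf (nat_lit 0) (nat_lit 791836594) (nat_lit 608) (nat_lit 5050660681) (nat_lit 76) (nat_lit 2502701897) (nat_lit 106) (nat_lit 5) (nat_lit 114) (nat_lit 5) (nat_lit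 107) (nat_lit 5) (nat_lit 295) (nat_lit 258) (nat_lit 227)) (XT.nd (nat_lit 78) (nat_lit 456) (nat_lit 0) (XT.lf (nat_lit 0) (nat_lit 2904777209) (nat_lit 608) (nat_lit 801276167) (nat_lit 76) (nat_lit 4758997468) (nat_lit 106) (nat_lit 5) (nat_lit 114) (nat_lit 5) (nat_lit 107) (nat_lit 5) (nat_lit 296) (nat_lit 258) (nat_lit 226)) (XT.lf (nat_lit 0) (nat_lit 3590390172) (nat_lit 456) (nat_lit 1473504623) (nat_lit 532) (nat_lit 3525280776) (nat_lit 100) (nat_lit 5) (nat_lit 106) (nat_lit 5) (nat_lit 107) (nat_lit 5) (nat_lit 297) (nat_lit 258) (nat_lit 225))))))))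
noncomputable def xc106 : XT := (XT.nd (nat_lit 1716) (nat_lit 1976) (nat_lit 0) (XT.nd (nat_lit 858) (nat_lit 1596) (nat_lit 0) (XT.nd (nat_lit 390) (nat_lit 1292) (nat_lit 0) (XT.nd (nat_lit 156) (nat_lit 380) (nat_lit 0) (XT.nd (nat_lit 78) (nat_lit 532) (nat_lit 0) (XT.lf (nat_lit 0) (nat_lit 7253115600) (nat_lit 532) (nat_lit 650929695) (nat_lit 76) (nat_lit 814175326) (nat_lit 100) (nat_lit 5) (nat_lit 107) (nat_lit 5) (nat_lit 101) (nat_lit 5) (nat_lit 298) (nat_lit 258) (nat_lit 224)) (XT.lf (nat_lit 0) (nat_lit 646060079) (nat_lit 532) (nat_lit 5024712187) (nat_lit 76) (nat_lit 3180262757) (nat_lit 93) (nat_lit 5) (nat_lit 100) (nat_lit 5) (nat_lit 94) (nat_lit 5) (nat_lit 299) (nat_lit 258) (nat_lit 223))) (XT.nd (nat_lit 78) (nat_lit 380) (nat_lit 0) (XT.lf (nat_lit 0) (nat_lit 2748739777) (nat_lit 532) (nat_lit 606271924) (nat_lit 76) (nat_lit 5633801367) (nat_lit 93) (nat_lit 5)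 (nat_lit 100) (nat_lit 5) (nat_lit 94) (nat_lit 5) (nat_lit 300) (nat_lit 258) (nat_lit 222)) (XT.nd (nat_lit 78) (nat_lit 0) (nat_lit 0) (XT.lf (nat_lit 0) (nat_lit 3968470845) (nat_lit 380) (nat_lit 936592516) (nat_lit 456) (nat_lit 4226083213) (nat_lit 88) (nat_lit 5) (nat_lit 93) (nat_lit 5) (nat_lit 94) (nat_lit 5) (nat_lit 301) (nat_lit 258) (nat_lit 221)) (XT.lf (nat_lit 0) (nat_lit 7100430049) (nat_lit 456) (nat_lit 654322489) (nat_lit 76) (nat_lit 1523901918) (nat_lit 88) (nat_lit 5) (nat_lit 94) (nat_lit 5) (nat_lit 89) (nat_lit 5) (nat_lit 302) (nat_lit 258) (nat_lit 220))))) (XT.nd (nat_lit 234) (nat_lit 456) (nat_lit 0) (XT.nd (nat_lit 78) (nat_lit 456) (nat_lit 0) (XT.lf (nat_lit 0) (nat_lit 4005116095) (nat_lit 380) (nat_lit 5358905703) (nat_lit 456) (nat_lit 66625900) (nat_lit 83) (nat_lit 5) (nat_lit 88) (nat_lit 5) (nat_lit 89) (nat_lit 5) (nat_lit 303) (nat_lit 258) (nat_lit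 219)) (XT.nd (nat_lit 78) (nat_lit 380) (nat_lit 0) (XT.lf (nat_lit 0) (nat_lit 2028695100) (nat_lit 456) (nat_lit 843132073) (nat_lit 76) (nat_lit 6716043626) (nat_lit 82) (nat_lit 5) (nat_lit 88) (nat_lit 5) (nat_lit 83) (nat_lit 5) (nat_lit 304) (nat_lit 258) (nat_lit 218)) (XT.lf (nat_lit 0) (nat_lit 3900197874) (nat_lit 380) (nat_lit 278987765) (nat_lit 456) (nat_lit 5570915618) (nat_lit 77) (nat_lit 5) (nat_lit 82) (nat_lit 5) (nat_lit 83) (nat_lit 5) (nat_lit 305) (nat_lit 258) (nat_lit 217)))) (XT.nd (nat_lit 78) (nat_lit 456) (nat_lit 0) (XT.lf (nat_lit 0) (nat_lit 6382638158) (nat_lit 456) (nat_lit 1189712700) (nat_lit 76) (nat_lit 2345310783) (nat_lit 77) (nat_lit 5) (nat_lit 83) (nat_lit 5) (nat_lit 78) (nat_lit 5) (nat_lit 306) (nat_lit 258) (nat_lit 216)) (XT.nd (nat_lit 78) (nat_lit 76) (nat_lit 0) (XT.lf (nat_lit 0) (nat_lit 3627029490) (nat_lit 380) (nat_lit 5020907882) (nat_lit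 456) (nat_lit 1442552210) (nat_lit 72) (nat_lit 5) (nat_lit 77) (nat_lit 5) (nat_lit 78) (nat_lit 5) (nat_lit 307) (nat_lit 258) (nat_lit 215)) (XT.lf (nat_lit 0) (nat_lit 669251230) (nat_lit 456) (nat_lit 1714151401) (nat_lit 76) (nat_lit 7885886798) (nat_lit 71) (nat_lit 5) (nat_lit 77) (nat_lit 5) (nat_lit 72) (nat_lit 5) (nat_lit 308) (nat_lit 258) (nat_lit 214)))))) (XT.nd (nat_lit 390) (nat_lit 608) (nat_lit 0) (XT.nd (nat_lit 156) (nat_lit 684) (nat_lit 0) (XT.nd (nat_lit 78) (nat_lit 0) (nat_lit 0) (XT.lf (nat_lit 0) (nat_lit 2809035350) (nat_lit 380) (nat_lit 7281863241) (nat_lit 76) (nat_lit 362421033) (nat_lit 67) (nat_lit 5) (nat_lit 72) (nat_lit 5) (nat_lit 68) (nat_lit 5) (nat_lit 309) (nat_lit 258) (nat_lit 213)) (XT.lf (nat_lit 0) (nat_lit 5014242971) (nat_lit 380) (nat_lit 2478250994) (nat_lit 76) (nat_lit 3150440295) (nat_lit 67) (nat_lit 5) (nat_lit 72) (nat_lit 5) (nat_lit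 68) (nat_lit 5) (nat_lit 310) (nat_lit 258) (nat_lit 212))) (XT.nd (nat_lit 78) (nat_lit 380) (nat_lit 0) (XT.lf (nat_lit 0) (nat_lit 2468214982) (nat_lit 304) (nat_lit 4802429463) (nat_lit 380) (nat_lit 3568139269) (nat_lit 63) (nat_lit 5) (nat_lit 67) (nat_lit 5) (nat_lit 68) (nat_lit 5) (nat_lit 311) (nat_lit 258) (nat_lit 211)) (XT.nd (nat_lit 78) (nat_lit 380) (nat_lit 0) (XT.lf (nat_lit 0) (nat_lit 7564942746) (nat_lit 304) (nat_lit 2016788789) (nat_lit 380) (nat_lit 1459261979) (nat_lit 63) (nat_lit 5) (nat_lit 67) (nat_lit 5) (nat_lit 68) (nat_lit 5) (nat_lit 312) (nat_lit 258) (nat_lit 210)) (XT.lf (nat_lit 0) (nat_lit 684698893) (nat_lit 380) (nat_lit 9717971184) (nat_lit 76) (nat_lit 846911341) (nat_lit 58) (nat_lit 5) (nat_lit 63) (nat_lit 5) (nat_lit 59) (nat_lit 5) (nat_lit 313) (nat_lit 258) (nat_lit 209))))) (XT.nd (nat_lit 234) (nat_lit 304) (nat_lit 0) (XT.nd (nat_lit 78)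 (nat_lit 304) (nat_lit 0) (XT.lf (nat_lit 0) (nat_lit 2882207768) (nat_lit 380) (nat_lit 4786331291) (nat_lit 76) (nat_lit 3794984324) (nat_lit 58) (nat_lit 5) (nat_lit 63) (nat_lit 5) (nat_lit 59) (nat_lit 5) (nat_lit 314) (nat_lit 258) (nat_lit 208)) (XT.nd (nat_lit 78) (nat_lit 0) (nat_lit 0) (XT.lf (nat_lit 0) (nat_lit 250623916) (nat_lit 304) (nat_lit 4861642538) (nat_lit 380) (nat_lit 6572702528) (nat_lit 54) (nat_lit 5) (nat_lit 58) (nat_lit 5) (nat_lit 59) (nat_lit 5) (nat_lit 315) (nat_lit 258) (nat_lit 207)) (XT.lf (nat_lit 0) (nat_lit 5489744349) (nat_lit 304) (nat_lit 1932620423) (nat_lit 380) (nat_lit 4490380704) (nat_lit 54) (nat_lit 5) (nat_lit 58) (nat_lit 5) (nat_lit 59) (nat_lit 5) (nat_lit 316) (nat_lit 258) (nat_lit 206)))) (XT.nd (nat_lit 78) (nat_lit 304) (nat_lit 0) (XT.lf (nat_lit 0) (nat_lit 9777908406) (nat_lit 380) (nat_lit 1318421104) (nat_lit 76) (nat_lit 1051820767)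 (nat_lit 54) (nat_lit 5) (nat_lit 59) (nat_lit 5) (nat_lit 55) (nat_lit 5) (nat_lit 317) (nat_lit 258) (nat_lit 205)) (XT.nd (nat_lit 78) (nat_lit 76) (nat_lit 0) (XT.lf (nat_lit 0) (nat_lit 3951956480) (nat_lit 228) (nat_lit 8276003479) (nat_lit 304) (nat_lit 162018988) (nat_lit 51) (nat_lit 5) (nat_lit 54) (nat_lit 5) (nat_lit 55) (nat_lit 5) (nat_lit 318) (nat_lit 258) (nat_lit 204)) (XT.lf (nat_lit 0) (nat_lit 2051532992) (nat_lit 304) (nat_lit 3297239014) (nat_lit 76) (nat_lit 7290344725) (nat_lit 50) (nat_lit 5) (nat_lit 54) (nat_lit 5) (nat_lit 51) (nat_lit 5) (nat_lit 319) (nat_lit 258) (nat_lit 203))))))) (XT.nd (nat_lit 858) (nat_lit 684) (nat_lit 0) (XT.nd (nat_lit 390) (nat_lit 684) (nat_lit 0) (XT.nd (nat_lit 156) (nat_lit 304) (nat_lit 0) (XT.nd (nat_lit 78) (nat_lit 0) (nat_lit 0) (XT.lf (nat_lit 0) (nat_lit 1990728832) (nat_lit 304) (nat_lit 2324466310) (nat_lit 380) (nat_lit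 8580947022) (nat_lit 46) (nat_lit 5) (nat_lit 50) (nat_lit 5) (nat_lit 51) (nat_lit 5) (nat_lit 320) (nat_lit 258) (nat_lit 202)) (XT.lf (nat_lit 0) (nat_lit 6656214358) (nat_lit 380) (nat_lit 5707630877) (nat_lit 76) (nat_lit 796818100) (nat_lit 46) (nat_lit 5) (nat_lit 51) (nat_lit 5) (nat_lit 47) (nat_lit 5) (nat_lit 321) (nat_lit 258) (nat_lit 201))) (XT.nd (nat_lit 78) (nat_lit 304) (nat_lit 0) (XT.lf (nat_lit 0) (nat_lit 9059626692) (nat_lit 380) (nat_lit 420374298) (nat_lit 76) (nat_lit 3953420674) (nat_lit 46) (nat_lit 5) (nat_lit 51) (nat_lit 5) (nat_lit 47) (nat_lit 5) (nat_lit 322) (nat_lit 258) (nat_lit 200)) (XT.nd (nat_lit 78) (nat_lit 76) (nat_lit 0) (XT.lf (nat_lit 0) (nat_lit 5082498377) (nat_lit 228) (nat_lit 6471545726) (nat_lit 304) (nat_lit 2159816024) (nat_lit 43) (nat_lit 5) (nat_lit 46) (nat_lit 5) (nat_lit 47) (nat_lit 5) (nat_lit 323) (nat_lit 258) (nat_lit 199)) (XT.lf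 (nat_lit 0) (nat_lit 92680586) (nat_lit 304) (nat_lit 3287131519) (nat_lit 76) (nat_lit 10623692090) (nat_lit 42) (nat_lit 5) (nat_lit 46) (nat_lit 5) (nat_lit 43) (nat_lit 5) (nat_lit 324) (nat_lit 258) (nat_lit 198))))) (XT.nd (nat_lit 234) (nat_lit 456) (nat_lit 0) (XT.nd (nat_lit 78) (nat_lit 0) (nat_lit 0) (XT.lf (nat_lit 0) (nat_lit 2197742238) (nat_lit 228) (nat_lit 163759038) (nat_lit 304) (nat_lit 11939988994) (nat_lit 39) (nat_lit 5) (nat_lit 42) (nat_lit 5) (nat_lit 43) (nat_lit 5) (nat_lit 325) (nat_lit 258) (nat_lit 197)) (XT.nd (nat_lit 78) (nat_lit 0) (nat_lit 0) (XT.lf (nat_lit 0) (nat_lit 4733543848) (nat_lit 304) (nat_lit 6765047519) (nat_lit 76) (nat_lit 3108827118) (nat_lit 39) (nat_lit 5) (nat_lit 43) (nat_lit 5) (nat_lit 40) (nat_lit 5) (nat_lit 326) (nat_lit 258) (nat_lit 196)) (XT.lf (nat_lit 0) (nat_lit 7150570113) (nat_lit 304) (nat_lit 1308172390) (nat_lit 76) (nat_lit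 6464622980) (nat_lit 39) (nat_lit 5) (nat_lit 43) (nat_lit 5) (nat_lit 40) (nat_lit 5) (nat_lit 327) (nat_lit 258) (nat_lit 195)))) (XT.nd (nat_lit 78) (nat_lit 228) (nat_lit 0) (XT.lf (nat_lit 0) (nat_lit 4358265100) (nat_lit 228) (nat_lit 5296747093) (nat_lit 304) (nat_lit 5593385535) (nat_lit 36) (nat_lit 5) (nat_lit 39) (nat_lit 5) (nat_lit 40) (nat_lit 5) (nat_lit 328) (nat_lit 258) (nat_lit 194)) (XT.nd (nat_lit 78) (nat_lit 228) (nat_lit 0) (XT.lf (nat_lit 0) (nat_lit 10182706833) (nat_lit 228) (nat_lit 2038514473) (nat_lit 304) (nat_lit 3362413036) (nat_lit 36) (nat_lit 5) (nat_lit 39) (nat_lit 5) (nat_lit 40) (nat_lit 5) (nat_lit 329) (nat_lit 258) (nat_lit 193)) (XT.lf (nat_lit 0) (nat_lit 205922050) (nat_lit 228) (nat_lit 14647222102) (nat_lit 304) (nat_lit 1076172968) (nat_lit 33) (nat_lit 5) (nat_lit 36) (nat_lit 5) (nat_lit 37) (nat_lit 5) (nat_lit 330) (nat_lit 258) (nat_lit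 192)))))) (XT.nd (nat_lit 390) (nat_lit 456) (nat_lit 0) (XT.nd (nat_lit 156) (nat_lit 152) (nat_lit 0) (XT.nd (nat_lit 78) (nat_lit 0) (nat_lit 0) (XT.lf (nat_lit 0) (nat_lit 1303137248) (nat_lit 304) (nat_lit 10263629287) (nat_lit 76) (nat_lit 4716800055) (nat_lit 32) (nat_lit 5) (nat_lit 36) (nat_lit 5) (nat_lit 33) (nat_lit 5) (nat_lit 331) (nat_lit 258) (nat_lit 191)) (XT.lf (nat_lit 0) (nat_lit 3707121053) (nat_lit 304) (nat_lit 4688173646) (nat_lit 76) (nat_lit 8253628032) (nat_lit 32) (nat_lit 5) (nat_lit 36) (nat_lit 5) (nat_lit 33) (nat_lit 5) (nat_lit 332) (nat_lit 258) (nat_lit 190))) (XT.nd (nat_lit 78) (nat_lit 0) (nat_lit 0) (XT.lf (nat_lit 0) (nat_lit 1038452387) (nat_lit 152) (nat_lit 5130408876) (nat_lit 228) (nat_lit 10856854401) (nat_lit 30) (nat_lit 5) (nat_lit 32) (nat_lit 5) (nat_lit 33) (nat_lit 5) (nat_lit 333) (nat_lit 258) (nat_lit 189)) (XT.nd (nat_lit 78) (nat_lit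 0) (nat_lit 0) (XT.lf (nat_lit 0) (nat_lit 6996979387) (nat_lit 152) (nat_lit 1730833332) (nat_lit 228) (nat_lit 8685342791) (nat_lit 30) (nat_lit 5) (nat_lit 32) (nat_lit 5) (nat_lit 33) (nat_lit 5) (nat_lit 334) (nat_lit 258) (nat_lit 188)) (XT.lf (nat_lit 0) (nat_lit 11357158084) (nat_lit 228) (nat_lit 4730558872) (nat_lit 76) (nat_lit 1724735454) (nat_lit 30) (nat_lit 5) (nat_lit 33) (nat_lit 5) (nat_lit 31) (nat_lit 5) (nat_lit 335) (nat_lit 258) (nat_lit 187))))) (XT.nd (nat_lit 234) (nat_lit 152) (nat_lit 0) (XT.nd (nat_lit 78) (nat_lit 76) (nat_lit 0) (XT.lf (nat_lit 0) (nat_lit 1095318710) (nat_lit 228) (nat_lit 12975016402) (nat_lit 304) (nat_lit 4153285944) (nat_lit 27) (nat_lit 5) (nat_lit 30) (nat_lit 5) (nat_lit 31) (nat_lit 5) (nat_lit 336) (nat_lit 258) (nat_lit 186)) (XT.nd (nat_lit 78) (nat_lit 76) (nat_lit 0) (XT.lf (nat_lit 0) (nat_lit 7158738277) (nat_lit 228) (nat_lit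 9731556784) (nat_lit 304) (nat_lit 1756108242) (nat_lit 27) (nat_lit 5) (nat_lit 30) (nat_lit 5) (nat_lit 31) (nat_lit 5) (nat_lit 337) (nat_lit 258) (nat_lit 185)) (XT.lf (nat_lit 0) (nat_lit 677088638) (nat_lit 304) (nat_lit 5718347476) (nat_lit 76) (nat_lit 12686924659) (nat_lit 26) (nat_lit 5) (nat_lit 30) (nat_lit 5) (nat_lit 27) (nat_lit 5) (nat_lit 338) (nat_lit 258) (nat_lit 184)))) (XT.nd (nat_lit 78) (nat_lit 0) (nat_lit 0) (XT.lf (nat_lit 0) (nat_lit 177420382) (nat_lit 152) (nat_lit 2950927519) (nat_lit 228) (nat_lit 16403153339) (nat_lit 24) (nat_lit 5) (nat_lit 26) (nat_lit 5) (nat_lit 27) (nat_lit 5) (nat_lit 339) (nat_lit 258) (nat_lit 183)) (XT.nd (nat_lit 78) (nat_lit 0) (nat_lit 0) (XT.lf (nat_lit 0) (nat_lit 5696056967) (nat_lit 228) (nat_lit 13664352501) (nat_lit 76) (nat_lit 632454785) (nat_lit 24) (nat_lit 5) (nat_lit 27) (nat_lit 5) (nat_lit 25) (nat_lit 5) (nat_lit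 340) (nat_lit 258) (nat_lit 182)) (XT.lf (nat_lit 0) (nat_lit 8349488463) (nat_lit 228) (nat_lit 7865130997) (nat_lit 76) (nat_lit 4253222613) (nat_lit 24) (nat_lit 5) (nat_lit 27) (nat_lit 5) (nat_lit 25) (nat_lit 5) (nat_lit 341) (nat_lit 258) (nat_lit 181))))))))
noncomputable def xc107 : XT := (XT.nd (nat_lit 1716) (nat_lit 456) (nat_lit 0) (XT.nd (nat_lit 858) (nat_lit 304) (nat_lit 0) (XT.nd (nat_lit 390) (nat_lit 228) (nat_lit 0) (XT.nd (nat_lit 156) (nat_lit 152) (nat_lit 0) (XT.nd (nat_lit 78) (nat_lit 152) (nat_lit 0) (XT.lf (nat_lit 0) (nat_lit 11062594803) (nat_lit 228) (nat_lit 1922982946) (nat_lit 76) (nat_lit 7972122965) (nat_lit 24) (nat_lit 5) (nat_lit 27) (nat_lit 5) (nat_lit 25) (nat_lit 5) (nat_lit 342) (nat_lit 258) (nat_lit 180)) (XT.lf (nat_lit 0) (nat_lit 4250220939) (nat_lit 152) (nat_lit 9628381447) (nat_lit 228) (nat_lit 7583040152) (nat_lit 22) (nat_lit 5) (nat_lit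 24) (nat_lit 5) (nat_lit 25) (nat_lit 5) (nat_lit 343) (nat_lit 258) (nat_lit 179))) (XT.nd (nat_lit 78) (nat_lit 152) (nat_lit 0) (XT.lf (nat_lit 0) (nat_lit 10618190027) (nat_lit 152) (nat_lit 6161247441) (nat_lit 228) (nat_lit 5201286441) (nat_lit 22) (nat_lit 5) (nat_lit 24) (nat_lit 5) (nat_lit 25) (nat_lit 5) (nat_lit 344) (nat_lit 258) (nat_lit 178)) (XT.nd (nat_lit 78) (nat_lit 152) (nat_lit 0) (XT.lf (nat_lit 0) (nat_lit 17148217431) (nat_lit 152) (nat_lit 2600564556) (nat_lit 228) (nat_lit 2767181993) (nat_lit 22) (nat_lit 5) (nat_lit 24) (nat_lit 5) (nat_lit 25) (nat_lit 5) (nat_lit 345) (nat_lit 258) (nat_lit 177)) (XT.lf (nat_lit 0) (nat_lit 783305269) (nat_lit 152) (nat_lit 22023613256) (nat_lit 228) (nat_lit 260381269) (nat_lit 20) (nat_lit 5) (nat_lit 22) (nat_lit 5) (nat_lit 23) (nat_lit 4) (nat_lit 346) (nat_lit 258) (nat_lit 176))))) (XT.nd (nat_lit 234) (nat_lit 152) (nat_lit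 0) (XT.nd (nat_lit 78) (nat_lit 0) (nat_lit 0) (XT.lf (nat_lit 0) (nat_lit 2338784030) (nat_lit 228) (nat_lit 16481943689) (nat_lit 76) (nat_lit 4811932720) (nat_lit 19) (nat_lit 5) (nat_lit 22) (nat_lit 5) (nat_lit 20) (nat_lit 5) (nat_lit 347) (nat_lit 258) (nat_lit 175)) (XT.nd (nat_lit 78) (nat_lit 0) (nat_lit 0) (XT.lf (nat_lit 0) (nat_lit 4993191117) (nat_lit 228) (nat_lit 10536287616) (nat_lit 76) (nat_lit 8685978178) (nat_lit 19) (nat_lit 5) (nat_lit 22) (nat_lit 5) (nat_lit 20) (nat_lit 5) (nat_lit 348) (nat_lit 258) (nat_lit 174)) (XT.lf (nat_lit 0) (nat_lit 7710240352) (nat_lit 228) (nat_lit 4439328128) (nat_lit 76) (nat_lit 12666705057) (nat_lit 19) (nat_lit 5) (nat_lit 22) (nat_lit 5) (nat_lit 20) (nat_lit 5) (nat_lit 349) (nat_lit 258) (nat_lit 173)))) (XT.nd (nat_lit 78) (nat_lit 0) (nat_lit 0) (XT.lf (nat_lit 0) (nat_lit 1850369589) (nat_lit 152) (nat_lit 8659723150) (nat_lit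 228) (nat_lit 14925008957) (nat_lit 17) (nat_lit 5) (nat_lit 19) (nat_lit 5) (nat_lit 20) (nat_lit 5) (nat_lit 350) (nat_lit 258) (nat_lit 172)) (XT.nd (nat_lit 78) (nat_lit 0) (nat_lit 0) (XT.lf (nat_lit 0) (nat_lit 8393739810) (nat_lit 152) (nat_lit 5028764510) (nat_lit 228) (nat_lit 12649158506) (nat_lit 17) (nat_lit 5) (nat_lit 19) (nat_lit 5) (nat_lit 20) (nat_lit 5) (nat_lit 351) (nat_lit 258) (nat_lit 171)) (XT.lf (nat_lit 0) (nat_lit 15108148708) (nat_lit 152) (nat_lit 1298348387) (nat_lit 228) (nat_lit 10321321735) (nat_lit 17) (nat_lit 5) (nat_lit 19) (nat_lit 5) (nat_lit 20) (nat_lit 5) (nat_lit 352) (nat_lit 258) (nat_lit 170)))))) (XT.nd (nat_lit 390) (nat_lit 152) (nat_lit 0) (XT.nd (nat_lit 156) (nat_lit 76) (nat_lit 0) (XT.nd (nat_lit 78) (nat_lit 76) (nat_lit 0) (XT.lf (nat_lit 0) (nat_lit 19489044338) (nat_lit 228) (nat_lit 5429045709) (nat_lit 76) (nat_lit 2485322023) (nat_lit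 17) (nat_lit 5) (nat_lit 20) (nat_lit 5) (nat_lit 18) (nat_lit 4) (nat_lit 353) (nat_lit 258) (nat_lit 169)) (XT.lf (nat_lit 0) (nat_lit 928362298) (nat_lit 76) (nat_lit 21742514126) (nat_lit 152) (nat_lit 5428215340) (nat_lit 16) (nat_lit 5) (nat_lit 17) (nat_lit 5) (nat_lit 18) (nat_lit 4) (nat_lit 354) (nat_lit 258) (nat_lit 168))) (XT.nd (nat_lit 78) (nat_lit 76) (nat_lit 0) (XT.lf (nat_lit 0) (nat_lit 7563823979) (nat_lit 76) (nat_lit 18424397444) (nat_lit 152) (nat_lit 2826240929) (nat_lit 16) (nat_lit 5) (nat_lit 17) (nat_lit 5) (nat_lit 18) (nat_lit 4) (nat_lit 355) (nat_lit 258) (nat_lit 167)) (XT.nd (nat_lit 78) (nat_lit 76) (nat_lit 0) (XT.lf (nat_lit 0) (nat_lit 14375088655) (nat_lit 76) (nat_lit 15015663393) (nat_lit 152) (nat_lit 160993647) (nat_lit 16) (nat_lit 5) (nat_lit 17) (nat_lit 5) (nat_lit 18) (nat_lit 4) (nat_lit 356) (nat_lit 258) (nat_lit 166)) (XT.lf (nat_lit 0) (nat_lit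 2519708229) (nat_lit 152) (nat_lit 8968181126) (nat_lit 76) (nat_lit 18822955575) (nat_lit 15) (nat_lit 5) (nat_lit 17) (nat_lit 5) (nat_lit 16) (nat_lit 5) (nat_lit 357) (nat_lit 258) (nat_lit 165))))) (XT.nd (nat_lit 234) (nat_lit 0) (nat_lit 0) (XT.nd (nat_lit 78) (nat_lit 152) (nat_lit 0) (XT.lf (nat_lit 0) (nat_lit 5263929757) (nat_lit 152) (nat_lit 2597262251) (nat_lit 76) (nat_lit 23231907042) (nat_lit 15) (nat_lit 5) (nat_lit 17) (nat_lit 5) (nat_lit 16) (nat_lit 5) (nat_lit 358) (nat_lit 258) (nat_lit 164)) (XT.nd (nat_lit 78) (nat_lit 0) (nat_lit 0) (XT.lf (nat_lit 0) (nat_lit 4021691663) (nat_lit 152) (nat_lit 4094177665) (nat_lit 228) (nat_lit 23782208912) (nat_lit 13) (nat_lit 5) (nat_lit 15) (nat_lit 5) (nat_lit 16) (nat_lit 5) (nat_lit 359) (nat_lit 258) (nat_lit 163)) (XT.lf (nat_lit 0) (nat_lit 10871096783) (nat_lit 152) (nat_lit 195411116) (nat_lit 228) (nat_lit 21660323310)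 (nat_lit 13) (nat_lit 5) (nat_lit 15) (nat_lit 5) (nat_lit 16) (nat_lit 5) (nat_lit 360) (nat_lit 258) (nat_lit 162)))) (XT.nd (nat_lit 78) (nat_lit 0) (nat_lit 0) (XT.lf (nat_lit 0) (nat_lit 14129606378) (nat_lit 228) (nat_lit 15712244632) (nat_lit 76) (nat_lit 3737895619) (nat_lit 13) (nat_lit 5) (nat_lit 16) (nat_lit 5) (nat_lit 14) (nat_lit 4) (nat_lit 361) (nat_lit 258) (nat_lit 161)) (XT.nd (nat_lit 78) (nat_lit 0) (nat_lit 0) (XT.lf (nat_lit 0) (nat_lit 17274122393) (nat_lit 228) (nat_lit 9406830232) (nat_lit 76) (nat_lit 7777628708) (nat_lit 13) (nat_lit 5) (nat_lit 16) (nat_lit 5) (nat_lit 14) (nat_lit 4) (nat_lit 362) (nat_lit 258) (nat_lit 160)) (XT.lf (nat_lit 0) (nat_lit 20500925168) (nat_lit 228) (nat_lit 2932103230) (nat_lit 76) (nat_lit 11931131188) (nat_lit 13) (nat_lit 5) (nat_lit 16) (nat_lit 5) (nat_lit 14) (nat_lit 4) (nat_lit 363) (nat_lit 258) (nat_lit 159))))))) (XT.nd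 (nat_lit 858) (nat_lit 152) (nat_lit 0) (XT.nd (nat_lit 390) (nat_lit 228) (nat_lit 0) (XT.nd (nat_lit 156) (nat_lit 0) (nat_lit 0) (XT.nd (nat_lit 78) (nat_lit 0) (nat_lit 0) (XT.lf (nat_lit 0) (nat_lit 3791581310) (nat_lit 76) (nat_lit 20057699928) (nat_lit 152) (nat_lit 12446898023) (nat_lit 12) (nat_lit 5) (nat_lit 13) (nat_lit 5) (nat_lit 14) (nat_lit 4) (nat_lit 364) (nat_lit 258) (nat_lit 158)) (XT.lf (nat_lit 0) (nat_lit 10757998887) (nat_lit 76) (nat_lit 16558157087) (nat_lit 152) (nat_lit 9939477580) (nat_lit 12) (nat_lit 5) (nat_lit 13) (nat_lit 5) (nat_lit 14) (nat_lit 4) (nat_lit 365) (nat_lit 258) (nat_lit 157))) (XT.nd (nat_lit 78) (nat_lit 0) (nat_lit 0) (XT.lf (nat_lit 0) (nat_lit 17914882059) (nat_lit 76) (nat_lit 12960950517) (nat_lit 152) (nat_lit 7368390634) (nat_lit 12) (nat_lit 5) (nat_lit 13) (nat_lit 5) (nat_lit 14) (nat_lit 4) (nat_lit 366) (nat_lit 258) (nat_lit 156))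 (XT.nd (nat_lit 78) (nat_lit 0) (nat_lit 0) (XT.lf (nat_lit 0) (nat_lit 25268484411) (nat_lit 76) (nat_lit 9262937027) (nat_lit 152) (nat_lit 4731390603) (nat_lit 12) (nat_lit 5) (nat_lit 13) (nat_lit 5) (nat_lit 14) (nat_lit 4) (nat_lit 367) (nat_lit 258) (nat_lit 155)) (XT.lf (nat_lit 0) (nat_lit 32825231423) (nat_lit 76) (nat_lit 5460885342) (nat_lit 152) (nat_lit 2026173313) (nat_lit 12) (nat_lit 5) (nat_lit 13) (nat_lit 5) (nat_lit 14) (nat_lit 4) (nat_lit 368) (nat_lit 258) (nat_lit 154))))) (XT.nd (nat_lit 234) (nat_lit 0) (nat_lit 0) (XT.nd (nat_lit 78) (nat_lit 152) (nat_lit 0) (XT.lf (nat_lit 0) (nat_lit 734997133) (nat_lit 152) (nat_lit 809054119) (nat_lit 76) (nat_lit 39849306913) (nat_lit 11) (nat_lit 5) (nat_lit 13) (nat_lit 5) (nat_lit 12) (nat_lit 5) (nat_lit 369) (nat_lit 258) (nat_lit 153)) (XT.nd (nat_lit 78) (nat_lit 0) (nat_lit 0) (XT.lf (nat_lit 0) (nat_lit 3612013060)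 (nat_lit 228) (nat_lit 36376842156) (nat_lit 76) (nat_lit 2515202669) (nat_lit 9) (nat_lit 5) (nat_lit 12) (nat_lit 5) (nat_lit 10) (nat_lit 4) (nat_lit 370) (nat_lit 258) (nat_lit 152)) (XT.lf (nat_lit 0) (nat_lit 6588882013) (nat_lit 228) (nat_lit 30391802615) (nat_lit 76) (nat_lit 6667000757) (nat_lit 9) (nat_lit 5) (nat_lit 12) (nat_lit 5) (nat_lit 10) (nat_lit 4) (nat_lit 371) (nat_lit 258) (nat_lit 151)))) (XT.nd (nat_lit 78) (nat_lit 0) (nat_lit 0) (XT.lf (nat_lit 0) (nat_lit 9645352339) (nat_lit 228) (nat_lit 24243482838) (nat_lit 76) (nat_lit 10937090358) (nat_lit 9) (nat_lit 5) (nat_lit 12) (nat_lit 5) (nat_lit 10) (nat_lit 4) (nat_lit 372) (nat_lit 258) (nat_lit 150)) (XT.nd (nat_lit 78) (nat_lit 0) (nat_lit 0) (XT.lf (nat_lit 0) (nat_lit 12784094740) (nat_lit 228) (nat_lit 17926510508) (nat_lit 76) (nat_lit 15329202618) (nat_lit 9) (nat_lit 5) (nat_lit 12) (nat_lit 5) (nat_lit 10)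 (nat_lit 4) (nat_lit 373) (nat_lit 258) (nat_lit 149)) (XT.lf (nat_lit 0) (nat_lit 16007851805) (nat_lit 228) (nat_lit 11435365939) (nat_lit 76) (nat_lit 19847175307) (nat_lit 9) (nat_lit 5) (nat_lit 12) (nat_lit 5) (nat_lit 10) (nat_lit 4) (nat_lit 374) (nat_lit 258) (nat_lit 148)))))) (XT.nd (nat_lit 468) (nat_lit 76) (nat_lit 0) (XT.nd (nat_lit 234) (nat_lit 0) (nat_lit 0) (XT.nd (nat_lit 78) (nat_lit 76) (nat_lit 0) (XT.lf (nat_lit 0) (nat_lit 19319440411) (nat_lit 228) (nat_lit 4764377258) (nat_lit 76) (nat_lit 24494956166) (nat_lit 9) (nat_lit 5) (nat_lit 12) (nat_lit 5) (nat_lit 10) (nat_lit 4) (nat_lit 375) (nat_lit 258) (nat_lit 147)) (XT.nd (nat_lit 78) (nat_lit 0) (nat_lit 0) (XT.lf (nat_lit 0) (nat_lit 2133925118) (nat_lit 76) (nat_lit 20608341653) (nat_lit 152) (nat_lit 27163193839) (nat_lit 8) (nat_lit 5) (nat_lit 9) (nat_lit 5) (nat_lit 10) (nat_lit 4) (nat_lit 376) (nat_lit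 258) (nat_lit 146)) (XT.lf (nat_lit 0) (nat_lit 9322526832) (nat_lit 76) (nat_lit 16984853001) (nat_lit 152) (nat_lit 24963391040) (nat_lit 8) (nat_lit 5) (nat_lit 9) (nat_lit 5) (nat_lit 10) (nat_lit 4) (nat_lit 377) (nat_lit 258) (nat_lit 145)))) (XT.nd (nat_lit 78) (nat_lit 0) (nat_lit 0) (XT.lf (nat_lit 0) (nat_lit 16712888735) (nat_lit 76) (nat_lit 13258296426) (nat_lit 152) (nat_lit 22706113740) (nat_lit 8) (nat_lit 5) (nat_lit 9) (nat_lit 5) (nat_lit 10) (nat_lit 4) (nat_lit 378) (nat_lit 258) (nat_lit 144)) (XT.nd (nat_lit 78) (nat_lit 0) (nat_lit 0) (XT.lf (nat_lit 0) (nat_lit 24311468424) (nat_lit 76) (nat_lit 9425415715) (nat_lit 152) (nat_lit 20389389559) (nat_lit 8) (nat_lit 5) (nat_lit 9) (nat_lit 5) (nat_lit 10) (nat_lit 4) (nat_lit 379) (nat_lit 258) (nat_lit 143)) (XT.lf (nat_lit 0) (nat_lit 32124905436) (nat_lit 76) (nat_lit 5482861748) (nat_lit 152) (nat_lit 18011194176)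 (nat_lit 8) (nat_lit 5) (nat_lit 9) (nat_lit 5) (nat_lit 10) (nat_lit 4) (nat_lit 380) (nat_lit 258) (nat_lit 142))))) (XT.nd (nat_lit 234) (nat_lit 76) (nat_lit 0) (XT.nd (nat_lit 78) (nat_lit 0) (nat_lit 0) (XT.lf (nat_lit 0) (nat_lit 40160027046) (nat_lit 76) (nat_lit 1427189575) (nat_lit 152) (nat_lit 15569449555) (nat_lit 8) (nat_lit 5) (nat_lit 9) (nat_lit 5) (nat_lit 10) (nat_lit 4) (nat_lit 381) (nat_lit 258) (nat_lit 141)) (XT.nd (nat_lit 78) (nat_lit 0) (nat_lit 0) (XT.lf (nat_lit 0) (nat_lit 45705097648) (nat_lit 152) (nat_lit 10343265549) (nat_lit 0) (nat_lit 2691576935) (nat_lit 8) (nat_lit 5) (nat_lit 10) (nat_lit 4) (nat_lit 8) (nat_lit 4) (nat_lit 382) (nat_lit 258) (nat_lit 140)) (XT.lf (nat_lit 0) (nat_lit 49953472837) (nat_lit 152) (nat_lit 3516585976) (nat_lit 0) (nat_lit 6900453926) (nat_lit 8) (nat_lit 5) (nat_lit 10) (nat_lit 4) (nat_lit 8) (nat_lit 4) (nat_lit 383) (nat_lit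 258) (nat_lit 139)))) (XT.nd (nat_lit 78) (nat_lit 0) (nat_lit 0) (XT.lf (nat_lit 0) (nat_lit 3572801901) (nat_lit 76) (nat_lit 50783877397) (nat_lit 76) (nat_lit 7692510721) (nat_lit 7) (nat_lit 4) (nat_lit 8) (nat_lit 5) (nat_lit 8) (nat_lit 4) (nat_lit 384) (nat_lit 258) (nat_lit 138)) (XT.nd (nat_lit 78) (nat_lit 0) (nat_lit 0) (XT.lf (nat_lit 0) (nat_lit 10935263451) (nat_lit 76) (nat_lit 47985355603) (nat_lit 76) (nat_lit 4856758088) (nat_lit 7) (nat_lit 4) (nat_lit 8) (nat_lit 5) (nat_lit 8) (nat_lit 4) (nat_lit 385) (nat_lit 258) (nat_lit 137)) (XT.lf (nat_lit 0) (nat_lit 18507244936) (nat_lit 76) (nat_lit 45107558745) (nat_lit 76) (nat_lit 1942814784) (nat_lit 7) (nat_lit 4) (nat_lit 8) (nat_lit 5) (nat_lit 8) (nat_lit 4) (nat_lit 386) (nat_lit 258) (nat_lit 136))))))))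
noncomputable def xc108 : XT := (XT.nd (nat_lit 31824) (nat_lit 0) (nat_lit 7676) (XT.nd (nat_lit 30966) (nat_lit 0) (nat_lit 16568) (XT.nd (nat_lit 390) (nat_lit 76) (nat_lit 0) (XT.nd (nat_lit 156) (nat_lit 0) (nat_lit 0) (XT.nd (nat_lit 78) (nat_lit 0) (nat_lit 0) (XT.lf (nat_lit 0) (nat_lit 1031339672) (nat_lit 152) (nat_lit 41106218061) (nat_lit 76) (nat_lit 25253608469) (nat_lit 6) (nat_lit 5) (nat_lit 8) (nat_lit 5) (nat_lit 7) (nat_lit 4) (nat_lit 387) (nat_lit 258) (nat_lit 135)) (XT.lf (nat_lit 0) (nat_lit 4049309834) (nat_lit 152) (nat_lit 35013810126) (nat_lit 76) (nat_lit 30216221822) (nat_lit 6) (nat_lit 5) (nat_lit 8) (nat_lit 5) (nat_lit 7) (nat_lit 4) (nat_lit 388) (nat_lit 258) (nat_lit 134))) (XT.nd (nat_lit 78) (nat_lit 0) (nat_lit 0) (XT.lf (nat_lit 0) (nat_lit 7151644074) (nat_lit 152) (nat_lit 28749150736) (nat_lit 76) (nat_lit 35323560519) (nat_lit 6) (nat_lit 5) (nat_lit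 8) (nat_lit 5) (nat_lit 7) (nat_lit 4) (nat_lit 389) (nat_lit 258) (nat_lit 133)) (XT.nd (nat_lit 78) (nat_lit 0) (nat_lit 0) (XT.lf (nat_lit 0) (nat_lit 10341053172) (nat_lit 152) (nat_lit 22306765918) (nat_lit 76) (nat_lit 40580087283) (nat_lit 6) (nat_lit 5) (nat_lit 8) (nat_lit 5) (nat_lit 7) (nat_lit 4) (nat_lit 390) (nat_lit 258) (nat_lit 132)) (XT.lf (nat_lit 0) (nat_lit 13620323988) (nat_lit 152) (nat_lit 15681026402) (nat_lit 76) (nat_lit 45990395196) (nat_lit 6) (nat_lit 5) (nat_lit 8) (nat_lit 5) (nat_lit 7) (nat_lit 4) (nat_lit 391) (nat_lit 258) (nat_lit 131))))) (XT.nd (nat_lit 234) (nat_lit 0) (nat_lit 0) (XT.nd (nat_lit 78) (nat_lit 76) (nat_lit 0) (XT.lf (nat_lit 0) (nat_lit 16992321906) (nat_lit 152) (nat_lit 8866142708) (nat_lit 76) (nat_lit 51559211712) (nat_lit 6) (nat_lit 5) (nat_lit 8) (nat_lit 5) (nat_lit 7) (nat_lit 4) (nat_lit 392) (nat_lit 258) (nat_lit 130)) (XT.nd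 (nat_lit 78) (nat_lit 76) (nat_lit 0) (XT.lf (nat_lit 0) (nat_lit 20459993332) (nat_lit 152) (nat_lit 1856160083) (nat_lit 76) (nat_lit 57291402786) (nat_lit 6) (nat_lit 5) (nat_lit 8) (nat_lit 5) (nat_lit 7) (nat_lit 4) (nat_lit 393) (nat_lit 258) (nat_lit 129)) (XT.lf (nat_lit 0) (nat_lit 5461622628) (nat_lit 76) (nat_lit 18617246097) (nat_lit 152) (nat_lit 57782854959) (nat_lit 5) (nat_lit 5) (nat_lit 6) (nat_lit 5) (nat_lit 7) (nat_lit 4) (nat_lit 394) (nat_lit 258) (nat_lit 128)))) (XT.nd (nat_lit 78) (nat_lit 0) (nat_lit 0) (XT.lf (nat_lit 0) (nat_lit 13028001938) (nat_lit 76) (nat_lit 14791794152) (nat_lit 152) (nat_lit 56363321771) (nat_lit 5) (nat_lit 5) (nat_lit 6) (nat_lit 5) (nat_lit 7) (nat_lit 4) (nat_lit 395) (nat_lit 258) (nat_lit 127)) (XT.nd (nat_lit 30186) (nat_lit 0) (nat_lit 18012) (XT.lf (nat_lit 0) (nat_lit 20812648018) (nat_lit 76) (nat_lit 10855198531) (nat_lit 152)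 (nat_lit 54906466514) (nat_lit 5) (nat_lit 5) (nat_lit 6) (nat_lit 5) (nat_lit 7) (nat_lit 4) (nat_lit 396) (nat_lit 258) (nat_lit 126)) (XT.lf (nat_lit 0) (nat_lit 1380106944) (nat_lit 76) (nat_lit 463050447) (nat_lit 0) (nat_lit 1380106944) (nat_lit 242) (nat_lit 5) (nat_lit 243) (nat_lit 0) (nat_lit 242) (nat_lit 4) (nat_lit 262) (nat_lit 259) (nat_lit 259)))))) (XT.nd (nat_lit 390) (nat_lit 836) (nat_lit 0) (XT.nd (nat_lit 156) (nat_lit 456) (nat_lit 0) (XT.nd (nat_lit 78) (nat_lit 76) (nat_lit 0) (XT.lf (nat_lit 0) (nat_lit 1923270064) (nat_lit 76) (nat_lit 3540004208) (nat_lit 76) (nat_lit 989500488) (nat_lit 241) (nat_lit 4) (nat_lit 242) (nat_lit 5) (nat_lit 242) (nat_lit 4) (nat_lit 263) (nat_lit 259) (nat_lit 258)) (XT.lf (nat_lit 0) (nat_lit 1659629099) (nat_lit 152) (nat_lit 1657673851) (nat_lit 76) (nat_lit 3144758186) (nat_lit 240) (nat_lit 5) (nat_lit 242) (nat_lit 5) (nat_lit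 241) (nat_lit 4) (nat_lit 264) (nat_lit 259) (nat_lit 257))) (XT.nd (nat_lit 78) (nat_lit 304) (nat_lit 0) (XT.lf (nat_lit 0) (nat_lit 1258202437) (nat_lit 152) (nat_lit 3022101865) (nat_lit 228) (nat_lit 2194210604) (nat_lit 238) (nat_lit 5) (nat_lit 240) (nat_lit 5) (nat_lit 241) (nat_lit 4) (nat_lit 265) (nat_lit 259) (nat_lit 256)) (XT.nd (nat_lit 78) (nat_lit 228) (nat_lit 0) (XT.lf (nat_lit 0) (nat_lit 400313743) (nat_lit 228) (nat_lit 2254994587) (nat_lit 76) (nat_lit 3834872562) (nat_lit 237) (nat_lit 5) (nat_lit 240) (nat_lit 5) (nat_lit 238) (nat_lit 5) (nat_lit 266) (nat_lit 259) (nat_lit 255)) (XT.lf (nat_lit 0) (nat_lit 730614738) (nat_lit 228) (nat_lit 2208628309) (nat_lit 304) (nat_lit 3569597499) (nat_lit 234) (nat_lit 5) (nat_lit 237) (nat_lit 5) (nat_lit 238) (nat_lit 5) (nat_lit 267) (nat_lit 259) (nat_lit 254))))) (XT.nd (nat_lit 234) (nat_lit 456) (nat_lit 0) (XT.nd (nat_lit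 78) (nat_lit 380) (nat_lit 0) (XT.lf (nat_lit 0) (nat_lit 3795496973) (nat_lit 228) (nat_lit 1687524924) (nat_lit 304) (nat_lit 1047658762) (nat_lit 234) (nat_lit 5) (nat_lit 237) (nat_lit 5) (nat_lit 238) (nat_lit 5) (nat_lit 268) (nat_lit 259) (nat_lit 253)) (XT.nd (nat_lit 78) (nat_lit 0) (nat_lit 0) (XT.lf (nat_lit 0) (nat_lit 333587273) (nat_lit 304) (nat_lit 1096601304) (nat_lit 380) (nat_lit 5125679073) (nat_lit 229) (nat_lit 5) (nat_lit 233) (nat_lit 5) (nat_lit 234) (nat_lit 5) (nat_lit 269) (nat_lit 259) (nat_lit 252)) (XT.lf (nat_lit 0) (nat_lit 3483298208) (nat_lit 304) (nat_lit 414979332) (nat_lit 380) (nat_lit 2685552924) (nat_lit 229) (nat_lit 5) (nat_lit 233) (nat_lit 5) (nat_lit 234) (nat_lit 5) (nat_lit 270) (nat_lit 259) (nat_lit 251)))) (XT.nd (nat_lit 78) (nat_lit 76) (nat_lit 0) (XT.lf (nat_lit 0) (nat_lit 54833297) (nat_lit 380) (nat_lit 6301261777) (nat_lit 456) (nat_lit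 259493979) (nat_lit 224) (nat_lit 5) (nat_lit 229) (nat_lit 5) (nat_lit 230) (nat_lit 5) (nat_lit 271) (nat_lit 259) (nat_lit 250)) (XT.nd (nat_lit 78) (nat_lit 0) (nat_lit 0) (XT.lf (nat_lit 0) (nat_lit 2144517760) (nat_lit 456) (nat_lit 3364792998) (nat_lit 76) (nat_lit 1140280732) (nat_lit 223) (nat_lit 5) (nat_lit 229) (nat_lit 5) (nat_lit 224) (nat_lit 5) (nat_lit 272) (nat_lit 259) (nat_lit 249)) (XT.lf (nat_lit 0) (nat_lit 4531104913) (nat_lit 456) (nat_lit 133680696) (nat_lit 76) (nat_lit 2022672388) (nat_lit 223) (nat_lit 5) (nat_lit 229) (nat_lit 5) (nat_lit 224) (nat_lit 5) (nat_lit 273) (nat_lit 259) (nat_lit 248))))))) (XT.nd (nat_lit 858) (nat_lit 4712) (nat_lit 0) (XT.nd (nat_lit 390) (nat_lit 2432) (nat_lit 0) (XT.nd (nat_lit 156) (nat_lit 1216) (nat_lit 0) (XT.nd (nat_lit 78) (nat_lit 0) (nat_lit 0) (XT.lf (nat_lit 0) (nat_lit 205712554) (nat_lit 532) (nat_lit 3530041171) (nat_lit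 76) (nat_lit 2992559356) (nat_lit 216) (nat_lit 5) (nat_lit 223) (nat_lit 5) (nat_lit 217) (nat_lit 5) (nat_lit 274) (nat_lit 259) (nat_lit 247)) (XT.lf (nat_lit 0) (nat_lit 2515483019) (nat_lit 532) (nat_lit 216679452) (nat_lit 76) (nat_lit 4040343341) (nat_lit 216) (nat_lit 5) (nat_lit 223) (nat_lit 5) (nat_lit 217) (nat_lit 5) (nat_lit 275) (nat_lit 259) (nat_lit 246))) (XT.nd (nat_lit 78) (nat_lit 684) (nat_lit 0) (XT.lf (nat_lit 0) (nat_lit 3202372793) (nat_lit 532) (nat_lit 1644141572) (nat_lit 608) (nat_lit 1973298498) (nat_lit 209) (nat_lit 5) (nat_lit 216) (nat_lit 5) (nat_lit 217) (nat_lit 5) (nat_lit 276) (nat_lit 259) (nat_lit 245)) (XT.nd (nat_lit 78) (nat_lit 608) (nat_lit 0) (XT.lf (nat_lit 0) (nat_lit 295604270) (nat_lit 608) (nat_lit 201231505) (nat_lit 76) (nat_lit 6374199858) (nat_lit 208) (nat_lit 5) (nat_lit 216) (nat_lit 5) (nat_lit 209) (nat_lit 5) (nat_lit 277) (nat_lit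 259) (nat_lit 244)) (XT.lf (nat_lit 0) (nat_lit 2556109544) (nat_lit 684) (nat_lit 3625540940) (nat_lit 76) (nat_lit 742980647) (nat_lit 200) (nat_lit 5) (nat_lit 209) (nat_lit 5) (nat_lit 201) (nat_lit 5) (nat_lit 278) (nat_lit 259) (nat_lit 243))))) (XT.nd (nat_lit 234) (nat_lit 912) (nat_lit 0) (XT.nd (nat_lit 78) (nat_lit 1520) (nat_lit 0) (XT.lf (nat_lit 0) (nat_lit 4817388706) (nat_lit 684) (nat_lit 134191198) (nat_lit 76) (nat_lit 2030574641) (nat_lit 200) (nat_lit 5) (nat_lit 209) (nat_lit 5) (nat_lit 201) (nat_lit 5) (nat_lit 279) (nat_lit 259) (nat_lit 242)) (XT.nd (nat_lit 78) (nat_lit 760) (nat_lit 0) (XT.lf (nat_lit 0) (nat_lit 63907792) (nat_lit 760) (nat_lit 3570142579) (nat_lit 76) (nat_lit 3408788381) (nat_lit 190) (nat_lit 5) (nat_lit 200) (nat_lit 5) (nat_lit 191) (nat_lit 5) (nat_lit 280) (nat_lit 259) (nat_lit 241)) (XT.lf (nat_lit 0) (nat_lit 6433041) (nat_lit 760) (nat_lit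 2239647628) (nat_lit 836) (nat_lit 4860997965) (nat_lit 180) (nat_lit 5) (nat_lit 190) (nat_lit 5) (nat_lit 191) (nat_lit 5) (nat_lit 281) (nat_lit 259) (nat_lit 240)))) (XT.nd (nat_lit 78) (nat_lit 912) (nat_lit 0) (XT.lf (nat_lit 0) (nat_lit 3706570051) (nat_lit 760) (nat_lit 753447495) (nat_lit 836) (nat_lit 2714513577) (nat_lit 180) (nat_lit 5) (nat_lit 190) (nat_lit 5) (nat_lit 191) (nat_lit 5) (nat_lit 282) (nat_lit 259) (nat_lit 239)) (XT.nd (nat_lit 78) (nat_lit 76) (nat_lit 0) (XT.lf (nat_lit 0) (nat_lit 212702111) (nat_lit 836) (nat_lit 6469586060) (nat_lit 912) (nat_lit 563727932) (nat_lit 169) (nat_lit 5) (nat_lit 180) (nat_lit 5) (nat_lit 181) (nat_lit 5) (nat_lit 283) (nat_lit 259) (nat_lit 238)) (XT.lf (nat_lit 0) (nat_lit 1595089066) (nat_lit 912) (nat_lit 3326103694) (nat_lit 76) (nat_lit 2398955602) (nat_lit 168) (nat_lit 5) (nat_lit 180) (nat_lit 5) (nat_lit 169) (nat_lit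 5) (nat_lit 284) (nat_lit 259) (nat_lit 237)))))) (XT.nd (nat_lit 390) (nat_lit 1672) (nat_lit 0) (XT.nd (nat_lit 156) (nat_lit 2128) (nat_lit 0) (XT.nd (nat_lit 78) (nat_lit 0) (nat_lit 0) (XT.lf (nat_lit 0) (nat_lit 438303029) (nat_lit 912) (nat_lit 3308114360) (nat_lit 988) (nat_lit 3651991219) (nat_lit 156) (nat_lit 5) (nat_lit 168) (nat_lit 5) (nat_lit 169) (nat_lit 5) (nat_lit 285) (nat_lit 259) (nat_lit 236)) (XT.lf (nat_lit 0) (nat_lit 4327391267) (nat_lit 912) (nat_lit 1604700075) (nat_lit 988) (nat_lit 1548067825) (nat_lit 156) (nat_lit 5) (nat_lit 168) (nat_lit 5) (nat_lit 169) (nat_lit 5) (nat_lit 286) (nat_lit 259) (nat_lit 235))) (XT.nd (nat_lit 78) (nat_lit 1064) (nat_lit 0) (XT.lf (nat_lit 0) (nat_lit 552690191) (nat_lit 1064) (nat_lit 6847070801) (nat_lit 76) (nat_lit 166271987) (nat_lit 142) (nat_lit 5) (nat_lit 156) (nat_lit 5) (nat_lit 143) (nat_lit 5) (nat_lit 287) (nat_lit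 259) (nat_lit 234)) (XT.nd (nat_lit 78) (nat_lit 1064) (nat_lit 0) (XT.lf (nat_lit 0) (nat_lit 2671982258) (nat_lit 1064) (nat_lit 2971411367) (nat_lit 76) (nat_lit 2011247372) (nat_lit 142) (nat_lit 5) (nat_lit 156) (nat_lit 5) (nat_lit 143) (nat_lit 5) (nat_lit 288) (nat_lit 259) (nat_lit 233)) (XT.lf (nat_lit 0) (nat_lit 983569535) (nat_lit 1064) (nat_lit 3821112819) (nat_lit 1140) (nat_lit 2942940312) (nat_lit 128) (nat_lit 5) (nat_lit 142) (nat_lit 5) (nat_lit 143) (nat_lit 5) (nat_lit 289) (nat_lit 259) (nat_lit 232))))) (XT.nd (nat_lit 234) (nat_lit 1064) (nat_lit 0) (XT.nd (nat_lit 78) (nat_lit 608) (nat_lit 0) (XT.lf (nat_lit 0) (nat_lit 5062519993) (nat_lit 1064) (nat_lit 1910425774) (nat_lit 1140) (nat_lit 871504711) (nat_lit 128) (nat_lit 5) (nat_lit 142) (nat_lit 5) (nat_lit 143) (nat_lit 5) (nat_lit 290) (nat_lit 259) (nat_lit 231)) (XT.nd (nat_lit 78) (nat_lit 0) (nat_lit 0)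 (XT.lf (nat_lit 0) (nat_lit 1193061590) (nat_lit 608) (nat_lit 6669046198) (nat_lit 76) (nat_lit 83235365) (nat_lit 120) (nat_lit 5) (nat_lit 128) (nat_lit 5) (nat_lit 121) (nat_lit 5) (nat_lit 291) (nat_lit 259) (nat_lit 230)) (XT.lf (nat_lit 0) (nat_lit 3293019059) (nat_lit 608) (nat_lit 2619601407) (nat_lit 76) (nat_lit 2136840999) (nat_lit 120) (nat_lit 5) (nat_lit 128) (nat_lit 5) (nat_lit 121) (nat_lit 5) (nat_lit 292) (nat_lit 259) (nat_lit 229)))) (XT.nd (nat_lit 78) (nat_lit 608) (nat_lit 0) (XT.lf (nat_lit 0) (nat_lit 1526099014) (nat_lit 456) (nat_lit 3889871541) (nat_lit 532) (nat_lit 2742114307) (nat_lit 114) (nat_lit 5) (nat_lit 120) (nat_lit 5) (nat_lit 121) (nat_lit 5) (nat_lit 293) (nat_lit 259) (nat_lit 228)) (XT.nd (nat_lit 78) (nat_lit 608) (nat_lit 0) (XT.lf (nat_lit 0) (nat_lit 5795401598) (nat_lit 456) (nat_lit 1780056224) (nat_lit 532) (nat_lit 695499835) (nat_lit 114)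 (nat_lit 5) (nat_lit 120) (nat_lit 5) (nat_lit 121) (nat_lit 5) (nat_lit 294) (nat_lit 259) (nat_lit 227)) (XT.lf (nat_lit 0) (nat_lit 1353329019) (nat_lit 608) (nat_lit 6619635109) (nat_lit 76) (nat_lit 414959796) (nat_lit 106) (nat_lit 5) (nat_lit 114) (nat_lit 5) (nat_lit 107) (nat_lit 5) (nat_lit 295) (nat_lit 259) (nat_lit 226))))))))
noncomputable def xc109 : XT := (XT.nd (nat_lit 1716) (nat_lit 2280) (nat_lit 0) (XT.nd (nat_lit 858) (nat_lit 1748) (nat_lit 0) (XT.nd (nat_lit 390) (nat_lit 1216) (nat_lit 0) (XT.nd (nat_lit 156) (nat_lit 532) (nat_lit 0) (XT.nd (nat_lit 78) (nat_lit 456) (nat_lit 0) (XT.lf (nat_lit 0) (nat_lit 3440789696) (nat_lit 608) (nat_lit 2397472838) (nat_lit 76) (nat_lit 2670356853) (nat_lit 106) (nat_lit 5) (nat_lit 114) (nat_lit 5) (nat_lit 107) (nat_lit 5) (nat_lit 296) (nat_lit 259) (nat_lit 225)) (XT.lf (nat_lit 0) (nat_lit 1935470699) (nat_lit 456) (nat_lit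 3623790680) (nat_lit 532) (nat_lit 3074779192) (nat_lit 100) (nat_lit 5) (nat_lit 106) (nat_lit 5) (nat_lit 107) (nat_lit 5) (nat_lit 297) (nat_lit 259) (nat_lit 224))) (XT.nd (nat_lit 78) (nat_lit 532) (nat_lit 0) (XT.lf (nat_lit 0) (nat_lit 6394422779) (nat_lit 456) (nat_lit 1321808445) (nat_lit 532) (nat_lit 1047896763) (nat_lit 100) (nat_lit 5) (nat_lit 106) (nat_lit 5) (nat_lit 107) (nat_lit 5) (nat_lit 298) (nat_lit 259) (nat_lit 223)) (XT.nd (nat_lit 78) (nat_lit 0) (nat_lit 0) (XT.lf (nat_lit 0) (nat_lit 1001259950) (nat_lit 532) (nat_lit 6842486833) (nat_lit 76) (nat_lit 1054761845) (nat_lit 93) (nat_lit 5) (nat_lit 100) (nat_lit 5) (nat_lit 94) (nat_lit 5) (nat_lit 299) (nat_lit 259) (nat_lit 222)) (XT.lf (nat_lit 0) (nat_lit 3080499316) (nat_lit 532) (nat_lit 2450494777) (nat_lit 76) (nat_lit 3506064274) (nat_lit 93) (nat_lit 5) (nat_lit 100) (nat_lit 5) (nat_lit 94) (nat_lit 5)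 (nat_lit 300) (nat_lit 259) (nat_lit 221))))) (XT.nd (nat_lit 234) (nat_lit 380) (nat_lit 0) (XT.nd (nat_lit 78) (nat_lit 456) (nat_lit 0) (XT.lf (nat_lit 0) (nat_lit 2061355430) (nat_lit 380) (nat_lit 3134377505) (nat_lit 456) (nat_lit 3984958126) (nat_lit 88) (nat_lit 5) (nat_lit 93) (nat_lit 5) (nat_lit 94) (nat_lit 5) (nat_lit 301) (nat_lit 259) (nat_lit 220)) (XT.nd (nat_lit 78) (nat_lit 456) (nat_lit 0) (XT.lf (nat_lit 0) (nat_lit 6707178847) (nat_lit 380) (nat_lit 646641388) (nat_lit 456) (nat_lit 1975561644) (nat_lit 88) (nat_lit 5) (nat_lit 93) (nat_lit 5) (nat_lit 94) (nat_lit 5) (nat_lit 302) (nat_lit 259) (nat_lit 219)) (XT.lf (nat_lit 0) (nat_lit 85437426) (nat_lit 456) (nat_lit 7505162338) (nat_lit 76) (nat_lit 1892235320) (nat_lit 82) (nat_lit 5) (nat_lit 88) (nat_lit 5) (nat_lit 83) (nat_lit 5) (nat_lit 303) (nat_lit 259) (nat_lit 218)))) (XT.nd (nat_lit 78) (nat_lit 380) (nat_lit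 0) (XT.lf (nat_lit 0) (nat_lit 2157861239) (nat_lit 456) (nat_lit 2949013510) (nat_lit 76) (nat_lit 4533871211) (nat_lit 82) (nat_lit 5) (nat_lit 88) (nat_lit 5) (nat_lit 83) (nat_lit 5) (nat_lit 304) (nat_lit 259) (nat_lit 217)) (XT.nd (nat_lit 78) (nat_lit 0) (nat_lit 0) (XT.lf (nat_lit 0) (nat_lit 1727046095) (nat_lit 380) (nat_lit 2539447983) (nat_lit 456) (nat_lit 5537795426) (nat_lit 77) (nat_lit 5) (nat_lit 82) (nat_lit 5) (nat_lit 83) (nat_lit 5) (nat_lit 305) (nat_lit 259) (nat_lit 216)) (XT.lf (nat_lit 0) (nat_lit 6427584981) (nat_lit 456) (nat_lit 3420579153) (nat_lit 76) (nat_lit 125012287) (nat_lit 77) (nat_lit 5) (nat_lit 83) (nat_lit 5) (nat_lit 78) (nat_lit 5) (nat_lit 306) (nat_lit 259) (nat_lit 215)))))) (XT.nd (nat_lit 390) (nat_lit 988) (nat_lit 0) (XT.nd (nat_lit 156) (nat_lit 304) (nat_lit 0) (XT.nd (nat_lit 78) (nat_lit 76) (nat_lit 0) (XT.lf (nat_lit 0) (nat_lit 1326756668)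 (nat_lit 380) (nat_lit 7323984160) (nat_lit 456) (nat_lit 1496581898) (nat_lit 72) (nat_lit 5) (nat_lit 77) (nat_lit 5) (nat_lit 78) (nat_lit 5) (nat_lit 307) (nat_lit 259) (nat_lit 214)) (XT.lf (nat_lit 0) (nat_lit 596347847) (nat_lit 456) (nat_lit 4095464937) (nat_lit 76) (nat_lit 5634974169) (nat_lit 71) (nat_lit 5) (nat_lit 77) (nat_lit 5) (nat_lit 72) (nat_lit 5) (nat_lit 308) (nat_lit 259) (nat_lit 213))) (XT.nd (nat_lit 78) (nat_lit 0) (nat_lit 0) (XT.lf (nat_lit 0) (nat_lit 721925266) (nat_lit 304) (nat_lit 1967724401) (nat_lit 380) (nat_lit 7822611425) (nat_lit 67) (nat_lit 5) (nat_lit 71) (nat_lit 5) (nat_lit 72) (nat_lit 5) (nat_lit 309) (nat_lit 259) (nat_lit 212)) (XT.nd (nat_lit 78) (nat_lit 0) (nat_lit 0) (XT.lf (nat_lit 0) (nat_lit 4856884009) (nat_lit 380) (nat_lit 4992152649) (nat_lit 76) (nat_lit 854026302) (nat_lit 67) (nat_lit 5) (nat_lit 72) (nat_lit 5) (nat_lit 68) (nat_lit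 5) (nat_lit 310) (nat_lit 259) (nat_lit 211)) (XT.lf (nat_lit 0) (nat_lit 7071056278) (nat_lit 380) (nat_lit 117485427) (nat_lit 76) (nat_lit 3711684220) (nat_lit 67) (nat_lit 5) (nat_lit 72) (nat_lit 5) (nat_lit 68) (nat_lit 5) (nat_lit 311) (nat_lit 259) (nat_lit 210))))) (XT.nd (nat_lit 234) (nat_lit 304) (nat_lit 0) (XT.nd (nat_lit 78) (nat_lit 380) (nat_lit 0) (XT.lf (nat_lit 0) (nat_lit 4953500870) (nat_lit 304) (nat_lit 4409301429) (nat_lit 380) (nat_lit 1740258935) (nat_lit 63) (nat_lit 5) (nat_lit 67) (nat_lit 5) (nat_lit 68) (nat_lit 5) (nat_lit 312) (nat_lit 259) (nat_lit 209)) (XT.nd (nat_lit 78) (nat_lit 304) (nat_lit 0) (XT.lf (nat_lit 0) (nat_lit 368199751) (nat_lit 380) (nat_lit 1183820316) (nat_lit 76) (nat_lit 9760982345) (nat_lit 62) (nat_lit 5) (nat_lit 67) (nat_lit 5) (nat_lit 63) (nat_lit 5) (nat_lit 313) (nat_lit 259) (nat_lit 208)) (XT.lf (nat_lit 0) (nat_lit 2521440783)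 (nat_lit 380) (nat_lit 7597468549) (nat_lit 76) (nat_lit 1409404516) (nat_lit 58) (nat_lit 5) (nat_lit 63) (nat_lit 5) (nat_lit 59) (nat_lit 5) (nat_lit 314) (nat_lit 259) (nat_lit 207)))) (XT.nd (nat_lit 78) (nat_lit 304) (nat_lit 0) (XT.lf (nat_lit 0) (nat_lit 4731975868) (nat_lit 380) (nat_lit 2588133103) (nat_lit 76) (nat_lit 4430276411) (nat_lit 58) (nat_lit 5) (nat_lit 63) (nat_lit 5) (nat_lit 59) (nat_lit 5) (nat_lit 315) (nat_lit 259) (nat_lit 206)) (XT.nd (nat_lit 78) (nat_lit 0) (nat_lit 0) (XT.lf (nat_lit 0) (nat_lit 2576972054) (nat_lit 304) (nat_lit 4422895961) (nat_lit 380) (nat_lit 4979599101) (nat_lit 54) (nat_lit 5) (nat_lit 58) (nat_lit 5) (nat_lit 59) (nat_lit 5) (nat_lit 316) (nat_lit 259) (nat_lit 205)) (XT.lf (nat_lit 0) (nat_lit 7905727378) (nat_lit 304) (nat_lit 1423030247) (nat_lit 380) (nat_lit 2886951831) (nat_lit 54) (nat_lit 5) (nat_lit 58) (nat_lit 5) (nat_lit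 59) (nat_lit 5) (nat_lit 317) (nat_lit 259) (nat_lit 204))))))) (XT.nd (nat_lit 858) (nat_lit 912) (nat_lit 0) (XT.nd (nat_lit 390) (nat_lit 760) (nat_lit 0) (XT.nd (nat_lit 156) (nat_lit 304) (nat_lit 0) (XT.nd (nat_lit 78) (nat_lit 76) (nat_lit 0) (XT.lf (nat_lit 0) (nat_lit 892701684) (nat_lit 228) (nat_lit 10827103544) (nat_lit 304) (nat_lit 739539830) (nat_lit 51) (nat_lit 5) (nat_lit 54) (nat_lit 5) (nat_lit 55) (nat_lit 5) (nat_lit 318) (nat_lit 259) (nat_lit 203)) (XT.lf (nat_lit 0) (nat_lit 1469431380) (nat_lit 304) (nat_lit 6442121862) (nat_lit 76) (nat_lit 4797606353) (nat_lit 50) (nat_lit 5) (nat_lit 54) (nat_lit 5) (nat_lit 51) (nat_lit 5) (nat_lit 319) (nat_lit 259) (nat_lit 202))) (XT.nd (nat_lit 78) (nat_lit 304) (nat_lit 0) (XT.lf (nat_lit 0) (nat_lit 3698568804) (nat_lit 304) (nat_lit 1214178387) (nat_lit 76) (nat_lit 8054507269) (nat_lit 50) (nat_lit 5) (nat_lit 54) (nat_lit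 5) (nat_lit 51) (nat_lit 5) (nat_lit 320) (nat_lit 259) (nat_lit 201)) (XT.nd (nat_lit 78) (nat_lit 0) (nat_lit 0) (XT.lf (nat_lit 0) (nat_lit 4211036555) (nat_lit 304) (nat_lit 1793693822) (nat_lit 380) (nat_lit 7228123694) (nat_lit 46) (nat_lit 5) (nat_lit 50) (nat_lit 5) (nat_lit 51) (nat_lit 5) (nat_lit 321) (nat_lit 259) (nat_lit 200)) (XT.lf (nat_lit 0) (nat_lit 8376145271) (nat_lit 380) (nat_lit 3738096909) (nat_lit 76) (nat_lit 1392361898) (nat_lit 46) (nat_lit 5) (nat_lit 51) (nat_lit 5) (nat_lit 47) (nat_lit 5) (nat_lit 322) (nat_lit 259) (nat_lit 199))))) (XT.nd (nat_lit 234) (nat_lit 456) (nat_lit 0) (XT.nd (nat_lit 78) (nat_lit 76) (nat_lit 0) (XT.lf (nat_lit 0) (nat_lit 1678172233) (nat_lit 228) (nat_lit 9145340394) (nat_lit 304) (nat_lit 2964972247) (nat_lit 43) (nat_lit 5) (nat_lit 46) (nat_lit 5) (nat_lit 47) (nat_lit 5) (nat_lit 323) (nat_lit 259) (nat_lit 198)) (XT.nd (nat_lit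 78) (nat_lit 76) (nat_lit 0) (XT.lf (nat_lit 0) (nat_lit 7293007331) (nat_lit 228) (nat_lit 6060417407) (nat_lit 304) (nat_lit 725184407) (nat_lit 43) (nat_lit 5) (nat_lit 46) (nat_lit 5) (nat_lit 47) (nat_lit 5) (nat_lit 324) (nat_lit 259) (nat_lit 197)) (XT.lf (nat_lit 0) (nat_lit 1522807502) (nat_lit 304) (nat_lit 1356340234) (nat_lit 76) (nat_lit 11498734218) (nat_lit 42) (nat_lit 5) (nat_lit 46) (nat_lit 5) (nat_lit 43) (nat_lit 5) (nat_lit 325) (nat_lit 259) (nat_lit 196)))) (XT.nd (nat_lit 78) (nat_lit 228) (nat_lit 0) (XT.lf (nat_lit 0) (nat_lit 3841624916) (nat_lit 304) (nat_lit 10416565042) (nat_lit 76) (nat_lit 427244359) (nat_lit 39) (nat_lit 5) (nat_lit 43) (nat_lit 5) (nat_lit 40) (nat_lit 5) (nat_lit 326) (nat_lit 259) (nat_lit 195)) (XT.nd (nat_lit 78) (nat_lit 228) (nat_lit 0) (XT.lf (nat_lit 0) (nat_lit 6245355967) (nat_lit 304) (nat_lit 4978995008) (nat_lit 76) (nat_lit 3777455791)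 (nat_lit 39) (nat_lit 5) (nat_lit 43) (nat_lit 5) (nat_lit 40) (nat_lit 5) (nat_lit 327) (nat_lit 259) (nat_lit 194)) (XT.lf (nat_lit 0) (nat_lit 595270084) (nat_lit 228) (nat_lit 8105447778) (nat_lit 304) (nat_lit 6627619374) (nat_lit 36) (nat_lit 5) (nat_lit 39) (nat_lit 5) (nat_lit 40) (nat_lit 5) (nat_lit 328) (nat_lit 259) (nat_lit 193)))))) (XT.nd (nat_lit 468) (nat_lit 456) (nat_lit 0) (XT.nd (nat_lit 234) (nat_lit 152) (nat_lit 0) (XT.nd (nat_lit 78) (nat_lit 304) (nat_lit 0) (XT.lf (nat_lit 0) (nat_lit 6401152760) (nat_lit 228) (nat_lit 4853063801) (nat_lit 304) (nat_lit 4409763671) (nat_lit 36) (nat_lit 5) (nat_lit 39) (nat_lit 5) (nat_lit 40) (nat_lit 5) (nat_lit 329) (nat_lit 259) (nat_lit 192)) (XT.nd (nat_lit 78) (nat_lit 304) (nat_lit 0) (XT.lf (nat_lit 0) (nat_lit 12344634355) (nat_lit 228) (nat_lit 1514635243) (nat_lit 304) (nat_lit 2151223845) (nat_lit 36) (nat_lit 5) (nat_lit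 39) (nat_lit 5) (nat_lit 40) (nat_lit 5) (nat_lit 330) (nat_lit 259) (nat_lit 191)) (XT.lf (nat_lit 0) (nat_lit 185856685) (nat_lit 304) (nat_lit 14283820500) (nat_lit 76) (nat_lit 1897294924) (nat_lit 32) (nat_lit 5) (nat_lit 36) (nat_lit 5) (nat_lit 33) (nat_lit 5) (nat_lit 331) (nat_lit 259) (nat_lit 190)))) (XT.nd (nat_lit 78) (nat_lit 152) (nat_lit 0) (XT.lf (nat_lit 0) (nat_lit 2577847708) (nat_lit 304) (nat_lit 8726274821) (nat_lit 76) (nat_lit 5428587778) (nat_lit 32) (nat_lit 5) (nat_lit 36) (nat_lit 5) (nat_lit 33) (nat_lit 5) (nat_lit 332) (nat_lit 259) (nat_lit 189)) (XT.nd (nat_lit 78) (nat_lit 152) (nat_lit 0) (XT.lf (nat_lit 0) (nat_lit 5017962201) (nat_lit 304) (nat_lit 3037301045) (nat_lit 76) (nat_lit 9054910389) (nat_lit 32) (nat_lit 5) (nat_lit 36) (nat_lit 5) (nat_lit 33) (nat_lit 5) (nat_lit 333) (nat_lit 259) (nat_lit 188)) (XT.lf (nat_lit 0) (nat_lit 2843559869) (nat_lit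 152) (nat_lit 4692106471) (nat_lit 228) (nat_lit 9963205556) (nat_lit 30) (nat_lit 5) (nat_lit 32) (nat_lit 5) (nat_lit 33) (nat_lit 5) (nat_lit 334) (nat_lit 259) (nat_lit 187))))) (XT.nd (nat_lit 234) (nat_lit 228) (nat_lit 0) (XT.nd (nat_lit 78) (nat_lit 228) (nat_lit 0) (XT.lf (nat_lit 0) (nat_lit 8929174119) (nat_lit 152) (nat_lit 1207792632) (nat_lit 228) (nat_lit 7762063776) (nat_lit 30) (nat_lit 5) (nat_lit 32) (nat_lit 5) (nat_lit 33) (nat_lit 5) (nat_lit 335) (nat_lit 259) (nat_lit 186)) (XT.nd (nat_lit 78) (nat_lit 228) (nat_lit 0) (XT.lf (nat_lit 0) (nat_lit 12817141343) (nat_lit 228) (nat_lit 3170263914) (nat_lit 76) (nat_lit 2323803778) (nat_lit 30) (nat_lit 5) (nat_lit 33) (nat_lit 5) (nat_lit 31) (nat_lit 5) (nat_lit 336) (nat_lit 259) (nat_lit 185)) (XT.lf (nat_lit 0) (nat_lit 2813701645) (nat_lit 228) (nat_lit 12781614264) (nat_lit 304) (nat_lit 3139948149) (nat_lit 27) (nat_lit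 5) (nat_lit 30) (nat_lit 5) (nat_lit 31) (nat_lit 5) (nat_lit 337) (nat_lit 259) (nat_lit 184)))) (XT.nd (nat_lit 78) (nat_lit 228) (nat_lit 0) (XT.lf (nat_lit 0) (nat_lit 9009930885) (nat_lit 228) (nat_lit 9457821324) (nat_lit 304) (nat_lit 703998894) (nat_lit 27) (nat_lit 5) (nat_lit 30) (nat_lit 5) (nat_lit 31) (nat_lit 5) (nat_lit 338) (nat_lit 259) (nat_lit 183)) (XT.nd (nat_lit 78) (nat_lit 152) (nat_lit 0) (XT.lf (nat_lit 0) (nat_lit 1749084902) (nat_lit 304) (nat_lit 4278388369) (nat_lit 76) (nat_lit 13593996289) (nat_lit 26) (nat_lit 5) (nat_lit 30) (nat_lit 5) (nat_lit 27) (nat_lit 5) (nat_lit 339) (nat_lit 259) (nat_lit 182)) (XT.lf (nat_lit 0) (nat_lit 1778453412) (nat_lit 152) (nat_lit 2480135914) (nat_lit 228) (nat_lit 15826006455) (nat_lit 24) (nat_lit 5) (nat_lit 26) (nat_lit 5) (nat_lit 27) (nat_lit 5) (nat_lit 340) (nat_lit 259) (nat_lit 181))))))))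
noncomputable def xc110 : XT := (XT.nd (nat_lit 1716) (nat_lit 380) (nat_lit 0) (XT.nd (nat_lit 858) (nat_lit 304) (nat_lit 0) (XT.nd (nat_lit 390) (nat_lit 380) (nat_lit 0) (XT.nd (nat_lit 156) (nat_lit 152) (nat_lit 0) (XT.nd (nat_lit 78) (nat_lit 0) (nat_lit 0) (XT.lf (nat_lit 0) (nat_lit 6878363441) (nat_lit 228) (nat_lit 12498375897) (nat_lit 76) (nat_lit 1183860558) (nat_lit 24) (nat_lit 5) (nat_lit 27) (nat_lit 5) (nat_lit 25) (nat_lit 5) (nat_lit 341) (nat_lit 259) (nat_lit 180)) (XT.lf (nat_lit 0) (nat_lit 9581938909) (nat_lit 228) (nat_lit 6571077957) (nat_lit 76) (nat_lit 4897743689) (nat_lit 24) (nat_lit 5) (nat_lit 27) (nat_lit 5) (nat_lit 25) (nat_lit 5) (nat_lit 342) (nat_lit 259) (nat_lit 179))) (XT.nd (nat_lit 78) (nat_lit 152) (nat_lit 0) (XT.lf (nat_lit 0) (nat_lit 12347837494) (nat_lit 228) (nat_lit 495228775) (nat_lit 76) (nat_lit 8713155002) (nat_lit 24) (nat_lit 5) (nat_lit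 27) (nat_lit 5) (nat_lit 25) (nat_lit 5) (nat_lit 343) (nat_lit 259) (nat_lit 178)) (XT.nd (nat_lit 78) (nat_lit 0) (nat_lit 0) (XT.lf (nat_lit 0) (nat_lit 5848608054) (nat_lit 152) (nat_lit 9386088345) (nat_lit 228) (nat_lit 6841040696) (nat_lit 22) (nat_lit 5) (nat_lit 24) (nat_lit 5) (nat_lit 25) (nat_lit 5) (nat_lit 344) (nat_lit 259) (nat_lit 177)) (XT.lf (nat_lit 0) (nat_lit 12364775035) (nat_lit 152) (nat_lit 5830410549) (nat_lit 228) (nat_lit 4416071966) (nat_lit 22) (nat_lit 5) (nat_lit 24) (nat_lit 5) (nat_lit 25) (nat_lit 5) (nat_lit 345) (nat_lit 259) (nat_lit 176))))) (XT.nd (nat_lit 234) (nat_lit 152) (nat_lit 0) (XT.nd (nat_lit 78) (nat_lit 228) (nat_lit 0) (XT.lf (nat_lit 0) (nat_lit 19049109883) (nat_lit 152) (nat_lit 2177926818) (nat_lit 228) (nat_lit 1936359522) (nat_lit 22) (nat_lit 5) (nat_lit 24) (nat_lit 5) (nat_lit 25) (nat_lit 5) (nat_lit 346) (nat_lit 259) (nat_lit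 175)) (XT.nd (nat_lit 78) (nat_lit 0) (nat_lit 0) (XT.lf (nat_lit 0) (nat_lit 625218501) (nat_lit 228) (nat_lit 21535011849) (nat_lit 76) (nat_lit 1571132059) (nat_lit 19) (nat_lit 5) (nat_lit 22) (nat_lit 5) (nat_lit 20) (nat_lit 5) (nat_lit 347) (nat_lit 259) (nat_lit 174)) (XT.lf (nat_lit 0) (nat_lit 3271256098) (nat_lit 228) (nat_lit 15602688912) (nat_lit 76) (nat_lit 5440478038) (nat_lit 19) (nat_lit 5) (nat_lit 22) (nat_lit 5) (nat_lit 20) (nat_lit 5) (nat_lit 348) (nat_lit 259) (nat_lit 173)))) (XT.nd (nat_lit 78) (nat_lit 152) (nat_lit 0) (XT.lf (nat_lit 0) (nat_lit 5980179614) (nat_lit 228) (nat_lit 9518674217) (nat_lit 76) (nat_lit 9416642316) (nat_lit 19) (nat_lit 5) (nat_lit 22) (nat_lit 5) (nat_lit 20) (nat_lit 5) (nat_lit 349) (nat_lit 259) (nat_lit 172)) (XT.nd (nat_lit 78) (nat_lit 152) (nat_lit 0) (XT.lf (nat_lit 0) (nat_lit 8754356071) (nat_lit 228) (nat_lit 3277651635) (nat_lit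 76) (nat_lit 13503099212) (nat_lit 19) (nat_lit 5) (nat_lit 22) (nat_lit 5) (nat_lit 20) (nat_lit 5) (nat_lit 350) (nat_lit 259) (nat_lit 171)) (XT.lf (nat_lit 0) (nat_lit 3188042344) (nat_lit 152) (nat_lit 8438812575) (nat_lit 228) (nat_lit 14546022484) (nat_lit 17) (nat_lit 5) (nat_lit 19) (nat_lit 5) (nat_lit 20) (nat_lit 5) (nat_lit 351) (nat_lit 259) (nat_lit 170)))))) (XT.nd (nat_lit 390) (nat_lit 228) (nat_lit 0) (XT.nd (nat_lit 156) (nat_lit 76) (nat_lit 0) (XT.nd (nat_lit 78) (nat_lit 0) (nat_lit 0) (XT.lf (nat_lit 0) (nat_lit 9890369157) (nat_lit 152) (nat_lit 4712926212) (nat_lit 228) (nat_lit 12225976231) (nat_lit 17) (nat_lit 5) (nat_lit 19) (nat_lit 5) (nat_lit 20) (nat_lit 5) (nat_lit 352) (nat_lit 259) (nat_lit 169)) (XT.lf (nat_lit 0) (nat_lit 16769953511) (nat_lit 152) (nat_lit 884190846) (nat_lit 228) (nat_lit 9851682717) (nat_lit 17) (nat_lit 5) (nat_lit 19) (nat_lit 5)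 (nat_lit 20) (nat_lit 5) (nat_lit 353) (nat_lit 259) (nat_lit 168))) (XT.nd (nat_lit 78) (nat_lit 76) (nat_lit 0) (XT.lf (nat_lit 0) (nat_lit 20811393241) (nat_lit 228) (nat_lit 4399653864) (nat_lit 76) (nat_lit 2991208115) (nat_lit 17) (nat_lit 5) (nat_lit 20) (nat_lit 5) (nat_lit 18) (nat_lit 4) (nat_lit 354) (nat_lit 259) (nat_lit 167)) (XT.nd (nat_lit 78) (nat_lit 0) (nat_lit 0) (XT.lf (nat_lit 0) (nat_lit 2136787528) (nat_lit 76) (nat_lit 21941755410) (nat_lit 152) (nat_lit 4840599368) (nat_lit 16) (nat_lit 5) (nat_lit 17) (nat_lit 5) (nat_lit 18) (nat_lit 4) (nat_lit 355) (nat_lit 259) (nat_lit 166)) (XT.lf (nat_lit 0) (nat_lit 8936927399) (nat_lit 76) (nat_lit 18537290397) (nat_lit 152) (nat_lit 2182423854) (nat_lit 16) (nat_lit 5) (nat_lit 17) (nat_lit 5) (nat_lit 18) (nat_lit 4) (nat_lit 356) (nat_lit 259) (nat_lit 165))))) (XT.nd (nat_lit 234) (nat_lit 152) (nat_lit 0) (XT.nd (nat_lit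 78) (nat_lit 0) (nat_lit 0) (XT.lf (nat_lit 0) (nat_lit 530991588) (nat_lit 152) (nat_lit 14502751606) (nat_lit 76) (nat_lit 15382792316) (nat_lit 15) (nat_lit 5) (nat_lit 17) (nat_lit 5) (nat_lit 16) (nat_lit 5) (nat_lit 357) (nat_lit 259) (nat_lit 164)) (XT.nd (nat_lit 78) (nat_lit 0) (nat_lit 0) (XT.lf (nat_lit 0) (nat_lit 3268677371) (nat_lit 152) (nat_lit 8142458453) (nat_lit 76) (nat_lit 19787859331) (nat_lit 15) (nat_lit 5) (nat_lit 17) (nat_lit 5) (nat_lit 16) (nat_lit 5) (nat_lit 358) (nat_lit 259) (nat_lit 163)) (XT.lf (nat_lit 0) (nat_lit 6075612597) (nat_lit 152) (nat_lit 1612298463) (nat_lit 76) (nat_lit 24317422591) (nat_lit 15) (nat_lit 5) (nat_lit 17) (nat_lit 5) (nat_lit 16) (nat_lit 5) (nat_lit 359) (nat_lit 259) (nat_lit 162)))) (XT.nd (nat_lit 78) (nat_lit 0) (nat_lit 0) (XT.lf (nat_lit 0) (nat_lit 5194803661) (nat_lit 152) (nat_lit 3809381898) (nat_lit 228) (nat_lit 23830571938)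 (nat_lit 13) (nat_lit 5) (nat_lit 15) (nat_lit 5) (nat_lit 16) (nat_lit 5) (nat_lit 360) (nat_lit 259) (nat_lit 161)) (XT.nd (nat_lit 78) (nat_lit 0) (nat_lit 0) (XT.lf (nat_lit 0) (nat_lit 12026430950) (nat_lit 228) (nat_lit 21471795932) (nat_lit 76) (nat_lit 190680277) (nat_lit 13) (nat_lit 5) (nat_lit 16) (nat_lit 5) (nat_lit 14) (nat_lit 4) (nat_lit 361) (nat_lit 259) (nat_lit 160)) (XT.lf (nat_lit 0) (nat_lit 15165011634) (nat_lit 228) (nat_lit 15176159774) (nat_lit 76) (nat_lit 4226756912) (nat_lit 13) (nat_lit 5) (nat_lit 16) (nat_lit 5) (nat_lit 14) (nat_lit 4) (nat_lit 362) (nat_lit 259) (nat_lit 159))))))) (XT.nd (nat_lit 858) (nat_lit 76) (nat_lit 0) (XT.nd (nat_lit 390) (nat_lit 228) (nat_lit 0) (XT.nd (nat_lit 156) (nat_lit 76) (nat_lit 0) (XT.nd (nat_lit 78) (nat_lit 0) (nat_lit 0) (XT.lf (nat_lit 0) (nat_lit 18386051953) (nat_lit 228) (nat_lit 8710926210) (nat_lit 76) (nat_lit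 8376709437) (nat_lit 13) (nat_lit 5) (nat_lit 16) (nat_lit 5) (nat_lit 14) (nat_lit 4) (nat_lit 363) (nat_lit 259) (nat_lit 158)) (XT.lf (nat_lit 0) (nat_lit 21692366406) (nat_lit 228) (nat_lit 2070446007) (nat_lit 76) (nat_lit 12644164025) (nat_lit 13) (nat_lit 5) (nat_lit 16) (nat_lit 5) (nat_lit 14) (nat_lit 4) (nat_lit 364) (nat_lit 259) (nat_lit 157))) (XT.nd (nat_lit 78) (nat_lit 0) (nat_lit 0) (XT.lf (nat_lit 0) (nat_lit 4845639066) (nat_lit 76) (nat_lit 20287784189) (nat_lit 152) (nat_lit 12233789700) (nat_lit 12) (nat_lit 5) (nat_lit 13) (nat_lit 5) (nat_lit 14) (nat_lit 4) (nat_lit 365) (nat_lit 259) (nat_lit 156)) (XT.nd (nat_lit 78) (nat_lit 0) (nat_lit 0) (XT.lf (nat_lit 0) (nat_lit 11993661491) (nat_lit 76) (nat_lit 16694079725) (nat_lit 152) (nat_lit 9668229612) (nat_lit 12) (nat_lit 5) (nat_lit 13) (nat_lit 5) (nat_lit 14) (nat_lit 4) (nat_lit 366) (nat_lit 259) (nat_lit 155))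 (XT.lf (nat_lit 0) (nat_lit 19338661178) (nat_lit 76) (nat_lit 12999466338) (nat_lit 152) (nat_lit 7036595464) (nat_lit 12) (nat_lit 5) (nat_lit 13) (nat_lit 5) (nat_lit 14) (nat_lit 4) (nat_lit 367) (nat_lit 259) (nat_lit 154))))) (XT.nd (nat_lit 234) (nat_lit 152) (nat_lit 0) (XT.nd (nat_lit 78) (nat_lit 76) (nat_lit 0) (XT.lf (nat_lit 0) (nat_lit 26887056087) (nat_lit 76) (nat_lit 9200715726) (nat_lit 152) (nat_lit 4336587769) (nat_lit 12) (nat_lit 5) (nat_lit 13) (nat_lit 5) (nat_lit 14) (nat_lit 4) (nat_lit 368) (nat_lit 259) (nat_lit 153)) (XT.nd (nat_lit 78) (nat_lit 76) (nat_lit 0) (XT.lf (nat_lit 0) (nat_lit 34645441903) (nat_lit 76) (nat_lit 5294508590) (nat_lit 152) (nat_lit 1565847297) (nat_lit 12) (nat_lit 5) (nat_lit 13) (nat_lit 5) (nat_lit 14) (nat_lit 4) (nat_lit 369) (nat_lit 259) (nat_lit 152)) (XT.lf (nat_lit 0) (nat_lit 1253107686) (nat_lit 152) (nat_lit 11670123) (nat_lit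 76) (nat_lit 41354836180) (nat_lit 11) (nat_lit 5) (nat_lit 13) (nat_lit 5) (nat_lit 12) (nat_lit 5) (nat_lit 370) (nat_lit 259) (nat_lit 151)))) (XT.nd (nat_lit 78) (nat_lit 0) (nat_lit 0) (XT.lf (nat_lit 0) (nat_lit 4212922637) (nat_lit 228) (nat_lit 36642336560) (nat_lit 76) (nat_lit 2908500161) (nat_lit 9) (nat_lit 5) (nat_lit 12) (nat_lit 5) (nat_lit 10) (nat_lit 4) (nat_lit 371) (nat_lit 259) (nat_lit 150)) (XT.nd (nat_lit 78) (nat_lit 0) (nat_lit 0) (XT.lf (nat_lit 0) (nat_lit 7264751567) (nat_lit 228) (nat_lit 30501798577) (nat_lit 76) (nat_lit 7175594674) (nat_lit 9) (nat_lit 5) (nat_lit 12) (nat_lit 5) (nat_lit 10) (nat_lit 4) (nat_lit 372) (nat_lit 259) (nat_lit 149)) (XT.lf (nat_lit 0) (nat_lit 10398987757) (nat_lit 228) (nat_lit 24192381385) (nat_lit 76) (nat_lit 11564799082) (nat_lit 9) (nat_lit 5) (nat_lit 12) (nat_lit 5) (nat_lit 10) (nat_lit 4) (nat_lit 373) (nat_lit 259) (nat_lit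 148)))))) (XT.nd (nat_lit 390) (nat_lit 0) (nat_lit 0) (XT.nd (nat_lit 156) (nat_lit 76) (nat_lit 0) (XT.nd (nat_lit 78) (nat_lit 0) (nat_lit 0) (XT.lf (nat_lit 0) (nat_lit 13618369861) (nat_lit 228) (nat_lit 17708571902) (nat_lit 76) (nat_lit 16079948613) (nat_lit 9) (nat_lit 5) (nat_lit 12) (nat_lit 5) (nat_lit 10) (nat_lit 4) (nat_lit 374) (nat_lit 259) (nat_lit 147)) (XT.lf (nat_lit 0) (nat_lit 16925710932) (nat_lit 228) (nat_lit 11044704664) (nat_lit 76) (nat_lit 20724988543) (nat_lit 9) (nat_lit 5) (nat_lit 12) (nat_lit 5) (nat_lit 10) (nat_lit 4) (nat_lit 375) (nat_lit 259) (nat_lit 146))) (XT.nd (nat_lit 78) (nat_lit 76) (nat_lit 0) (XT.lf (nat_lit 0) (nat_lit 20323900878) (nat_lit 228) (nat_lit 4194956874) (nat_lit 76) (nat_lit 25503977644) (nat_lit 9) (nat_lit 5) (nat_lit 12) (nat_lit 5) (nat_lit 10) (nat_lit 4) (nat_lit 376) (nat_lit 259) (nat_lit 145)) (XT.nd (nat_lit 78) (nat_lit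 0) (nat_lit 0) (XT.lf (nat_lit 0) (nat_lit 2903310734) (nat_lit 76) (nat_lit 20940506657) (nat_lit 152) (nat_lit 27545689398) (nat_lit 8) (nat_lit 5) (nat_lit 9) (nat_lit 5) (nat_lit 10) (nat_lit 4) (nat_lit 377) (nat_lit 259) (nat_lit 144)) (XT.lf (nat_lit 0) (nat_lit 10287025804) (nat_lit 76) (nat_lit 17216645925) (nat_lit 152) (nat_lit 25292486697) (nat_lit 8) (nat_lit 5) (nat_lit 9) (nat_lit 5) (nat_lit 10) (nat_lit 4) (nat_lit 378) (nat_lit 259) (nat_lit 143))))) (XT.nd (nat_lit 234) (nat_lit 0) (nat_lit 0) (XT.nd (nat_lit 78) (nat_lit 0) (nat_lit 0) (XT.lf (nat_lit 0) (nat_lit 17879152258) (nat_lit 76) (nat_lit 13386382537) (nat_lit 152) (nat_lit 22979718439) (nat_lit 8) (nat_lit 5) (nat_lit 9) (nat_lit 5) (nat_lit 10) (nat_lit 4) (nat_lit 379) (nat_lit 259) (nat_lit 142)) (XT.nd (nat_lit 78) (nat_lit 0) (nat_lit 0) (XT.lf (nat_lit 0) (nat_lit 25686323993) (nat_lit 76) (nat_lit 9446369660)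 (nat_lit 152) (nat_lit 20605363757) (nat_lit 8) (nat_lit 5) (nat_lit 9) (nat_lit 5) (nat_lit 10) (nat_lit 4) (nat_lit 380) (nat_lit 259) (nat_lit 141)) (XT.lf (nat_lit 0) (nat_lit 33715362809) (nat_lit 76) (nat_lit 5393164566) (nat_lit 152) (nat_lit 18167347973) (nat_lit 8) (nat_lit 5) (nat_lit 9) (nat_lit 5) (nat_lit 10) (nat_lit 4) (nat_lit 381) (nat_lit 259) (nat_lit 140)))) (XT.nd (nat_lit 78) (nat_lit 0) (nat_lit 0) (XT.lf (nat_lit 0) (nat_lit 41973284371) (nat_lit 76) (nat_lit 1223225617) (nat_lit 152) (nat_lit 15663540782) (nat_lit 8) (nat_lit 5) (nat_lit 9) (nat_lit 5) (nat_lit 10) (nat_lit 4) (nat_lit 382) (nat_lit 259) (nat_lit 139)) (XT.nd (nat_lit 78) (nat_lit 0) (nat_lit 0) (XT.lf (nat_lit 0) (nat_lit 47429696272) (nat_lit 152) (nat_lit 10054146323) (nat_lit 0) (nat_lit 3007240831) (nat_lit 8) (nat_lit 5) (nat_lit 10) (nat_lit 4) (nat_lit 8) (nat_lit 4) (nat_lit 383) (nat_lit 259)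 (nat_lit 138)) (XT.lf (nat_lit 0) (nat_lit 51795228181) (nat_lit 152) (nat_lit 3040125116) (nat_lit 0) (nat_lit 7335541901) (nat_lit 8) (nat_lit 5) (nat_lit 10) (nat_lit 4) (nat_lit 8) (nat_lit 4) (nat_lit 384) (nat_lit 259) (nat_lit 137))))))))
noncomputable def xc111 : XT := (XT.nd (nat_lit 31668) (nat_lit 0) (nat_lit 8740) (XT.nd (nat_lit 858) (nat_lit 0) (nat_lit 0) (XT.nd (nat_lit 390) (nat_lit 76) (nat_lit 0) (XT.nd (nat_lit 156) (nat_lit 76) (nat_lit 0) (XT.nd (nat_lit 78) (nat_lit 0) (nat_lit 0) (XT.lf (nat_lit 0) (nat_lit 4256238923) (nat_lit 76) (nat_lit 52069836515) (nat_lit 76) (nat_lit 7574003789) (nat_lit 7) (nat_lit 4) (nat_lit 8) (nat_lit 5) (nat_lit 8) (nat_lit 4) (nat_lit 385) (nat_lit 259) (nat_lit 136)) (XT.lf (nat_lit 0) (nat_lit 11822790252) (nat_lit 76) (nat_lit 49194278210) (nat_lit 76) (nat_lit 4663351847) (nat_lit 7) (nat_lit 4) (nat_lit 8) (nat_lit 5) (nat_lit 8)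 (nat_lit 4) (nat_lit 386) (nat_lit 259) (nat_lit 135))) (XT.nd (nat_lit 78) (nat_lit 76) (nat_lit 0) (XT.lf (nat_lit 0) (nat_lit 19605635971) (nat_lit 76) (nat_lit 46236865059) (nat_lit 76) (nat_lit 1671867204) (nat_lit 7) (nat_lit 4) (nat_lit 8) (nat_lit 5) (nat_lit 8) (nat_lit 4) (nat_lit 387) (nat_lit 259) (nat_lit 134)) (XT.nd (nat_lit 78) (nat_lit 0) (nat_lit 0) (XT.lf (nat_lit 0) (nat_lit 1375685222) (nat_lit 152) (nat_lit 41805435970) (nat_lit 76) (nat_lit 26221999678) (nat_lit 6) (nat_lit 5) (nat_lit 8) (nat_lit 5) (nat_lit 7) (nat_lit 4) (nat_lit 388) (nat_lit 259) (nat_lit 133)) (XT.lf (nat_lit 0) (nat_lit 4475066177) (nat_lit 152) (nat_lit 35545808282) (nat_lit 76) (nat_lit 31327352122) (nat_lit 6) (nat_lit 5) (nat_lit 8) (nat_lit 5) (nat_lit 7) (nat_lit 4) (nat_lit 389) (nat_lit 259) (nat_lit 132))))) (XT.nd (nat_lit 234) (nat_lit 76) (nat_lit 0) (XT.nd (nat_lit 78) (nat_lit 0)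 (nat_lit 0) (XT.lf (nat_lit 0) (nat_lit 7661608007) (nat_lit 152) (nat_lit 29108308610) (nat_lit 76) (nat_lit 36581950485) (nat_lit 6) (nat_lit 5) (nat_lit 8) (nat_lit 5) (nat_lit 7) (nat_lit 4) (nat_lit 390) (nat_lit 259) (nat_lit 131)) (XT.nd (nat_lit 78) (nat_lit 0) (nat_lit 0) (XT.lf (nat_lit 0) (nat_lit 10938095068) (nat_lit 152) (nat_lit 22487311955) (nat_lit 76) (nat_lit 41990386165) (nat_lit 6) (nat_lit 5) (nat_lit 8) (nat_lit 5) (nat_lit 7) (nat_lit 4) (nat_lit 391) (nat_lit 259) (nat_lit 130)) (XT.lf (nat_lit 0) (nat_lit 14307390311) (nat_lit 152) (nat_lit 15677032980) (nat_lit 76) (nat_lit 47557384977) (nat_lit 6) (nat_lit 5) (nat_lit 8) (nat_lit 5) (nat_lit 7) (nat_lit 4) (nat_lit 392) (nat_lit 259) (nat_lit 129)))) (XT.nd (nat_lit 78) (nat_lit 76) (nat_lit 0) (XT.lf (nat_lit 0) (nat_lit 17772437780) (nat_lit 152) (nat_lit 8671520956) (nat_lit 76) (nat_lit 53287811292) (nat_lit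 6) (nat_lit 5) (nat_lit 8) (nat_lit 5) (nat_lit 7) (nat_lit 4) (nat_lit 393) (nat_lit 259) (nat_lit 128)) (XT.nd (nat_lit 78) (nat_lit 76) (nat_lit 0) (XT.lf (nat_lit 0) (nat_lit 21336265186) (nat_lit 152) (nat_lit 1464654562) (nat_lit 76) (nat_lit 59186672276) (nat_lit 6) (nat_lit 5) (nat_lit 8) (nat_lit 5) (nat_lit 7) (nat_lit 4) (nat_lit 394) (nat_lit 259) (nat_lit 127)) (XT.lf (nat_lit 0) (nat_lit 6068277412) (nat_lit 76) (nat_lit 18992041136) (nat_lit 152) (nat_lit 59249176858) (nat_lit 5) (nat_lit 5) (nat_lit 6) (nat_lit 5) (nat_lit 7) (nat_lit 4) (nat_lit 395) (nat_lit 259) (nat_lit 126)))))) (XT.nd (nat_lit 30342) (nat_lit 0) (nat_lit 17024) (XT.nd (nat_lit 30108) (nat_lit 0) (nat_lit 17860) (XT.nd (nat_lit 30030) (nat_lit 0) (nat_lit 18088) (XT.lf (nat_lit 0) (nat_lit 13848750836) (nat_lit 76) (nat_lit 15057176770) (nat_lit 152) (nat_lit 57794839142) (nat_lit 5) (nat_lit 5) (nat_lit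 6) (nat_lit 5) (nat_lit 7) (nat_lit 4) (nat_lit 396) (nat_lit 259) (nat_lit 125)) (XT.lf (nat_lit 0) (nat_lit 1073741823) (nat_lit 0) (nat_lit 0) (nat_lit 0) (nat_lit 0) (nat_lit 243) (nat_lit 0) (nat_lit 1) (nat_lit 0) (nat_lit 1) (nat_lit 0) (nat_lit 260) (nat_lit 260) (nat_lit 260))) (XT.nd (nat_lit 78) (nat_lit 152) (nat_lit 0) (XT.lf (nat_lit 0) (nat_lit 2679819309) (nat_lit 76) (nat_lit 3710911690) (nat_lit 0) (nat_lit 52800477) (nat_lit 242) (nat_lit 5) (nat_lit 243) (nat_lit 0) (nat_lit 242) (nat_lit 4) (nat_lit 261) (nat_lit 260) (nat_lit 259)) (XT.nd (nat_lit 78) (nat_lit 152) (nat_lit 0) (XT.lf (nat_lit 0) (nat_lit 5335970120) (nat_lit 76) (nat_lit 953940346) (nat_lit 0) (nat_lit 158447568) (nat_lit 242) (nat_lit 5) (nat_lit 243) (nat_lit 0) (nat_lit 242) (nat_lit 4) (nat_lit 262) (nat_lit 260) (nat_lit 258)) (XT.lf (nat_lit 0) (nat_lit 1502425509) (nat_lit 152) (nat_lit 4603815969)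 (nat_lit 76) (nat_lit 349712975) (nat_lit 240) (nat_lit 5) (nat_lit 242) (nat_lit 5) (nat_lit 241) (nat_lit 4) (nat_lit 263) (nat_lit 260) (nat_lit 257))))) (XT.nd (nat_lit 234) (nat_lit 608) (nat_lit 0) (XT.nd (nat_lit 78) (nat_lit 228) (nat_lit 0) (XT.lf (nat_lit 0) (nat_lit 4082918840) (nat_lit 152) (nat_lit 1769508881) (nat_lit 76) (nat_lit 614274335) (nat_lit 240) (nat_lit 5) (nat_lit 242) (nat_lit 5) (nat_lit 241) (nat_lit 4) (nat_lit 264) (nat_lit 260) (nat_lit 256)) (XT.nd (nat_lit 78) (nat_lit 0) (nat_lit 0) (XT.lf (nat_lit 0) (nat_lit 170063161) (nat_lit 228) (nat_lit 5366155485) (nat_lit 76) (nat_lit 944623759) (nat_lit 237) (nat_lit 5) (nat_lit 240) (nat_lit 5) (nat_lit 238) (nat_lit 5) (nat_lit 265) (nat_lit 260) (nat_lit 255)) (XT.lf (nat_lit 0) (nat_lit 2674306307) (nat_lit 228) (nat_lit 2454048003) (nat_lit 76) (nat_lit 1369189362) (nat_lit 237) (nat_lit 5) (nat_lit 240) (nat_lit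 5) (nat_lit 238) (nat_lit 5) (nat_lit 266) (nat_lit 260) (nat_lit 254)))) (XT.nd (nat_lit 78) (nat_lit 380) (nat_lit 0) (XT.lf (nat_lit 0) (nat_lit 499757134) (nat_lit 228) (nat_lit 4665177535) (nat_lit 304) (nat_lit 1352954689) (nat_lit 234) (nat_lit 5) (nat_lit 237) (nat_lit 5) (nat_lit 238) (nat_lit 5) (nat_lit 267) (nat_lit 260) (nat_lit 253)) (XT.nd (nat_lit 78) (nat_lit 304) (nat_lit 0) (XT.lf (nat_lit 0) (nat_lit 1100502353) (nat_lit 304) (nat_lit 3014491113) (nat_lit 76) (nat_lit 2425992414) (nat_lit 233) (nat_lit 5) (nat_lit 237) (nat_lit 5) (nat_lit 234) (nat_lit 5) (nat_lit 268) (nat_lit 260) (nat_lit 252)) (XT.lf (nat_lit 0) (nat_lit 10562016) (nat_lit 304) (nat_lit 3499898571) (nat_lit 380) (nat_lit 3057050419) (nat_lit 229) (nat_lit 5) (nat_lit 233) (nat_lit 5) (nat_lit 234) (nat_lit 5) (nat_lit 269) (nat_lit 260) (nat_lit 251))))))) (XT.nd (nat_lit 858) (nat_lit 5320) (nat_lit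 0) (XT.nd (nat_lit 390) (nat_lit 1976) (nat_lit 0) (XT.nd (nat_lit 156) (nat_lit 912) (nat_lit 0) (XT.nd (nat_lit 78) (nat_lit 76) (nat_lit 0) (XT.lf (nat_lit 0) (nat_lit 3133197318) (nat_lit 304) (nat_lit 2802043039) (nat_lit 380) (nat_lit 661743314) (nat_lit 229) (nat_lit 5) (nat_lit 233) (nat_lit 5) (nat_lit 234) (nat_lit 5) (nat_lit 270) (nat_lit 260) (nat_lit 250)) (XT.lf (nat_lit 0) (nat_lit 1683583707) (nat_lit 380) (nat_lit 350672942) (nat_lit 76) (nat_lit 4595564423) (nat_lit 228) (nat_lit 5) (nat_lit 233) (nat_lit 5) (nat_lit 229) (nat_lit 5) (nat_lit 271) (nat_lit 260) (nat_lit 249))) (XT.nd (nat_lit 78) (nat_lit 532) (nat_lit 0) (XT.lf (nat_lit 0) (nat_lit 2851042993) (nat_lit 380) (nat_lit 1178246730) (nat_lit 456) (nat_lit 2636248921) (nat_lit 223) (nat_lit 5) (nat_lit 228) (nat_lit 5) (nat_lit 229) (nat_lit 5) (nat_lit 272) (nat_lit 260) (nat_lit 248)) (XT.nd (nat_lit 78) (nat_lit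 532) (nat_lit 0) (XT.lf (nat_lit 0) (nat_lit 6102653946) (nat_lit 380) (nat_lit 264104021) (nat_lit 456) (nat_lit 338307847) (nat_lit 223) (nat_lit 5) (nat_lit 228) (nat_lit 5) (nat_lit 229) (nat_lit 5) (nat_lit 273) (nat_lit 260) (nat_lit 247)) (XT.lf (nat_lit 0) (nat_lit 1941111470) (nat_lit 532) (nat_lit 4069253973) (nat_lit 76) (nat_lit 736622615) (nat_lit 216) (nat_lit 5) (nat_lit 223) (nat_lit 5) (nat_lit 217) (nat_lit 5) (nat_lit 274) (nat_lit 260) (nat_lit 246))))) (XT.nd (nat_lit 234) (nat_lit 1368) (nat_lit 0) (XT.nd (nat_lit 78) (nat_lit 608) (nat_lit 0) (XT.lf (nat_lit 0) (nat_lit 4212056615) (nat_lit 532) (nat_lit 783577058) (nat_lit 76) (nat_lit 1796883092) (nat_lit 216) (nat_lit 5) (nat_lit 223) (nat_lit 5) (nat_lit 217) (nat_lit 5) (nat_lit 275) (nat_lit 260) (nat_lit 245)) (XT.nd (nat_lit 78) (nat_lit 76) (nat_lit 0) (XT.lf (nat_lit 0) (nat_lit 2596779428) (nat_lit 532) (nat_lit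 3902792714) (nat_lit 608) (nat_lit 341723380) (nat_lit 209) (nat_lit 5) (nat_lit 216) (nat_lit 5) (nat_lit 217) (nat_lit 5) (nat_lit 276) (nat_lit 260) (nat_lit 244)) (XT.lf (nat_lit 0) (nat_lit 1857965939) (nat_lit 608) (nat_lit 871506697) (nat_lit 76) (nat_lit 4163853099) (nat_lit 208) (nat_lit 5) (nat_lit 216) (nat_lit 5) (nat_lit 209) (nat_lit 5) (nat_lit 277) (nat_lit 260) (nat_lit 243)))) (XT.nd (nat_lit 78) (nat_lit 760) (nat_lit 0) (XT.lf (nat_lit 0) (nat_lit 2595732145) (nat_lit 608) (nat_lit 1472334782) (nat_lit 684) (nat_lit 2880518558) (nat_lit 200) (nat_lit 5) (nat_lit 208) (nat_lit 5) (nat_lit 209) (nat_lit 5) (nat_lit 278) (nat_lit 260) (nat_lit 242)) (XT.nd (nat_lit 78) (nat_lit 760) (nat_lit 0) (XT.lf (nat_lit 0) (nat_lit 6131155328) (nat_lit 608) (nat_lit 150082984) (nat_lit 684) (nat_lit 726461515) (nat_lit 200) (nat_lit 5) (nat_lit 208) (nat_lit 5) (nat_lit 209) (nat_lit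 5) (nat_lit 279) (nat_lit 260) (nat_lit 241)) (XT.lf (nat_lit 0) (nat_lit 1430238790) (nat_lit 760) (nat_lit 4393662077) (nat_lit 76) (nat_lit 1245524812) (nat_lit 190) (nat_lit 5) (nat_lit 200) (nat_lit 5) (nat_lit 191) (nat_lit 5) (nat_lit 280) (nat_lit 260) (nat_lit 240)))))) (XT.nd (nat_lit 468) (nat_lit 2736) (nat_lit 0) (XT.nd (nat_lit 234) (nat_lit 1748) (nat_lit 0) (XT.nd (nat_lit 78) (nat_lit 836) (nat_lit 0) (XT.lf (nat_lit 0) (nat_lit 3578258463) (nat_lit 760) (nat_lit 844704392) (nat_lit 76) (nat_lit 2711862462) (nat_lit 190) (nat_lit 5) (nat_lit 200) (nat_lit 5) (nat_lit 191) (nat_lit 5) (nat_lit 281) (nat_lit 260) (nat_lit 239)) (XT.nd (nat_lit 78) (nat_lit 76) (nat_lit 0) (XT.lf (nat_lit 0) (nat_lit 2811398472) (nat_lit 760) (nat_lit 2939155355) (nat_lit 836) (nat_lit 1453104448) (nat_lit 180) (nat_lit 5) (nat_lit 190) (nat_lit 5) (nat_lit 191) (nat_lit 5) (nat_lit 282) (nat_lit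 260) (nat_lit 238)) (XT.lf (nat_lit 0) (nat_lit 641500838) (nat_lit 836) (nat_lit 741973441) (nat_lit 76) (nat_lit 5892868453) (nat_lit 179) (nat_lit 5) (nat_lit 190) (nat_lit 5) (nat_lit 180) (nat_lit 5) (nat_lit 283) (nat_lit 260) (nat_lit 237)))) (XT.nd (nat_lit 78) (nat_lit 912) (nat_lit 0) (XT.lf (nat_lit 0) (nat_lit 2736585678) (nat_lit 912) (nat_lit 4346213432) (nat_lit 76) (nat_lit 269215357) (nat_lit 168) (nat_lit 5) (nat_lit 180) (nat_lit 5) (nat_lit 169) (nat_lit 5) (nat_lit 284) (nat_lit 260) (nat_lit 236)) (XT.nd (nat_lit 78) (nat_lit 912) (nat_lit 0) (XT.lf (nat_lit 0) (nat_lit 4852548606) (nat_lit 912) (nat_lit 617616402) (nat_lit 76) (nat_lit 1961287257) (nat_lit 168) (nat_lit 5) (nat_lit 180) (nat_lit 5) (nat_lit 169) (nat_lit 5) (nat_lit 285) (nat_lit 260) (nat_lit 235)) (XT.lf (nat_lit 0) (nat_lit 3232190460) (nat_lit 912) (nat_lit 3769472782) (nat_lit 988) (nat_lit 512749557)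 (nat_lit 156) (nat_lit 5) (nat_lit 168) (nat_lit 5) (nat_lit 169) (nat_lit 5) (nat_lit 286) (nat_lit 260) (nat_lit 234))))) (XT.nd (nat_lit 234) (nat_lit 1672) (nat_lit 0) (XT.nd (nat_lit 78) (nat_lit 988) (nat_lit 0) (XT.lf (nat_lit 0) (nat_lit 1529231548) (nat_lit 988) (nat_lit 459735241) (nat_lit 76) (nat_lit 5612285178) (nat_lit 155) (nat_lit 5) (nat_lit 168) (nat_lit 5) (nat_lit 156) (nat_lit 5) (nat_lit 287) (nat_lit 260) (nat_lit 233)) (XT.nd (nat_lit 78) (nat_lit 0) (nat_lit 0) (XT.lf (nat_lit 0) (nat_lit 3487369429) (nat_lit 988) (nat_lit 109160382) (nat_lit 1064) (nat_lit 4094993579) (nat_lit 142) (nat_lit 5) (nat_lit 155) (nat_lit 5) (nat_lit 156) (nat_lit 5) (nat_lit 288) (nat_lit 260) (nat_lit 232)) (XT.lf (nat_lit 0) (nat_lit 5690209298) (nat_lit 1064) (nat_lit 294167029) (nat_lit 76) (nat_lit 1801399923) (nat_lit 142) (nat_lit 5) (nat_lit 156) (nat_lit 5) (nat_lit 143) (nat_lit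 5) (nat_lit 289) (nat_lit 260) (nat_lit 231)))) (XT.nd (nat_lit 78) (nat_lit 608) (nat_lit 0) (XT.lf (nat_lit 0) (nat_lit 3752341863) (nat_lit 1064) (nat_lit 4075305245) (nat_lit 1140) (nat_lit 55979365) (nat_lit 128) (nat_lit 5) (nat_lit 142) (nat_lit 5) (nat_lit 143) (nat_lit 5) (nat_lit 290) (nat_lit 260) (nat_lit 230)) (XT.nd (nat_lit 78) (nat_lit 532) (nat_lit 0) (XT.lf (nat_lit 0) (nat_lit 1952091120) (nat_lit 1140) (nat_lit 131429348) (nat_lit 76) (nat_lit 5902072996) (nat_lit 127) (nat_lit 5) (nat_lit 142) (nat_lit 5) (nat_lit 128) (nat_lit 5) (nat_lit 291) (nat_lit 260) (nat_lit 229)) (XT.lf (nat_lit 0) (nat_lit 4003785987) (nat_lit 608) (nat_lit 4077288791) (nat_lit 76) (nat_lit 10174234) (nat_lit 120) (nat_lit 5) (nat_lit 128) (nat_lit 5) (nat_lit 121) (nat_lit 5) (nat_lit 292) (nat_lit 260) (nat_lit 228))))))))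
noncomputable def xc112 : XT := (XT.nd (nat_lit 1716) (nat_lit 2128) (nat_lit 0) (XT.nd (nat_lit 858) (nat_lit 2204) (nat_lit 0) (XT.nd (nat_lit 390) (nat_lit 988) (nat_lit 0) (XT.nd (nat_lit 156) (nat_lit 1064) (nat_lit 0) (XT.nd (nat_lit 78) (nat_lit 0) (nat_lit 0) (XT.lf (nat_lit 0) (nat_lit 12569211) (nat_lit 456) (nat_lit 6073470514) (nat_lit 532) (nat_lit 2115140372) (nat_lit 114) (nat_lit 5) (nat_lit 120) (nat_lit 5) (nat_lit 121) (nat_lit 5) (nat_lit 293) (nat_lit 260) (nat_lit 227)) (XT.lf (nat_lit 0) (nat_lit 4255821715) (nat_lit 456) (nat_lit 3964067697) (nat_lit 532) (nat_lit 95016834) (nat_lit 114) (nat_lit 5) (nat_lit 120) (nat_lit 5) (nat_lit 121) (nat_lit 5) (nat_lit 294) (nat_lit 260) (nat_lit 226))) (XT.nd (nat_lit 78) (nat_lit 456) (nat_lit 0) (XT.lf (nat_lit 0) (nat_lit 125160688) (nat_lit 532) (nat_lit 1771813004) (nat_lit 608) (nat_lit 6536158669) (nat_lit 106) (nat_lit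 5) (nat_lit 113) (nat_lit 5) (nat_lit 114) (nat_lit 5) (nat_lit 295) (nat_lit 260) (nat_lit 225)) (XT.nd (nat_lit 78) (nat_lit 456) (nat_lit 0) (XT.lf (nat_lit 0) (nat_lit 3942664815) (nat_lit 608) (nat_lit 4095207014) (nat_lit 76) (nat_lit 517286162) (nat_lit 106) (nat_lit 5) (nat_lit 114) (nat_lit 5) (nat_lit 107) (nat_lit 5) (nat_lit 296) (nat_lit 260) (nat_lit 224)) (XT.lf (nat_lit 0) (nat_lit 177778034) (nat_lit 456) (nat_lit 5842445162) (nat_lit 532) (nat_lit 2661658214) (nat_lit 100) (nat_lit 5) (nat_lit 106) (nat_lit 5) (nat_lit 107) (nat_lit 5) (nat_lit 297) (nat_lit 260) (nat_lit 223))))) (XT.nd (nat_lit 234) (nat_lit 456) (nat_lit 0) (XT.nd (nat_lit 78) (nat_lit 532) (nat_lit 0) (XT.lf (nat_lit 0) (nat_lit 4611322104) (nat_lit 456) (nat_lit 3542308947) (nat_lit 532) (nat_lit 659117289) (nat_lit 100) (nat_lit 5) (nat_lit 106) (nat_lit 5) (nat_lit 107) (nat_lit 5) (nat_lit 298) (nat_lit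 260) (nat_lit 222)) (XT.nd (nat_lit 78) (nat_lit 0) (nat_lit 0) (XT.lf (nat_lit 0) (nat_lit 168986296) (nat_lit 456) (nat_lit 1161712739) (nat_lit 532) (nat_lit 7617938933) (nat_lit 93) (nat_lit 5) (nat_lit 99) (nat_lit 5) (nat_lit 100) (nat_lit 5) (nat_lit 299) (nat_lit 260) (nat_lit 221)) (XT.lf (nat_lit 0) (nat_lit 3376013704) (nat_lit 532) (nat_lit 4402170394) (nat_lit 76) (nat_lit 1310087840) (nat_lit 93) (nat_lit 5) (nat_lit 100) (nat_lit 5) (nat_lit 94) (nat_lit 5) (nat_lit 300) (nat_lit 260) (nat_lit 220)))) (XT.nd (nat_lit 78) (nat_lit 76) (nat_lit 0) (XT.lf (nat_lit 0) (nat_lit 45411515) (nat_lit 380) (nat_lit 5404362561) (nat_lit 456) (nat_lit 3783439307) (nat_lit 88) (nat_lit 5) (nat_lit 93) (nat_lit 5) (nat_lit 94) (nat_lit 5) (nat_lit 301) (nat_lit 260) (nat_lit 219)) (XT.nd (nat_lit 78) (nat_lit 76) (nat_lit 0) (XT.lf (nat_lit 0) (nat_lit 4666549372) (nat_lit 380) (nat_lit 2919623487)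 (nat_lit 456) (nat_lit 1796444672) (nat_lit 88) (nat_lit 5) (nat_lit 93) (nat_lit 5) (nat_lit 94) (nat_lit 5) (nat_lit 302) (nat_lit 260) (nat_lit 218)) (XT.lf (nat_lit 0) (nat_lit 201988621) (nat_lit 456) (nat_lit 162220723) (nat_lit 76) (nat_lit 9173640930) (nat_lit 87) (nat_lit 5) (nat_lit 93) (nat_lit 5) (nat_lit 88) (nat_lit 5) (nat_lit 303) (nat_lit 260) (nat_lit 217)))))) (XT.nd (nat_lit 390) (nat_lit 988) (nat_lit 0) (XT.nd (nat_lit 156) (nat_lit 836) (nat_lit 0) (XT.nd (nat_lit 78) (nat_lit 0) (nat_lit 0) (XT.lf (nat_lit 0) (nat_lit 2248337251) (nat_lit 456) (nat_lit 5168545967) (nat_lit 76) (nat_lit 2279717543) (nat_lit 82) (nat_lit 5) (nat_lit 88) (nat_lit 5) (nat_lit 83) (nat_lit 5) (nat_lit 304) (nat_lit 260) (nat_lit 216)) (XT.lf (nat_lit 0) (nat_lit 4320011350) (nat_lit 456) (nat_lit 550327370) (nat_lit 76) (nat_lit 4990970030) (nat_lit 82) (nat_lit 5) (nat_lit 88) (nat_lit 5)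 (nat_lit 83) (nat_lit 5) (nat_lit 305) (nat_lit 260) (nat_lit 215))) (XT.nd (nat_lit 78) (nat_lit 456) (nat_lit 0) (XT.lf (nat_lit 0) (nat_lit 4241630135) (nat_lit 380) (nat_lit 2212856980) (nat_lit 456) (nat_lit 3576561068) (nat_lit 77) (nat_lit 5) (nat_lit 82) (nat_lit 5) (nat_lit 83) (nat_lit 5) (nat_lit 306) (nat_lit 260) (nat_lit 214)) (XT.nd (nat_lit 78) (nat_lit 456) (nat_lit 0) (XT.lf (nat_lit 0) (nat_lit 8624169743) (nat_lit 456) (nat_lit 1070506286) (nat_lit 76) (nat_lit 512175144) (nat_lit 77) (nat_lit 5) (nat_lit 83) (nat_lit 5) (nat_lit 78) (nat_lit 5) (nat_lit 307) (nat_lit 260) (nat_lit 213)) (XT.lf (nat_lit 0) (nat_lit 481981772) (nat_lit 456) (nat_lit 6596951549) (nat_lit 76) (nat_lit 3308354783) (nat_lit 71) (nat_lit 5) (nat_lit 77) (nat_lit 5) (nat_lit 72) (nat_lit 5) (nat_lit 308) (nat_lit 260) (nat_lit 212))))) (XT.nd (nat_lit 234) (nat_lit 684) (nat_lit 0) (XT.nd (nat_lit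 78) (nat_lit 304) (nat_lit 0) (XT.lf (nat_lit 0) (nat_lit 2549559946) (nat_lit 456) (nat_lit 1816956216) (nat_lit 76) (nat_lit 6207065824) (nat_lit 71) (nat_lit 5) (nat_lit 77) (nat_lit 5) (nat_lit 72) (nat_lit 5) (nat_lit 309) (nat_lit 260) (nat_lit 211)) (XT.nd (nat_lit 78) (nat_lit 0) (nat_lit 0) (XT.lf (nat_lit 0) (nat_lit 3121412823) (nat_lit 304) (nat_lit 1550736560) (nat_lit 380) (nat_lit 6093620453) (nat_lit 67) (nat_lit 5) (nat_lit 71) (nat_lit 5) (nat_lit 72) (nat_lit 5) (nat_lit 310) (nat_lit 260) (nat_lit 210)) (XT.lf (nat_lit 0) (nat_lit 6853450740) (nat_lit 380) (nat_lit 2777729756) (nat_lit 76) (nat_lit 1332783709) (nat_lit 67) (nat_lit 5) (nat_lit 72) (nat_lit 5) (nat_lit 68) (nat_lit 5) (nat_lit 311) (nat_lit 260) (nat_lit 209)))) (XT.nd (nat_lit 78) (nat_lit 380) (nat_lit 0) (XT.lf (nat_lit 0) (nat_lit 2217590837) (nat_lit 304) (nat_lit 6883865631) (nat_lit 380) (nat_lit 2066699213)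 (nat_lit 63) (nat_lit 5) (nat_lit 67) (nat_lit 5) (nat_lit 68) (nat_lit 5) (nat_lit 312) (nat_lit 260) (nat_lit 208)) (XT.nd (nat_lit 78) (nat_lit 304) (nat_lit 0) (XT.lf (nat_lit 0) (nat_lit 30772787) (nat_lit 380) (nat_lit 4004133551) (nat_lit 76) (nat_lit 7343846795) (nat_lit 62) (nat_lit 5) (nat_lit 67) (nat_lit 5) (nat_lit 63) (nat_lit 5) (nat_lit 313) (nat_lit 260) (nat_lit 207)) (XT.lf (nat_lit 0) (nat_lit 1046407889) (nat_lit 304) (nat_lit 1079073275) (nat_lit 380) (nat_lit 9470379610) (nat_lit 58) (nat_lit 5) (nat_lit 62) (nat_lit 5) (nat_lit 63) (nat_lit 5) (nat_lit 314) (nat_lit 260) (nat_lit 206))))))) (XT.nd (nat_lit 858) (nat_lit 912) (nat_lit 0) (XT.nd (nat_lit 390) (nat_lit 608) (nat_lit 0) (XT.nd (nat_lit 156) (nat_lit 608) (nat_lit 0) (XT.nd (nat_lit 78) (nat_lit 0) (nat_lit 0) (XT.lf (nat_lit 0) (nat_lit 4309027566) (nat_lit 380) (nat_lit 5551811899) (nat_lit 76) (nat_lit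 1957941561) (nat_lit 58) (nat_lit 5) (nat_lit 63) (nat_lit 5) (nat_lit 59) (nat_lit 5) (nat_lit 315) (nat_lit 260) (nat_lit 205)) (XT.lf (nat_lit 0) (nat_lit 6536016270) (nat_lit 380) (nat_lit 458417187) (nat_lit 76) (nat_lit 5054694325) (nat_lit 58) (nat_lit 5) (nat_lit 63) (nat_lit 5) (nat_lit 59) (nat_lit 5) (nat_lit 316) (nat_lit 260) (nat_lit 204))) (XT.nd (nat_lit 78) (nat_lit 304) (nat_lit 0) (XT.lf (nat_lit 0) (nat_lit 4840000341) (nat_lit 304) (nat_lit 4004545180) (nat_lit 380) (nat_lit 3441472226) (nat_lit 54) (nat_lit 5) (nat_lit 58) (nat_lit 5) (nat_lit 59) (nat_lit 5) (nat_lit 317) (nat_lit 260) (nat_lit 203)) (XT.nd (nat_lit 78) (nat_lit 304) (nat_lit 0) (XT.lf (nat_lit 0) (nat_lit 10264956603) (nat_lit 304) (nat_lit 930733135) (nat_lit 380) (nat_lit 1335196455) (nat_lit 54) (nat_lit 5) (nat_lit 58) (nat_lit 5) (nat_lit 59) (nat_lit 5) (nat_lit 318) (nat_lit 260) (nat_lit 202))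 (XT.lf (nat_lit 0) (nat_lit 838627815) (nat_lit 304) (nat_lit 9724342703) (nat_lit 76) (nat_lit 2219338786) (nat_lit 50) (nat_lit 5) (nat_lit 54) (nat_lit 5) (nat_lit 51) (nat_lit 5) (nat_lit 319) (nat_lit 260) (nat_lit 201))))) (XT.nd (nat_lit 234) (nat_lit 304) (nat_lit 0) (XT.nd (nat_lit 78) (nat_lit 304) (nat_lit 0) (XT.lf (nat_lit 0) (nat_lit 3052824829) (nat_lit 304) (nat_lit 4516960473) (nat_lit 76) (nat_lit 5471099789) (nat_lit 50) (nat_lit 5) (nat_lit 54) (nat_lit 5) (nat_lit 51) (nat_lit 5) (nat_lit 320) (nat_lit 260) (nat_lit 200)) (XT.nd (nat_lit 78) (nat_lit 0) (nat_lit 0) (XT.lf (nat_lit 0) (nat_lit 822162966) (nat_lit 304) (nat_lit 4489742257) (nat_lit 380) (nat_lit 7996023669) (nat_lit 46) (nat_lit 5) (nat_lit 50) (nat_lit 5) (nat_lit 51) (nat_lit 5) (nat_lit 321) (nat_lit 260) (nat_lit 199)) (XT.lf (nat_lit 0) (nat_lit 6373927042) (nat_lit 304) (nat_lit 1281469688) (nat_lit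 380) (nat_lit 5927150702) (nat_lit 46) (nat_lit 5) (nat_lit 50) (nat_lit 5) (nat_lit 51) (nat_lit 5) (nat_lit 322) (nat_lit 260) (nat_lit 198)))) (XT.nd (nat_lit 78) (nat_lit 304) (nat_lit 0) (XT.lf (nat_lit 0) (nat_lit 10060405859) (nat_lit 380) (nat_lit 1832365470) (nat_lit 76) (nat_lit 1972957578) (nat_lit 46) (nat_lit 5) (nat_lit 51) (nat_lit 5) (nat_lit 47) (nat_lit 5) (nat_lit 323) (nat_lit 260) (nat_lit 197)) (XT.nd (nat_lit 78) (nat_lit 76) (nat_lit 0) (XT.lf (nat_lit 0) (nat_lit 3726608664) (nat_lit 228) (nat_lit 8832055275) (nat_lit 304) (nat_lit 1598167921) (nat_lit 43) (nat_lit 5) (nat_lit 46) (nat_lit 5) (nat_lit 47) (nat_lit 5) (nat_lit 324) (nat_lit 260) (nat_lit 196)) (XT.lf (nat_lit 0) (nat_lit 653408848) (nat_lit 304) (nat_lit 5011693485) (nat_lit 76) (nat_lit 8791684985) (nat_lit 42) (nat_lit 5) (nat_lit 46) (nat_lit 5) (nat_lit 43) (nat_lit 5) (nat_lit 325) (nat_lit 260)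 (nat_lit 195)))))) (XT.nd (nat_lit 390) (nat_lit 456) (nat_lit 0) (XT.nd (nat_lit 156) (nat_lit 228) (nat_lit 0) (XT.nd (nat_lit 78) (nat_lit 0) (nat_lit 0) (XT.lf (nat_lit 0) (nat_lit 526145622) (nat_lit 228) (nat_lit 2392814708) (nat_lit 304) (nat_lit 11847003924) (nat_lit 39) (nat_lit 5) (nat_lit 42) (nat_lit 5) (nat_lit 43) (nat_lit 5) (nat_lit 326) (nat_lit 260) (nat_lit 194)) (XT.lf (nat_lit 0) (nat_lit 5286782210) (nat_lit 304) (nat_lit 8797990210) (nat_lit 76) (nat_lit 998667379) (nat_lit 39) (nat_lit 5) (nat_lit 43) (nat_lit 5) (nat_lit 40) (nat_lit 5) (nat_lit 327) (nat_lit 260) (nat_lit 193))) (XT.nd (nat_lit 78) (nat_lit 228) (nat_lit 0) (XT.lf (nat_lit 0) (nat_lit 7723889992) (nat_lit 304) (nat_lit 3253537884) (nat_lit 76) (nat_lit 4433115085) (nat_lit 39) (nat_lit 5) (nat_lit 43) (nat_lit 5) (nat_lit 40) (nat_lit 5) (nat_lit 328) (nat_lit 260) (nat_lit 192)) (XT.nd (nat_lit 78)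 (nat_lit 0) (nat_lit 0) (XT.lf (nat_lit 0) (nat_lit 2469574504) (nat_lit 228) (nat_lit 7763576548) (nat_lit 304) (nat_lit 5514386373) (nat_lit 36) (nat_lit 5) (nat_lit 39) (nat_lit 5) (nat_lit 40) (nat_lit 5) (nat_lit 329) (nat_lit 260) (nat_lit 191)) (XT.lf (nat_lit 0) (nat_lit 8395562408) (nat_lit 228) (nat_lit 4430660896) (nat_lit 304) (nat_lit 3268210384) (nat_lit 36) (nat_lit 5) (nat_lit 39) (nat_lit 5) (nat_lit 40) (nat_lit 5) (nat_lit 330) (nat_lit 260) (nat_lit 190))))) (XT.nd (nat_lit 234) (nat_lit 152) (nat_lit 0) (XT.nd (nat_lit 78) (nat_lit 304) (nat_lit 0) (XT.lf (nat_lit 0) (nat_lit 14464852090) (nat_lit 228) (nat_lit 1008623019) (nat_lit 304) (nat_lit 979016680) (nat_lit 36) (nat_lit 5) (nat_lit 39) (nat_lit 5) (nat_lit 40) (nat_lit 5) (nat_lit 331) (nat_lit 260) (nat_lit 189)) (XT.nd (nat_lit 78) (nat_lit 0) (nat_lit 0) (XT.lf (nat_lit 0) (nat_lit 1391059903) (nat_lit 304) (nat_lit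 12920817305) (nat_lit 76) (nat_lit 2507887288) (nat_lit 32) (nat_lit 5) (nat_lit 36) (nat_lit 5) (nat_lit 33) (nat_lit 5) (nat_lit 332) (nat_lit 260) (nat_lit 188)) (XT.lf (nat_lit 0) (nat_lit 3819870048) (nat_lit 304) (nat_lit 7248725385) (nat_lit 76) (nat_lit 6128992515) (nat_lit 32) (nat_lit 5) (nat_lit 36) (nat_lit 5) (nat_lit 33) (nat_lit 5) (nat_lit 333) (nat_lit 260) (nat_lit 187)))) (XT.nd (nat_lit 78) (nat_lit 152) (nat_lit 0) (XT.lf (nat_lit 0) (nat_lit 6299265057) (nat_lit 304) (nat_lit 1439742717) (nat_lit 76) (nat_lit 9848448092) (nat_lit 32) (nat_lit 5) (nat_lit 36) (nat_lit 5) (nat_lit 33) (nat_lit 5) (nat_lit 334) (nat_lit 260) (nat_lit 186)) (XT.nd (nat_lit 78) (nat_lit 0) (nat_lit 0) (XT.lf (nat_lit 0) (nat_lit 4600988364) (nat_lit 152) (nat_lit 4274650539) (nat_lit 228) (nat_lit 9112743181) (nat_lit 30) (nat_lit 5) (nat_lit 32) (nat_lit 5) (nat_lit 33) (nat_lit 5) (nat_lit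 335) (nat_lit 260) (nat_lit 185)) (XT.lf (nat_lit 0) (nat_lit 10820468467) (nat_lit 152) (nat_lit 702066095) (nat_lit 228) (nat_lit 6879043610) (nat_lit 30) (nat_lit 5) (nat_lit 32) (nat_lit 5) (nat_lit 33) (nat_lit 5) (nat_lit 336) (nat_lit 260) (nat_lit 184))))))))
noncomputable def xc113 : XT := (XT.nd (nat_lit 1716) (nat_lit 532) (nat_lit 0) (XT.nd (nat_lit 858) (nat_lit 532) (nat_lit 0) (XT.nd (nat_lit 390) (nat_lit 152) (nat_lit 0) (XT.nd (nat_lit 156) (nat_lit 228) (nat_lit 0) (XT.nd (nat_lit 78) (nat_lit 228) (nat_lit 0) (XT.lf (nat_lit 0) (nat_lit 14256673509) (nat_lit 228) (nat_lit 1660874024) (nat_lit 76) (nat_lit 2909425385) (nat_lit 30) (nat_lit 5) (nat_lit 33) (nat_lit 5) (nat_lit 31) (nat_lit 5) (nat_lit 337) (nat_lit 260) (nat_lit 183)) (XT.lf (nat_lit 0) (nat_lit 4486880131) (nat_lit 228) (nat_lit 12615856707) (nat_lit 304) (nat_lit 2161532423) (nat_lit 27) (nat_lit 5) (nat_lit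 30) (nat_lit 5) (nat_lit 31) (nat_lit 5) (nat_lit 338) (nat_lit 260) (nat_lit 182))) (XT.nd (nat_lit 78) (nat_lit 152) (nat_lit 0) (XT.lf (nat_lit 0) (nat_lit 310082862) (nat_lit 304) (nat_lit 8895132178) (nat_lit 76) (nat_lit 10509507378) (nat_lit 26) (nat_lit 5) (nat_lit 30) (nat_lit 5) (nat_lit 27) (nat_lit 5) (nat_lit 339) (nat_lit 260) (nat_lit 181)) (XT.nd (nat_lit 78) (nat_lit 152) (nat_lit 0) (XT.lf (nat_lit 0) (nat_lit 2792870113) (nat_lit 304) (nat_lit 2887737728) (nat_lit 76) (nat_lit 14498058887) (nat_lit 26) (nat_lit 5) (nat_lit 30) (nat_lit 5) (nat_lit 27) (nat_lit 5) (nat_lit 340) (nat_lit 260) (nat_lit 180)) (XT.lf (nat_lit 0) (nat_lit 3335917127) (nat_lit 152) (nat_lit 2027327785) (nat_lit 228) (nat_lit 15292924001) (nat_lit 24) (nat_lit 5) (nat_lit 26) (nat_lit 5) (nat_lit 27) (nat_lit 5) (nat_lit 341) (nat_lit 260) (nat_lit 179))))) (XT.nd (nat_lit 234) (nat_lit 0) (nat_lit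 0) (XT.nd (nat_lit 78) (nat_lit 152) (nat_lit 0) (XT.lf (nat_lit 0) (nat_lit 8038079191) (nat_lit 228) (nat_lit 11387883515) (nat_lit 76) (nat_lit 1721244723) (nat_lit 24) (nat_lit 5) (nat_lit 27) (nat_lit 5) (nat_lit 25) (nat_lit 5) (nat_lit 342) (nat_lit 260) (nat_lit 178)) (XT.nd (nat_lit 78) (nat_lit 152) (nat_lit 0) (XT.lf (nat_lit 0) (nat_lit 10794994015) (nat_lit 228) (nat_lit 5326031986) (nat_lit 76) (nat_lit 5531926823) (nat_lit 24) (nat_lit 5) (nat_lit 27) (nat_lit 5) (nat_lit 25) (nat_lit 5) (nat_lit 343) (nat_lit 260) (nat_lit 177)) (XT.lf (nat_lit 0) (nat_lit 907801964) (nat_lit 152) (nat_lit 12717834806) (nat_lit 228) (nat_lit 8548533087) (nat_lit 22) (nat_lit 5) (nat_lit 24) (nat_lit 5) (nat_lit 25) (nat_lit 5) (nat_lit 344) (nat_lit 260) (nat_lit 176)))) (XT.nd (nat_lit 78) (nat_lit 0) (nat_lit 0) (XT.lf (nat_lit 0) (nat_lit 7410512224) (nat_lit 152) (nat_lit 9167016320) (nat_lit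 228) (nat_lit 6132433987) (nat_lit 22) (nat_lit 5) (nat_lit 24) (nat_lit 5) (nat_lit 25) (nat_lit 5) (nat_lit 345) (nat_lit 260) (nat_lit 175)) (XT.nd (nat_lit 78) (nat_lit 0) (nat_lit 0) (XT.lf (nat_lit 0) (nat_lit 14081782295) (nat_lit 152) (nat_lit 5519250365) (nat_lit 228) (nat_lit 3661332834) (nat_lit 22) (nat_lit 5) (nat_lit 24) (nat_lit 5) (nat_lit 25) (nat_lit 5) (nat_lit 346) (nat_lit 260) (nat_lit 174)) (XT.lf (nat_lit 0) (nat_lit 20927441440) (nat_lit 152) (nat_lit 1771349574) (nat_lit 228) (nat_lit 1133070413) (nat_lit 22) (nat_lit 5) (nat_lit 24) (nat_lit 5) (nat_lit 25) (nat_lit 5) (nat_lit 347) (nat_lit 260) (nat_lit 173)))))) (XT.nd (nat_lit 390) (nat_lit 152) (nat_lit 0) (XT.nd (nat_lit 156) (nat_lit 152) (nat_lit 0) (XT.nd (nat_lit 78) (nat_lit 0) (nat_lit 0) (XT.lf (nat_lit 0) (nat_lit 1481167820) (nat_lit 228) (nat_lit 20847360178) (nat_lit 76) (nat_lit 2088350814) (nat_lit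 19) (nat_lit 5) (nat_lit 22) (nat_lit 5) (nat_lit 20) (nat_lit 5) (nat_lit 348) (nat_lit 260) (nat_lit 172)) (XT.lf (nat_lit 0) (nat_lit 4182202289) (nat_lit 228) (nat_lit 14775913243) (nat_lit 76) (nat_lit 6060085382) (nat_lit 19) (nat_lit 5) (nat_lit 22) (nat_lit 5) (nat_lit 20) (nat_lit 5) (nat_lit 349) (nat_lit 260) (nat_lit 171))) (XT.nd (nat_lit 78) (nat_lit 152) (nat_lit 0) (XT.lf (nat_lit 0) (nat_lit 6948719477) (nat_lit 228) (nat_lit 8547092370) (nat_lit 76) (nat_lit 10142241589) (nat_lit 19) (nat_lit 5) (nat_lit 22) (nat_lit 5) (nat_lit 20) (nat_lit 5) (nat_lit 350) (nat_lit 260) (nat_lit 170)) (XT.nd (nat_lit 78) (nat_lit 152) (nat_lit 0) (XT.lf (nat_lit 0) (nat_lit 9783136728) (nat_lit 228) (nat_lit 2155454898) (nat_lit 76) (nat_lit 14338386366) (nat_lit 19) (nat_lit 5) (nat_lit 22) (nat_lit 5) (nat_lit 20) (nat_lit 5) (nat_lit 351) (nat_lit 260) (nat_lit 169)) (XT.lf (nat_lit 0)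 (nat_lit 4492243956) (nat_lit 152) (nat_lit 8238868959) (nat_lit 228) (nat_lit 14203124488) (nat_lit 17) (nat_lit 5) (nat_lit 19) (nat_lit 5) (nat_lit 20) (nat_lit 5) (nat_lit 352) (nat_lit 260) (nat_lit 168))))) (XT.nd (nat_lit 234) (nat_lit 152) (nat_lit 0) (XT.nd (nat_lit 78) (nat_lit 0) (nat_lit 0) (XT.lf (nat_lit 0) (nat_lit 11360439787) (nat_lit 152) (nat_lit 4414403326) (nat_lit 228) (nat_lit 11836174284) (nat_lit 17) (nat_lit 5) (nat_lit 19) (nat_lit 5) (nat_lit 20) (nat_lit 5) (nat_lit 353) (nat_lit 260) (nat_lit 167)) (XT.nd (nat_lit 78) (nat_lit 0) (nat_lit 0) (XT.lf (nat_lit 0) (nat_lit 18412236150) (nat_lit 152) (nat_lit 483618830) (nat_lit 228) (nat_lit 9412688311) (nat_lit 17) (nat_lit 5) (nat_lit 19) (nat_lit 5) (nat_lit 20) (nat_lit 5) (nat_lit 354) (nat_lit 260) (nat_lit 166)) (XT.lf (nat_lit 0) (nat_lit 22131066900) (nat_lit 228) (nat_lit 3407821050) (nat_lit 76) (nat_lit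 3487510888) (nat_lit 17) (nat_lit 5) (nat_lit 20) (nat_lit 5) (nat_lit 18) (nat_lit 4) (nat_lit 355) (nat_lit 260) (nat_lit 165)))) (XT.nd (nat_lit 78) (nat_lit 76) (nat_lit 0) (XT.lf (nat_lit 0) (nat_lit 3313695717) (nat_lit 76) (nat_lit 22172979945) (nat_lit 152) (nat_lit 4278434530) (nat_lit 16) (nat_lit 5) (nat_lit 17) (nat_lit 5) (nat_lit 18) (nat_lit 4) (nat_lit 356) (nat_lit 260) (nat_lit 164)) (XT.nd (nat_lit 78) (nat_lit 76) (nat_lit 0) (XT.lf (nat_lit 0) (nat_lit 10285428000) (nat_lit 76) (nat_lit 18678818694) (nat_lit 152) (nat_lit 1561117134) (nat_lit 16) (nat_lit 5) (nat_lit 17) (nat_lit 5) (nat_lit 18) (nat_lit 4) (nat_lit 357) (nat_lit 260) (nat_lit 163)) (XT.lf (nat_lit 0) (nat_lit 1200686282) (nat_lit 152) (nat_lit 13874952498) (nat_lit 76) (nat_lit 16232834424) (nat_lit 15) (nat_lit 5) (nat_lit 17) (nat_lit 5) (nat_lit 16) (nat_lit 5) (nat_lit 358) (nat_lit 260) (nat_lit 162)))))))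 (XT.nd (nat_lit 858) (nat_lit 304) (nat_lit 0) (XT.nd (nat_lit 390) (nat_lit 76) (nat_lit 0) (XT.nd (nat_lit 156) (nat_lit 152) (nat_lit 0) (XT.nd (nat_lit 78) (nat_lit 0) (nat_lit 0) (XT.lf (nat_lit 0) (nat_lit 4001460941) (nat_lit 152) (nat_lit 7354808269) (nat_lit 76) (nat_lit 20758736216) (nat_lit 15) (nat_lit 5) (nat_lit 17) (nat_lit 5) (nat_lit 16) (nat_lit 5) (nat_lit 359) (nat_lit 260) (nat_lit 161)) (XT.lf (nat_lit 0) (nat_lit 6874117139) (nat_lit 152) (nat_lit 658799515) (nat_lit 76) (nat_lit 25413198769) (nat_lit 15) (nat_lit 5) (nat_lit 17) (nat_lit 5) (nat_lit 16) (nat_lit 5) (nat_lit 360) (nat_lit 260) (nat_lit 160))) (XT.nd (nat_lit 78) (nat_lit 0) (nat_lit 0) (XT.lf (nat_lit 0) (nat_lit 6342693438) (nat_lit 152) (nat_lit 3539441376) (nat_lit 228) (nat_lit 23918565501) (nat_lit 13) (nat_lit 5) (nat_lit 15) (nat_lit 5) (nat_lit 16) (nat_lit 5) (nat_lit 361) (nat_lit 260) (nat_lit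 159)) (XT.nd (nat_lit 78) (nat_lit 0) (nat_lit 0) (XT.lf (nat_lit 0) (nat_lit 12980929766) (nat_lit 228) (nat_lit 21137840881) (nat_lit 76) (nat_lit 562152553) (nat_lit 13) (nat_lit 5) (nat_lit 16) (nat_lit 5) (nat_lit 14) (nat_lit 4) (nat_lit 362) (nat_lit 260) (nat_lit 158)) (XT.lf (nat_lit 0) (nat_lit 16196375467) (nat_lit 228) (nat_lit 14681824247) (nat_lit 76) (nat_lit 4708658520) (nat_lit 13) (nat_lit 5) (nat_lit 16) (nat_lit 5) (nat_lit 14) (nat_lit 4) (nat_lit 363) (nat_lit 260) (nat_lit 157))))) (XT.nd (nat_lit 234) (nat_lit 0) (nat_lit 0) (XT.nd (nat_lit 78) (nat_lit 76) (nat_lit 0) (XT.lf (nat_lit 0) (nat_lit 19497258253) (nat_lit 228) (nat_lit 8050292521) (nat_lit 76) (nat_lit 8972766935) (nat_lit 13) (nat_lit 5) (nat_lit 16) (nat_lit 5) (nat_lit 14) (nat_lit 4) (nat_lit 364) (nat_lit 260) (nat_lit 156)) (XT.nd (nat_lit 78) (nat_lit 76) (nat_lit 0) (XT.lf (nat_lit 0) (nat_lit 22886462390)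 (nat_lit 228) (nat_lit 1237451159) (nat_lit 76) (nat_lit 13358203717) (nat_lit 13) (nat_lit 5) (nat_lit 16) (nat_lit 5) (nat_lit 14) (nat_lit 4) (nat_lit 365) (nat_lit 260) (nat_lit 155)) (XT.lf (nat_lit 0) (nat_lit 5877340896) (nat_lit 76) (nat_lit 20546105020) (nat_lit 152) (nat_lit 12047956502) (nat_lit 12) (nat_lit 5) (nat_lit 13) (nat_lit 5) (nat_lit 14) (nat_lit 4) (nat_lit 366) (nat_lit 260) (nat_lit 154)))) (XT.nd (nat_lit 78) (nat_lit 0) (nat_lit 0) (XT.lf (nat_lit 0) (nat_lit 13213988480) (nat_lit 76) (nat_lit 16854792705) (nat_lit 152) (nat_lit 9421531949) (nat_lit 12) (nat_lit 5) (nat_lit 13) (nat_lit 5) (nat_lit 14) (nat_lit 4) (nat_lit 367) (nat_lit 260) (nat_lit 153)) (XT.nd (nat_lit 78) (nat_lit 0) (nat_lit 0) (XT.lf (nat_lit 0) (nat_lit 20754274551) (nat_lit 76) (nat_lit 13059247016) (nat_lit 152) (nat_lit 6726582113) (nat_lit 12) (nat_lit 5) (nat_lit 13) (nat_lit 5) (nat_lit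 14) (nat_lit 4) (nat_lit 368) (nat_lit 260) (nat_lit 152)) (XT.lf (nat_lit 0) (nat_lit 28504787709) (nat_lit 76) (nat_lit 9156151457) (nat_lit 152) (nat_lit 3960752184) (nat_lit 12) (nat_lit 5) (nat_lit 13) (nat_lit 5) (nat_lit 14) (nat_lit 4) (nat_lit 369) (nat_lit 260) (nat_lit 151)))))) (XT.nd (nat_lit 390) (nat_lit 76) (nat_lit 0) (XT.nd (nat_lit 156) (nat_lit 0) (nat_lit 0) (XT.nd (nat_lit 78) (nat_lit 228) (nat_lit 0) (XT.lf (nat_lit 0) (nat_lit 36472300246) (nat_lit 76) (nat_lit 5142095556) (nat_lit 152) (nat_lit 1121625416) (nat_lit 12) (nat_lit 5) (nat_lit 13) (nat_lit 5) (nat_lit 14) (nat_lit 4) (nat_lit 370) (nat_lit 260) (nat_lit 150)) (XT.lf (nat_lit 0) (nat_lit 777643625) (nat_lit 152) (nat_lit 988117206) (nat_lit 228) (nat_lit 42117564744) (nat_lit 9) (nat_lit 5) (nat_lit 11) (nat_lit 5) (nat_lit 12) (nat_lit 5) (nat_lit 371) (nat_lit 260) (nat_lit 149))) (XT.nd (nat_lit 78)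 (nat_lit 0) (nat_lit 0) (XT.lf (nat_lit 0) (nat_lit 4803585164) (nat_lit 228) (nat_lit 36963200719) (nat_lit 76) (nat_lit 3295351179) (nat_lit 9) (nat_lit 5) (nat_lit 12) (nat_lit 5) (nat_lit 10) (nat_lit 4) (nat_lit 372) (nat_lit 260) (nat_lit 148)) (XT.nd (nat_lit 78) (nat_lit 0) (nat_lit 0) (XT.lf (nat_lit 0) (nat_lit 7933446393) (nat_lit 228) (nat_lit 30661118613) (nat_lit 76) (nat_lit 7681732430) (nat_lit 9) (nat_lit 5) (nat_lit 12) (nat_lit 5) (nat_lit 10) (nat_lit 4) (nat_lit 373) (nat_lit 260) (nat_lit 147)) (XT.lf (nat_lit 0) (nat_lit 11148580962) (nat_lit 228) (nat_lit 24184430573) (nat_lit 76) (nat_lit 12194141032) (nat_lit 9) (nat_lit 5) (nat_lit 12) (nat_lit 5) (nat_lit 10) (nat_lit 4) (nat_lit 374) (nat_lit 260) (nat_lit 146))))) (XT.nd (nat_lit 234) (nat_lit 76) (nat_lit 0) (XT.nd (nat_lit 78) (nat_lit 0) (nat_lit 0) (XT.lf (nat_lit 0) (nat_lit 14451798212) (nat_lit 228) (nat_lit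 17527477357) (nat_lit 76) (nat_lit 16836519865) (nat_lit 9) (nat_lit 5) (nat_lit 12) (nat_lit 5) (nat_lit 10) (nat_lit 4) (nat_lit 375) (nat_lit 260) (nat_lit 145)) (XT.nd (nat_lit 78) (nat_lit 0) (nat_lit 0) (XT.lf (nat_lit 0) (nat_lit 17845984449) (nat_lit 228) (nat_lit 10684442210) (nat_lit 76) (nat_lit 21612925377) (nat_lit 9) (nat_lit 5) (nat_lit 12) (nat_lit 5) (nat_lit 10) (nat_lit 4) (nat_lit 376) (nat_lit 260) (nat_lit 144)) (XT.lf (nat_lit 0) (nat_lit 21334105467) (nat_lit 228) (nat_lit 3649345780) (nat_lit 76) (nat_lit 26527531127) (nat_lit 9) (nat_lit 5) (nat_lit 12) (nat_lit 5) (nat_lit 10) (nat_lit 4) (nat_lit 377) (nat_lit 260) (nat_lit 143)))) (XT.nd (nat_lit 78) (nat_lit 0) (nat_lit 0) (XT.lf (nat_lit 0) (nat_lit 3655286917) (nat_lit 76) (nat_lit 21299059075) (nat_lit 152) (nat_lit 27964481367) (nat_lit 8) (nat_lit 5) (nat_lit 9) (nat_lit 5) (nat_lit 10) (nat_lit 4) (nat_lit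 378) (nat_lit 260) (nat_lit 142)) (XT.nd (nat_lit 78) (nat_lit 0) (nat_lit 0) (XT.lf (nat_lit 0) (nat_lit 11241148094) (nat_lit 76) (nat_lit 17471336777) (nat_lit 152) (nat_lit 25655553810) (nat_lit 8) (nat_lit 5) (nat_lit 9) (nat_lit 5) (nat_lit 10) (nat_lit 4) (nat_lit 379) (nat_lit 260) (nat_lit 141)) (XT.lf (nat_lit 0) (nat_lit 19042237035) (nat_lit 76) (nat_lit 13533790978) (nat_lit 152) (nat_lit 23284927965) (nat_lit 8) (nat_lit 5) (nat_lit 9) (nat_lit 5) (nat_lit 10) (nat_lit 4) (nat_lit 380) (nat_lit 260) (nat_lit 140))))))))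
noncomputable def xc114 : XT := (XT.nd (nat_lit 31746) (nat_lit 0) (nat_lit 10412) (XT.nd (nat_lit 858) (nat_lit 76) (nat_lit 0) (XT.nd (nat_lit 390) (nat_lit 152) (nat_lit 0) (XT.nd (nat_lit 156) (nat_lit 0) (nat_lit 0) (XT.nd (nat_lit 78) (nat_lit 0) (nat_lit 0) (XT.lf (nat_lit 0) (nat_lit 27065370226) (nat_lit 76) (nat_lit 9482981104) (nat_lit 152) (nat_lit 20850532410) (nat_lit 8) (nat_lit 5) (nat_lit 9) (nat_lit 5) (nat_lit 10) (nat_lit 4) (nat_lit 381) (nat_lit 260) (nat_lit 139)) (XT.lf (nat_lit 0) (nat_lit 35317558172) (nat_lit 76) (nat_lit 5315367613) (nat_lit 152) (nat_lit 18350240005) (nat_lit 8) (nat_lit 5) (nat_lit 9) (nat_lit 5) (nat_lit 10) (nat_lit 4) (nat_lit 382) (nat_lit 260) (nat_lit 138))) (XT.nd (nat_lit 78) (nat_lit 0) (nat_lit 0) (XT.lf (nat_lit 0) (nat_lit 43806011523) (nat_lit 76) (nat_lit 1027308901) (nat_lit 152) (nat_lit 15781866027) (nat_lit 8) (nat_lit 5) (nat_lit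 9) (nat_lit 5) (nat_lit 10) (nat_lit 4) (nat_lit 383) (nat_lit 260) (nat_lit 137)) (XT.nd (nat_lit 78) (nat_lit 0) (nat_lit 0) (XT.lf (nat_lit 0) (nat_lit 49185743625) (nat_lit 152) (nat_lit 9790762519) (nat_lit 0) (nat_lit 3318889471) (nat_lit 8) (nat_lit 5) (nat_lit 10) (nat_lit 4) (nat_lit 8) (nat_lit 4) (nat_lit 384) (nat_lit 260) (nat_lit 136)) (XT.lf (nat_lit 0) (nat_lit 53672537905) (nat_lit 152) (nat_lit 2582777225) (nat_lit 0) (nat_lit 7770590115) (nat_lit 8) (nat_lit 5) (nat_lit 10) (nat_lit 4) (nat_lit 8) (nat_lit 4) (nat_lit 385) (nat_lit 260) (nat_lit 135))))) (XT.nd (nat_lit 234) (nat_lit 76) (nat_lit 0) (XT.nd (nat_lit 78) (nat_lit 0) (nat_lit 0) (XT.lf (nat_lit 0) (nat_lit 4927099778) (nat_lit 76) (nat_lit 53408011163) (nat_lit 76) (nat_lit 7471991880) (nat_lit 7) (nat_lit 4) (nat_lit 8) (nat_lit 5) (nat_lit 8) (nat_lit 4) (nat_lit 386) (nat_lit 260) (nat_lit 134)) (XT.nd (nat_lit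 78) (nat_lit 0) (nat_lit 0) (XT.lf (nat_lit 0) (nat_lit 12704827054) (nat_lit 76) (nat_lit 50452708063) (nat_lit 76) (nat_lit 4483609661) (nat_lit 7) (nat_lit 4) (nat_lit 8) (nat_lit 5) (nat_lit 8) (nat_lit 4) (nat_lit 387) (nat_lit 260) (nat_lit 133)) (XT.lf (nat_lit 0) (nat_lit 20705798346) (nat_lit 76) (nat_lit 47412904513) (nat_lit 76) (nat_lit 1411690462) (nat_lit 7) (nat_lit 4) (nat_lit 8) (nat_lit 5) (nat_lit 8) (nat_lit 4) (nat_lit 388) (nat_lit 260) (nat_lit 132)))) (XT.nd (nat_lit 78) (nat_lit 0) (nat_lit 0) (XT.lf (nat_lit 0) (nat_lit 1712370389) (nat_lit 152) (nat_lit 42556282401) (nat_lit 76) (nat_lit 27207342819) (nat_lit 6) (nat_lit 5) (nat_lit 8) (nat_lit 5) (nat_lit 7) (nat_lit 4) (nat_lit 389) (nat_lit 260) (nat_lit 131)) (XT.nd (nat_lit 78) (nat_lit 0) (nat_lit 0) (XT.lf (nat_lit 0) (nat_lit 4896128464) (nat_lit 152) (nat_lit 36123525589) (nat_lit 76) (nat_lit 32460068949)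 (nat_lit 6) (nat_lit 5) (nat_lit 8) (nat_lit 5) (nat_lit 7) (nat_lit 4) (nat_lit 390) (nat_lit 260) (nat_lit 130)) (XT.lf (nat_lit 0) (nat_lit 8169912850) (nat_lit 152) (nat_lit 29507133654) (nat_lit 76) (nat_lit 37866686925) (nat_lit 6) (nat_lit 5) (nat_lit 8) (nat_lit 5) (nat_lit 7) (nat_lit 4) (nat_lit 391) (nat_lit 260) (nat_lit 129)))))) (XT.nd (nat_lit 30420) (nat_lit 0) (nat_lit 17556) (XT.nd (nat_lit 156) (nat_lit 76) (nat_lit 0) (XT.nd (nat_lit 78) (nat_lit 0) (nat_lit 0) (XT.lf (nat_lit 0) (nat_lit 11536584137) (nat_lit 152) (nat_lit 22701325280) (nat_lit 76) (nat_lit 43431920978) (nat_lit 6) (nat_lit 5) (nat_lit 8) (nat_lit 5) (nat_lit 7) (nat_lit 4) (nat_lit 392) (nat_lit 260) (nat_lit 128)) (XT.lf (nat_lit 0) (nat_lit 14999084075) (nat_lit 152) (nat_lit 15700153646) (nat_lit 76) (nat_lit 49160633933) (nat_lit 6) (nat_lit 5) (nat_lit 8) (nat_lit 5) (nat_lit 7) (nat_lit 4) (nat_lit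 393) (nat_lit 260) (nat_lit 127))) (XT.nd (nat_lit 78) (nat_lit 76) (nat_lit 0) (XT.lf (nat_lit 0) (nat_lit 18560438151) (nat_lit 152) (nat_lit 8497501222) (nat_lit 76) (nat_lit 55057831462) (nat_lit 6) (nat_lit 5) (nat_lit 8) (nat_lit 5) (nat_lit 7) (nat_lit 4) (nat_lit 394) (nat_lit 260) (nat_lit 126)) (XT.nd (nat_lit 78) (nat_lit 76) (nat_lit 0) (XT.lf (nat_lit 0) (nat_lit 22223758227) (nat_lit 152) (nat_lit 1087074430) (nat_lit 76) (nat_lit 61128666456) (nat_lit 6) (nat_lit 5) (nat_lit 8) (nat_lit 5) (nat_lit 7) (nat_lit 4) (nat_lit 395) (nat_lit 260) (nat_lit 125)) (XT.lf (nat_lit 0) (nat_lit 6667712957) (nat_lit 76) (nat_lit 19388626441) (nat_lit 152) (nat_lit 60774824705) (nat_lit 5) (nat_lit 5) (nat_lit 6) (nat_lit 5) (nat_lit 7) (nat_lit 4) (nat_lit 396) (nat_lit 260) (nat_lit 124))))) (XT.nd (nat_lit 234) (nat_lit 228) (nat_lit 0) (XT.nd (nat_lit 78) (nat_lit 228) (nat_lit 0) (XT.lf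 (nat_lit 0) (nat_lit 1326773285) (nat_lit 0) (nat_lit 1326773285) (nat_lit 76) (nat_lit 569693359) (nat_lit 242) (nat_lit 5) (nat_lit 242) (nat_lit 3) (nat_lit 243) (nat_lit 0) (nat_lit 261) (nat_lit 261) (nat_lit 258)) (XT.nd (nat_lit 78) (nat_lit 0) (nat_lit 0) (XT.lf (nat_lit 0) (nat_lit 1430605677) (nat_lit 228) (nat_lit 1075739967) (nat_lit 228) (nat_lit 3946354374) (nat_lit 239) (nat_lit 3) (nat_lit 242) (nat_lit 3) (nat_lit 242) (nat_lit 5) (nat_lit 262) (nat_lit 261) (nat_lit 257)) (XT.lf (nat_lit 76) (nat_lit 1692907840) (nat_lit 0) (nat_lit 2278076831) (nat_lit 228) (nat_lit 2490839560) (nat_lit 240) (nat_lit 5) (nat_lit 239) (nat_lit 3) (nat_lit 242) (nat_lit 5) (nat_lit 263) (nat_lit 261) (nat_lit 256)))) (XT.nd (nat_lit 78) (nat_lit 0) (nat_lit 0) (XT.lf (nat_lit 0) (nat_lit 25906409) (nat_lit 228) (nat_lit 1959246224) (nat_lit 304) (nat_lit 4489191686) (nat_lit 236) (nat_lit 5)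 (nat_lit 239) (nat_lit 3) (nat_lit 240) (nat_lit 5) (nat_lit 264) (nat_lit 261) (nat_lit 255)) (XT.nd (nat_lit 78) (nat_lit 0) (nat_lit 0) (XT.lf (nat_lit 76) (nat_lit 874900828) (nat_lit 0) (nat_lit 1605341951) (nat_lit 304) (nat_lit 4009388385) (nat_lit 237) (nat_lit 5) (nat_lit 236) (nat_lit 5) (nat_lit 240) (nat_lit 5) (nat_lit 265) (nat_lit 261) (nat_lit 254)) (XT.lf (nat_lit 76) (nat_lit 3782523010) (nat_lit 0) (nat_lit 1151518691) (nat_lit 304) (nat_lit 1574041061) (nat_lit 237) (nat_lit 5) (nat_lit 236) (nat_lit 5) (nat_lit 240) (nat_lit 5) (nat_lit 266) (nat_lit 261) (nat_lit 253))))))) (XT.nd (nat_lit 858) (nat_lit 5016) (nat_lit 0) (XT.nd (nat_lit 390) (nat_lit 1520) (nat_lit 0) (XT.nd (nat_lit 156) (nat_lit 304) (nat_lit 0) (XT.nd (nat_lit 78) (nat_lit 0) (nat_lit 0) (XT.lf (nat_lit 76) (nat_lit 192560086) (nat_lit 0) (nat_lit 632848006) (nat_lit 380) (nat_lit 5704585639) (nat_lit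 233) (nat_lit 5) (nat_lit 232) (nat_lit 5) (nat_lit 237) (nat_lit 5) (nat_lit 267) (nat_lit 261) (nat_lit 252)) (XT.lf (nat_lit 76) (nat_lit 3186213121) (nat_lit 0) (nat_lit 15980898) (nat_lit 380) (nat_lit 3352231067) (nat_lit 233) (nat_lit 5) (nat_lit 232) (nat_lit 5) (nat_lit 237) (nat_lit 5) (nat_lit 268) (nat_lit 261) (nat_lit 251))) (XT.nd (nat_lit 78) (nat_lit 380) (nat_lit 0) (XT.lf (nat_lit 0) (nat_lit 5568848182) (nat_lit 304) (nat_lit 369758610) (nat_lit 76) (nat_lit 643853118) (nat_lit 233) (nat_lit 5) (nat_lit 237) (nat_lit 5) (nat_lit 234) (nat_lit 5) (nat_lit 269) (nat_lit 261) (nat_lit 250)) (XT.nd (nat_lit 78) (nat_lit 0) (nat_lit 0) (XT.lf (nat_lit 0) (nat_lit 1308408018) (nat_lit 380) (nat_lit 3907103986) (nat_lit 76) (nat_lit 1397610373) (nat_lit 228) (nat_lit 5) (nat_lit 233) (nat_lit 5) (nat_lit 229) (nat_lit 5) (nat_lit 270) (nat_lit 261) (nat_lit 249)) (XT.lf (nat_lit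 0) (nat_lit 3599400173) (nat_lit 380) (nat_lit 826890119) (nat_lit 76) (nat_lit 2220914016) (nat_lit 228) (nat_lit 5) (nat_lit 233) (nat_lit 5) (nat_lit 229) (nat_lit 5) (nat_lit 271) (nat_lit 261) (nat_lit 248))))) (XT.nd (nat_lit 234) (nat_lit 608) (nat_lit 0) (XT.nd (nat_lit 78) (nat_lit 532) (nat_lit 0) (XT.lf (nat_lit 0) (nat_lit 2339069878) (nat_lit 380) (nat_lit 3560899504) (nat_lit 456) (nat_lit 784493697) (nat_lit 223) (nat_lit 5) (nat_lit 228) (nat_lit 5) (nat_lit 229) (nat_lit 5) (nat_lit 272) (nat_lit 261) (nat_lit 247)) (XT.nd (nat_lit 78) (nat_lit 456) (nat_lit 0) (XT.lf (nat_lit 0) (nat_lit 1444058131) (nat_lit 456) (nat_lit 1174340071) (nat_lit 76) (nat_lit 4106527647) (nat_lit 222) (nat_lit 5) (nat_lit 228) (nat_lit 5) (nat_lit 223) (nat_lit 5) (nat_lit 273) (nat_lit 261) (nat_lit 246)) (XT.lf (nat_lit 0) (nat_lit 2072322252) (nat_lit 456) (nat_lit 1592745142) (nat_lit 532)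 (nat_lit 3103408610) (nat_lit 216) (nat_lit 5) (nat_lit 222) (nat_lit 5) (nat_lit 223) (nat_lit 5) (nat_lit 274) (nat_lit 261) (nat_lit 245)))) (XT.nd (nat_lit 78) (nat_lit 608) (nat_lit 0) (XT.lf (nat_lit 0) (nat_lit 5388775360) (nat_lit 456) (nat_lit 499029228) (nat_lit 532) (nat_lit 927812593) (nat_lit 216) (nat_lit 5) (nat_lit 222) (nat_lit 5) (nat_lit 223) (nat_lit 5) (nat_lit 275) (nat_lit 261) (nat_lit 244)) (XT.nd (nat_lit 78) (nat_lit 0) (nat_lit 0) (XT.lf (nat_lit 0) (nat_lit 1236801851) (nat_lit 608) (nat_lit 4959130159) (nat_lit 76) (nat_lit 669698818) (nat_lit 208) (nat_lit 5) (nat_lit 216) (nat_lit 5) (nat_lit 209) (nat_lit 5) (nat_lit 276) (nat_lit 261) (nat_lit 243)) (XT.lf (nat_lit 0) (nat_lit 3393535984) (nat_lit 608) (nat_lit 1616119665) (nat_lit 76) (nat_lit 1909147578) (nat_lit 208) (nat_lit 5) (nat_lit 216) (nat_lit 5) (nat_lit 209) (nat_lit 5) (nat_lit 277) (nat_lit 261)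 (nat_lit 242)))))) (XT.nd (nat_lit 390) (nat_lit 2888) (nat_lit 0) (XT.nd (nat_lit 156) (nat_lit 1444) (nat_lit 0) (XT.nd (nat_lit 78) (nat_lit 76) (nat_lit 0) (XT.lf (nat_lit 0) (nat_lit 1809847772) (nat_lit 608) (nat_lit 3751004766) (nat_lit 684) (nat_lit 1414641666) (nat_lit 200) (nat_lit 5) (nat_lit 208) (nat_lit 5) (nat_lit 209) (nat_lit 5) (nat_lit 278) (nat_lit 261) (nat_lit 241)) (XT.lf (nat_lit 0) (nat_lit 690054245) (nat_lit 684) (nat_lit 1722961440) (nat_lit 76) (nat_lit 4622566818) (nat_lit 199) (nat_lit 5) (nat_lit 208) (nat_lit 5) (nat_lit 200) (nat_lit 5) (nat_lit 279) (nat_lit 261) (nat_lit 240))) (XT.nd (nat_lit 78) (nat_lit 760) (nat_lit 0) (XT.lf (nat_lit 0) (nat_lit 1791700317) (nat_lit 684) (nat_lit 986133243) (nat_lit 760) (nat_lit 4321042814) (nat_lit 190) (nat_lit 5) (nat_lit 199) (nat_lit 5) (nat_lit 200) (nat_lit 5) (nat_lit 280) (nat_lit 261) (nat_lit 239)) (XT.nd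 (nat_lit 78) (nat_lit 760) (nat_lit 0) (XT.lf (nat_lit 0) (nat_lit 4883275504) (nat_lit 760) (nat_lit 1775430712) (nat_lit 76) (nat_lit 506978352) (nat_lit 190) (nat_lit 5) (nat_lit 200) (nat_lit 5) (nat_lit 191) (nat_lit 5) (nat_lit 281) (nat_lit 261) (nat_lit 238)) (XT.lf (nat_lit 0) (nat_lit 1835718902) (nat_lit 760) (nat_lit 5178338756) (nat_lit 836) (nat_lit 221832667) (nat_lit 180) (nat_lit 5) (nat_lit 190) (nat_lit 5) (nat_lit 191) (nat_lit 5) (nat_lit 282) (nat_lit 261) (nat_lit 237))))) (XT.nd (nat_lit 234) (nat_lit 1976) (nat_lit 0) (XT.nd (nat_lit 78) (nat_lit 836) (nat_lit 0) (XT.lf (nat_lit 0) (nat_lit 1816868366) (nat_lit 836) (nat_lit 1788135483) (nat_lit 76) (nat_lit 3704292280) (nat_lit 179) (nat_lit 5) (nat_lit 190) (nat_lit 5) (nat_lit 180) (nat_lit 5) (nat_lit 283) (nat_lit 261) (nat_lit 236)) (XT.nd (nat_lit 78) (nat_lit 0) (nat_lit 0) (XT.lf (nat_lit 0) (nat_lit 1915381148)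 (nat_lit 836) (nat_lit 1952475548) (nat_lit 912) (nat_lit 3518550653) (nat_lit 168) (nat_lit 5) (nat_lit 179) (nat_lit 5) (nat_lit 180) (nat_lit 5) (nat_lit 284) (nat_lit 261) (nat_lit 235)) (XT.lf (nat_lit 0) (nat_lit 5715108686) (nat_lit 836) (nat_lit 221830102) (nat_lit 912) (nat_lit 1530425980) (nat_lit 168) (nat_lit 5) (nat_lit 179) (nat_lit 5) (nat_lit 180) (nat_lit 5) (nat_lit 285) (nat_lit 261) (nat_lit 234)))) (XT.nd (nat_lit 78) (nat_lit 988) (nat_lit 0) (XT.lf (nat_lit 0) (nat_lit 481890953) (nat_lit 988) (nat_lit 5505504619) (nat_lit 76) (nat_lit 1564183428) (nat_lit 155) (nat_lit 5) (nat_lit 168) (nat_lit 5) (nat_lit 156) (nat_lit 5) (nat_lit 286) (nat_lit 261) (nat_lit 233)) (XT.nd (nat_lit 78) (nat_lit 988) (nat_lit 0) (XT.lf (nat_lit 0) (nat_lit 2484723984) (nat_lit 988) (nat_lit 1714070251) (nat_lit 76) (nat_lit 3440453934) (nat_lit 155) (nat_lit 5) (nat_lit 168) (nat_lit 5)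 (nat_lit 156) (nat_lit 5) (nat_lit 287) (nat_lit 261) (nat_lit 232)) (XT.lf (nat_lit 0) (nat_lit 2182202943) (nat_lit 988) (nat_lit 2328979570) (nat_lit 1064) (nat_lit 3219662842) (nat_lit 142) (nat_lit 5) (nat_lit 155) (nat_lit 5) (nat_lit 156) (nat_lit 5) (nat_lit 288) (nat_lit 261) (nat_lit 231))))))))
noncomputable def xc115 : XT := (XT.nd (nat_lit 1716) (nat_lit 2660) (nat_lit 0) (XT.nd (nat_lit 858) (nat_lit 2432) (nat_lit 0) (XT.nd (nat_lit 390) (nat_lit 1596) (nat_lit 0) (XT.nd (nat_lit 156) (nat_lit 532) (nat_lit 0) (XT.nd (nat_lit 78) (nat_lit 1140) (nat_lit 0) (XT.lf (nat_lit 0) (nat_lit 6179519021) (nat_lit 988) (nat_lit 379971193) (nat_lit 1064) (nat_lit 1267066797) (nat_lit 142) (nat_lit 5) (nat_lit 155) (nat_lit 5) (nat_lit 156) (nat_lit 5) (nat_lit 289) (nat_lit 261) (nat_lit 230)) (XT.lf (nat_lit 0) (nat_lit 712909529) (nat_lit 1140) (nat_lit 5582352939) (nat_lit 76) (nat_lit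 1630350122) (nat_lit 127) (nat_lit 5) (nat_lit 142) (nat_lit 5) (nat_lit 128) (nat_lit 5) (nat_lit 290) (nat_lit 261) (nat_lit 229))) (XT.nd (nat_lit 78) (nat_lit 532) (nat_lit 0) (XT.lf (nat_lit 0) (nat_lit 2693198996) (nat_lit 1140) (nat_lit 1608717157) (nat_lit 76) (nat_lit 3726537303) (nat_lit 127) (nat_lit 5) (nat_lit 142) (nat_lit 5) (nat_lit 128) (nat_lit 5) (nat_lit 291) (nat_lit 261) (nat_lit 228)) (XT.nd (nat_lit 78) (nat_lit 0) (nat_lit 0) (XT.lf (nat_lit 0) (nat_lit 2481944634) (nat_lit 532) (nat_lit 2222210502) (nat_lit 608) (nat_lit 3431262783) (nat_lit 120) (nat_lit 5) (nat_lit 127) (nat_lit 5) (nat_lit 128) (nat_lit 5) (nat_lit 292) (nat_lit 261) (nat_lit 227)) (XT.lf (nat_lit 0) (nat_lit 6678184885) (nat_lit 532) (nat_lit 61950254) (nat_lit 608) (nat_lit 1506686305) (nat_lit 120) (nat_lit 5) (nat_lit 127) (nat_lit 5) (nat_lit 128) (nat_lit 5) (nat_lit 293) (nat_lit 261) (nat_lit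 226))))) (XT.nd (nat_lit 234) (nat_lit 532) (nat_lit 0) (XT.nd (nat_lit 78) (nat_lit 532) (nat_lit 0) (XT.lf (nat_lit 0) (nat_lit 462074188) (nat_lit 532) (nat_lit 5747672271) (nat_lit 76) (nat_lit 2151972784) (nat_lit 113) (nat_lit 5) (nat_lit 120) (nat_lit 5) (nat_lit 114) (nat_lit 5) (nat_lit 294) (nat_lit 261) (nat_lit 225)) (XT.nd (nat_lit 78) (nat_lit 532) (nat_lit 0) (XT.lf (nat_lit 0) (nat_lit 2426524487) (nat_lit 532) (nat_lit 1591901785) (nat_lit 76) (nat_lit 4462339350) (nat_lit 113) (nat_lit 5) (nat_lit 120) (nat_lit 5) (nat_lit 114) (nat_lit 5) (nat_lit 295) (nat_lit 261) (nat_lit 224)) (XT.lf (nat_lit 0) (nat_lit 2691557339) (nat_lit 532) (nat_lit 1735970974) (nat_lit 608) (nat_lit 4176678392) (nat_lit 106) (nat_lit 5) (nat_lit 113) (nat_lit 5) (nat_lit 114) (nat_lit 5) (nat_lit 296) (nat_lit 261) (nat_lit 223)))) (XT.nd (nat_lit 78) (nat_lit 532) (nat_lit 0) (XT.lf (nat_lit 0)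 (nat_lit 6463372817) (nat_lit 608) (nat_lit 1651358400) (nat_lit 76) (nat_lit 617522979) (nat_lit 106) (nat_lit 5) (nat_lit 114) (nat_lit 5) (nat_lit 107) (nat_lit 5) (nat_lit 297) (nat_lit 261) (nat_lit 222)) (XT.nd (nat_lit 78) (nat_lit 76) (nat_lit 0) (XT.lf (nat_lit 0) (nat_lit 2724652427) (nat_lit 456) (nat_lit 5833062737) (nat_lit 532) (nat_lit 306648466) (nat_lit 100) (nat_lit 5) (nat_lit 106) (nat_lit 5) (nat_lit 107) (nat_lit 5) (nat_lit 298) (nat_lit 261) (nat_lit 221)) (XT.lf (nat_lit 0) (nat_lit 1652169044) (nat_lit 532) (nat_lit 1800448048) (nat_lit 76) (nat_lit 5548324639) (nat_lit 99) (nat_lit 5) (nat_lit 106) (nat_lit 5) (nat_lit 100) (nat_lit 5) (nat_lit 299) (nat_lit 261) (nat_lit 220)))))) (XT.nd (nat_lit 390) (nat_lit 1140) (nat_lit 0) (XT.nd (nat_lit 156) (nat_lit 836) (nat_lit 0) (XT.nd (nat_lit 78) (nat_lit 0) (nat_lit 0) (XT.lf (nat_lit 0) (nat_lit 2669840212) (nat_lit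 456) (nat_lit 975073953) (nat_lit 532) (nat_lit 5497303175) (nat_lit 93) (nat_lit 5) (nat_lit 99) (nat_lit 5) (nat_lit 100) (nat_lit 5) (nat_lit 300) (nat_lit 261) (nat_lit 219)) (XT.lf (nat_lit 0) (nat_lit 5687413783) (nat_lit 532) (nat_lit 2040512210) (nat_lit 76) (nat_lit 1560233288) (nat_lit 93) (nat_lit 5) (nat_lit 100) (nat_lit 5) (nat_lit 94) (nat_lit 5) (nat_lit 301) (nat_lit 261) (nat_lit 218))) (XT.nd (nat_lit 78) (nat_lit 456) (nat_lit 0) (XT.lf (nat_lit 0) (nat_lit 2516048888) (nat_lit 380) (nat_lit 5266701842) (nat_lit 456) (nat_lit 1656105401) (nat_lit 88) (nat_lit 5) (nat_lit 93) (nat_lit 5) (nat_lit 94) (nat_lit 5) (nat_lit 302) (nat_lit 261) (nat_lit 217)) (XT.nd (nat_lit 78) (nat_lit 380) (nat_lit 0) (XT.lf (nat_lit 0) (nat_lit 318885526) (nat_lit 456) (nat_lit 2394046745) (nat_lit 76) (nat_lit 6881794603) (nat_lit 87) (nat_lit 5) (nat_lit 93) (nat_lit 5) (nat_lit 88) (nat_lit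 5) (nat_lit 303) (nat_lit 261) (nat_lit 216)) (XT.lf (nat_lit 0) (nat_lit 2251326550) (nat_lit 380) (nat_lit 49350022) (nat_lit 456) (nat_lit 7454793200) (nat_lit 82) (nat_lit 5) (nat_lit 87) (nat_lit 5) (nat_lit 88) (nat_lit 5) (nat_lit 304) (nat_lit 261) (nat_lit 215))))) (XT.nd (nat_lit 234) (nat_lit 760) (nat_lit 0) (XT.nd (nat_lit 78) (nat_lit 380) (nat_lit 0) (XT.lf (nat_lit 0) (nat_lit 4352111906) (nat_lit 456) (nat_lit 2908887254) (nat_lit 76) (nat_lit 2659839829) (nat_lit 82) (nat_lit 5) (nat_lit 88) (nat_lit 5) (nat_lit 83) (nat_lit 5) (nat_lit 305) (nat_lit 261) (nat_lit 214)) (XT.nd (nat_lit 78) (nat_lit 0) (nat_lit 0) (XT.lf (nat_lit 0) (nat_lit 1812923051) (nat_lit 380) (nat_lit 4631129679) (nat_lit 456) (nat_lit 3647854228) (nat_lit 77) (nat_lit 5) (nat_lit 82) (nat_lit 5) (nat_lit 83) (nat_lit 5) (nat_lit 306) (nat_lit 261) (nat_lit 213)) (XT.lf (nat_lit 0) (nat_lit 6690278471)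 (nat_lit 380) (nat_lit 1899589148) (nat_lit 456) (nat_lit 1678609319) (nat_lit 77) (nat_lit 5) (nat_lit 82) (nat_lit 5) (nat_lit 83) (nat_lit 5) (nat_lit 307) (nat_lit 261) (nat_lit 212)))) (XT.nd (nat_lit 78) (nat_lit 304) (nat_lit 0) (XT.lf (nat_lit 0) (nat_lit 326053075) (nat_lit 456) (nat_lit 9220797003) (nat_lit 76) (nat_lit 903995670) (nat_lit 71) (nat_lit 5) (nat_lit 77) (nat_lit 5) (nat_lit 72) (nat_lit 5) (nat_lit 308) (nat_lit 261) (nat_lit 211)) (XT.nd (nat_lit 78) (nat_lit 304) (nat_lit 0) (XT.lf (nat_lit 0) (nat_lit 2375394297) (nat_lit 456) (nat_lit 4463430320) (nat_lit 76) (nat_lit 3798908756) (nat_lit 71) (nat_lit 5) (nat_lit 77) (nat_lit 5) (nat_lit 72) (nat_lit 5) (nat_lit 309) (nat_lit 261) (nat_lit 210)) (XT.lf (nat_lit 0) (nat_lit 399861896) (nat_lit 304) (nat_lit 4054254849) (nat_lit 380) (nat_lit 6377165765) (nat_lit 67) (nat_lit 5) (nat_lit 71) (nat_lit 5) (nat_lit 72)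 (nat_lit 5) (nat_lit 310) (nat_lit 261) (nat_lit 209))))))) (XT.nd (nat_lit 858) (nat_lit 1368) (nat_lit 0) (XT.nd (nat_lit 390) (nat_lit 608) (nat_lit 0) (XT.nd (nat_lit 156) (nat_lit 684) (nat_lit 0) (XT.nd (nat_lit 78) (nat_lit 0) (nat_lit 0) (XT.lf (nat_lit 0) (nat_lit 5456387849) (nat_lit 304) (nat_lit 1148564555) (nat_lit 380) (nat_lit 4425482403) (nat_lit 67) (nat_lit 5) (nat_lit 71) (nat_lit 5) (nat_lit 72) (nat_lit 5) (nat_lit 311) (nat_lit 261) (nat_lit 208)) (XT.lf (nat_lit 0) (nat_lit 8803667526) (nat_lit 380) (nat_lit 632588209) (nat_lit 76) (nat_lit 1799891943) (nat_lit 67) (nat_lit 5) (nat_lit 72) (nat_lit 5) (nat_lit 68) (nat_lit 5) (nat_lit 312) (nat_lit 261) (nat_lit 207))) (XT.nd (nat_lit 78) (nat_lit 380) (nat_lit 0) (XT.lf (nat_lit 0) (nat_lit 4490744223) (nat_lit 304) (nat_lit 6598766659) (nat_lit 380) (nat_lit 357970161) (nat_lit 63) (nat_lit 5) (nat_lit 67) (nat_lit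 5) (nat_lit 68) (nat_lit 5) (nat_lit 313) (nat_lit 261) (nat_lit 206)) (XT.nd (nat_lit 78) (nat_lit 304) (nat_lit 0) (XT.lf (nat_lit 0) (nat_lit 1717304425) (nat_lit 380) (nat_lit 1944331704) (nat_lit 76) (nat_lit 8003887415) (nat_lit 62) (nat_lit 5) (nat_lit 67) (nat_lit 5) (nat_lit 63) (nat_lit 5) (nat_lit 314) (nat_lit 261) (nat_lit 205)) (XT.lf (nat_lit 0) (nat_lit 3236354157) (nat_lit 304) (nat_lit 610153846) (nat_lit 380) (nat_lit 8043603995) (nat_lit 58) (nat_lit 5) (nat_lit 62) (nat_lit 5) (nat_lit 63) (nat_lit 5) (nat_lit 315) (nat_lit 261) (nat_lit 204))))) (XT.nd (nat_lit 234) (nat_lit 304) (nat_lit 0) (XT.nd (nat_lit 78) (nat_lit 304) (nat_lit 0) (XT.lf (nat_lit 0) (nat_lit 6051969389) (nat_lit 380) (nat_lit 3575298383) (nat_lit 76) (nat_lit 2493873615) (nat_lit 58) (nat_lit 5) (nat_lit 63) (nat_lit 5) (nat_lit 59) (nat_lit 5) (nat_lit 316) (nat_lit 261) (nat_lit 203)) (XT.nd (nat_lit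 78) (nat_lit 0) (nat_lit 0) (XT.lf (nat_lit 0) (nat_lit 1640490597) (nat_lit 304) (nat_lit 6674046430) (nat_lit 380) (nat_lit 4044908915) (nat_lit 54) (nat_lit 5) (nat_lit 58) (nat_lit 5) (nat_lit 59) (nat_lit 5) (nat_lit 317) (nat_lit 261) (nat_lit 202)) (XT.lf (nat_lit 0) (nat_lit 7045450257) (nat_lit 304) (nat_lit 3605275692) (nat_lit 380) (nat_lit 1954071799) (nat_lit 54) (nat_lit 5) (nat_lit 58) (nat_lit 5) (nat_lit 59) (nat_lit 5) (nat_lit 318) (nat_lit 261) (nat_lit 201)))) (XT.nd (nat_lit 78) (nat_lit 228) (nat_lit 0) (XT.lf (nat_lit 0) (nat_lit 165763765) (nat_lit 380) (nat_lit 286939956) (nat_lit 76) (nat_lit 12405710273) (nat_lit 53) (nat_lit 5) (nat_lit 58) (nat_lit 5) (nat_lit 54) (nat_lit 5) (nat_lit 319) (nat_lit 261) (nat_lit 200)) (XT.nd (nat_lit 78) (nat_lit 0) (nat_lit 0) (XT.lf (nat_lit 0) (nat_lit 2358262871) (nat_lit 304) (nat_lit 7959349639) (nat_lit 76) (nat_lit 2800059964)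 (nat_lit 50) (nat_lit 5) (nat_lit 54) (nat_lit 5) (nat_lit 51) (nat_lit 5) (nat_lit 320) (nat_lit 261) (nat_lit 199)) (XT.lf (nat_lit 0) (nat_lit 4595357362) (nat_lit 304) (nat_lit 2655650505) (nat_lit 76) (nat_lit 6134398816) (nat_lit 50) (nat_lit 5) (nat_lit 54) (nat_lit 5) (nat_lit 51) (nat_lit 5) (nat_lit 321) (nat_lit 261) (nat_lit 198)))))) (XT.nd (nat_lit 468) (nat_lit 532) (nat_lit 0) (XT.nd (nat_lit 234) (nat_lit 304) (nat_lit 0) (XT.nd (nat_lit 78) (nat_lit 228) (nat_lit 0) (XT.lf (nat_lit 0) (nat_lit 2824069982) (nat_lit 304) (nat_lit 4074886031) (nat_lit 380) (nat_lit 6762295930) (nat_lit 46) (nat_lit 5) (nat_lit 50) (nat_lit 5) (nat_lit 51) (nat_lit 5) (nat_lit 322) (nat_lit 261) (nat_lit 197)) (XT.nd (nat_lit 78) (nat_lit 228) (nat_lit 0) (XT.lf (nat_lit 0) (nat_lit 8484797404) (nat_lit 304) (nat_lit 786371552) (nat_lit 380) (nat_lit 4674277409) (nat_lit 46) (nat_lit 5) (nat_lit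 50) (nat_lit 5) (nat_lit 51) (nat_lit 5) (nat_lit 323) (nat_lit 261) (nat_lit 196)) (XT.lf (nat_lit 0) (nat_lit 14996300) (nat_lit 228) (nat_lit 11698083419) (nat_lit 304) (nat_lit 2525188233) (nat_lit 43) (nat_lit 5) (nat_lit 46) (nat_lit 5) (nat_lit 47) (nat_lit 5) (nat_lit 324) (nat_lit 261) (nat_lit 195)))) (XT.nd (nat_lit 78) (nat_lit 304) (nat_lit 0) (XT.lf (nat_lit 0) (nat_lit 5721799576) (nat_lit 228) (nat_lit 8543104848) (nat_lit 304) (nat_lit 273925672) (nat_lit 43) (nat_lit 5) (nat_lit 46) (nat_lit 5) (nat_lit 47) (nat_lit 5) (nat_lit 325) (nat_lit 261) (nat_lit 194)) (XT.nd (nat_lit 78) (nat_lit 228) (nat_lit 0) (XT.lf (nat_lit 0) (nat_lit 1979235357) (nat_lit 304) (nat_lit 3304851020) (nat_lit 76) (nat_lit 9564557543) (nat_lit 42) (nat_lit 5) (nat_lit 46) (nat_lit 5) (nat_lit 43) (nat_lit 5) (nat_lit 326) (nat_lit 261) (nat_lit 193)) (XT.lf (nat_lit 0) (nat_lit 2380915484) (nat_lit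 228) (nat_lit 1911469987) (nat_lit 304) (nat_lit 10875399214) (nat_lit 39) (nat_lit 5) (nat_lit 42) (nat_lit 5) (nat_lit 43) (nat_lit 5) (nat_lit 327) (nat_lit 261) (nat_lit 192))))) (XT.nd (nat_lit 234) (nat_lit 304) (nat_lit 0) (XT.nd (nat_lit 78) (nat_lit 228) (nat_lit 0) (XT.lf (nat_lit 0) (nat_lit 6698952032) (nat_lit 304) (nat_lit 7241709554) (nat_lit 76) (nat_lit 1555166838) (nat_lit 39) (nat_lit 5) (nat_lit 43) (nat_lit 5) (nat_lit 40) (nat_lit 5) (nat_lit 328) (nat_lit 261) (nat_lit 191)) (XT.nd (nat_lit 78) (nat_lit 228) (nat_lit 0) (XT.lf (nat_lit 0) (nat_lit 9172661406) (nat_lit 304) (nat_lit 1583939785) (nat_lit 76) (nat_lit 5077311875) (nat_lit 39) (nat_lit 5) (nat_lit 43) (nat_lit 5) (nat_lit 40) (nat_lit 5) (nat_lit 329) (nat_lit 261) (nat_lit 190)) (XT.lf (nat_lit 0) (nat_lit 4293540444) (nat_lit 228) (nat_lit 7445032563) (nat_lit 304) (nat_lit 4443074084) (nat_lit 36) (nat_lit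 5) (nat_lit 39) (nat_lit 5) (nat_lit 40) (nat_lit 5) (nat_lit 330) (nat_lit 261) (nat_lit 189)))) (XT.nd (nat_lit 78) (nat_lit 304) (nat_lit 0) (XT.lf (nat_lit 0) (nat_lit 10346340644) (nat_lit 228) (nat_lit 4028191130) (nat_lit 304) (nat_lit 2165534482) (nat_lit 36) (nat_lit 5) (nat_lit 39) (nat_lit 5) (nat_lit 40) (nat_lit 5) (nat_lit 331) (nat_lit 261) (nat_lit 188)) (XT.nd (nat_lit 78) (nat_lit 228) (nat_lit 0) (XT.lf (nat_lit 0) (nat_lit 154291831) (nat_lit 304) (nat_lit 363236112) (nat_lit 76) (nat_lit 16392376285) (nat_lit 35) (nat_lit 5) (nat_lit 39) (nat_lit 5) (nat_lit 36) (nat_lit 5) (nat_lit 332) (nat_lit 261) (nat_lit 187)) (XT.lf (nat_lit 0) (nat_lit 2563555690) (nat_lit 304) (nat_lit 11619764464) (nat_lit 76) (nat_lit 3105014298) (nat_lit 32) (nat_lit 5) (nat_lit 36) (nat_lit 5) (nat_lit 33) (nat_lit 5) (nat_lit 333) (nat_lit 261) (nat_lit 186))))))))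
noncomputable def xc116 : XT := (XT.nd (nat_lit 1716) (nat_lit 608) (nat_lit 0) (XT.nd (nat_lit 858) (nat_lit 532) (nat_lit 0) (XT.nd (nat_lit 390) (nat_lit 456) (nat_lit 0) (XT.nd (nat_lit 156) (nat_lit 0) (nat_lit 0) (XT.nd (nat_lit 78) (nat_lit 152) (nat_lit 0) (XT.lf (nat_lit 0) (nat_lit 5032295266) (nat_lit 304) (nat_lit 5826694565) (nat_lit 76) (nat_lit 6819551990) (nat_lit 32) (nat_lit 5) (nat_lit 36) (nat_lit 5) (nat_lit 33) (nat_lit 5) (nat_lit 334) (nat_lit 261) (nat_lit 185)) (XT.lf (nat_lit 0) (nat_lit 110970811) (nat_lit 152) (nat_lit 7444192427) (nat_lit 228) (nat_lit 10525929191) (nat_lit 30) (nat_lit 5) (nat_lit 32) (nat_lit 5) (nat_lit 33) (nat_lit 5) (nat_lit 335) (nat_lit 261) (nat_lit 184))) (XT.nd (nat_lit 78) (nat_lit 0) (nat_lit 0) (XT.lf (nat_lit 0) (nat_lit 6315153088) (nat_lit 152) (nat_lit 3876714991) (nat_lit 228) (nat_lit 8302744816) (nat_lit 30) (nat_lit 5) (nat_lit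 32) (nat_lit 5) (nat_lit 33) (nat_lit 5) (nat_lit 336) (nat_lit 261) (nat_lit 183)) (XT.nd (nat_lit 78) (nat_lit 0) (nat_lit 0) (XT.lf (nat_lit 0) (nat_lit 12675310747) (nat_lit 152) (nat_lit 212278501) (nat_lit 228) (nat_lit 6033589035) (nat_lit 30) (nat_lit 5) (nat_lit 32) (nat_lit 5) (nat_lit 33) (nat_lit 5) (nat_lit 337) (nat_lit 261) (nat_lit 182)) (XT.lf (nat_lit 0) (nat_lit 15678829294) (nat_lit 228) (nat_lit 198307175) (nat_lit 76) (nat_lit 3483000440) (nat_lit 30) (nat_lit 5) (nat_lit 33) (nat_lit 5) (nat_lit 31) (nat_lit 5) (nat_lit 338) (nat_lit 261) (nat_lit 181))))) (XT.nd (nat_lit 234) (nat_lit 152) (nat_lit 0) (XT.nd (nat_lit 78) (nat_lit 76) (nat_lit 0) (XT.lf (nat_lit 0) (nat_lit 6119052222) (nat_lit 228) (nat_lit 12476653094) (nat_lit 304) (nat_lit 1215336667) (nat_lit 27) (nat_lit 5) (nat_lit 30) (nat_lit 5) (nat_lit 31) (nat_lit 5) (nat_lit 339) (nat_lit 261) (nat_lit 180))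 (XT.nd (nat_lit 78) (nat_lit 0) (nat_lit 0) (XT.lf (nat_lit 0) (nat_lit 1281824827) (nat_lit 304) (nat_lit 7687226636) (nat_lit 76) (nat_lit 11306581637) (nat_lit 26) (nat_lit 5) (nat_lit 30) (nat_lit 5) (nat_lit 27) (nat_lit 5) (nat_lit 340) (nat_lit 261) (nat_lit 179)) (XT.lf (nat_lit 0) (nat_lit 3811063477) (nat_lit 304) (nat_lit 1542564514) (nat_lit 76) (nat_lit 15400757001) (nat_lit 26) (nat_lit 5) (nat_lit 30) (nat_lit 5) (nat_lit 27) (nat_lit 5) (nat_lit 341) (nat_lit 261) (nat_lit 178)))) (XT.nd (nat_lit 78) (nat_lit 0) (nat_lit 0) (XT.lf (nat_lit 0) (nat_lit 4853762680) (nat_lit 152) (nat_lit 1591199548) (nat_lit 228) (nat_lit 14801704512) (nat_lit 24) (nat_lit 5) (nat_lit 26) (nat_lit 5) (nat_lit 27) (nat_lit 5) (nat_lit 342) (nat_lit 261) (nat_lit 177)) (XT.nd (nat_lit 78) (nat_lit 0) (nat_lit 0) (XT.lf (nat_lit 0) (nat_lit 9177859371) (nat_lit 228) (nat_lit 10329346904) (nat_lit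 76) (nat_lit 2245941116) (nat_lit 24) (nat_lit 5) (nat_lit 27) (nat_lit 5) (nat_lit 25) (nat_lit 5) (nat_lit 343) (nat_lit 261) (nat_lit 176)) (XT.lf (nat_lit 0) (nat_lit 11991307722) (nat_lit 228) (nat_lit 4126421570) (nat_lit 76) (nat_lit 6157165260) (nat_lit 24) (nat_lit 5) (nat_lit 27) (nat_lit 5) (nat_lit 25) (nat_lit 5) (nat_lit 344) (nat_lit 261) (nat_lit 175)))))) (XT.nd (nat_lit 390) (nat_lit 152) (nat_lit 0) (XT.nd (nat_lit 156) (nat_lit 228) (nat_lit 0) (XT.nd (nat_lit 78) (nat_lit 0) (nat_lit 0) (XT.lf (nat_lit 0) (nat_lit 2281100032) (nat_lit 152) (nat_lit 12613297350) (nat_lit 228) (nat_lit 7917767788) (nat_lit 22) (nat_lit 5) (nat_lit 24) (nat_lit 5) (nat_lit 25) (nat_lit 5) (nat_lit 345) (nat_lit 261) (nat_lit 174)) (XT.lf (nat_lit 0) (nat_lit 8939685852) (nat_lit 152) (nat_lit 8970111761) (nat_lit 228) (nat_lit 5455027112) (nat_lit 22) (nat_lit 5) (nat_lit 24) (nat_lit 5) (nat_lit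 25) (nat_lit 5) (nat_lit 346) (nat_lit 261) (nat_lit 173))) (XT.nd (nat_lit 78) (nat_lit 228) (nat_lit 0) (XT.lf (nat_lit 0) (nat_lit 15773030192) (nat_lit 152) (nat_lit 5226657926) (nat_lit 228) (nat_lit 2934881659) (nat_lit 22) (nat_lit 5) (nat_lit 24) (nat_lit 5) (nat_lit 25) (nat_lit 5) (nat_lit 347) (nat_lit 261) (nat_lit 172)) (XT.nd (nat_lit 78) (nat_lit 228) (nat_lit 0) (XT.lf (nat_lit 0) (nat_lit 22787103934) (nat_lit 152) (nat_lit 1379664867) (nat_lit 228) (nat_lit 355129361) (nat_lit 22) (nat_lit 5) (nat_lit 24) (nat_lit 5) (nat_lit 25) (nat_lit 5) (nat_lit 348) (nat_lit 261) (nat_lit 171)) (XT.lf (nat_lit 0) (nat_lit 2314737329) (nat_lit 228) (nat_lit 20215638909) (nat_lit 76) (nat_lit 2594101341) (nat_lit 19) (nat_lit 5) (nat_lit 22) (nat_lit 5) (nat_lit 20) (nat_lit 5) (nat_lit 349) (nat_lit 261) (nat_lit 170))))) (XT.nd (nat_lit 234) (nat_lit 152) (nat_lit 0) (XT.nd (nat_lit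 78) (nat_lit 0) (nat_lit 0) (XT.lf (nat_lit 0) (nat_lit 5073818333) (nat_lit 228) (nat_lit 13998664354) (nat_lit 76) (nat_lit 6672082121) (nat_lit 19) (nat_lit 5) (nat_lit 22) (nat_lit 5) (nat_lit 20) (nat_lit 5) (nat_lit 350) (nat_lit 261) (nat_lit 169)) (XT.nd (nat_lit 78) (nat_lit 0) (nat_lit 0) (XT.lf (nat_lit 0) (nat_lit 7901015989) (nat_lit 228) (nat_lit 7618528164) (nat_lit 76) (nat_lit 10864173086) (nat_lit 19) (nat_lit 5) (nat_lit 22) (nat_lit 5) (nat_lit 20) (nat_lit 5) (nat_lit 351) (nat_lit 261) (nat_lit 168)) (XT.lf (nat_lit 0) (nat_lit 10798800662) (nat_lit 228) (nat_lit 1069655461) (nat_lit 76) (nat_lit 15174037229) (nat_lit 19) (nat_lit 5) (nat_lit 22) (nat_lit 5) (nat_lit 20) (nat_lit 5) (nat_lit 352) (nat_lit 261) (nat_lit 167)))) (XT.nd (nat_lit 78) (nat_lit 0) (nat_lit 0) (XT.lf (nat_lit 0) (nat_lit 5766195309) (nat_lit 152) (nat_lit 8058937286) (nat_lit 228) (nat_lit 13894673336)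 (nat_lit 17) (nat_lit 5) (nat_lit 19) (nat_lit 5) (nat_lit 20) (nat_lit 5) (nat_lit 353) (nat_lit 261) (nat_lit 166)) (XT.nd (nat_lit 78) (nat_lit 0) (nat_lit 0) (XT.lf (nat_lit 0) (nat_lit 12807256897) (nat_lit 152) (nat_lit 4132177425) (nat_lit 228) (nat_lit 11478109137) (nat_lit 17) (nat_lit 5) (nat_lit 19) (nat_lit 5) (nat_lit 20) (nat_lit 5) (nat_lit 354) (nat_lit 261) (nat_lit 165)) (XT.lf (nat_lit 0) (nat_lit 20038393445) (nat_lit 152) (nat_lit 95546812) (nat_lit 228) (nat_lit 9002689955) (nat_lit 17) (nat_lit 5) (nat_lit 19) (nat_lit 5) (nat_lit 20) (nat_lit 5) (nat_lit 355) (nat_lit 261) (nat_lit 164))))))) (XT.nd (nat_lit 858) (nat_lit 304) (nat_lit 0) (XT.nd (nat_lit 390) (nat_lit 152) (nat_lit 0) (XT.nd (nat_lit 156) (nat_lit 76) (nat_lit 0) (XT.nd (nat_lit 78) (nat_lit 76) (nat_lit 0) (XT.lf (nat_lit 0) (nat_lit 23450415876) (nat_lit 228) (nat_lit 2450745257) (nat_lit 76) (nat_lit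 3975364162) (nat_lit 17) (nat_lit 5) (nat_lit 20) (nat_lit 5) (nat_lit 18) (nat_lit 4) (nat_lit 356) (nat_lit 261) (nat_lit 163)) (XT.lf (nat_lit 0) (nat_lit 4462031617) (nat_lit 76) (nat_lit 22435654378) (nat_lit 152) (nat_lit 3740011415) (nat_lit 16) (nat_lit 5) (nat_lit 17) (nat_lit 5) (nat_lit 18) (nat_lit 4) (nat_lit 357) (nat_lit 261) (nat_lit 162))) (XT.nd (nat_lit 78) (nat_lit 76) (nat_lit 0) (XT.lf (nat_lit 0) (nat_lit 11612364655) (nat_lit 76) (nat_lit 18848392026) (nat_lit 152) (nat_lit 960595161) (nat_lit 16) (nat_lit 5) (nat_lit 17) (nat_lit 5) (nat_lit 18) (nat_lit 4) (nat_lit 358) (nat_lit 261) (nat_lit 161)) (XT.nd (nat_lit 78) (nat_lit 0) (nat_lit 0) (XT.lf (nat_lit 0) (nat_lit 1852943035) (nat_lit 152) (nat_lit 13289333171) (nat_lit 76) (nat_lit 17086072956) (nat_lit 15) (nat_lit 5) (nat_lit 17) (nat_lit 5) (nat_lit 16) (nat_lit 5) (nat_lit 359) (nat_lit 261) (nat_lit 160))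 (XT.lf (nat_lit 0) (nat_lit 4719792307) (nat_lit 152) (nat_lit 6602765234) (nat_lit 76) (nat_lit 21737084224) (nat_lit 15) (nat_lit 5) (nat_lit 17) (nat_lit 5) (nat_lit 16) (nat_lit 5) (nat_lit 360) (nat_lit 261) (nat_lit 159))))) (XT.nd (nat_lit 234) (nat_lit 0) (nat_lit 0) (XT.nd (nat_lit 78) (nat_lit 0) (nat_lit 0) (XT.lf (nat_lit 0) (nat_lit 271082887) (nat_lit 152) (nat_lit 7392725268) (nat_lit 228) (nat_lit 26252346710) (nat_lit 13) (nat_lit 5) (nat_lit 15) (nat_lit 5) (nat_lit 16) (nat_lit 5) (nat_lit 361) (nat_lit 261) (nat_lit 158)) (XT.nd (nat_lit 78) (nat_lit 0) (nat_lit 0) (XT.lf (nat_lit 0) (nat_lit 7468072428) (nat_lit 152) (nat_lit 3283458551) (nat_lit 228) (nat_lit 24045186850) (nat_lit 13) (nat_lit 5) (nat_lit 15) (nat_lit 5) (nat_lit 16) (nat_lit 5) (nat_lit 362) (nat_lit 261) (nat_lit 157)) (XT.lf (nat_lit 0) (nat_lit 13929982401) (nat_lit 228) (nat_lit 20850014632) (nat_lit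 76) (nat_lit 923773344) (nat_lit 13) (nat_lit 5) (nat_lit 16) (nat_lit 5) (nat_lit 14) (nat_lit 4) (nat_lit 363) (nat_lit 261) (nat_lit 156)))) (XT.nd (nat_lit 78) (nat_lit 0) (nat_lit 0) (XT.lf (nat_lit 0) (nat_lit 17225591722) (nat_lit 228) (nat_lit 14227170746) (nat_lit 76) (nat_lit 5184633047) (nat_lit 13) (nat_lit 5) (nat_lit 16) (nat_lit 5) (nat_lit 14) (nat_lit 4) (nat_lit 364) (nat_lit 261) (nat_lit 155)) (XT.nd (nat_lit 78) (nat_lit 0) (nat_lit 0) (XT.lf (nat_lit 0) (nat_lit 20609675992) (nat_lit 228) (nat_lit 7422764181) (nat_lit 76) (nat_lit 9566915741) (nat_lit 13) (nat_lit 5) (nat_lit 16) (nat_lit 5) (nat_lit 14) (nat_lit 4) (nat_lit 365) (nat_lit 261) (nat_lit 154)) (XT.lf (nat_lit 0) (nat_lit 24085192176) (nat_lit 228) (nat_lit 430849339) (nat_lit 76) (nat_lit 14074450603) (nat_lit 13) (nat_lit 5) (nat_lit 16) (nat_lit 5) (nat_lit 14) (nat_lit 4) (nat_lit 366) (nat_lit 261) (nat_lit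 153)))))) (XT.nd (nat_lit 390) (nat_lit 228) (nat_lit 0) (XT.nd (nat_lit 156) (nat_lit 0) (nat_lit 0) (XT.nd (nat_lit 78) (nat_lit 0) (nat_lit 0) (XT.lf (nat_lit 0) (nat_lit 6889114660) (nat_lit 76) (nat_lit 20832284858) (nat_lit 152) (nat_lit 11888283982) (nat_lit 12) (nat_lit 5) (nat_lit 13) (nat_lit 5) (nat_lit 14) (nat_lit 4) (nat_lit 367) (nat_lit 261) (nat_lit 152)) (XT.lf (nat_lit 0) (nat_lit 14421528073) (nat_lit 76) (nat_lit 17039850746) (nat_lit 152) (nat_lit 9198244689) (nat_lit 12) (nat_lit 5) (nat_lit 13) (nat_lit 5) (nat_lit 14) (nat_lit 4) (nat_lit 368) (nat_lit 261) (nat_lit 151))) (XT.nd (nat_lit 78) (nat_lit 0) (nat_lit 0) (XT.lf (nat_lit 0) (nat_lit 22164397874) (nat_lit 76) (nat_lit 13139776135) (nat_lit 152) (nat_lit 6437182277) (nat_lit 12) (nat_lit 5) (nat_lit 13) (nat_lit 5) (nat_lit 14) (nat_lit 4) (nat_lit 369) (nat_lit 261) (nat_lit 150)) (XT.nd (nat_lit 78) (nat_lit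 0) (nat_lit 0) (XT.lf (nat_lit 0) (nat_lit 30124489676) (nat_lit 76) (nat_lit 9128653194) (nat_lit 152) (nat_lit 3602684167) (nat_lit 12) (nat_lit 5) (nat_lit 13) (nat_lit 5) (nat_lit 14) (nat_lit 4) (nat_lit 370) (nat_lit 261) (nat_lit 149)) (XT.lf (nat_lit 0) (nat_lit 38308758901) (nat_lit 76) (nat_lit 5002977057) (nat_lit 152) (nat_lit 692273614) (nat_lit 12) (nat_lit 5) (nat_lit 13) (nat_lit 5) (nat_lit 14) (nat_lit 4) (nat_lit 371) (nat_lit 261) (nat_lit 148))))) (XT.nd (nat_lit 234) (nat_lit 0) (nat_lit 0) (XT.nd (nat_lit 78) (nat_lit 0) (nat_lit 0) (XT.lf (nat_lit 0) (nat_lit 1545532346) (nat_lit 152) (nat_lit 721101925) (nat_lit 228) (nat_lit 42919164898) (nat_lit 9) (nat_lit 5) (nat_lit 11) (nat_lit 5) (nat_lit 12) (nat_lit 5) (nat_lit 372) (nat_lit 261) (nat_lit 147)) (XT.nd (nat_lit 78) (nat_lit 0) (nat_lit 0) (XT.lf (nat_lit 0) (nat_lit 5385316292) (nat_lit 228) (nat_lit 37338374487)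 (nat_lit 76) (nat_lit 3676609692) (nat_lit 9) (nat_lit 5) (nat_lit 12) (nat_lit 5) (nat_lit 10) (nat_lit 4) (nat_lit 373) (nat_lit 261) (nat_lit 146)) (XT.lf (nat_lit 0) (nat_lit 8596327040) (nat_lit 228) (nat_lit 30868600470) (nat_lit 76) (nat_lit 8186357196) (nat_lit 9) (nat_lit 5) (nat_lit 12) (nat_lit 5) (nat_lit 10) (nat_lit 4) (nat_lit 374) (nat_lit 261) (nat_lit 145)))) (XT.nd (nat_lit 78) (nat_lit 0) (nat_lit 0) (XT.lf (nat_lit 0) (nat_lit 11895540580) (nat_lit 228) (nat_lit 24218359896) (nat_lit 76) (nat_lit 12826152440) (nat_lit 9) (nat_lit 5) (nat_lit 12) (nat_lit 5) (nat_lit 10) (nat_lit 4) (nat_lit 375) (nat_lit 261) (nat_lit 144)) (XT.nd (nat_lit 78) (nat_lit 0) (nat_lit 0) (XT.lf (nat_lit 0) (nat_lit 15285839720) (nat_lit 228) (nat_lit 17381841878) (nat_lit 76) (nat_lit 17600049614) (nat_lit 9) (nat_lit 5) (nat_lit 12) (nat_lit 5) (nat_lit 10) (nat_lit 4) (nat_lit 376) (nat_lit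 261) (nat_lit 143)) (XT.lf (nat_lit 0) (nat_lit 18770186858) (nat_lit 228) (nat_lit 10353072758) (nat_lit 76) (nat_lit 22512220083) (nat_lit 9) (nat_lit 5) (nat_lit 12) (nat_lit 5) (nat_lit 10) (nat_lit 4) (nat_lit 377) (nat_lit 261) (nat_lit 142))))))))
noncomputable def xc117 : XT := (XT.nd (nat_lit 31902) (nat_lit 0) (nat_lit 11324) (XT.nd (nat_lit 858) (nat_lit 76) (nat_lit 0) (XT.nd (nat_lit 390) (nat_lit 76) (nat_lit 0) (XT.nd (nat_lit 156) (nat_lit 0) (nat_lit 0) (XT.nd (nat_lit 78) (nat_lit 76) (nat_lit 0) (XT.lf (nat_lit 0) (nat_lit 22351626569) (nat_lit 228) (nat_lit 3125910892) (nat_lit 76) (nat_lit 27566956036) (nat_lit 9) (nat_lit 5) (nat_lit 12) (nat_lit 5) (nat_lit 10) (nat_lit 4) (nat_lit 378) (nat_lit 261) (nat_lit 141)) (XT.lf (nat_lit 0) (nat_lit 4391655734) (nat_lit 76) (nat_lit 21683847812) (nat_lit 152) (nat_lit 28419233780) (nat_lit 8) (nat_lit 5) (nat_lit 9) (nat_lit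 5) (nat_lit 10) (nat_lit 4) (nat_lit 379) (nat_lit 261) (nat_lit 140))) (XT.nd (nat_lit 78) (nat_lit 0) (nat_lit 0) (XT.lf (nat_lit 0) (nat_lit 12186839050) (nat_lit 76) (nat_lit 17748697234) (nat_lit 152) (nat_lit 26052228165) (nat_lit 8) (nat_lit 5) (nat_lit 9) (nat_lit 5) (nat_lit 10) (nat_lit 4) (nat_lit 380) (nat_lit 261) (nat_lit 139)) (XT.nd (nat_lit 78) (nat_lit 0) (nat_lit 0) (XT.lf (nat_lit 0) (nat_lit 20204238625) (nat_lit 76) (nat_lit 13700212818) (nat_lit 152) (nat_lit 23621347396) (nat_lit 8) (nat_lit 5) (nat_lit 9) (nat_lit 5) (nat_lit 10) (nat_lit 4) (nat_lit 381) (nat_lit 261) (nat_lit 138)) (XT.lf (nat_lit 0) (nat_lit 28450859954) (nat_lit 76) (nat_lit 9534857053) (nat_lit 152) (nat_lit 21124467405) (nat_lit 8) (nat_lit 5) (nat_lit 9) (nat_lit 5) (nat_lit 10) (nat_lit 4) (nat_lit 382) (nat_lit 261) (nat_lit 137))))) (XT.nd (nat_lit 234) (nat_lit 76) (nat_lit 0) (XT.nd (nat_lit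 78) (nat_lit 0) (nat_lit 0) (XT.lf (nat_lit 0) (nat_lit 36933908821) (nat_lit 76) (nat_lit 5248990307) (nat_lit 152) (nat_lit 18559406450) (nat_lit 8) (nat_lit 5) (nat_lit 9) (nat_lit 5) (nat_lit 10) (nat_lit 4) (nat_lit 383) (nat_lit 261) (nat_lit 136)) (XT.nd (nat_lit 78) (nat_lit 0) (nat_lit 0) (XT.lf (nat_lit 0) (nat_lit 45660797600) (nat_lit 76) (nat_lit 838867649) (nat_lit 152) (nat_lit 15923923216) (nat_lit 8) (nat_lit 5) (nat_lit 9) (nat_lit 5) (nat_lit 10) (nat_lit 4) (nat_lit 384) (nat_lit 261) (nat_lit 135)) (XT.lf (nat_lit 0) (nat_lit 50975347855) (nat_lit 152) (nat_lit 9551910982) (nat_lit 0) (nat_lit 3627176502) (nat_lit 8) (nat_lit 5) (nat_lit 10) (nat_lit 4) (nat_lit 8) (nat_lit 4) (nat_lit 385) (nat_lit 261) (nat_lit 134)))) (XT.nd (nat_lit 78) (nat_lit 76) (nat_lit 0) (XT.lf (nat_lit 0) (nat_lit 55587599403) (nat_lit 152) (nat_lit 2143198005) (nat_lit 0) (nat_lit 8206348931)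 (nat_lit 8) (nat_lit 5) (nat_lit 10) (nat_lit 4) (nat_lit 8) (nat_lit 4) (nat_lit 386) (nat_lit 261) (nat_lit 133)) (XT.nd (nat_lit 78) (nat_lit 0) (nat_lit 0) (XT.lf (nat_lit 0) (nat_lit 5586906067) (nat_lit 76) (nat_lit 54799184999) (nat_lit 76) (nat_lit 7385818878) (nat_lit 7) (nat_lit 4) (nat_lit 8) (nat_lit 5) (nat_lit 8) (nat_lit 4) (nat_lit 387) (nat_lit 261) (nat_lit 132)) (XT.lf (nat_lit 0) (nat_lit 13583052736) (nat_lit 76) (nat_lit 51761370374) (nat_lit 76) (nat_lit 4316824011) (nat_lit 7) (nat_lit 4) (nat_lit 8) (nat_lit 5) (nat_lit 8) (nat_lit 4) (nat_lit 388) (nat_lit 261) (nat_lit 131)))))) (XT.nd (nat_lit 390) (nat_lit 0) (nat_lit 0) (XT.nd (nat_lit 156) (nat_lit 0) (nat_lit 0) (XT.nd (nat_lit 78) (nat_lit 76) (nat_lit 0) (XT.lf (nat_lit 0) (nat_lit 21809575082) (nat_lit 76) (nat_lit 48636341230) (nat_lit 76) (nat_lit 1161522788) (nat_lit 7) (nat_lit 4) (nat_lit 8) (nat_lit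 5) (nat_lit 8) (nat_lit 4) (nat_lit 389) (nat_lit 261) (nat_lit 130)) (XT.lf (nat_lit 0) (nat_lit 2042198104) (nat_lit 152) (nat_lit 43358546659) (nat_lit 76) (nat_lit 28210841029) (nat_lit 6) (nat_lit 5) (nat_lit 8) (nat_lit 5) (nat_lit 7) (nat_lit 4) (nat_lit 390) (nat_lit 261) (nat_lit 129))) (XT.nd (nat_lit 78) (nat_lit 0) (nat_lit 0) (XT.lf (nat_lit 0) (nat_lit 5313358534) (nat_lit 152) (nat_lit 36746625324) (nat_lit 76) (nat_lit 33615694246) (nat_lit 6) (nat_lit 5) (nat_lit 8) (nat_lit 5) (nat_lit 7) (nat_lit 4) (nat_lit 391) (nat_lit 261) (nat_lit 128)) (XT.nd (nat_lit 78) (nat_lit 0) (nat_lit 0) (XT.lf (nat_lit 0) (nat_lit 8677482290) (nat_lit 152) (nat_lit 29945157340) (nat_lit 76) (nat_lit 39179214939) (nat_lit 6) (nat_lit 5) (nat_lit 8) (nat_lit 5) (nat_lit 7) (nat_lit 4) (nat_lit 392) (nat_lit 261) (nat_lit 127)) (XT.lf (nat_lit 0) (nat_lit 12137508898) (nat_lit 152) (nat_lit 22948199676)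 (nat_lit 76) (nat_lit 44906264439) (nat_lit 6) (nat_lit 5) (nat_lit 8) (nat_lit 5) (nat_lit 7) (nat_lit 4) (nat_lit 393) (nat_lit 261) (nat_lit 126))))) (XT.nd (nat_lit 30420) (nat_lit 0) (nat_lit 17480) (XT.nd (nat_lit 78) (nat_lit 0) (nat_lit 0) (XT.lf (nat_lit 0) (nat_lit 15696461683) (nat_lit 152) (nat_lit 15749638486) (nat_lit 76) (nat_lit 50801846962) (nat_lit 6) (nat_lit 5) (nat_lit 8) (nat_lit 5) (nat_lit 7) (nat_lit 4) (nat_lit 394) (nat_lit 261) (nat_lit 125)) (XT.nd (nat_lit 30264) (nat_lit 0) (nat_lit 17708) (XT.lf (nat_lit 0) (nat_lit 19357450407) (nat_lit 152) (nat_lit 8343183764) (nat_lit 76) (nat_lit 56871113989) (nat_lit 6) (nat_lit 5) (nat_lit 8) (nat_lit 5) (nat_lit 7) (nat_lit 4) (nat_lit 395) (nat_lit 261) (nat_lit 124)) (XT.lf (nat_lit 0) (nat_lit 1964530569) (nat_lit 228) (nat_lit 632819078) (nat_lit 228) (nat_lit 632819078) (nat_lit 239) (nat_lit 3) (nat_lit 242) (nat_lit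 3) (nat_lit 242) (nat_lit 5) (nat_lit 262) (nat_lit 262) (nat_lit 256)))) (XT.nd (nat_lit 78) (nat_lit 228) (nat_lit 0) (XT.lf (nat_lit 76) (nat_lit 1473955920) (nat_lit 0) (nat_lit 4945512138) (nat_lit 228) (nat_lit 51751753) (nat_lit 240) (nat_lit 5) (nat_lit 239) (nat_lit 3) (nat_lit 242) (nat_lit 5) (nat_lit 263) (nat_lit 262) (nat_lit 255)) (XT.nd (nat_lit 78) (nat_lit 0) (nat_lit 0) (XT.lf (nat_lit 0) (nat_lit 2369980773) (nat_lit 228) (nat_lit 2236765791) (nat_lit 304) (nat_lit 1877956610) (nat_lit 236) (nat_lit 5) (nat_lit 239) (nat_lit 3) (nat_lit 240) (nat_lit 5) (nat_lit 264) (nat_lit 262) (nat_lit 254)) (XT.lf (nat_lit 76) (nat_lit 566384230) (nat_lit 0) (nat_lit 4208930318) (nat_lit 304) (nat_lit 1726382555) (nat_lit 237) (nat_lit 5) (nat_lit 236) (nat_lit 5) (nat_lit 240) (nat_lit 5) (nat_lit 265) (nat_lit 262) (nat_lit 253))))))) (XT.nd (nat_lit 858) (nat_lit 4028) (nat_lit 0)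 (XT.nd (nat_lit 390) (nat_lit 1444) (nat_lit 0) (XT.nd (nat_lit 156) (nat_lit 380) (nat_lit 0) (XT.nd (nat_lit 78) (nat_lit 0) (nat_lit 0) (XT.lf (nat_lit 0) (nat_lit 649526009) (nat_lit 304) (nat_lit 3078820198) (nat_lit 380) (nat_lit 2793189573) (nat_lit 232) (nat_lit 5) (nat_lit 236) (nat_lit 5) (nat_lit 237) (nat_lit 5) (nat_lit 266) (nat_lit 262) (nat_lit 252)) (XT.lf (nat_lit 0) (nat_lit 2972132925) (nat_lit 304) (nat_lit 204698162) (nat_lit 380) (nat_lit 3367762447) (nat_lit 232) (nat_lit 5) (nat_lit 236) (nat_lit 5) (nat_lit 237) (nat_lit 5) (nat_lit 267) (nat_lit 262) (nat_lit 251))) (XT.nd (nat_lit 78) (nat_lit 380) (nat_lit 0) (XT.lf (nat_lit 76) (nat_lit 2760017533) (nat_lit 0) (nat_lit 2543669042) (nat_lit 380) (nat_lit 1266905858) (nat_lit 233) (nat_lit 5) (nat_lit 232) (nat_lit 5) (nat_lit 237) (nat_lit 5) (nat_lit 268) (nat_lit 262) (nat_lit 250)) (XT.nd (nat_lit 78) (nat_lit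 0) (nat_lit 0) (XT.lf (nat_lit 0) (nat_lit 1001843306) (nat_lit 380) (nat_lit 841233954) (nat_lit 456) (nat_lit 4756908142) (nat_lit 227) (nat_lit 5) (nat_lit 232) (nat_lit 5) (nat_lit 233) (nat_lit 5) (nat_lit 269) (nat_lit 262) (nat_lit 249)) (XT.lf (nat_lit 76) (nat_lit 2197895552) (nat_lit 0) (nat_lit 1052498818) (nat_lit 456) (nat_lit 3381764586) (nat_lit 228) (nat_lit 5) (nat_lit 227) (nat_lit 5) (nat_lit 233) (nat_lit 5) (nat_lit 270) (nat_lit 262) (nat_lit 248))))) (XT.nd (nat_lit 234) (nat_lit 1064) (nat_lit 0) (XT.nd (nat_lit 78) (nat_lit 380) (nat_lit 0) (XT.lf (nat_lit 76) (nat_lit 5296293147) (nat_lit 0) (nat_lit 196651036) (nat_lit 456) (nat_lit 1174937068) (nat_lit 228) (nat_lit 5) (nat_lit 227) (nat_lit 5) (nat_lit 233) (nat_lit 5) (nat_lit 271) (nat_lit 262) (nat_lit 247)) (XT.nd (nat_lit 78) (nat_lit 0) (nat_lit 0) (XT.lf (nat_lit 0) (nat_lit 1019995471) (nat_lit 456) (nat_lit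 4956770270) (nat_lit 76) (nat_lit 729650965) (nat_lit 222) (nat_lit 5) (nat_lit 228) (nat_lit 5) (nat_lit 223) (nat_lit 5) (nat_lit 272) (nat_lit 262) (nat_lit 246)) (XT.lf (nat_lit 0) (nat_lit 3194543434) (nat_lit 456) (nat_lit 1818969310) (nat_lit 76) (nat_lit 1734472586) (nat_lit 222) (nat_lit 5) (nat_lit 228) (nat_lit 5) (nat_lit 223) (nat_lit 5) (nat_lit 273) (nat_lit 262) (nat_lit 245)))) (XT.nd (nat_lit 78) (nat_lit 608) (nat_lit 0) (XT.lf (nat_lit 0) (nat_lit 1389404561) (nat_lit 456) (nat_lit 3982015001) (nat_lit 532) (nat_lit 1421606148) (nat_lit 216) (nat_lit 5) (nat_lit 222) (nat_lit 5) (nat_lit 223) (nat_lit 5) (nat_lit 274) (nat_lit 262) (nat_lit 244)) (XT.nd (nat_lit 78) (nat_lit 532) (nat_lit 0) (XT.lf (nat_lit 0) (nat_lit 702043202) (nat_lit 532) (nat_lit 2167172280) (nat_lit 76) (nat_lit 3972007666) (nat_lit 215) (nat_lit 5) (nat_lit 222) (nat_lit 5) (nat_lit 216) (nat_lit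 5) (nat_lit 275) (nat_lit 262) (nat_lit 243)) (XT.lf (nat_lit 0) (nat_lit 1123738504) (nat_lit 532) (nat_lit 1674509972) (nat_lit 608) (nat_lit 4094382007) (nat_lit 208) (nat_lit 5) (nat_lit 215) (nat_lit 5) (nat_lit 216) (nat_lit 5) (nat_lit 276) (nat_lit 262) (nat_lit 242)))))) (XT.nd (nat_lit 390) (nat_lit 2660) (nat_lit 0) (XT.nd (nat_lit 156) (nat_lit 684) (nat_lit 0) (XT.nd (nat_lit 78) (nat_lit 684) (nat_lit 0) (XT.lf (nat_lit 0) (nat_lit 4507812040) (nat_lit 532) (nat_lit 399686150) (nat_lit 608) (nat_lit 2039876919) (nat_lit 208) (nat_lit 5) (nat_lit 215) (nat_lit 5) (nat_lit 216) (nat_lit 5) (nat_lit 277) (nat_lit 262) (nat_lit 241)) (XT.lf (nat_lit 0) (nat_lit 22440689) (nat_lit 684) (nat_lit 6057566306) (nat_lit 76) (nat_lit 925585728) (nat_lit 199) (nat_lit 5) (nat_lit 208) (nat_lit 5) (nat_lit 200) (nat_lit 5) (nat_lit 278) (nat_lit 262) (nat_lit 240))) (XT.nd (nat_lit 78) (nat_lit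 684) (nat_lit 0) (XT.lf (nat_lit 0) (nat_lit 2065616824) (nat_lit 684) (nat_lit 2654223535) (nat_lit 76) (nat_lit 2346585321) (nat_lit 199) (nat_lit 5) (nat_lit 208) (nat_lit 5) (nat_lit 200) (nat_lit 5) (nat_lit 279) (nat_lit 262) (nat_lit 239)) (XT.nd (nat_lit 78) (nat_lit 0) (nat_lit 0) (XT.lf (nat_lit 0) (nat_lit 816412849) (nat_lit 684) (nat_lit 3294681023) (nat_lit 760) (nat_lit 3020025971) (nat_lit 190) (nat_lit 5) (nat_lit 199) (nat_lit 5) (nat_lit 200) (nat_lit 5) (nat_lit 280) (nat_lit 262) (nat_lit 238)) (XT.lf (nat_lit 0) (nat_lit 4395336913) (nat_lit 684) (nat_lit 1784022462) (nat_lit 760) (nat_lit 1019811357) (nat_lit 190) (nat_lit 5) (nat_lit 199) (nat_lit 5) (nat_lit 200) (nat_lit 5) (nat_lit 281) (nat_lit 262) (nat_lit 237))))) (XT.nd (nat_lit 234) (nat_lit 988) (nat_lit 0) (XT.nd (nat_lit 78) (nat_lit 836) (nat_lit 0) (XT.lf (nat_lit 0) (nat_lit 767030497) (nat_lit 760) (nat_lit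 196101486) (nat_lit 836) (nat_lit 6307784180) (nat_lit 179) (nat_lit 5) (nat_lit 189) (nat_lit 5) (nat_lit 190) (nat_lit 5) (nat_lit 282) (nat_lit 262) (nat_lit 236)) (XT.nd (nat_lit 78) (nat_lit 836) (nat_lit 0) (XT.lf (nat_lit 0) (nat_lit 2964669987) (nat_lit 836) (nat_lit 2917742394) (nat_lit 76) (nat_lit 1462947233) (nat_lit 179) (nat_lit 5) (nat_lit 190) (nat_lit 5) (nat_lit 180) (nat_lit 5) (nat_lit 283) (nat_lit 262) (nat_lit 235)) (XT.lf (nat_lit 0) (nat_lit 737898944) (nat_lit 836) (nat_lit 4236392898) (nat_lit 912) (nat_lit 2449533181) (nat_lit 168) (nat_lit 5) (nat_lit 179) (nat_lit 5) (nat_lit 180) (nat_lit 5) (nat_lit 284) (nat_lit 262) (nat_lit 234)))) (XT.nd (nat_lit 78) (nat_lit 988) (nat_lit 0) (XT.lf (nat_lit 0) (nat_lit 4512972210) (nat_lit 836) (nat_lit 2500992116) (nat_lit 912) (nat_lit 491810302) (nat_lit 168) (nat_lit 5) (nat_lit 179) (nat_lit 5) (nat_lit 180) (nat_lit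 5) (nat_lit 285) (nat_lit 262) (nat_lit 233)) (XT.nd (nat_lit 78) (nat_lit 0) (nat_lit 0) (XT.lf (nat_lit 0) (nat_lit 761345774) (nat_lit 912) (nat_lit 682116827) (nat_lit 988) (nat_lit 6148033644) (nat_lit 155) (nat_lit 5) (nat_lit 167) (nat_lit 5) (nat_lit 168) (nat_lit 5) (nat_lit 286) (nat_lit 262) (nat_lit 232)) (XT.lf (nat_lit 0) (nat_lit 3411445031) (nat_lit 988) (nat_lit 3057522155) (nat_lit 76) (nat_lit 1211344314) (nat_lit 155) (nat_lit 5) (nat_lit 168) (nat_lit 5) (nat_lit 156) (nat_lit 5) (nat_lit 287) (nat_lit 262) (nat_lit 231))))))))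
noncomputable def xc118 : XT := (XT.nd (nat_lit 1716) (nat_lit 2660) (nat_lit 0) (XT.nd (nat_lit 858) (nat_lit 2128) (nat_lit 0) (XT.nd (nat_lit 390) (nat_lit 1596) (nat_lit 0) (XT.nd (nat_lit 156) (nat_lit 1672) (nat_lit 0) (XT.nd (nat_lit 78) (nat_lit 0) (nat_lit 0) (XT.lf (nat_lit 0) (nat_lit 786899390) (nat_lit 988) (nat_lit 4610122072) (nat_lit 1064) (nat_lit 2376211332) (nat_lit 142) (nat_lit 5) (nat_lit 155) (nat_lit 5) (nat_lit 156) (nat_lit 5) (nat_lit 288) (nat_lit 262) (nat_lit 230)) (XT.lf (nat_lit 0) (nat_lit 4759832632) (nat_lit 988) (nat_lit 2658592646) (nat_lit 1064) (nat_lit 451421087) (nat_lit 142) (nat_lit 5) (nat_lit 155) (nat_lit 5) (nat_lit 156) (nat_lit 5) (nat_lit 289) (nat_lit 262) (nat_lit 229))) (XT.nd (nat_lit 78) (nat_lit 532) (nat_lit 0) (XT.lf (nat_lit 0) (nat_lit 834862440) (nat_lit 1064) (nat_lit 620665761) (nat_lit 1140) (nat_lit 6514941212) (nat_lit 127) (nat_lit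 5) (nat_lit 141) (nat_lit 5) (nat_lit 142) (nat_lit 5) (nat_lit 290) (nat_lit 262) (nat_lit 228)) (XT.nd (nat_lit 78) (nat_lit 532) (nat_lit 0) (XT.lf (nat_lit 0) (nat_lit 3403940129) (nat_lit 1140) (nat_lit 3180938343) (nat_lit 76) (nat_lit 1489474887) (nat_lit 127) (nat_lit 5) (nat_lit 142) (nat_lit 5) (nat_lit 128) (nat_lit 5) (nat_lit 291) (nat_lit 262) (nat_lit 227)) (XT.lf (nat_lit 0) (nat_lit 853744238) (nat_lit 532) (nat_lit 4520344152) (nat_lit 608) (nat_lit 2808537897) (nat_lit 120) (nat_lit 5) (nat_lit 127) (nat_lit 5) (nat_lit 128) (nat_lit 5) (nat_lit 292) (nat_lit 262) (nat_lit 226))))) (XT.nd (nat_lit 234) (nat_lit 1064) (nat_lit 0) (XT.nd (nat_lit 78) (nat_lit 532) (nat_lit 0) (XT.lf (nat_lit 0) (nat_lit 5026014658) (nat_lit 532) (nat_lit 2359399417) (nat_lit 608) (nat_lit 909437140) (nat_lit 120) (nat_lit 5) (nat_lit 127) (nat_lit 5) (nat_lit 128) (nat_lit 5) (nat_lit 293)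 (nat_lit 262) (nat_lit 225)) (XT.nd (nat_lit 78) (nat_lit 0) (nat_lit 0) (XT.lf (nat_lit 0) (nat_lit 871579286) (nat_lit 456) (nat_lit 113782191) (nat_lit 532) (nat_lit 7426161604) (nat_lit 113) (nat_lit 5) (nat_lit 119) (nat_lit 5) (nat_lit 120) (nat_lit 5) (nat_lit 294) (nat_lit 262) (nat_lit 224)) (XT.lf (nat_lit 0) (nat_lit 2924948143) (nat_lit 532) (nat_lit 3407466981) (nat_lit 76) (nat_lit 2198975079) (nat_lit 113) (nat_lit 5) (nat_lit 120) (nat_lit 5) (nat_lit 114) (nat_lit 5) (nat_lit 295) (nat_lit 262) (nat_lit 223)))) (XT.nd (nat_lit 78) (nat_lit 532) (nat_lit 0) (XT.lf (nat_lit 0) (nat_lit 815710512) (nat_lit 532) (nat_lit 4069132109) (nat_lit 608) (nat_lit 3771294604) (nat_lit 106) (nat_lit 5) (nat_lit 113) (nat_lit 5) (nat_lit 114) (nat_lit 5) (nat_lit 296) (nat_lit 262) (nat_lit 222)) (XT.nd (nat_lit 78) (nat_lit 532) (nat_lit 0) (XT.lf (nat_lit 0) (nat_lit 5187839765) (nat_lit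 532) (nat_lit 1704162443) (nat_lit 608) (nat_lit 1893113593) (nat_lit 106) (nat_lit 5) (nat_lit 113) (nat_lit 5) (nat_lit 114) (nat_lit 5) (nat_lit 297) (nat_lit 262) (nat_lit 221)) (XT.lf (nat_lit 0) (nat_lit 9626110) (nat_lit 532) (nat_lit 8186348130) (nat_lit 76) (nat_lit 723041888) (nat_lit 99) (nat_lit 5) (nat_lit 106) (nat_lit 5) (nat_lit 100) (nat_lit 5) (nat_lit 298) (nat_lit 262) (nat_lit 220)))))) (XT.nd (nat_lit 390) (nat_lit 1216) (nat_lit 0) (XT.nd (nat_lit 156) (nat_lit 456) (nat_lit 0) (XT.nd (nat_lit 78) (nat_lit 456) (nat_lit 0) (XT.lf (nat_lit 0) (nat_lit 1940618562) (nat_lit 532) (nat_lit 3873783832) (nat_lit 76) (nat_lit 3241823193) (nat_lit 99) (nat_lit 5) (nat_lit 106) (nat_lit 5) (nat_lit 100) (nat_lit 5) (nat_lit 299) (nat_lit 262) (nat_lit 219)) (XT.lf (nat_lit 0) (nat_lit 531722669) (nat_lit 456) (nat_lit 3359883031) (nat_lit 532) (nat_lit 5307210909) (nat_lit 93)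 (nat_lit 5) (nat_lit 99) (nat_lit 5) (nat_lit 100) (nat_lit 5) (nat_lit 300) (nat_lit 262) (nat_lit 218))) (XT.nd (nat_lit 78) (nat_lit 456) (nat_lit 0) (XT.lf (nat_lit 0) (nat_lit 5102451514) (nat_lit 456) (nat_lit 795550446) (nat_lit 532) (nat_lit 3447900539) (nat_lit 93) (nat_lit 5) (nat_lit 99) (nat_lit 5) (nat_lit 100) (nat_lit 5) (nat_lit 301) (nat_lit 262) (nat_lit 217)) (XT.nd (nat_lit 78) (nat_lit 76) (nat_lit 0) (XT.lf (nat_lit 0) (nat_lit 253798318) (nat_lit 380) (nat_lit 7689927300) (nat_lit 456) (nat_lit 1554421205) (nat_lit 88) (nat_lit 5) (nat_lit 93) (nat_lit 5) (nat_lit 94) (nat_lit 5) (nat_lit 302) (nat_lit 262) (nat_lit 216)) (XT.lf (nat_lit 0) (nat_lit 398484680) (nat_lit 456) (nat_lit 4739611972) (nat_lit 76) (nat_lit 4516550300) (nat_lit 87) (nat_lit 5) (nat_lit 93) (nat_lit 5) (nat_lit 88) (nat_lit 5) (nat_lit 303) (nat_lit 262) (nat_lit 215))))) (XT.nd (nat_lit 234)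 (nat_lit 836) (nat_lit 0) (XT.nd (nat_lit 78) (nat_lit 380) (nat_lit 0) (XT.lf (nat_lit 0) (nat_lit 2339119243) (nat_lit 456) (nat_lit 160545423) (nat_lit 76) (nat_lit 7317013942) (nat_lit 87) (nat_lit 5) (nat_lit 93) (nat_lit 5) (nat_lit 88) (nat_lit 5) (nat_lit 304) (nat_lit 262) (nat_lit 214)) (XT.nd (nat_lit 78) (nat_lit 0) (nat_lit 0) (XT.lf (nat_lit 0) (nat_lit 4346222370) (nat_lit 456) (nat_lit 5384395321) (nat_lit 76) (nat_lit 252812586) (nat_lit 82) (nat_lit 5) (nat_lit 88) (nat_lit 5) (nat_lit 83) (nat_lit 5) (nat_lit 305) (nat_lit 262) (nat_lit 213)) (XT.lf (nat_lit 0) (nat_lit 6402106441) (nat_lit 456) (nat_lit 720053303) (nat_lit 76) (nat_lit 3033471163) (nat_lit 82) (nat_lit 5) (nat_lit 88) (nat_lit 5) (nat_lit 83) (nat_lit 5) (nat_lit 306) (nat_lit 262) (nat_lit 212)))) (XT.nd (nat_lit 78) (nat_lit 456) (nat_lit 0) (XT.lf (nat_lit 0) (nat_lit 4121096599) (nat_lit 380) (nat_lit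 4401467898) (nat_lit 456) (nat_lit 1810446572) (nat_lit 77) (nat_lit 5) (nat_lit 82) (nat_lit 5) (nat_lit 83) (nat_lit 5) (nat_lit 307) (nat_lit 262) (nat_lit 211)) (XT.nd (nat_lit 78) (nat_lit 380) (nat_lit 0) (XT.lf (nat_lit 0) (nat_lit 158026474) (nat_lit 456) (nat_lit 1439094715) (nat_lit 76) (nat_lit 8919506202) (nat_lit 76) (nat_lit 5) (nat_lit 82) (nat_lit 5) (nat_lit 77) (nat_lit 5) (nat_lit 308) (nat_lit 262) (nat_lit 210)) (XT.lf (nat_lit 0) (nat_lit 2160060950) (nat_lit 456) (nat_lit 7233896860) (nat_lit 76) (nat_lit 1311021685) (nat_lit 71) (nat_lit 5) (nat_lit 77) (nat_lit 5) (nat_lit 72) (nat_lit 5) (nat_lit 309) (nat_lit 262) (nat_lit 209))))))) (XT.nd (nat_lit 858) (nat_lit 1064) (nat_lit 0) (XT.nd (nat_lit 390) (nat_lit 912) (nat_lit 0) (XT.nd (nat_lit 156) (nat_lit 380) (nat_lit 0) (XT.nd (nat_lit 78) (nat_lit 304) (nat_lit 0) (XT.lf (nat_lit 0) (nat_lit 4217749605) (nat_lit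 456) (nat_lit 2399737061) (nat_lit 76) (nat_lit 4281716936) (nat_lit 71) (nat_lit 5) (nat_lit 77) (nat_lit 5) (nat_lit 72) (nat_lit 5) (nat_lit 310) (nat_lit 262) (nat_lit 208)) (XT.lf (nat_lit 0) (nat_lit 2587908860) (nat_lit 304) (nat_lit 3740257152) (nat_lit 380) (nat_lit 4771445142) (nat_lit 67) (nat_lit 5) (nat_lit 71) (nat_lit 5) (nat_lit 72) (nat_lit 5) (nat_lit 311) (nat_lit 262) (nat_lit 207))) (XT.nd (nat_lit 78) (nat_lit 380) (nat_lit 0) (XT.lf (nat_lit 0) (nat_lit 7732750464) (nat_lit 304) (nat_lit 760084266) (nat_lit 380) (nat_lit 2813552123) (nat_lit 67) (nat_lit 5) (nat_lit 71) (nat_lit 5) (nat_lit 72) (nat_lit 5) (nat_lit 312) (nat_lit 262) (nat_lit 206)) (XT.nd (nat_lit 78) (nat_lit 76) (nat_lit 0) (XT.lf (nat_lit 0) (nat_lit 1477821716) (nat_lit 304) (nat_lit 9248626887) (nat_lit 380) (nat_lit 792878726) (nat_lit 63) (nat_lit 5) (nat_lit 67) (nat_lit 5) (nat_lit 68) (nat_lit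 5) (nat_lit 313) (nat_lit 262) (nat_lit 205)) (XT.lf (nat_lit 0) (nat_lit 1274998642) (nat_lit 380) (nat_lit 5045461799) (nat_lit 76) (nat_lit 5417549242) (nat_lit 62) (nat_lit 5) (nat_lit 67) (nat_lit 5) (nat_lit 63) (nat_lit 5) (nat_lit 314) (nat_lit 262) (nat_lit 204))))) (XT.nd (nat_lit 234) (nat_lit 608) (nat_lit 0) (XT.nd (nat_lit 78) (nat_lit 0) (nat_lit 0) (XT.lf (nat_lit 0) (nat_lit 53164975) (nat_lit 304) (nat_lit 3305017270) (nat_lit 380) (nat_lit 8605833305) (nat_lit 58) (nat_lit 5) (nat_lit 62) (nat_lit 5) (nat_lit 63) (nat_lit 5) (nat_lit 315) (nat_lit 262) (nat_lit 203)) (XT.nd (nat_lit 78) (nat_lit 0) (nat_lit 0) (XT.lf (nat_lit 0) (nat_lit 5368088981) (nat_lit 304) (nat_lit 155943025) (nat_lit 380) (nat_lit 6672237024) (nat_lit 58) (nat_lit 5) (nat_lit 62) (nat_lit 5) (nat_lit 63) (nat_lit 5) (nat_lit 316) (nat_lit 262) (nat_lit 202)) (XT.lf (nat_lit 0) (nat_lit 7754568151)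 (nat_lit 380) (nat_lit 1662510325) (nat_lit 76) (nat_lit 3018490754) (nat_lit 58) (nat_lit 5) (nat_lit 63) (nat_lit 5) (nat_lit 59) (nat_lit 5) (nat_lit 317) (nat_lit 262) (nat_lit 201)))) (XT.nd (nat_lit 78) (nat_lit 304) (nat_lit 0) (XT.lf (nat_lit 0) (nat_lit 3689947942) (nat_lit 304) (nat_lit 6369990305) (nat_lit 380) (nat_lit 2621941044) (nat_lit 54) (nat_lit 5) (nat_lit 58) (nat_lit 5) (nat_lit 59) (nat_lit 5) (nat_lit 318) (nat_lit 262) (nat_lit 200)) (XT.nd (nat_lit 78) (nat_lit 304) (nat_lit 0) (XT.lf (nat_lit 0) (nat_lit 9198796898) (nat_lit 304) (nat_lit 3223844139) (nat_lit 380) (nat_lit 513358867) (nat_lit 54) (nat_lit 5) (nat_lit 58) (nat_lit 5) (nat_lit 59) (nat_lit 5) (nat_lit 319) (nat_lit 262) (nat_lit 199)) (XT.lf (nat_lit 0) (nat_lit 1614276031) (nat_lit 304) (nat_lit 11544353799) (nat_lit 76) (nat_lit 39053877) (nat_lit 50) (nat_lit 5) (nat_lit 54) (nat_lit 5) (nat_lit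 51) (nat_lit 5) (nat_lit 320) (nat_lit 262) (nat_lit 198)))))) (XT.nd (nat_lit 390) (nat_lit 532) (nat_lit 0) (XT.nd (nat_lit 156) (nat_lit 532) (nat_lit 0) (XT.nd (nat_lit 78) (nat_lit 0) (nat_lit 0) (XT.lf (nat_lit 0) (nat_lit 3837697930) (nat_lit 304) (nat_lit 6259471117) (nat_lit 76) (nat_lit 3368688980) (nat_lit 50) (nat_lit 5) (nat_lit 54) (nat_lit 5) (nat_lit 51) (nat_lit 5) (nat_lit 321) (nat_lit 262) (nat_lit 197)) (XT.lf (nat_lit 0) (nat_lit 6100875531) (nat_lit 304) (nat_lit 853126806) (nat_lit 76) (nat_lit 6788942642) (nat_lit 50) (nat_lit 5) (nat_lit 54) (nat_lit 5) (nat_lit 51) (nat_lit 5) (nat_lit 322) (nat_lit 262) (nat_lit 196))) (XT.nd (nat_lit 78) (nat_lit 228) (nat_lit 0) (XT.lf (nat_lit 0) (nat_lit 4772532421) (nat_lit 304) (nat_lit 3679130450) (nat_lit 380) (nat_lit 5576147513) (nat_lit 46) (nat_lit 5) (nat_lit 50) (nat_lit 5) (nat_lit 51) (nat_lit 5) (nat_lit 323) (nat_lit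 262) (nat_lit 195)) (XT.nd (nat_lit 78) (nat_lit 228) (nat_lit 0) (XT.lf (nat_lit 0) (nat_lit 10548797967) (nat_lit 304) (nat_lit 307047978) (nat_lit 380) (nat_lit 3465945250) (nat_lit 46) (nat_lit 5) (nat_lit 50) (nat_lit 5) (nat_lit 51) (nat_lit 5) (nat_lit 324) (nat_lit 262) (nat_lit 194)) (XT.lf (nat_lit 0) (nat_lit 1843982744) (nat_lit 228) (nat_lit 11511247199) (nat_lit 304) (nat_lit 1268723213) (nat_lit 43) (nat_lit 5) (nat_lit 46) (nat_lit 5) (nat_lit 47) (nat_lit 5) (nat_lit 325) (nat_lit 262) (nat_lit 193))))) (XT.nd (nat_lit 234) (nat_lit 228) (nat_lit 0) (XT.nd (nat_lit 78) (nat_lit 228) (nat_lit 0) (XT.lf (nat_lit 0) (nat_lit 991541068) (nat_lit 304) (nat_lit 7275729039) (nat_lit 76) (nat_lit 6667178083) (nat_lit 42) (nat_lit 5) (nat_lit 46) (nat_lit 5) (nat_lit 43) (nat_lit 5) (nat_lit 326) (nat_lit 262) (nat_lit 192)) (XT.nd (nat_lit 78) (nat_lit 228) (nat_lit 0) (XT.lf (nat_lit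 0) (nat_lit 3269854045) (nat_lit 304) (nat_lit 1653413771) (nat_lit 76) (nat_lit 10331390592) (nat_lit 42) (nat_lit 5) (nat_lit 46) (nat_lit 5) (nat_lit 43) (nat_lit 5) (nat_lit 327) (nat_lit 262) (nat_lit 191)) (XT.lf (nat_lit 0) (nat_lit 4185763151) (nat_lit 228) (nat_lit 1447436801) (nat_lit 304) (nat_lit 9950822443) (nat_lit 39) (nat_lit 5) (nat_lit 42) (nat_lit 5) (nat_lit 43) (nat_lit 5) (nat_lit 328) (nat_lit 262) (nat_lit 190)))) (XT.nd (nat_lit 78) (nat_lit 228) (nat_lit 0) (XT.lf (nat_lit 0) (nat_lit 8081527111) (nat_lit 304) (nat_lit 5743228572) (nat_lit 76) (nat_lit 2098135762) (nat_lit 39) (nat_lit 5) (nat_lit 43) (nat_lit 5) (nat_lit 40) (nat_lit 5) (nat_lit 329) (nat_lit 262) (nat_lit 189)) (XT.nd (nat_lit 78) (nat_lit 0) (nat_lit 0) (XT.lf (nat_lit 0) (nat_lit 34984172) (nat_lit 228) (nat_lit 10560384160) (nat_lit 304) (nat_lit 5676841523) (nat_lit 36) (nat_lit 5) (nat_lit 39)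 (nat_lit 5) (nat_lit 40) (nat_lit 5) (nat_lit 330) (nat_lit 262) (nat_lit 188)) (XT.lf (nat_lit 0) (nat_lit 6071775165) (nat_lit 228) (nat_lit 7148587818) (nat_lit 304) (nat_lit 3410616584) (nat_lit 36) (nat_lit 5) (nat_lit 39) (nat_lit 5) (nat_lit 40) (nat_lit 5) (nat_lit 331) (nat_lit 262) (nat_lit 187))))))))
noncomputable def xc119 : XT := (XT.nd (nat_lit 1716) (nat_lit 760) (nat_lit 0) (XT.nd (nat_lit 858) (nat_lit 532) (nat_lit 0) (XT.nd (nat_lit 390) (nat_lit 304) (nat_lit 0) (XT.nd (nat_lit 156) (nat_lit 152) (nat_lit 0) (XT.nd (nat_lit 78) (nat_lit 304) (nat_lit 0) (XT.lf (nat_lit 0) (nat_lit 12258117764) (nat_lit 228) (nat_lit 3644380823) (nat_lit 304) (nat_lit 1098704670) (nat_lit 36) (nat_lit 5) (nat_lit 39) (nat_lit 5) (nat_lit 40) (nat_lit 5) (nat_lit 332) (nat_lit 262) (nat_lit 186)) (XT.lf (nat_lit 0) (nat_lit 1228056209) (nat_lit 228) (nat_lit 20057974) (nat_lit 304) (nat_lit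 16134372472) (nat_lit 32) (nat_lit 5) (nat_lit 35) (nat_lit 5) (nat_lit 36) (nat_lit 5) (nat_lit 333) (nat_lit 262) (nat_lit 185))) (XT.nd (nat_lit 78) (nat_lit 152) (nat_lit 0) (XT.lf (nat_lit 0) (nat_lit 3706315871) (nat_lit 304) (nat_lit 10376617028) (nat_lit 76) (nat_lit 3690096475) (nat_lit 32) (nat_lit 5) (nat_lit 36) (nat_lit 5) (nat_lit 33) (nat_lit 5) (nat_lit 334) (nat_lit 262) (nat_lit 184)) (XT.nd (nat_lit 78) (nat_lit 152) (nat_lit 0) (XT.lf (nat_lit 0) (nat_lit 6218073358) (nat_lit 304) (nat_lit 4456116402) (nat_lit 76) (nat_lit 7501742189) (nat_lit 32) (nat_lit 5) (nat_lit 36) (nat_lit 5) (nat_lit 33) (nat_lit 5) (nat_lit 335) (nat_lit 262) (nat_lit 183)) (XT.lf (nat_lit 0) (nat_lit 1644528161) (nat_lit 152) (nat_lit 7156668623) (nat_lit 228) (nat_lit 9789881183) (nat_lit 30) (nat_lit 5) (nat_lit 32) (nat_lit 5) (nat_lit 33) (nat_lit 5) (nat_lit 336) (nat_lit 262) (nat_lit 182)))))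 (XT.nd (nat_lit 234) (nat_lit 76) (nat_lit 0) (XT.nd (nat_lit 78) (nat_lit 228) (nat_lit 0) (XT.lf (nat_lit 0) (nat_lit 7990266152) (nat_lit 152) (nat_lit 3497045977) (nat_lit 228) (nat_lit 7530636983) (nat_lit 30) (nat_lit 5) (nat_lit 32) (nat_lit 5) (nat_lit 33) (nat_lit 5) (nat_lit 337) (nat_lit 262) (nat_lit 181)) (XT.nd (nat_lit 78) (nat_lit 228) (nat_lit 0) (XT.lf (nat_lit 0) (nat_lit 14237606013) (nat_lit 228) (nat_lit 4962799009) (nat_lit 76) (nat_lit 257748171) (nat_lit 30) (nat_lit 5) (nat_lit 33) (nat_lit 5) (nat_lit 31) (nat_lit 5) (nat_lit 338) (nat_lit 262) (nat_lit 180)) (XT.lf (nat_lit 0) (nat_lit 1245625775) (nat_lit 228) (nat_lit 15852911876) (nat_lit 304) (nat_lit 2812215521) (nat_lit 27) (nat_lit 5) (nat_lit 30) (nat_lit 5) (nat_lit 31) (nat_lit 5) (nat_lit 339) (nat_lit 262) (nat_lit 179)))) (XT.nd (nat_lit 78) (nat_lit 76) (nat_lit 0) (XT.lf (nat_lit 0) (nat_lit 7714223078)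 (nat_lit 228) (nat_lit 12362990283) (nat_lit 304) (nat_lit 298792969) (nat_lit 27) (nat_lit 5) (nat_lit 30) (nat_lit 5) (nat_lit 31) (nat_lit 5) (nat_lit 340) (nat_lit 262) (nat_lit 178)) (XT.nd (nat_lit 78) (nat_lit 0) (nat_lit 0) (XT.lf (nat_lit 0) (nat_lit 2227471087) (nat_lit 304) (nat_lit 6527741157) (nat_lit 76) (nat_lit 12099911462) (nat_lit 26) (nat_lit 5) (nat_lit 30) (nat_lit 5) (nat_lit 27) (nat_lit 5) (nat_lit 341) (nat_lit 262) (nat_lit 177)) (XT.lf (nat_lit 0) (nat_lit 4806163843) (nat_lit 304) (nat_lit 239227587) (nat_lit 76) (nat_lit 16303684931) (nat_lit 26) (nat_lit 5) (nat_lit 30) (nat_lit 5) (nat_lit 27) (nat_lit 5) (nat_lit 342) (nat_lit 262) (nat_lit 176)))))) (XT.nd (nat_lit 390) (nat_lit 228) (nat_lit 0) (XT.nd (nat_lit 156) (nat_lit 152) (nat_lit 0) (XT.nd (nat_lit 78) (nat_lit 0) (nat_lit 0) (XT.lf (nat_lit 0) (nat_lit 6335757914) (nat_lit 152) (nat_lit 1170514317)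 (nat_lit 228) (nat_lit 14350282738) (nat_lit 24) (nat_lit 5) (nat_lit 26) (nat_lit 5) (nat_lit 27) (nat_lit 5) (nat_lit 343) (nat_lit 262) (nat_lit 175)) (XT.lf (nat_lit 0) (nat_lit 10300247470) (nat_lit 228) (nat_lit 9319429859) (nat_lit 76) (nat_lit 2759222876) (nat_lit 24) (nat_lit 5) (nat_lit 27) (nat_lit 5) (nat_lit 25) (nat_lit 5) (nat_lit 344) (nat_lit 262) (nat_lit 174))) (XT.nd (nat_lit 78) (nat_lit 152) (nat_lit 0) (XT.lf (nat_lit 0) (nat_lit 13173427845) (nat_lit 228) (nat_lit 2968857468) (nat_lit 76) (nat_lit 6774796263) (nat_lit 24) (nat_lit 5) (nat_lit 27) (nat_lit 5) (nat_lit 25) (nat_lit 5) (nat_lit 345) (nat_lit 262) (nat_lit 173)) (XT.nd (nat_lit 78) (nat_lit 0) (nat_lit 0) (XT.lf (nat_lit 0) (nat_lit 3618327461) (nat_lit 152) (nat_lit 12533526321) (nat_lit 228) (nat_lit 7319009662) (nat_lit 22) (nat_lit 5) (nat_lit 24) (nat_lit 5) (nat_lit 25) (nat_lit 5) (nat_lit 346) (nat_lit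 262) (nat_lit 172)) (XT.lf (nat_lit 0) (nat_lit 10439715679) (nat_lit 152) (nat_lit 8794389919) (nat_lit 228) (nat_lit 4806744760) (nat_lit 22) (nat_lit 5) (nat_lit 24) (nat_lit 5) (nat_lit 25) (nat_lit 5) (nat_lit 347) (nat_lit 262) (nat_lit 171))))) (XT.nd (nat_lit 234) (nat_lit 0) (nat_lit 0) (XT.nd (nat_lit 78) (nat_lit 228) (nat_lit 0) (XT.lf (nat_lit 0) (nat_lit 17442181535) (nat_lit 152) (nat_lit 4951588543) (nat_lit 228) (nat_lit 2234643482) (nat_lit 22) (nat_lit 5) (nat_lit 24) (nat_lit 5) (nat_lit 25) (nat_lit 5) (nat_lit 348) (nat_lit 262) (nat_lit 170)) (XT.nd (nat_lit 78) (nat_lit 152) (nat_lit 0) (XT.lf (nat_lit 0) (nat_lit 391745141) (nat_lit 228) (nat_lit 606063405) (nat_lit 76) (nat_lit 24236142692) (nat_lit 21) (nat_lit 5) (nat_lit 24) (nat_lit 5) (nat_lit 22) (nat_lit 5) (nat_lit 349) (nat_lit 262) (nat_lit 169)) (XT.lf (nat_lit 0) (nat_lit 3128014376) (nat_lit 228) (nat_lit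 19637131099) (nat_lit 76) (nat_lit 3089588632) (nat_lit 19) (nat_lit 5) (nat_lit 22) (nat_lit 5) (nat_lit 20) (nat_lit 5) (nat_lit 350) (nat_lit 262) (nat_lit 168)))) (XT.nd (nat_lit 78) (nat_lit 0) (nat_lit 0) (XT.lf (nat_lit 0) (nat_lit 5948202715) (nat_lit 228) (nat_lit 13268161201) (nat_lit 76) (nat_lit 7277743857) (nat_lit 19) (nat_lit 5) (nat_lit 22) (nat_lit 5) (nat_lit 20) (nat_lit 5) (nat_lit 351) (nat_lit 262) (nat_lit 167)) (XT.nd (nat_lit 78) (nat_lit 0) (nat_lit 0) (XT.lf (nat_lit 0) (nat_lit 8839182228) (nat_lit 228) (nat_lit 6730129559) (nat_lit 76) (nat_lit 11583786893) (nat_lit 19) (nat_lit 5) (nat_lit 22) (nat_lit 5) (nat_lit 20) (nat_lit 5) (nat_lit 352) (nat_lit 262) (nat_lit 166)) (XT.lf (nat_lit 0) (nat_lit 11803479012) (nat_lit 228) (nat_lit 17323328) (nat_lit 76) (nat_lit 16011480300) (nat_lit 19) (nat_lit 5) (nat_lit 22) (nat_lit 5) (nat_lit 20) (nat_lit 5) (nat_lit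 353) (nat_lit 262) (nat_lit 165))))))) (XT.nd (nat_lit 858) (nat_lit 304) (nat_lit 0) (XT.nd (nat_lit 390) (nat_lit 228) (nat_lit 0) (XT.nd (nat_lit 156) (nat_lit 76) (nat_lit 0) (XT.nd (nat_lit 78) (nat_lit 0) (nat_lit 0) (XT.lf (nat_lit 0) (nat_lit 7012971378) (nat_lit 152) (nat_lit 7898124822) (nat_lit 228) (nat_lit 13619134531) (nat_lit 17) (nat_lit 5) (nat_lit 19) (nat_lit 5) (nat_lit 20) (nat_lit 5) (nat_lit 354) (nat_lit 262) (nat_lit 164)) (XT.lf (nat_lit 0) (nat_lit 14233989371) (nat_lit 152) (nat_lit 3865287812) (nat_lit 228) (nat_lit 11150239785) (nat_lit 17) (nat_lit 5) (nat_lit 19) (nat_lit 5) (nat_lit 20) (nat_lit 5) (nat_lit 355) (nat_lit 262) (nat_lit 163))) (XT.nd (nat_lit 78) (nat_lit 76) (nat_lit 0) (XT.lf (nat_lit 0) (nat_lit 21373339611) (nat_lit 228) (nat_lit 8341781139) (nat_lit 76) (nat_lit 275573148) (nat_lit 17) (nat_lit 5) (nat_lit 20) (nat_lit 5) (nat_lit 18) (nat_lit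 4) (nat_lit 356) (nat_lit 262) (nat_lit 162)) (XT.nd (nat_lit 78) (nat_lit 76) (nat_lit 0) (XT.lf (nat_lit 0) (nat_lit 24771721706) (nat_lit 228) (nat_lit 1525765941) (nat_lit 76) (nat_lit 4455854183) (nat_lit 17) (nat_lit 5) (nat_lit 20) (nat_lit 5) (nat_lit 18) (nat_lit 4) (nat_lit 357) (nat_lit 262) (nat_lit 161)) (XT.lf (nat_lit 0) (nat_lit 5584605007) (nat_lit 76) (nat_lit 22729315049) (nat_lit 152) (nat_lit 3223711285) (nat_lit 16) (nat_lit 5) (nat_lit 17) (nat_lit 5) (nat_lit 18) (nat_lit 4) (nat_lit 358) (nat_lit 262) (nat_lit 160))))) (XT.nd (nat_lit 234) (nat_lit 152) (nat_lit 0) (XT.nd (nat_lit 78) (nat_lit 76) (nat_lit 0) (XT.lf (nat_lit 0) (nat_lit 12920650586) (nat_lit 76) (nat_lit 19045485573) (nat_lit 152) (nat_lit 379218383) (nat_lit 16) (nat_lit 5) (nat_lit 17) (nat_lit 5) (nat_lit 18) (nat_lit 4) (nat_lit 359) (nat_lit 262) (nat_lit 159)) (XT.nd (nat_lit 78) (nat_lit 0) (nat_lit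 0) (XT.lf (nat_lit 0) (nat_lit 2489393013) (nat_lit 152) (nat_lit 12743656581) (nat_lit 76) (nat_lit 17943884196) (nat_lit 15) (nat_lit 5) (nat_lit 17) (nat_lit 5) (nat_lit 16) (nat_lit 5) (nat_lit 360) (nat_lit 262) (nat_lit 158)) (XT.lf (nat_lit 0) (nat_lit 5425329463) (nat_lit 152) (nat_lit 5883997137) (nat_lit 76) (nat_lit 22724370587) (nat_lit 15) (nat_lit 5) (nat_lit 17) (nat_lit 5) (nat_lit 16) (nat_lit 5) (nat_lit 361) (nat_lit 262) (nat_lit 157)))) (XT.nd (nat_lit 78) (nat_lit 0) (nat_lit 0) (XT.lf (nat_lit 0) (nat_lit 1187077692) (nat_lit 152) (nat_lit 7262889486) (nat_lit 228) (nat_lit 26466193212) (nat_lit 13) (nat_lit 5) (nat_lit 15) (nat_lit 5) (nat_lit 16) (nat_lit 5) (nat_lit 362) (nat_lit 262) (nat_lit 156)) (XT.nd (nat_lit 78) (nat_lit 0) (nat_lit 0) (XT.lf (nat_lit 0) (nat_lit 8573534327) (nat_lit 152) (nat_lit 3040586056) (nat_lit 228) (nat_lit 24209528961) (nat_lit 13)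 (nat_lit 5) (nat_lit 15) (nat_lit 5) (nat_lit 16) (nat_lit 5) (nat_lit 363) (nat_lit 262) (nat_lit 155)) (XT.lf (nat_lit 0) (nat_lit 14875381865) (nat_lit 228) (nat_lit 20606477956) (nat_lit 76) (nat_lit 1276452342) (nat_lit 13) (nat_lit 5) (nat_lit 16) (nat_lit 5) (nat_lit 14) (nat_lit 4) (nat_lit 364) (nat_lit 262) (nat_lit 154)))))) (XT.nd (nat_lit 468) (nat_lit 228) (nat_lit 0) (XT.nd (nat_lit 234) (nat_lit 0) (nat_lit 0) (XT.nd (nat_lit 78) (nat_lit 76) (nat_lit 0) (XT.lf (nat_lit 0) (nat_lit 18254495389) (nat_lit 228) (nat_lit 13810260514) (nat_lit 76) (nat_lit 5655672813) (nat_lit 13) (nat_lit 5) (nat_lit 16) (nat_lit 5) (nat_lit 14) (nat_lit 4) (nat_lit 365) (nat_lit 262) (nat_lit 153)) (XT.nd (nat_lit 78) (nat_lit 76) (nat_lit 0) (XT.lf (nat_lit 0) (nat_lit 21725185606) (nat_lit 228) (nat_lit 6826296277) (nat_lit 76) (nat_lit 10160234644) (nat_lit 13) (nat_lit 5) (nat_lit 16) (nat_lit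 5) (nat_lit 14) (nat_lit 4) (nat_lit 366) (nat_lit 262) (nat_lit 152)) (XT.lf (nat_lit 0) (nat_lit 358513130) (nat_lit 76) (nat_lit 24935418277) (nat_lit 152) (nat_lit 14439006978) (nat_lit 12) (nat_lit 5) (nat_lit 13) (nat_lit 5) (nat_lit 14) (nat_lit 4) (nat_lit 367) (nat_lit 262) (nat_lit 151)))) (XT.nd (nat_lit 78) (nat_lit 0) (nat_lit 0) (XT.lf (nat_lit 0) (nat_lit 7883283186) (nat_lit 76) (nat_lit 21146005113) (nat_lit 152) (nat_lit 11753735202) (nat_lit 12) (nat_lit 5) (nat_lit 13) (nat_lit 5) (nat_lit 14) (nat_lit 4) (nat_lit 368) (nat_lit 262) (nat_lit 150)) (XT.nd (nat_lit 78) (nat_lit 0) (nat_lit 0) (XT.lf (nat_lit 0) (nat_lit 15618732252) (nat_lit 76) (nat_lit 17248863461) (nat_lit 152) (nat_lit 8997301447) (nat_lit 12) (nat_lit 5) (nat_lit 13) (nat_lit 5) (nat_lit 14) (nat_lit 4) (nat_lit 369) (nat_lit 262) (nat_lit 149)) (XT.lf (nat_lit 0) (nat_lit 23571619457) (nat_lit 76) (nat_lit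 13240588053) (nat_lit 152) (nat_lit 6167297180) (nat_lit 12) (nat_lit 5) (nat_lit 13) (nat_lit 5) (nat_lit 14) (nat_lit 4) (nat_lit 370) (nat_lit 262) (nat_lit 148))))) (XT.nd (nat_lit 234) (nat_lit 0) (nat_lit 0) (XT.nd (nat_lit 78) (nat_lit 228) (nat_lit 0) (XT.lf (nat_lit 0) (nat_lit 31748893927) (nat_lit 76) (nat_lit 9117676511) (nat_lit 152) (nat_lit 3261249580) (nat_lit 12) (nat_lit 5) (nat_lit 13) (nat_lit 5) (nat_lit 14) (nat_lit 4) (nat_lit 371) (nat_lit 262) (nat_lit 147)) (XT.nd (nat_lit 78) (nat_lit 228) (nat_lit 0) (XT.lf (nat_lit 0) (nat_lit 40157700852) (nat_lit 76) (nat_lit 4876526293) (nat_lit 152) (nat_lit 276619383) (nat_lit 12) (nat_lit 5) (nat_lit 13) (nat_lit 5) (nat_lit 14) (nat_lit 4) (nat_lit 372) (nat_lit 262) (nat_lit 146)) (XT.lf (nat_lit 0) (nat_lit 2293716972) (nat_lit 152) (nat_lit 463105613) (nat_lit 228) (nat_lit 43771329543) (nat_lit 9) (nat_lit 5) (nat_lit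 11) (nat_lit 5) (nat_lit 12) (nat_lit 5) (nat_lit 373) (nat_lit 262) (nat_lit 145)))) (XT.nd (nat_lit 78) (nat_lit 0) (nat_lit 0) (XT.lf (nat_lit 0) (nat_lit 5959377969) (nat_lit 228) (nat_lit 37766922128) (nat_lit 76) (nat_lit 4053095160) (nat_lit 9) (nat_lit 5) (nat_lit 12) (nat_lit 5) (nat_lit 10) (nat_lit 4) (nat_lit 374) (nat_lit 262) (nat_lit 144)) (XT.nd (nat_lit 78) (nat_lit 0) (nat_lit 0) (XT.lf (nat_lit 0) (nat_lit 9254704413) (nat_lit 228) (nat_lit 31123198683) (nat_lit 76) (nat_lit 8690382065) (nat_lit 9) (nat_lit 5) (nat_lit 12) (nat_lit 5) (nat_lit 10) (nat_lit 4) (nat_lit 375) (nat_lit 262) (nat_lit 143)) (XT.lf (nat_lit 0) (nat_lit 12641229673) (nat_lit 228) (nat_lit 24293007975) (nat_lit 76) (nat_lit 13461843959) (nat_lit 9) (nat_lit 5) (nat_lit 12) (nat_lit 5) (nat_lit 10) (nat_lit 4) (nat_lit 376) (nat_lit 262) (nat_lit 142))))))))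
noncomputable def xc120 : XT := (XT.nd (nat_lit 31980) (nat_lit 0) (nat_lit 11324) (XT.nd (nat_lit 858) (nat_lit 152) (nat_lit 0) (XT.nd (nat_lit 390) (nat_lit 0) (nat_lit 0) (XT.nd (nat_lit 156) (nat_lit 76) (nat_lit 0) (XT.nd (nat_lit 78) (nat_lit 0) (nat_lit 0) (XT.lf (nat_lit 0) (nat_lit 16121912850) (nat_lit 228) (nat_lit 17270381873) (nat_lit 76) (nat_lit 18371650078) (nat_lit 9) (nat_lit 5) (nat_lit 12) (nat_lit 5) (nat_lit 10) (nat_lit 4) (nat_lit 377) (nat_lit 262) (nat_lit 141)) (XT.lf (nat_lit 0) (nat_lit 19699795316) (nat_lit 228) (nat_lit 10049184105) (nat_lit 76) (nat_lit 23424090546) (nat_lit 9) (nat_lit 5) (nat_lit 12) (nat_lit 5) (nat_lit 10) (nat_lit 4) (nat_lit 378) (nat_lit 262) (nat_lit 140))) (XT.nd (nat_lit 78) (nat_lit 76) (nat_lit 0) (XT.lf (nat_lit 0) (nat_lit 23378003377) (nat_lit 228) (nat_lit 2623104883) (nat_lit 76) (nat_lit 28623580116) (nat_lit 9) (nat_lit 5)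 (nat_lit 12) (nat_lit 5) (nat_lit 10) (nat_lit 4) (nat_lit 379) (nat_lit 262) (nat_lit 139)) (XT.nd (nat_lit 78) (nat_lit 0) (nat_lit 0) (XT.lf (nat_lit 0) (nat_lit 5114139885) (nat_lit 76) (nat_lit 22094771357) (nat_lit 152) (nat_lit 28909682386) (nat_lit 8) (nat_lit 5) (nat_lit 9) (nat_lit 5) (nat_lit 10) (nat_lit 4) (nat_lit 380) (nat_lit 262) (nat_lit 138)) (XT.lf (nat_lit 0) (nat_lit 13125972843) (nat_lit 76) (nat_lit 18048544667) (nat_lit 152) (nat_lit 26482214031) (nat_lit 8) (nat_lit 5) (nat_lit 9) (nat_lit 5) (nat_lit 10) (nat_lit 4) (nat_lit 381) (nat_lit 262) (nat_lit 137))))) (XT.nd (nat_lit 234) (nat_lit 0) (nat_lit 0) (XT.nd (nat_lit 78) (nat_lit 0) (nat_lit 0) (XT.lf (nat_lit 0) (nat_lit 21367189688) (nat_lit 76) (nat_lit 13885380868) (nat_lit 152) (nat_lit 23988647063) (nat_lit 8) (nat_lit 5) (nat_lit 9) (nat_lit 5) (nat_lit 10) (nat_lit 4) (nat_lit 382) (nat_lit 262) (nat_lit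 136)) (XT.nd (nat_lit 78) (nat_lit 0) (nat_lit 0) (XT.lf (nat_lit 0) (nat_lit 29844991484) (nat_lit 76) (nat_lit 9601642246) (nat_lit 152) (nat_lit 21426802635) (nat_lit 8) (nat_lit 5) (nat_lit 9) (nat_lit 5) (nat_lit 10) (nat_lit 4) (nat_lit 383) (nat_lit 262) (nat_lit 135)) (XT.lf (nat_lit 0) (nat_lit 38566786020) (nat_lit 76) (nat_lit 5193585726) (nat_lit 152) (nat_lit 18794442244) (nat_lit 8) (nat_lit 5) (nat_lit 9) (nat_lit 5) (nat_lit 10) (nat_lit 4) (nat_lit 384) (nat_lit 262) (nat_lit 134)))) (XT.nd (nat_lit 78) (nat_lit 0) (nat_lit 0) (XT.lf (nat_lit 0) (nat_lit 47540194280) (nat_lit 76) (nat_lit 657359610) (nat_lit 152) (nat_lit 16089265768) (nat_lit 8) (nat_lit 5) (nat_lit 9) (nat_lit 5) (nat_lit 10) (nat_lit 4) (nat_lit 385) (nat_lit 262) (nat_lit 133)) (XT.nd (nat_lit 78) (nat_lit 0) (nat_lit 0) (XT.lf (nat_lit 0) (nat_lit 52800613495) (nat_lit 152) (nat_lit 9336465850) (nat_lit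 0) (nat_lit 3932730741) (nat_lit 8) (nat_lit 5) (nat_lit 10) (nat_lit 4) (nat_lit 8) (nat_lit 4) (nat_lit 386) (nat_lit 262) (nat_lit 132)) (XT.lf (nat_lit 0) (nat_lit 57542611079) (nat_lit 152) (nat_lit 1720112914) (nat_lit 0) (nat_lit 8643548083) (nat_lit 8) (nat_lit 5) (nat_lit 10) (nat_lit 4) (nat_lit 8) (nat_lit 4) (nat_lit 387) (nat_lit 262) (nat_lit 131)))))) (XT.nd (nat_lit 390) (nat_lit 0) (nat_lit 0) (XT.nd (nat_lit 156) (nat_lit 76) (nat_lit 0) (XT.nd (nat_lit 78) (nat_lit 0) (nat_lit 0) (XT.lf (nat_lit 0) (nat_lit 6237116034) (nat_lit 76) (nat_lit 56244210131) (nat_lit 76) (nat_lit 7314875056) (nat_lit 7) (nat_lit 4) (nat_lit 8) (nat_lit 5) (nat_lit 8) (nat_lit 4) (nat_lit 388) (nat_lit 262) (nat_lit 130)) (XT.lf (nat_lit 0) (nat_lit 14459090712) (nat_lit 76) (nat_lit 53121055740) (nat_lit 76) (nat_lit 4162330296) (nat_lit 7) (nat_lit 4) (nat_lit 8) (nat_lit 5) (nat_lit 8) (nat_lit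 4) (nat_lit 389) (nat_lit 262) (nat_lit 129))) (XT.nd (nat_lit 78) (nat_lit 76) (nat_lit 0) (XT.lf (nat_lit 0) (nat_lit 22918761746) (nat_lit 76) (nat_lit 49907901617) (nat_lit 76) (nat_lit 920641835) (nat_lit 7) (nat_lit 4) (nat_lit 8) (nat_lit 5) (nat_lit 8) (nat_lit 4) (nat_lit 390) (nat_lit 262) (nat_lit 128)) (XT.nd (nat_lit 78) (nat_lit 0) (nat_lit 0) (XT.lf (nat_lit 0) (nat_lit 2365936102) (nat_lit 152) (nat_lit 44212112735) (nat_lit 76) (nat_lit 29233693667) (nat_lit 6) (nat_lit 5) (nat_lit 8) (nat_lit 5) (nat_lit 7) (nat_lit 4) (nat_lit 391) (nat_lit 262) (nat_lit 127)) (XT.lf (nat_lit 0) (nat_lit 5727586528) (nat_lit 152) (nat_lit 37414858721) (nat_lit 76) (nat_lit 34795550904) (nat_lit 6) (nat_lit 5) (nat_lit 8) (nat_lit 5) (nat_lit 7) (nat_lit 4) (nat_lit 392) (nat_lit 262) (nat_lit 126))))) (XT.nd (nat_lit 30498) (nat_lit 0) (nat_lit 17100) (XT.nd (nat_lit 78) (nat_lit 0) (nat_lit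 0) (XT.lf (nat_lit 0) (nat_lit 9185211844) (nat_lit 152) (nat_lit 30421992290) (nat_lit 76) (nat_lit 40520985398) (nat_lit 6) (nat_lit 5) (nat_lit 8) (nat_lit 5) (nat_lit 7) (nat_lit 4) (nat_lit 393) (nat_lit 262) (nat_lit 125)) (XT.nd (nat_lit 78) (nat_lit 0) (nat_lit 0) (XT.lf (nat_lit 0) (nat_lit 12741833277) (nat_lit 152) (nat_lit 23227403171) (nat_lit 76) (nat_lit 46414999955) (nat_lit 6) (nat_lit 5) (nat_lit 8) (nat_lit 5) (nat_lit 7) (nat_lit 4) (nat_lit 394) (nat_lit 262) (nat_lit 124)) (XT.lf (nat_lit 0) (nat_lit 16400558554) (nat_lit 152) (nat_lit 15824804830) (nat_lit 76) (nat_lit 52482744685) (nat_lit 6) (nat_lit 5) (nat_lit 8) (nat_lit 5) (nat_lit 7) (nat_lit 4) (nat_lit 395) (nat_lit 262) (nat_lit 123)))) (XT.nd (nat_lit 78) (nat_lit 380) (nat_lit 0) (XT.lf (nat_lit 0) (nat_lit 581855739) (nat_lit 0) (nat_lit 581855739) (nat_lit 228) (nat_lit 2077906233) (nat_lit 236) (nat_lit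 5) (nat_lit 236) (nat_lit 3) (nat_lit 239) (nat_lit 3) (nat_lit 263) (nat_lit 263) (nat_lit 254)) (XT.nd (nat_lit 78) (nat_lit 380) (nat_lit 0) (XT.lf (nat_lit 0) (nat_lit 3917612955) (nat_lit 0) (nat_lit 780815086) (nat_lit 228) (nat_lit 1800004355) (nat_lit 236) (nat_lit 5) (nat_lit 236) (nat_lit 3) (nat_lit 239) (nat_lit 3) (nat_lit 264) (nat_lit 263) (nat_lit 253)) (XT.lf (nat_lit 76) (nat_lit 189848056) (nat_lit 0) (nat_lit 333698153) (nat_lit 380) (nat_lit 5993533115) (nat_lit 232) (nat_lit 5) (nat_lit 231) (nat_lit 3) (nat_lit 236) (nat_lit 5) (nat_lit 265) (nat_lit 263) (nat_lit 252))))))) (XT.nd (nat_lit 858) (nat_lit 4028) (nat_lit 0) (XT.nd (nat_lit 390) (nat_lit 1444) (nat_lit 0) (XT.nd (nat_lit 156) (nat_lit 380) (nat_lit 0) (XT.nd (nat_lit 78) (nat_lit 0) (nat_lit 0) (XT.lf (nat_lit 0) (nat_lit 2818283100) (nat_lit 304) (nat_lit 3509235544) (nat_lit 380) (nat_lit 210542911) (nat_lit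 232) (nat_lit 5) (nat_lit 236) (nat_lit 5) (nat_lit 237) (nat_lit 5) (nat_lit 266) (nat_lit 263) (nat_lit 251)) (XT.lf (nat_lit 0) (nat_lit 5097903587) (nat_lit 304) (nat_lit 659491776) (nat_lit 380) (nat_lit 805224113) (nat_lit 232) (nat_lit 5) (nat_lit 236) (nat_lit 5) (nat_lit 237) (nat_lit 5) (nat_lit 267) (nat_lit 263) (nat_lit 250))) (XT.nd (nat_lit 78) (nat_lit 0) (nat_lit 0) (XT.lf (nat_lit 0) (nat_lit 777345758) (nat_lit 380) (nat_lit 4325803243) (nat_lit 456) (nat_lit 1486837941) (nat_lit 227) (nat_lit 5) (nat_lit 232) (nat_lit 5) (nat_lit 233) (nat_lit 5) (nat_lit 268) (nat_lit 263) (nat_lit 249)) (XT.nd (nat_lit 78) (nat_lit 0) (nat_lit 0) (XT.lf (nat_lit 0) (nat_lit 2980030888) (nat_lit 380) (nat_lit 1393092248) (nat_lit 456) (nat_lit 2247324397) (nat_lit 227) (nat_lit 5) (nat_lit 232) (nat_lit 5) (nat_lit 233) (nat_lit 5) (nat_lit 269) (nat_lit 263) (nat_lit 248)) (XT.lf (nat_lit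 76) (nat_lit 1610842240) (nat_lit 0) (nat_lit 3571958599) (nat_lit 456) (nat_lit 1471380776) (nat_lit 228) (nat_lit 5) (nat_lit 227) (nat_lit 5) (nat_lit 233) (nat_lit 5) (nat_lit 270) (nat_lit 263) (nat_lit 247))))) (XT.nd (nat_lit 234) (nat_lit 988) (nat_lit 0) (XT.nd (nat_lit 78) (nat_lit 0) (nat_lit 0) (XT.lf (nat_lit 0) (nat_lit 681334468) (nat_lit 456) (nat_lit 2012208069) (nat_lit 532) (nat_lit 3997518473) (nat_lit 221) (nat_lit 5) (nat_lit 227) (nat_lit 5) (nat_lit 228) (nat_lit 5) (nat_lit 271) (nat_lit 263) (nat_lit 246)) (XT.nd (nat_lit 78) (nat_lit 0) (nat_lit 0) (XT.lf (nat_lit 76) (nat_lit 1067891448) (nat_lit 0) (nat_lit 1733067622) (nat_lit 532) (nat_lit 3930041206) (nat_lit 222) (nat_lit 5) (nat_lit 221) (nat_lit 5) (nat_lit 228) (nat_lit 5) (nat_lit 272) (nat_lit 263) (nat_lit 245)) (XT.lf (nat_lit 76) (nat_lit 4233879136) (nat_lit 0) (nat_lit 694071923) (nat_lit 532) (nat_lit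 1846210752) (nat_lit 222) (nat_lit 5) (nat_lit 221) (nat_lit 5) (nat_lit 228) (nat_lit 5) (nat_lit 273) (nat_lit 263) (nat_lit 244)))) (XT.nd (nat_lit 78) (nat_lit 532) (nat_lit 0) (XT.lf (nat_lit 0) (nat_lit 229004255) (nat_lit 532) (nat_lit 6187297687) (nat_lit 76) (nat_lit 404505981) (nat_lit 215) (nat_lit 5) (nat_lit 222) (nat_lit 5) (nat_lit 216) (nat_lit 5) (nat_lit 274) (nat_lit 263) (nat_lit 243)) (XT.nd (nat_lit 78) (nat_lit 532) (nat_lit 0) (XT.lf (nat_lit 0) (nat_lit 2288763815) (nat_lit 532) (nat_lit 2989383342) (nat_lit 76) (nat_lit 1591684843) (nat_lit 215) (nat_lit 5) (nat_lit 222) (nat_lit 5) (nat_lit 216) (nat_lit 5) (nat_lit 275) (nat_lit 263) (nat_lit 242)) (XT.lf (nat_lit 0) (nat_lit 260538470) (nat_lit 532) (nat_lit 4081036766) (nat_lit 608) (nat_lit 2581113610) (nat_lit 208) (nat_lit 5) (nat_lit 215) (nat_lit 5) (nat_lit 216) (nat_lit 5) (nat_lit 276) (nat_lit 263) (nat_lit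 241)))))) (XT.nd (nat_lit 390) (nat_lit 2584) (nat_lit 0) (XT.nd (nat_lit 156) (nat_lit 1368) (nat_lit 0) (XT.nd (nat_lit 78) (nat_lit 76) (nat_lit 0) (XT.lf (nat_lit 0) (nat_lit 3620703890) (nat_lit 532) (nat_lit 2795817215) (nat_lit 608) (nat_lit 562084874) (nat_lit 208) (nat_lit 5) (nat_lit 215) (nat_lit 5) (nat_lit 216) (nat_lit 5) (nat_lit 277) (nat_lit 263) (nat_lit 240)) (XT.lf (nat_lit 0) (nat_lit 1419347511) (nat_lit 608) (nat_lit 17872270) (nat_lit 76) (nat_lit 5600874254) (nat_lit 207) (nat_lit 5) (nat_lit 215) (nat_lit 5) (nat_lit 208) (nat_lit 5) (nat_lit 278) (nat_lit 263) (nat_lit 239))) (XT.nd (nat_lit 78) (nat_lit 760) (nat_lit 0) (XT.lf (nat_lit 0) (nat_lit 3415604050) (nat_lit 684) (nat_lit 3664161317) (nat_lit 76) (nat_lit 20700438) (nat_lit 199) (nat_lit 5) (nat_lit 208) (nat_lit 5) (nat_lit 200) (nat_lit 5) (nat_lit 279) (nat_lit 263) (nat_lit 238)) (XT.nd (nat_lit 78)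 (nat_lit 760) (nat_lit 0) (XT.lf (nat_lit 0) (nat_lit 5421265077) (nat_lit 684) (nat_lit 233722107) (nat_lit 76) (nat_lit 1511494665) (nat_lit 199) (nat_lit 5) (nat_lit 208) (nat_lit 5) (nat_lit 200) (nat_lit 5) (nat_lit 280) (nat_lit 263) (nat_lit 237)) (XT.lf (nat_lit 0) (nat_lit 216008948) (nat_lit 760) (nat_lit 3921258639) (nat_lit 76) (nat_lit 3098332093) (nat_lit 189) (nat_lit 5) (nat_lit 199) (nat_lit 5) (nat_lit 190) (nat_lit 5) (nat_lit 281) (nat_lit 263) (nat_lit 236))))) (XT.nd (nat_lit 234) (nat_lit 1824) (nat_lit 0) (XT.nd (nat_lit 78) (nat_lit 760) (nat_lit 0) (XT.lf (nat_lit 0) (nat_lit 2140903313) (nat_lit 760) (nat_lit 399222256) (nat_lit 76) (nat_lit 4768186504) (nat_lit 189) (nat_lit 5) (nat_lit 199) (nat_lit 5) (nat_lit 190) (nat_lit 5) (nat_lit 282) (nat_lit 263) (nat_lit 235)) (XT.nd (nat_lit 78) (nat_lit 0) (nat_lit 0) (XT.lf (nat_lit 0) (nat_lit 3244370559) (nat_lit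 760) (nat_lit 849705967) (nat_lit 836) (nat_lit 3290243137) (nat_lit 179) (nat_lit 5) (nat_lit 189) (nat_lit 5) (nat_lit 190) (nat_lit 5) (nat_lit 283) (nat_lit 263) (nat_lit 234)) (XT.lf (nat_lit 0) (nat_lit 6059264736) (nat_lit 836) (nat_lit 514712117) (nat_lit 76) (nat_lit 890251127) (nat_lit 179) (nat_lit 5) (nat_lit 190) (nat_lit 5) (nat_lit 180) (nat_lit 5) (nat_lit 284) (nat_lit 263) (nat_lit 233)))) (XT.nd (nat_lit 78) (nat_lit 912) (nat_lit 0) (XT.lf (nat_lit 0) (nat_lit 507936807) (nat_lit 912) (nat_lit 4326090850) (nat_lit 76) (nat_lit 2713115208) (nat_lit 167) (nat_lit 5) (nat_lit 179) (nat_lit 5) (nat_lit 168) (nat_lit 5) (nat_lit 285) (nat_lit 263) (nat_lit 232)) (XT.nd (nat_lit 78) (nat_lit 912) (nat_lit 0) (XT.lf (nat_lit 0) (nat_lit 2398196786) (nat_lit 912) (nat_lit 615425618) (nat_lit 76) (nat_lit 4620263300) (nat_lit 167) (nat_lit 5) (nat_lit 179) (nat_lit 5) (nat_lit 168)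 (nat_lit 5) (nat_lit 286) (nat_lit 263) (nat_lit 231)) (XT.lf (nat_lit 0) (nat_lit 3222337499) (nat_lit 912) (nat_lit 1098425688) (nat_lit 988) (nat_lit 3403397896) (nat_lit 155) (nat_lit 5) (nat_lit 167) (nat_lit 5) (nat_lit 168) (nat_lit 5) (nat_lit 287) (nat_lit 263) (nat_lit 230))))))))
noncomputable def xc121 : XT := (XT.nd (nat_lit 1716) (nat_lit 2660) (nat_lit 0) (XT.nd (nat_lit 858) (nat_lit 2584) (nat_lit 0) (XT.nd (nat_lit 390) (nat_lit 1672) (nat_lit 0) (XT.nd (nat_lit 156) (nat_lit 1064) (nat_lit 0) (XT.nd (nat_lit 78) (nat_lit 1064) (nat_lit 0) (XT.lf (nat_lit 0) (nat_lit 6261547219) (nat_lit 988) (nat_lit 686105580) (nat_lit 76) (nat_lit 870868150) (nat_lit 155) (nat_lit 5) (nat_lit 168) (nat_lit 5) (nat_lit 156) (nat_lit 5) (nat_lit 288) (nat_lit 263) (nat_lit 229)) (XT.lf (nat_lit 0) (nat_lit 327376829) (nat_lit 1064) (nat_lit 4669921380) (nat_lit 76) (nat_lit 2918817465) (nat_lit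 141) (nat_lit 5) (nat_lit 155) (nat_lit 5) (nat_lit 142) (nat_lit 5) (nat_lit 289) (nat_lit 263) (nat_lit 228))) (XT.nd (nat_lit 78) (nat_lit 1064) (nat_lit 0) (XT.lf (nat_lit 0) (nat_lit 2191793869) (nat_lit 1064) (nat_lit 769257075) (nat_lit 76) (nat_lit 5056656054) (nat_lit 141) (nat_lit 5) (nat_lit 155) (nat_lit 5) (nat_lit 142) (nat_lit 5) (nat_lit 290) (nat_lit 263) (nat_lit 227)) (XT.nd (nat_lit 78) (nat_lit 0) (nat_lit 0) (XT.lf (nat_lit 0) (nat_lit 3265676382) (nat_lit 1064) (nat_lit 827210828) (nat_lit 1140) (nat_lit 4030207519) (nat_lit 127) (nat_lit 5) (nat_lit 141) (nat_lit 5) (nat_lit 142) (nat_lit 5) (nat_lit 291) (nat_lit 263) (nat_lit 226)) (XT.lf (nat_lit 0) (nat_lit 6022453199) (nat_lit 1140) (nat_lit 854945828) (nat_lit 76) (nat_lit 1355267873) (nat_lit 127) (nat_lit 5) (nat_lit 142) (nat_lit 5) (nat_lit 128) (nat_lit 5) (nat_lit 292) (nat_lit 263) (nat_lit 225))))) (XT.nd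 (nat_lit 234) (nat_lit 608) (nat_lit 0) (XT.nd (nat_lit 78) (nat_lit 532) (nat_lit 0) (XT.lf (nat_lit 0) (nat_lit 3277037813) (nat_lit 532) (nat_lit 4724423019) (nat_lit 608) (nat_lit 344479930) (nat_lit 120) (nat_lit 5) (nat_lit 127) (nat_lit 5) (nat_lit 128) (nat_lit 5) (nat_lit 293) (nat_lit 263) (nat_lit 224)) (XT.nd (nat_lit 78) (nat_lit 456) (nat_lit 0) (XT.lf (nat_lit 0) (nat_lit 1507371460) (nat_lit 608) (nat_lit 974062757) (nat_lit 76) (nat_lit 5982048012) (nat_lit 119) (nat_lit 5) (nat_lit 127) (nat_lit 5) (nat_lit 120) (nat_lit 5) (nat_lit 294) (nat_lit 263) (nat_lit 223)) (XT.lf (nat_lit 0) (nat_lit 3258190307) (nat_lit 456) (nat_lit 134580419) (nat_lit 532) (nat_lit 5192276903) (nat_lit 113) (nat_lit 5) (nat_lit 119) (nat_lit 5) (nat_lit 120) (nat_lit 5) (nat_lit 295) (nat_lit 263) (nat_lit 222)))) (XT.nd (nat_lit 78) (nat_lit 608) (nat_lit 0) (XT.lf (nat_lit 0) (nat_lit 5321125026)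 (nat_lit 532) (nat_lit 1141291087) (nat_lit 76) (nat_lit 2248395281) (nat_lit 113) (nat_lit 5) (nat_lit 120) (nat_lit 5) (nat_lit 114) (nat_lit 5) (nat_lit 296) (nat_lit 263) (nat_lit 221)) (XT.nd (nat_lit 78) (nat_lit 76) (nat_lit 0) (XT.lf (nat_lit 0) (nat_lit 3185362124) (nat_lit 532) (nat_lit 4109761741) (nat_lit 608) (nat_lit 1545729413) (nat_lit 106) (nat_lit 5) (nat_lit 113) (nat_lit 5) (nat_lit 114) (nat_lit 5) (nat_lit 297) (nat_lit 263) (nat_lit 220)) (XT.lf (nat_lit 0) (nat_lit 314421823) (nat_lit 608) (nat_lit 1358618282) (nat_lit 76) (nat_lit 7302752166) (nat_lit 105) (nat_lit 5) (nat_lit 113) (nat_lit 5) (nat_lit 106) (nat_lit 5) (nat_lit 298) (nat_lit 263) (nat_lit 219)))))) (XT.nd (nat_lit 390) (nat_lit 1216) (nat_lit 0) (XT.nd (nat_lit 156) (nat_lit 912) (nat_lit 0) (XT.nd (nat_lit 78) (nat_lit 0) (nat_lit 0) (XT.lf (nat_lit 0) (nat_lit 2194675236) (nat_lit 532) (nat_lit 6056130238)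 (nat_lit 76) (nat_lit 863781101) (nat_lit 99) (nat_lit 5) (nat_lit 106) (nat_lit 5) (nat_lit 100) (nat_lit 5) (nat_lit 299) (nat_lit 263) (nat_lit 218)) (XT.lf (nat_lit 0) (nat_lit 4119963666) (nat_lit 532) (nat_lit 1683387313) (nat_lit 76) (nat_lit 3454658429) (nat_lit 99) (nat_lit 5) (nat_lit 106) (nat_lit 5) (nat_lit 100) (nat_lit 5) (nat_lit 300) (nat_lit 263) (nat_lit 217))) (XT.nd (nat_lit 78) (nat_lit 456) (nat_lit 0) (XT.lf (nat_lit 0) (nat_lit 2831670560) (nat_lit 456) (nat_lit 3257984643) (nat_lit 532) (nat_lit 3316600312) (nat_lit 93) (nat_lit 5) (nat_lit 99) (nat_lit 5) (nat_lit 100) (nat_lit 5) (nat_lit 301) (nat_lit 263) (nat_lit 216)) (XT.nd (nat_lit 78) (nat_lit 456) (nat_lit 0) (XT.lf (nat_lit 0) (nat_lit 7472997108) (nat_lit 456) (nat_lit 622625814) (nat_lit 532) (nat_lit 1464126949) (nat_lit 93) (nat_lit 5) (nat_lit 99) (nat_lit 5) (nat_lit 100) (nat_lit 5) (nat_lit 302)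 (nat_lit 263) (nat_lit 215)) (XT.lf (nat_lit 0) (nat_lit 440855635) (nat_lit 456) (nat_lit 7200965927) (nat_lit 76) (nat_lit 2075841301) (nat_lit 87) (nat_lit 5) (nat_lit 93) (nat_lit 5) (nat_lit 88) (nat_lit 5) (nat_lit 303) (nat_lit 263) (nat_lit 214))))) (XT.nd (nat_lit 234) (nat_lit 836) (nat_lit 0) (XT.nd (nat_lit 78) (nat_lit 380) (nat_lit 0) (XT.lf (nat_lit 0) (nat_lit 2362543250) (nat_lit 456) (nat_lit 2643622929) (nat_lit 76) (nat_lit 4874149236) (nat_lit 87) (nat_lit 5) (nat_lit 93) (nat_lit 5) (nat_lit 88) (nat_lit 5) (nat_lit 304) (nat_lit 263) (nat_lit 213)) (XT.nd (nat_lit 78) (nat_lit 0) (nat_lit 0) (XT.lf (nat_lit 0) (nat_lit 2047581676) (nat_lit 380) (nat_lit 2276640381) (nat_lit 456) (nat_lit 5724258716) (nat_lit 82) (nat_lit 5) (nat_lit 87) (nat_lit 5) (nat_lit 88) (nat_lit 5) (nat_lit 305) (nat_lit 263) (nat_lit 212)) (XT.lf (nat_lit 0) (nat_lit 6340134458) (nat_lit 456)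 (nat_lit 3336120804) (nat_lit 76) (nat_lit 545674768) (nat_lit 82) (nat_lit 5) (nat_lit 88) (nat_lit 5) (nat_lit 83) (nat_lit 5) (nat_lit 306) (nat_lit 263) (nat_lit 211)))) (XT.nd (nat_lit 78) (nat_lit 456) (nat_lit 0) (XT.lf (nat_lit 0) (nat_lit 1431726318) (nat_lit 380) (nat_lit 6985453922) (nat_lit 456) (nat_lit 1983480351) (nat_lit 77) (nat_lit 5) (nat_lit 82) (nat_lit 5) (nat_lit 83) (nat_lit 5) (nat_lit 307) (nat_lit 263) (nat_lit 210)) (XT.nd (nat_lit 78) (nat_lit 456) (nat_lit 0) (XT.lf (nat_lit 0) (nat_lit 6369138825) (nat_lit 380) (nat_lit 4186075162) (nat_lit 456) (nat_lit 29673454) (nat_lit 77) (nat_lit 5) (nat_lit 82) (nat_lit 5) (nat_lit 83) (nat_lit 5) (nat_lit 308) (nat_lit 263) (nat_lit 209)) (XT.lf (nat_lit 0) (nat_lit 631891378) (nat_lit 380) (nat_lit 1283821246) (nat_lit 456) (nat_lit 8859296260) (nat_lit 71) (nat_lit 5) (nat_lit 76) (nat_lit 5) (nat_lit 77) (nat_lit 5)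 (nat_lit 309) (nat_lit 263) (nat_lit 208))))))) (XT.nd (nat_lit 858) (nat_lit 1292) (nat_lit 0) (XT.nd (nat_lit 390) (nat_lit 684) (nat_lit 0) (XT.nd (nat_lit 156) (nat_lit 684) (nat_lit 0) (XT.nd (nat_lit 78) (nat_lit 0) (nat_lit 0) (XT.lf (nat_lit 0) (nat_lit 3944371011) (nat_lit 456) (nat_lit 5317325252) (nat_lit 76) (nat_lit 1708450314) (nat_lit 71) (nat_lit 5) (nat_lit 77) (nat_lit 5) (nat_lit 72) (nat_lit 5) (nat_lit 310) (nat_lit 263) (nat_lit 207)) (XT.lf (nat_lit 0) (nat_lit 6013707561) (nat_lit 456) (nat_lit 400284015) (nat_lit 76) (nat_lit 4757836384) (nat_lit 71) (nat_lit 5) (nat_lit 77) (nat_lit 5) (nat_lit 72) (nat_lit 5) (nat_lit 311) (nat_lit 263) (nat_lit 206))) (XT.nd (nat_lit 78) (nat_lit 380) (nat_lit 0) (XT.lf (nat_lit 0) (nat_lit 4716682999) (nat_lit 304) (nat_lit 3441846202) (nat_lit 380) (nat_lit 3220710096) (nat_lit 67) (nat_lit 5) (nat_lit 71) (nat_lit 5) (nat_lit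 72) (nat_lit 5) (nat_lit 312) (nat_lit 263) (nat_lit 205)) (XT.nd (nat_lit 78) (nat_lit 380) (nat_lit 0) (XT.lf (nat_lit 0) (nat_lit 9956127999) (nat_lit 304) (nat_lit 384227896) (nat_lit 380) (nat_lit 1253416550) (nat_lit 67) (nat_lit 5) (nat_lit 71) (nat_lit 5) (nat_lit 72) (nat_lit 5) (nat_lit 313) (nat_lit 263) (nat_lit 204)) (XT.lf (nat_lit 0) (nat_lit 788118622) (nat_lit 380) (nat_lit 8280111306) (nat_lit 76) (nat_lit 2745454362) (nat_lit 62) (nat_lit 5) (nat_lit 67) (nat_lit 5) (nat_lit 63) (nat_lit 5) (nat_lit 314) (nat_lit 263) (nat_lit 203))))) (XT.nd (nat_lit 234) (nat_lit 380) (nat_lit 0) (XT.nd (nat_lit 78) (nat_lit 304) (nat_lit 0) (XT.lf (nat_lit 0) (nat_lit 2855819119) (nat_lit 380) (nat_lit 3201884690) (nat_lit 76) (nat_lit 5982486583) (nat_lit 62) (nat_lit 5) (nat_lit 67) (nat_lit 5) (nat_lit 63) (nat_lit 5) (nat_lit 315) (nat_lit 263) (nat_lit 202)) (XT.nd (nat_lit 78) (nat_lit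 0) (nat_lit 0) (XT.lf (nat_lit 0) (nat_lit 2030142642) (nat_lit 304) (nat_lit 2945414937) (nat_lit 380) (nat_lit 7298304333) (nat_lit 58) (nat_lit 5) (nat_lit 62) (nat_lit 5) (nat_lit 63) (nat_lit 5) (nat_lit 316) (nat_lit 263) (nat_lit 201)) (XT.lf (nat_lit 0) (nat_lit 7164946530) (nat_lit 380) (nat_lit 5070270771) (nat_lit 76) (nat_lit 279212916) (nat_lit 58) (nat_lit 5) (nat_lit 63) (nat_lit 5) (nat_lit 59) (nat_lit 5) (nat_lit 317) (nat_lit 263) (nat_lit 200)))) (XT.nd (nat_lit 78) (nat_lit 76) (nat_lit 0) (XT.lf (nat_lit 0) (nat_lit 195517666) (nat_lit 304) (nat_lit 9227292744) (nat_lit 380) (nat_lit 3339387763) (nat_lit 54) (nat_lit 5) (nat_lit 58) (nat_lit 5) (nat_lit 59) (nat_lit 5) (nat_lit 318) (nat_lit 263) (nat_lit 199)) (XT.nd (nat_lit 78) (nat_lit 76) (nat_lit 0) (XT.lf (nat_lit 0) (nat_lit 5686066898) (nat_lit 304) (nat_lit 6085760088) (nat_lit 380) (nat_lit 1244934143) (nat_lit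 54) (nat_lit 5) (nat_lit 58) (nat_lit 5) (nat_lit 59) (nat_lit 5) (nat_lit 319) (nat_lit 263) (nat_lit 198)) (XT.lf (nat_lit 0) (nat_lit 867247558) (nat_lit 380) (nat_lit 1983069040) (nat_lit 76) (nat_lit 10429261104) (nat_lit 53) (nat_lit 5) (nat_lit 58) (nat_lit 5) (nat_lit 54) (nat_lit 5) (nat_lit 320) (nat_lit 263) (nat_lit 197)))))) (XT.nd (nat_lit 390) (nat_lit 760) (nat_lit 0) (XT.nd (nat_lit 156) (nat_lit 304) (nat_lit 0) (XT.nd (nat_lit 78) (nat_lit 0) (nat_lit 0) (XT.lf (nat_lit 0) (nat_lit 3030361761) (nat_lit 304) (nat_lit 10008491198) (nat_lit 76) (nat_lit 510737354) (nat_lit 50) (nat_lit 5) (nat_lit 54) (nat_lit 5) (nat_lit 51) (nat_lit 5) (nat_lit 321) (nat_lit 263) (nat_lit 196)) (XT.lf (nat_lit 0) (nat_lit 5280651633) (nat_lit 304) (nat_lit 4619883197) (nat_lit 76) (nat_lit 3926557282) (nat_lit 50) (nat_lit 5) (nat_lit 54) (nat_lit 5) (nat_lit 51) (nat_lit 5) (nat_lit 322)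 (nat_lit 263) (nat_lit 195))) (XT.nd (nat_lit 78) (nat_lit 0) (nat_lit 0) (XT.lf (nat_lit 0) (nat_lit 913247767) (nat_lit 304) (nat_lit 6668581043) (nat_lit 380) (nat_lit 6531644406) (nat_lit 46) (nat_lit 5) (nat_lit 50) (nat_lit 5) (nat_lit 51) (nat_lit 5) (nat_lit 323) (nat_lit 263) (nat_lit 194)) (XT.nd (nat_lit 78) (nat_lit 0) (nat_lit 0) (XT.lf (nat_lit 0) (nat_lit 6672462414) (nat_lit 304) (nat_lit 3301237644) (nat_lit 380) (nat_lit 4434149918) (nat_lit 46) (nat_lit 5) (nat_lit 50) (nat_lit 5) (nat_lit 51) (nat_lit 5) (nat_lit 324) (nat_lit 263) (nat_lit 193)) (XT.lf (nat_lit 0) (nat_lit 12414579128) (nat_lit 380) (nat_lit 2142506810) (nat_lit 76) (nat_lit 154706967) (nat_lit 46) (nat_lit 5) (nat_lit 51) (nat_lit 5) (nat_lit 47) (nat_lit 5) (nat_lit 325) (nat_lit 263) (nat_lit 192))))) (XT.nd (nat_lit 234) (nat_lit 456) (nat_lit 0) (XT.nd (nat_lit 78) (nat_lit 76) (nat_lit 0) (XT.lf (nat_lit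 0) (nat_lit 3622873303) (nat_lit 228) (nat_lit 11349676590) (nat_lit 304) (nat_lit 51039159) (nat_lit 43) (nat_lit 5) (nat_lit 46) (nat_lit 5) (nat_lit 47) (nat_lit 5) (nat_lit 326) (nat_lit 263) (nat_lit 191)) (XT.nd (nat_lit 78) (nat_lit 0) (nat_lit 0) (XT.lf (nat_lit 0) (nat_lit 2216667522) (nat_lit 304) (nat_lit 5794405979) (nat_lit 76) (nat_lit 7333112185) (nat_lit 42) (nat_lit 5) (nat_lit 46) (nat_lit 5) (nat_lit 43) (nat_lit 5) (nat_lit 327) (nat_lit 263) (nat_lit 190)) (XT.lf (nat_lit 0) (nat_lit 4528512988) (nat_lit 304) (nat_lit 52924019) (nat_lit 76) (nat_lit 11093680620) (nat_lit 42) (nat_lit 5) (nat_lit 46) (nat_lit 5) (nat_lit 43) (nat_lit 5) (nat_lit 328) (nat_lit 263) (nat_lit 189)))) (XT.nd (nat_lit 78) (nat_lit 228) (nat_lit 0) (XT.lf (nat_lit 0) (nat_lit 5945250837) (nat_lit 228) (nat_lit 999411808) (nat_lit 304) (nat_lit 9070311630) (nat_lit 39) (nat_lit 5) (nat_lit 42)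 (nat_lit 5) (nat_lit 43) (nat_lit 5) (nat_lit 329) (nat_lit 263) (nat_lit 188)) (XT.nd (nat_lit 78) (nat_lit 228) (nat_lit 0) (XT.lf (nat_lit 0) (nat_lit 9437750395) (nat_lit 304) (nat_lit 4298283212) (nat_lit 76) (nat_lit 2628903305) (nat_lit 39) (nat_lit 5) (nat_lit 43) (nat_lit 5) (nat_lit 40) (nat_lit 5) (nat_lit 330) (nat_lit 263) (nat_lit 187)) (XT.lf (nat_lit 0) (nat_lit 1637420598) (nat_lit 228) (nat_lit 10372539645) (nat_lit 304) (nat_lit 4715350922) (nat_lit 36) (nat_lit 5) (nat_lit 39) (nat_lit 5) (nat_lit 40) (nat_lit 5) (nat_lit 331) (nat_lit 263) (nat_lit 186))))))))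
noncomputable def xc122 : XT := (XT.nd (nat_lit 1716) (nat_lit 760) (nat_lit 0) (XT.nd (nat_lit 858) (nat_lit 532) (nat_lit 0) (XT.nd (nat_lit 390) (nat_lit 456) (nat_lit 0) (XT.nd (nat_lit 156) (nat_lit 304) (nat_lit 0) (XT.nd (nat_lit 78) (nat_lit 0) (nat_lit 0) (XT.lf (nat_lit 0) (nat_lit 7808672984) (nat_lit 228) (nat_lit 6873088132) (nat_lit 304) (nat_lit 2414104163) (nat_lit 36) (nat_lit 5) (nat_lit 39) (nat_lit 5) (nat_lit 40) (nat_lit 5) (nat_lit 332) (nat_lit 263) (nat_lit 185)) (XT.lf (nat_lit 0) (nat_lit 14135322039) (nat_lit 228) (nat_lit 3278025529) (nat_lit 304) (nat_lit 64839675) (nat_lit 36) (nat_lit 5) (nat_lit 39) (nat_lit 5) (nat_lit 40) (nat_lit 5) (nat_lit 333) (nat_lit 263) (nat_lit 184))) (XT.nd (nat_lit 78) (nat_lit 0) (nat_lit 0) (XT.lf (nat_lit 0) (nat_lit 2320168249) (nat_lit 304) (nat_lit 15093485765) (nat_lit 76) (nat_lit 457347070) (nat_lit 32) (nat_lit 5) (nat_lit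 36) (nat_lit 5) (nat_lit 33) (nat_lit 5) (nat_lit 334) (nat_lit 263) (nat_lit 183)) (XT.nd (nat_lit 78) (nat_lit 0) (nat_lit 0) (XT.lf (nat_lit 0) (nat_lit 4822174506) (nat_lit 304) (nat_lit 9187547577) (nat_lit 76) (nat_lit 4264492222) (nat_lit 32) (nat_lit 5) (nat_lit 36) (nat_lit 5) (nat_lit 33) (nat_lit 5) (nat_lit 335) (nat_lit 263) (nat_lit 182)) (XT.lf (nat_lit 0) (nat_lit 7380022509) (nat_lit 304) (nat_lit 3133131970) (nat_lit 76) (nat_lit 8176981691) (nat_lit 32) (nat_lit 5) (nat_lit 36) (nat_lit 5) (nat_lit 33) (nat_lit 5) (nat_lit 336) (nat_lit 263) (nat_lit 181))))) (XT.nd (nat_lit 234) (nat_lit 304) (nat_lit 0) (XT.nd (nat_lit 78) (nat_lit 0) (nat_lit 0) (XT.lf (nat_lit 0) (nat_lit 3136250872) (nat_lit 152) (nat_lit 6889843960) (nat_lit 228) (nat_lit 9092130844) (nat_lit 30) (nat_lit 5) (nat_lit 32) (nat_lit 5) (nat_lit 33) (nat_lit 5) (nat_lit 337) (nat_lit 263) (nat_lit 180))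 (XT.nd (nat_lit 78) (nat_lit 0) (nat_lit 0) (XT.lf (nat_lit 0) (nat_lit 9630349735) (nat_lit 152) (nat_lit 3134457627) (nat_lit 228) (nat_lit 6793986408) (nat_lit 30) (nat_lit 5) (nat_lit 32) (nat_lit 5) (nat_lit 33) (nat_lit 5) (nat_lit 338) (nat_lit 263) (nat_lit 179)) (XT.lf (nat_lit 0) (nat_lit 15574801924) (nat_lit 228) (nat_lit 3727629076) (nat_lit 76) (nat_lit 710506952) (nat_lit 30) (nat_lit 5) (nat_lit 33) (nat_lit 5) (nat_lit 31) (nat_lit 5) (nat_lit 339) (nat_lit 263) (nat_lit 178)))) (XT.nd (nat_lit 78) (nat_lit 76) (nat_lit 0) (XT.lf (nat_lit 0) (nat_lit 2653479295) (nat_lit 228) (nat_lit 15854749326) (nat_lit 304) (nat_lit 1971335581) (nat_lit 27) (nat_lit 5) (nat_lit 30) (nat_lit 5) (nat_lit 31) (nat_lit 5) (nat_lit 340) (nat_lit 263) (nat_lit 177)) (XT.nd (nat_lit 78) (nat_lit 0) (nat_lit 0) (XT.lf (nat_lit 0) (nat_lit 579017146) (nat_lit 304) (nat_lit 11689064541) (nat_lit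 76) (nat_lit 8691353402) (nat_lit 26) (nat_lit 5) (nat_lit 30) (nat_lit 5) (nat_lit 27) (nat_lit 5) (nat_lit 341) (nat_lit 263) (nat_lit 176)) (XT.lf (nat_lit 0) (nat_lit 3149410232) (nat_lit 304) (nat_lit 5413268672) (nat_lit 76) (nat_lit 12890972126) (nat_lit 26) (nat_lit 5) (nat_lit 30) (nat_lit 5) (nat_lit 27) (nat_lit 5) (nat_lit 342) (nat_lit 263) (nat_lit 175)))))) (XT.nd (nat_lit 390) (nat_lit 228) (nat_lit 0) (XT.nd (nat_lit 156) (nat_lit 152) (nat_lit 0) (XT.nd (nat_lit 78) (nat_lit 0) (nat_lit 0) (XT.lf (nat_lit 0) (nat_lit 1046150249) (nat_lit 152) (nat_lit 4744463494) (nat_lit 228) (nat_lit 16172296921) (nat_lit 24) (nat_lit 5) (nat_lit 26) (nat_lit 5) (nat_lit 27) (nat_lit 5) (nat_lit 343) (nat_lit 263) (nat_lit 174)) (XT.lf (nat_lit 0) (nat_lit 7785499192) (nat_lit 152) (nat_lit 764097823) (nat_lit 228) (nat_lit 13936722119) (nat_lit 24) (nat_lit 5) (nat_lit 26) (nat_lit 5) (nat_lit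 27) (nat_lit 5) (nat_lit 344) (nat_lit 263) (nat_lit 173))) (XT.nd (nat_lit 78) (nat_lit 152) (nat_lit 0) (XT.lf (nat_lit 0) (nat_lit 11407682944) (nat_lit 228) (nat_lit 8354977076) (nat_lit 76) (nat_lit 3262306402) (nat_lit 24) (nat_lit 5) (nat_lit 27) (nat_lit 5) (nat_lit 25) (nat_lit 5) (nat_lit 345) (nat_lit 263) (nat_lit 172)) (XT.nd (nat_lit 78) (nat_lit 152) (nat_lit 0) (XT.lf (nat_lit 0) (nat_lit 14343803545) (nat_lit 228) (nat_lit 1850121562) (nat_lit 76) (nat_lit 7386105044) (nat_lit 24) (nat_lit 5) (nat_lit 27) (nat_lit 5) (nat_lit 25) (nat_lit 5) (nat_lit 346) (nat_lit 263) (nat_lit 171)) (XT.lf (nat_lit 0) (nat_lit 4922837722) (nat_lit 152) (nat_lit 12477662990) (nat_lit 228) (nat_lit 6750295326) (nat_lit 22) (nat_lit 5) (nat_lit 24) (nat_lit 5) (nat_lit 25) (nat_lit 5) (nat_lit 347) (nat_lit 263) (nat_lit 170))))) (XT.nd (nat_lit 234) (nat_lit 0) (nat_lit 0) (XT.nd (nat_lit 78)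 (nat_lit 228) (nat_lit 0) (XT.lf (nat_lit 0) (nat_lit 11914033787) (nat_lit 152) (nat_lit 8638931209) (nat_lit 228) (nat_lit 4185622223) (nat_lit 22) (nat_lit 5) (nat_lit 24) (nat_lit 5) (nat_lit 25) (nat_lit 5) (nat_lit 348) (nat_lit 263) (nat_lit 169)) (XT.nd (nat_lit 78) (nat_lit 228) (nat_lit 0) (XT.lf (nat_lit 0) (nat_lit 19092754397) (nat_lit 152) (nat_lit 4693058133) (nat_lit 228) (nat_lit 1558648923) (nat_lit 22) (nat_lit 5) (nat_lit 24) (nat_lit 5) (nat_lit 25) (nat_lit 5) (nat_lit 349) (nat_lit 263) (nat_lit 168)) (XT.lf (nat_lit 0) (nat_lit 495094838) (nat_lit 152) (nat_lit 620476954) (nat_lit 228) (nat_lit 24852906870) (nat_lit 19) (nat_lit 5) (nat_lit 21) (nat_lit 5) (nat_lit 22) (nat_lit 5) (nat_lit 350) (nat_lit 263) (nat_lit 167)))) (XT.nd (nat_lit 78) (nat_lit 0) (nat_lit 0) (XT.lf (nat_lit 0) (nat_lit 3922990566) (nat_lit 228) (nat_lit 19109290582) (nat_lit 76) (nat_lit 3575964904)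 (nat_lit 19) (nat_lit 5) (nat_lit 22) (nat_lit 5) (nat_lit 20) (nat_lit 5) (nat_lit 351) (nat_lit 263) (nat_lit 166)) (XT.nd (nat_lit 78) (nat_lit 0) (nat_lit 0) (XT.lf (nat_lit 0) (nat_lit 6807363126) (nat_lit 228) (nat_lit 12581784241) (nat_lit 76) (nat_lit 7878298128) (nat_lit 19) (nat_lit 5) (nat_lit 22) (nat_lit 5) (nat_lit 20) (nat_lit 5) (nat_lit 352) (nat_lit 263) (nat_lit 165)) (XT.lf (nat_lit 0) (nat_lit 9765245393) (nat_lit 228) (nat_lit 5879196750) (nat_lit 76) (nat_lit 12302389776) (nat_lit 19) (nat_lit 5) (nat_lit 22) (nat_lit 5) (nat_lit 20) (nat_lit 5) (nat_lit 353) (nat_lit 263) (nat_lit 164))))))) (XT.nd (nat_lit 858) (nat_lit 304) (nat_lit 0) (XT.nd (nat_lit 390) (nat_lit 304) (nat_lit 0) (XT.nd (nat_lit 156) (nat_lit 0) (nat_lit 0) (XT.nd (nat_lit 78) (nat_lit 0) (nat_lit 0) (XT.lf (nat_lit 0) (nat_lit 1024316627) (nat_lit 152) (nat_lit 11784751655) (nat_lit 228) (nat_lit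 15837635291) (nat_lit 17) (nat_lit 5) (nat_lit 19) (nat_lit 5) (nat_lit 20) (nat_lit 5) (nat_lit 354) (nat_lit 263) (nat_lit 163)) (XT.lf (nat_lit 0) (nat_lit 8235510779) (nat_lit 152) (nat_lit 7755597755) (nat_lit 228) (nat_lit 13375074949) (nat_lit 17) (nat_lit 5) (nat_lit 19) (nat_lit 5) (nat_lit 20) (nat_lit 5) (nat_lit 355) (nat_lit 263) (nat_lit 162))) (XT.nd (nat_lit 78) (nat_lit 0) (nat_lit 0) (XT.lf (nat_lit 0) (nat_lit 15643679207) (nat_lit 152) (nat_lit 3612828183) (nat_lit 228) (nat_lit 10851122107) (nat_lit 17) (nat_lit 5) (nat_lit 19) (nat_lit 5) (nat_lit 20) (nat_lit 5) (nat_lit 356) (nat_lit 263) (nat_lit 161)) (XT.nd (nat_lit 78) (nat_lit 0) (nat_lit 0) (XT.lf (nat_lit 0) (nat_lit 22614339172) (nat_lit 228) (nat_lit 7622615473) (nat_lit 76) (nat_lit 634548202) (nat_lit 17) (nat_lit 5) (nat_lit 20) (nat_lit 5) (nat_lit 18) (nat_lit 4) (nat_lit 357) (nat_lit 263) (nat_lit 160))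 (XT.lf (nat_lit 0) (nat_lit 26097202845) (nat_lit 228) (nat_lit 630355327) (nat_lit 76) (nat_lit 4930022877) (nat_lit 17) (nat_lit 5) (nat_lit 20) (nat_lit 5) (nat_lit 18) (nat_lit 4) (nat_lit 358) (nat_lit 263) (nat_lit 159))))) (XT.nd (nat_lit 234) (nat_lit 152) (nat_lit 0) (XT.nd (nat_lit 78) (nat_lit 76) (nat_lit 0) (XT.lf (nat_lit 0) (nat_lit 6684099459) (nat_lit 76) (nat_lit 23053565167) (nat_lit 152) (nat_lit 2728000650) (nat_lit 16) (nat_lit 5) (nat_lit 17) (nat_lit 5) (nat_lit 18) (nat_lit 4) (nat_lit 359) (nat_lit 263) (nat_lit 158)) (XT.nd (nat_lit 78) (nat_lit 0) (nat_lit 0) (XT.lf (nat_lit 0) (nat_lit 180970365) (nat_lit 152) (nat_lit 19086839384) (nat_lit 76) (nat_lit 14030284236) (nat_lit 15) (nat_lit 5) (nat_lit 17) (nat_lit 5) (nat_lit 16) (nat_lit 5) (nat_lit 360) (nat_lit 263) (nat_lit 157)) (XT.lf (nat_lit 0) (nat_lit 3111592654) (nat_lit 152) (nat_lit 12235819625) (nat_lit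 76) (nat_lit 18807612213) (nat_lit 15) (nat_lit 5) (nat_lit 17) (nat_lit 5) (nat_lit 16) (nat_lit 5) (nat_lit 361) (nat_lit 263) (nat_lit 156)))) (XT.nd (nat_lit 78) (nat_lit 152) (nat_lit 0) (XT.lf (nat_lit 0) (nat_lit 6119660075) (nat_lit 152) (nat_lit 5196296999) (nat_lit 76) (nat_lit 23722035191) (nat_lit 15) (nat_lit 5) (nat_lit 17) (nat_lit 5) (nat_lit 16) (nat_lit 5) (nat_lit 362) (nat_lit 263) (nat_lit 155)) (XT.nd (nat_lit 78) (nat_lit 0) (nat_lit 0) (XT.lf (nat_lit 0) (nat_lit 2078437329) (nat_lit 152) (nat_lit 7149342917) (nat_lit 228) (nat_lit 26719389208) (nat_lit 13) (nat_lit 5) (nat_lit 15) (nat_lit 5) (nat_lit 16) (nat_lit 5) (nat_lit 363) (nat_lit 263) (nat_lit 154)) (XT.lf (nat_lit 0) (nat_lit 9661562985) (nat_lit 152) (nat_lit 2810023779) (nat_lit 228) (nat_lit 24410776189) (nat_lit 13) (nat_lit 5) (nat_lit 15) (nat_lit 5) (nat_lit 16) (nat_lit 5) (nat_lit 364) (nat_lit 263)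 (nat_lit 153)))))) (XT.nd (nat_lit 390) (nat_lit 228) (nat_lit 0) (XT.nd (nat_lit 156) (nat_lit 76) (nat_lit 0) (XT.nd (nat_lit 78) (nat_lit 0) (nat_lit 0) (XT.lf (nat_lit 0) (nat_lit 15818862655) (nat_lit 228) (nat_lit 20405521465) (nat_lit 76) (nat_lit 1621057344) (nat_lit 13) (nat_lit 5) (nat_lit 16) (nat_lit 5) (nat_lit 14) (nat_lit 4) (nat_lit 365) (nat_lit 263) (nat_lit 152)) (XT.lf (nat_lit 0) (nat_lit 19284867468) (nat_lit 228) (nat_lit 13429276262) (nat_lit 76) (nat_lit 6122732737) (nat_lit 13) (nat_lit 5) (nat_lit 16) (nat_lit 5) (nat_lit 14) (nat_lit 4) (nat_lit 366) (nat_lit 263) (nat_lit 151))) (XT.nd (nat_lit 78) (nat_lit 76) (nat_lit 0) (XT.lf (nat_lit 0) (nat_lit 22845618085) (nat_lit 228) (nat_lit 6258956944) (nat_lit 76) (nat_lit 10753769586) (nat_lit 13) (nat_lit 5) (nat_lit 16) (nat_lit 5) (nat_lit 14) (nat_lit 4) (nat_lit 367) (nat_lit 263) (nat_lit 150)) (XT.nd (nat_lit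 78) (nat_lit 0) (nat_lit 0) (XT.lf (nat_lit 0) (nat_lit 1133826860) (nat_lit 76) (nat_lit 25381298018) (nat_lit 152) (nat_lit 14395286605) (nat_lit 12) (nat_lit 5) (nat_lit 13) (nat_lit 5) (nat_lit 14) (nat_lit 4) (nat_lit 368) (nat_lit 263) (nat_lit 149)) (XT.lf (nat_lit 0) (nat_lit 8862071329) (nat_lit 76) (nat_lit 21487003900) (nat_lit 152) (nat_lit 11643346692) (nat_lit 12) (nat_lit 5) (nat_lit 13) (nat_lit 5) (nat_lit 14) (nat_lit 4) (nat_lit 369) (nat_lit 263) (nat_lit 148))))) (XT.nd (nat_lit 234) (nat_lit 228) (nat_lit 0) (XT.nd (nat_lit 78) (nat_lit 0) (nat_lit 0) (XT.lf (nat_lit 0) (nat_lit 16807963779) (nat_lit 76) (nat_lit 17481493087) (nat_lit 152) (nat_lit 8817705378) (nat_lit 12) (nat_lit 5) (nat_lit 13) (nat_lit 5) (nat_lit 14) (nat_lit 4) (nat_lit 370) (nat_lit 263) (nat_lit 147)) (XT.nd (nat_lit 78) (nat_lit 0) (nat_lit 0) (XT.lf (nat_lit 0) (nat_lit 24978447225) (nat_lit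 76) (nat_lit 13361265619) (nat_lit 152) (nat_lit 5915893656) (nat_lit 12) (nat_lit 5) (nat_lit 13) (nat_lit 5) (nat_lit 14) (nat_lit 4) (nat_lit 371) (nat_lit 263) (nat_lit 146)) (XT.lf (nat_lit 0) (nat_lit 33380660924) (nat_lit 76) (nat_lit 9122721296) (nat_lit 152) (nat_lit 2935375962) (nat_lit 12) (nat_lit 5) (nat_lit 13) (nat_lit 5) (nat_lit 14) (nat_lit 4) (nat_lit 372) (nat_lit 263) (nat_lit 145)))) (XT.nd (nat_lit 78) (nat_lit 152) (nat_lit 0) (XT.lf (nat_lit 0) (nat_lit 123984505) (nat_lit 152) (nat_lit 4636920031) (nat_lit 76) (nat_lit 41896710109) (nat_lit 11) (nat_lit 5) (nat_lit 13) (nat_lit 5) (nat_lit 12) (nat_lit 5) (nat_lit 373) (nat_lit 263) (nat_lit 144)) (XT.nd (nat_lit 78) (nat_lit 0) (nat_lit 0) (XT.lf (nat_lit 0) (nat_lit 3024059875) (nat_lit 152) (nat_lit 213421282) (nat_lit 228) (nat_lit 44674053461) (nat_lit 9) (nat_lit 5) (nat_lit 11) (nat_lit 5) (nat_lit 12) (nat_lit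 5) (nat_lit 374) (nat_lit 263) (nat_lit 143)) (XT.lf (nat_lit 0) (nat_lit 6526982184) (nat_lit 228) (nat_lit 38248027073) (nat_lit 76) (nat_lit 4425594960) (nat_lit 9) (nat_lit 5) (nat_lit 12) (nat_lit 5) (nat_lit 10) (nat_lit 4) (nat_lit 375) (nat_lit 263) (nat_lit 142))))))))
noncomputable def xc123 : XT := (XT.nd (nat_lit 32058) (nat_lit 0) (nat_lit 11324) (XT.nd (nat_lit 858) (nat_lit 152) (nat_lit 0) (XT.nd (nat_lit 390) (nat_lit 76) (nat_lit 0) (XT.nd (nat_lit 156) (nat_lit 0) (nat_lit 0) (XT.nd (nat_lit 78) (nat_lit 0) (nat_lit 0) (XT.lf (nat_lit 0) (nat_lit 9909843483) (nat_lit 228) (nat_lit 31423979383) (nat_lit 76) (nat_lit 9194692503) (nat_lit 9) (nat_lit 5) (nat_lit 12) (nat_lit 5) (nat_lit 10) (nat_lit 4) (nat_lit 376) (nat_lit 263) (nat_lit 141)) (XT.lf (nat_lit 0) (nat_lit 13386969416) (nat_lit 228) (nat_lit 24407317378) (nat_lit 76) (nat_lit 14102203137) (nat_lit 9) (nat_lit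 5) (nat_lit 12) (nat_lit 5) (nat_lit 10) (nat_lit 4) (nat_lit 377) (nat_lit 263) (nat_lit 140))) (XT.nd (nat_lit 78) (nat_lit 0) (nat_lit 0) (XT.lf (nat_lit 0) (nat_lit 16961398247) (nat_lit 228) (nat_lit 17191909994) (nat_lit 76) (nat_lit 19152414978) (nat_lit 9) (nat_lit 5) (nat_lit 12) (nat_lit 5) (nat_lit 10) (nat_lit 4) (nat_lit 378) (nat_lit 263) (nat_lit 139)) (XT.nd (nat_lit 78) (nat_lit 0) (nat_lit 0) (XT.lf (nat_lit 0) (nat_lit 20636253265) (nat_lit 228) (nat_lit 9771452506) (nat_lit 76) (nat_lit 24349740833) (nat_lit 9) (nat_lit 5) (nat_lit 12) (nat_lit 5) (nat_lit 10) (nat_lit 4) (nat_lit 379) (nat_lit 263) (nat_lit 138)) (XT.lf (nat_lit 0) (nat_lit 24414745507) (nat_lit 228) (nat_lit 2139461018) (nat_lit 76) (nat_lit 29698722054) (nat_lit 9) (nat_lit 5) (nat_lit 12) (nat_lit 5) (nat_lit 10) (nat_lit 4) (nat_lit 380) (nat_lit 263) (nat_lit 137))))) (XT.nd (nat_lit 234) (nat_lit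 0) (nat_lit 0) (XT.nd (nat_lit 78) (nat_lit 0) (nat_lit 0) (XT.lf (nat_lit 0) (nat_lit 5824387986) (nat_lit 76) (nat_lit 22531776163) (nat_lit 152) (nat_lit 29435632102) (nat_lit 8) (nat_lit 5) (nat_lit 9) (nat_lit 5) (nat_lit 10) (nat_lit 4) (nat_lit 381) (nat_lit 263) (nat_lit 136)) (XT.nd (nat_lit 78) (nat_lit 0) (nat_lit 0) (XT.lf (nat_lit 0) (nat_lit 14060357760) (nat_lit 76) (nat_lit 18370740488) (nat_lit 152) (nat_lit 26945281661) (nat_lit 8) (nat_lit 5) (nat_lit 9) (nat_lit 5) (nat_lit 10) (nat_lit 4) (nat_lit 382) (nat_lit 263) (nat_lit 135)) (XT.lf (nat_lit 0) (nat_lit 22533065312) (nat_lit 76) (nat_lit 14089068004) (nat_lit 152) (nat_lit 24386560075) (nat_lit 8) (nat_lit 5) (nat_lit 9) (nat_lit 5) (nat_lit 10) (nat_lit 4) (nat_lit 383) (nat_lit 263) (nat_lit 134)))) (XT.nd (nat_lit 78) (nat_lit 0) (nat_lit 0) (XT.lf (nat_lit 0) (nat_lit 31249913980) (nat_lit 76) (nat_lit 9683017445)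 (nat_lit 152) (nat_lit 21757231569) (nat_lit 8) (nat_lit 5) (nat_lit 9) (nat_lit 5) (nat_lit 10) (nat_lit 4) (nat_lit 384) (nat_lit 263) (nat_lit 133)) (XT.nd (nat_lit 78) (nat_lit 0) (nat_lit 0) (XT.lf (nat_lit 0) (nat_lit 40218520427) (nat_lit 76) (nat_lit 5148738863) (nat_lit 152) (nat_lit 19054998671) (nat_lit 8) (nat_lit 5) (nat_lit 9) (nat_lit 5) (nat_lit 10) (nat_lit 4) (nat_lit 385) (nat_lit 263) (nat_lit 132)) (XT.lf (nat_lit 0) (nat_lit 49446721299) (nat_lit 76) (nat_lit 482270267) (nat_lit 152) (nat_lit 16277500206) (nat_lit 8) (nat_lit 5) (nat_lit 9) (nat_lit 5) (nat_lit 10) (nat_lit 4) (nat_lit 386) (nat_lit 263) (nat_lit 131)))))) (XT.nd (nat_lit 390) (nat_lit 76) (nat_lit 0) (XT.nd (nat_lit 156) (nat_lit 76) (nat_lit 0) (XT.nd (nat_lit 78) (nat_lit 0) (nat_lit 0) (XT.lf (nat_lit 0) (nat_lit 54663645195) (nat_lit 152) (nat_lit 9143374358) (nat_lit 0) (nat_lit 4236157988) (nat_lit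 8) (nat_lit 5) (nat_lit 10) (nat_lit 4) (nat_lit 8) (nat_lit 4) (nat_lit 387) (nat_lit 263) (nat_lit 130)) (XT.lf (nat_lit 0) (nat_lit 59539776105) (nat_lit 152) (nat_lit 1312312935) (nat_lit 0) (nat_lit 9082898530) (nat_lit 8) (nat_lit 5) (nat_lit 10) (nat_lit 4) (nat_lit 8) (nat_lit 4) (nat_lit 388) (nat_lit 263) (nat_lit 129))) (XT.nd (nat_lit 78) (nat_lit 0) (nat_lit 0) (XT.lf (nat_lit 0) (nat_lit 6879128927) (nat_lit 76) (nat_lit 57744006585) (nat_lit 76) (nat_lit 7258594671) (nat_lit 7) (nat_lit 4) (nat_lit 8) (nat_lit 5) (nat_lit 8) (nat_lit 4) (nat_lit 389) (nat_lit 263) (nat_lit 128)) (XT.nd (nat_lit 78) (nat_lit 0) (nat_lit 0) (XT.lf (nat_lit 0) (nat_lit 15334513347) (nat_lit 76) (nat_lit 54532619597) (nat_lit 76) (nat_lit 4019504441) (nat_lit 7) (nat_lit 4) (nat_lit 8) (nat_lit 5) (nat_lit 8) (nat_lit 4) (nat_lit 390) (nat_lit 263) (nat_lit 127)) (XT.lf (nat_lit 0) (nat_lit 24035110923)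 (nat_lit 76) (nat_lit 51228373796) (nat_lit 76) (nat_lit 688362291) (nat_lit 7) (nat_lit 4) (nat_lit 8) (nat_lit 5) (nat_lit 8) (nat_lit 4) (nat_lit 391) (nat_lit 263) (nat_lit 126))))) (XT.nd (nat_lit 234) (nat_lit 0) (nat_lit 0) (XT.nd (nat_lit 78) (nat_lit 0) (nat_lit 0) (XT.lf (nat_lit 0) (nat_lit 2684319270) (nat_lit 152) (nat_lit 45116956347) (nat_lit 76) (nat_lit 30277098488) (nat_lit 6) (nat_lit 5) (nat_lit 8) (nat_lit 5) (nat_lit 7) (nat_lit 4) (nat_lit 392) (nat_lit 263) (nat_lit 125)) (XT.nd (nat_lit 78) (nat_lit 0) (nat_lit 0) (XT.lf (nat_lit 0) (nat_lit 6139613235) (nat_lit 152) (nat_lit 38128061988) (nat_lit 76) (nat_lit 36000965015) (nat_lit 6) (nat_lit 5) (nat_lit 8) (nat_lit 5) (nat_lit 7) (nat_lit 4) (nat_lit 393) (nat_lit 263) (nat_lit 124)) (XT.lf (nat_lit 0) (nat_lit 9693971221) (nat_lit 152) (nat_lit 30937329249) (nat_lit 76) (nat_lit 41893457275) (nat_lit 6) (nat_lit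 5) (nat_lit 8) (nat_lit 5) (nat_lit 7) (nat_lit 4) (nat_lit 394) (nat_lit 263) (nat_lit 123)))) (XT.nd (nat_lit 30420) (nat_lit 0) (nat_lit 17100) (XT.lf (nat_lit 0) (nat_lit 13350498976) (nat_lit 152) (nat_lit 23538474965) (nat_lit 76) (nat_lit 47959724045) (nat_lit 6) (nat_lit 5) (nat_lit 8) (nat_lit 5) (nat_lit 7) (nat_lit 4) (nat_lit 395) (nat_lit 263) (nat_lit 122)) (XT.nd (nat_lit 78) (nat_lit 0) (nat_lit 0) (XT.lf (nat_lit 0) (nat_lit 249687907) (nat_lit 380) (nat_lit 1503921034) (nat_lit 380) (nat_lit 1503921034) (nat_lit 231) (nat_lit 3) (nat_lit 236) (nat_lit 3) (nat_lit 236) (nat_lit 5) (nat_lit 264) (nat_lit 264) (nat_lit 252)) (XT.lf (nat_lit 0) (nat_lit 2741722305) (nat_lit 380) (nat_lit 281081483) (nat_lit 380) (nat_lit 3511983288) (nat_lit 231) (nat_lit 3) (nat_lit 236) (nat_lit 3) (nat_lit 236) (nat_lit 5) (nat_lit 265) (nat_lit 264) (nat_lit 251))))))) (XT.nd (nat_lit 858)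 (nat_lit 4484) (nat_lit 0) (XT.nd (nat_lit 390) (nat_lit 532) (nat_lit 0) (XT.nd (nat_lit 156) (nat_lit 380) (nat_lit 0) (XT.nd (nat_lit 78) (nat_lit 380) (nat_lit 0) (XT.lf (nat_lit 76) (nat_lit 2531753423) (nat_lit 0) (nat_lit 2456702355) (nat_lit 380) (nat_lit 1568964207) (nat_lit 232) (nat_lit 5) (nat_lit 231) (nat_lit 3) (nat_lit 236) (nat_lit 5) (nat_lit 266) (nat_lit 264) (nat_lit 250)) (XT.lf (nat_lit 0) (nat_lit 624280819) (nat_lit 380) (nat_lit 1199689810) (nat_lit 456) (nat_lit 4759460788) (nat_lit 226) (nat_lit 5) (nat_lit 231) (nat_lit 3) (nat_lit 232) (nat_lit 5) (nat_lit 267) (nat_lit 264) (nat_lit 249))) (XT.nd (nat_lit 78) (nat_lit 380) (nat_lit 0) (XT.lf (nat_lit 76) (nat_lit 1682923994) (nat_lit 0) (nat_lit 1101198228) (nat_lit 456) (nat_lit 3828056127) (nat_lit 227) (nat_lit 5) (nat_lit 226) (nat_lit 5) (nat_lit 232) (nat_lit 5) (nat_lit 268) (nat_lit 264) (nat_lit 248))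 (XT.nd (nat_lit 78) (nat_lit 380) (nat_lit 0) (XT.lf (nat_lit 76) (nat_lit 4631606385) (nat_lit 0) (nat_lit 307432811) (nat_lit 456) (nat_lit 1705219882) (nat_lit 227) (nat_lit 5) (nat_lit 226) (nat_lit 5) (nat_lit 232) (nat_lit 5) (nat_lit 269) (nat_lit 264) (nat_lit 247)) (XT.lf (nat_lit 0) (nat_lit 405914714) (nat_lit 456) (nat_lit 5725141596) (nat_lit 532) (nat_lit 548444966) (nat_lit 221) (nat_lit 5) (nat_lit 227) (nat_lit 5) (nat_lit 228) (nat_lit 5) (nat_lit 270) (nat_lit 264) (nat_lit 246))))) (XT.nd (nat_lit 234) (nat_lit 532) (nat_lit 0) (XT.nd (nat_lit 78) (nat_lit 0) (nat_lit 0) (XT.lf (nat_lit 0) (nat_lit 2491315051) (nat_lit 456) (nat_lit 2731915683) (nat_lit 532) (nat_lit 1494054928) (nat_lit 221) (nat_lit 5) (nat_lit 227) (nat_lit 5) (nat_lit 228) (nat_lit 5) (nat_lit 271) (nat_lit 264) (nat_lit 245)) (XT.nd (nat_lit 78) (nat_lit 0) (nat_lit 0) (XT.lf (nat_lit 76) (nat_lit 310331616)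 (nat_lit 0) (nat_lit 4255847297) (nat_lit 532) (nat_lit 2192555068) (nat_lit 222) (nat_lit 5) (nat_lit 221) (nat_lit 5) (nat_lit 228) (nat_lit 5) (nat_lit 272) (nat_lit 264) (nat_lit 244)) (XT.lf (nat_lit 76) (nat_lit 3453475979) (nat_lit 0) (nat_lit 3203088337) (nat_lit 532) (nat_lit 146590786) (nat_lit 222) (nat_lit 5) (nat_lit 221) (nat_lit 5) (nat_lit 228) (nat_lit 5) (nat_lit 273) (nat_lit 264) (nat_lit 243)))) (XT.nd (nat_lit 78) (nat_lit 0) (nat_lit 0) (XT.lf (nat_lit 0) (nat_lit 1849317927) (nat_lit 532) (nat_lit 223628548) (nat_lit 608) (nat_lit 4777900949) (nat_lit 214) (nat_lit 5) (nat_lit 221) (nat_lit 5) (nat_lit 222) (nat_lit 5) (nat_lit 274) (nat_lit 264) (nat_lit 242)) (XT.nd (nat_lit 78) (nat_lit 0) (nat_lit 76) (XT.lf (nat_lit 76) (nat_lit 3008025867) (nat_lit 0) (nat_lit 852004790) (nat_lit 608) (nat_lit 3041459942) (nat_lit 215) (nat_lit 5) (nat_lit 214) (nat_lit 5) (nat_lit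 222) (nat_lit 5) (nat_lit 275) (nat_lit 264) (nat_lit 241)) (XT.lf (nat_lit 0) (nat_lit 5868073608) (nat_lit 532) (nat_lit 663878555) (nat_lit 76) (nat_lit 423881728) (nat_lit 215) (nat_lit 5) (nat_lit 222) (nat_lit 5) (nat_lit 216) (nat_lit 5) (nat_lit 276) (nat_lit 264) (nat_lit 240)))))) (XT.nd (nat_lit 468) (nat_lit 2584) (nat_lit 0) (XT.nd (nat_lit 234) (nat_lit 760) (nat_lit 0) (XT.nd (nat_lit 78) (nat_lit 608) (nat_lit 0) (XT.lf (nat_lit 0) (nat_lit 872752042) (nat_lit 608) (nat_lit 4361778417) (nat_lit 76) (nat_lit 1778297489) (nat_lit 207) (nat_lit 5) (nat_lit 215) (nat_lit 5) (nat_lit 208) (nat_lit 5) (nat_lit 277) (nat_lit 264) (nat_lit 239)) (XT.nd (nat_lit 78) (nat_lit 608) (nat_lit 0) (XT.lf (nat_lit 0) (nat_lit 2810428795) (nat_lit 608) (nat_lit 1050471149) (nat_lit 76) (nat_lit 3212368809) (nat_lit 207) (nat_lit 5) (nat_lit 215) (nat_lit 5) (nat_lit 208) (nat_lit 5) (nat_lit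 278) (nat_lit 264) (nat_lit 238)) (XT.lf (nat_lit 0) (nat_lit 2360273074) (nat_lit 608) (nat_lit 2404031471) (nat_lit 684) (nat_lit 2372734804) (nat_lit 199) (nat_lit 5) (nat_lit 207) (nat_lit 5) (nat_lit 208) (nat_lit 5) (nat_lit 279) (nat_lit 264) (nat_lit 237)))) (XT.nd (nat_lit 78) (nat_lit 760) (nat_lit 0) (XT.lf (nat_lit 0) (nat_lit 5849364149) (nat_lit 608) (nat_lit 874865090) (nat_lit 684) (nat_lit 480321937) (nat_lit 199) (nat_lit 5) (nat_lit 207) (nat_lit 5) (nat_lit 208) (nat_lit 5) (nat_lit 280) (nat_lit 264) (nat_lit 236)) (XT.nd (nat_lit 78) (nat_lit 0) (nat_lit 0) (XT.lf (nat_lit 0) (nat_lit 1405932162) (nat_lit 760) (nat_lit 5131139779) (nat_lit 76) (nat_lit 737857556) (nat_lit 189) (nat_lit 5) (nat_lit 199) (nat_lit 5) (nat_lit 190) (nat_lit 5) (nat_lit 281) (nat_lit 264) (nat_lit 235)) (XT.lf (nat_lit 0) (nat_lit 3300947287) (nat_lit 760) (nat_lit 1632460053) (nat_lit 76)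 (nat_lit 2415244122) (nat_lit 189) (nat_lit 5) (nat_lit 199) (nat_lit 5) (nat_lit 190) (nat_lit 5) (nat_lit 282) (nat_lit 264) (nat_lit 234))))) (XT.nd (nat_lit 234) (nat_lit 912) (nat_lit 0) (XT.nd (nat_lit 78) (nat_lit 912) (nat_lit 0) (XT.lf (nat_lit 0) (nat_lit 1963461242) (nat_lit 760) (nat_lit 3249337404) (nat_lit 836) (nat_lit 2213209960) (nat_lit 179) (nat_lit 5) (nat_lit 189) (nat_lit 5) (nat_lit 190) (nat_lit 5) (nat_lit 283) (nat_lit 264) (nat_lit 233)) (XT.nd (nat_lit 78) (nat_lit 912) (nat_lit 0) (XT.lf (nat_lit 0) (nat_lit 5655142289) (nat_lit 760) (nat_lit 1485736723) (nat_lit 836) (nat_lit 366257842) (nat_lit 179) (nat_lit 5) (nat_lit 189) (nat_lit 5) (nat_lit 190) (nat_lit 5) (nat_lit 284) (nat_lit 264) (nat_lit 232)) (XT.lf (nat_lit 0) (nat_lit 1470753681) (nat_lit 912) (nat_lit 5752761869) (nat_lit 76) (nat_lit 368005810) (nat_lit 167) (nat_lit 5) (nat_lit 179) (nat_lit 5)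 (nat_lit 168) (nat_lit 5) (nat_lit 285) (nat_lit 264) (nat_lit 231)))) (XT.nd (nat_lit 78) (nat_lit 912) (nat_lit 0) (XT.lf (nat_lit 0) (nat_lit 3333734618) (nat_lit 912) (nat_lit 2065299338) (nat_lit 76) (nat_lit 2280146258) (nat_lit 167) (nat_lit 5) (nat_lit 179) (nat_lit 5) (nat_lit 168) (nat_lit 5) (nat_lit 286) (nat_lit 264) (nat_lit 230)) (XT.nd (nat_lit 78) (nat_lit 0) (nat_lit 0) (XT.lf (nat_lit 0) (nat_lit 1720633226) (nat_lit 912) (nat_lit 3494747986) (nat_lit 988) (nat_lit 2555396774) (nat_lit 155) (nat_lit 5) (nat_lit 167) (nat_lit 5) (nat_lit 168) (nat_lit 5) (nat_lit 287) (nat_lit 264) (nat_lit 229)) (XT.lf (nat_lit 0) (nat_lit 5617199115) (nat_lit 912) (nat_lit 1504500673) (nat_lit 988) (nat_lit 744564065) (nat_lit 155) (nat_lit 5) (nat_lit 167) (nat_lit 5) (nat_lit 168) (nat_lit 5) (nat_lit 288) (nat_lit 264) (nat_lit 228))))))))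
noncomputable def xc124 : XT := (XT.nd (nat_lit 1716) (nat_lit 2660) (nat_lit 0) (XT.nd (nat_lit 858) (nat_lit 2128) (nat_lit 0) (XT.nd (nat_lit 390) (nat_lit 1520) (nat_lit 0) (XT.nd (nat_lit 156) (nat_lit 1672) (nat_lit 0) (XT.nd (nat_lit 78) (nat_lit 0) (nat_lit 0) (XT.lf (nat_lit 0) (nat_lit 1068298241) (nat_lit 1064) (nat_lit 6328965933) (nat_lit 76) (nat_lit 568115934) (nat_lit 141) (nat_lit 5) (nat_lit 155) (nat_lit 5) (nat_lit 142) (nat_lit 5) (nat_lit 289) (nat_lit 264) (nat_lit 227)) (XT.lf (nat_lit 0) (nat_lit 2907765582) (nat_lit 1064) (nat_lit 2451196152) (nat_lit 76) (nat_lit 2708842415) (nat_lit 141) (nat_lit 5) (nat_lit 155) (nat_lit 5) (nat_lit 142) (nat_lit 5) (nat_lit 290) (nat_lit 264) (nat_lit 226))) (XT.nd (nat_lit 78) (nat_lit 608) (nat_lit 0) (XT.lf (nat_lit 0) (nat_lit 1527593351) (nat_lit 1064) (nat_lit 3240335047) (nat_lit 1140) (nat_lit 3406573174) (nat_lit 127)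 (nat_lit 5) (nat_lit 141) (nat_lit 5) (nat_lit 142) (nat_lit 5) (nat_lit 291) (nat_lit 264) (nat_lit 225)) (XT.nd (nat_lit 78) (nat_lit 608) (nat_lit 0) (XT.lf (nat_lit 0) (nat_lit 5631313814) (nat_lit 1064) (nat_lit 1029164577) (nat_lit 1140) (nat_lit 1624785223) (nat_lit 127) (nat_lit 5) (nat_lit 141) (nat_lit 5) (nat_lit 142) (nat_lit 5) (nat_lit 292) (nat_lit 264) (nat_lit 224)) (XT.lf (nat_lit 0) (nat_lit 184997168) (nat_lit 608) (nat_lit 6972222309) (nat_lit 76) (nat_lit 1242860839) (nat_lit 119) (nat_lit 5) (nat_lit 127) (nat_lit 5) (nat_lit 120) (nat_lit 5) (nat_lit 293) (nat_lit 264) (nat_lit 223))))) (XT.nd (nat_lit 234) (nat_lit 1064) (nat_lit 0) (XT.nd (nat_lit 78) (nat_lit 456) (nat_lit 0) (XT.lf (nat_lit 0) (nat_lit 2007267560) (nat_lit 608) (nat_lit 2903156852) (nat_lit 76) (nat_lit 3607856455) (nat_lit 119) (nat_lit 5) (nat_lit 127) (nat_lit 5) (nat_lit 120) (nat_lit 5) (nat_lit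 294) (nat_lit 264) (nat_lit 222)) (XT.nd (nat_lit 78) (nat_lit 0) (nat_lit 0) (XT.lf (nat_lit 0) (nat_lit 1268460302) (nat_lit 456) (nat_lit 2582886861) (nat_lit 532) (nat_lit 4789809232) (nat_lit 113) (nat_lit 5) (nat_lit 119) (nat_lit 5) (nat_lit 120) (nat_lit 5) (nat_lit 295) (nat_lit 264) (nat_lit 221)) (XT.lf (nat_lit 0) (nat_lit 5580899389) (nat_lit 456) (nat_lit 155004637) (nat_lit 532) (nat_lit 3032398542) (nat_lit 113) (nat_lit 5) (nat_lit 119) (nat_lit 5) (nat_lit 120) (nat_lit 5) (nat_lit 296) (nat_lit 264) (nat_lit 220)))) (XT.nd (nat_lit 78) (nat_lit 532) (nat_lit 0) (XT.lf (nat_lit 0) (nat_lit 1077948906) (nat_lit 532) (nat_lit 6589086977) (nat_lit 608) (nat_lit 1232661069) (nat_lit 106) (nat_lit 5) (nat_lit 113) (nat_lit 5) (nat_lit 114) (nat_lit 5) (nat_lit 297) (nat_lit 264) (nat_lit 219)) (XT.nd (nat_lit 78) (nat_lit 456) (nat_lit 0) (XT.lf (nat_lit 0) (nat_lit 600402370)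 (nat_lit 608) (nat_lit 3549820243) (nat_lit 76) (nat_lit 4885015085) (nat_lit 105) (nat_lit 5) (nat_lit 113) (nat_lit 5) (nat_lit 106) (nat_lit 5) (nat_lit 298) (nat_lit 264) (nat_lit 218)) (XT.lf (nat_lit 0) (nat_lit 810647049) (nat_lit 456) (nat_lit 1619481451) (nat_lit 532) (nat_lit 6745480168) (nat_lit 99) (nat_lit 5) (nat_lit 105) (nat_lit 5) (nat_lit 106) (nat_lit 5) (nat_lit 299) (nat_lit 264) (nat_lit 217)))))) (XT.nd (nat_lit 390) (nat_lit 1216) (nat_lit 0) (XT.nd (nat_lit 156) (nat_lit 456) (nat_lit 0) (XT.nd (nat_lit 78) (nat_lit 456) (nat_lit 0) (XT.lf (nat_lit 0) (nat_lit 4319861654) (nat_lit 532) (nat_lit 3998386928) (nat_lit 76) (nat_lit 1001908651) (nat_lit 99) (nat_lit 5) (nat_lit 106) (nat_lit 5) (nat_lit 100) (nat_lit 5) (nat_lit 300) (nat_lit 264) (nat_lit 216)) (XT.lf (nat_lit 0) (nat_lit 449075326) (nat_lit 456) (nat_lit 5798169241) (nat_lit 532) (nat_lit 3222485387) (nat_lit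 93) (nat_lit 5) (nat_lit 99) (nat_lit 5) (nat_lit 100) (nat_lit 5) (nat_lit 301) (nat_lit 264) (nat_lit 215))) (XT.nd (nat_lit 78) (nat_lit 456) (nat_lit 0) (XT.lf (nat_lit 0) (nat_lit 5069506160) (nat_lit 456) (nat_lit 3164664817) (nat_lit 532) (nat_lit 1389680257) (nat_lit 93) (nat_lit 5) (nat_lit 99) (nat_lit 5) (nat_lit 100) (nat_lit 5) (nat_lit 302) (nat_lit 264) (nat_lit 214)) (XT.nd (nat_lit 78) (nat_lit 380) (nat_lit 0) (XT.lf (nat_lit 0) (nat_lit 450381937) (nat_lit 532) (nat_lit 880148) (nat_lit 76) (nat_lit 9332437192) (nat_lit 92) (nat_lit 5) (nat_lit 99) (nat_lit 5) (nat_lit 93) (nat_lit 5) (nat_lit 303) (nat_lit 264) (nat_lit 213)) (XT.lf (nat_lit 0) (nat_lit 2349327935) (nat_lit 456) (nat_lit 5244007136) (nat_lit 76) (nat_lit 2353749965) (nat_lit 87) (nat_lit 5) (nat_lit 93) (nat_lit 5) (nat_lit 88) (nat_lit 5) (nat_lit 304) (nat_lit 264) (nat_lit 212))))) (XT.nd (nat_lit 234)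 (nat_lit 836) (nat_lit 0) (XT.nd (nat_lit 78) (nat_lit 380) (nat_lit 0) (XT.lf (nat_lit 0) (nat_lit 4273464820) (nat_lit 456) (nat_lit 613234753) (nat_lit 76) (nat_lit 5229726553) (nat_lit 87) (nat_lit 5) (nat_lit 93) (nat_lit 5) (nat_lit 88) (nat_lit 5) (nat_lit 305) (nat_lit 264) (nat_lit 211)) (XT.nd (nat_lit 78) (nat_lit 0) (nat_lit 0) (XT.lf (nat_lit 0) (nat_lit 4198022687) (nat_lit 380) (nat_lit 2062458629) (nat_lit 456) (nat_lit 4030308977) (nat_lit 82) (nat_lit 5) (nat_lit 87) (nat_lit 5) (nat_lit 88) (nat_lit 5) (nat_lit 306) (nat_lit 264) (nat_lit 210)) (XT.lf (nat_lit 0) (nat_lit 8286889925) (nat_lit 456) (nat_lit 1353249978) (nat_lit 76) (nat_lit 830946703) (nat_lit 82) (nat_lit 5) (nat_lit 88) (nat_lit 5) (nat_lit 83) (nat_lit 5) (nat_lit 307) (nat_lit 264) (nat_lit 209)))) (XT.nd (nat_lit 78) (nat_lit 456) (nat_lit 0) (XT.lf (nat_lit 0) (nat_lit 3537211436) (nat_lit 380) (nat_lit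 6857700285) (nat_lit 456) (nat_lit 261347369) (nat_lit 77) (nat_lit 5) (nat_lit 82) (nat_lit 5) (nat_lit 83) (nat_lit 5) (nat_lit 308) (nat_lit 264) (nat_lit 208)) (XT.nd (nat_lit 78) (nat_lit 380) (nat_lit 0) (XT.lf (nat_lit 0) (nat_lit 1666024234) (nat_lit 456) (nat_lit 2301317125) (nat_lit 76) (nat_lit 6879824720) (nat_lit 76) (nat_lit 5) (nat_lit 82) (nat_lit 5) (nat_lit 77) (nat_lit 5) (nat_lit 309) (nat_lit 264) (nat_lit 207)) (XT.lf (nat_lit 0) (nat_lit 2671452292) (nat_lit 380) (nat_lit 967748669) (nat_lit 456) (nat_lit 7404808694) (nat_lit 71) (nat_lit 5) (nat_lit 76) (nat_lit 5) (nat_lit 77) (nat_lit 5) (nat_lit 310) (nat_lit 264) (nat_lit 206))))))) (XT.nd (nat_lit 858) (nat_lit 1292) (nat_lit 0) (XT.nd (nat_lit 390) (nat_lit 684) (nat_lit 0) (XT.nd (nat_lit 156) (nat_lit 380) (nat_lit 0) (XT.nd (nat_lit 78) (nat_lit 304) (nat_lit 0) (XT.lf (nat_lit 0) (nat_lit 5683503566) (nat_lit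 456) (nat_lit 3465733206) (nat_lit 76) (nat_lit 2097245513) (nat_lit 71) (nat_lit 5) (nat_lit 77) (nat_lit 5) (nat_lit 72) (nat_lit 5) (nat_lit 311) (nat_lit 264) (nat_lit 205)) (XT.lf (nat_lit 0) (nat_lit 1570897056) (nat_lit 304) (nat_lit 6211915772) (nat_lit 380) (nat_lit 3672485221) (nat_lit 67) (nat_lit 5) (nat_lit 71) (nat_lit 5) (nat_lit 72) (nat_lit 5) (nat_lit 312) (nat_lit 264) (nat_lit 204))) (XT.nd (nat_lit 78) (nat_lit 380) (nat_lit 0) (XT.lf (nat_lit 0) (nat_lit 6791576714) (nat_lit 304) (nat_lit 3158054114) (nat_lit 380) (nat_lit 1720688548) (nat_lit 67) (nat_lit 5) (nat_lit 71) (nat_lit 5) (nat_lit 72) (nat_lit 5) (nat_lit 313) (nat_lit 264) (nat_lit 203)) (XT.nd (nat_lit 78) (nat_lit 0) (nat_lit 0) (XT.lf (nat_lit 0) (nat_lit 241358106) (nat_lit 304) (nat_lit 15025261) (nat_lit 380) (nat_lit 11636225789) (nat_lit 62) (nat_lit 5) (nat_lit 66) (nat_lit 5) (nat_lit 67) (nat_lit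 5) (nat_lit 314) (nat_lit 264) (nat_lit 202)) (XT.lf (nat_lit 0) (nat_lit 2309403460) (nat_lit 380) (nat_lit 6591678759) (nat_lit 76) (nat_lit 3218508152) (nat_lit 62) (nat_lit 5) (nat_lit 67) (nat_lit 5) (nat_lit 63) (nat_lit 5) (nat_lit 315) (nat_lit 264) (nat_lit 201))))) (XT.nd (nat_lit 234) (nat_lit 380) (nat_lit 0) (XT.nd (nat_lit 78) (nat_lit 304) (nat_lit 0) (XT.lf (nat_lit 0) (nat_lit 4395514353) (nat_lit 380) (nat_lit 1417518041) (nat_lit 76) (nat_lit 6541272014) (nat_lit 62) (nat_lit 5) (nat_lit 67) (nat_lit 5) (nat_lit 63) (nat_lit 5) (nat_lit 316) (nat_lit 264) (nat_lit 200)) (XT.nd (nat_lit 78) (nat_lit 0) (nat_lit 0) (XT.lf (nat_lit 0) (nat_lit 3953034591) (nat_lit 304) (nat_lit 2601358824) (nat_lit 380) (nat_lit 6041427304) (nat_lit 58) (nat_lit 5) (nat_lit 62) (nat_lit 5) (nat_lit 63) (nat_lit 5) (nat_lit 317) (nat_lit 264) (nat_lit 199)) (XT.lf (nat_lit 0) (nat_lit 8771861702)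 (nat_lit 380) (nat_lit 3373749722) (nat_lit 76) (nat_lit 699220874) (nat_lit 58) (nat_lit 5) (nat_lit 63) (nat_lit 5) (nat_lit 59) (nat_lit 5) (nat_lit 318) (nat_lit 264) (nat_lit 198)))) (XT.nd (nat_lit 78) (nat_lit 76) (nat_lit 0) (XT.lf (nat_lit 0) (nat_lit 2031888553) (nat_lit 304) (nat_lit 9042626162) (nat_lit 380) (nat_lit 2026302277) (nat_lit 54) (nat_lit 5) (nat_lit 58) (nat_lit 5) (nat_lit 59) (nat_lit 5) (nat_lit 319) (nat_lit 264) (nat_lit 197)) (XT.nd (nat_lit 78) (nat_lit 0) (nat_lit 0) (XT.lf (nat_lit 0) (nat_lit 88069083) (nat_lit 380) (nat_lit 5731330438) (nat_lit 76) (nat_lit 7544880163) (nat_lit 53) (nat_lit 5) (nat_lit 58) (nat_lit 5) (nat_lit 54) (nat_lit 5) (nat_lit 320) (nat_lit 264) (nat_lit 196)) (XT.lf (nat_lit 0) (nat_lit 2199409944) (nat_lit 380) (nat_lit 288232432) (nat_lit 76) (nat_lit 11148231336) (nat_lit 53) (nat_lit 5) (nat_lit 58) (nat_lit 5) (nat_lit 54) (nat_lit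 5) (nat_lit 321) (nat_lit 264) (nat_lit 195)))))) (XT.nd (nat_lit 390) (nat_lit 760) (nat_lit 0) (XT.nd (nat_lit 156) (nat_lit 304) (nat_lit 0) (XT.nd (nat_lit 78) (nat_lit 0) (nat_lit 0) (XT.lf (nat_lit 0) (nat_lit 4410420930) (nat_lit 304) (nat_lit 8534598310) (nat_lit 76) (nat_lit 969562031) (nat_lit 50) (nat_lit 5) (nat_lit 54) (nat_lit 5) (nat_lit 51) (nat_lit 5) (nat_lit 322) (nat_lit 264) (nat_lit 194)) (XT.lf (nat_lit 0) (nat_lit 6690671490) (nat_lit 304) (nat_lit 3036006271) (nat_lit 76) (nat_lit 4474939006) (nat_lit 50) (nat_lit 5) (nat_lit 54) (nat_lit 5) (nat_lit 51) (nat_lit 5) (nat_lit 323) (nat_lit 264) (nat_lit 193))) (XT.nd (nat_lit 78) (nat_lit 0) (nat_lit 0) (XT.lf (nat_lit 0) (nat_lit 2646231627) (nat_lit 304) (nat_lit 6394593116) (nat_lit 380) (nat_lit 5456446145) (nat_lit 46) (nat_lit 5) (nat_lit 50) (nat_lit 5) (nat_lit 51) (nat_lit 5) (nat_lit 324) (nat_lit 264) (nat_lit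 192)) (XT.nd (nat_lit 78) (nat_lit 0) (nat_lit 0) (XT.lf (nat_lit 0) (nat_lit 8528545440) (nat_lit 304) (nat_lit 2940036562) (nat_lit 380) (nat_lit 3333050539) (nat_lit 46) (nat_lit 5) (nat_lit 50) (nat_lit 5) (nat_lit 51) (nat_lit 5) (nat_lit 325) (nat_lit 264) (nat_lit 191)) (XT.lf (nat_lit 0) (nat_lit 13952157310) (nat_lit 380) (nat_lit 566065512) (nat_lit 76) (nat_lit 597462066) (nat_lit 46) (nat_lit 5) (nat_lit 51) (nat_lit 5) (nat_lit 47) (nat_lit 5) (nat_lit 326) (nat_lit 264) (nat_lit 190))))) (XT.nd (nat_lit 234) (nat_lit 228) (nat_lit 0) (XT.nd (nat_lit 78) (nat_lit 228) (nat_lit 0) (XT.lf (nat_lit 0) (nat_lit 1109018824) (nat_lit 304) (nat_lit 10092139717) (nat_lit 76) (nat_lit 4235972808) (nat_lit 42) (nat_lit 5) (nat_lit 46) (nat_lit 5) (nat_lit 43) (nat_lit 5) (nat_lit 327) (nat_lit 264) (nat_lit 189)) (XT.nd (nat_lit 78) (nat_lit 228) (nat_lit 0) (XT.lf (nat_lit 0) (nat_lit 3409928054)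 (nat_lit 304) (nat_lit 4366206929) (nat_lit 76) (nat_lit 7992278668) (nat_lit 42) (nat_lit 5) (nat_lit 46) (nat_lit 5) (nat_lit 43) (nat_lit 5) (nat_lit 328) (nat_lit 264) (nat_lit 188)) (XT.lf (nat_lit 0) (nat_lit 1530728410) (nat_lit 228) (nat_lit 4242296505) (nat_lit 304) (nat_lit 10336858593) (nat_lit 39) (nat_lit 5) (nat_lit 42) (nat_lit 5) (nat_lit 43) (nat_lit 5) (nat_lit 329) (nat_lit 264) (nat_lit 187)))) (XT.nd (nat_lit 78) (nat_lit 228) (nat_lit 0) (XT.lf (nat_lit 0) (nat_lit 7663729761) (nat_lit 228) (nat_lit 566157197) (nat_lit 304) (nat_lit 8231066953) (nat_lit 39) (nat_lit 5) (nat_lit 42) (nat_lit 5) (nat_lit 43) (nat_lit 5) (nat_lit 330) (nat_lit 264) (nat_lit 186)) (XT.nd (nat_lit 78) (nat_lit 228) (nat_lit 0) (XT.lf (nat_lit 0) (nat_lit 10770724995) (nat_lit 304) (nat_lit 2902825811) (nat_lit 76) (nat_lit 3148738894) (nat_lit 39) (nat_lit 5) (nat_lit 43) (nat_lit 5) (nat_lit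 40) (nat_lit 5) (nat_lit 331) (nat_lit 264) (nat_lit 185)) (XT.lf (nat_lit 0) (nat_lit 3196003958) (nat_lit 228) (nat_lit 10208029115) (nat_lit 304) (nat_lit 3789985314) (nat_lit 36) (nat_lit 5) (nat_lit 39) (nat_lit 5) (nat_lit 40) (nat_lit 5) (nat_lit 332) (nat_lit 264) (nat_lit 184))))))))
noncomputable def xc125 : XT := (XT.nd (nat_lit 1716) (nat_lit 760) (nat_lit 0) (XT.nd (nat_lit 858) (nat_lit 532) (nat_lit 0) (XT.nd (nat_lit 390) (nat_lit 456) (nat_lit 0) (XT.nd (nat_lit 156) (nat_lit 228) (nat_lit 0) (XT.nd (nat_lit 78) (nat_lit 76) (nat_lit 0) (XT.lf (nat_lit 0) (nat_lit 9508429040) (nat_lit 228) (nat_lit 6617449010) (nat_lit 304) (nat_lit 1450773758) (nat_lit 36) (nat_lit 5) (nat_lit 39) (nat_lit 5) (nat_lit 40) (nat_lit 5) (nat_lit 333) (nat_lit 264) (nat_lit 183)) (XT.lf (nat_lit 0) (nat_lit 920481694) (nat_lit 304) (nat_lit 1998209184) (nat_lit 76) (nat_lit 15052416466) (nat_lit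 35) (nat_lit 5) (nat_lit 39) (nat_lit 5) (nat_lit 36) (nat_lit 5) (nat_lit 334) (nat_lit 264) (nat_lit 182))) (XT.nd (nat_lit 78) (nat_lit 0) (nat_lit 0) (XT.lf (nat_lit 0) (nat_lit 3365180247) (nat_lit 304) (nat_lit 14089622414) (nat_lit 76) (nat_lit 921254718) (nat_lit 32) (nat_lit 5) (nat_lit 36) (nat_lit 5) (nat_lit 33) (nat_lit 5) (nat_lit 335) (nat_lit 264) (nat_lit 181)) (XT.nd (nat_lit 78) (nat_lit 0) (nat_lit 0) (XT.lf (nat_lit 0) (nat_lit 5913836781) (nat_lit 304) (nat_lit 8048933301) (nat_lit 76) (nat_lit 4829501976) (nat_lit 32) (nat_lit 5) (nat_lit 36) (nat_lit 5) (nat_lit 33) (nat_lit 5) (nat_lit 336) (nat_lit 264) (nat_lit 180)) (XT.lf (nat_lit 0) (nat_lit 8520837786) (nat_lit 304) (nat_lit 1854076703) (nat_lit 76) (nat_lit 8846635789) (nat_lit 32) (nat_lit 5) (nat_lit 36) (nat_lit 5) (nat_lit 33) (nat_lit 5) (nat_lit 337) (nat_lit 264) (nat_lit 179))))) (XT.nd (nat_lit 234)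 (nat_lit 304) (nat_lit 0) (XT.nd (nat_lit 78) (nat_lit 0) (nat_lit 0) (XT.lf (nat_lit 0) (nat_lit 4589926358) (nat_lit 152) (nat_lit 6642656046) (nat_lit 228) (nat_lit 8430361096) (nat_lit 30) (nat_lit 5) (nat_lit 32) (nat_lit 5) (nat_lit 33) (nat_lit 5) (nat_lit 338) (nat_lit 264) (nat_lit 178)) (XT.nd (nat_lit 78) (nat_lit 0) (nat_lit 0) (XT.lf (nat_lit 0) (nat_lit 11239248537) (nat_lit 152) (nat_lit 2787828023) (nat_lit 228) (nat_lit 6090491754) (nat_lit 30) (nat_lit 5) (nat_lit 32) (nat_lit 5) (nat_lit 33) (nat_lit 5) (nat_lit 339) (nat_lit 264) (nat_lit 177)) (XT.lf (nat_lit 0) (nat_lit 16899872100) (nat_lit 228) (nat_lit 2534854401) (nat_lit 76) (nat_lit 1151302165) (nat_lit 30) (nat_lit 5) (nat_lit 33) (nat_lit 5) (nat_lit 31) (nat_lit 5) (nat_lit 340) (nat_lit 264) (nat_lit 176)))) (XT.nd (nat_lit 78) (nat_lit 76) (nat_lit 0) (XT.lf (nat_lit 0) (nat_lit 4024896991) (nat_lit 228) (nat_lit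 15883837081) (nat_lit 304) (nat_lit 1158342171) (nat_lit 27) (nat_lit 5) (nat_lit 30) (nat_lit 5) (nat_lit 31) (nat_lit 5) (nat_lit 341) (nat_lit 264) (nat_lit 175)) (XT.nd (nat_lit 78) (nat_lit 0) (nat_lit 0) (XT.lf (nat_lit 0) (nat_lit 1426596409) (nat_lit 304) (nat_lit 10767595972) (nat_lit 76) (nat_lit 9367689460) (nat_lit 26) (nat_lit 5) (nat_lit 30) (nat_lit 5) (nat_lit 27) (nat_lit 5) (nat_lit 342) (nat_lit 264) (nat_lit 174)) (XT.lf (nat_lit 0) (nat_lit 4049920450) (nat_lit 304) (nat_lit 4340578862) (nat_lit 76) (nat_lit 13681192024) (nat_lit 26) (nat_lit 5) (nat_lit 30) (nat_lit 5) (nat_lit 27) (nat_lit 5) (nat_lit 343) (nat_lit 264) (nat_lit 173)))))) (XT.nd (nat_lit 390) (nat_lit 228) (nat_lit 0) (XT.nd (nat_lit 156) (nat_lit 152) (nat_lit 0) (XT.nd (nat_lit 78) (nat_lit 0) (nat_lit 0) (XT.lf (nat_lit 0) (nat_lit 2300513922) (nat_lit 152) (nat_lit 4458125628) (nat_lit 228) (nat_lit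 15837981265) (nat_lit 24) (nat_lit 5) (nat_lit 26) (nat_lit 5) (nat_lit 27) (nat_lit 5) (nat_lit 344) (nat_lit 264) (nat_lit 172)) (XT.lf (nat_lit 0) (nat_lit 9206422580) (nat_lit 152) (nat_lit 370834573) (nat_lit 228) (nat_lit 13559207701) (nat_lit 24) (nat_lit 5) (nat_lit 26) (nat_lit 5) (nat_lit 27) (nat_lit 5) (nat_lit 345) (nat_lit 264) (nat_lit 171))) (XT.nd (nat_lit 78) (nat_lit 152) (nat_lit 0) (XT.lf (nat_lit 0) (nat_lit 12502508446) (nat_lit 228) (nat_lit 7433003447) (nat_lit 76) (nat_lit 3756355103) (nat_lit 24) (nat_lit 5) (nat_lit 27) (nat_lit 5) (nat_lit 25) (nat_lit 5) (nat_lit 346) (nat_lit 264) (nat_lit 170)) (XT.nd (nat_lit 78) (nat_lit 152) (nat_lit 0) (XT.lf (nat_lit 0) (nat_lit 15504792421) (nat_lit 228) (nat_lit 767156334) (nat_lit 76) (nat_lit 7992328494) (nat_lit 24) (nat_lit 5) (nat_lit 27) (nat_lit 5) (nat_lit 25) (nat_lit 5) (nat_lit 347) (nat_lit 264) (nat_lit 169))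 (XT.lf (nat_lit 0) (nat_lit 6197830270) (nat_lit 152) (nat_lit 12444914813) (nat_lit 228) (nat_lit 6209770322) (nat_lit 22) (nat_lit 5) (nat_lit 24) (nat_lit 5) (nat_lit 25) (nat_lit 5) (nat_lit 348) (nat_lit 264) (nat_lit 168))))) (XT.nd (nat_lit 234) (nat_lit 0) (nat_lit 0) (XT.nd (nat_lit 78) (nat_lit 228) (nat_lit 0) (XT.lf (nat_lit 0) (nat_lit 13365928020) (nat_lit 152) (nat_lit 8502877721) (nat_lit 228) (nat_lit 3589798789) (nat_lit 22) (nat_lit 5) (nat_lit 24) (nat_lit 5) (nat_lit 25) (nat_lit 5) (nat_lit 349) (nat_lit 264) (nat_lit 167)) (XT.nd (nat_lit 78) (nat_lit 228) (nat_lit 0) (XT.lf (nat_lit 0) (nat_lit 20728132388) (nat_lit 152) (nat_lit 4450139757) (nat_lit 228) (nat_lit 905027710) (nat_lit 22) (nat_lit 5) (nat_lit 24) (nat_lit 5) (nat_lit 25) (nat_lit 5) (nat_lit 350) (nat_lit 264) (nat_lit 166)) (XT.lf (nat_lit 0) (nat_lit 1576743660) (nat_lit 152) (nat_lit 249262341) (nat_lit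 228) (nat_lit 24900153926) (nat_lit 19) (nat_lit 5) (nat_lit 21) (nat_lit 5) (nat_lit 22) (nat_lit 5) (nat_lit 351) (nat_lit 264) (nat_lit 165)))) (XT.nd (nat_lit 78) (nat_lit 0) (nat_lit 0) (XT.lf (nat_lit 0) (nat_lit 4701567982) (nat_lit 228) (nat_lit 18629732604) (nat_lit 76) (nat_lit 4054333128) (nat_lit 19) (nat_lit 5) (nat_lit 22) (nat_lit 5) (nat_lit 20) (nat_lit 5) (nat_lit 352) (nat_lit 264) (nat_lit 164)) (XT.nd (nat_lit 78) (nat_lit 0) (nat_lit 0) (XT.lf (nat_lit 0) (nat_lit 7653222562) (nat_lit 228) (nat_lit 11937066219) (nat_lit 76) (nat_lit 8474927923) (nat_lit 19) (nat_lit 5) (nat_lit 22) (nat_lit 5) (nat_lit 20) (nat_lit 5) (nat_lit 353) (nat_lit 264) (nat_lit 163)) (XT.lf (nat_lit 0) (nat_lit 10681152796) (nat_lit 228) (nat_lit 5063173090) (nat_lit 76) (nat_lit 13021248703) (nat_lit 19) (nat_lit 5) (nat_lit 22) (nat_lit 5) (nat_lit 20) (nat_lit 5) (nat_lit 354) (nat_lit 264)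 (nat_lit 162))))))) (XT.nd (nat_lit 858) (nat_lit 304) (nat_lit 0) (XT.nd (nat_lit 390) (nat_lit 228) (nat_lit 0) (XT.nd (nat_lit 156) (nat_lit 76) (nat_lit 0) (XT.nd (nat_lit 78) (nat_lit 0) (nat_lit 0) (XT.lf (nat_lit 0) (nat_lit 2037716280) (nat_lit 152) (nat_lit 11769875942) (nat_lit 228) (nat_lit 15679139478) (nat_lit 17) (nat_lit 5) (nat_lit 19) (nat_lit 5) (nat_lit 20) (nat_lit 5) (nat_lit 355) (nat_lit 264) (nat_lit 161)) (XT.lf (nat_lit 0) (nat_lit 9436624797) (nat_lit 152) (nat_lit 7630578054) (nat_lit 228) (nat_lit 13161157419) (nat_lit 17) (nat_lit 5) (nat_lit 19) (nat_lit 5) (nat_lit 20) (nat_lit 5) (nat_lit 356) (nat_lit 264) (nat_lit 160))) (XT.nd (nat_lit 78) (nat_lit 76) (nat_lit 0) (XT.lf (nat_lit 0) (nat_lit 17039250451) (nat_lit 152) (nat_lit 3373943481) (nat_lit 228) (nat_lit 10579403558) (nat_lit 17) (nat_lit 5) (nat_lit 19) (nat_lit 5) (nat_lit 20) (nat_lit 5) (nat_lit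 357) (nat_lit 264) (nat_lit 159)) (XT.nd (nat_lit 78) (nat_lit 76) (nat_lit 0) (XT.lf (nat_lit 0) (nat_lit 23858137782) (nat_lit 228) (nat_lit 6937523459) (nat_lit 76) (nat_lit 984160443) (nat_lit 17) (nat_lit 5) (nat_lit 20) (nat_lit 5) (nat_lit 18) (nat_lit 4) (nat_lit 358) (nat_lit 264) (nat_lit 158)) (XT.lf (nat_lit 0) (nat_lit 242624290) (nat_lit 76) (nat_lit 27188728285) (nat_lit 152) (nat_lit 5158578898) (nat_lit 16) (nat_lit 5) (nat_lit 17) (nat_lit 5) (nat_lit 18) (nat_lit 4) (nat_lit 359) (nat_lit 264) (nat_lit 157))))) (XT.nd (nat_lit 234) (nat_lit 152) (nat_lit 0) (XT.nd (nat_lit 78) (nat_lit 76) (nat_lit 0) (XT.lf (nat_lit 0) (nat_lit 7763080641) (nat_lit 76) (nat_lit 23408072176) (nat_lit 152) (nat_lit 2251426140) (nat_lit 16) (nat_lit 5) (nat_lit 17) (nat_lit 5) (nat_lit 18) (nat_lit 4) (nat_lit 360) (nat_lit 264) (nat_lit 156)) (XT.nd (nat_lit 78) (nat_lit 0) (nat_lit 0) (XT.lf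 (nat_lit 0) (nat_lit 717970204) (nat_lit 152) (nat_lit 18795224514) (nat_lit 76) (nat_lit 14767126250) (nat_lit 15) (nat_lit 5) (nat_lit 17) (nat_lit 5) (nat_lit 16) (nat_lit 5) (nat_lit 361) (nat_lit 264) (nat_lit 155)) (XT.lf (nat_lit 0) (nat_lit 3721028520) (nat_lit 152) (nat_lit 11763845619) (nat_lit 76) (nat_lit 19678572119) (nat_lit 15) (nat_lit 5) (nat_lit 17) (nat_lit 5) (nat_lit 16) (nat_lit 5) (nat_lit 362) (nat_lit 264) (nat_lit 154)))) (XT.nd (nat_lit 78) (nat_lit 152) (nat_lit 0) (XT.lf (nat_lit 0) (nat_lit 6804306272) (nat_lit 152) (nat_lit 4537575623) (nat_lit 76) (nat_lit 24731493858) (nat_lit 15) (nat_lit 5) (nat_lit 17) (nat_lit 5) (nat_lit 16) (nat_lit 5) (nat_lit 363) (nat_lit 264) (nat_lit 153)) (XT.nd (nat_lit 78) (nat_lit 0) (nat_lit 0) (XT.lf (nat_lit 0) (nat_lit 2947414360) (nat_lit 152) (nat_lit 7051415575) (nat_lit 228) (nat_lit 27011224631) (nat_lit 13) (nat_lit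 5) (nat_lit 15) (nat_lit 5) (nat_lit 16) (nat_lit 5) (nat_lit 364) (nat_lit 264) (nat_lit 152)) (XT.lf (nat_lit 0) (nat_lit 10734539885) (nat_lit 152) (nat_lit 2591016115) (nat_lit 228) (nat_lit 24648200200) (nat_lit 13) (nat_lit 5) (nat_lit 15) (nat_lit 5) (nat_lit 16) (nat_lit 5) (nat_lit 365) (nat_lit 264) (nat_lit 151)))))) (XT.nd (nat_lit 468) (nat_lit 228) (nat_lit 0) (XT.nd (nat_lit 234) (nat_lit 76) (nat_lit 0) (XT.nd (nat_lit 78) (nat_lit 0) (nat_lit 0) (XT.lf (nat_lit 0) (nat_lit 16762105445) (nat_lit 228) (nat_lit 20245558888) (nat_lit 76) (nat_lit 1958416967) (nat_lit 13) (nat_lit 5) (nat_lit 16) (nat_lit 5) (nat_lit 14) (nat_lit 4) (nat_lit 366) (nat_lit 264) (nat_lit 150)) (XT.nd (nat_lit 78) (nat_lit 0) (nat_lit 0) (XT.lf (nat_lit 0) (nat_lit 20318439619) (nat_lit 228) (nat_lit 13082515500) (nat_lit 76) (nat_lit 6586733071) (nat_lit 13) (nat_lit 5) (nat_lit 16) (nat_lit 5) (nat_lit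 14) (nat_lit 4) (nat_lit 367) (nat_lit 264) (nat_lit 149)) (XT.lf (nat_lit 0) (nat_lit 23972759566) (nat_lit 228) (nat_lit 5718920750) (nat_lit 76) (nat_lit 11348536413) (nat_lit 13) (nat_lit 5) (nat_lit 16) (nat_lit 5) (nat_lit 14) (nat_lit 4) (nat_lit 368) (nat_lit 264) (nat_lit 148)))) (XT.nd (nat_lit 78) (nat_lit 0) (nat_lit 0) (XT.lf (nat_lit 0) (nat_lit 1888511226) (nat_lit 76) (nat_lit 25857900680) (nat_lit 152) (nat_lit 14377630091) (nat_lit 12) (nat_lit 5) (nat_lit 13) (nat_lit 5) (nat_lit 14) (nat_lit 4) (nat_lit 369) (nat_lit 264) (nat_lit 147)) (XT.nd (nat_lit 78) (nat_lit 0) (nat_lit 0) (XT.lf (nat_lit 0) (nat_lit 9827612653) (nat_lit 76) (nat_lit 21855073941) (nat_lit 152) (nat_lit 11556224654) (nat_lit 12) (nat_lit 5) (nat_lit 13) (nat_lit 5) (nat_lit 14) (nat_lit 4) (nat_lit 370) (nat_lit 264) (nat_lit 146)) (XT.lf (nat_lit 0) (nat_lit 17991502872) (nat_lit 76) (nat_lit 17737452369)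 (nat_lit 152) (nat_lit 8658525434) (nat_lit 12) (nat_lit 5) (nat_lit 13) (nat_lit 5) (nat_lit 14) (nat_lit 4) (nat_lit 371) (nat_lit 264) (nat_lit 145))))) (XT.nd (nat_lit 234) (nat_lit 152) (nat_lit 0) (XT.nd (nat_lit 78) (nat_lit 76) (nat_lit 0) (XT.lf (nat_lit 0) (nat_lit 26387315379) (nat_lit 76) (nat_lit 13501438043) (nat_lit 152) (nat_lit 5682000460) (nat_lit 12) (nat_lit 5) (nat_lit 13) (nat_lit 5) (nat_lit 14) (nat_lit 4) (nat_lit 372) (nat_lit 264) (nat_lit 144)) (XT.nd (nat_lit 78) (nat_lit 76) (nat_lit 0) (XT.lf (nat_lit 0) (nat_lit 35022386322) (nat_lit 76) (nat_lit 9143329592) (nat_lit 152) (nat_lit 2624048886) (nat_lit 12) (nat_lit 5) (nat_lit 13) (nat_lit 5) (nat_lit 14) (nat_lit 4) (nat_lit 373) (nat_lit 264) (nat_lit 143)) (XT.lf (nat_lit 0) (nat_lit 507893215) (nat_lit 152) (nat_lit 4146297017) (nat_lit 76) (nat_lit 43391238966) (nat_lit 11) (nat_lit 5) (nat_lit 13) (nat_lit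 5) (nat_lit 12) (nat_lit 5) (nat_lit 374) (nat_lit 264) (nat_lit 142)))) (XT.nd (nat_lit 78) (nat_lit 0) (nat_lit 0) (XT.lf (nat_lit 0) (nat_lit 3709990447) (nat_lit 228) (nat_lit 45599070643) (nat_lit 76) (nat_lit 28064611) (nat_lit 9) (nat_lit 5) (nat_lit 12) (nat_lit 5) (nat_lit 10) (nat_lit 4) (nat_lit 375) (nat_lit 264) (nat_lit 141)) (XT.nd (nat_lit 78) (nat_lit 0) (nat_lit 0) (XT.lf (nat_lit 0) (nat_lit 7089294502) (nat_lit 228) (nat_lit 38780987049) (nat_lit 76) (nat_lit 4794866669) (nat_lit 9) (nat_lit 5) (nat_lit 12) (nat_lit 5) (nat_lit 10) (nat_lit 4) (nat_lit 376) (nat_lit 264) (nat_lit 140)) (XT.lf (nat_lit 0) (nat_lit 10562966800) (nat_lit 228) (nat_lit 31770115429) (nat_lit 76) (nat_lit 9700148676) (nat_lit 9) (nat_lit 5) (nat_lit 12) (nat_lit 5) (nat_lit 10) (nat_lit 4) (nat_lit 377) (nat_lit 264) (nat_lit 139))))))))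
noncomputable def xc126 : XT := (XT.nd (nat_lit 32136) (nat_lit 0) (nat_lit 10260) (XT.nd (nat_lit 858) (nat_lit 152) (nat_lit 0) (XT.nd (nat_lit 390) (nat_lit 0) (nat_lit 0) (XT.nd (nat_lit 156) (nat_lit 76) (nat_lit 0) (XT.nd (nat_lit 78) (nat_lit 0) (nat_lit 0) (XT.lf (nat_lit 0) (nat_lit 14134042587) (nat_lit 228) (nat_lit 24560329777) (nat_lit 76) (nat_lit 14748196802) (nat_lit 9) (nat_lit 5) (nat_lit 12) (nat_lit 5) (nat_lit 10) (nat_lit 4) (nat_lit 378) (nat_lit 264) (nat_lit 138)) (XT.lf (nat_lit 0) (nat_lit 17805642223) (nat_lit 228) (nat_lit 17145330282) (nat_lit 76) (nat_lit 19943421962) (nat_lit 9) (nat_lit 5) (nat_lit 12) (nat_lit 5) (nat_lit 10) (nat_lit 4) (nat_lit 379) (nat_lit 264) (nat_lit 137))) (XT.nd (nat_lit 78) (nat_lit 76) (nat_lit 0) (XT.lf (nat_lit 0) (nat_lit 21580973900) (nat_lit 228) (nat_lit 9518637817) (nat_lit 76) (nat_lit 25290363674) (nat_lit 9) (nat_lit 5)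 (nat_lit 12) (nat_lit 5) (nat_lit 10) (nat_lit 4) (nat_lit 380) (nat_lit 264) (nat_lit 136)) (XT.nd (nat_lit 78) (nat_lit 76) (nat_lit 0) (XT.lf (nat_lit 0) (nat_lit 25463336452) (nat_lit 228) (nat_lit 1673588282) (nat_lit 76) (nat_lit 30793694022) (nat_lit 9) (nat_lit 5) (nat_lit 12) (nat_lit 5) (nat_lit 10) (nat_lit 4) (nat_lit 381) (nat_lit 264) (nat_lit 135)) (XT.lf (nat_lit 0) (nat_lit 6523979559) (nat_lit 76) (nat_lit 22994855158) (nat_lit 152) (nat_lit 29996954665) (nat_lit 8) (nat_lit 5) (nat_lit 9) (nat_lit 5) (nat_lit 10) (nat_lit 4) (nat_lit 382) (nat_lit 264) (nat_lit 134))))) (XT.nd (nat_lit 234) (nat_lit 0) (nat_lit 0) (XT.nd (nat_lit 78) (nat_lit 0) (nat_lit 0) (XT.lf (nat_lit 0) (nat_lit 14991741244) (nat_lit 76) (nat_lit 18715188634) (nat_lit 152) (nat_lit 27441264965) (nat_lit 8) (nat_lit 5) (nat_lit 9) (nat_lit 5) (nat_lit 10) (nat_lit 4) (nat_lit 383) (nat_lit 264) (nat_lit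 133)) (XT.nd (nat_lit 78) (nat_lit 0) (nat_lit 0) (XT.lf (nat_lit 0) (nat_lit 23703788098) (nat_lit 76) (nat_lit 14311085609) (nat_lit 152) (nat_lit 24814880037) (nat_lit 8) (nat_lit 5) (nat_lit 9) (nat_lit 5) (nat_lit 10) (nat_lit 4) (nat_lit 384) (nat_lit 264) (nat_lit 132)) (XT.lf (nat_lit 0) (nat_lit 32667732590) (nat_lit 76) (nat_lit 9778697837) (nat_lit 152) (nat_lit 22115504982) (nat_lit 8) (nat_lit 5) (nat_lit 9) (nat_lit 5) (nat_lit 10) (nat_lit 4) (nat_lit 385) (nat_lit 264) (nat_lit 131)))) (XT.nd (nat_lit 78) (nat_lit 0) (nat_lit 0) (XT.lf (nat_lit 0) (nat_lit 41891407293) (nat_lit 76) (nat_lit 5114064979) (nat_lit 152) (nat_lit 19340781122) (nat_lit 8) (nat_lit 5) (nat_lit 9) (nat_lit 5) (nat_lit 10) (nat_lit 4) (nat_lit 386) (nat_lit 264) (nat_lit 130)) (XT.nd (nat_lit 78) (nat_lit 0) (nat_lit 0) (XT.lf (nat_lit 0) (nat_lit 51382871727) (nat_lit 76) (nat_lit 313111142) (nat_lit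 152) (nat_lit 16488283942) (nat_lit 8) (nat_lit 5) (nat_lit 9) (nat_lit 5) (nat_lit 10) (nat_lit 4) (nat_lit 387) (nat_lit 264) (nat_lit 129)) (XT.lf (nat_lit 0) (nat_lit 56566551341) (nat_lit 152) (nat_lit 8971652903) (nat_lit 0) (nat_lit 4538042731) (nat_lit 8) (nat_lit 5) (nat_lit 10) (nat_lit 4) (nat_lit 8) (nat_lit 4) (nat_lit 388) (nat_lit 264) (nat_lit 128)))))) (XT.nd (nat_lit 390) (nat_lit 0) (nat_lit 0) (XT.nd (nat_lit 156) (nat_lit 76) (nat_lit 0) (XT.nd (nat_lit 78) (nat_lit 76) (nat_lit 0) (XT.lf (nat_lit 0) (nat_lit 61581306078) (nat_lit 152) (nat_lit 918650590) (nat_lit 0) (nat_lit 9525094227) (nat_lit 8) (nat_lit 5) (nat_lit 10) (nat_lit 4) (nat_lit 8) (nat_lit 4) (nat_lit 389) (nat_lit 264) (nat_lit 127)) (XT.lf (nat_lit 0) (nat_lit 7514289119) (nat_lit 76) (nat_lit 59299561913) (nat_lit 76) (nat_lit 7216453712) (nat_lit 7) (nat_lit 4) (nat_lit 8) (nat_lit 5) (nat_lit 8) (nat_lit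 4) (nat_lit 390) (nat_lit 264) (nat_lit 126))) (XT.nd (nat_lit 78) (nat_lit 76) (nat_lit 0) (XT.lf (nat_lit 0) (nat_lit 16210846150) (nat_lit 76) (nat_lit 55996981806) (nat_lit 76) (nat_lit 3887760643) (nat_lit 7) (nat_lit 4) (nat_lit 8) (nat_lit 5) (nat_lit 8) (nat_lit 4) (nat_lit 391) (nat_lit 264) (nat_lit 125)) (XT.nd (nat_lit 78) (nat_lit 76) (nat_lit 0) (XT.lf (nat_lit 0) (nat_lit 25160336486) (nat_lit 76) (nat_lit 52598607167) (nat_lit 76) (nat_lit 464033614) (nat_lit 7) (nat_lit 4) (nat_lit 8) (nat_lit 5) (nat_lit 8) (nat_lit 4) (nat_lit 392) (nat_lit 264) (nat_lit 124)) (XT.lf (nat_lit 0) (nat_lit 2998051869) (nat_lit 152) (nat_lit 46073142228) (nat_lit 76) (nat_lit 31342253756) (nat_lit 6) (nat_lit 5) (nat_lit 8) (nat_lit 5) (nat_lit 7) (nat_lit 4) (nat_lit 393) (nat_lit 264) (nat_lit 123))))) (XT.nd (nat_lit 30654) (nat_lit 0) (nat_lit 16720) (XT.nd (nat_lit 78) (nat_lit 0) (nat_lit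 0) (XT.lf (nat_lit 0) (nat_lit 6550212333) (nat_lit 152) (nat_lit 38886153546) (nat_lit 76) (nat_lit 37233268057) (nat_lit 6) (nat_lit 5) (nat_lit 8) (nat_lit 5) (nat_lit 7) (nat_lit 4) (nat_lit 394) (nat_lit 264) (nat_lit 122)) (XT.nd (nat_lit 30498) (nat_lit 0) (nat_lit 17100) (XT.lf (nat_lit 0) (nat_lit 10204606571) (nat_lit 152) (nat_lit 31490934271) (nat_lit 76) (nat_lit 43298099916) (nat_lit 6) (nat_lit 5) (nat_lit 8) (nat_lit 5) (nat_lit 7) (nat_lit 4) (nat_lit 395) (nat_lit 264) (nat_lit 121)) (XT.lf (nat_lit 0) (nat_lit 2470551596) (nat_lit 380) (nat_lit 403727638) (nat_lit 380) (nat_lit 403727638) (nat_lit 231) (nat_lit 3) (nat_lit 236) (nat_lit 3) (nat_lit 236) (nat_lit 5) (nat_lit 265) (nat_lit 265) (nat_lit 250)))) (XT.nd (nat_lit 78) (nat_lit 0) (nat_lit 0) (XT.lf (nat_lit 0) (nat_lit 549549542) (nat_lit 380) (nat_lit 4612762273) (nat_lit 456) (nat_lit 1417790237) (nat_lit 226)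 (nat_lit 5) (nat_lit 231) (nat_lit 3) (nat_lit 232) (nat_lit 5) (nat_lit 266) (nat_lit 265) (nat_lit 249)) (XT.nd (nat_lit 78) (nat_lit 0) (nat_lit 0) (XT.lf (nat_lit 0) (nat_lit 2670876140) (nat_lit 380) (nat_lit 1824255473) (nat_lit 456) (nat_lit 2111961192) (nat_lit 226) (nat_lit 5) (nat_lit 231) (nat_lit 3) (nat_lit 232) (nat_lit 5) (nat_lit 267) (nat_lit 265) (nat_lit 248)) (XT.lf (nat_lit 76) (nat_lit 1023759632) (nat_lit 0) (nat_lit 3760522311) (nat_lit 456) (nat_lit 1853137955) (nat_lit 227) (nat_lit 5) (nat_lit 226) (nat_lit 5) (nat_lit 232) (nat_lit 5) (nat_lit 268) (nat_lit 265) (nat_lit 247))))))) (XT.nd (nat_lit 858) (nat_lit 4408) (nat_lit 0) (XT.nd (nat_lit 390) (nat_lit 1140) (nat_lit 0) (XT.nd (nat_lit 156) (nat_lit 456) (nat_lit 0) (XT.nd (nat_lit 78) (nat_lit 0) (nat_lit 0) (XT.lf (nat_lit 0) (nat_lit 224731638) (nat_lit 456) (nat_lit 2722140577) (nat_lit 532) (nat_lit 3723918107)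 (nat_lit 220) (nat_lit 5) (nat_lit 226) (nat_lit 5) (nat_lit 227) (nat_lit 5) (nat_lit 269) (nat_lit 265) (nat_lit 246)) (XT.lf (nat_lit 76) (nat_lit 197302990) (nat_lit 0) (nat_lit 2054033379) (nat_lit 532) (nat_lit 4455913266) (nat_lit 221) (nat_lit 5) (nat_lit 220) (nat_lit 5) (nat_lit 227) (nat_lit 5) (nat_lit 270) (nat_lit 265) (nat_lit 245))) (XT.nd (nat_lit 78) (nat_lit 456) (nat_lit 0) (XT.lf (nat_lit 76) (nat_lit 3216241724) (nat_lit 0) (nat_lit 1073591766) (nat_lit 532) (nat_lit 2456773858) (nat_lit 221) (nat_lit 5) (nat_lit 220) (nat_lit 5) (nat_lit 227) (nat_lit 5) (nat_lit 271) (nat_lit 265) (nat_lit 244)) (XT.nd (nat_lit 78) (nat_lit 456) (nat_lit 0) (XT.lf (nat_lit 76) (nat_lit 6283137597) (nat_lit 0) (nat_lit 32178961) (nat_lit 532) (nat_lit 474381923) (nat_lit 221) (nat_lit 5) (nat_lit 220) (nat_lit 5) (nat_lit 227) (nat_lit 5) (nat_lit 272) (nat_lit 265) (nat_lit 243)) (XT.lf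 (nat_lit 0) (nat_lit 1499544458) (nat_lit 532) (nat_lit 4245562678) (nat_lit 608) (nat_lit 1089952499) (nat_lit 214) (nat_lit 5) (nat_lit 221) (nat_lit 5) (nat_lit 222) (nat_lit 5) (nat_lit 273) (nat_lit 265) (nat_lit 242))))) (XT.nd (nat_lit 234) (nat_lit 532) (nat_lit 0) (XT.nd (nat_lit 78) (nat_lit 608) (nat_lit 0) (XT.lf (nat_lit 0) (nat_lit 3457596648) (nat_lit 532) (nat_lit 1143297431) (nat_lit 608) (nat_lit 2283013179) (nat_lit 214) (nat_lit 5) (nat_lit 221) (nat_lit 5) (nat_lit 222) (nat_lit 5) (nat_lit 274) (nat_lit 265) (nat_lit 241)) (XT.nd (nat_lit 78) (nat_lit 608) (nat_lit 0) (XT.lf (nat_lit 76) (nat_lit 2047896937) (nat_lit 0) (nat_lit 3377206387) (nat_lit 608) (nat_lit 1510886682) (nat_lit 215) (nat_lit 5) (nat_lit 214) (nat_lit 5) (nat_lit 222) (nat_lit 5) (nat_lit 275) (nat_lit 265) (nat_lit 240)) (XT.lf (nat_lit 0) (nat_lit 396316222) (nat_lit 608) (nat_lit 1680883162) (nat_lit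 684) (nat_lit 4914277053) (nat_lit 206) (nat_lit 5) (nat_lit 214) (nat_lit 5) (nat_lit 215) (nat_lit 5) (nat_lit 276) (nat_lit 265) (nat_lit 239)))) (XT.nd (nat_lit 78) (nat_lit 532) (nat_lit 0) (XT.lf (nat_lit 76) (nat_lit 1594719425) (nat_lit 0) (nat_lit 684640186) (nat_lit 684) (nat_lit 4770615704) (nat_lit 207) (nat_lit 5) (nat_lit 206) (nat_lit 5) (nat_lit 215) (nat_lit 5) (nat_lit 277) (nat_lit 265) (nat_lit 238)) (XT.nd (nat_lit 78) (nat_lit 608) (nat_lit 0) (XT.lf (nat_lit 0) (nat_lit 4178622823) (nat_lit 608) (nat_lit 2160007685) (nat_lit 76) (nat_lit 773065422) (nat_lit 207) (nat_lit 5) (nat_lit 215) (nat_lit 5) (nat_lit 208) (nat_lit 5) (nat_lit 278) (nat_lit 265) (nat_lit 237)) (XT.lf (nat_lit 0) (nat_lit 1206236307) (nat_lit 608) (nat_lit 4884263753) (nat_lit 684) (nat_lit 1086350112) (nat_lit 199) (nat_lit 5) (nat_lit 207) (nat_lit 5) (nat_lit 208) (nat_lit 5) (nat_lit 279) (nat_lit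 265) (nat_lit 236)))))) (XT.nd (nat_lit 390) (nat_lit 2812) (nat_lit 0) (XT.nd (nat_lit 156) (nat_lit 836) (nat_lit 0) (XT.nd (nat_lit 78) (nat_lit 684) (nat_lit 0) (XT.lf (nat_lit 0) (nat_lit 759702395) (nat_lit 684) (nat_lit 2579274515) (nat_lit 76) (nat_lit 3906188163) (nat_lit 198) (nat_lit 5) (nat_lit 207) (nat_lit 5) (nat_lit 199) (nat_lit 5) (nat_lit 280) (nat_lit 265) (nat_lit 235)) (XT.lf (nat_lit 0) (nat_lit 875811340) (nat_lit 684) (nat_lit 1711539237) (nat_lit 760) (nat_lit 4729644491) (nat_lit 189) (nat_lit 5) (nat_lit 198) (nat_lit 5) (nat_lit 199) (nat_lit 5) (nat_lit 281) (nat_lit 265) (nat_lit 234))) (XT.nd (nat_lit 78) (nat_lit 836) (nat_lit 0) (XT.lf (nat_lit 0) (nat_lit 4436904370) (nat_lit 760) (nat_lit 2948728006) (nat_lit 76) (nat_lit 6558395) (nat_lit 189) (nat_lit 5) (nat_lit 199) (nat_lit 5) (nat_lit 190) (nat_lit 5) (nat_lit 282) (nat_lit 265) (nat_lit 233)) (XT.nd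 (nat_lit 78) (nat_lit 76) (nat_lit 0) (XT.lf (nat_lit 0) (nat_lit 598542927) (nat_lit 760) (nat_lit 5708928322) (nat_lit 836) (nat_lit 1163421896) (nat_lit 179) (nat_lit 5) (nat_lit 189) (nat_lit 5) (nat_lit 190) (nat_lit 5) (nat_lit 283) (nat_lit 265) (nat_lit 232)) (XT.lf (nat_lit 0) (nat_lit 642264418) (nat_lit 836) (nat_lit 3290824366) (nat_lit 76) (nat_lit 3619673897) (nat_lit 178) (nat_lit 5) (nat_lit 189) (nat_lit 5) (nat_lit 179) (nat_lit 5) (nat_lit 284) (nat_lit 265) (nat_lit 231))))) (XT.nd (nat_lit 234) (nat_lit 1064) (nat_lit 0) (XT.nd (nat_lit 78) (nat_lit 912) (nat_lit 0) (XT.lf (nat_lit 0) (nat_lit 349183258) (nat_lit 836) (nat_lit 2077869097) (nat_lit 912) (nat_lit 5211439153) (nat_lit 167) (nat_lit 5) (nat_lit 178) (nat_lit 5) (nat_lit 179) (nat_lit 5) (nat_lit 285) (nat_lit 265) (nat_lit 230)) (XT.nd (nat_lit 78) (nat_lit 912) (nat_lit 0) (XT.lf (nat_lit 0) (nat_lit 4122024896)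 (nat_lit 836) (nat_lit 122729894) (nat_lit 912) (nat_lit 3482848724) (nat_lit 167) (nat_lit 5) (nat_lit 178) (nat_lit 5) (nat_lit 179) (nat_lit 5) (nat_lit 286) (nat_lit 265) (nat_lit 229)) (XT.lf (nat_lit 0) (nat_lit 128596560) (nat_lit 912) (nat_lit 5955608327) (nat_lit 988) (nat_lit 1736354333) (nat_lit 155) (nat_lit 5) (nat_lit 167) (nat_lit 5) (nat_lit 168) (nat_lit 5) (nat_lit 287) (nat_lit 265) (nat_lit 228)))) (XT.nd (nat_lit 78) (nat_lit 988) (nat_lit 0) (XT.lf (nat_lit 0) (nat_lit 47515827) (nat_lit 988) (nat_lit 3913849359) (nat_lit 76) (nat_lit 3955510453) (nat_lit 154) (nat_lit 5) (nat_lit 167) (nat_lit 5) (nat_lit 155) (nat_lit 5) (nat_lit 288) (nat_lit 265) (nat_lit 227)) (XT.nd (nat_lit 78) (nat_lit 988) (nat_lit 0) (XT.lf (nat_lit 0) (nat_lit 1799727663) (nat_lit 988) (nat_lit 83437781) (nat_lit 76) (nat_lit 6134079601) (nat_lit 154) (nat_lit 5) (nat_lit 167) (nat_lit 5) (nat_lit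 155) (nat_lit 5) (nat_lit 289) (nat_lit 265) (nat_lit 226)) (XT.lf (nat_lit 0) (nat_lit 3596043741) (nat_lit 1064) (nat_lit 4228715620) (nat_lit 76) (nat_lit 296286039) (nat_lit 141) (nat_lit 5) (nat_lit 155) (nat_lit 5) (nat_lit 142) (nat_lit 5) (nat_lit 290) (nat_lit 265) (nat_lit 225))))))))
noncomputable def xc127 : XT := (XT.nd (nat_lit 1716) (nat_lit 2736) (nat_lit 0) (XT.nd (nat_lit 858) (nat_lit 2128) (nat_lit 0) (XT.nd (nat_lit 390) (nat_lit 1520) (nat_lit 0) (XT.nd (nat_lit 156) (nat_lit 608) (nat_lit 0) (XT.nd (nat_lit 78) (nat_lit 1064) (nat_lit 0) (XT.lf (nat_lit 0) (nat_lit 5418004911) (nat_lit 1064) (nat_lit 301315250) (nat_lit 76) (nat_lit 2509648103) (nat_lit 141) (nat_lit 5) (nat_lit 155) (nat_lit 5) (nat_lit 142) (nat_lit 5) (nat_lit 291) (nat_lit 265) (nat_lit 224)) (XT.lf (nat_lit 0) (nat_lit 3775039734) (nat_lit 1064) (nat_lit 3509523181) (nat_lit 1140) (nat_lit 1056024232)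 (nat_lit 127) (nat_lit 5) (nat_lit 141) (nat_lit 5) (nat_lit 142) (nat_lit 5) (nat_lit 292) (nat_lit 265) (nat_lit 223))) (XT.nd (nat_lit 78) (nat_lit 532) (nat_lit 0) (XT.lf (nat_lit 0) (nat_lit 693966847) (nat_lit 1140) (nat_lit 526033974) (nat_lit 76) (nat_lit 7236772446) (nat_lit 126) (nat_lit 5) (nat_lit 141) (nat_lit 5) (nat_lit 127) (nat_lit 5) (nat_lit 293) (nat_lit 265) (nat_lit 222)) (XT.nd (nat_lit 78) (nat_lit 0) (nat_lit 0) (XT.lf (nat_lit 0) (nat_lit 2477108427) (nat_lit 608) (nat_lit 4934396265) (nat_lit 76) (nat_lit 1164713530) (nat_lit 119) (nat_lit 5) (nat_lit 127) (nat_lit 5) (nat_lit 120) (nat_lit 5) (nat_lit 294) (nat_lit 265) (nat_lit 221)) (XT.lf (nat_lit 0) (nat_lit 4287448056) (nat_lit 608) (nat_lit 808705234) (nat_lit 76) (nat_lit 3604021145) (nat_lit 119) (nat_lit 5) (nat_lit 127) (nat_lit 5) (nat_lit 120) (nat_lit 5) (nat_lit 295) (nat_lit 265) (nat_lit 220)))))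 (XT.nd (nat_lit 234) (nat_lit 456) (nat_lit 0) (XT.nd (nat_lit 78) (nat_lit 608) (nat_lit 0) (XT.lf (nat_lit 0) (nat_lit 3466672726) (nat_lit 456) (nat_lit 2676282987) (nat_lit 532) (nat_lit 2685302861) (nat_lit 113) (nat_lit 5) (nat_lit 119) (nat_lit 5) (nat_lit 120) (nat_lit 5) (nat_lit 296) (nat_lit 265) (nat_lit 219)) (XT.nd (nat_lit 78) (nat_lit 608) (nat_lit 0) (XT.lf (nat_lit 0) (nat_lit 7845567744) (nat_lit 456) (nat_lit 175100912) (nat_lit 532) (nat_lit 940651422) (nat_lit 113) (nat_lit 5) (nat_lit 119) (nat_lit 5) (nat_lit 120) (nat_lit 5) (nat_lit 297) (nat_lit 265) (nat_lit 218)) (XT.lf (nat_lit 0) (nat_lit 853615952) (nat_lit 608) (nat_lit 5849990686) (nat_lit 76) (nat_lit 2394223761) (nat_lit 105) (nat_lit 5) (nat_lit 113) (nat_lit 5) (nat_lit 106) (nat_lit 5) (nat_lit 298) (nat_lit 265) (nat_lit 217)))) (XT.nd (nat_lit 78) (nat_lit 456) (nat_lit 0) (XT.lf (nat_lit 0) (nat_lit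 2655775206) (nat_lit 608) (nat_lit 1526018503) (nat_lit 76) (nat_lit 5057293743) (nat_lit 105) (nat_lit 5) (nat_lit 113) (nat_lit 5) (nat_lit 106) (nat_lit 5) (nat_lit 299) (nat_lit 265) (nat_lit 216)) (XT.nd (nat_lit 78) (nat_lit 0) (nat_lit 0) (XT.lf (nat_lit 0) (nat_lit 2944377549) (nat_lit 456) (nat_lit 1556951916) (nat_lit 532) (nat_lit 4883689274) (nat_lit 99) (nat_lit 5) (nat_lit 105) (nat_lit 5) (nat_lit 106) (nat_lit 5) (nat_lit 300) (nat_lit 265) (nat_lit 215)) (XT.lf (nat_lit 0) (nat_lit 6390588771) (nat_lit 532) (nat_lit 2007463602) (nat_lit 76) (nat_lit 1137738479) (nat_lit 99) (nat_lit 5) (nat_lit 106) (nat_lit 5) (nat_lit 100) (nat_lit 5) (nat_lit 301) (nat_lit 265) (nat_lit 214)))))) (XT.nd (nat_lit 390) (nat_lit 836) (nat_lit 0) (XT.nd (nat_lit 156) (nat_lit 760) (nat_lit 0) (XT.nd (nat_lit 78) (nat_lit 76) (nat_lit 0) (XT.lf (nat_lit 0) (nat_lit 2552727668) (nat_lit 456) (nat_lit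 5786619790) (nat_lit 532) (nat_lit 1351763770) (nat_lit 93) (nat_lit 5) (nat_lit 99) (nat_lit 5) (nat_lit 100) (nat_lit 5) (nat_lit 302) (nat_lit 265) (nat_lit 213)) (XT.lf (nat_lit 0) (nat_lit 469381107) (nat_lit 532) (nat_lit 2605392050) (nat_lit 76) (nat_lit 6776771459) (nat_lit 92) (nat_lit 5) (nat_lit 99) (nat_lit 5) (nat_lit 93) (nat_lit 5) (nat_lit 303) (nat_lit 265) (nat_lit 212))) (XT.nd (nat_lit 78) (nat_lit 380) (nat_lit 0) (XT.lf (nat_lit 0) (nat_lit 2050587569) (nat_lit 380) (nat_lit 251289731) (nat_lit 456) (nat_lit 7715096044) (nat_lit 87) (nat_lit 5) (nat_lit 92) (nat_lit 5) (nat_lit 93) (nat_lit 5) (nat_lit 304) (nat_lit 265) (nat_lit 211)) (XT.nd (nat_lit 78) (nat_lit 380) (nat_lit 0) (XT.lf (nat_lit 0) (nat_lit 4206259494) (nat_lit 456) (nat_lit 3353077968) (nat_lit 76) (nat_lit 2627617648) (nat_lit 87) (nat_lit 5) (nat_lit 93) (nat_lit 5) (nat_lit 88) (nat_lit 5) (nat_lit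 305) (nat_lit 265) (nat_lit 210)) (XT.lf (nat_lit 0) (nat_lit 1383965997) (nat_lit 380) (nat_lit 4765425441) (nat_lit 456) (nat_lit 4213291010) (nat_lit 82) (nat_lit 5) (nat_lit 87) (nat_lit 5) (nat_lit 88) (nat_lit 5) (nat_lit 306) (nat_lit 265) (nat_lit 209))))) (XT.nd (nat_lit 234) (nat_lit 380) (nat_lit 0) (XT.nd (nat_lit 78) (nat_lit 456) (nat_lit 0) (XT.lf (nat_lit 0) (nat_lit 6293059004) (nat_lit 380) (nat_lit 1858066988) (nat_lit 456) (nat_lit 2392638267) (nat_lit 82) (nat_lit 5) (nat_lit 87) (nat_lit 5) (nat_lit 88) (nat_lit 5) (nat_lit 307) (nat_lit 265) (nat_lit 208)) (XT.nd (nat_lit 78) (nat_lit 76) (nat_lit 0) (XT.lf (nat_lit 0) (nat_lit 580871766) (nat_lit 380) (nat_lit 9615926747) (nat_lit 456) (nat_lit 534052666) (nat_lit 77) (nat_lit 5) (nat_lit 82) (nat_lit 5) (nat_lit 83) (nat_lit 5) (nat_lit 308) (nat_lit 265) (nat_lit 207)) (XT.lf (nat_lit 0) (nat_lit 1382658707) (nat_lit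 456) (nat_lit 5348856580) (nat_lit 76) (nat_lit 4190842407) (nat_lit 76) (nat_lit 5) (nat_lit 82) (nat_lit 5) (nat_lit 77) (nat_lit 5) (nat_lit 309) (nat_lit 265) (nat_lit 206)))) (XT.nd (nat_lit 78) (nat_lit 380) (nat_lit 0) (XT.lf (nat_lit 0) (nat_lit 3314639597) (nat_lit 456) (nat_lit 446885855) (nat_lit 76) (nat_lit 7358951923) (nat_lit 76) (nat_lit 5) (nat_lit 82) (nat_lit 5) (nat_lit 77) (nat_lit 5) (nat_lit 310) (nat_lit 265) (nat_lit 205)) (XT.nd (nat_lit 78) (nat_lit 0) (nat_lit 0) (XT.lf (nat_lit 0) (nat_lit 4656209088) (nat_lit 380) (nat_lit 662548672) (nat_lit 456) (nat_lit 6005436832) (nat_lit 71) (nat_lit 5) (nat_lit 76) (nat_lit 5) (nat_lit 77) (nat_lit 5) (nat_lit 311) (nat_lit 265) (nat_lit 204)) (XT.lf (nat_lit 0) (nat_lit 7381769466) (nat_lit 456) (nat_lit 1674039442) (nat_lit 76) (nat_lit 2478328294) (nat_lit 71) (nat_lit 5) (nat_lit 77) (nat_lit 5) (nat_lit 72) (nat_lit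 5) (nat_lit 312) (nat_lit 265) (nat_lit 203))))))) (XT.nd (nat_lit 858) (nat_lit 1140) (nat_lit 0) (XT.nd (nat_lit 390) (nat_lit 608) (nat_lit 0) (XT.nd (nat_lit 156) (nat_lit 684) (nat_lit 0) (XT.nd (nat_lit 78) (nat_lit 0) (nat_lit 0) (XT.lf (nat_lit 0) (nat_lit 3495104768) (nat_lit 304) (nat_lit 6022498998) (nat_lit 380) (nat_lit 2232521087) (nat_lit 67) (nat_lit 5) (nat_lit 71) (nat_lit 5) (nat_lit 72) (nat_lit 5) (nat_lit 313) (nat_lit 265) (nat_lit 202)) (XT.lf (nat_lit 0) (nat_lit 8817732560) (nat_lit 304) (nat_lit 2887966372) (nat_lit 380) (nat_lit 267320185) (nat_lit 67) (nat_lit 5) (nat_lit 71) (nat_lit 5) (nat_lit 72) (nat_lit 5) (nat_lit 314) (nat_lit 265) (nat_lit 201))) (XT.nd (nat_lit 78) (nat_lit 304) (nat_lit 0) (XT.lf (nat_lit 0) (nat_lit 1717946763) (nat_lit 380) (nat_lit 10120216627) (nat_lit 76) (nat_lit 364136807) (nat_lit 62) (nat_lit 5) (nat_lit 67) (nat_lit 5) (nat_lit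 63) (nat_lit 5) (nat_lit 315) (nat_lit 265) (nat_lit 200)) (XT.nd (nat_lit 78) (nat_lit 304) (nat_lit 0) (XT.lf (nat_lit 0) (nat_lit 3790356107) (nat_lit 380) (nat_lit 4963775539) (nat_lit 76) (nat_lit 3683326342) (nat_lit 62) (nat_lit 5) (nat_lit 67) (nat_lit 5) (nat_lit 63) (nat_lit 5) (nat_lit 316) (nat_lit 265) (nat_lit 199)) (XT.lf (nat_lit 0) (nat_lit 318653705) (nat_lit 304) (nat_lit 5582343098) (nat_lit 380) (nat_lit 6779456404) (nat_lit 58) (nat_lit 5) (nat_lit 62) (nat_lit 5) (nat_lit 63) (nat_lit 5) (nat_lit 317) (nat_lit 265) (nat_lit 198))))) (XT.nd (nat_lit 234) (nat_lit 304) (nat_lit 0) (XT.nd (nat_lit 78) (nat_lit 304) (nat_lit 0) (XT.lf (nat_lit 0) (nat_lit 5826727588) (nat_lit 304) (nat_lit 2271803623) (nat_lit 380) (nat_lit 4831562423) (nat_lit 58) (nat_lit 5) (nat_lit 62) (nat_lit 5) (nat_lit 63) (nat_lit 5) (nat_lit 318) (nat_lit 265) (nat_lit 197)) (XT.nd (nat_lit 78)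 (nat_lit 304) (nat_lit 0) (XT.lf (nat_lit 0) (nat_lit 10347079743) (nat_lit 380) (nat_lit 1732451918) (nat_lit 76) (nat_lit 1108199734) (nat_lit 58) (nat_lit 5) (nat_lit 63) (nat_lit 5) (nat_lit 59) (nat_lit 5) (nat_lit 319) (nat_lit 265) (nat_lit 196)) (XT.lf (nat_lit 0) (nat_lit 3818272070) (nat_lit 304) (nat_lit 8878910730) (nat_lit 380) (nat_lit 754951541) (nat_lit 54) (nat_lit 5) (nat_lit 58) (nat_lit 5) (nat_lit 59) (nat_lit 5) (nat_lit 320) (nat_lit 265) (nat_lit 195)))) (XT.nd (nat_lit 78) (nat_lit 228) (nat_lit 0) (XT.lf (nat_lit 0) (nat_lit 1358813058) (nat_lit 380) (nat_lit 4200038624) (nat_lit 76) (nat_lit 8165491033) (nat_lit 53) (nat_lit 5) (nat_lit 58) (nat_lit 5) (nat_lit 54) (nat_lit 5) (nat_lit 321) (nat_lit 265) (nat_lit 194)) (XT.nd (nat_lit 78) (nat_lit 0) (nat_lit 0) (XT.lf (nat_lit 0) (nat_lit 1383745488) (nat_lit 228) (nat_lit 2126115056) (nat_lit 304) (nat_lit 10495015230)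 (nat_lit 50) (nat_lit 5) (nat_lit 53) (nat_lit 5) (nat_lit 54) (nat_lit 5) (nat_lit 322) (nat_lit 265) (nat_lit 193)) (XT.lf (nat_lit 0) (nat_lit 5757879488) (nat_lit 304) (nat_lit 7118331966) (nat_lit 76) (nat_lit 1416692586) (nat_lit 50) (nat_lit 5) (nat_lit 54) (nat_lit 5) (nat_lit 51) (nat_lit 5) (nat_lit 323) (nat_lit 265) (nat_lit 192)))))) (XT.nd (nat_lit 468) (nat_lit 532) (nat_lit 0) (XT.nd (nat_lit 234) (nat_lit 304) (nat_lit 0) (XT.nd (nat_lit 78) (nat_lit 304) (nat_lit 0) (XT.lf (nat_lit 0) (nat_lit 8071144964) (nat_lit 304) (nat_lit 1503490059) (nat_lit 76) (nat_lit 5015054841) (nat_lit 50) (nat_lit 5) (nat_lit 54) (nat_lit 5) (nat_lit 51) (nat_lit 5) (nat_lit 324) (nat_lit 265) (nat_lit 191)) (XT.nd (nat_lit 78) (nat_lit 0) (nat_lit 0) (XT.lf (nat_lit 0) (nat_lit 4333297365) (nat_lit 304) (nat_lit 6139597694) (nat_lit 380) (nat_lit 4421961009) (nat_lit 46) (nat_lit 5) (nat_lit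 50) (nat_lit 5) (nat_lit 51) (nat_lit 5) (nat_lit 325) (nat_lit 265) (nat_lit 190)) (XT.lf (nat_lit 0) (nat_lit 10345254996) (nat_lit 304) (nat_lit 2594419003) (nat_lit 380) (nat_lit 2269761938) (nat_lit 46) (nat_lit 5) (nat_lit 50) (nat_lit 5) (nat_lit 51) (nat_lit 5) (nat_lit 326) (nat_lit 265) (nat_lit 189)))) (XT.nd (nat_lit 78) (nat_lit 76) (nat_lit 0) (XT.lf (nat_lit 0) (nat_lit 982660428) (nat_lit 228) (nat_lit 14495764493) (nat_lit 304) (nat_lit 55135793) (nat_lit 43) (nat_lit 5) (nat_lit 46) (nat_lit 5) (nat_lit 47) (nat_lit 5) (nat_lit 327) (nat_lit 265) (nat_lit 188)) (XT.nd (nat_lit 78) (nat_lit 0) (nat_lit 0) (XT.lf (nat_lit 0) (nat_lit 2236231628) (nat_lit 304) (nat_lit 8839533783) (nat_lit 76) (nat_lit 4789433660) (nat_lit 42) (nat_lit 5) (nat_lit 46) (nat_lit 5) (nat_lit 43) (nat_lit 5) (nat_lit 328) (nat_lit 265) (nat_lit 187)) (XT.lf (nat_lit 0) (nat_lit 4574305739) (nat_lit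 304) (nat_lit 2987125054) (nat_lit 76) (nat_lit 8646009811) (nat_lit 42) (nat_lit 5) (nat_lit 46) (nat_lit 5) (nat_lit 43) (nat_lit 5) (nat_lit 329) (nat_lit 265) (nat_lit 186))))) (XT.nd (nat_lit 234) (nat_lit 304) (nat_lit 0) (XT.nd (nat_lit 78) (nat_lit 0) (nat_lit 0) (XT.lf (nat_lit 0) (nat_lit 3071913756) (nat_lit 228) (nat_lit 3919820773) (nat_lit 304) (nat_lit 9567979859) (nat_lit 39) (nat_lit 5) (nat_lit 42) (nat_lit 5) (nat_lit 43) (nat_lit 5) (nat_lit 330) (nat_lit 265) (nat_lit 185)) (XT.nd (nat_lit 78) (nat_lit 0) (nat_lit 0) (XT.lf (nat_lit 0) (nat_lit 9345353784) (nat_lit 228) (nat_lit 146496644) (nat_lit 304) (nat_lit 7430441203) (nat_lit 39) (nat_lit 5) (nat_lit 42) (nat_lit 5) (nat_lit 43) (nat_lit 5) (nat_lit 331) (nat_lit 265) (nat_lit 184)) (XT.lf (nat_lit 0) (nat_lit 12083423601) (nat_lit 304) (nat_lit 1553011822) (nat_lit 76) (nat_lit 3658856155) (nat_lit 39) (nat_lit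 5) (nat_lit 43) (nat_lit 5) (nat_lit 40) (nat_lit 5) (nat_lit 332) (nat_lit 265) (nat_lit 183)))) (XT.nd (nat_lit 78) (nat_lit 76) (nat_lit 0) (XT.lf (nat_lit 0) (nat_lit 4714695597) (nat_lit 228) (nat_lit 10065889633) (nat_lit 304) (nat_lit 2898098923) (nat_lit 36) (nat_lit 5) (nat_lit 39) (nat_lit 5) (nat_lit 40) (nat_lit 5) (nat_lit 333) (nat_lit 265) (nat_lit 182)) (XT.nd (nat_lit 78) (nat_lit 76) (nat_lit 0) (XT.lf (nat_lit 0) (nat_lit 11175052319) (nat_lit 228) (nat_lit 6380651746) (nat_lit 304) (nat_lit 517999931) (nat_lit 36) (nat_lit 5) (nat_lit 39) (nat_lit 5) (nat_lit 40) (nat_lit 5) (nat_lit 334) (nat_lit 265) (nat_lit 181)) (XT.lf (nat_lit 0) (nat_lit 1877461162) (nat_lit 304) (nat_lit 696764189) (nat_lit 76) (nat_lit 15906375497) (nat_lit 35) (nat_lit 5) (nat_lit 39) (nat_lit 5) (nat_lit 36) (nat_lit 5) (nat_lit 335) (nat_lit 265) (nat_lit 180))))))))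
noncomputable def xc128 : XT := (XT.nd (nat_lit 1716) (nat_lit 608) (nat_lit 0) (XT.nd (nat_lit 858) (nat_lit 532) (nat_lit 0) (XT.nd (nat_lit 390) (nat_lit 456) (nat_lit 0) (XT.nd (nat_lit 156) (nat_lit 152) (nat_lit 0) (XT.nd (nat_lit 78) (nat_lit 0) (nat_lit 0) (XT.lf (nat_lit 0) (nat_lit 4385550256) (nat_lit 304) (nat_lit 13139261860) (nat_lit 76) (nat_lit 1373237007) (nat_lit 32) (nat_lit 5) (nat_lit 36) (nat_lit 5) (nat_lit 33) (nat_lit 5) (nat_lit 336) (nat_lit 265) (nat_lit 179)) (XT.lf (nat_lit 0) (nat_lit 6983887420) (nat_lit 304) (nat_lit 6957343799) (nat_lit 76) (nat_lit 5386372129) (nat_lit 32) (nat_lit 5) (nat_lit 36) (nat_lit 5) (nat_lit 33) (nat_lit 5) (nat_lit 337) (nat_lit 265) (nat_lit 178))) (XT.nd (nat_lit 78) (nat_lit 152) (nat_lit 0) (XT.lf (nat_lit 0) (nat_lit 9643099362) (nat_lit 304) (nat_lit 615468420) (nat_lit 76) (nat_lit 9512020391) (nat_lit 32) (nat_lit 5) (nat_lit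 36) (nat_lit 5) (nat_lit 33) (nat_lit 5) (nat_lit 338) (nat_lit 265) (nat_lit 177)) (XT.nd (nat_lit 78) (nat_lit 0) (nat_lit 0) (XT.lf (nat_lit 0) (nat_lit 6009166197) (nat_lit 152) (nat_lit 6414107249) (nat_lit 228) (nat_lit 7802384311) (nat_lit 30) (nat_lit 5) (nat_lit 32) (nat_lit 5) (nat_lit 33) (nat_lit 5) (nat_lit 339) (nat_lit 265) (nat_lit 176)) (XT.lf (nat_lit 0) (nat_lit 12820641574) (nat_lit 152) (nat_lit 2456095409) (nat_lit 228) (nat_lit 5417975810) (nat_lit 30) (nat_lit 5) (nat_lit 32) (nat_lit 5) (nat_lit 33) (nat_lit 5) (nat_lit 340) (nat_lit 265) (nat_lit 175))))) (XT.nd (nat_lit 234) (nat_lit 152) (nat_lit 0) (XT.nd (nat_lit 78) (nat_lit 304) (nat_lit 0) (XT.lf (nat_lit 0) (nat_lit 18215451654) (nat_lit 228) (nat_lit 1381186067) (nat_lit 76) (nat_lit 1581241365) (nat_lit 30) (nat_lit 5) (nat_lit 33) (nat_lit 5) (nat_lit 31) (nat_lit 5) (nat_lit 341) (nat_lit 265) (nat_lit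 174)) (XT.nd (nat_lit 78) (nat_lit 76) (nat_lit 0) (XT.lf (nat_lit 0) (nat_lit 5363301848) (nat_lit 228) (nat_lit 15939431538) (nat_lit 304) (nat_lit 371022989) (nat_lit 27) (nat_lit 5) (nat_lit 30) (nat_lit 5) (nat_lit 31) (nat_lit 5) (nat_lit 342) (nat_lit 265) (nat_lit 173)) (XT.lf (nat_lit 0) (nat_lit 2251945672) (nat_lit 304) (nat_lit 9891509415) (nat_lit 76) (nat_lit 10040458721) (nat_lit 26) (nat_lit 5) (nat_lit 30) (nat_lit 5) (nat_lit 27) (nat_lit 5) (nat_lit 343) (nat_lit 265) (nat_lit 172)))) (XT.nd (nat_lit 78) (nat_lit 152) (nat_lit 0) (XT.lf (nat_lit 0) (nat_lit 4931176676) (nat_lit 304) (nat_lit 3306607455) (nat_lit 76) (nat_lit 14471956500) (nat_lit 26) (nat_lit 5) (nat_lit 30) (nat_lit 5) (nat_lit 27) (nat_lit 5) (nat_lit 344) (nat_lit 265) (nat_lit 171)) (XT.nd (nat_lit 78) (nat_lit 0) (nat_lit 0) (XT.lf (nat_lit 0) (nat_lit 3522304497) (nat_lit 152) (nat_lit 4187805140) (nat_lit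 228) (nat_lit 15540677905) (nat_lit 24) (nat_lit 5) (nat_lit 26) (nat_lit 5) (nat_lit 27) (nat_lit 5) (nat_lit 345) (nat_lit 265) (nat_lit 170)) (XT.lf (nat_lit 0) (nat_lit 10591578009) (nat_lit 228) (nat_lit 13205803039) (nat_lit 76) (nat_lit 10134095) (nat_lit 24) (nat_lit 5) (nat_lit 27) (nat_lit 5) (nat_lit 25) (nat_lit 5) (nat_lit 346) (nat_lit 265) (nat_lit 169)))))) (XT.nd (nat_lit 390) (nat_lit 380) (nat_lit 0) (XT.nd (nat_lit 156) (nat_lit 0) (nat_lit 0) (XT.nd (nat_lit 78) (nat_lit 152) (nat_lit 0) (XT.lf (nat_lit 0) (nat_lit 13586976680) (nat_lit 228) (nat_lit 6550683962) (nat_lit 76) (nat_lit 4242482939) (nat_lit 24) (nat_lit 5) (nat_lit 27) (nat_lit 5) (nat_lit 25) (nat_lit 5) (nat_lit 347) (nat_lit 265) (nat_lit 168)) (XT.lf (nat_lit 0) (nat_lit 288576242) (nat_lit 152) (nat_lit 16372864972) (nat_lit 228) (nat_lit 8308856451) (nat_lit 22) (nat_lit 5) (nat_lit 24) (nat_lit 5) (nat_lit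 25) (nat_lit 5) (nat_lit 348) (nat_lit 265) (nat_lit 167))) (XT.nd (nat_lit 78) (nat_lit 0) (nat_lit 0) (XT.lf (nat_lit 0) (nat_lit 7446360536) (nat_lit 152) (nat_lit 12434552137) (nat_lit 228) (nat_lit 5695682751) (nat_lit 22) (nat_lit 5) (nat_lit 24) (nat_lit 5) (nat_lit 25) (nat_lit 5) (nat_lit 349) (nat_lit 265) (nat_lit 166)) (XT.nd (nat_lit 78) (nat_lit 0) (nat_lit 0) (XT.lf (nat_lit 0) (nat_lit 14798551840) (nat_lit 152) (nat_lit 8385429955) (nat_lit 228) (nat_lit 3017511510) (nat_lit 22) (nat_lit 5) (nat_lit 24) (nat_lit 5) (nat_lit 25) (nat_lit 5) (nat_lit 350) (nat_lit 265) (nat_lit 165)) (XT.lf (nat_lit 0) (nat_lit 22351574398) (nat_lit 152) (nat_lit 4221960360) (nat_lit 228) (nat_lit 272002577) (nat_lit 22) (nat_lit 5) (nat_lit 24) (nat_lit 5) (nat_lit 25) (nat_lit 5) (nat_lit 351) (nat_lit 265) (nat_lit 164))))) (XT.nd (nat_lit 234) (nat_lit 152) (nat_lit 0) (XT.nd (nat_lit 78)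 (nat_lit 0) (nat_lit 0) (XT.lf (nat_lit 0) (nat_lit 2519956779) (nat_lit 228) (nat_lit 24879259263) (nat_lit 76) (nat_lit 108550565) (nat_lit 19) (nat_lit 5) (nat_lit 22) (nat_lit 5) (nat_lit 20) (nat_lit 5) (nat_lit 352) (nat_lit 265) (nat_lit 163)) (XT.nd (nat_lit 78) (nat_lit 0) (nat_lit 0) (XT.lf (nat_lit 0) (nat_lit 5465565062) (nat_lit 228) (nat_lit 18196225019) (nat_lit 76) (nat_lit 4525750356) (nat_lit 19) (nat_lit 5) (nat_lit 22) (nat_lit 5) (nat_lit 20) (nat_lit 5) (nat_lit 353) (nat_lit 265) (nat_lit 162)) (XT.lf (nat_lit 0) (nat_lit 8487625104) (nat_lit 228) (nat_lit 11331683484) (nat_lit 76) (nat_lit 9068775017) (nat_lit 19) (nat_lit 5) (nat_lit 22) (nat_lit 5) (nat_lit 20) (nat_lit 5) (nat_lit 354) (nat_lit 265) (nat_lit 161)))) (XT.nd (nat_lit 78) (nat_lit 152) (nat_lit 0) (XT.lf (nat_lit 0) (nat_lit 11588777540) (nat_lit 228) (nat_lit 4279636515) (nat_lit 76) (nat_lit 13741594180)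 (nat_lit 19) (nat_lit 5) (nat_lit 22) (nat_lit 5) (nat_lit 20) (nat_lit 5) (nat_lit 355) (nat_lit 265) (nat_lit 160)) (XT.nd (nat_lit 78) (nat_lit 0) (nat_lit 0) (XT.lf (nat_lit 0) (nat_lit 3025108637) (nat_lit 152) (nat_lit 11775702672) (nat_lit 228) (nat_lit 15552261451) (nat_lit 17) (nat_lit 5) (nat_lit 19) (nat_lit 5) (nat_lit 20) (nat_lit 5) (nat_lit 356) (nat_lit 265) (nat_lit 159)) (XT.lf (nat_lit 0) (nat_lit 10619005937) (nat_lit 152) (nat_lit 7522340495) (nat_lit 228) (nat_lit 12976135625) (nat_lit 17) (nat_lit 5) (nat_lit 19) (nat_lit 5) (nat_lit 20) (nat_lit 5) (nat_lit 357) (nat_lit 265) (nat_lit 158))))))) (XT.nd (nat_lit 858) (nat_lit 304) (nat_lit 0) (XT.nd (nat_lit 390) (nat_lit 152) (nat_lit 0) (XT.nd (nat_lit 156) (nat_lit 152) (nat_lit 0) (XT.nd (nat_lit 78) (nat_lit 0) (nat_lit 0) (XT.lf (nat_lit 0) (nat_lit 18423517670) (nat_lit 152) (nat_lit 3147826931) (nat_lit 228) (nat_lit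 10333818173) (nat_lit 17) (nat_lit 5) (nat_lit 19) (nat_lit 5) (nat_lit 20) (nat_lit 5) (nat_lit 358) (nat_lit 265) (nat_lit 157)) (XT.lf (nat_lit 0) (nat_lit 25106795889) (nat_lit 228) (nat_lit 6284332848) (nat_lit 76) (nat_lit 1325284647) (nat_lit 17) (nat_lit 5) (nat_lit 20) (nat_lit 5) (nat_lit 18) (nat_lit 4) (nat_lit 359) (nat_lit 265) (nat_lit 156))) (XT.nd (nat_lit 78) (nat_lit 76) (nat_lit 0) (XT.lf (nat_lit 0) (nat_lit 1102775056) (nat_lit 76) (nat_lit 27677108632) (nat_lit 152) (nat_lit 4771186237) (nat_lit 16) (nat_lit 5) (nat_lit 17) (nat_lit 5) (nat_lit 18) (nat_lit 4) (nat_lit 360) (nat_lit 265) (nat_lit 155)) (XT.nd (nat_lit 78) (nat_lit 76) (nat_lit 0) (XT.lf (nat_lit 0) (nat_lit 8824004164) (nat_lit 76) (nat_lit 23792565310) (nat_lit 152) (nat_lit 1792609673) (nat_lit 16) (nat_lit 5) (nat_lit 17) (nat_lit 5) (nat_lit 18) (nat_lit 4) (nat_lit 361) (nat_lit 265) (nat_lit 154))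 (XT.lf (nat_lit 0) (nat_lit 1240565704) (nat_lit 152) (nat_lit 18544470963) (nat_lit 76) (nat_lit 15507937649) (nat_lit 15) (nat_lit 5) (nat_lit 17) (nat_lit 5) (nat_lit 16) (nat_lit 5) (nat_lit 362) (nat_lit 265) (nat_lit 153))))) (XT.nd (nat_lit 234) (nat_lit 0) (nat_lit 0) (XT.nd (nat_lit 78) (nat_lit 152) (nat_lit 0) (XT.lf (nat_lit 0) (nat_lit 4319121894) (nat_lit 152) (nat_lit 11325877214) (nat_lit 76) (nat_lit 20558053177) (nat_lit 15) (nat_lit 5) (nat_lit 17) (nat_lit 5) (nat_lit 16) (nat_lit 5) (nat_lit 363) (nat_lit 265) (nat_lit 152)) (XT.nd (nat_lit 78) (nat_lit 152) (nat_lit 0) (XT.lf (nat_lit 0) (nat_lit 7480729167) (nat_lit 152) (nat_lit 3905854568) (nat_lit 76) (nat_lit 25754141484) (nat_lit 15) (nat_lit 5) (nat_lit 17) (nat_lit 5) (nat_lit 16) (nat_lit 5) (nat_lit 364) (nat_lit 265) (nat_lit 151)) (XT.lf (nat_lit 0) (nat_lit 3796157189) (nat_lit 152) (nat_lit 6968483888) (nat_lit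 228) (nat_lit 27341076637) (nat_lit 13) (nat_lit 5) (nat_lit 15) (nat_lit 5) (nat_lit 16) (nat_lit 5) (nat_lit 365) (nat_lit 265) (nat_lit 150)))) (XT.nd (nat_lit 78) (nat_lit 0) (nat_lit 0) (XT.lf (nat_lit 0) (nat_lit 11794751226) (nat_lit 152) (nat_lit 2382849362) (nat_lit 228) (nat_lit 24921156174) (nat_lit 13) (nat_lit 5) (nat_lit 15) (nat_lit 5) (nat_lit 16) (nat_lit 5) (nat_lit 366) (nat_lit 265) (nat_lit 149)) (XT.nd (nat_lit 78) (nat_lit 0) (nat_lit 0) (XT.lf (nat_lit 0) (nat_lit 17706741547) (nat_lit 228) (nat_lit 20125120752) (nat_lit 76) (nat_lit 2289323215) (nat_lit 13) (nat_lit 5) (nat_lit 16) (nat_lit 5) (nat_lit 14) (nat_lit 4) (nat_lit 367) (nat_lit 265) (nat_lit 148)) (XT.lf (nat_lit 0) (nat_lit 21356898573) (nat_lit 228) (nat_lit 12768384264) (nat_lit 76) (nat_lit 7048561994) (nat_lit 13) (nat_lit 5) (nat_lit 16) (nat_lit 5) (nat_lit 14) (nat_lit 4) (nat_lit 368) (nat_lit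 265) (nat_lit 147)))))) (XT.nd (nat_lit 390) (nat_lit 228) (nat_lit 0) (XT.nd (nat_lit 156) (nat_lit 0) (nat_lit 0) (XT.nd (nat_lit 78) (nat_lit 76) (nat_lit 0) (XT.lf (nat_lit 0) (nat_lit 25108355718) (nat_lit 228) (nat_lit 5204462449) (nat_lit 76) (nat_lit 11945523507) (nat_lit 13) (nat_lit 5) (nat_lit 16) (nat_lit 5) (nat_lit 14) (nat_lit 4) (nat_lit 369) (nat_lit 265) (nat_lit 146)) (XT.lf (nat_lit 0) (nat_lit 2624466742) (nat_lit 76) (nat_lit 26365152190) (nat_lit 152) (nat_lit 14385247888) (nat_lit 12) (nat_lit 5) (nat_lit 13) (nat_lit 5) (nat_lit 14) (nat_lit 4) (nat_lit 370) (nat_lit 265) (nat_lit 145))) (XT.nd (nat_lit 78) (nat_lit 0) (nat_lit 0) (XT.lf (nat_lit 0) (nat_lit 10781955770) (nat_lit 76) (nat_lit 22250060615) (nat_lit 152) (nat_lit 11491541388) (nat_lit 12) (nat_lit 5) (nat_lit 13) (nat_lit 5) (nat_lit 14) (nat_lit 4) (nat_lit 371) (nat_lit 265) (nat_lit 144)) (XT.nd (nat_lit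 78) (nat_lit 0) (nat_lit 0) (XT.lf (nat_lit 0) (nat_lit 19171553528) (nat_lit 76) (nat_lit 18016502597) (nat_lit 152) (nat_lit 8518892842) (nat_lit 12) (nat_lit 5) (nat_lit 13) (nat_lit 5) (nat_lit 14) (nat_lit 4) (nat_lit 372) (nat_lit 265) (nat_lit 143)) (XT.lf (nat_lit 0) (nat_lit 27800590734) (nat_lit 76) (nat_lit 13660778909) (nat_lit 152) (nat_lit 5464704790) (nat_lit 12) (nat_lit 5) (nat_lit 13) (nat_lit 5) (nat_lit 14) (nat_lit 4) (nat_lit 373) (nat_lit 265) (nat_lit 142))))) (XT.nd (nat_lit 234) (nat_lit 0) (nat_lit 0) (XT.nd (nat_lit 78) (nat_lit 228) (nat_lit 0) (XT.lf (nat_lit 0) (nat_lit 36676607322) (nat_lit 76) (nat_lit 9179083581) (nat_lit 152) (nat_lit 2326308523) (nat_lit 12) (nat_lit 5) (nat_lit 13) (nat_lit 5) (nat_lit 14) (nat_lit 4) (nat_lit 374) (nat_lit 265) (nat_lit 141)) (XT.nd (nat_lit 78) (nat_lit 152) (nat_lit 0) (XT.lf (nat_lit 0) (nat_lit 881494771) (nat_lit 152)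 (nat_lit 3677104426) (nat_lit 76) (nat_lit 44916962895) (nat_lit 11) (nat_lit 5) (nat_lit 13) (nat_lit 5) (nat_lit 12) (nat_lit 5) (nat_lit 375) (nat_lit 265) (nat_lit 140)) (XT.lf (nat_lit 0) (nat_lit 4177118173) (nat_lit 228) (nat_lit 46370459426) (nat_lit 76) (nat_lit 258521947) (nat_lit 9) (nat_lit 5) (nat_lit 12) (nat_lit 5) (nat_lit 10) (nat_lit 4) (nat_lit 376) (nat_lit 265) (nat_lit 139)))) (XT.nd (nat_lit 78) (nat_lit 0) (nat_lit 0) (XT.lf (nat_lit 0) (nat_lit 7647437426) (nat_lit 228) (nat_lit 39365209539) (nat_lit 76) (nat_lit 5161640239) (nat_lit 9) (nat_lit 5) (nat_lit 12) (nat_lit 5) (nat_lit 10) (nat_lit 4) (nat_lit 377) (nat_lit 265) (nat_lit 138)) (XT.nd (nat_lit 78) (nat_lit 0) (nat_lit 0) (XT.lf (nat_lit 0) (nat_lit 11215257832) (nat_lit 228) (nat_lit 32160881880) (nat_lit 76) (nat_lit 10207587671) (nat_lit 9) (nat_lit 5) (nat_lit 12) (nat_lit 5) (nat_lit 10) (nat_lit 4)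 (nat_lit 378) (nat_lit 265) (nat_lit 137)) (XT.lf (nat_lit 0) (nat_lit 14883696902) (nat_lit 228) (nat_lit 24751181407) (nat_lit 76) (nat_lit 15400773322) (nat_lit 9) (nat_lit 5) (nat_lit 12) (nat_lit 5) (nat_lit 10) (nat_lit 4) (nat_lit 379) (nat_lit 265) (nat_lit 136))))))))
noncomputable def xc129 : XT := (XT.nd (nat_lit 32292) (nat_lit 0) (nat_lit 8588) (XT.nd (nat_lit 858) (nat_lit 152) (nat_lit 0) (XT.nd (nat_lit 390) (nat_lit 0) (nat_lit 0) (XT.nd (nat_lit 156) (nat_lit 76) (nat_lit 0) (XT.nd (nat_lit 78) (nat_lit 0) (nat_lit 0) (XT.lf (nat_lit 0) (nat_lit 18655960069) (nat_lit 228) (nat_lit 17129633624) (nat_lit 76) (nat_lit 20745734928) (nat_lit 9) (nat_lit 5) (nat_lit 12) (nat_lit 5) (nat_lit 10) (nat_lit 4) (nat_lit 380) (nat_lit 265) (nat_lit 135)) (XT.lf (nat_lit 0) (nat_lit 22535343486) (nat_lit 228) (nat_lit 9289578926) (nat_lit 76) (nat_lit 26247142844) (nat_lit 9) (nat_lit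 5) (nat_lit 12) (nat_lit 5) (nat_lit 10) (nat_lit 4) (nat_lit 381) (nat_lit 265) (nat_lit 134))) (XT.nd (nat_lit 78) (nat_lit 76) (nat_lit 0) (XT.lf (nat_lit 0) (nat_lit 26525236904) (nat_lit 228) (nat_lit 1224166779) (nat_lit 76) (nat_lit 31909804124) (nat_lit 9) (nat_lit 5) (nat_lit 12) (nat_lit 5) (nat_lit 10) (nat_lit 4) (nat_lit 382) (nat_lit 265) (nat_lit 133)) (XT.nd (nat_lit 78) (nat_lit 0) (nat_lit 0) (XT.lf (nat_lit 0) (nat_lit 7214429772) (nat_lit 76) (nat_lit 23484046378) (nat_lit 152) (nat_lit 30593586465) (nat_lit 8) (nat_lit 5) (nat_lit 9) (nat_lit 5) (nat_lit 10) (nat_lit 4) (nat_lit 383) (nat_lit 265) (nat_lit 132)) (XT.lf (nat_lit 0) (nat_lit 15921814672) (nat_lit 76) (nat_lit 19081834162) (nat_lit 152) (nat_lit 27970059380) (nat_lit 8) (nat_lit 5) (nat_lit 9) (nat_lit 5) (nat_lit 10) (nat_lit 4) (nat_lit 384) (nat_lit 265) (nat_lit 131))))) (XT.nd (nat_lit 234) (nat_lit 0)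 (nat_lit 0) (XT.nd (nat_lit 78) (nat_lit 0) (nat_lit 0) (XT.lf (nat_lit 0) (nat_lit 24881232994) (nat_lit 76) (nat_lit 14551282128) (nat_lit 152) (nat_lit 25273458929) (nat_lit 8) (nat_lit 5) (nat_lit 9) (nat_lit 5) (nat_lit 10) (nat_lit 4) (nat_lit 385) (nat_lit 265) (nat_lit 130)) (XT.nd (nat_lit 78) (nat_lit 0) (nat_lit 0) (XT.lf (nat_lit 0) (nat_lit 34100513357) (nat_lit 76) (nat_lit 9888431539) (nat_lit 152) (nat_lit 22501428860) (nat_lit 8) (nat_lit 5) (nat_lit 9) (nat_lit 5) (nat_lit 10) (nat_lit 4) (nat_lit 386) (nat_lit 265) (nat_lit 129)) (XT.lf (nat_lit 0) (nat_lit 43587711443) (nat_lit 76) (nat_lit 5089208061) (nat_lit 152) (nat_lit 19651547011) (nat_lit 8) (nat_lit 5) (nat_lit 9) (nat_lit 5) (nat_lit 10) (nat_lit 4) (nat_lit 387) (nat_lit 265) (nat_lit 128)))) (XT.nd (nat_lit 78) (nat_lit 0) (nat_lit 0) (XT.lf (nat_lit 0) (nat_lit 53351117036) (nat_lit 76) (nat_lit 149418198) (nat_lit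 152) (nat_lit 16721323194) (nat_lit 8) (nat_lit 5) (nat_lit 9) (nat_lit 5) (nat_lit 10) (nat_lit 4) (nat_lit 388) (nat_lit 265) (nat_lit 127)) (XT.nd (nat_lit 78) (nat_lit 0) (nat_lit 0) (XT.lf (nat_lit 0) (nat_lit 58511447580) (nat_lit 152) (nat_lit 8820383331) (nat_lit 0) (nat_lit 4838949782) (nat_lit 8) (nat_lit 5) (nat_lit 10) (nat_lit 4) (nat_lit 8) (nat_lit 4) (nat_lit 389) (nat_lit 265) (nat_lit 126)) (XT.lf (nat_lit 0) (nat_lit 63669424579) (nat_lit 152) (nat_lit 538036167) (nat_lit 0) (nat_lit 9970813820) (nat_lit 8) (nat_lit 5) (nat_lit 10) (nat_lit 4) (nat_lit 8) (nat_lit 4) (nat_lit 390) (nat_lit 265) (nat_lit 125)))))) (XT.nd (nat_lit 30966) (nat_lit 0) (nat_lit 15732) (XT.nd (nat_lit 156) (nat_lit 76) (nat_lit 0) (XT.nd (nat_lit 78) (nat_lit 0) (nat_lit 0) (XT.lf (nat_lit 0) (nat_lit 8143890028) (nat_lit 76) (nat_lit 60911930928) (nat_lit 76) (nat_lit 7187967778) (nat_lit 7) (nat_lit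 4) (nat_lit 8) (nat_lit 5) (nat_lit 8) (nat_lit 4) (nat_lit 391) (nat_lit 265) (nat_lit 124)) (XT.lf (nat_lit 0) (nat_lit 17089571763) (nat_lit 76) (nat_lit 57515126365) (nat_lit 76) (nat_lit 3766549244) (nat_lit 7) (nat_lit 4) (nat_lit 8) (nat_lit 5) (nat_lit 8) (nat_lit 4) (nat_lit 392) (nat_lit 265) (nat_lit 123))) (XT.nd (nat_lit 78) (nat_lit 76) (nat_lit 0) (XT.lf (nat_lit 0) (nat_lit 26296117677) (nat_lit 76) (nat_lit 54019512085) (nat_lit 76) (nat_lit 247037906) (nat_lit 7) (nat_lit 4) (nat_lit 8) (nat_lit 5) (nat_lit 8) (nat_lit 4) (nat_lit 393) (nat_lit 265) (nat_lit 122)) (XT.nd (nat_lit 30654) (nat_lit 0) (nat_lit 16720) (XT.lf (nat_lit 0) (nat_lit 3307809639) (nat_lit 152) (nat_lit 47080821639) (nat_lit 76) (nat_lit 32430360293) (nat_lit 6) (nat_lit 5) (nat_lit 8) (nat_lit 5) (nat_lit 7) (nat_lit 4) (nat_lit 394) (nat_lit 265) (nat_lit 121)) (XT.lf (nat_lit 0) (nat_lit 657218904)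 (nat_lit 0) (nat_lit 657218904) (nat_lit 380) (nat_lit 1988325193) (nat_lit 226) (nat_lit 5) (nat_lit 226) (nat_lit 3) (nat_lit 231) (nat_lit 3) (nat_lit 266) (nat_lit 266) (nat_lit 248))))) (XT.nd (nat_lit 234) (nat_lit 532) (nat_lit 0) (XT.nd (nat_lit 78) (nat_lit 456) (nat_lit 0) (XT.lf (nat_lit 0) (nat_lit 4116798641) (nat_lit 0) (nat_lit 586305005) (nat_lit 380) (nat_lit 1931013159) (nat_lit 226) (nat_lit 5) (nat_lit 226) (nat_lit 3) (nat_lit 231) (nat_lit 3) (nat_lit 267) (nat_lit 266) (nat_lit 247)) (XT.nd (nat_lit 78) (nat_lit 0) (nat_lit 0) (XT.lf (nat_lit 0) (nat_lit 96896409) (nat_lit 456) (nat_lit 6365992124) (nat_lit 532) (nat_lit 203253921) (nat_lit 220) (nat_lit 5) (nat_lit 226) (nat_lit 5) (nat_lit 227) (nat_lit 5) (nat_lit 268) (nat_lit 266) (nat_lit 246)) (XT.lf (nat_lit 0) (nat_lit 2100057164) (nat_lit 456) (nat_lit 3514120366) (nat_lit 532) (nat_lit 1086128584) (nat_lit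 220) (nat_lit 5) (nat_lit 226) (nat_lit 5) (nat_lit 227) (nat_lit 5) (nat_lit 269) (nat_lit 266) (nat_lit 245)))) (XT.nd (nat_lit 78) (nat_lit 532) (nat_lit 0) (XT.lf (nat_lit 0) (nat_lit 4087340598) (nat_lit 456) (nat_lit 619725369) (nat_lit 532) (nat_lit 2031045330) (nat_lit 220) (nat_lit 5) (nat_lit 226) (nat_lit 5) (nat_lit 227) (nat_lit 5) (nat_lit 270) (nat_lit 266) (nat_lit 244)) (XT.nd (nat_lit 78) (nat_lit 532) (nat_lit 0) (XT.lf (nat_lit 76) (nat_lit 2365888962) (nat_lit 0) (nat_lit 3717336580) (nat_lit 532) (nat_lit 695683221) (nat_lit 221) (nat_lit 5) (nat_lit 220) (nat_lit 5) (nat_lit 227) (nat_lit 5) (nat_lit 271) (nat_lit 266) (nat_lit 243)) (XT.lf (nat_lit 0) (nat_lit 1225623281) (nat_lit 532) (nat_lit 1422831107) (nat_lit 608) (nat_lit 4174405887) (nat_lit 213) (nat_lit 5) (nat_lit 220) (nat_lit 5) (nat_lit 221) (nat_lit 5) (nat_lit 272) (nat_lit 266) (nat_lit 242))))))) (XT.nd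 (nat_lit 858) (nat_lit 5320) (nat_lit 0) (XT.nd (nat_lit 390) (nat_lit 1292) (nat_lit 0) (XT.nd (nat_lit 156) (nat_lit 532) (nat_lit 0) (XT.nd (nat_lit 78) (nat_lit 0) (nat_lit 0) (XT.lf (nat_lit 76) (nat_lit 1640307636) (nat_lit 0) (nat_lit 1495140097) (nat_lit 608) (nat_lit 3734429939) (nat_lit 214) (nat_lit 5) (nat_lit 213) (nat_lit 5) (nat_lit 221) (nat_lit 5) (nat_lit 273) (nat_lit 266) (nat_lit 241)) (XT.lf (nat_lit 76) (nat_lit 4783041764) (nat_lit 0) (nat_lit 264653259) (nat_lit 608) (nat_lit 1872547810) (nat_lit 214) (nat_lit 5) (nat_lit 213) (nat_lit 5) (nat_lit 221) (nat_lit 5) (nat_lit 274) (nat_lit 266) (nat_lit 240))) (XT.nd (nat_lit 78) (nat_lit 608) (nat_lit 0) (XT.lf (nat_lit 76) (nat_lit 1015295818) (nat_lit 0) (nat_lit 5954448784) (nat_lit 608) (nat_lit 4083909) (nat_lit 215) (nat_lit 5) (nat_lit 214) (nat_lit 5) (nat_lit 222) (nat_lit 5) (nat_lit 275) (nat_lit 266) (nat_lit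 239)) (XT.nd (nat_lit 78) (nat_lit 0) (nat_lit 0) (XT.lf (nat_lit 0) (nat_lit 1841037178) (nat_lit 608) (nat_lit 2787473629) (nat_lit 684) (nat_lit 2401481189) (nat_lit 206) (nat_lit 5) (nat_lit 214) (nat_lit 5) (nat_lit 215) (nat_lit 5) (nat_lit 276) (nat_lit 266) (nat_lit 238)) (XT.lf (nat_lit 76) (nat_lit 444651521) (nat_lit 0) (nat_lit 3236647028) (nat_lit 684) (nat_lit 3408603187) (nat_lit 207) (nat_lit 5) (nat_lit 206) (nat_lit 5) (nat_lit 215) (nat_lit 5) (nat_lit 277) (nat_lit 266) (nat_lit 237))))) (XT.nd (nat_lit 234) (nat_lit 608) (nat_lit 0) (XT.nd (nat_lit 78) (nat_lit 684) (nat_lit 0) (XT.lf (nat_lit 76) (nat_lit 3788597547) (nat_lit 0) (nat_lit 1753382139) (nat_lit 684) (nat_lit 1610923818) (nat_lit 207) (nat_lit 5) (nat_lit 206) (nat_lit 5) (nat_lit 215) (nat_lit 5) (nat_lit 278) (nat_lit 266) (nat_lit 236)) (XT.nd (nat_lit 78) (nat_lit 0) (nat_lit 76) (XT.lf (nat_lit 0) (nat_lit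 174042275) (nat_lit 684) (nat_lit 29768340) (nat_lit 760) (nat_lit 7016010391) (nat_lit 197) (nat_lit 5) (nat_lit 206) (nat_lit 5) (nat_lit 207) (nat_lit 5) (nat_lit 279) (nat_lit 266) (nat_lit 235)) (XT.lf (nat_lit 0) (nat_lit 1966903289) (nat_lit 684) (nat_lit 3889168257) (nat_lit 76) (nat_lit 1432824062) (nat_lit 198) (nat_lit 5) (nat_lit 207) (nat_lit 5) (nat_lit 199) (nat_lit 5) (nat_lit 280) (nat_lit 266) (nat_lit 234)))) (XT.nd (nat_lit 78) (nat_lit 684) (nat_lit 0) (XT.lf (nat_lit 0) (nat_lit 3757259820) (nat_lit 684) (nat_lit 472373059) (nat_lit 76) (nat_lit 3132321372) (nat_lit 198) (nat_lit 5) (nat_lit 207) (nat_lit 5) (nat_lit 199) (nat_lit 5) (nat_lit 281) (nat_lit 266) (nat_lit 233)) (XT.nd (nat_lit 78) (nat_lit 0) (nat_lit 0) (XT.lf (nat_lit 0) (nat_lit 3064950866) (nat_lit 684) (nat_lit 2508933685) (nat_lit 760) (nat_lit 1864359972) (nat_lit 189) (nat_lit 5) (nat_lit 198) (nat_lit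 5) (nat_lit 199) (nat_lit 5) (nat_lit 282) (nat_lit 266) (nat_lit 232)) (XT.lf (nat_lit 0) (nat_lit 6676703974) (nat_lit 684) (nat_lit 717429121) (nat_lit 760) (nat_lit 124426942) (nat_lit 189) (nat_lit 5) (nat_lit 198) (nat_lit 5) (nat_lit 199) (nat_lit 5) (nat_lit 283) (nat_lit 266) (nat_lit 231)))))) (XT.nd (nat_lit 390) (nat_lit 2660) (nat_lit 0) (XT.nd (nat_lit 156) (nat_lit 1824) (nat_lit 0) (XT.nd (nat_lit 78) (nat_lit 0) (nat_lit 0) (XT.lf (nat_lit 0) (nat_lit 1618639025) (nat_lit 836) (nat_lit 4820704174) (nat_lit 76) (nat_lit 1162154768) (nat_lit 178) (nat_lit 5) (nat_lit 189) (nat_lit 5) (nat_lit 179) (nat_lit 5) (nat_lit 284) (nat_lit 266) (nat_lit 230)) (XT.lf (nat_lit 0) (nat_lit 3373745895) (nat_lit 836) (nat_lit 1208677715) (nat_lit 76) (nat_lit 3105788413) (nat_lit 178) (nat_lit 5) (nat_lit 189) (nat_lit 5) (nat_lit 179) (nat_lit 5) (nat_lit 285) (nat_lit 266) (nat_lit 229)))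 (XT.nd (nat_lit 78) (nat_lit 988) (nat_lit 0) (XT.lf (nat_lit 0) (nat_lit 2519149045) (nat_lit 836) (nat_lit 2634690255) (nat_lit 912) (nat_lit 2624705038) (nat_lit 167) (nat_lit 5) (nat_lit 178) (nat_lit 5) (nat_lit 179) (nat_lit 5) (nat_lit 286) (nat_lit 266) (nat_lit 228)) (XT.nd (nat_lit 78) (nat_lit 988) (nat_lit 0) (XT.lf (nat_lit 0) (nat_lit 6342278158) (nat_lit 836) (nat_lit 606494398) (nat_lit 912) (nat_lit 924152352) (nat_lit 167) (nat_lit 5) (nat_lit 178) (nat_lit 5) (nat_lit 179) (nat_lit 5) (nat_lit 287) (nat_lit 266) (nat_lit 227)) (XT.lf (nat_lit 0) (nat_lit 798117689) (nat_lit 988) (nat_lit 5679802936) (nat_lit 76) (nat_lit 1492543241) (nat_lit 154) (nat_lit 5) (nat_lit 167) (nat_lit 5) (nat_lit 155) (nat_lit 5) (nat_lit 288) (nat_lit 266) (nat_lit 226))))) (XT.nd (nat_lit 234) (nat_lit 1672) (nat_lit 0) (XT.nd (nat_lit 78) (nat_lit 988) (nat_lit 0) (XT.lf (nat_lit 0) (nat_lit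 2526284652) (nat_lit 988) (nat_lit 1870364861) (nat_lit 76) (nat_lit 3674986881) (nat_lit 154) (nat_lit 5) (nat_lit 167) (nat_lit 5) (nat_lit 155) (nat_lit 5) (nat_lit 289) (nat_lit 266) (nat_lit 225)) (XT.nd (nat_lit 78) (nat_lit 0) (nat_lit 0) (XT.lf (nat_lit 0) (nat_lit 2052063376) (nat_lit 988) (nat_lit 2226569523) (nat_lit 1064) (nat_lit 3898202276) (nat_lit 141) (nat_lit 5) (nat_lit 154) (nat_lit 5) (nat_lit 155) (nat_lit 5) (nat_lit 290) (nat_lit 266) (nat_lit 224)) (XT.lf (nat_lit 0) (nat_lit 6056358414) (nat_lit 1064) (nat_lit 2196920014) (nat_lit 76) (nat_lit 32883761) (nat_lit 141) (nat_lit 5) (nat_lit 155) (nat_lit 5) (nat_lit 142) (nat_lit 5) (nat_lit 291) (nat_lit 266) (nat_lit 223)))) (XT.nd (nat_lit 78) (nat_lit 608) (nat_lit 0) (XT.lf (nat_lit 0) (nat_lit 1820962394) (nat_lit 1064) (nat_lit 6061002752) (nat_lit 1140) (nat_lit 517119299) (nat_lit 127) (nat_lit 5) (nat_lit 141)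 (nat_lit 5) (nat_lit 142) (nat_lit 5) (nat_lit 292) (nat_lit 266) (nat_lit 222)) (XT.nd (nat_lit 78) (nat_lit 532) (nat_lit 0) (XT.lf (nat_lit 0) (nat_lit 1200354115) (nat_lit 1140) (nat_lit 2564439374) (nat_lit 76) (nat_lit 4751052258) (nat_lit 126) (nat_lit 5) (nat_lit 141) (nat_lit 5) (nat_lit 127) (nat_lit 5) (nat_lit 293) (nat_lit 266) (nat_lit 221)) (XT.lf (nat_lit 0) (nat_lit 1554161593) (nat_lit 532) (nat_lit 1376373552) (nat_lit 608) (nat_lit 5706412857) (nat_lit 119) (nat_lit 5) (nat_lit 126) (nat_lit 5) (nat_lit 127) (nat_lit 5) (nat_lit 294) (nat_lit 266) (nat_lit 220))))))))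
noncomputable def xc130 : XT := (XT.nd (nat_lit 1716) (nat_lit 2280) (nat_lit 0) (XT.nd (nat_lit 858) (nat_lit 1900) (nat_lit 0) (XT.nd (nat_lit 390) (nat_lit 1368) (nat_lit 0) (XT.nd (nat_lit 156) (nat_lit 608) (nat_lit 0) (XT.nd (nat_lit 78) (nat_lit 456) (nat_lit 0) (XT.lf (nat_lit 0) (nat_lit 4706725048) (nat_lit 608) (nat_lit 2964422013) (nat_lit 76) (nat_lit 1090848136) (nat_lit 119) (nat_lit 5) (nat_lit 127) (nat_lit 5) (nat_lit 120) (nat_lit 5) (nat_lit 295) (nat_lit 266) (nat_lit 219)) (XT.lf (nat_lit 0) (nat_lit 1247697317) (nat_lit 456) (nat_lit 5272895352) (nat_lit 532) (nat_lit 2370800421) (nat_lit 113) (nat_lit 5) (nat_lit 119) (nat_lit 5) (nat_lit 120) (nat_lit 5) (nat_lit 296) (nat_lit 266) (nat_lit 218))) (XT.nd (nat_lit 78) (nat_lit 608) (nat_lit 0) (XT.lf (nat_lit 0) (nat_lit 5606829581) (nat_lit 456) (nat_lit 2771567725) (nat_lit 532) (nat_lit 646717212) (nat_lit 113) (nat_lit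 5) (nat_lit 119) (nat_lit 5) (nat_lit 120) (nat_lit 5) (nat_lit 297) (nat_lit 266) (nat_lit 217)) (XT.nd (nat_lit 78) (nat_lit 0) (nat_lit 0) (XT.lf (nat_lit 0) (nat_lit 900750775) (nat_lit 532) (nat_lit 175217346) (nat_lit 608) (nat_lit 8087606420) (nat_lit 105) (nat_lit 5) (nat_lit 112) (nat_lit 5) (nat_lit 113) (nat_lit 5) (nat_lit 298) (nat_lit 266) (nat_lit 216)) (XT.lf (nat_lit 0) (nat_lit 2857244591) (nat_lit 608) (nat_lit 3957241526) (nat_lit 76) (nat_lit 2491029314) (nat_lit 105) (nat_lit 5) (nat_lit 113) (nat_lit 5) (nat_lit 106) (nat_lit 5) (nat_lit 299) (nat_lit 266) (nat_lit 215))))) (XT.nd (nat_lit 234) (nat_lit 912) (nat_lit 0) (XT.nd (nat_lit 78) (nat_lit 0) (nat_lit 0) (XT.lf (nat_lit 0) (nat_lit 444890988) (nat_lit 456) (nat_lit 4215241960) (nat_lit 532) (nat_lit 4792649431) (nat_lit 99) (nat_lit 5) (nat_lit 105) (nat_lit 5) (nat_lit 106) (nat_lit 5) (nat_lit 300) (nat_lit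 266) (nat_lit 214)) (XT.nd (nat_lit 78) (nat_lit 0) (nat_lit 0) (XT.lf (nat_lit 0) (nat_lit 5021031139) (nat_lit 456) (nat_lit 1498924892) (nat_lit 532) (nat_lit 3084535612) (nat_lit 99) (nat_lit 5) (nat_lit 105) (nat_lit 5) (nat_lit 106) (nat_lit 5) (nat_lit 301) (nat_lit 266) (nat_lit 213)) (XT.lf (nat_lit 0) (nat_lit 8412008826) (nat_lit 532) (nat_lit 77985433) (nat_lit 76) (nat_lit 1271571423) (nat_lit 99) (nat_lit 5) (nat_lit 106) (nat_lit 5) (nat_lit 100) (nat_lit 5) (nat_lit 302) (nat_lit 266) (nat_lit 212)))) (XT.nd (nat_lit 78) (nat_lit 380) (nat_lit 0) (XT.lf (nat_lit 0) (nat_lit 453124833) (nat_lit 532) (nat_lit 5327671494) (nat_lit 76) (nat_lit 4141804186) (nat_lit 92) (nat_lit 5) (nat_lit 99) (nat_lit 5) (nat_lit 93) (nat_lit 5) (nat_lit 303) (nat_lit 266) (nat_lit 211)) (XT.nd (nat_lit 78) (nat_lit 380) (nat_lit 0) (XT.lf (nat_lit 0) (nat_lit 2248775554) (nat_lit 532) (nat_lit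 730660828) (nat_lit 76) (nat_lit 7109746258) (nat_lit 92) (nat_lit 5) (nat_lit 99) (nat_lit 5) (nat_lit 93) (nat_lit 5) (nat_lit 304) (nat_lit 266) (nat_lit 210)) (XT.lf (nat_lit 0) (nat_lit 4045852171) (nat_lit 380) (nat_lit 57565936) (nat_lit 456) (nat_lit 6157285121) (nat_lit 87) (nat_lit 5) (nat_lit 92) (nat_lit 5) (nat_lit 93) (nat_lit 5) (nat_lit 305) (nat_lit 266) (nat_lit 209)))))) (XT.nd (nat_lit 390) (nat_lit 1064) (nat_lit 0) (XT.nd (nat_lit 156) (nat_lit 456) (nat_lit 0) (XT.nd (nat_lit 78) (nat_lit 380) (nat_lit 0) (XT.lf (nat_lit 0) (nat_lit 6016349362) (nat_lit 456) (nat_lit 1522998819) (nat_lit 76) (nat_lit 2898033682) (nat_lit 87) (nat_lit 5) (nat_lit 93) (nat_lit 5) (nat_lit 88) (nat_lit 5) (nat_lit 306) (nat_lit 266) (nat_lit 208)) (XT.lf (nat_lit 0) (nat_lit 3337228313) (nat_lit 380) (nat_lit 4649878107) (nat_lit 456) (nat_lit 2632330537) (nat_lit 82) (nat_lit 5) (nat_lit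 87) (nat_lit 5) (nat_lit 88) (nat_lit 5) (nat_lit 307) (nat_lit 266) (nat_lit 207))) (XT.nd (nat_lit 78) (nat_lit 456) (nat_lit 0) (XT.lf (nat_lit 0) (nat_lit 8337912266) (nat_lit 380) (nat_lit 1662828320) (nat_lit 456) (nat_lit 806787120) (nat_lit 82) (nat_lit 5) (nat_lit 87) (nat_lit 5) (nat_lit 88) (nat_lit 5) (nat_lit 308) (nat_lit 266) (nat_lit 206)) (XT.nd (nat_lit 78) (nat_lit 0) (nat_lit 0) (XT.lf (nat_lit 0) (nat_lit 1059294319) (nat_lit 456) (nat_lit 8525720362) (nat_lit 76) (nat_lit 1415816977) (nat_lit 76) (nat_lit 5) (nat_lit 82) (nat_lit 5) (nat_lit 77) (nat_lit 5) (nat_lit 309) (nat_lit 266) (nat_lit 205)) (XT.lf (nat_lit 0) (nat_lit 2976210931) (nat_lit 456) (nat_lit 3641874915) (nat_lit 76) (nat_lit 4581356477) (nat_lit 76) (nat_lit 5) (nat_lit 82) (nat_lit 5) (nat_lit 77) (nat_lit 5) (nat_lit 310) (nat_lit 266) (nat_lit 204))))) (XT.nd (nat_lit 234) (nat_lit 380) (nat_lit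 0) (XT.nd (nat_lit 78) (nat_lit 304) (nat_lit 0) (XT.lf (nat_lit 0) (nat_lit 1379685902) (nat_lit 380) (nat_lit 3554521735) (nat_lit 456) (nat_lit 6470373465) (nat_lit 71) (nat_lit 5) (nat_lit 76) (nat_lit 5) (nat_lit 77) (nat_lit 5) (nat_lit 311) (nat_lit 266) (nat_lit 203)) (XT.nd (nat_lit 78) (nat_lit 304) (nat_lit 0) (XT.lf (nat_lit 0) (nat_lit 6591175996) (nat_lit 380) (nat_lit 367378986) (nat_lit 456) (nat_lit 4657165474) (nat_lit 71) (nat_lit 5) (nat_lit 76) (nat_lit 5) (nat_lit 77) (nat_lit 5) (nat_lit 312) (nat_lit 266) (nat_lit 202)) (XT.lf (nat_lit 0) (nat_lit 63831751) (nat_lit 304) (nat_lit 8980065462) (nat_lit 380) (nat_lit 2789361400) (nat_lit 67) (nat_lit 5) (nat_lit 71) (nat_lit 5) (nat_lit 72) (nat_lit 5) (nat_lit 313) (nat_lit 266) (nat_lit 201)))) (XT.nd (nat_lit 78) (nat_lit 380) (nat_lit 0) (XT.lf (nat_lit 0) (nat_lit 5369286596) (nat_lit 304) (nat_lit 5848970701) (nat_lit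 380) (nat_lit 838342332) (nat_lit 67) (nat_lit 5) (nat_lit 71) (nat_lit 5) (nat_lit 72) (nat_lit 5) (nat_lit 314) (nat_lit 266) (nat_lit 200)) (XT.nd (nat_lit 78) (nat_lit 304) (nat_lit 0) (XT.lf (nat_lit 0) (nat_lit 1120947646) (nat_lit 380) (nat_lit 1498451676) (nat_lit 76) (nat_lit 9667792356) (nat_lit 66) (nat_lit 5) (nat_lit 71) (nat_lit 5) (nat_lit 67) (nat_lit 5) (nat_lit 315) (nat_lit 266) (nat_lit 199)) (XT.lf (nat_lit 0) (nat_lit 3140039092) (nat_lit 380) (nat_lit 8651343919) (nat_lit 76) (nat_lit 732597751) (nat_lit 62) (nat_lit 5) (nat_lit 67) (nat_lit 5) (nat_lit 63) (nat_lit 5) (nat_lit 316) (nat_lit 266) (nat_lit 198))))))) (XT.nd (nat_lit 858) (nat_lit 1064) (nat_lit 0) (XT.nd (nat_lit 390) (nat_lit 532) (nat_lit 0) (XT.nd (nat_lit 156) (nat_lit 380) (nat_lit 0) (XT.nd (nat_lit 78) (nat_lit 304) (nat_lit 0) (XT.lf (nat_lit 0) (nat_lit 5234701670) (nat_lit 380) (nat_lit 3391835207)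 (nat_lit 76) (nat_lit 4140949278) (nat_lit 62) (nat_lit 5) (nat_lit 67) (nat_lit 5) (nat_lit 63) (nat_lit 5) (nat_lit 317) (nat_lit 266) (nat_lit 197)) (XT.lf (nat_lit 0) (nat_lit 2032195801) (nat_lit 304) (nat_lit 5354089151) (nat_lit 380) (nat_lit 5632250096) (nat_lit 58) (nat_lit 5) (nat_lit 62) (nat_lit 5) (nat_lit 63) (nat_lit 5) (nat_lit 318) (nat_lit 266) (nat_lit 196))) (XT.nd (nat_lit 78) (nat_lit 380) (nat_lit 0) (XT.lf (nat_lit 0) (nat_lit 7655881342) (nat_lit 304) (nat_lit 1955759441) (nat_lit 380) (nat_lit 3665256869) (nat_lit 58) (nat_lit 5) (nat_lit 62) (nat_lit 5) (nat_lit 63) (nat_lit 5) (nat_lit 319) (nat_lit 266) (nat_lit 195)) (XT.nd (nat_lit 78) (nat_lit 380) (nat_lit 0) (XT.lf (nat_lit 0) (nat_lit 11894236587) (nat_lit 380) (nat_lit 141942400) (nat_lit 76) (nat_lit 1507175044) (nat_lit 58) (nat_lit 5) (nat_lit 63) (nat_lit 5) (nat_lit 59) (nat_lit 5) (nat_lit 320) (nat_lit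 266) (nat_lit 194)) (XT.lf (nat_lit 0) (nat_lit 468740585) (nat_lit 380) (nat_lit 8261780336) (nat_lit 76) (nat_lit 5085726587) (nat_lit 53) (nat_lit 5) (nat_lit 58) (nat_lit 5) (nat_lit 54) (nat_lit 5) (nat_lit 321) (nat_lit 266) (nat_lit 193))))) (XT.nd (nat_lit 234) (nat_lit 304) (nat_lit 0) (XT.nd (nat_lit 78) (nat_lit 228) (nat_lit 0) (XT.lf (nat_lit 0) (nat_lit 2594885115) (nat_lit 380) (nat_lit 2720580525) (nat_lit 76) (nat_lit 8782087836) (nat_lit 53) (nat_lit 5) (nat_lit 58) (nat_lit 5) (nat_lit 54) (nat_lit 5) (nat_lit 322) (nat_lit 266) (nat_lit 192)) (XT.nd (nat_lit 78) (nat_lit 0) (nat_lit 0) (XT.lf (nat_lit 0) (nat_lit 3014977315) (nat_lit 228) (nat_lit 1775953281) (nat_lit 304) (nat_lit 9596235418) (nat_lit 50) (nat_lit 5) (nat_lit 53) (nat_lit 5) (nat_lit 54) (nat_lit 5) (nat_lit 323) (nat_lit 266) (nat_lit 191)) (XT.lf (nat_lit 0) (nat_lit 7076007454) (nat_lit 304) (nat_lit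 5755574739) (nat_lit 76) (nat_lit 1853239640) (nat_lit 50) (nat_lit 5) (nat_lit 54) (nat_lit 5) (nat_lit 51) (nat_lit 5) (nat_lit 324) (nat_lit 266) (nat_lit 190)))) (XT.nd (nat_lit 78) (nat_lit 304) (nat_lit 0) (XT.lf (nat_lit 0) (nat_lit 9425309975) (nat_lit 304) (nat_lit 18199435) (nat_lit 76) (nat_lit 5548075686) (nat_lit 50) (nat_lit 5) (nat_lit 54) (nat_lit 5) (nat_lit 51) (nat_lit 5) (nat_lit 325) (nat_lit 266) (nat_lit 189)) (XT.nd (nat_lit 78) (nat_lit 0) (nat_lit 0) (XT.lf (nat_lit 0) (nat_lit 5978687736) (nat_lit 304) (nat_lit 5902602464) (nat_lit 380) (nat_lit 3425221667) (nat_lit 46) (nat_lit 5) (nat_lit 50) (nat_lit 5) (nat_lit 51) (nat_lit 5) (nat_lit 326) (nat_lit 266) (nat_lit 188)) (XT.lf (nat_lit 0) (nat_lit 12126866481) (nat_lit 304) (nat_lit 2263335883) (nat_lit 380) (nat_lit 1241351716) (nat_lit 46) (nat_lit 5) (nat_lit 50) (nat_lit 5) (nat_lit 51) (nat_lit 5) (nat_lit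 327) (nat_lit 266) (nat_lit 187)))))) (XT.nd (nat_lit 390) (nat_lit 532) (nat_lit 0) (XT.nd (nat_lit 156) (nat_lit 228) (nat_lit 0) (XT.nd (nat_lit 78) (nat_lit 0) (nat_lit 0) (XT.lf (nat_lit 0) (nat_lit 1006398151) (nat_lit 304) (nat_lit 13476813313) (nat_lit 76) (nat_lit 1482346993) (nat_lit 42) (nat_lit 5) (nat_lit 46) (nat_lit 5) (nat_lit 43) (nat_lit 5) (nat_lit 328) (nat_lit 266) (nat_lit 186)) (XT.lf (nat_lit 0) (nat_lit 3334464056) (nat_lit 304) (nat_lit 7638634280) (nat_lit 76) (nat_lit 5335022284) (nat_lit 42) (nat_lit 5) (nat_lit 46) (nat_lit 5) (nat_lit 43) (nat_lit 5) (nat_lit 329) (nat_lit 266) (nat_lit 185))) (XT.nd (nat_lit 78) (nat_lit 228) (nat_lit 0) (XT.lf (nat_lit 0) (nat_lit 5712647028) (nat_lit 304) (nat_lit 1653354809) (nat_lit 76) (nat_lit 9295589732) (nat_lit 42) (nat_lit 5) (nat_lit 46) (nat_lit 5) (nat_lit 43) (nat_lit 5) (nat_lit 330) (nat_lit 266) (nat_lit 184))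 (XT.nd (nat_lit 78) (nat_lit 0) (nat_lit 0) (XT.lf (nat_lit 0) (nat_lit 4573500421) (nat_lit 228) (nat_lit 3613487951) (nat_lit 304) (nat_lit 8837972887) (nat_lit 39) (nat_lit 5) (nat_lit 42) (nat_lit 5) (nat_lit 43) (nat_lit 5) (nat_lit 331) (nat_lit 266) (nat_lit 183)) (XT.lf (nat_lit 0) (nat_lit 10735909709) (nat_lit 304) (nat_lit 6407748178) (nat_lit 76) (nat_lit 255601528) (nat_lit 39) (nat_lit 5) (nat_lit 43) (nat_lit 5) (nat_lit 40) (nat_lit 5) (nat_lit 332) (nat_lit 266) (nat_lit 182))))) (XT.nd (nat_lit 234) (nat_lit 228) (nat_lit 0) (XT.nd (nat_lit 78) (nat_lit 304) (nat_lit 0) (XT.lf (nat_lit 0) (nat_lit 13378697407) (nat_lit 304) (nat_lit 245187281) (nat_lit 76) (nat_lit 4160416630) (nat_lit 39) (nat_lit 5) (nat_lit 43) (nat_lit 5) (nat_lit 40) (nat_lit 5) (nat_lit 333) (nat_lit 266) (nat_lit 181)) (XT.nd (nat_lit 78) (nat_lit 76) (nat_lit 0) (XT.lf (nat_lit 0) (nat_lit 6197272783)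 (nat_lit 228) (nat_lit 9945224833) (nat_lit 304) (nat_lit 2037180687) (nat_lit 36) (nat_lit 5) (nat_lit 39) (nat_lit 5) (nat_lit 40) (nat_lit 5) (nat_lit 334) (nat_lit 266) (nat_lit 180)) (XT.lf (nat_lit 0) (nat_lit 379167489) (nat_lit 304) (nat_lit 5778743419) (nat_lit 76) (nat_lit 12429381647) (nat_lit 35) (nat_lit 5) (nat_lit 39) (nat_lit 5) (nat_lit 36) (nat_lit 5) (nat_lit 335) (nat_lit 266) (nat_lit 179)))) (XT.nd (nat_lit 78) (nat_lit 0) (nat_lit 0) (XT.lf (nat_lit 0) (nat_lit 576830773) (nat_lit 228) (nat_lit 2238514737) (nat_lit 304) (nat_lit 16191568742) (nat_lit 32) (nat_lit 5) (nat_lit 35) (nat_lit 5) (nat_lit 36) (nat_lit 5) (nat_lit 336) (nat_lit 266) (nat_lit 178)) (XT.nd (nat_lit 78) (nat_lit 0) (nat_lit 0) (XT.lf (nat_lit 0) (nat_lit 5383753205) (nat_lit 304) (nat_lit 12239209133) (nat_lit 76) (nat_lit 1814419645) (nat_lit 32) (nat_lit 5) (nat_lit 36) (nat_lit 5) (nat_lit 33)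 (nat_lit 5) (nat_lit 337) (nat_lit 266) (nat_lit 177)) (XT.lf (nat_lit 0) (nat_lit 8034798646) (nat_lit 304) (nat_lit 5909529566) (nat_lit 76) (nat_lit 5936298757) (nat_lit 32) (nat_lit 5) (nat_lit 36) (nat_lit 5) (nat_lit 33) (nat_lit 5) (nat_lit 338) (nat_lit 266) (nat_lit 176))))))))
noncomputable def xc131 : XT := (XT.nd (nat_lit 1716) (nat_lit 608) (nat_lit 0) (XT.nd (nat_lit 858) (nat_lit 380) (nat_lit 0) (XT.nd (nat_lit 390) (nat_lit 304) (nat_lit 0) (XT.nd (nat_lit 156) (nat_lit 304) (nat_lit 0) (XT.nd (nat_lit 78) (nat_lit 0) (nat_lit 0) (XT.lf (nat_lit 0) (nat_lit 597666608) (nat_lit 152) (nat_lit 10157358836) (nat_lit 228) (nat_lit 9582484253) (nat_lit 30) (nat_lit 5) (nat_lit 32) (nat_lit 5) (nat_lit 33) (nat_lit 5) (nat_lit 339) (nat_lit 266) (nat_lit 175)) (XT.lf (nat_lit 0) (nat_lit 7397417475) (nat_lit 152) (nat_lit 6203261093) (nat_lit 228) (nat_lit 7206134775) (nat_lit 30)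 (nat_lit 5) (nat_lit 32) (nat_lit 5) (nat_lit 33) (nat_lit 5) (nat_lit 340) (nat_lit 266) (nat_lit 174))) (XT.nd (nat_lit 78) (nat_lit 304) (nat_lit 0) (XT.lf (nat_lit 0) (nat_lit 14378053338) (nat_lit 152) (nat_lit 2138254608) (nat_lit 228) (nat_lit 4774378128) (nat_lit 30) (nat_lit 5) (nat_lit 32) (nat_lit 5) (nat_lit 33) (nat_lit 5) (nat_lit 341) (nat_lit 266) (nat_lit 173)) (XT.nd (nat_lit 78) (nat_lit 304) (nat_lit 0) (XT.lf (nat_lit 0) (nat_lit 19524082600) (nat_lit 228) (nat_lit 263498294) (nat_lit 76) (nat_lit 2001381156) (nat_lit 30) (nat_lit 5) (nat_lit 33) (nat_lit 5) (nat_lit 31) (nat_lit 5) (nat_lit 342) (nat_lit 266) (nat_lit 172)) (XT.lf (nat_lit 0) (nat_lit 385062127) (nat_lit 304) (nat_lit 15631905895) (nat_lit 76) (nat_lit 6283009803) (nat_lit 26) (nat_lit 5) (nat_lit 30) (nat_lit 5) (nat_lit 27) (nat_lit 5) (nat_lit 343) (nat_lit 266) (nat_lit 171))))) (XT.nd (nat_lit 234)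 (nat_lit 152) (nat_lit 0) (XT.nd (nat_lit 78) (nat_lit 152) (nat_lit 0) (XT.lf (nat_lit 0) (nat_lit 3057133763) (nat_lit 304) (nat_lit 9057974335) (nat_lit 76) (nat_lit 10710923663) (nat_lit 26) (nat_lit 5) (nat_lit 30) (nat_lit 5) (nat_lit 27) (nat_lit 5) (nat_lit 344) (nat_lit 266) (nat_lit 170)) (XT.nd (nat_lit 78) (nat_lit 152) (nat_lit 0) (XT.lf (nat_lit 0) (nat_lit 5795257336) (nat_lit 304) (nat_lit 2308446104) (nat_lit 76) (nat_lit 15264611487) (nat_lit 26) (nat_lit 5) (nat_lit 30) (nat_lit 5) (nat_lit 27) (nat_lit 5) (nat_lit 345) (nat_lit 266) (nat_lit 169)) (XT.lf (nat_lit 0) (nat_lit 4714574780) (nat_lit 152) (nat_lit 3932569979) (nat_lit 228) (nat_lit 15278796822) (nat_lit 24) (nat_lit 5) (nat_lit 26) (nat_lit 5) (nat_lit 27) (nat_lit 5) (nat_lit 346) (nat_lit 266) (nat_lit 168)))) (XT.nd (nat_lit 78) (nat_lit 152) (nat_lit 0) (XT.lf (nat_lit 0) (nat_lit 11598056399) (nat_lit 228)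 (nat_lit 12528861025) (nat_lit 76) (nat_lit 372998491) (nat_lit 24) (nat_lit 5) (nat_lit 27) (nat_lit 5) (nat_lit 25) (nat_lit 5) (nat_lit 347) (nat_lit 266) (nat_lit 167)) (XT.nd (nat_lit 78) (nat_lit 152) (nat_lit 0) (XT.lf (nat_lit 0) (nat_lit 14663256902) (nat_lit 228) (nat_lit 5705344185) (nat_lit 76) (nat_lit 4721757789) (nat_lit 24) (nat_lit 5) (nat_lit 27) (nat_lit 5) (nat_lit 25) (nat_lit 5) (nat_lit 348) (nat_lit 266) (nat_lit 166)) (XT.lf (nat_lit 0) (nat_lit 1328879508) (nat_lit 152) (nat_lit 16491516824) (nat_lit 228) (nat_lit 7878140901) (nat_lit 22) (nat_lit 5) (nat_lit 24) (nat_lit 5) (nat_lit 25) (nat_lit 5) (nat_lit 349) (nat_lit 266) (nat_lit 165)))))) (XT.nd (nat_lit 390) (nat_lit 152) (nat_lit 0) (XT.nd (nat_lit 156) (nat_lit 228) (nat_lit 0) (XT.nd (nat_lit 78) (nat_lit 0) (nat_lit 0) (XT.lf (nat_lit 0) (nat_lit 8671349391) (nat_lit 152) (nat_lit 12445905111) (nat_lit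 228) (nat_lit 5206377269) (nat_lit 22) (nat_lit 5) (nat_lit 24) (nat_lit 5) (nat_lit 25) (nat_lit 5) (nat_lit 350) (nat_lit 266) (nat_lit 164)) (XT.lf (nat_lit 0) (nat_lit 16214933675) (nat_lit 152) (nat_lit 8285843738) (nat_lit 228) (nat_lit 2467089317) (nat_lit 22) (nat_lit 5) (nat_lit 24) (nat_lit 5) (nat_lit 25) (nat_lit 5) (nat_lit 351) (nat_lit 266) (nat_lit 163))) (XT.nd (nat_lit 78) (nat_lit 152) (nat_lit 0) (XT.lf (nat_lit 0) (nat_lit 335440582) (nat_lit 228) (nat_lit 3668869824) (nat_lit 76) (nat_lit 23627395968) (nat_lit 21) (nat_lit 5) (nat_lit 24) (nat_lit 5) (nat_lit 22) (nat_lit 5) (nat_lit 352) (nat_lit 266) (nat_lit 162)) (XT.nd (nat_lit 78) (nat_lit 0) (nat_lit 0) (XT.lf (nat_lit 0) (nat_lit 3200361348) (nat_lit 228) (nat_lit 24662142320) (nat_lit 76) (nat_lit 451406338) (nat_lit 19) (nat_lit 5) (nat_lit 22) (nat_lit 5) (nat_lit 20) (nat_lit 5) (nat_lit 353) (nat_lit 266)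 (nat_lit 161)) (XT.lf (nat_lit 0) (nat_lit 6216722174) (nat_lit 228) (nat_lit 17806680002) (nat_lit 76) (nat_lit 4991230882) (nat_lit 19) (nat_lit 5) (nat_lit 22) (nat_lit 5) (nat_lit 20) (nat_lit 5) (nat_lit 354) (nat_lit 266) (nat_lit 160))))) (XT.nd (nat_lit 234) (nat_lit 0) (nat_lit 0) (XT.nd (nat_lit 78) (nat_lit 152) (nat_lit 0) (XT.lf (nat_lit 0) (nat_lit 9312341391) (nat_lit 228) (nat_lit 10763447807) (nat_lit 76) (nat_lit 9660943137) (nat_lit 19) (nat_lit 5) (nat_lit 22) (nat_lit 5) (nat_lit 20) (nat_lit 5) (nat_lit 355) (nat_lit 266) (nat_lit 159)) (XT.nd (nat_lit 78) (nat_lit 152) (nat_lit 0) (XT.lf (nat_lit 0) (nat_lit 12489923909) (nat_lit 228) (nat_lit 3526291453) (nat_lit 76) (nat_lit 14464623433) (nat_lit 19) (nat_lit 5) (nat_lit 22) (nat_lit 5) (nat_lit 20) (nat_lit 5) (nat_lit 356) (nat_lit 266) (nat_lit 158)) (XT.lf (nat_lit 0) (nat_lit 3988951601) (nat_lit 152) (nat_lit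 11801638897) (nat_lit 228) (nat_lit 15455861802) (nat_lit 17) (nat_lit 5) (nat_lit 19) (nat_lit 5) (nat_lit 20) (nat_lit 5) (nat_lit 357) (nat_lit 266) (nat_lit 157)))) (XT.nd (nat_lit 78) (nat_lit 0) (nat_lit 0) (XT.lf (nat_lit 0) (nat_lit 11785236023) (nat_lit 152) (nat_lit 7430209880) (nat_lit 228) (nat_lit 12818849313) (nat_lit 17) (nat_lit 5) (nat_lit 19) (nat_lit 5) (nat_lit 20) (nat_lit 5) (nat_lit 358) (nat_lit 266) (nat_lit 156)) (XT.nd (nat_lit 78) (nat_lit 0) (nat_lit 0) (XT.lf (nat_lit 0) (nat_lit 19799193984) (nat_lit 152) (nat_lit 2933717243) (nat_lit 228) (nat_lit 10113181863) (nat_lit 17) (nat_lit 5) (nat_lit 19) (nat_lit 5) (nat_lit 20) (nat_lit 5) (nat_lit 359) (nat_lit 266) (nat_lit 155)) (XT.lf (nat_lit 0) (nat_lit 26362322297) (nat_lit 228) (nat_lit 5660989599) (nat_lit 76) (nat_lit 1658755498) (nat_lit 17) (nat_lit 5) (nat_lit 20) (nat_lit 5) (nat_lit 18) (nat_lit 4) (nat_lit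 360) (nat_lit 266) (nat_lit 154))))))) (XT.nd (nat_lit 858) (nat_lit 228) (nat_lit 0) (XT.nd (nat_lit 390) (nat_lit 228) (nat_lit 0) (XT.nd (nat_lit 156) (nat_lit 76) (nat_lit 0) (XT.nd (nat_lit 78) (nat_lit 0) (nat_lit 0) (XT.lf (nat_lit 0) (nat_lit 1939772000) (nat_lit 76) (nat_lit 28198927687) (nat_lit 152) (nat_lit 4403293425) (nat_lit 16) (nat_lit 5) (nat_lit 17) (nat_lit 5) (nat_lit 18) (nat_lit 4) (nat_lit 361) (nat_lit 266) (nat_lit 153)) (XT.lf (nat_lit 0) (nat_lit 9869223020) (nat_lit 76) (nat_lit 24206833333) (nat_lit 152) (nat_lit 1350243887) (nat_lit 16) (nat_lit 5) (nat_lit 17) (nat_lit 5) (nat_lit 18) (nat_lit 4) (nat_lit 362) (nat_lit 266) (nat_lit 152))) (XT.nd (nat_lit 78) (nat_lit 0) (nat_lit 0) (XT.lf (nat_lit 0) (nat_lit 1750076383) (nat_lit 152) (nat_lit 18332956769) (nat_lit 76) (nat_lit 16253878589) (nat_lit 15) (nat_lit 5) (nat_lit 17) (nat_lit 5) (nat_lit 16) (nat_lit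 5) (nat_lit 363) (nat_lit 266) (nat_lit 151)) (XT.nd (nat_lit 78) (nat_lit 0) (nat_lit 0) (XT.lf (nat_lit 0) (nat_lit 4907233131) (nat_lit 152) (nat_lit 10920169722) (nat_lit 76) (nat_lit 21447321773) (nat_lit 15) (nat_lit 5) (nat_lit 17) (nat_lit 5) (nat_lit 16) (nat_lit 5) (nat_lit 364) (nat_lit 266) (nat_lit 150)) (XT.lf (nat_lit 0) (nat_lit 8150333159) (nat_lit 152) (nat_lit 3299259517) (nat_lit 76) (nat_lit 26791355050) (nat_lit 15) (nat_lit 5) (nat_lit 17) (nat_lit 5) (nat_lit 16) (nat_lit 5) (nat_lit 365) (nat_lit 266) (nat_lit 149))))) (XT.nd (nat_lit 234) (nat_lit 76) (nat_lit 0) (XT.nd (nat_lit 78) (nat_lit 0) (nat_lit 0) (XT.lf (nat_lit 0) (nat_lit 4626716802) (nat_lit 152) (nat_lit 6899968273) (nat_lit 228) (nat_lit 27708405992) (nat_lit 13) (nat_lit 5) (nat_lit 15) (nat_lit 5) (nat_lit 16) (nat_lit 5) (nat_lit 366) (nat_lit 266) (nat_lit 148)) (XT.nd (nat_lit 78) (nat_lit 0) (nat_lit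 0) (XT.lf (nat_lit 0) (nat_lit 12844394633) (nat_lit 152) (nat_lit 2184849277) (nat_lit 228) (nat_lit 25229079263) (nat_lit 13) (nat_lit 5) (nat_lit 15) (nat_lit 5) (nat_lit 16) (nat_lit 5) (nat_lit 367) (nat_lit 266) (nat_lit 147)) (XT.lf (nat_lit 0) (nat_lit 18654357158) (nat_lit 228) (nat_lit 20042848451) (nat_lit 76) (nat_lit 2614533913) (nat_lit 13) (nat_lit 5) (nat_lit 16) (nat_lit 5) (nat_lit 14) (nat_lit 4) (nat_lit 368) (nat_lit 266) (nat_lit 146)))) (XT.nd (nat_lit 78) (nat_lit 76) (nat_lit 0) (XT.lf (nat_lit 0) (nat_lit 22401890350) (nat_lit 228) (nat_lit 12485391206) (nat_lit 76) (nat_lit 7509078079) (nat_lit 13) (nat_lit 5) (nat_lit 16) (nat_lit 5) (nat_lit 14) (nat_lit 4) (nat_lit 369) (nat_lit 266) (nat_lit 145)) (XT.nd (nat_lit 78) (nat_lit 76) (nat_lit 0) (XT.lf (nat_lit 0) (nat_lit 26254115923) (nat_lit 228) (nat_lit 4713951093) (nat_lit 76) (nat_lit 12545694285) (nat_lit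 13) (nat_lit 5) (nat_lit 16) (nat_lit 5) (nat_lit 14) (nat_lit 4) (nat_lit 370) (nat_lit 266) (nat_lit 144)) (XT.lf (nat_lit 0) (nat_lit 3343506315) (nat_lit 76) (nat_lit 26903033412) (nat_lit 152) (nat_lit 14417416970) (nat_lit 12) (nat_lit 5) (nat_lit 13) (nat_lit 5) (nat_lit 14) (nat_lit 4) (nat_lit 371) (nat_lit 266) (nat_lit 143)))))) (XT.nd (nat_lit 468) (nat_lit 0) (nat_lit 0) (XT.nd (nat_lit 234) (nat_lit 228) (nat_lit 0) (XT.nd (nat_lit 78) (nat_lit 0) (nat_lit 0) (XT.lf (nat_lit 0) (nat_lit 11727070336) (nat_lit 76) (nat_lit 22671860158) (nat_lit 152) (nat_lit 11448531946) (nat_lit 12) (nat_lit 5) (nat_lit 13) (nat_lit 5) (nat_lit 14) (nat_lit 4) (nat_lit 372) (nat_lit 266) (nat_lit 142)) (XT.nd (nat_lit 78) (nat_lit 0) (nat_lit 0) (XT.lf (nat_lit 0) (nat_lit 20350249545) (nat_lit 76) (nat_lit 18318451776) (nat_lit 152) (nat_lit 8397997798) (nat_lit 12) (nat_lit 5) (nat_lit 13) (nat_lit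 5) (nat_lit 14) (nat_lit 4) (nat_lit 373) (nat_lit 266) (nat_lit 141)) (XT.lf (nat_lit 0) (nat_lit 29220578758) (nat_lit 76) (nat_lit 13839004317) (nat_lit 152) (nat_lit 5263149012) (nat_lit 12) (nat_lit 5) (nat_lit 13) (nat_lit 5) (nat_lit 14) (nat_lit 4) (nat_lit 374) (nat_lit 266) (nat_lit 140)))) (XT.nd (nat_lit 78) (nat_lit 228) (nat_lit 0) (XT.lf (nat_lit 0) (nat_lit 38345808748) (nat_lit 76) (nat_lit 9229603700) (nat_lit 152) (nat_lit 2041246398) (nat_lit 12) (nat_lit 5) (nat_lit 13) (nat_lit 5) (nat_lit 14) (nat_lit 4) (nat_lit 375) (nat_lit 266) (nat_lit 139)) (XT.nd (nat_lit 78) (nat_lit 152) (nat_lit 0) (XT.lf (nat_lit 0) (nat_lit 1245732772) (nat_lit 152) (nat_lit 3227910064) (nat_lit 76) (nat_lit 46475600786) (nat_lit 11) (nat_lit 5) (nat_lit 13) (nat_lit 5) (nat_lit 12) (nat_lit 5) (nat_lit 376) (nat_lit 266) (nat_lit 138)) (XT.lf (nat_lit 0) (nat_lit 4637833746) (nat_lit 228)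 (nat_lit 47199236197) (nat_lit 76) (nat_lit 482712140) (nat_lit 9) (nat_lit 5) (nat_lit 12) (nat_lit 5) (nat_lit 10) (nat_lit 4) (nat_lit 377) (nat_lit 266) (nat_lit 137))))) (XT.nd (nat_lit 234) (nat_lit 0) (nat_lit 0) (XT.nd (nat_lit 78) (nat_lit 0) (nat_lit 0) (XT.lf (nat_lit 0) (nat_lit 8202493586) (nat_lit 228) (nat_lit 40000207561) (nat_lit 76) (nat_lit 5526620063) (nat_lit 9) (nat_lit 5) (nat_lit 12) (nat_lit 5) (nat_lit 10) (nat_lit 4) (nat_lit 378) (nat_lit 266) (nat_lit 136)) (XT.nd (nat_lit 78) (nat_lit 0) (nat_lit 0) (XT.lf (nat_lit 0) (nat_lit 11867864147) (nat_lit 228) (nat_lit 32595651770) (nat_lit 76) (nat_lit 10717825608) (nat_lit 9) (nat_lit 5) (nat_lit 12) (nat_lit 5) (nat_lit 10) (nat_lit 4) (nat_lit 379) (nat_lit 266) (nat_lit 135)) (XT.lf (nat_lit 0) (nat_lit 15637148178) (nat_lit 228) (nat_lit 24979098823) (nat_lit 76) (nat_lit 16060864781) (nat_lit 9) (nat_lit 5) (nat_lit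 12) (nat_lit 5) (nat_lit 10) (nat_lit 4) (nat_lit 380) (nat_lit 266) (nat_lit 134)))) (XT.nd (nat_lit 78) (nat_lit 0) (nat_lit 0) (XT.lf (nat_lit 0) (nat_lit 19513639229) (nat_lit 228) (nat_lit 17143893481) (nat_lit 76) (nat_lit 21560406257) (nat_lit 9) (nat_lit 5) (nat_lit 12) (nat_lit 5) (nat_lit 10) (nat_lit 4) (nat_lit 381) (nat_lit 266) (nat_lit 133)) (XT.nd (nat_lit 78) (nat_lit 0) (nat_lit 0) (XT.lf (nat_lit 0) (nat_lit 23500724526) (nat_lit 228) (nat_lit 9083189447) (nat_lit 76) (nat_lit 27221255460) (nat_lit 9) (nat_lit 5) (nat_lit 12) (nat_lit 5) (nat_lit 10) (nat_lit 4) (nat_lit 382) (nat_lit 266) (nat_lit 132)) (XT.lf (nat_lit 0) (nat_lit 27601887929) (nat_lit 228) (nat_lit 789943388) (nat_lit 76) (nat_lit 33048358763) (nat_lit 9) (nat_lit 5) (nat_lit 12) (nat_lit 5) (nat_lit 10) (nat_lit 4) (nat_lit 383) (nat_lit 266) (nat_lit 131))))))))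
noncomputable def xc132 : XT := (XT.nd (nat_lit 32370) (nat_lit 0) (nat_lit 7448) (XT.nd (nat_lit 31512) (nat_lit 0) (nat_lit 15048) (XT.nd (nat_lit 390) (nat_lit 76) (nat_lit 0) (XT.nd (nat_lit 156) (nat_lit 0) (nat_lit 0) (XT.nd (nat_lit 78) (nat_lit 0) (nat_lit 0) (XT.lf (nat_lit 0) (nat_lit 7897193919) (nat_lit 76) (nat_lit 23999431719) (nat_lit 152) (nat_lit 31225526550) (nat_lit 8) (nat_lit 5) (nat_lit 9) (nat_lit 5) (nat_lit 10) (nat_lit 4) (nat_lit 384) (nat_lit 266) (nat_lit 130)) (XT.lf (nat_lit 0) (nat_lit 16852217902) (nat_lit 76) (nat_lit 19470661954) (nat_lit 152) (nat_lit 28531619890) (nat_lit 8) (nat_lit 5) (nat_lit 9) (nat_lit 5) (nat_lit 10) (nat_lit 4) (nat_lit 385) (nat_lit 266) (nat_lit 129))) (XT.nd (nat_lit 78) (nat_lit 0) (nat_lit 0) (XT.lf (nat_lit 0) (nat_lit 26067231916) (nat_lit 76) (nat_lit 14809541725) (nat_lit 152) (nat_lit 25762205153) (nat_lit 8) (nat_lit 5)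 (nat_lit 9) (nat_lit 5) (nat_lit 10) (nat_lit 4) (nat_lit 386) (nat_lit 266) (nat_lit 128)) (XT.nd (nat_lit 78) (nat_lit 0) (nat_lit 0) (XT.lf (nat_lit 0) (nat_lit 35550287915) (nat_lit 76) (nat_lit 10011998207) (nat_lit 152) (nat_lit 22914862460) (nat_lit 8) (nat_lit 5) (nat_lit 9) (nat_lit 5) (nat_lit 10) (nat_lit 4) (nat_lit 387) (nat_lit 266) (nat_lit 127)) (XT.lf (nat_lit 0) (nat_lit 45309672065) (nat_lit 76) (nat_lit 5073839373) (nat_lit 152) (nat_lit 19987103842) (nat_lit 8) (nat_lit 5) (nat_lit 9) (nat_lit 5) (nat_lit 10) (nat_lit 4) (nat_lit 388) (nat_lit 266) (nat_lit 126))))) (XT.nd (nat_lit 234) (nat_lit 76) (nat_lit 0) (XT.nd (nat_lit 78) (nat_lit 0) (nat_lit 0) (XT.lf (nat_lit 0) (nat_lit 55344751223) (nat_lit 152) (nat_lit 16967210306) (nat_lit 0) (nat_lit 9069178) (nat_lit 8) (nat_lit 5) (nat_lit 10) (nat_lit 4) (nat_lit 8) (nat_lit 4) (nat_lit 389) (nat_lit 266) (nat_lit 125))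 (XT.nd (nat_lit 78) (nat_lit 0) (nat_lit 0) (XT.lf (nat_lit 0) (nat_lit 60500460249) (nat_lit 152) (nat_lit 8688709452) (nat_lit 0) (nat_lit 5139425815) (nat_lit 8) (nat_lit 5) (nat_lit 10) (nat_lit 4) (nat_lit 8) (nat_lit 4) (nat_lit 390) (nat_lit 266) (nat_lit 124)) (XT.lf (nat_lit 0) (nat_lit 65806370658) (nat_lit 152) (nat_lit 169434165) (nat_lit 0) (nat_lit 10420722253) (nat_lit 8) (nat_lit 5) (nat_lit 10) (nat_lit 4) (nat_lit 8) (nat_lit 4) (nat_lit 391) (nat_lit 266) (nat_lit 123)))) (XT.nd (nat_lit 78) (nat_lit 0) (nat_lit 0) (XT.lf (nat_lit 0) (nat_lit 8769177825) (nat_lit 76) (nat_lit 62582235559) (nat_lit 76) (nat_lit 7172690095) (nat_lit 7) (nat_lit 4) (nat_lit 8) (nat_lit 5) (nat_lit 8) (nat_lit 4) (nat_lit 392) (nat_lit 266) (nat_lit 122)) (XT.nd (nat_lit 78) (nat_lit 0) (nat_lit 0) (XT.lf (nat_lit 0) (nat_lit 17972133766) (nat_lit 76) (nat_lit 59088101226) (nat_lit 76) (nat_lit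 3655354734) (nat_lit 7) (nat_lit 4) (nat_lit 8) (nat_lit 5) (nat_lit 8) (nat_lit 4) (nat_lit 393) (nat_lit 266) (nat_lit 121)) (XT.lf (nat_lit 0) (nat_lit 27444103003) (nat_lit 76) (nat_lit 55492059653) (nat_lit 76) (nat_lit 36787890) (nat_lit 7) (nat_lit 4) (nat_lit 8) (nat_lit 5) (nat_lit 8) (nat_lit 4) (nat_lit 394) (nat_lit 266) (nat_lit 120)))))) (XT.nd (nat_lit 390) (nat_lit 608) (nat_lit 0) (XT.nd (nat_lit 156) (nat_lit 456) (nat_lit 0) (XT.nd (nat_lit 78) (nat_lit 0) (nat_lit 0) (XT.lf (nat_lit 0) (nat_lit 36351266) (nat_lit 532) (nat_lit 1647834729) (nat_lit 532) (nat_lit 1647834729) (nat_lit 219) (nat_lit 3) (nat_lit 226) (nat_lit 3) (nat_lit 226) (nat_lit 5) (nat_lit 267) (nat_lit 267) (nat_lit 246)) (XT.lf (nat_lit 0) (nat_lit 2019504497) (nat_lit 532) (nat_lit 520535655) (nat_lit 532) (nat_lit 4156944101) (nat_lit 219) (nat_lit 3) (nat_lit 226) (nat_lit 3) (nat_lit 226) (nat_lit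 5) (nat_lit 268) (nat_lit 267) (nat_lit 245))) (XT.nd (nat_lit 78) (nat_lit 456) (nat_lit 0) (XT.lf (nat_lit 76) (nat_lit 2344322746) (nat_lit 0) (nat_lit 1626987161) (nat_lit 532) (nat_lit 2761544896) (nat_lit 220) (nat_lit 5) (nat_lit 219) (nat_lit 3) (nat_lit 226) (nat_lit 5) (nat_lit 269) (nat_lit 267) (nat_lit 244)) (XT.nd (nat_lit 78) (nat_lit 456) (nat_lit 0) (XT.lf (nat_lit 76) (nat_lit 5266906828) (nat_lit 0) (nat_lit 645921245) (nat_lit 532) (nat_lit 859366260) (nat_lit 220) (nat_lit 5) (nat_lit 219) (nat_lit 3) (nat_lit 226) (nat_lit 5) (nat_lit 270) (nat_lit 267) (nat_lit 243)) (XT.lf (nat_lit 0) (nat_lit 1023385708) (nat_lit 532) (nat_lit 5376035062) (nat_lit 608) (nat_lit 414935793) (nat_lit 213) (nat_lit 5) (nat_lit 220) (nat_lit 5) (nat_lit 221) (nat_lit 5) (nat_lit 271) (nat_lit 267) (nat_lit 242))))) (XT.nd (nat_lit 234) (nat_lit 608) (nat_lit 0) (XT.nd (nat_lit 78) (nat_lit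 0) (nat_lit 0) (XT.lf (nat_lit 0) (nat_lit 2896187693) (nat_lit 532) (nat_lit 2413162256) (nat_lit 608) (nat_lit 1549953076) (nat_lit 213) (nat_lit 5) (nat_lit 220) (nat_lit 5) (nat_lit 221) (nat_lit 5) (nat_lit 272) (nat_lit 267) (nat_lit 241)) (XT.nd (nat_lit 78) (nat_lit 0) (nat_lit 0) (XT.lf (nat_lit 76) (nat_lit 609840639) (nat_lit 0) (nat_lit 4152354150) (nat_lit 608) (nat_lit 2145583546) (nat_lit 214) (nat_lit 5) (nat_lit 213) (nat_lit 5) (nat_lit 221) (nat_lit 5) (nat_lit 273) (nat_lit 267) (nat_lit 240)) (XT.lf (nat_lit 76) (nat_lit 3732743392) (nat_lit 0) (nat_lit 2908583904) (nat_lit 608) (nat_lit 317948859) (nat_lit 214) (nat_lit 5) (nat_lit 213) (nat_lit 5) (nat_lit 221) (nat_lit 5) (nat_lit 274) (nat_lit 267) (nat_lit 239)))) (XT.nd (nat_lit 78) (nat_lit 0) (nat_lit 0) (XT.lf (nat_lit 0) (nat_lit 1467805277) (nat_lit 608) (nat_lit 118693395) (nat_lit 684) (nat_lit 5427620859)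 (nat_lit 205) (nat_lit 5) (nat_lit 213) (nat_lit 5) (nat_lit 214) (nat_lit 5) (nat_lit 275) (nat_lit 267) (nat_lit 238)) (XT.nd (nat_lit 78) (nat_lit 0) (nat_lit 76) (XT.lf (nat_lit 76) (nat_lit 3100245997) (nat_lit 0) (nat_lit 166044356) (nat_lit 684) (nat_lit 3805515576) (nat_lit 206) (nat_lit 5) (nat_lit 205) (nat_lit 5) (nat_lit 214) (nat_lit 5) (nat_lit 276) (nat_lit 267) (nat_lit 237)) (XT.lf (nat_lit 0) (nat_lit 5069878564) (nat_lit 608) (nat_lit 766938201) (nat_lit 684) (nat_lit 1296122791) (nat_lit 206) (nat_lit 5) (nat_lit 214) (nat_lit 5) (nat_lit 215) (nat_lit 5) (nat_lit 277) (nat_lit 267) (nat_lit 236))))))) (XT.nd (nat_lit 858) (nat_lit 3724) (nat_lit 0) (XT.nd (nat_lit 390) (nat_lit 2660) (nat_lit 0) (XT.nd (nat_lit 156) (nat_lit 608) (nat_lit 0) (XT.nd (nat_lit 78) (nat_lit 684) (nat_lit 0) (XT.lf (nat_lit 76) (nat_lit 2541521688) (nat_lit 0) (nat_lit 4351419009) (nat_lit 684)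 (nat_lit 304249285) (nat_lit 207) (nat_lit 5) (nat_lit 206) (nat_lit 5) (nat_lit 215) (nat_lit 5) (nat_lit 278) (nat_lit 267) (nat_lit 235)) (XT.lf (nat_lit 0) (nat_lit 1425591923) (nat_lit 684) (nat_lit 1354027617) (nat_lit 760) (nat_lit 4485113130) (nat_lit 197) (nat_lit 5) (nat_lit 206) (nat_lit 5) (nat_lit 207) (nat_lit 5) (nat_lit 279) (nat_lit 267) (nat_lit 234))) (XT.nd (nat_lit 78) (nat_lit 608) (nat_lit 0) (XT.lf (nat_lit 76) (nat_lit 2043444423) (nat_lit 0) (nat_lit 1119020679) (nat_lit 760) (nat_lit 4173131704) (nat_lit 198) (nat_lit 5) (nat_lit 197) (nat_lit 5) (nat_lit 207) (nat_lit 5) (nat_lit 280) (nat_lit 267) (nat_lit 233)) (XT.nd (nat_lit 78) (nat_lit 684) (nat_lit 0) (XT.lf (nat_lit 0) (nat_lit 4914033061) (nat_lit 684) (nat_lit 1885183410) (nat_lit 76) (nat_lit 610709332) (nat_lit 198) (nat_lit 5) (nat_lit 207) (nat_lit 5) (nat_lit 199) (nat_lit 5) (nat_lit 281) (nat_lit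 267) (nat_lit 232)) (XT.lf (nat_lit 0) (nat_lit 1603641676) (nat_lit 684) (nat_lit 5085753718) (nat_lit 760) (nat_lit 798162142) (nat_lit 189) (nat_lit 5) (nat_lit 198) (nat_lit 5) (nat_lit 199) (nat_lit 5) (nat_lit 282) (nat_lit 267) (nat_lit 231))))) (XT.nd (nat_lit 234) (nat_lit 1824) (nat_lit 0) (XT.nd (nat_lit 78) (nat_lit 760) (nat_lit 0) (XT.lf (nat_lit 0) (nat_lit 896418514) (nat_lit 760) (nat_lit 2381953161) (nat_lit 76) (nat_lit 4290136684) (nat_lit 188) (nat_lit 5) (nat_lit 198) (nat_lit 5) (nat_lit 189) (nat_lit 5) (nat_lit 283) (nat_lit 267) (nat_lit 230)) (XT.nd (nat_lit 78) (nat_lit 0) (nat_lit 0) (XT.lf (nat_lit 0) (nat_lit 1200339557) (nat_lit 760) (nat_lit 1383828780) (nat_lit 836) (nat_lit 5068923512) (nat_lit 178) (nat_lit 5) (nat_lit 188) (nat_lit 5) (nat_lit 189) (nat_lit 5) (nat_lit 284) (nat_lit 267) (nat_lit 229)) (XT.lf (nat_lit 0) (nat_lit 4300415229) (nat_lit 836)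 (nat_lit 2847974443) (nat_lit 76) (nat_lit 592674070) (nat_lit 178) (nat_lit 5) (nat_lit 189) (nat_lit 5) (nat_lit 179) (nat_lit 5) (nat_lit 285) (nat_lit 267) (nat_lit 228)))) (XT.nd (nat_lit 78) (nat_lit 988) (nat_lit 0) (XT.lf (nat_lit 0) (nat_lit 826877758) (nat_lit 836) (nat_lit 5212550360) (nat_lit 912) (nat_lit 1793289712) (nat_lit 167) (nat_lit 5) (nat_lit 178) (nat_lit 5) (nat_lit 179) (nat_lit 5) (nat_lit 286) (nat_lit 267) (nat_lit 227)) (XT.nd (nat_lit 78) (nat_lit 988) (nat_lit 0) (XT.lf (nat_lit 0) (nat_lit 4630250230) (nat_lit 836) (nat_lit 3179830581) (nat_lit 912) (nat_lit 117832758) (nat_lit 167) (nat_lit 5) (nat_lit 178) (nat_lit 5) (nat_lit 179) (nat_lit 5) (nat_lit 287) (nat_lit 267) (nat_lit 226)) (XT.lf (nat_lit 0) (nat_lit 475512654) (nat_lit 912) (nat_lit 1057075111) (nat_lit 988) (nat_lit 6494397471) (nat_lit 154) (nat_lit 5) (nat_lit 166) (nat_lit 5) (nat_lit 167)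 (nat_lit 5) (nat_lit 288) (nat_lit 267) (nat_lit 225)))))) (XT.nd (nat_lit 390) (nat_lit 1596) (nat_lit 0) (XT.nd (nat_lit 156) (nat_lit 1140) (nat_lit 0) (XT.nd (nat_lit 78) (nat_lit 988) (nat_lit 0) (XT.lf (nat_lit 0) (nat_lit 3227248938) (nat_lit 988) (nat_lit 3752235880) (nat_lit 76) (nat_lit 1149757513) (nat_lit 154) (nat_lit 5) (nat_lit 167) (nat_lit 5) (nat_lit 155) (nat_lit 5) (nat_lit 289) (nat_lit 267) (nat_lit 224)) (XT.lf (nat_lit 0) (nat_lit 112576444) (nat_lit 988) (nat_lit 4825712608) (nat_lit 1064) (nat_lit 3297468385) (nat_lit 141) (nat_lit 5) (nat_lit 154) (nat_lit 5) (nat_lit 155) (nat_lit 5) (nat_lit 290) (nat_lit 267) (nat_lit 223))) (XT.nd (nat_lit 78) (nat_lit 1140) (nat_lit 0) (XT.lf (nat_lit 0) (nat_lit 4130511586) (nat_lit 988) (nat_lit 2562987950) (nat_lit 1064) (nat_lit 1652335201) (nat_lit 141) (nat_lit 5) (nat_lit 154) (nat_lit 5) (nat_lit 155) (nat_lit 5) (nat_lit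 291) (nat_lit 267) (nat_lit 222)) (XT.nd (nat_lit 78) (nat_lit 1140) (nat_lit 0) (XT.lf (nat_lit 0) (nat_lit 8230403511) (nat_lit 988) (nat_lit 227223932) (nat_lit 1064) (nat_lit 3046570) (nat_lit 141) (nat_lit 5) (nat_lit 154) (nat_lit 5) (nat_lit 155) (nat_lit 5) (nat_lit 292) (nat_lit 267) (nat_lit 221)) (XT.lf (nat_lit 0) (nat_lit 1678570448) (nat_lit 1140) (nat_lit 4704696423) (nat_lit 76) (nat_lit 2194863430) (nat_lit 126) (nat_lit 5) (nat_lit 141) (nat_lit 5) (nat_lit 127) (nat_lit 5) (nat_lit 293) (nat_lit 267) (nat_lit 220))))) (XT.nd (nat_lit 234) (nat_lit 1064) (nat_lit 0) (XT.nd (nat_lit 78) (nat_lit 532) (nat_lit 0) (XT.lf (nat_lit 0) (nat_lit 3373073225) (nat_lit 1140) (nat_lit 635887802) (nat_lit 76) (nat_lit 4691408368) (nat_lit 126) (nat_lit 5) (nat_lit 141) (nat_lit 5) (nat_lit 127) (nat_lit 5) (nat_lit 294) (nat_lit 267) (nat_lit 219)) (XT.nd (nat_lit 78) (nat_lit 0) (nat_lit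 0) (XT.lf (nat_lit 0) (nat_lit 3586609580) (nat_lit 532) (nat_lit 1525404826) (nat_lit 608) (nat_lit 3714584200) (nat_lit 119) (nat_lit 5) (nat_lit 126) (nat_lit 5) (nat_lit 127) (nat_lit 5) (nat_lit 295) (nat_lit 267) (nat_lit 218)) (XT.lf (nat_lit 0) (nat_lit 6879506938) (nat_lit 608) (nat_lit 1056930751) (nat_lit 76) (nat_lit 1021012735) (nat_lit 119) (nat_lit 5) (nat_lit 127) (nat_lit 5) (nat_lit 120) (nat_lit 5) (nat_lit 296) (nat_lit 267) (nat_lit 217)))) (XT.nd (nat_lit 78) (nat_lit 608) (nat_lit 0) (XT.lf (nat_lit 0) (nat_lit 3261979376) (nat_lit 456) (nat_lit 5445641677) (nat_lit 532) (nat_lit 384502362) (nat_lit 113) (nat_lit 5) (nat_lit 119) (nat_lit 5) (nat_lit 120) (nat_lit 5) (nat_lit 297) (nat_lit 267) (nat_lit 216)) (XT.nd (nat_lit 78) (nat_lit 532) (nat_lit 0) (XT.lf (nat_lit 0) (nat_lit 1305398439) (nat_lit 532) (nat_lit 1550269755) (nat_lit 76) (nat_lit 6375727014) (nat_lit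 112) (nat_lit 5) (nat_lit 119) (nat_lit 5) (nat_lit 113) (nat_lit 5) (nat_lit 298) (nat_lit 267) (nat_lit 215)) (XT.lf (nat_lit 0) (nat_lit 2872677412) (nat_lit 532) (nat_lit 155739917) (nat_lit 608) (nat_lit 6346722182) (nat_lit 105) (nat_lit 5) (nat_lit 112) (nat_lit 5) (nat_lit 113) (nat_lit 5) (nat_lit 299) (nat_lit 267) (nat_lit 214))))))))
noncomputable def xc133 : XT := (XT.nd (nat_lit 1716) (nat_lit 2052) (nat_lit 0) (XT.nd (nat_lit 858) (nat_lit 1672) (nat_lit 0) (XT.nd (nat_lit 390) (nat_lit 1216) (nat_lit 0) (XT.nd (nat_lit 156) (nat_lit 532) (nat_lit 0) (XT.nd (nat_lit 78) (nat_lit 456) (nat_lit 0) (XT.lf (nat_lit 0) (nat_lit 4807435640) (nat_lit 608) (nat_lit 2126435838) (nat_lit 76) (nat_lit 2589305146) (nat_lit 105) (nat_lit 5) (nat_lit 113) (nat_lit 5) (nat_lit 106) (nat_lit 5) (nat_lit 300) (nat_lit 267) (nat_lit 213)) (XT.lf (nat_lit 0) (nat_lit 2388647682) (nat_lit 456) (nat_lit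 4240014188) (nat_lit 532) (nat_lit 3047434409) (nat_lit 99) (nat_lit 5) (nat_lit 105) (nat_lit 5) (nat_lit 106) (nat_lit 5) (nat_lit 301) (nat_lit 267) (nat_lit 212))) (XT.nd (nat_lit 78) (nat_lit 532) (nat_lit 0) (XT.lf (nat_lit 0) (nat_lit 7045846504) (nat_lit 456) (nat_lit 1445169308) (nat_lit 532) (nat_lit 1343096432) (nat_lit 99) (nat_lit 5) (nat_lit 105) (nat_lit 5) (nat_lit 106) (nat_lit 5) (nat_lit 302) (nat_lit 267) (nat_lit 211)) (XT.nd (nat_lit 78) (nat_lit 0) (nat_lit 0) (XT.lf (nat_lit 0) (nat_lit 401598910) (nat_lit 532) (nat_lit 8170097169) (nat_lit 76) (nat_lit 1425232975) (nat_lit 92) (nat_lit 5) (nat_lit 99) (nat_lit 5) (nat_lit 93) (nat_lit 5) (nat_lit 303) (nat_lit 267) (nat_lit 210)) (XT.lf (nat_lit 0) (nat_lit 2180614708) (nat_lit 532) (nat_lit 3591489033) (nat_lit 76) (nat_lit 4391953122) (nat_lit 92) (nat_lit 5) (nat_lit 99) (nat_lit 5) (nat_lit 93) (nat_lit 5) (nat_lit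 304) (nat_lit 267) (nat_lit 209))))) (XT.nd (nat_lit 234) (nat_lit 456) (nat_lit 0) (XT.nd (nat_lit 78) (nat_lit 380) (nat_lit 0) (XT.lf (nat_lit 0) (nat_lit 1109865763) (nat_lit 380) (nat_lit 2881018590) (nat_lit 456) (nat_lit 6346069562) (nat_lit 87) (nat_lit 5) (nat_lit 92) (nat_lit 5) (nat_lit 93) (nat_lit 5) (nat_lit 305) (nat_lit 267) (nat_lit 208)) (XT.nd (nat_lit 78) (nat_lit 380) (nat_lit 0) (XT.lf (nat_lit 0) (nat_lit 5860807083) (nat_lit 456) (nat_lit 4526288292) (nat_lit 76) (nat_lit 127871389) (nat_lit 87) (nat_lit 5) (nat_lit 93) (nat_lit 5) (nat_lit 88) (nat_lit 5) (nat_lit 306) (nat_lit 267) (nat_lit 207)) (XT.lf (nat_lit 0) (nat_lit 256152724) (nat_lit 380) (nat_lit 7530388631) (nat_lit 456) (nat_lit 2911873863) (nat_lit 82) (nat_lit 5) (nat_lit 87) (nat_lit 5) (nat_lit 88) (nat_lit 5) (nat_lit 307) (nat_lit 267) (nat_lit 206)))) (XT.nd (nat_lit 78) (nat_lit 456) (nat_lit 0)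 (XT.lf (nat_lit 0) (nat_lit 5239346611) (nat_lit 380) (nat_lit 4545703889) (nat_lit 456) (nat_lit 1101950652) (nat_lit 82) (nat_lit 5) (nat_lit 87) (nat_lit 5) (nat_lit 88) (nat_lit 5) (nat_lit 308) (nat_lit 267) (nat_lit 205)) (XT.nd (nat_lit 78) (nat_lit 380) (nat_lit 0) (XT.lf (nat_lit 0) (nat_lit 717210897) (nat_lit 456) (nat_lit 751686489) (nat_lit 76) (nat_lit 9613112282) (nat_lit 81) (nat_lit 5) (nat_lit 87) (nat_lit 5) (nat_lit 82) (nat_lit 5) (nat_lit 309) (nat_lit 267) (nat_lit 204)) (XT.lf (nat_lit 0) (nat_lit 2597939616) (nat_lit 456) (nat_lit 6968436281) (nat_lit 76) (nat_lit 1715367989) (nat_lit 76) (nat_lit 5) (nat_lit 82) (nat_lit 5) (nat_lit 77) (nat_lit 5) (nat_lit 310) (nat_lit 267) (nat_lit 203)))))) (XT.nd (nat_lit 390) (nat_lit 912) (nat_lit 0) (XT.nd (nat_lit 156) (nat_lit 380) (nat_lit 0) (XT.nd (nat_lit 78) (nat_lit 380) (nat_lit 0) (XT.lf (nat_lit 0) (nat_lit 4528474412)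 (nat_lit 456) (nat_lit 1990882918) (nat_lit 76) (nat_lit 4968386008) (nat_lit 76) (nat_lit 5) (nat_lit 82) (nat_lit 5) (nat_lit 77) (nat_lit 5) (nat_lit 311) (nat_lit 267) (nat_lit 202)) (XT.lf (nat_lit 0) (nat_lit 3164067388) (nat_lit 380) (nat_lit 3355287342) (nat_lit 456) (nat_lit 5180567715) (nat_lit 71) (nat_lit 5) (nat_lit 76) (nat_lit 5) (nat_lit 77) (nat_lit 5) (nat_lit 312) (nat_lit 267) (nat_lit 201))) (XT.nd (nat_lit 78) (nat_lit 380) (nat_lit 0) (XT.lf (nat_lit 0) (nat_lit 8481135460) (nat_lit 380) (nat_lit 81439146) (nat_lit 456) (nat_lit 3356184366) (nat_lit 71) (nat_lit 5) (nat_lit 76) (nat_lit 5) (nat_lit 77) (nat_lit 5) (nat_lit 313) (nat_lit 267) (nat_lit 200)) (XT.nd (nat_lit 78) (nat_lit 76) (nat_lit 0) (XT.lf (nat_lit 0) (nat_lit 1783541542) (nat_lit 304) (nat_lit 8905580758) (nat_lit 380) (nat_lit 1454445749) (nat_lit 67) (nat_lit 5) (nat_lit 71) (nat_lit 5) (nat_lit 72)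 (nat_lit 5) (nat_lit 314) (nat_lit 267) (nat_lit 199)) (XT.lf (nat_lit 0) (nat_lit 503759739) (nat_lit 380) (nat_lit 5181722545) (nat_lit 76) (nat_lit 6689280448) (nat_lit 66) (nat_lit 5) (nat_lit 71) (nat_lit 5) (nat_lit 67) (nat_lit 5) (nat_lit 315) (nat_lit 267) (nat_lit 198))))) (XT.nd (nat_lit 234) (nat_lit 608) (nat_lit 0) (XT.nd (nat_lit 78) (nat_lit 0) (nat_lit 0) (XT.lf (nat_lit 0) (nat_lit 107141271) (nat_lit 304) (nat_lit 2359535091) (nat_lit 380) (nat_lit 10146591530) (nat_lit 62) (nat_lit 5) (nat_lit 66) (nat_lit 5) (nat_lit 67) (nat_lit 5) (nat_lit 316) (nat_lit 267) (nat_lit 197)) (XT.nd (nat_lit 78) (nat_lit 0) (nat_lit 0) (XT.lf (nat_lit 0) (nat_lit 4526118788) (nat_lit 380) (nat_lit 7240152588) (nat_lit 76) (nat_lit 1091588447) (nat_lit 62) (nat_lit 5) (nat_lit 67) (nat_lit 5) (nat_lit 63) (nat_lit 5) (nat_lit 317) (nat_lit 267) (nat_lit 196)) (XT.lf (nat_lit 0) (nat_lit 6645993714)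 (nat_lit 380) (nat_lit 1871520701) (nat_lit 76) (nat_lit 4592374614) (nat_lit 62) (nat_lit 5) (nat_lit 67) (nat_lit 5) (nat_lit 63) (nat_lit 5) (nat_lit 318) (nat_lit 267) (nat_lit 195)))) (XT.nd (nat_lit 78) (nat_lit 304) (nat_lit 0) (XT.lf (nat_lit 0) (nat_lit 3699328595) (nat_lit 304) (nat_lit 5141703777) (nat_lit 380) (nat_lit 4528156991) (nat_lit 58) (nat_lit 5) (nat_lit 62) (nat_lit 5) (nat_lit 63) (nat_lit 5) (nat_lit 319) (nat_lit 267) (nat_lit 194)) (XT.nd (nat_lit 78) (nat_lit 304) (nat_lit 0) (XT.lf (nat_lit 0) (nat_lit 9444943141) (nat_lit 304) (nat_lit 1652288487) (nat_lit 380) (nat_lit 2539233402) (nat_lit 58) (nat_lit 5) (nat_lit 62) (nat_lit 5) (nat_lit 63) (nat_lit 5) (nat_lit 320) (nat_lit 267) (nat_lit 193)) (XT.lf (nat_lit 0) (nat_lit 1429899648) (nat_lit 304) (nat_lit 12000659367) (nat_lit 380) (nat_lit 480970677) (nat_lit 54) (nat_lit 5) (nat_lit 58) (nat_lit 5) (nat_lit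 59) (nat_lit 5) (nat_lit 321) (nat_lit 267) (nat_lit 192))))))) (XT.nd (nat_lit 858) (nat_lit 912) (nat_lit 0) (XT.nd (nat_lit 390) (nat_lit 532) (nat_lit 0) (XT.nd (nat_lit 156) (nat_lit 532) (nat_lit 0) (XT.nd (nat_lit 78) (nat_lit 0) (nat_lit 0) (XT.lf (nat_lit 0) (nat_lit 1643295681) (nat_lit 380) (nat_lit 6950935437) (nat_lit 76) (nat_lit 5599106222) (nat_lit 53) (nat_lit 5) (nat_lit 58) (nat_lit 5) (nat_lit 54) (nat_lit 5) (nat_lit 322) (nat_lit 267) (nat_lit 191)) (XT.lf (nat_lit 0) (nat_lit 3799423783) (nat_lit 380) (nat_lit 1288898611) (nat_lit 76) (nat_lit 9395849342) (nat_lit 53) (nat_lit 5) (nat_lit 58) (nat_lit 5) (nat_lit 54) (nat_lit 5) (nat_lit 323) (nat_lit 267) (nat_lit 190))) (XT.nd (nat_lit 78) (nat_lit 304) (nat_lit 0) (XT.lf (nat_lit 0) (nat_lit 4603889696) (nat_lit 228) (nat_lit 1439048802) (nat_lit 304) (nat_lit 8740159554) (nat_lit 50) (nat_lit 5) (nat_lit 53) (nat_lit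 5) (nat_lit 54) (nat_lit 5) (nat_lit 324) (nat_lit 267) (nat_lit 189)) (XT.nd (nat_lit 78) (nat_lit 304) (nat_lit 0) (XT.lf (nat_lit 0) (nat_lit 8367929097) (nat_lit 304) (nat_lit 4442421277) (nat_lit 76) (nat_lit 2280263237) (nat_lit 50) (nat_lit 5) (nat_lit 54) (nat_lit 5) (nat_lit 51) (nat_lit 5) (nat_lit 325) (nat_lit 267) (nat_lit 188)) (XT.lf (nat_lit 0) (nat_lit 1452135346) (nat_lit 304) (nat_lit 9318088294) (nat_lit 380) (nat_lit 4636949587) (nat_lit 46) (nat_lit 5) (nat_lit 50) (nat_lit 5) (nat_lit 51) (nat_lit 5) (nat_lit 326) (nat_lit 267) (nat_lit 187))))) (XT.nd (nat_lit 234) (nat_lit 228) (nat_lit 0) (XT.nd (nat_lit 78) (nat_lit 304) (nat_lit 0) (XT.lf (nat_lit 0) (nat_lit 7586450150) (nat_lit 304) (nat_lit 5682675014) (nat_lit 380) (nat_lit 2463412220) (nat_lit 46) (nat_lit 5) (nat_lit 50) (nat_lit 5) (nat_lit 51) (nat_lit 5) (nat_lit 327) (nat_lit 267) (nat_lit 186)) (XT.nd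 (nat_lit 78) (nat_lit 304) (nat_lit 0) (XT.lf (nat_lit 0) (nat_lit 13877470321) (nat_lit 304) (nat_lit 1945793703) (nat_lit 380) (nat_lit 245032950) (nat_lit 46) (nat_lit 5) (nat_lit 50) (nat_lit 5) (nat_lit 51) (nat_lit 5) (nat_lit 328) (nat_lit 267) (nat_lit 185)) (XT.lf (nat_lit 0) (nat_lit 2037702212) (nat_lit 304) (nat_lit 12457733715) (nat_lit 76) (nat_lit 1917017028) (nat_lit 42) (nat_lit 5) (nat_lit 46) (nat_lit 5) (nat_lit 43) (nat_lit 5) (nat_lit 329) (nat_lit 267) (nat_lit 184)))) (XT.nd (nat_lit 78) (nat_lit 228) (nat_lit 0) (XT.lf (nat_lit 0) (nat_lit 4406451489) (nat_lit 304) (nat_lit 6485867097) (nat_lit 76) (nat_lit 5873907541) (nat_lit 42) (nat_lit 5) (nat_lit 46) (nat_lit 5) (nat_lit 43) (nat_lit 5) (nat_lit 330) (nat_lit 267) (nat_lit 183)) (XT.nd (nat_lit 78) (nat_lit 228) (nat_lit 0) (XT.lf (nat_lit 0) (nat_lit 6827670624) (nat_lit 304) (nat_lit 361279520) (nat_lit 76)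 (nat_lit 9942257995) (nat_lit 42) (nat_lit 5) (nat_lit 46) (nat_lit 5) (nat_lit 43) (nat_lit 5) (nat_lit 331) (nat_lit 267) (nat_lit 182)) (XT.lf (nat_lit 0) (nat_lit 6039227681) (nat_lit 228) (nat_lit 3322300314) (nat_lit 304) (nat_lit 8144448328) (nat_lit 39) (nat_lit 5) (nat_lit 42) (nat_lit 5) (nat_lit 43) (nat_lit 5) (nat_lit 332) (nat_lit 267) (nat_lit 181)))))) (XT.nd (nat_lit 390) (nat_lit 380) (nat_lit 0) (XT.nd (nat_lit 156) (nat_lit 304) (nat_lit 0) (XT.nd (nat_lit 78) (nat_lit 228) (nat_lit 0) (XT.lf (nat_lit 0) (nat_lit 11963590008) (nat_lit 304) (nat_lit 5285014705) (nat_lit 76) (nat_lit 643652866) (nat_lit 39) (nat_lit 5) (nat_lit 43) (nat_lit 5) (nat_lit 40) (nat_lit 5) (nat_lit 333) (nat_lit 267) (nat_lit 180)) (XT.lf (nat_lit 0) (nat_lit 1044505096) (nat_lit 228) (nat_lit 13624819874) (nat_lit 304) (nat_lit 3620068622) (nat_lit 36) (nat_lit 5) (nat_lit 39) (nat_lit 5) (nat_lit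 40) (nat_lit 5) (nat_lit 334) (nat_lit 267) (nat_lit 179))) (XT.nd (nat_lit 78) (nat_lit 304) (nat_lit 0) (XT.lf (nat_lit 0) (nat_lit 7647340574) (nat_lit 228) (nat_lit 9845201439) (nat_lit 304) (nat_lit 1204846015) (nat_lit 36) (nat_lit 5) (nat_lit 39) (nat_lit 5) (nat_lit 40) (nat_lit 5) (nat_lit 335) (nat_lit 267) (nat_lit 178)) (XT.nd (nat_lit 78) (nat_lit 228) (nat_lit 0) (XT.lf (nat_lit 0) (nat_lit 1241043157) (nat_lit 304) (nat_lit 4706239855) (nat_lit 76) (nat_lit 13170503780) (nat_lit 35) (nat_lit 5) (nat_lit 39) (nat_lit 5) (nat_lit 36) (nat_lit 5) (nat_lit 336) (nat_lit 267) (nat_lit 177)) (XT.lf (nat_lit 0) (nat_lit 1827787191) (nat_lit 228) (nat_lit 1909606078) (nat_lit 304) (nat_lit 15813038149) (nat_lit 32) (nat_lit 5) (nat_lit 35) (nat_lit 5) (nat_lit 36) (nat_lit 5) (nat_lit 337) (nat_lit 267) (nat_lit 176))))) (XT.nd (nat_lit 234) (nat_lit 228) (nat_lit 0) (XT.nd (nat_lit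 78) (nat_lit 152) (nat_lit 0) (XT.lf (nat_lit 0) (nat_lit 6362153767) (nat_lit 304) (nat_lit 11386448953) (nat_lit 76) (nat_lit 2245876957) (nat_lit 32) (nat_lit 5) (nat_lit 36) (nat_lit 5) (nat_lit 33) (nat_lit 5) (nat_lit 338) (nat_lit 267) (nat_lit 175)) (XT.nd (nat_lit 78) (nat_lit 152) (nat_lit 0) (XT.lf (nat_lit 0) (nat_lit 9068937717) (nat_lit 304) (nat_lit 4902411129) (nat_lit 76) (nat_lit 6480431140) (nat_lit 32) (nat_lit 5) (nat_lit 36) (nat_lit 5) (nat_lit 33) (nat_lit 5) (nat_lit 339) (nat_lit 267) (nat_lit 174)) (XT.lf (nat_lit 0) (nat_lit 1788389123) (nat_lit 152) (nat_lit 10070555937) (nat_lit 228) (nat_lit 9063821825) (nat_lit 30) (nat_lit 5) (nat_lit 32) (nat_lit 5) (nat_lit 33) (nat_lit 5) (nat_lit 340) (nat_lit 267) (nat_lit 173)))) (XT.nd (nat_lit 78) (nat_lit 228) (nat_lit 0) (XT.lf (nat_lit 0) (nat_lit 8757973511) (nat_lit 152) (nat_lit 6009238864) (nat_lit 228) (nat_lit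 6639661579) (nat_lit 30) (nat_lit 5) (nat_lit 32) (nat_lit 5) (nat_lit 33) (nat_lit 5) (nat_lit 341) (nat_lit 267) (nat_lit 172)) (XT.nd (nat_lit 78) (nat_lit 228) (nat_lit 0) (XT.lf (nat_lit 0) (nat_lit 15914864367) (nat_lit 152) (nat_lit 1833353642) (nat_lit 228) (nat_lit 4157748075) (nat_lit 30) (nat_lit 5) (nat_lit 32) (nat_lit 5) (nat_lit 33) (nat_lit 5) (nat_lit 342) (nat_lit 267) (nat_lit 171)) (XT.lf (nat_lit 0) (nat_lit 837524814) (nat_lit 228) (nat_lit 19998746934) (nat_lit 304) (nat_lit 1583256477) (nat_lit 27) (nat_lit 5) (nat_lit 30) (nat_lit 5) (nat_lit 31) (nat_lit 5) (nat_lit 343) (nat_lit 267) (nat_lit 170))))))))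
noncomputable def xc134 : XT := (XT.nd (nat_lit 1716) (nat_lit 532) (nat_lit 0) (XT.nd (nat_lit 858) (nat_lit 304) (nat_lit 0) (XT.nd (nat_lit 390) (nat_lit 380) (nat_lit 0) (XT.nd (nat_lit 156) (nat_lit 152) (nat_lit 0) (XT.nd (nat_lit 78) (nat_lit 0) (nat_lit 0) (XT.lf (nat_lit 0) (nat_lit 1112759351) (nat_lit 304) (nat_lit 15003503497) (nat_lit 76) (nat_lit 6829996388) (nat_lit 26) (nat_lit 5) (nat_lit 30) (nat_lit 5) (nat_lit 27) (nat_lit 5) (nat_lit 344) (nat_lit 267) (nat_lit 169)) (XT.lf (nat_lit 0) (nat_lit 3844134533) (nat_lit 304) (nat_lit 8264315920) (nat_lit 76) (nat_lit 11380306025) (nat_lit 26) (nat_lit 5) (nat_lit 30) (nat_lit 5) (nat_lit 27) (nat_lit 5) (nat_lit 345) (nat_lit 267) (nat_lit 168))) (XT.nd (nat_lit 78) (nat_lit 152) (nat_lit 0) (XT.lf (nat_lit 0) (nat_lit 6644150743) (nat_lit 304) (nat_lit 1343332841) (nat_lit 76) (nat_lit 16060466969) (nat_lit 26) (nat_lit 5)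 (nat_lit 30) (nat_lit 5) (nat_lit 27) (nat_lit 5) (nat_lit 346) (nat_lit 267) (nat_lit 167)) (XT.nd (nat_lit 78) (nat_lit 0) (nat_lit 0) (XT.lf (nat_lit 0) (nat_lit 5880237820) (nat_lit 152) (nat_lit 3691541219) (nat_lit 228) (nat_lit 15050855305) (nat_lit 24) (nat_lit 5) (nat_lit 26) (nat_lit 5) (nat_lit 27) (nat_lit 5) (nat_lit 347) (nat_lit 267) (nat_lit 166)) (XT.lf (nat_lit 0) (nat_lit 12595193160) (nat_lit 228) (nat_lit 11893212006) (nat_lit 76) (nat_lit 725936369) (nat_lit 24) (nat_lit 5) (nat_lit 27) (nat_lit 5) (nat_lit 25) (nat_lit 5) (nat_lit 348) (nat_lit 267) (nat_lit 165))))) (XT.nd (nat_lit 234) (nat_lit 228) (nat_lit 0) (XT.nd (nat_lit 78) (nat_lit 152) (nat_lit 0) (XT.lf (nat_lit 0) (nat_lit 15733441084) (nat_lit 228) (nat_lit 4894451258) (nat_lit 76) (nat_lit 5195204623) (nat_lit 24) (nat_lit 5) (nat_lit 27) (nat_lit 5) (nat_lit 25) (nat_lit 5) (nat_lit 349) (nat_lit 267)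 (nat_lit 164)) (XT.nd (nat_lit 78) (nat_lit 0) (nat_lit 0) (XT.lf (nat_lit 0) (nat_lit 2341171173) (nat_lit 152) (nat_lit 16635113213) (nat_lit 228) (nat_lit 7473537590) (nat_lit 22) (nat_lit 5) (nat_lit 24) (nat_lit 5) (nat_lit 25) (nat_lit 5) (nat_lit 350) (nat_lit 267) (nat_lit 163)) (XT.lf (nat_lit 0) (nat_lit 9875592086) (nat_lit 152) (nat_lit 12478360793) (nat_lit 228) (nat_lit 4740289424) (nat_lit 22) (nat_lit 5) (nat_lit 24) (nat_lit 5) (nat_lit 25) (nat_lit 5) (nat_lit 351) (nat_lit 267) (nat_lit 162)))) (XT.nd (nat_lit 78) (nat_lit 228) (nat_lit 0) (XT.lf (nat_lit 0) (nat_lit 17617985776) (nat_lit 152) (nat_lit 8203427330) (nat_lit 228) (nat_lit 1936947469) (nat_lit 22) (nat_lit 5) (nat_lit 24) (nat_lit 5) (nat_lit 25) (nat_lit 5) (nat_lit 352) (nat_lit 267) (nat_lit 161)) (XT.nd (nat_lit 78) (nat_lit 152) (nat_lit 0) (XT.lf (nat_lit 0) (nat_lit 920615738) (nat_lit 228) (nat_lit 2876665293)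 (nat_lit 76) (nat_lit 24645205290) (nat_lit 21) (nat_lit 5) (nat_lit 24) (nat_lit 5) (nat_lit 22) (nat_lit 5) (nat_lit 353) (nat_lit 267) (nat_lit 160)) (XT.lf (nat_lit 0) (nat_lit 3866459723) (nat_lit 228) (nat_lit 24493820407) (nat_lit 76) (nat_lit 785053398) (nat_lit 19) (nat_lit 5) (nat_lit 22) (nat_lit 5) (nat_lit 20) (nat_lit 5) (nat_lit 354) (nat_lit 267) (nat_lit 159)))))) (XT.nd (nat_lit 390) (nat_lit 152) (nat_lit 0) (XT.nd (nat_lit 156) (nat_lit 152) (nat_lit 0) (XT.nd (nat_lit 78) (nat_lit 0) (nat_lit 0) (XT.lf (nat_lit 0) (nat_lit 6956706883) (nat_lit 228) (nat_lit 17459146245) (nat_lit 76) (nat_lit 5451749236) (nat_lit 19) (nat_lit 5) (nat_lit 22) (nat_lit 5) (nat_lit 20) (nat_lit 5) (nat_lit 355) (nat_lit 267) (nat_lit 158)) (XT.lf (nat_lit 0) (nat_lit 10129073811) (nat_lit 228) (nat_lit 10230298661) (nat_lit 76) (nat_lit 10252500972) (nat_lit 19) (nat_lit 5) (nat_lit 22) (nat_lit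 5) (nat_lit 20) (nat_lit 5) (nat_lit 356) (nat_lit 267) (nat_lit 157))) (XT.nd (nat_lit 78) (nat_lit 152) (nat_lit 0) (XT.lf (nat_lit 0) (nat_lit 13386332479) (nat_lit 228) (nat_lit 2800961187) (nat_lit 76) (nat_lit 15191503438) (nat_lit 19) (nat_lit 5) (nat_lit 22) (nat_lit 5) (nat_lit 20) (nat_lit 5) (nat_lit 357) (nat_lit 267) (nat_lit 156)) (XT.nd (nat_lit 78) (nat_lit 0) (nat_lit 0) (XT.lf (nat_lit 0) (nat_lit 4931590933) (nat_lit 152) (nat_lit 11847143569) (nat_lit 228) (nat_lit 15388886801) (nat_lit 17) (nat_lit 5) (nat_lit 19) (nat_lit 5) (nat_lit 20) (nat_lit 5) (nat_lit 358) (nat_lit 267) (nat_lit 155)) (XT.lf (nat_lit 0) (nat_lit 12937793865) (nat_lit 152) (nat_lit 7353558414) (nat_lit 228) (nat_lit 12688219788) (nat_lit 17) (nat_lit 5) (nat_lit 19) (nat_lit 5) (nat_lit 20) (nat_lit 5) (nat_lit 359) (nat_lit 267) (nat_lit 154))))) (XT.nd (nat_lit 234) (nat_lit 76) (nat_lit 0) (XT.nd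 (nat_lit 78) (nat_lit 76) (nat_lit 0) (XT.lf (nat_lit 0) (nat_lit 21168898698) (nat_lit 152) (nat_lit 2730895982) (nat_lit 228) (nat_lit 9916387994) (nat_lit 17) (nat_lit 5) (nat_lit 19) (nat_lit 5) (nat_lit 20) (nat_lit 5) (nat_lit 360) (nat_lit 267) (nat_lit 153)) (XT.nd (nat_lit 78) (nat_lit 76) (nat_lit 0) (XT.lf (nat_lit 0) (nat_lit 27626679129) (nat_lit 228) (nat_lit 5065550898) (nat_lit 76) (nat_lit 1985370186) (nat_lit 17) (nat_lit 5) (nat_lit 20) (nat_lit 5) (nat_lit 18) (nat_lit 4) (nat_lit 361) (nat_lit 267) (nat_lit 152)) (XT.lf (nat_lit 0) (nat_lit 2755730919) (nat_lit 76) (nat_lit 28754110142) (nat_lit 152) (nat_lit 4053698950) (nat_lit 16) (nat_lit 5) (nat_lit 17) (nat_lit 5) (nat_lit 18) (nat_lit 4) (nat_lit 362) (nat_lit 267) (nat_lit 151)))) (XT.nd (nat_lit 78) (nat_lit 76) (nat_lit 0) (XT.lf (nat_lit 0) (nat_lit 10900994622) (nat_lit 76) (nat_lit 24650722434) (nat_lit 152)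 (nat_lit 923087826) (nat_lit 16) (nat_lit 5) (nat_lit 17) (nat_lit 5) (nat_lit 18) (nat_lit 4) (nat_lit 363) (nat_lit 267) (nat_lit 150)) (XT.nd (nat_lit 78) (nat_lit 0) (nat_lit 0) (XT.lf (nat_lit 0) (nat_lit 2247760791) (nat_lit 152) (nat_lit 18159174783) (nat_lit 76) (nat_lit 17006084268) (nat_lit 15) (nat_lit 5) (nat_lit 17) (nat_lit 5) (nat_lit 16) (nat_lit 5) (nat_lit 364) (nat_lit 267) (nat_lit 149)) (XT.lf (nat_lit 0) (nat_lit 5486665772) (nat_lit 152) (nat_lit 10545084825) (nat_lit 76) (nat_lit 22347624262) (nat_lit 15) (nat_lit 5) (nat_lit 17) (nat_lit 5) (nat_lit 16) (nat_lit 5) (nat_lit 365) (nat_lit 267) (nat_lit 148))))))) (XT.nd (nat_lit 858) (nat_lit 304) (nat_lit 0) (XT.nd (nat_lit 390) (nat_lit 76) (nat_lit 0) (XT.nd (nat_lit 156) (nat_lit 0) (nat_lit 0) (XT.nd (nat_lit 78) (nat_lit 152) (nat_lit 0) (XT.lf (nat_lit 0) (nat_lit 8814469995) (nat_lit 152) (nat_lit 2716014013)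 (nat_lit 76) (nat_lit 27844496513) (nat_lit 15) (nat_lit 5) (nat_lit 17) (nat_lit 5) (nat_lit 16) (nat_lit 5) (nat_lit 366) (nat_lit 267) (nat_lit 147)) (XT.lf (nat_lit 0) (nat_lit 5441053132) (nat_lit 152) (nat_lit 6845330849) (nat_lit 228) (nat_lit 28112753710) (nat_lit 13) (nat_lit 5) (nat_lit 15) (nat_lit 5) (nat_lit 16) (nat_lit 5) (nat_lit 367) (nat_lit 267) (nat_lit 146))) (XT.nd (nat_lit 78) (nat_lit 0) (nat_lit 0) (XT.lf (nat_lit 0) (nat_lit 13885585527) (nat_lit 152) (nat_lit 1996378764) (nat_lit 228) (nat_lit 25571481290) (nat_lit 13) (nat_lit 5) (nat_lit 15) (nat_lit 5) (nat_lit 16) (nat_lit 5) (nat_lit 368) (nat_lit 267) (nat_lit 145)) (XT.nd (nat_lit 78) (nat_lit 0) (nat_lit 0) (XT.lf (nat_lit 0) (nat_lit 19606497407) (nat_lit 228) (nat_lit 19997488675) (nat_lit 76) (nat_lit 2934775003) (nat_lit 13) (nat_lit 5) (nat_lit 16) (nat_lit 5) (nat_lit 14) (nat_lit 4) (nat_lit 369) (nat_lit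 267) (nat_lit 144)) (XT.lf (nat_lit 0) (nat_lit 23455024278) (nat_lit 228) (nat_lit 12232142040) (nat_lit 76) (nat_lit 7969112628) (nat_lit 13) (nat_lit 5) (nat_lit 16) (nat_lit 5) (nat_lit 14) (nat_lit 4) (nat_lit 370) (nat_lit 267) (nat_lit 143))))) (XT.nd (nat_lit 234) (nat_lit 0) (nat_lit 0) (XT.nd (nat_lit 78) (nat_lit 76) (nat_lit 0) (XT.lf (nat_lit 0) (nat_lit 27411717282) (nat_lit 228) (nat_lit 4245844478) (nat_lit 76) (nat_lit 13149989585) (nat_lit 13) (nat_lit 5) (nat_lit 16) (nat_lit 5) (nat_lit 14) (nat_lit 4) (nat_lit 371) (nat_lit 267) (nat_lit 142)) (XT.nd (nat_lit 78) (nat_lit 0) (nat_lit 0) (XT.lf (nat_lit 0) (nat_lit 4047360915) (nat_lit 76) (nat_lit 27471578516) (nat_lit 152) (nat_lit 14473477649) (nat_lit 12) (nat_lit 5) (nat_lit 13) (nat_lit 5) (nat_lit 14) (nat_lit 4) (nat_lit 372) (nat_lit 267) (nat_lit 141)) (XT.lf (nat_lit 0) (nat_lit 12664852748) (nat_lit 76) (nat_lit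 23120418003) (nat_lit 152) (nat_lit 11426490982) (nat_lit 12) (nat_lit 5) (nat_lit 13) (nat_lit 5) (nat_lit 14) (nat_lit 4) (nat_lit 373) (nat_lit 267) (nat_lit 140)))) (XT.nd (nat_lit 78) (nat_lit 0) (nat_lit 0) (XT.lf (nat_lit 0) (nat_lit 21529660237) (nat_lit 76) (nat_lit 18643152941) (nat_lit 152) (nat_lit 8295086352) (nat_lit 12) (nat_lit 5) (nat_lit 13) (nat_lit 5) (nat_lit 14) (nat_lit 4) (nat_lit 374) (nat_lit 267) (nat_lit 139)) (XT.nd (nat_lit 78) (nat_lit 0) (nat_lit 0) (XT.lf (nat_lit 0) (nat_lit 30649529330) (nat_lit 76) (nat_lit 14035871157) (nat_lit 152) (nat_lit 5076527579) (nat_lit 12) (nat_lit 5) (nat_lit 13) (nat_lit 5) (nat_lit 14) (nat_lit 4) (nat_lit 375) (nat_lit 267) (nat_lit 138)) (XT.lf (nat_lit 0) (nat_lit 40032428845) (nat_lit 76) (nat_lit 9294546870) (nat_lit 152) (nat_lit 1768002331) (nat_lit 12) (nat_lit 5) (nat_lit 13) (nat_lit 5) (nat_lit 14) (nat_lit 4) (nat_lit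 376) (nat_lit 267) (nat_lit 137)))))) (XT.nd (nat_lit 390) (nat_lit 76) (nat_lit 0) (XT.nd (nat_lit 156) (nat_lit 0) (nat_lit 0) (XT.nd (nat_lit 78) (nat_lit 152) (nat_lit 0) (XT.lf (nat_lit 0) (nat_lit 1601507203) (nat_lit 152) (nat_lit 2797357890) (nat_lit 76) (nat_lit 48068878145) (nat_lit 11) (nat_lit 5) (nat_lit 13) (nat_lit 5) (nat_lit 12) (nat_lit 5) (nat_lit 377) (nat_lit 267) (nat_lit 136)) (XT.lf (nat_lit 0) (nat_lit 5093117338) (nat_lit 228) (nat_lit 48085156717) (nat_lit 76) (nat_lit 701203812) (nat_lit 9) (nat_lit 5) (nat_lit 12) (nat_lit 5) (nat_lit 10) (nat_lit 4) (nat_lit 378) (nat_lit 267) (nat_lit 135))) (XT.nd (nat_lit 78) (nat_lit 0) (nat_lit 0) (XT.lf (nat_lit 0) (nat_lit 8755508763) (nat_lit 228) (nat_lit 40685595762) (nat_lit 76) (nat_lit 5890486924) (nat_lit 9) (nat_lit 5) (nat_lit 12) (nat_lit 5) (nat_lit 10) (nat_lit 4) (nat_lit 379) (nat_lit 267) (nat_lit 134)) (XT.nd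 (nat_lit 78) (nat_lit 0) (nat_lit 0) (XT.lf (nat_lit 0) (nat_lit 12521900429) (nat_lit 228) (nat_lit 33073892171) (nat_lit 76) (nat_lit 11231659658) (nat_lit 9) (nat_lit 5) (nat_lit 12) (nat_lit 5) (nat_lit 10) (nat_lit 4) (nat_lit 380) (nat_lit 267) (nat_lit 133)) (XT.lf (nat_lit 0) (nat_lit 16395583359) (nat_lit 228) (nat_lit 25243394942) (nat_lit 76) (nat_lit 16729389056) (nat_lit 9) (nat_lit 5) (nat_lit 12) (nat_lit 5) (nat_lit 10) (nat_lit 4) (nat_lit 381) (nat_lit 267) (nat_lit 132))))) (XT.nd (nat_lit 234) (nat_lit 76) (nat_lit 0) (XT.nd (nat_lit 78) (nat_lit 0) (nat_lit 0) (XT.lf (nat_lit 0) (nat_lit 20379942324) (nat_lit 228) (nat_lit 17187261891) (nat_lit 76) (nat_lit 22388478960) (nat_lit 9) (nat_lit 5) (nat_lit 12) (nat_lit 5) (nat_lit 10) (nat_lit 4) (nat_lit 382) (nat_lit 267) (nat_lit 131)) (XT.nd (nat_lit 78) (nat_lit 0) (nat_lit 0) (XT.lf (nat_lit 0) (nat_lit 24478458804) (nat_lit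 228) (nat_lit 8898453680) (nat_lit 76) (nat_lit 28213874207) (nat_lit 9) (nat_lit 5) (nat_lit 12) (nat_lit 5) (nat_lit 10) (nat_lit 4) (nat_lit 383) (nat_lit 267) (nat_lit 130)) (XT.lf (nat_lit 0) (nat_lit 28694714025) (nat_lit 228) (nat_lit 369727660) (nat_lit 76) (nat_lit 34210664946) (nat_lit 9) (nat_lit 5) (nat_lit 12) (nat_lit 5) (nat_lit 10) (nat_lit 4) (nat_lit 384) (nat_lit 267) (nat_lit 129)))) (XT.nd (nat_lit 78) (nat_lit 0) (nat_lit 0) (XT.lf (nat_lit 0) (nat_lit 8573671668) (nat_lit 76) (nat_lit 24541135804) (nat_lit 152) (nat_lit 31892834802) (nat_lit 8) (nat_lit 5) (nat_lit 9) (nat_lit 5) (nat_lit 10) (nat_lit 4) (nat_lit 385) (nat_lit 267) (nat_lit 128)) (XT.nd (nat_lit 78) (nat_lit 0) (nat_lit 0) (XT.lf (nat_lit 0) (nat_lit 17784543595) (nat_lit 76) (nat_lit 19881695534) (nat_lit 152) (nat_lit 29125959221) (nat_lit 8) (nat_lit 5) (nat_lit 9) (nat_lit 5) (nat_lit 10) (nat_lit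 4) (nat_lit 386) (nat_lit 267) (nat_lit 127)) (XT.lf (nat_lit 0) (nat_lit 27263578152) (nat_lit 76) (nat_lit 15085783046) (nat_lit 152) (nat_lit 26281081728) (nat_lit 8) (nat_lit 5) (nat_lit 9) (nat_lit 5) (nat_lit 10) (nat_lit 4) (nat_lit 387) (nat_lit 267) (nat_lit 126))))))))
noncomputable def xc135 : XT := (XT.nd (nat_lit 32448) (nat_lit 0) (nat_lit 6460) (XT.nd (nat_lit 31590) (nat_lit 0) (nat_lit 13680) (XT.nd (nat_lit 390) (nat_lit 0) (nat_lit 0) (XT.nd (nat_lit 156) (nat_lit 76) (nat_lit 0) (XT.nd (nat_lit 78) (nat_lit 0) (nat_lit 0) (XT.lf (nat_lit 0) (nat_lit 37019057988) (nat_lit 76) (nat_lit 10149207735) (nat_lit 152) (nat_lit 23355716509) (nat_lit 8) (nat_lit 5) (nat_lit 9) (nat_lit 5) (nat_lit 10) (nat_lit 4) (nat_lit 388) (nat_lit 267) (nat_lit 125)) (XT.lf (nat_lit 0) (nat_lit 47059507310) (nat_lit 76) (nat_lit 5067656090) (nat_lit 152) (nat_lit 20347307420) (nat_lit 8) (nat_lit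 5) (nat_lit 9) (nat_lit 5) (nat_lit 10) (nat_lit 4) (nat_lit 389) (nat_lit 267) (nat_lit 124))) (XT.nd (nat_lit 78) (nat_lit 76) (nat_lit 0) (XT.lf (nat_lit 0) (nat_lit 57231957101) (nat_lit 152) (nat_lit 17091483528) (nat_lit 0) (nat_lit 160125273) (nat_lit 8) (nat_lit 5) (nat_lit 10) (nat_lit 4) (nat_lit 8) (nat_lit 4) (nat_lit 390) (nat_lit 267) (nat_lit 123)) (XT.nd (nat_lit 78) (nat_lit 76) (nat_lit 0) (XT.lf (nat_lit 0) (nat_lit 62535729728) (nat_lit 152) (nat_lit 8575833758) (nat_lit 0) (nat_lit 5440000841) (nat_lit 8) (nat_lit 5) (nat_lit 10) (nat_lit 4) (nat_lit 8) (nat_lit 4) (nat_lit 391) (nat_lit 267) (nat_lit 122)) (XT.lf (nat_lit 0) (nat_lit 191884425) (nat_lit 76) (nat_lit 67804362321) (nat_lit 76) (nat_lit 10685432405) (nat_lit 7) (nat_lit 4) (nat_lit 8) (nat_lit 5) (nat_lit 8) (nat_lit 4) (nat_lit 392) (nat_lit 267) (nat_lit 121))))) (XT.nd (nat_lit 30966) (nat_lit 0) (nat_lit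 15580) (XT.nd (nat_lit 78) (nat_lit 0) (nat_lit 0) (XT.lf (nat_lit 0) (nat_lit 9391354956) (nat_lit 76) (nat_lit 64311664830) (nat_lit 76) (nat_lit 7170209645) (nat_lit 7) (nat_lit 4) (nat_lit 8) (nat_lit 5) (nat_lit 8) (nat_lit 4) (nat_lit 393) (nat_lit 267) (nat_lit 120)) (XT.nd (nat_lit 30810) (nat_lit 0) (nat_lit 16112) (XT.lf (nat_lit 0) (nat_lit 18859940300) (nat_lit 76) (nat_lit 60717018248) (nat_lit 76) (nat_lit 3553693868) (nat_lit 7) (nat_lit 4) (nat_lit 8) (nat_lit 5) (nat_lit 8) (nat_lit 4) (nat_lit 394) (nat_lit 267) (nat_lit 119)) (XT.lf (nat_lit 0) (nat_lit 1964449862) (nat_lit 532) (nat_lit 700578940) (nat_lit 532) (nat_lit 700578940) (nat_lit 219) (nat_lit 3) (nat_lit 226) (nat_lit 3) (nat_lit 226) (nat_lit 5) (nat_lit 268) (nat_lit 268) (nat_lit 244)))) (XT.nd (nat_lit 78) (nat_lit 532) (nat_lit 0) (XT.lf (nat_lit 76) (nat_lit 1427016508) (nat_lit 0) (nat_lit 4408553697) (nat_lit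 532) (nat_lit 933031269) (nat_lit 220) (nat_lit 5) (nat_lit 219) (nat_lit 3) (nat_lit 226) (nat_lit 5) (nat_lit 269) (nat_lit 268) (nat_lit 243)) (XT.nd (nat_lit 78) (nat_lit 0) (nat_lit 0) (XT.lf (nat_lit 0) (nat_lit 914293076) (nat_lit 532) (nat_lit 2487123811) (nat_lit 608) (nat_lit 3407475041) (nat_lit 212) (nat_lit 5) (nat_lit 219) (nat_lit 3) (nat_lit 220) (nat_lit 5) (nat_lit 270) (nat_lit 268) (nat_lit 242)) (XT.lf (nat_lit 76) (nat_lit 413433102) (nat_lit 0) (nat_lit 2317986622) (nat_lit 608) (nat_lit 4120999985) (nat_lit 213) (nat_lit 5) (nat_lit 212) (nat_lit 5) (nat_lit 220) (nat_lit 5) (nat_lit 271) (nat_lit 268) (nat_lit 241)))))) (XT.nd (nat_lit 390) (nat_lit 1368) (nat_lit 0) (XT.nd (nat_lit 156) (nat_lit 532) (nat_lit 0) (XT.nd (nat_lit 78) (nat_lit 0) (nat_lit 76) (XT.lf (nat_lit 76) (nat_lit 3413998766) (nat_lit 0) (nat_lit 1145035947) (nat_lit 608) (nat_lit 2339830460) (nat_lit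 213) (nat_lit 5) (nat_lit 212) (nat_lit 5) (nat_lit 220) (nat_lit 5) (nat_lit 272) (nat_lit 268) (nat_lit 240)) (XT.lf (nat_lit 0) (nat_lit 6375248711) (nat_lit 532) (nat_lit 482201306) (nat_lit 608) (nat_lit 91523475) (nat_lit 213) (nat_lit 5) (nat_lit 220) (nat_lit 5) (nat_lit 221) (nat_lit 5) (nat_lit 273) (nat_lit 268) (nat_lit 239))) (XT.nd (nat_lit 78) (nat_lit 0) (nat_lit 0) (XT.lf (nat_lit 0) (nat_lit 1192066218) (nat_lit 608) (nat_lit 4401548795) (nat_lit 684) (nat_lit 1407747184) (nat_lit 205) (nat_lit 5) (nat_lit 213) (nat_lit 5) (nat_lit 214) (nat_lit 5) (nat_lit 274) (nat_lit 268) (nat_lit 238)) (XT.nd (nat_lit 78) (nat_lit 0) (nat_lit 0) (XT.lf (nat_lit 0) (nat_lit 2939964457) (nat_lit 608) (nat_lit 1316216048) (nat_lit 684) (nat_lit 2801010326) (nat_lit 205) (nat_lit 5) (nat_lit 213) (nat_lit 5) (nat_lit 214) (nat_lit 5) (nat_lit 275) (nat_lit 268) (nat_lit 237)) (XT.lf (nat_lit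 76) (nat_lit 1859630681) (nat_lit 0) (nat_lit 2836163619) (nat_lit 684) (nat_lit 2420486279) (nat_lit 206) (nat_lit 5) (nat_lit 205) (nat_lit 5) (nat_lit 214) (nat_lit 5) (nat_lit 276) (nat_lit 268) (nat_lit 236))))) (XT.nd (nat_lit 234) (nat_lit 760) (nat_lit 0) (XT.nd (nat_lit 78) (nat_lit 608) (nat_lit 0) (XT.lf (nat_lit 76) (nat_lit 5119775685) (nat_lit 0) (nat_lit 1336885355) (nat_lit 684) (nat_lit 722154897) (nat_lit 206) (nat_lit 5) (nat_lit 205) (nat_lit 5) (nat_lit 214) (nat_lit 5) (nat_lit 277) (nat_lit 268) (nat_lit 235)) (XT.nd (nat_lit 78) (nat_lit 0) (nat_lit 0) (XT.lf (nat_lit 0) (nat_lit 961156893) (nat_lit 684) (nat_lit 6037067105) (nat_lit 760) (nat_lit 246314741) (nat_lit 197) (nat_lit 5) (nat_lit 206) (nat_lit 5) (nat_lit 207) (nat_lit 5) (nat_lit 278) (nat_lit 268) (nat_lit 234)) (XT.lf (nat_lit 0) (nat_lit 2656297066) (nat_lit 684) (nat_lit 2758095121) (nat_lit 760) (nat_lit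 1898574320) (nat_lit 197) (nat_lit 5) (nat_lit 206) (nat_lit 5) (nat_lit 207) (nat_lit 5) (nat_lit 279) (nat_lit 268) (nat_lit 233)))) (XT.nd (nat_lit 78) (nat_lit 760) (nat_lit 0) (XT.lf (nat_lit 76) (nat_lit 591882728) (nat_lit 0) (nat_lit 3759407968) (nat_lit 760) (nat_lit 3033903030) (nat_lit 198) (nat_lit 5) (nat_lit 197) (nat_lit 5) (nat_lit 207) (nat_lit 5) (nat_lit 280) (nat_lit 268) (nat_lit 232)) (XT.nd (nat_lit 78) (nat_lit 760) (nat_lit 0) (XT.lf (nat_lit 76) (nat_lit 4060366603) (nat_lit 0) (nat_lit 2009209384) (nat_lit 760) (nat_lit 1391048806) (nat_lit 198) (nat_lit 5) (nat_lit 197) (nat_lit 5) (nat_lit 207) (nat_lit 5) (nat_lit 281) (nat_lit 268) (nat_lit 231)) (XT.lf (nat_lit 76) (nat_lit 54054003) (nat_lit 0) (nat_lit 187152830) (nat_lit 836) (nat_lit 7298843611) (nat_lit 188) (nat_lit 5) (nat_lit 187) (nat_lit 5) (nat_lit 198) (nat_lit 5) (nat_lit 282) (nat_lit 268) (nat_lit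 230))))))) (XT.nd (nat_lit 858) (nat_lit 2584) (nat_lit 0) (XT.nd (nat_lit 390) (nat_lit 3040) (nat_lit 0) (XT.nd (nat_lit 156) (nat_lit 1672) (nat_lit 0) (XT.nd (nat_lit 78) (nat_lit 0) (nat_lit 0) (XT.lf (nat_lit 0) (nat_lit 1892224093) (nat_lit 760) (nat_lit 4009734336) (nat_lit 76) (nat_lit 1719747114) (nat_lit 188) (nat_lit 5) (nat_lit 198) (nat_lit 5) (nat_lit 189) (nat_lit 5) (nat_lit 283) (nat_lit 268) (nat_lit 229)) (XT.lf (nat_lit 0) (nat_lit 3543008964) (nat_lit 760) (nat_lit 470114275) (nat_lit 76) (nat_lit 3694366781) (nat_lit 188) (nat_lit 5) (nat_lit 198) (nat_lit 5) (nat_lit 189) (nat_lit 5) (nat_lit 284) (nat_lit 268) (nat_lit 228))) (XT.nd (nat_lit 78) (nat_lit 912) (nat_lit 0) (XT.lf (nat_lit 0) (nat_lit 3200203131) (nat_lit 760) (nat_lit 2023764030) (nat_lit 836) (nat_lit 2572642770) (nat_lit 178) (nat_lit 5) (nat_lit 188) (nat_lit 5) (nat_lit 189) (nat_lit 5) (nat_lit 285)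 (nat_lit 268) (nat_lit 227)) (XT.nd (nat_lit 78) (nat_lit 912) (nat_lit 0) (XT.lf (nat_lit 0) (nat_lit 6911487289) (nat_lit 836) (nat_lit 937607421) (nat_lit 76) (nat_lit 40800846) (nat_lit 178) (nat_lit 5) (nat_lit 189) (nat_lit 5) (nat_lit 179) (nat_lit 5) (nat_lit 286) (nat_lit 268) (nat_lit 226)) (XT.lf (nat_lit 0) (nat_lit 650274167) (nat_lit 912) (nat_lit 5164610111) (nat_lit 76) (nat_lit 2171082957) (nat_lit 166) (nat_lit 5) (nat_lit 178) (nat_lit 5) (nat_lit 167) (nat_lit 5) (nat_lit 287) (nat_lit 268) (nat_lit 225))))) (XT.nd (nat_lit 234) (nat_lit 2128) (nat_lit 0) (XT.nd (nat_lit 78) (nat_lit 912) (nat_lit 0) (XT.lf (nat_lit 0) (nat_lit 2270630893) (nat_lit 912) (nat_lit 1421009279) (nat_lit 76) (nat_lit 4394277075) (nat_lit 166) (nat_lit 5) (nat_lit 178) (nat_lit 5) (nat_lit 167) (nat_lit 5) (nat_lit 288) (nat_lit 268) (nat_lit 224)) (XT.nd (nat_lit 78) (nat_lit 0) (nat_lit 0) (XT.lf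 (nat_lit 0) (nat_lit 2444838302) (nat_lit 912) (nat_lit 1472549762) (nat_lit 988) (nat_lit 4272300477) (nat_lit 154) (nat_lit 5) (nat_lit 166) (nat_lit 5) (nat_lit 167) (nat_lit 5) (nat_lit 289) (nat_lit 268) (nat_lit 223)) (XT.lf (nat_lit 0) (nat_lit 5591186511) (nat_lit 988) (nat_lit 1887273364) (nat_lit 76) (nat_lit 818935858) (nat_lit 154) (nat_lit 5) (nat_lit 167) (nat_lit 5) (nat_lit 155) (nat_lit 5) (nat_lit 290) (nat_lit 268) (nat_lit 222)))) (XT.nd (nat_lit 78) (nat_lit 1140) (nat_lit 0) (XT.lf (nat_lit 0) (nat_lit 2074095784) (nat_lit 988) (nat_lit 5232252278) (nat_lit 1064) (nat_lit 1102399094) (nat_lit 141) (nat_lit 5) (nat_lit 154) (nat_lit 5) (nat_lit 155) (nat_lit 5) (nat_lit 291) (nat_lit 268) (nat_lit 221)) (XT.nd (nat_lit 78) (nat_lit 1064) (nat_lit 0) (XT.lf (nat_lit 0) (nat_lit 515022781) (nat_lit 1064) (nat_lit 2373798059) (nat_lit 76) (nat_lit 5635312215) (nat_lit 140)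 (nat_lit 5) (nat_lit 154) (nat_lit 5) (nat_lit 141) (nat_lit 5) (nat_lit 292) (nat_lit 268) (nat_lit 220)) (XT.lf (nat_lit 0) (nat_lit 1690623280) (nat_lit 1064) (nat_lit 442665598) (nat_lit 1140) (nat_lit 6510264822) (nat_lit 126) (nat_lit 5) (nat_lit 140) (nat_lit 5) (nat_lit 141) (nat_lit 5) (nat_lit 293) (nat_lit 268) (nat_lit 219)))))) (XT.nd (nat_lit 468) (nat_lit 988) (nat_lit 0) (XT.nd (nat_lit 234) (nat_lit 1064) (nat_lit 0) (XT.nd (nat_lit 78) (nat_lit 532) (nat_lit 0) (XT.lf (nat_lit 0) (nat_lit 3803401821) (nat_lit 1140) (nat_lit 2898764739) (nat_lit 76) (nat_lit 2064422482) (nat_lit 126) (nat_lit 5) (nat_lit 141) (nat_lit 5) (nat_lit 127) (nat_lit 5) (nat_lit 294) (nat_lit 268) (nat_lit 218)) (XT.nd (nat_lit 78) (nat_lit 0) (nat_lit 0) (XT.lf (nat_lit 0) (nat_lit 1259984117) (nat_lit 532) (nat_lit 4240445721) (nat_lit 608) (nat_lit 3393708482) (nat_lit 119) (nat_lit 5) (nat_lit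 126) (nat_lit 5) (nat_lit 127) (nat_lit 5) (nat_lit 295) (nat_lit 268) (nat_lit 217)) (XT.lf (nat_lit 0) (nat_lit 5566036634) (nat_lit 532) (nat_lit 1672722317) (nat_lit 608) (nat_lit 1787166939) (nat_lit 119) (nat_lit 5) (nat_lit 126) (nat_lit 5) (nat_lit 127) (nat_lit 5) (nat_lit 296) (nat_lit 268) (nat_lit 216)))) (XT.nd (nat_lit 78) (nat_lit 608) (nat_lit 0) (XT.lf (nat_lit 0) (nat_lit 808968231) (nat_lit 456) (nat_lit 8199659338) (nat_lit 532) (nat_lit 153777750) (nat_lit 113) (nat_lit 5) (nat_lit 119) (nat_lit 5) (nat_lit 120) (nat_lit 5) (nat_lit 297) (nat_lit 268) (nat_lit 215)) (XT.nd (nat_lit 78) (nat_lit 532) (nat_lit 0) (XT.lf (nat_lit 0) (nat_lit 1513165240) (nat_lit 532) (nat_lit 4094289377) (nat_lit 76) (nat_lit 3694765312) (nat_lit 112) (nat_lit 5) (nat_lit 119) (nat_lit 5) (nat_lit 113) (nat_lit 5) (nat_lit 298) (nat_lit 268) (nat_lit 214)) (XT.lf (nat_lit 0) (nat_lit 259699563)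 (nat_lit 532) (nat_lit 2933449023) (nat_lit 608) (nat_lit 6254160774) (nat_lit 105) (nat_lit 5) (nat_lit 112) (nat_lit 5) (nat_lit 113) (nat_lit 5) (nat_lit 299) (nat_lit 268) (nat_lit 213))))) (XT.nd (nat_lit 234) (nat_lit 532) (nat_lit 0) (XT.nd (nat_lit 78) (nat_lit 456) (nat_lit 0) (XT.lf (nat_lit 0) (nat_lit 4792116396) (nat_lit 532) (nat_lit 137097995) (nat_lit 608) (nat_lit 4667473145) (nat_lit 105) (nat_lit 5) (nat_lit 112) (nat_lit 5) (nat_lit 113) (nat_lit 5) (nat_lit 300) (nat_lit 268) (nat_lit 212)) (XT.nd (nat_lit 78) (nat_lit 456) (nat_lit 0) (XT.lf (nat_lit 0) (nat_lit 6709104002) (nat_lit 608) (nat_lit 352616571) (nat_lit 76) (nat_lit 2689177676) (nat_lit 105) (nat_lit 5) (nat_lit 113) (nat_lit 5) (nat_lit 106) (nat_lit 5) (nat_lit 301) (nat_lit 268) (nat_lit 211)) (XT.lf (nat_lit 0) (nat_lit 4279903647) (nat_lit 456) (nat_lit 4271366720) (nat_lit 532) (nat_lit 1358298948) (nat_lit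 99) (nat_lit 5) (nat_lit 105) (nat_lit 5) (nat_lit 106) (nat_lit 5) (nat_lit 302) (nat_lit 268) (nat_lit 210)))) (XT.nd (nat_lit 78) (nat_lit 456) (nat_lit 0) (XT.lf (nat_lit 0) (nat_lit 338570033) (nat_lit 532) (nat_lit 1053479252) (nat_lit 76) (nat_lit 8681831550) (nat_lit 98) (nat_lit 5) (nat_lit 105) (nat_lit 5) (nat_lit 99) (nat_lit 5) (nat_lit 303) (nat_lit 268) (nat_lit 209)) (XT.nd (nat_lit 78) (nat_lit 0) (nat_lit 0) (XT.lf (nat_lit 0) (nat_lit 2077623702) (nat_lit 532) (nat_lit 6574411146) (nat_lit 76) (nat_lit 1590217935) (nat_lit 92) (nat_lit 5) (nat_lit 99) (nat_lit 5) (nat_lit 93) (nat_lit 5) (nat_lit 304) (nat_lit 268) (nat_lit 208)) (XT.lf (nat_lit 0) (nat_lit 3861544629) (nat_lit 532) (nat_lit 1912059978) (nat_lit 76) (nat_lit 4642379650) (nat_lit 92) (nat_lit 5) (nat_lit 99) (nat_lit 5) (nat_lit 93) (nat_lit 5) (nat_lit 305) (nat_lit 268) (nat_lit 207))))))))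
noncomputable def xc136 : XT := (XT.nd (nat_lit 1716) (nat_lit 1672) (nat_lit 0) (XT.nd (nat_lit 858) (nat_lit 1520) (nat_lit 0) (XT.nd (nat_lit 390) (nat_lit 760) (nat_lit 0) (XT.nd (nat_lit 156) (nat_lit 836) (nat_lit 0) (XT.nd (nat_lit 78) (nat_lit 0) (nat_lit 0) (XT.lf (nat_lit 0) (nat_lit 2912814151) (nat_lit 380) (nat_lit 2783265462) (nat_lit 456) (nat_lit 4899021802) (nat_lit 87) (nat_lit 5) (nat_lit 92) (nat_lit 5) (nat_lit 93) (nat_lit 5) (nat_lit 306) (nat_lit 268) (nat_lit 206)) (XT.lf (nat_lit 0) (nat_lit 7577640243) (nat_lit 456) (nat_lit 2895239031) (nat_lit 76) (nat_lit 307037238) (nat_lit 87) (nat_lit 5) (nat_lit 93) (nat_lit 5) (nat_lit 88) (nat_lit 5) (nat_lit 307) (nat_lit 268) (nat_lit 205))) (XT.nd (nat_lit 78) (nat_lit 456) (nat_lit 0) (XT.lf (nat_lit 0) (nat_lit 2013353275) (nat_lit 380) (nat_lit 7519726930) (nat_lit 456) (nat_lit 1436754545) (nat_lit 82) (nat_lit 5)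 (nat_lit 87) (nat_lit 5) (nat_lit 88) (nat_lit 5) (nat_lit 308) (nat_lit 268) (nat_lit 204)) (XT.nd (nat_lit 78) (nat_lit 380) (nat_lit 0) (XT.lf (nat_lit 0) (nat_lit 374504001) (nat_lit 456) (nat_lit 4074106374) (nat_lit 76) (nat_lit 6716800444) (nat_lit 81) (nat_lit 5) (nat_lit 87) (nat_lit 5) (nat_lit 82) (nat_lit 5) (nat_lit 309) (nat_lit 268) (nat_lit 203)) (XT.lf (nat_lit 0) (nat_lit 925440428) (nat_lit 380) (nat_lit 1266226439) (nat_lit 456) (nat_lit 9175421961) (nat_lit 76) (nat_lit 5) (nat_lit 81) (nat_lit 5) (nat_lit 82) (nat_lit 5) (nat_lit 310) (nat_lit 268) (nat_lit 202))))) (XT.nd (nat_lit 234) (nat_lit 380) (nat_lit 0) (XT.nd (nat_lit 78) (nat_lit 380) (nat_lit 0) (XT.lf (nat_lit 0) (nat_lit 4096243973) (nat_lit 456) (nat_lit 5468510491) (nat_lit 76) (nat_lit 2009148288) (nat_lit 76) (nat_lit 5) (nat_lit 82) (nat_lit 5) (nat_lit 77) (nat_lit 5) (nat_lit 311) (nat_lit 268) (nat_lit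 201)) (XT.nd (nat_lit 78) (nat_lit 380) (nat_lit 0) (XT.lf (nat_lit 0) (nat_lit 6043324925) (nat_lit 456) (nat_lit 391406611) (nat_lit 76) (nat_lit 5352699005) (nat_lit 76) (nat_lit 5) (nat_lit 82) (nat_lit 5) (nat_lit 77) (nat_lit 5) (nat_lit 312) (nat_lit 268) (nat_lit 200)) (XT.lf (nat_lit 0) (nat_lit 4901925510) (nat_lit 380) (nat_lit 3167634109) (nat_lit 456) (nat_lit 3937250695) (nat_lit 71) (nat_lit 5) (nat_lit 76) (nat_lit 5) (nat_lit 77) (nat_lit 5) (nat_lit 313) (nat_lit 268) (nat_lit 199)))) (XT.nd (nat_lit 78) (nat_lit 380) (nat_lit 0) (XT.lf (nat_lit 0) (nat_lit 10136505397) (nat_lit 456) (nat_lit 1904727954) (nat_lit 76) (nat_lit 192206807) (nat_lit 71) (nat_lit 5) (nat_lit 77) (nat_lit 5) (nat_lit 72) (nat_lit 5) (nat_lit 314) (nat_lit 268) (nat_lit 198)) (XT.nd (nat_lit 78) (nat_lit 76) (nat_lit 0) (XT.lf (nat_lit 0) (nat_lit 3456234176) (nat_lit 304) (nat_lit 8848602015) (nat_lit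 380) (nat_lit 160915870) (nat_lit 67) (nat_lit 5) (nat_lit 71) (nat_lit 5) (nat_lit 72) (nat_lit 5) (nat_lit 315) (nat_lit 268) (nat_lit 197)) (XT.lf (nat_lit 0) (nat_lit 1791756396) (nat_lit 380) (nat_lit 3736731711) (nat_lit 76) (nat_lit 7176246985) (nat_lit 66) (nat_lit 5) (nat_lit 71) (nat_lit 5) (nat_lit 67) (nat_lit 5) (nat_lit 316) (nat_lit 268) (nat_lit 196)))))) (XT.nd (nat_lit 390) (nat_lit 912) (nat_lit 0) (XT.nd (nat_lit 156) (nat_lit 304) (nat_lit 0) (XT.nd (nat_lit 78) (nat_lit 0) (nat_lit 0) (XT.lf (nat_lit 0) (nat_lit 1695107407) (nat_lit 304) (nat_lit 2096612428) (nat_lit 380) (nat_lit 9159420618) (nat_lit 62) (nat_lit 5) (nat_lit 66) (nat_lit 5) (nat_lit 67) (nat_lit 5) (nat_lit 317) (nat_lit 268) (nat_lit 195)) (XT.lf (nat_lit 0) (nat_lit 5879621764) (nat_lit 380) (nat_lit 5882532348) (nat_lit 76) (nat_lit 1442002952) (nat_lit 62) (nat_lit 5) (nat_lit 67) (nat_lit 5) (nat_lit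 63) (nat_lit 5) (nat_lit 318) (nat_lit 268) (nat_lit 194))) (XT.nd (nat_lit 78) (nat_lit 304) (nat_lit 0) (XT.lf (nat_lit 0) (nat_lit 8027625381) (nat_lit 380) (nat_lit 398710188) (nat_lit 76) (nat_lit 5038560272) (nat_lit 62) (nat_lit 5) (nat_lit 67) (nat_lit 5) (nat_lit 63) (nat_lit 5) (nat_lit 319) (nat_lit 268) (nat_lit 193)) (XT.nd (nat_lit 78) (nat_lit 0) (nat_lit 0) (XT.lf (nat_lit 0) (nat_lit 5324274820) (nat_lit 304) (nat_lit 4944359029) (nat_lit 380) (nat_lit 3464019979) (nat_lit 58) (nat_lit 5) (nat_lit 62) (nat_lit 5) (nat_lit 63) (nat_lit 5) (nat_lit 320) (nat_lit 268) (nat_lit 192)) (XT.lf (nat_lit 0) (nat_lit 11198161696) (nat_lit 304) (nat_lit 1360501937) (nat_lit 380) (nat_lit 1450379606) (nat_lit 58) (nat_lit 5) (nat_lit 62) (nat_lit 5) (nat_lit 63) (nat_lit 5) (nat_lit 321) (nat_lit 268) (nat_lit 191))))) (XT.nd (nat_lit 234) (nat_lit 304) (nat_lit 0) (XT.nd (nat_lit 78)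 (nat_lit 228) (nat_lit 0) (XT.lf (nat_lit 0) (nat_lit 640959351) (nat_lit 380) (nat_lit 11338017531) (nat_lit 76) (nat_lit 2313733220) (nat_lit 53) (nat_lit 5) (nat_lit 58) (nat_lit 5) (nat_lit 54) (nat_lit 5) (nat_lit 322) (nat_lit 268) (nat_lit 190)) (XT.nd (nat_lit 78) (nat_lit 228) (nat_lit 0) (XT.lf (nat_lit 0) (nat_lit 2786470392) (nat_lit 380) (nat_lit 5690240850) (nat_lit 76) (nat_lit 6107175399) (nat_lit 53) (nat_lit 5) (nat_lit 58) (nat_lit 5) (nat_lit 54) (nat_lit 5) (nat_lit 323) (nat_lit 268) (nat_lit 189)) (XT.lf (nat_lit 0) (nat_lit 100831777) (nat_lit 228) (nat_lit 4875559354) (nat_lit 304) (nat_lit 9908052584) (nat_lit 50) (nat_lit 5) (nat_lit 53) (nat_lit 5) (nat_lit 54) (nat_lit 5) (nat_lit 324) (nat_lit 268) (nat_lit 188)))) (XT.nd (nat_lit 78) (nat_lit 304) (nat_lit 0) (XT.lf (nat_lit 0) (nat_lit 6154451538) (nat_lit 228) (nat_lit 1114435293) (nat_lit 304) (nat_lit 7924069566)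 (nat_lit 50) (nat_lit 5) (nat_lit 53) (nat_lit 5) (nat_lit 54) (nat_lit 5) (nat_lit 325) (nat_lit 268) (nat_lit 187)) (XT.nd (nat_lit 78) (nat_lit 304) (nat_lit 0) (XT.lf (nat_lit 0) (nat_lit 9636632556) (nat_lit 304) (nat_lit 3175165398) (nat_lit 76) (nat_lit 2698776147) (nat_lit 50) (nat_lit 5) (nat_lit 54) (nat_lit 5) (nat_lit 51) (nat_lit 5) (nat_lit 326) (nat_lit 268) (nat_lit 186)) (XT.lf (nat_lit 0) (nat_lit 2882497252) (nat_lit 304) (nat_lit 9212188686) (nat_lit 380) (nat_lit 3742498758) (nat_lit 46) (nat_lit 5) (nat_lit 50) (nat_lit 5) (nat_lit 51) (nat_lit 5) (nat_lit 327) (nat_lit 268) (nat_lit 185))))))) (XT.nd (nat_lit 858) (nat_lit 608) (nat_lit 0) (XT.nd (nat_lit 390) (nat_lit 532) (nat_lit 0) (XT.nd (nat_lit 156) (nat_lit 456) (nat_lit 0) (XT.nd (nat_lit 78) (nat_lit 76) (nat_lit 0) (XT.lf (nat_lit 0) (nat_lit 9160449330) (nat_lit 304) (nat_lit 5478939481) (nat_lit 380) (nat_lit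 1533858939) (nat_lit 46) (nat_lit 5) (nat_lit 50) (nat_lit 5) (nat_lit 51) (nat_lit 5) (nat_lit 328) (nat_lit 268) (nat_lit 184)) (XT.lf (nat_lit 0) (nat_lit 707759052) (nat_lit 380) (nat_lit 925945189) (nat_lit 76) (nat_lit 14886078377) (nat_lit 45) (nat_lit 5) (nat_lit 50) (nat_lit 5) (nat_lit 46) (nat_lit 5) (nat_lit 329) (nat_lit 268) (nat_lit 183))) (XT.nd (nat_lit 78) (nat_lit 228) (nat_lit 0) (XT.lf (nat_lit 0) (nat_lit 3042477464) (nat_lit 304) (nat_lit 11489789794) (nat_lit 76) (nat_lit 2342328111) (nat_lit 42) (nat_lit 5) (nat_lit 46) (nat_lit 5) (nat_lit 43) (nat_lit 5) (nat_lit 330) (nat_lit 268) (nat_lit 182)) (XT.nd (nat_lit 78) (nat_lit 228) (nat_lit 0) (XT.lf (nat_lit 0) (nat_lit 5454804437) (nat_lit 304) (nat_lit 5377845117) (nat_lit 76) (nat_lit 6407212701) (nat_lit 42) (nat_lit 5) (nat_lit 46) (nat_lit 5) (nat_lit 43) (nat_lit 5) (nat_lit 331) (nat_lit 268) (nat_lit 181))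 (XT.lf (nat_lit 0) (nat_lit 910303642) (nat_lit 228) (nat_lit 7020422644) (nat_lit 304) (nat_lit 9685659801) (nat_lit 39) (nat_lit 5) (nat_lit 42) (nat_lit 5) (nat_lit 43) (nat_lit 5) (nat_lit 332) (nat_lit 268) (nat_lit 180))))) (XT.nd (nat_lit 234) (nat_lit 304) (nat_lit 0) (XT.nd (nat_lit 78) (nat_lit 228) (nat_lit 0) (XT.lf (nat_lit 0) (nat_lit 7472664147) (nat_lit 228) (nat_lit 3045315279) (nat_lit 304) (nat_lit 7485149253) (nat_lit 39) (nat_lit 5) (nat_lit 42) (nat_lit 5) (nat_lit 43) (nat_lit 5) (nat_lit 333) (nat_lit 268) (nat_lit 179)) (XT.nd (nat_lit 78) (nat_lit 228) (nat_lit 0) (XT.lf (nat_lit 0) (nat_lit 13176115398) (nat_lit 304) (nat_lit 4204083651) (nat_lit 76) (nat_lit 1021510188) (nat_lit 39) (nat_lit 5) (nat_lit 43) (nat_lit 5) (nat_lit 40) (nat_lit 5) (nat_lit 334) (nat_lit 268) (nat_lit 178)) (XT.lf (nat_lit 0) (nat_lit 2303169965) (nat_lit 228) (nat_lit 13646787637) (nat_lit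 304) (nat_lit 2861243406) (nat_lit 36) (nat_lit 5) (nat_lit 39) (nat_lit 5) (nat_lit 40) (nat_lit 5) (nat_lit 335) (nat_lit 268) (nat_lit 177)))) (XT.nd (nat_lit 78) (nat_lit 304) (nat_lit 0) (XT.lf (nat_lit 0) (nat_lit 9068343040) (nat_lit 228) (nat_lit 9765045994) (nat_lit 304) (nat_lit 398828993) (nat_lit 36) (nat_lit 5) (nat_lit 39) (nat_lit 5) (nat_lit 40) (nat_lit 5) (nat_lit 336) (nat_lit 268) (nat_lit 176)) (XT.nd (nat_lit 78) (nat_lit 228) (nat_lit 0) (XT.lf (nat_lit 0) (nat_lit 2079952880) (nat_lit 304) (nat_lit 3673078982) (nat_lit 76) (nat_lit 13912721054) (nat_lit 35) (nat_lit 5) (nat_lit 39) (nat_lit 5) (nat_lit 36) (nat_lit 5) (nat_lit 337) (nat_lit 268) (nat_lit 175)) (XT.lf (nat_lit 0) (nat_lit 3045455659) (nat_lit 228) (nat_lit 1593565858) (nat_lit 304) (nat_lit 15472764710) (nat_lit 32) (nat_lit 5) (nat_lit 35) (nat_lit 5) (nat_lit 36) (nat_lit 5) (nat_lit 338) (nat_lit 268)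 (nat_lit 174)))))) (XT.nd (nat_lit 390) (nat_lit 456) (nat_lit 0) (XT.nd (nat_lit 156) (nat_lit 152) (nat_lit 0) (XT.nd (nat_lit 78) (nat_lit 0) (nat_lit 0) (XT.lf (nat_lit 0) (nat_lit 7323013634) (nat_lit 304) (nat_lit 10578135311) (nat_lit 76) (nat_lit 2668635228) (nat_lit 32) (nat_lit 5) (nat_lit 36) (nat_lit 5) (nat_lit 33) (nat_lit 5) (nat_lit 339) (nat_lit 268) (nat_lit 173)) (XT.lf (nat_lit 0) (nat_lit 10088574057) (nat_lit 304) (nat_lit 3933068792) (nat_lit 76) (nat_lit 7019875105) (nat_lit 32) (nat_lit 5) (nat_lit 36) (nat_lit 5) (nat_lit 33) (nat_lit 5) (nat_lit 340) (nat_lit 268) (nat_lit 172))) (XT.nd (nat_lit 78) (nat_lit 0) (nat_lit 0) (XT.lf (nat_lit 0) (nat_lit 2947510226) (nat_lit 152) (nat_lit 10003624012) (nat_lit 228) (nat_lit 8575875082) (nat_lit 30) (nat_lit 5) (nat_lit 32) (nat_lit 5) (nat_lit 33) (nat_lit 5) (nat_lit 341) (nat_lit 268) (nat_lit 171)) (XT.nd (nat_lit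 78) (nat_lit 0) (nat_lit 0) (XT.lf (nat_lit 0) (nat_lit 10093984006) (nat_lit 152) (nat_lit 5831216414) (nat_lit 228) (nat_lit 6101121915) (nat_lit 30) (nat_lit 5) (nat_lit 32) (nat_lit 5) (nat_lit 33) (nat_lit 5) (nat_lit 342) (nat_lit 268) (nat_lit 170)) (XT.lf (nat_lit 0) (nat_lit 17434321259) (nat_lit 152) (nat_lit 1540490547) (nat_lit 228) (nat_lit 3566238272) (nat_lit 30) (nat_lit 5) (nat_lit 32) (nat_lit 5) (nat_lit 33) (nat_lit 5) (nat_lit 343) (nat_lit 268) (nat_lit 169))))) (XT.nd (nat_lit 234) (nat_lit 152) (nat_lit 0) (XT.nd (nat_lit 78) (nat_lit 76) (nat_lit 0) (XT.lf (nat_lit 0) (nat_lit 1913013000) (nat_lit 228) (nat_lit 20235619487) (nat_lit 304) (nat_lit 921629844) (nat_lit 27) (nat_lit 5) (nat_lit 30) (nat_lit 5) (nat_lit 31) (nat_lit 5) (nat_lit 344) (nat_lit 268) (nat_lit 168)) (XT.nd (nat_lit 78) (nat_lit 0) (nat_lit 0) (XT.lf (nat_lit 0) (nat_lit 1821177818) (nat_lit 304)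 (nat_lit 14419241955) (nat_lit 76) (nat_lit 7372813418) (nat_lit 26) (nat_lit 5) (nat_lit 30) (nat_lit 5) (nat_lit 27) (nat_lit 5) (nat_lit 345) (nat_lit 268) (nat_lit 167)) (XT.lf (nat_lit 0) (nat_lit 4614833022) (nat_lit 304) (nat_lit 7508005935) (nat_lit 76) (nat_lit 12049790097) (nat_lit 26) (nat_lit 5) (nat_lit 30) (nat_lit 5) (nat_lit 27) (nat_lit 5) (nat_lit 346) (nat_lit 268) (nat_lit 166)))) (XT.nd (nat_lit 78) (nat_lit 152) (nat_lit 0) (XT.lf (nat_lit 0) (nat_lit 7479761141) (nat_lit 304) (nat_lit 408643057) (nat_lit 76) (nat_lit 16860800290) (nat_lit 26) (nat_lit 5) (nat_lit 30) (nat_lit 5) (nat_lit 27) (nat_lit 5) (nat_lit 347) (nat_lit 268) (nat_lit 165)) (XT.nd (nat_lit 78) (nat_lit 0) (nat_lit 0) (XT.lf (nat_lit 0) (nat_lit 7022076000) (nat_lit 152) (nat_lit 3463890002) (nat_lit 228) (nat_lit 14855472282) (nat_lit 24) (nat_lit 5) (nat_lit 26) (nat_lit 5) (nat_lit 27) (nat_lit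 5) (nat_lit 348) (nat_lit 268) (nat_lit 164)) (XT.lf (nat_lit 0) (nat_lit 13584977572) (nat_lit 228) (nat_lit 11296558606) (nat_lit 76) (nat_lit 1069844655) (nat_lit 24) (nat_lit 5) (nat_lit 27) (nat_lit 5) (nat_lit 25) (nat_lit 5) (nat_lit 349) (nat_lit 268) (nat_lit 163))))))))
noncomputable def xc137 : XT := (XT.nd (nat_lit 1716) (nat_lit 456) (nat_lit 0) (XT.nd (nat_lit 858) (nat_lit 304) (nat_lit 0) (XT.nd (nat_lit 390) (nat_lit 304) (nat_lit 0) (XT.nd (nat_lit 156) (nat_lit 76) (nat_lit 0) (XT.nd (nat_lit 78) (nat_lit 152) (nat_lit 0) (XT.lf (nat_lit 0) (nat_lit 16799549770) (nat_lit 228) (nat_lit 4115605417) (nat_lit 76) (nat_lit 5663808524) (nat_lit 24) (nat_lit 5) (nat_lit 27) (nat_lit 5) (nat_lit 25) (nat_lit 5) (nat_lit 350) (nat_lit 268) (nat_lit 162)) (XT.lf (nat_lit 0) (nat_lit 3328010399) (nat_lit 152) (nat_lit 16803174889) (nat_lit 228) (nat_lit 7093589191) (nat_lit 22) (nat_lit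 5) (nat_lit 24) (nat_lit 5) (nat_lit 25) (nat_lit 5) (nat_lit 351) (nat_lit 268) (nat_lit 161))) (XT.nd (nat_lit 78) (nat_lit 76) (nat_lit 0) (XT.lf (nat_lit 0) (nat_lit 11061766732) (nat_lit 152) (nat_lit 12531360432) (nat_lit 228) (nat_lit 4295940313) (nat_lit 22) (nat_lit 5) (nat_lit 24) (nat_lit 5) (nat_lit 25) (nat_lit 5) (nat_lit 352) (nat_lit 268) (nat_lit 160)) (XT.nd (nat_lit 78) (nat_lit 76) (nat_lit 0) (XT.lf (nat_lit 0) (nat_lit 19010512615) (nat_lit 152) (nat_lit 8137538708) (nat_lit 228) (nat_lit 1425582307) (nat_lit 22) (nat_lit 5) (nat_lit 24) (nat_lit 5) (nat_lit 25) (nat_lit 5) (nat_lit 353) (nat_lit 268) (nat_lit 159)) (XT.lf (nat_lit 0) (nat_lit 1490332370) (nat_lit 228) (nat_lit 2112488650) (nat_lit 76) (nat_lit 25675811748) (nat_lit 21) (nat_lit 5) (nat_lit 24) (nat_lit 5) (nat_lit 22) (nat_lit 5) (nat_lit 354) (nat_lit 268) (nat_lit 158))))) (XT.nd (nat_lit 234) (nat_lit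 152) (nat_lit 0) (XT.nd (nat_lit 78) (nat_lit 0) (nat_lit 0) (XT.lf (nat_lit 0) (nat_lit 4519815692) (nat_lit 228) (nat_lit 24372582439) (nat_lit 76) (nat_lit 1110334541) (nat_lit 19) (nat_lit 5) (nat_lit 22) (nat_lit 5) (nat_lit 20) (nat_lit 5) (nat_lit 355) (nat_lit 268) (nat_lit 157)) (XT.nd (nat_lit 78) (nat_lit 0) (nat_lit 0) (XT.lf (nat_lit 0) (nat_lit 7687118941) (nat_lit 228) (nat_lit 17151801622) (nat_lit 76) (nat_lit 5908243015) (nat_lit 19) (nat_lit 5) (nat_lit 22) (nat_lit 5) (nat_lit 20) (nat_lit 5) (nat_lit 356) (nat_lit 268) (nat_lit 156)) (XT.lf (nat_lit 0) (nat_lit 10939461416) (nat_lit 228) (nat_lit 9730295961) (nat_lit 76) (nat_lit 10844485032) (nat_lit 19) (nat_lit 5) (nat_lit 22) (nat_lit 5) (nat_lit 20) (nat_lit 5) (nat_lit 357) (nat_lit 268) (nat_lit 155)))) (XT.nd (nat_lit 78) (nat_lit 152) (nat_lit 0) (XT.lf (nat_lit 0) (nat_lit 14279684968) (nat_lit 228) (nat_lit 2101580644)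 (nat_lit 76) (nat_lit 15923373813) (nat_lit 19) (nat_lit 5) (nat_lit 22) (nat_lit 5) (nat_lit 20) (nat_lit 5) (nat_lit 358) (nat_lit 268) (nat_lit 154)) (XT.nd (nat_lit 78) (nat_lit 0) (nat_lit 0) (XT.lf (nat_lit 0) (nat_lit 5855267556) (nat_lit 152) (nat_lit 11911725097) (nat_lit 228) (nat_lit 15350364081) (nat_lit 17) (nat_lit 5) (nat_lit 19) (nat_lit 5) (nat_lit 20) (nat_lit 5) (nat_lit 359) (nat_lit 268) (nat_lit 153)) (XT.lf (nat_lit 0) (nat_lit 14079062530) (nat_lit 152) (nat_lit 7291803245) (nat_lit 228) (nat_lit 12583245678) (nat_lit 17) (nat_lit 5) (nat_lit 19) (nat_lit 5) (nat_lit 20) (nat_lit 5) (nat_lit 360) (nat_lit 268) (nat_lit 152)))))) (XT.nd (nat_lit 390) (nat_lit 152) (nat_lit 0) (XT.nd (nat_lit 156) (nat_lit 152) (nat_lit 0) (XT.nd (nat_lit 78) (nat_lit 0) (nat_lit 0) (XT.lf (nat_lit 0) (nat_lit 22535164542) (nat_lit 152) (nat_lit 2538685073) (nat_lit 228) (nat_lit 9742403222)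 (nat_lit 17) (nat_lit 5) (nat_lit 19) (nat_lit 5) (nat_lit 20) (nat_lit 5) (nat_lit 361) (nat_lit 268) (nat_lit 151)) (XT.lf (nat_lit 0) (nat_lit 28901786566) (nat_lit 228) (nat_lit 4496178571) (nat_lit 76) (nat_lit 2305890876) (nat_lit 17) (nat_lit 5) (nat_lit 20) (nat_lit 5) (nat_lit 18) (nat_lit 4) (nat_lit 362) (nat_lit 268) (nat_lit 150))) (XT.nd (nat_lit 78) (nat_lit 76) (nat_lit 0) (XT.lf (nat_lit 0) (nat_lit 3552669750) (nat_lit 76) (nat_lit 29342640341) (nat_lit 152) (nat_lit 3721267805) (nat_lit 16) (nat_lit 5) (nat_lit 17) (nat_lit 5) (nat_lit 18) (nat_lit 4) (nat_lit 363) (nat_lit 268) (nat_lit 149)) (XT.nd (nat_lit 78) (nat_lit 76) (nat_lit 0) (XT.lf (nat_lit 0) (nat_lit 11921487474) (nat_lit 76) (nat_lit 25124134296) (nat_lit 152) (nat_lit 509962875) (nat_lit 16) (nat_lit 5) (nat_lit 17) (nat_lit 5) (nat_lit 18) (nat_lit 4) (nat_lit 364) (nat_lit 268) (nat_lit 148)) (XT.lf (nat_lit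 0) (nat_lit 2734820457) (nat_lit 152) (nat_lit 18021726737) (nat_lit 76) (nat_lit 17765667607) (nat_lit 15) (nat_lit 5) (nat_lit 17) (nat_lit 5) (nat_lit 16) (nat_lit 5) (nat_lit 365) (nat_lit 268) (nat_lit 147))))) (XT.nd (nat_lit 234) (nat_lit 0) (nat_lit 0) (XT.nd (nat_lit 78) (nat_lit 152) (nat_lit 0) (XT.lf (nat_lit 0) (nat_lit 6058670446) (nat_lit 152) (nat_lit 10199084661) (nat_lit 76) (nat_lit 23260189701) (nat_lit 15) (nat_lit 5) (nat_lit 17) (nat_lit 5) (nat_lit 16) (nat_lit 5) (nat_lit 366) (nat_lit 268) (nat_lit 146)) (XT.nd (nat_lit 78) (nat_lit 152) (nat_lit 0) (XT.lf (nat_lit 0) (nat_lit 9474442640) (nat_lit 152) (nat_lit 2154433551) (nat_lit 76) (nat_lit 28914915593) (nat_lit 15) (nat_lit 5) (nat_lit 17) (nat_lit 5) (nat_lit 16) (nat_lit 5) (nat_lit 367) (nat_lit 268) (nat_lit 145)) (XT.lf (nat_lit 0) (nat_lit 6241041090) (nat_lit 152) (nat_lit 6804073307) (nat_lit 228) (nat_lit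 28553737922) (nat_lit 13) (nat_lit 5) (nat_lit 15) (nat_lit 5) (nat_lit 16) (nat_lit 5) (nat_lit 368) (nat_lit 268) (nat_lit 144)))) (XT.nd (nat_lit 78) (nat_lit 0) (nat_lit 0) (XT.lf (nat_lit 0) (nat_lit 14920363155) (nat_lit 152) (nat_lit 1816835692) (nat_lit 228) (nat_lit 25947947671) (nat_lit 13) (nat_lit 5) (nat_lit 15) (nat_lit 5) (nat_lit 16) (nat_lit 5) (nat_lit 369) (nat_lit 268) (nat_lit 143)) (XT.nd (nat_lit 78) (nat_lit 0) (nat_lit 0) (XT.lf (nat_lit 0) (nat_lit 20564670210) (nat_lit 228) (nat_lit 19987888188) (nat_lit 76) (nat_lit 3250742725) (nat_lit 13) (nat_lit 5) (nat_lit 16) (nat_lit 5) (nat_lit 14) (nat_lit 4) (nat_lit 370) (nat_lit 268) (nat_lit 142)) (XT.lf (nat_lit 0) (nat_lit 24517876833) (nat_lit 228) (nat_lit 12007334313) (nat_lit 76) (nat_lit 8429471902) (nat_lit 13) (nat_lit 5) (nat_lit 16) (nat_lit 5) (nat_lit 14) (nat_lit 4) (nat_lit 371) (nat_lit 268) (nat_lit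 141))))))) (XT.nd (nat_lit 858) (nat_lit 152) (nat_lit 0) (XT.nd (nat_lit 390) (nat_lit 228) (nat_lit 0) (XT.nd (nat_lit 156) (nat_lit 0) (nat_lit 0) (XT.nd (nat_lit 78) (nat_lit 76) (nat_lit 0) (XT.lf (nat_lit 0) (nat_lit 28582808438) (nat_lit 228) (nat_lit 3798683902) (nat_lit 76) (nat_lit 13759329948) (nat_lit 13) (nat_lit 5) (nat_lit 16) (nat_lit 5) (nat_lit 14) (nat_lit 4) (nat_lit 372) (nat_lit 268) (nat_lit 140)) (XT.lf (nat_lit 0) (nat_lit 4737684948) (nat_lit 76) (nat_lit 28070873484) (nat_lit 152) (nat_lit 14552830599) (nat_lit 12) (nat_lit 5) (nat_lit 13) (nat_lit 5) (nat_lit 14) (nat_lit 4) (nat_lit 373) (nat_lit 268) (nat_lit 139))) (XT.nd (nat_lit 78) (nat_lit 0) (nat_lit 0) (XT.lf (nat_lit 0) (nat_lit 13597131540) (nat_lit 76) (nat_lit 23595727254) (nat_lit 152) (nat_lit 11424769809) (nat_lit 12) (nat_lit 5) (nat_lit 13) (nat_lit 5) (nat_lit 14) (nat_lit 4) (nat_lit 374) (nat_lit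 268) (nat_lit 138)) (XT.nd (nat_lit 78) (nat_lit 0) (nat_lit 0) (XT.lf (nat_lit 0) (nat_lit 22711795879) (nat_lit 76) (nat_lit 18990502588) (nat_lit 152) (nat_lit 8209457483) (nat_lit 12) (nat_lit 5) (nat_lit 13) (nat_lit 5) (nat_lit 14) (nat_lit 4) (nat_lit 375) (nat_lit 268) (nat_lit 137)) (XT.lf (nat_lit 0) (nat_lit 32089642234) (nat_lit 76) (nat_lit 14251175504) (nat_lit 152) (nat_lit 4904084125) (nat_lit 12) (nat_lit 5) (nat_lit 13) (nat_lit 5) (nat_lit 14) (nat_lit 4) (nat_lit 376) (nat_lit 268) (nat_lit 136))))) (XT.nd (nat_lit 234) (nat_lit 0) (nat_lit 0) (XT.nd (nat_lit 78) (nat_lit 228) (nat_lit 0) (XT.lf (nat_lit 0) (nat_lit 41738864840) (nat_lit 76) (nat_lit 9373604842) (nat_lit 152) (nat_lit 1505761545) (nat_lit 12) (nat_lit 5) (nat_lit 13) (nat_lit 5) (nat_lit 14) (nat_lit 4) (nat_lit 377) (nat_lit 268) (nat_lit 135)) (XT.nd (nat_lit 78) (nat_lit 152) (nat_lit 0) (XT.lf (nat_lit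 0) (nat_lit 1949677264) (nat_lit 152) (nat_lit 2384163464) (nat_lit 76) (nat_lit 49698529875) (nat_lit 11) (nat_lit 5) (nat_lit 13) (nat_lit 5) (nat_lit 12) (nat_lit 5) (nat_lit 378) (nat_lit 268) (nat_lit 134)) (XT.lf (nat_lit 0) (nat_lit 5543911216) (nat_lit 228) (nat_lit 49028082267) (nat_lit 76) (nat_lit 914539207) (nat_lit 9) (nat_lit 5) (nat_lit 12) (nat_lit 5) (nat_lit 10) (nat_lit 4) (nat_lit 379) (nat_lit 268) (nat_lit 133)))) (XT.nd (nat_lit 78) (nat_lit 0) (nat_lit 0) (XT.lf (nat_lit 0) (nat_lit 9307494761) (nat_lit 228) (nat_lit 41421086789) (nat_lit 76) (nat_lit 6253899863) (nat_lit 9) (nat_lit 5) (nat_lit 12) (nat_lit 5) (nat_lit 10) (nat_lit 4) (nat_lit 380) (nat_lit 268) (nat_lit 132)) (XT.nd (nat_lit 78) (nat_lit 0) (nat_lit 0) (XT.lf (nat_lit 0) (nat_lit 13178451360) (nat_lit 228) (nat_lit 33595160542) (nat_lit 76) (nat_lit 11749869963) (nat_lit 9) (nat_lit 5) (nat_lit 12)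 (nat_lit 5) (nat_lit 10) (nat_lit 4) (nat_lit 381) (nat_lit 268) (nat_lit 131)) (XT.lf (nat_lit 0) (nat_lit 17160163402) (nat_lit 228) (nat_lit 25543465339) (nat_lit 76) (nat_lit 17407251810) (nat_lit 9) (nat_lit 5) (nat_lit 12) (nat_lit 5) (nat_lit 10) (nat_lit 4) (nat_lit 382) (nat_lit 268) (nat_lit 130)))))) (XT.nd (nat_lit 390) (nat_lit 76) (nat_lit 0) (XT.nd (nat_lit 156) (nat_lit 76) (nat_lit 0) (XT.nd (nat_lit 78) (nat_lit 0) (nat_lit 0) (XT.lf (nat_lit 0) (nat_lit 21256110053) (nat_lit 228) (nat_lit 17258965718) (nat_lit 76) (nat_lit 23230988749) (nat_lit 9) (nat_lit 5) (nat_lit 12) (nat_lit 5) (nat_lit 10) (nat_lit 4) (nat_lit 383) (nat_lit 268) (nat_lit 129)) (XT.lf (nat_lit 0) (nat_lit 25469870295) (nat_lit 228) (nat_lit 8734422795) (nat_lit 76) (nat_lit 29226169482) (nat_lit 9) (nat_lit 5) (nat_lit 12) (nat_lit 5) (nat_lit 10) (nat_lit 4) (nat_lit 384) (nat_lit 268) (nat_lit 128)))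 (XT.nd (nat_lit 78) (nat_lit 0) (nat_lit 0) (XT.lf (nat_lit 0) (nat_lit 38360611) (nat_lit 76) (nat_lit 29767134188) (nat_lit 152) (nat_lit 35360040649) (nat_lit 8) (nat_lit 5) (nat_lit 9) (nat_lit 5) (nat_lit 10) (nat_lit 4) (nat_lit 385) (nat_lit 268) (nat_lit 127)) (XT.nd (nat_lit 78) (nat_lit 0) (nat_lit 0) (XT.lf (nat_lit 0) (nat_lit 9245211096) (nat_lit 76) (nat_lit 25109324948) (nat_lit 152) (nat_lit 32595630267) (nat_lit 8) (nat_lit 5) (nat_lit 9) (nat_lit 5) (nat_lit 10) (nat_lit 4) (nat_lit 386) (nat_lit 268) (nat_lit 126)) (XT.lf (nat_lit 0) (nat_lit 18720341339) (nat_lit 76) (nat_lit 20314995982) (nat_lit 152) (nat_lit 29753146173) (nat_lit 8) (nat_lit 5) (nat_lit 9) (nat_lit 5) (nat_lit 10) (nat_lit 4) (nat_lit 387) (nat_lit 268) (nat_lit 125))))) (XT.nd (nat_lit 234) (nat_lit 76) (nat_lit 0) (XT.nd (nat_lit 78) (nat_lit 0) (nat_lit 0) (XT.lf (nat_lit 0) (nat_lit 28472030579) (nat_lit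 76) (nat_lit 15379958073) (nat_lit 152) (nat_lit 26830104642) (nat_lit 8) (nat_lit 5) (nat_lit 9) (nat_lit 5) (nat_lit 10) (nat_lit 4) (nat_lit 388) (nat_lit 268) (nat_lit 124)) (XT.nd (nat_lit 78) (nat_lit 0) (nat_lit 0) (XT.lf (nat_lit 0) (nat_lit 38508799711) (nat_lit 76) (nat_lit 10299899051) (nat_lit 152) (nat_lit 23823951560) (nat_lit 8) (nat_lit 5) (nat_lit 9) (nat_lit 5) (nat_lit 10) (nat_lit 4) (nat_lit 389) (nat_lit 268) (nat_lit 123)) (XT.lf (nat_lit 0) (nat_lit 48839418726) (nat_lit 76) (nat_lit 5070380028) (nat_lit 152) (nat_lit 20732060191) (nat_lit 8) (nat_lit 5) (nat_lit 9) (nat_lit 5) (nat_lit 10) (nat_lit 4) (nat_lit 390) (nat_lit 268) (nat_lit 122)))) (XT.nd (nat_lit 78) (nat_lit 76) (nat_lit 0) (XT.lf (nat_lit 0) (nat_lit 59162756271) (nat_lit 152) (nat_lit 17241570774) (nat_lit 0) (nat_lit 307057430) (nat_lit 8) (nat_lit 5) (nat_lit 10) (nat_lit 4) (nat_lit 8) (nat_lit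 4) (nat_lit 391) (nat_lit 268) (nat_lit 121)) (XT.nd (nat_lit 78) (nat_lit 76) (nat_lit 0) (XT.lf (nat_lit 0) (nat_lit 64619413715) (nat_lit 152) (nat_lit 8481014344) (nat_lit 0) (nat_lit 5741189603) (nat_lit 8) (nat_lit 5) (nat_lit 10) (nat_lit 4) (nat_lit 8) (nat_lit 4) (nat_lit 392) (nat_lit 268) (nat_lit 120)) (XT.lf (nat_lit 0) (nat_lit 546283478) (nat_lit 76) (nat_lit 69694767176) (nat_lit 76) (nat_lit 10794673870) (nat_lit 7) (nat_lit 4) (nat_lit 8) (nat_lit 5) (nat_lit 8) (nat_lit 4) (nat_lit 393) (nat_lit 268) (nat_lit 119))))))))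
noncomputable def xc138 : XT := (XT.nd (nat_lit 32526) (nat_lit 0) (nat_lit 5244) (XT.nd (nat_lit 31668) (nat_lit 0) (nat_lit 11172) (XT.nd (nat_lit 31200) (nat_lit 0) (nat_lit 14364) (XT.nd (nat_lit 30966) (nat_lit 0) (nat_lit 15580) (XT.nd (nat_lit 30888) (nat_lit 0) (nat_lit 15580) (XT.lf (nat_lit 0) (nat_lit 10011583489) (nat_lit 76) (nat_lit 66101474955) (nat_lit 76) (nat_lit 7180149422) (nat_lit 7) (nat_lit 4) (nat_lit 8) (nat_lit 5) (nat_lit 8) (nat_lit 4) (nat_lit 394) (nat_lit 268) (nat_lit 118)) (XT.lf (nat_lit 0) (nat_lit 215744308) (nat_lit 0) (nat_lit 215744308) (nat_lit 532) (nat_lit 2972271273) (nat_lit 212) (nat_lit 5) (nat_lit 212) (nat_lit 3) (nat_lit 219) (nat_lit 3) (nat_lit 269) (nat_lit 269) (nat_lit 242))) (XT.nd (nat_lit 78) (nat_lit 0) (nat_lit 0) (XT.lf (nat_lit 0) (nat_lit 2653051187) (nat_lit 532) (nat_lit 3545291494) (nat_lit 608) (nat_lit 650517489) (nat_lit 212)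 (nat_lit 5) (nat_lit 219) (nat_lit 3) (nat_lit 220) (nat_lit 5) (nat_lit 270) (nat_lit 269) (nat_lit 241)) (XT.nd (nat_lit 78) (nat_lit 0) (nat_lit 0) (XT.lf (nat_lit 0) (nat_lit 4432324189) (nat_lit 532) (nat_lit 671152004) (nat_lit 608) (nat_lit 1790190760) (nat_lit 212) (nat_lit 5) (nat_lit 219) (nat_lit 3) (nat_lit 220) (nat_lit 5) (nat_lit 271) (nat_lit 269) (nat_lit 240)) (XT.lf (nat_lit 76) (nat_lit 2297886465) (nat_lit 0) (nat_lit 3922405436) (nat_lit 608) (nat_lit 721149149) (nat_lit 213) (nat_lit 5) (nat_lit 212) (nat_lit 5) (nat_lit 220) (nat_lit 5) (nat_lit 272) (nat_lit 269) (nat_lit 239))))) (XT.nd (nat_lit 234) (nat_lit 608) (nat_lit 0) (XT.nd (nat_lit 78) (nat_lit 0) (nat_lit 0) (XT.lf (nat_lit 0) (nat_lit 991104875) (nat_lit 608) (nat_lit 1668447929) (nat_lit 684) (nat_lit 4332830268) (nat_lit 204) (nat_lit 5) (nat_lit 212) (nat_lit 5) (nat_lit 213) (nat_lit 5) (nat_lit 273)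 (nat_lit 269) (nat_lit 238)) (XT.nd (nat_lit 78) (nat_lit 0) (nat_lit 76) (XT.lf (nat_lit 76) (nat_lit 1379385400) (nat_lit 0) (nat_lit 1309945196) (nat_lit 684) (nat_lit 4357094229) (nat_lit 205) (nat_lit 5) (nat_lit 204) (nat_lit 5) (nat_lit 213) (nat_lit 5) (nat_lit 274) (nat_lit 269) (nat_lit 237)) (XT.lf (nat_lit 0) (nat_lit 4393907161) (nat_lit 608) (nat_lit 2587998473) (nat_lit 684) (nat_lit 121771167) (nat_lit 205) (nat_lit 5) (nat_lit 213) (nat_lit 5) (nat_lit 214) (nat_lit 5) (nat_lit 275) (nat_lit 269) (nat_lit 236)))) (XT.nd (nat_lit 78) (nat_lit 684) (nat_lit 0) (XT.lf (nat_lit 76) (nat_lit 543838638) (nat_lit 0) (nat_lit 5563415527) (nat_lit 684) (nat_lit 1056906957) (nat_lit 206) (nat_lit 5) (nat_lit 205) (nat_lit 5) (nat_lit 214) (nat_lit 5) (nat_lit 276) (nat_lit 269) (nat_lit 235)) (XT.nd (nat_lit 78) (nat_lit 0) (nat_lit 0) (XT.lf (nat_lit 0) (nat_lit 599364912) (nat_lit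 684) (nat_lit 3447733795) (nat_lit 760) (nat_lit 3180412286) (nat_lit 196) (nat_lit 5) (nat_lit 205) (nat_lit 5) (nat_lit 206) (nat_lit 5) (nat_lit 277) (nat_lit 269) (nat_lit 234)) (XT.lf (nat_lit 0) (nat_lit 2225856609) (nat_lit 684) (nat_lit 227593073) (nat_lit 760) (nat_lit 4840967604) (nat_lit 196) (nat_lit 5) (nat_lit 205) (nat_lit 5) (nat_lit 206) (nat_lit 5) (nat_lit 278) (nat_lit 269) (nat_lit 233)))))) (XT.nd (nat_lit 390) (nat_lit 2508) (nat_lit 0) (XT.nd (nat_lit 156) (nat_lit 684) (nat_lit 0) (XT.nd (nat_lit 78) (nat_lit 0) (nat_lit 76) (XT.lf (nat_lit 76) (nat_lit 3113835171) (nat_lit 0) (nat_lit 760710318) (nat_lit 760) (nat_lit 3489799802) (nat_lit 197) (nat_lit 5) (nat_lit 196) (nat_lit 5) (nat_lit 206) (nat_lit 5) (nat_lit 279) (nat_lit 269) (nat_lit 232)) (XT.lf (nat_lit 0) (nat_lit 5529424305) (nat_lit 684) (nat_lit 923380295) (nat_lit 760) (nat_lit 985074944) (nat_lit 197)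 (nat_lit 5) (nat_lit 206) (nat_lit 5) (nat_lit 207) (nat_lit 5) (nat_lit 280) (nat_lit 269) (nat_lit 231))) (XT.nd (nat_lit 78) (nat_lit 760) (nat_lit 0) (XT.lf (nat_lit 76) (nat_lit 2508298285) (nat_lit 0) (nat_lit 4703858251) (nat_lit 760) (nat_lit 302321239) (nat_lit 198) (nat_lit 5) (nat_lit 197) (nat_lit 5) (nat_lit 207) (nat_lit 5) (nat_lit 281) (nat_lit 269) (nat_lit 230)) (XT.nd (nat_lit 78) (nat_lit 0) (nat_lit 0) (XT.lf (nat_lit 0) (nat_lit 1282090871) (nat_lit 760) (nat_lit 1581892892) (nat_lit 836) (nat_lit 4730498451) (nat_lit 187) (nat_lit 5) (nat_lit 197) (nat_lit 5) (nat_lit 198) (nat_lit 5) (nat_lit 282) (nat_lit 269) (nat_lit 229)) (XT.lf (nat_lit 76) (nat_lit 1943583747) (nat_lit 0) (nat_lit 931659872) (nat_lit 836) (nat_lit 4802721668) (nat_lit 188) (nat_lit 5) (nat_lit 187) (nat_lit 5) (nat_lit 198) (nat_lit 5) (nat_lit 283) (nat_lit 269) (nat_lit 228))))) (XT.nd (nat_lit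 234) (nat_lit 1824) (nat_lit 0) (XT.nd (nat_lit 78) (nat_lit 760) (nat_lit 0) (XT.lf (nat_lit 0) (nat_lit 4492386830) (nat_lit 760) (nat_lit 2204494832) (nat_lit 76) (nat_lit 1067966708) (nat_lit 188) (nat_lit 5) (nat_lit 198) (nat_lit 5) (nat_lit 189) (nat_lit 5) (nat_lit 284) (nat_lit 269) (nat_lit 227)) (XT.nd (nat_lit 78) (nat_lit 0) (nat_lit 0) (XT.lf (nat_lit 0) (nat_lit 1412799189) (nat_lit 760) (nat_lit 4719397252) (nat_lit 836) (nat_lit 1723093053) (nat_lit 178) (nat_lit 5) (nat_lit 188) (nat_lit 5) (nat_lit 189) (nat_lit 5) (nat_lit 285) (nat_lit 269) (nat_lit 226)) (XT.lf (nat_lit 0) (nat_lit 5147329394) (nat_lit 760) (nat_lit 2648545559) (nat_lit 836) (nat_lit 153499642) (nat_lit 178) (nat_lit 5) (nat_lit 188) (nat_lit 5) (nat_lit 189) (nat_lit 5) (nat_lit 286) (nat_lit 269) (nat_lit 225)))) (XT.nd (nat_lit 78) (nat_lit 912) (nat_lit 0) (XT.lf (nat_lit 0) (nat_lit 914897913) (nat_lit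 836) (nat_lit 481705631) (nat_lit 912) (nat_lit 6650558705) (nat_lit 166) (nat_lit 5) (nat_lit 177) (nat_lit 5) (nat_lit 178) (nat_lit 5) (nat_lit 287) (nat_lit 269) (nat_lit 224)) (XT.nd (nat_lit 78) (nat_lit 912) (nat_lit 0) (XT.lf (nat_lit 0) (nat_lit 2989811823) (nat_lit 912) (nat_lit 3402638413) (nat_lit 76) (nat_lit 1755553560) (nat_lit 166) (nat_lit 5) (nat_lit 178) (nat_lit 5) (nat_lit 167) (nat_lit 5) (nat_lit 288) (nat_lit 269) (nat_lit 223)) (XT.lf (nat_lit 0) (nat_lit 405347910) (nat_lit 912) (nat_lit 4189754120) (nat_lit 988) (nat_lit 3657991904) (nat_lit 154) (nat_lit 5) (nat_lit 166) (nat_lit 5) (nat_lit 167) (nat_lit 5) (nat_lit 289) (nat_lit 269) (nat_lit 222))))))) (XT.nd (nat_lit 858) (nat_lit 2204) (nat_lit 0) (XT.nd (nat_lit 390) (nat_lit 1596) (nat_lit 0) (XT.nd (nat_lit 156) (nat_lit 2128) (nat_lit 0) (XT.nd (nat_lit 78) (nat_lit 0) (nat_lit 0) (XT.lf (nat_lit 0) (nat_lit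 4361015263) (nat_lit 912) (nat_lit 1878459122) (nat_lit 988) (nat_lit 2122282180) (nat_lit 154) (nat_lit 5) (nat_lit 166) (nat_lit 5) (nat_lit 167) (nat_lit 5) (nat_lit 290) (nat_lit 269) (nat_lit 221)) (XT.lf (nat_lit 0) (nat_lit 7895900242) (nat_lit 988) (nat_lit 79880261) (nat_lit 76) (nat_lit 499160094) (nat_lit 154) (nat_lit 5) (nat_lit 167) (nat_lit 5) (nat_lit 155) (nat_lit 5) (nat_lit 291) (nat_lit 269) (nat_lit 220))) (XT.nd (nat_lit 78) (nat_lit 1064) (nat_lit 0) (XT.lf (nat_lit 0) (nat_lit 1006800371) (nat_lit 1064) (nat_lit 4618994486) (nat_lit 76) (nat_lit 2965088259) (nat_lit 140) (nat_lit 5) (nat_lit 154) (nat_lit 5) (nat_lit 141) (nat_lit 5) (nat_lit 292) (nat_lit 269) (nat_lit 219)) (XT.nd (nat_lit 78) (nat_lit 1064) (nat_lit 0) (XT.lf (nat_lit 0) (nat_lit 2588836871) (nat_lit 1064) (nat_lit 605418229) (nat_lit 76) (nat_lit 5517200102) (nat_lit 140) (nat_lit 5) (nat_lit 154)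 (nat_lit 5) (nat_lit 141) (nat_lit 5) (nat_lit 293) (nat_lit 269) (nat_lit 218)) (XT.lf (nat_lit 0) (nat_lit 3562900517) (nat_lit 1064) (nat_lit 650308037) (nat_lit 1140) (nat_lit 4622716902) (nat_lit 126) (nat_lit 5) (nat_lit 140) (nat_lit 5) (nat_lit 141) (nat_lit 5) (nat_lit 294) (nat_lit 269) (nat_lit 217))))) (XT.nd (nat_lit 234) (nat_lit 988) (nat_lit 0) (XT.nd (nat_lit 78) (nat_lit 608) (nat_lit 0) (XT.lf (nat_lit 0) (nat_lit 5872894825) (nat_lit 1140) (nat_lit 1150425036) (nat_lit 76) (nat_lit 1941335973) (nat_lit 126) (nat_lit 5) (nat_lit 141) (nat_lit 5) (nat_lit 127) (nat_lit 5) (nat_lit 295) (nat_lit 269) (nat_lit 216)) (XT.nd (nat_lit 78) (nat_lit 76) (nat_lit 0) (XT.lf (nat_lit 0) (nat_lit 3115093122) (nat_lit 532) (nat_lit 4466256516) (nat_lit 608) (nat_lit 1516049069) (nat_lit 119) (nat_lit 5) (nat_lit 126) (nat_lit 5) (nat_lit 127) (nat_lit 5) (nat_lit 296) (nat_lit 269) (nat_lit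 215)) (XT.lf (nat_lit 0) (nat_lit 79452964) (nat_lit 608) (nat_lit 1738374356) (nat_lit 76) (nat_lit 7417140588) (nat_lit 118) (nat_lit 5) (nat_lit 126) (nat_lit 5) (nat_lit 119) (nat_lit 5) (nat_lit 297) (nat_lit 269) (nat_lit 214)))) (XT.nd (nat_lit 78) (nat_lit 532) (nat_lit 0) (XT.lf (nat_lit 0) (nat_lit 1690791499) (nat_lit 532) (nat_lit 6751107913) (nat_lit 76) (nat_lit 934470932) (nat_lit 112) (nat_lit 5) (nat_lit 119) (nat_lit 5) (nat_lit 113) (nat_lit 5) (nat_lit 298) (nat_lit 269) (nat_lit 213)) (XT.nd (nat_lit 78) (nat_lit 532) (nat_lit 0) (XT.lf (nat_lit 0) (nat_lit 3350882335) (nat_lit 532) (nat_lit 2419632877) (nat_lit 76) (nat_lit 3751593826) (nat_lit 112) (nat_lit 5) (nat_lit 119) (nat_lit 5) (nat_lit 113) (nat_lit 5) (nat_lit 299) (nat_lit 269) (nat_lit 212)) (XT.lf (nat_lit 0) (nat_lit 2047353328) (nat_lit 532) (nat_lit 2998817426) (nat_lit 608) (nat_lit 4626590741) (nat_lit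 105) (nat_lit 5) (nat_lit 112) (nat_lit 5) (nat_lit 113) (nat_lit 5) (nat_lit 300) (nat_lit 269) (nat_lit 211)))))) (XT.nd (nat_lit 390) (nat_lit 1216) (nat_lit 0) (XT.nd (nat_lit 156) (nat_lit 532) (nat_lit 0) (XT.nd (nat_lit 78) (nat_lit 456) (nat_lit 0) (XT.lf (nat_lit 0) (nat_lit 6663902003) (nat_lit 532) (nat_lit 119235141) (nat_lit 608) (nat_lit 3045172235) (nat_lit 105) (nat_lit 5) (nat_lit 112) (nat_lit 5) (nat_lit 113) (nat_lit 5) (nat_lit 301) (nat_lit 269) (nat_lit 210)) (XT.lf (nat_lit 0) (nat_lit 1396175215) (nat_lit 456) (nat_lit 7184183541) (nat_lit 532) (nat_lit 1408018067) (nat_lit 99) (nat_lit 5) (nat_lit 105) (nat_lit 5) (nat_lit 106) (nat_lit 5) (nat_lit 302) (nat_lit 269) (nat_lit 209))) (XT.nd (nat_lit 78) (nat_lit 456) (nat_lit 0) (XT.lf (nat_lit 0) (nat_lit 273849100) (nat_lit 532) (nat_lit 4032547449) (nat_lit 76) (nat_lit 5846830567) (nat_lit 98) (nat_lit 5) (nat_lit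 105) (nat_lit 5) (nat_lit 99) (nat_lit 5) (nat_lit 303) (nat_lit 269) (nat_lit 208)) (XT.nd (nat_lit 78) (nat_lit 0) (nat_lit 0) (XT.lf (nat_lit 0) (nat_lit 628698804) (nat_lit 456) (nat_lit 1323738323) (nat_lit 532) (nat_lit 8371019865) (nat_lit 92) (nat_lit 5) (nat_lit 98) (nat_lit 5) (nat_lit 99) (nat_lit 5) (nat_lit 304) (nat_lit 269) (nat_lit 207)) (XT.lf (nat_lit 0) (nat_lit 3708410161) (nat_lit 532) (nat_lit 5036523359) (nat_lit 76) (nat_lit 1753136059) (nat_lit 92) (nat_lit 5) (nat_lit 99) (nat_lit 5) (nat_lit 93) (nat_lit 5) (nat_lit 305) (nat_lit 269) (nat_lit 206))))) (XT.nd (nat_lit 234) (nat_lit 836) (nat_lit 0) (XT.nd (nat_lit 78) (nat_lit 380) (nat_lit 0) (XT.lf (nat_lit 0) (nat_lit 5500165480) (nat_lit 532) (nat_lit 284839134) (nat_lit 76) (nat_lit 4893506948) (nat_lit 92) (nat_lit 5) (nat_lit 99) (nat_lit 5) (nat_lit 93) (nat_lit 5) (nat_lit 306) (nat_lit 269) (nat_lit 205))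 (XT.nd (nat_lit 78) (nat_lit 0) (nat_lit 0) (XT.lf (nat_lit 0) (nat_lit 4668265702) (nat_lit 380) (nat_lit 2693152638) (nat_lit 456) (nat_lit 3502557781) (nat_lit 87) (nat_lit 5) (nat_lit 92) (nat_lit 5) (nat_lit 93) (nat_lit 5) (nat_lit 307) (nat_lit 269) (nat_lit 204)) (XT.lf (nat_lit 0) (nat_lit 9257518180) (nat_lit 456) (nat_lit 1316682017) (nat_lit 76) (nat_lit 481513420) (nat_lit 87) (nat_lit 5) (nat_lit 93) (nat_lit 5) (nat_lit 88) (nat_lit 5) (nat_lit 308) (nat_lit 269) (nat_lit 203)))) (XT.nd (nat_lit 78) (nat_lit 456) (nat_lit 0) (XT.lf (nat_lit 0) (nat_lit 3722840468) (nat_lit 380) (nat_lit 7522325657) (nat_lit 456) (nat_lit 7074134) (nat_lit 82) (nat_lit 5) (nat_lit 87) (nat_lit 5) (nat_lit 88) (nat_lit 5) (nat_lit 309) (nat_lit 269) (nat_lit 202)) (XT.nd (nat_lit 78) (nat_lit 380) (nat_lit 0) (XT.lf (nat_lit 0) (nat_lit 1787723340) (nat_lit 456) (nat_lit 2563689918) (nat_lit 76)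 (nat_lit 7103217894) (nat_lit 81) (nat_lit 5) (nat_lit 87) (nat_lit 5) (nat_lit 82) (nat_lit 5) (nat_lit 310) (nat_lit 269) (nat_lit 201)) (XT.lf (nat_lit 0) (nat_lit 2569837017) (nat_lit 380) (nat_lit 1064269652) (nat_lit 456) (nat_lit 8029118922) (nat_lit 76) (nat_lit 5) (nat_lit 81) (nat_lit 5) (nat_lit 82) (nat_lit 5) (nat_lit 311) (nat_lit 269) (nat_lit 200))))))))
noncomputable def xc139 : XT := (XT.nd (nat_lit 1716) (nat_lit 1520) (nat_lit 0) (XT.nd (nat_lit 858) (nat_lit 1444) (nat_lit 0) (XT.nd (nat_lit 390) (nat_lit 608) (nat_lit 0) (XT.nd (nat_lit 156) (nat_lit 380) (nat_lit 0) (XT.nd (nat_lit 78) (nat_lit 380) (nat_lit 0) (XT.lf (nat_lit 0) (nat_lit 5557962633) (nat_lit 456) (nat_lit 4021689307) (nat_lit 76) (nat_lit 2297831879) (nat_lit 76) (nat_lit 5) (nat_lit 82) (nat_lit 5) (nat_lit 77) (nat_lit 5) (nat_lit 312) (nat_lit 269) (nat_lit 199)) (XT.lf (nat_lit 0) (nat_lit 1183911331)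 (nat_lit 380) (nat_lit 6351930074) (nat_lit 456) (nat_lit 4562505573) (nat_lit 71) (nat_lit 5) (nat_lit 76) (nat_lit 5) (nat_lit 77) (nat_lit 5) (nat_lit 313) (nat_lit 269) (nat_lit 198))) (XT.nd (nat_lit 78) (nat_lit 380) (nat_lit 0) (XT.lf (nat_lit 0) (nat_lit 6597608122) (nat_lit 380) (nat_lit 2990901558) (nat_lit 456) (nat_lit 2736927222) (nat_lit 71) (nat_lit 5) (nat_lit 76) (nat_lit 5) (nat_lit 77) (nat_lit 5) (nat_lit 314) (nat_lit 269) (nat_lit 197)) (XT.nd (nat_lit 78) (nat_lit 380) (nat_lit 0) (XT.lf (nat_lit 0) (nat_lit 11682809890) (nat_lit 456) (nat_lit 420520055) (nat_lit 76) (nat_lit 456670610) (nat_lit 71) (nat_lit 5) (nat_lit 77) (nat_lit 5) (nat_lit 72) (nat_lit 5) (nat_lit 315) (nat_lit 269) (nat_lit 196)) (XT.lf (nat_lit 0) (nat_lit 1073300479) (nat_lit 380) (nat_lit 7724382515) (nat_lit 76) (nat_lit 4002020957) (nat_lit 66) (nat_lit 5) (nat_lit 71) (nat_lit 5) (nat_lit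 67) (nat_lit 5) (nat_lit 316) (nat_lit 269) (nat_lit 195))))) (XT.nd (nat_lit 234) (nat_lit 304) (nat_lit 0) (XT.nd (nat_lit 78) (nat_lit 304) (nat_lit 0) (XT.lf (nat_lit 0) (nat_lit 3045324211) (nat_lit 380) (nat_lit 2340263099) (nat_lit 76) (nat_lit 7661388409) (nat_lit 66) (nat_lit 5) (nat_lit 71) (nat_lit 5) (nat_lit 67) (nat_lit 5) (nat_lit 317) (nat_lit 269) (nat_lit 194)) (XT.nd (nat_lit 78) (nat_lit 0) (nat_lit 0) (XT.lf (nat_lit 0) (nat_lit 3239741285) (nat_lit 304) (nat_lit 1844958330) (nat_lit 380) (nat_lit 8216775903) (nat_lit 62) (nat_lit 5) (nat_lit 66) (nat_lit 5) (nat_lit 67) (nat_lit 5) (nat_lit 318) (nat_lit 269) (nat_lit 193)) (XT.lf (nat_lit 0) (nat_lit 7203827752) (nat_lit 380) (nat_lit 4574584887) (nat_lit 76) (nat_lit 1784694516) (nat_lit 62) (nat_lit 5) (nat_lit 67) (nat_lit 5) (nat_lit 63) (nat_lit 5) (nat_lit 319) (nat_lit 269) (nat_lit 192)))) (XT.nd (nat_lit 78)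 (nat_lit 0) (nat_lit 0) (XT.lf (nat_lit 0) (nat_lit 1051025597) (nat_lit 304) (nat_lit 8341917409) (nat_lit 380) (nat_lit 4439504753) (nat_lit 58) (nat_lit 5) (nat_lit 62) (nat_lit 5) (nat_lit 63) (nat_lit 5) (nat_lit 320) (nat_lit 269) (nat_lit 191)) (XT.nd (nat_lit 78) (nat_lit 0) (nat_lit 0) (XT.lf (nat_lit 0) (nat_lit 6911061570) (nat_lit 304) (nat_lit 4761276980) (nat_lit 380) (nat_lit 2436842716) (nat_lit 58) (nat_lit 5) (nat_lit 62) (nat_lit 5) (nat_lit 63) (nat_lit 5) (nat_lit 321) (nat_lit 269) (nat_lit 190)) (XT.lf (nat_lit 0) (nat_lit 12919600240) (nat_lit 304) (nat_lit 1079556975) (nat_lit 380) (nat_lit 395737730) (nat_lit 58) (nat_lit 5) (nat_lit 62) (nat_lit 5) (nat_lit 63) (nat_lit 5) (nat_lit 322) (nat_lit 269) (nat_lit 189)))))) (XT.nd (nat_lit 390) (nat_lit 836) (nat_lit 0) (XT.nd (nat_lit 156) (nat_lit 228) (nat_lit 0) (XT.nd (nat_lit 78) (nat_lit 0) (nat_lit 0) (XT.lf (nat_lit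 0) (nat_lit 1722203511) (nat_lit 380) (nat_lit 10251728300) (nat_lit 76) (nat_lit 2713335499) (nat_lit 53) (nat_lit 5) (nat_lit 58) (nat_lit 5) (nat_lit 54) (nat_lit 5) (nat_lit 323) (nat_lit 269) (nat_lit 188)) (XT.lf (nat_lit 0) (nat_lit 3901147396) (nat_lit 380) (nat_lit 4476064816) (nat_lit 76) (nat_lit 6610963751) (nat_lit 53) (nat_lit 5) (nat_lit 58) (nat_lit 5) (nat_lit 54) (nat_lit 5) (nat_lit 324) (nat_lit 269) (nat_lit 187))) (XT.nd (nat_lit 78) (nat_lit 0) (nat_lit 0) (XT.lf (nat_lit 0) (nat_lit 1475162703) (nat_lit 228) (nat_lit 4664753346) (nat_lit 304) (nat_lit 9158406031) (nat_lit 50) (nat_lit 5) (nat_lit 53) (nat_lit 5) (nat_lit 54) (nat_lit 5) (nat_lit 325) (nat_lit 269) (nat_lit 186)) (XT.nd (nat_lit 78) (nat_lit 0) (nat_lit 0) (XT.lf (nat_lit 0) (nat_lit 7670450106) (nat_lit 228) (nat_lit 801195741) (nat_lit 304) (nat_lit 7145395409) (nat_lit 50) (nat_lit 5) (nat_lit 53)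 (nat_lit 5) (nat_lit 54) (nat_lit 5) (nat_lit 326) (nat_lit 269) (nat_lit 185)) (XT.lf (nat_lit 0) (nat_lit 10884978950) (nat_lit 304) (nat_lit 1950287908) (nat_lit 76) (nat_lit 3109746985) (nat_lit 50) (nat_lit 5) (nat_lit 54) (nat_lit 5) (nat_lit 51) (nat_lit 5) (nat_lit 327) (nat_lit 269) (nat_lit 184))))) (XT.nd (nat_lit 234) (nat_lit 228) (nat_lit 0) (XT.nd (nat_lit 78) (nat_lit 304) (nat_lit 0) (XT.lf (nat_lit 0) (nat_lit 4276162146) (nat_lit 304) (nat_lit 9125238053) (nat_lit 380) (nat_lit 2880544936) (nat_lit 46) (nat_lit 5) (nat_lit 50) (nat_lit 5) (nat_lit 51) (nat_lit 5) (nat_lit 328) (nat_lit 269) (nat_lit 183)) (XT.nd (nat_lit 78) (nat_lit 304) (nat_lit 0) (XT.lf (nat_lit 0) (nat_lit 10704379292) (nat_lit 304) (nat_lit 5290573399) (nat_lit 380) (nat_lit 634021518) (nat_lit 46) (nat_lit 5) (nat_lit 50) (nat_lit 5) (nat_lit 51) (nat_lit 5) (nat_lit 329) (nat_lit 269) (nat_lit 182))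 (XT.lf (nat_lit 0) (nat_lit 304148710) (nat_lit 228) (nat_lit 1328151423) (nat_lit 304) (nat_lit 15354110839) (nat_lit 42) (nat_lit 5) (nat_lit 45) (nat_lit 5) (nat_lit 46) (nat_lit 5) (nat_lit 330) (nat_lit 269) (nat_lit 181)))) (XT.nd (nat_lit 78) (nat_lit 228) (nat_lit 0) (XT.lf (nat_lit 0) (nat_lit 4023226936) (nat_lit 304) (nat_lit 10569825242) (nat_lit 76) (nat_lit 2759285268) (nat_lit 42) (nat_lit 5) (nat_lit 46) (nat_lit 5) (nat_lit 43) (nat_lit 5) (nat_lit 331) (nat_lit 269) (nat_lit 180)) (XT.nd (nat_lit 78) (nat_lit 228) (nat_lit 0) (XT.lf (nat_lit 0) (nat_lit 6482016676) (nat_lit 304) (nat_lit 4311356930) (nat_lit 76) (nat_lit 6936018707) (nat_lit 42) (nat_lit 5) (nat_lit 46) (nat_lit 5) (nat_lit 43) (nat_lit 5) (nat_lit 332) (nat_lit 269) (nat_lit 179)) (XT.lf (nat_lit 0) (nat_lit 2153398806) (nat_lit 228) (nat_lit 6865351785) (nat_lit 304) (nat_lit 9098916464) (nat_lit 39) (nat_lit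 5) (nat_lit 42) (nat_lit 5) (nat_lit 43) (nat_lit 5) (nat_lit 333) (nat_lit 269) (nat_lit 178))))))) (XT.nd (nat_lit 858) (nat_lit 836) (nat_lit 0) (XT.nd (nat_lit 390) (nat_lit 380) (nat_lit 0) (XT.nd (nat_lit 156) (nat_lit 304) (nat_lit 0) (XT.nd (nat_lit 78) (nat_lit 0) (nat_lit 0) (XT.lf (nat_lit 0) (nat_lit 8877218881) (nat_lit 228) (nat_lit 2781642176) (nat_lit 304) (nat_lit 6857943410) (nat_lit 39) (nat_lit 5) (nat_lit 42) (nat_lit 5) (nat_lit 43) (nat_lit 5) (nat_lit 334) (nat_lit 269) (nat_lit 177)) (XT.lf (nat_lit 0) (nat_lit 14376015402) (nat_lit 304) (nat_lit 3161875973) (nat_lit 76) (nat_lit 1390121122) (nat_lit 39) (nat_lit 5) (nat_lit 43) (nat_lit 5) (nat_lit 40) (nat_lit 5) (nat_lit 335) (nat_lit 269) (nat_lit 176))) (XT.nd (nat_lit 78) (nat_lit 76) (nat_lit 0) (XT.lf (nat_lit 0) (nat_lit 3529141034) (nat_lit 228) (nat_lit 13691617005) (nat_lit 304) (nat_lit 2129447308) (nat_lit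 36) (nat_lit 5) (nat_lit 39) (nat_lit 5) (nat_lit 40) (nat_lit 5) (nat_lit 336) (nat_lit 269) (nat_lit 175)) (XT.nd (nat_lit 78) (nat_lit 0) (nat_lit 0) (XT.lf (nat_lit 0) (nat_lit 375550775) (nat_lit 304) (nat_lit 9324698679) (nat_lit 76) (nat_lit 10084230783) (nat_lit 35) (nat_lit 5) (nat_lit 39) (nat_lit 5) (nat_lit 36) (nat_lit 5) (nat_lit 337) (nat_lit 269) (nat_lit 174)) (XT.lf (nat_lit 0) (nat_lit 2898010273) (nat_lit 304) (nat_lit 2676335665) (nat_lit 76) (nat_lit 14657279763) (nat_lit 35) (nat_lit 5) (nat_lit 39) (nat_lit 5) (nat_lit 36) (nat_lit 5) (nat_lit 338) (nat_lit 269) (nat_lit 173))))) (XT.nd (nat_lit 234) (nat_lit 152) (nat_lit 0) (XT.nd (nat_lit 78) (nat_lit 0) (nat_lit 0) (XT.lf (nat_lit 0) (nat_lit 4232902704) (nat_lit 228) (nat_lit 1289475010) (nat_lit 304) (nat_lit 15169048148) (nat_lit 32) (nat_lit 5) (nat_lit 35) (nat_lit 5) (nat_lit 36) (nat_lit 5) (nat_lit 339) (nat_lit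 269) (nat_lit 172)) (XT.nd (nat_lit 78) (nat_lit 0) (nat_lit 0) (XT.lf (nat_lit 0) (nat_lit 8268498419) (nat_lit 304) (nat_lit 9811581632) (nat_lit 76) (nat_lit 3083675867) (nat_lit 32) (nat_lit 5) (nat_lit 36) (nat_lit 5) (nat_lit 33) (nat_lit 5) (nat_lit 340) (nat_lit 269) (nat_lit 171)) (XT.lf (nat_lit 0) (nat_lit 11095886013) (nat_lit 304) (nat_lit 2998732955) (nat_lit 76) (nat_lit 7555696196) (nat_lit 32) (nat_lit 5) (nat_lit 36) (nat_lit 5) (nat_lit 33) (nat_lit 5) (nat_lit 341) (nat_lit 269) (nat_lit 170)))) (XT.nd (nat_lit 78) (nat_lit 0) (nat_lit 0) (XT.lf (nat_lit 0) (nat_lit 4077946494) (nat_lit 152) (nat_lit 9955869028) (nat_lit 228) (nat_lit 8116909090) (nat_lit 30) (nat_lit 5) (nat_lit 32) (nat_lit 5) (nat_lit 33) (nat_lit 5) (nat_lit 342) (nat_lit 269) (nat_lit 169)) (XT.nd (nat_lit 78) (nat_lit 0) (nat_lit 0) (XT.lf (nat_lit 0) (nat_lit 11408464654) (nat_lit 152) (nat_lit 5668421155)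 (nat_lit 228) (nat_lit 5588774752) (nat_lit 30) (nat_lit 5) (nat_lit 32) (nat_lit 5) (nat_lit 33) (nat_lit 5) (nat_lit 343) (nat_lit 269) (nat_lit 168)) (XT.lf (nat_lit 0) (nat_lit 18939546166) (nat_lit 152) (nat_lit 1258810359) (nat_lit 228) (nat_lit 2998098411) (nat_lit 30) (nat_lit 5) (nat_lit 32) (nat_lit 5) (nat_lit 33) (nat_lit 5) (nat_lit 344) (nat_lit 269) (nat_lit 167)))))) (XT.nd (nat_lit 468) (nat_lit 380) (nat_lit 0) (XT.nd (nat_lit 234) (nat_lit 152) (nat_lit 0) (XT.nd (nat_lit 78) (nat_lit 76) (nat_lit 0) (XT.lf (nat_lit 0) (nat_lit 2960470731) (nat_lit 228) (nat_lit 20500441059) (nat_lit 304) (nat_lit 280861050) (nat_lit 27) (nat_lit 5) (nat_lit 30) (nat_lit 5) (nat_lit 31) (nat_lit 5) (nat_lit 345) (nat_lit 269) (nat_lit 166)) (XT.nd (nat_lit 78) (nat_lit 0) (nat_lit 0) (XT.lf (nat_lit 0) (nat_lit 2512099029) (nat_lit 304) (nat_lit 13876829445) (nat_lit 76) (nat_lit 7912517132)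 (nat_lit 26) (nat_lit 5) (nat_lit 30) (nat_lit 5) (nat_lit 27) (nat_lit 5) (nat_lit 346) (nat_lit 269) (nat_lit 165)) (XT.lf (nat_lit 0) (nat_lit 5371031291) (nat_lit 304) (nat_lit 6786654104) (nat_lit 76) (nat_lit 12720525850) (nat_lit 26) (nat_lit 5) (nat_lit 30) (nat_lit 5) (nat_lit 27) (nat_lit 5) (nat_lit 347) (nat_lit 269) (nat_lit 164)))) (XT.nd (nat_lit 78) (nat_lit 0) (nat_lit 0) (XT.lf (nat_lit 0) (nat_lit 508032564) (nat_lit 152) (nat_lit 7800765396) (nat_lit 228) (nat_lit 17163710254) (nat_lit 24) (nat_lit 5) (nat_lit 26) (nat_lit 5) (nat_lit 27) (nat_lit 5) (nat_lit 348) (nat_lit 269) (nat_lit 163)) (XT.nd (nat_lit 78) (nat_lit 0) (nat_lit 0) (XT.lf (nat_lit 0) (nat_lit 8142749635) (nat_lit 152) (nat_lit 3248834646) (nat_lit 228) (nat_lit 14691362974) (nat_lit 24) (nat_lit 5) (nat_lit 26) (nat_lit 5) (nat_lit 27) (nat_lit 5) (nat_lit 349) (nat_lit 269) (nat_lit 162)) (XT.lf (nat_lit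 0) (nat_lit 14569328310) (nat_lit 228) (nat_lit 10736737521) (nat_lit 76) (nat_lit 1405578599) (nat_lit 24) (nat_lit 5) (nat_lit 27) (nat_lit 5) (nat_lit 25) (nat_lit 5) (nat_lit 350) (nat_lit 269) (nat_lit 161))))) (XT.nd (nat_lit 234) (nat_lit 228) (nat_lit 0) (XT.nd (nat_lit 78) (nat_lit 152) (nat_lit 0) (XT.lf (nat_lit 0) (nat_lit 17863537633) (nat_lit 228) (nat_lit 3366531984) (nat_lit 76) (nat_lit 6128517541) (nat_lit 24) (nat_lit 5) (nat_lit 27) (nat_lit 5) (nat_lit 25) (nat_lit 5) (nat_lit 351) (nat_lit 269) (nat_lit 160)) (XT.nd (nat_lit 78) (nat_lit 0) (nat_lit 0) (XT.lf (nat_lit 0) (nat_lit 4291837977) (nat_lit 152) (nat_lit 16995278694) (nat_lit 228) (nat_lit 6736923280) (nat_lit 22) (nat_lit 5) (nat_lit 24) (nat_lit 5) (nat_lit 25) (nat_lit 5) (nat_lit 352) (nat_lit 269) (nat_lit 159)) (XT.lf (nat_lit 0) (nat_lit 12232442323) (nat_lit 152) (nat_lit 12604396932) (nat_lit 228) (nat_lit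 3871931546) (nat_lit 22) (nat_lit 5) (nat_lit 24) (nat_lit 5) (nat_lit 25) (nat_lit 5) (nat_lit 353) (nat_lit 269) (nat_lit 158)))) (XT.nd (nat_lit 78) (nat_lit 228) (nat_lit 0) (XT.lf (nat_lit 0) (nat_lit 20395218856) (nat_lit 152) (nat_lit 8087583013) (nat_lit 228) (nat_lit 931566304) (nat_lit 22) (nat_lit 5) (nat_lit 24) (nat_lit 5) (nat_lit 25) (nat_lit 5) (nat_lit 354) (nat_lit 269) (nat_lit 157)) (XT.nd (nat_lit 78) (nat_lit 152) (nat_lit 0) (XT.lf (nat_lit 0) (nat_lit 2046021850) (nat_lit 228) (nat_lit 1374207545) (nat_lit 76) (nat_lit 26720617442) (nat_lit 21) (nat_lit 5) (nat_lit 24) (nat_lit 5) (nat_lit 22) (nat_lit 5) (nat_lit 355) (nat_lit 269) (nat_lit 156)) (XT.lf (nat_lit 0) (nat_lit 5161925553) (nat_lit 228) (nat_lit 24296848253) (nat_lit 76) (nat_lit 1428053608) (nat_lit 19) (nat_lit 5) (nat_lit 22) (nat_lit 5) (nat_lit 20) (nat_lit 5) (nat_lit 356) (nat_lit 269) (nat_lit 155))))))))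
noncomputable def xc140 : XT := (XT.nd (nat_lit 1716) (nat_lit 304) (nat_lit 0) (XT.nd (nat_lit 858) (nat_lit 228) (nat_lit 0) (XT.nd (nat_lit 390) (nat_lit 152) (nat_lit 0) (XT.nd (nat_lit 156) (nat_lit 152) (nat_lit 0) (XT.nd (nat_lit 78) (nat_lit 0) (nat_lit 0) (XT.lf (nat_lit 0) (nat_lit 8409495024) (nat_lit 228) (nat_lit 16882946292) (nat_lit 76) (nat_lit 6361615578) (nat_lit 19) (nat_lit 5) (nat_lit 22) (nat_lit 5) (nat_lit 20) (nat_lit 5) (nat_lit 357) (nat_lit 269) (nat_lit 154)) (XT.lf (nat_lit 0) (nat_lit 11745084593) (nat_lit 228) (nat_lit 9261613210) (nat_lit 76) (nat_lit 11437902372) (nat_lit 19) (nat_lit 5) (nat_lit 22) (nat_lit 5) (nat_lit 20) (nat_lit 5) (nat_lit 358) (nat_lit 269) (nat_lit 153))) (XT.nd (nat_lit 78) (nat_lit 152) (nat_lit 0) (XT.lf (nat_lit 0) (nat_lit 15171608852) (nat_lit 228) (nat_lit 1426189587) (nat_lit 76) (nat_lit 16661349580) (nat_lit 19) (nat_lit 5)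 (nat_lit 22) (nat_lit 5) (nat_lit 20) (nat_lit 5) (nat_lit 359) (nat_lit 269) (nat_lit 152)) (XT.nd (nat_lit 78) (nat_lit 0) (nat_lit 0) (XT.lf (nat_lit 0) (nat_lit 6762124465) (nat_lit 152) (nat_lit 11994939062) (nat_lit 228) (nat_lit 15339398592) (nat_lit 17) (nat_lit 5) (nat_lit 19) (nat_lit 5) (nat_lit 20) (nat_lit 5) (nat_lit 360) (nat_lit 269) (nat_lit 151)) (XT.lf (nat_lit 0) (nat_lit 15211336233) (nat_lit 152) (nat_lit 7244404150) (nat_lit 228) (nat_lit 12502998959) (nat_lit 17) (nat_lit 5) (nat_lit 19) (nat_lit 5) (nat_lit 20) (nat_lit 5) (nat_lit 361) (nat_lit 269) (nat_lit 150))))) (XT.nd (nat_lit 234) (nat_lit 76) (nat_lit 0) (XT.nd (nat_lit 78) (nat_lit 76) (nat_lit 0) (XT.lf (nat_lit 0) (nat_lit 23900444554) (nat_lit 152) (nat_lit 2356444468) (nat_lit 228) (nat_lit 9590263582) (nat_lit 17) (nat_lit 5) (nat_lit 19) (nat_lit 5) (nat_lit 20) (nat_lit 5) (nat_lit 362) (nat_lit 269)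 (nat_lit 149)) (XT.nd (nat_lit 78) (nat_lit 76) (nat_lit 0) (XT.lf (nat_lit 0) (nat_lit 30189527375) (nat_lit 228) (nat_lit 3951132876) (nat_lit 76) (nat_lit 2621047040) (nat_lit 17) (nat_lit 5) (nat_lit 20) (nat_lit 5) (nat_lit 18) (nat_lit 4) (nat_lit 363) (nat_lit 269) (nat_lit 148)) (XT.lf (nat_lit 0) (nat_lit 4332514905) (nat_lit 76) (nat_lit 29964560511) (nat_lit 152) (nat_lit 3404927600) (nat_lit 16) (nat_lit 5) (nat_lit 17) (nat_lit 5) (nat_lit 18) (nat_lit 4) (nat_lit 364) (nat_lit 269) (nat_lit 147)))) (XT.nd (nat_lit 78) (nat_lit 76) (nat_lit 0) (XT.lf (nat_lit 0) (nat_lit 12932787498) (nat_lit 76) (nat_lit 25627024306) (nat_lit 152) (nat_lit 109748908) (nat_lit 16) (nat_lit 5) (nat_lit 17) (nat_lit 5) (nat_lit 18) (nat_lit 4) (nat_lit 365) (nat_lit 269) (nat_lit 146)) (XT.nd (nat_lit 78) (nat_lit 0) (nat_lit 0) (XT.lf (nat_lit 0) (nat_lit 3212403615) (nat_lit 152) (nat_lit 17919317657)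 (nat_lit 76) (nat_lit 18533721820) (nat_lit 15) (nat_lit 5) (nat_lit 17) (nat_lit 5) (nat_lit 16) (nat_lit 5) (nat_lit 366) (nat_lit 269) (nat_lit 145)) (XT.lf (nat_lit 0) (nat_lit 6624448564) (nat_lit 152) (nat_lit 9880726248) (nat_lit 76) (nat_lit 24186232464) (nat_lit 15) (nat_lit 5) (nat_lit 17) (nat_lit 5) (nat_lit 16) (nat_lit 5) (nat_lit 367) (nat_lit 269) (nat_lit 144)))))) (XT.nd (nat_lit 390) (nat_lit 76) (nat_lit 0) (XT.nd (nat_lit 156) (nat_lit 0) (nat_lit 0) (XT.nd (nat_lit 78) (nat_lit 152) (nat_lit 0) (XT.lf (nat_lit 0) (nat_lit 10131508933) (nat_lit 152) (nat_lit 1612920001) (nat_lit 76) (nat_lit 30003952452) (nat_lit 15) (nat_lit 5) (nat_lit 17) (nat_lit 5) (nat_lit 16) (nat_lit 5) (nat_lit 368) (nat_lit 269) (nat_lit 143)) (XT.lf (nat_lit 0) (nat_lit 7028476266) (nat_lit 152) (nat_lit 6775734890) (nat_lit 228) (nat_lit 29031050974) (nat_lit 13) (nat_lit 5) (nat_lit 15) (nat_lit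 5) (nat_lit 16) (nat_lit 5) (nat_lit 369) (nat_lit 269) (nat_lit 142))) (XT.nd (nat_lit 78) (nat_lit 0) (nat_lit 0) (XT.lf (nat_lit 0) (nat_lit 15950696325) (nat_lit 152) (nat_lit 1645650844) (nat_lit 228) (nat_lit 26358134562) (nat_lit 13) (nat_lit 5) (nat_lit 15) (nat_lit 5) (nat_lit 16) (nat_lit 5) (nat_lit 370) (nat_lit 269) (nat_lit 141)) (XT.nd (nat_lit 78) (nat_lit 0) (nat_lit 0) (XT.lf (nat_lit 0) (nat_lit 21530349954) (nat_lit 228) (nat_lit 20012988923) (nat_lit 76) (nat_lit 3563105682) (nat_lit 13) (nat_lit 5) (nat_lit 16) (nat_lit 5) (nat_lit 14) (nat_lit 4) (nat_lit 371) (nat_lit 269) (nat_lit 140)) (XT.lf (nat_lit 0) (nat_lit 25591995310) (nat_lit 228) (nat_lit 11809752487) (nat_lit 76) (nat_lit 8890939239) (nat_lit 13) (nat_lit 5) (nat_lit 16) (nat_lit 5) (nat_lit 14) (nat_lit 4) (nat_lit 372) (nat_lit 269) (nat_lit 139))))) (XT.nd (nat_lit 234) (nat_lit 0) (nat_lit 0) (XT.nd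 (nat_lit 78) (nat_lit 76) (nat_lit 0) (XT.lf (nat_lit 0) (nat_lit 29769013246) (nat_lit 228) (nat_lit 3371089220) (nat_lit 76) (nat_lit 14374617788) (nat_lit 13) (nat_lit 5) (nat_lit 16) (nat_lit 5) (nat_lit 14) (nat_lit 4) (nat_lit 373) (nat_lit 269) (nat_lit 138)) (XT.nd (nat_lit 78) (nat_lit 0) (nat_lit 0) (XT.lf (nat_lit 0) (nat_lit 5416061331) (nat_lit 76) (nat_lit 28701054747) (nat_lit 152) (nat_lit 14654934057) (nat_lit 12) (nat_lit 5) (nat_lit 13) (nat_lit 5) (nat_lit 14) (nat_lit 4) (nat_lit 374) (nat_lit 269) (nat_lit 137)) (XT.lf (nat_lit 0) (nat_lit 14525672510) (nat_lit 76) (nat_lit 24097827284) (nat_lit 152) (nat_lit 11442773622) (nat_lit 12) (nat_lit 5) (nat_lit 13) (nat_lit 5) (nat_lit 14) (nat_lit 4) (nat_lit 375) (nat_lit 269) (nat_lit 136)))) (XT.nd (nat_lit 78) (nat_lit 0) (nat_lit 0) (XT.lf (nat_lit 0) (nat_lit 23898612885) (nat_lit 76) (nat_lit 19360439231) (nat_lit 152)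 (nat_lit 8140460352) (nat_lit 12) (nat_lit 5) (nat_lit 13) (nat_lit 5) (nat_lit 14) (nat_lit 4) (nat_lit 376) (nat_lit 269) (nat_lit 135)) (XT.nd (nat_lit 78) (nat_lit 0) (nat_lit 0) (XT.lf (nat_lit 0) (nat_lit 33543072404) (nat_lit 76) (nat_lit 14484751124) (nat_lit 152) (nat_lit 4745108731) (nat_lit 12) (nat_lit 5) (nat_lit 13) (nat_lit 5) (nat_lit 14) (nat_lit 4) (nat_lit 377) (nat_lit 269) (nat_lit 134)) (XT.lf (nat_lit 0) (nat_lit 43467478263) (nat_lit 76) (nat_lit 9466502652) (nat_lit 152) (nat_lit 1253751947) (nat_lit 12) (nat_lit 5) (nat_lit 13) (nat_lit 5) (nat_lit 14) (nat_lit 4) (nat_lit 378) (nat_lit 269) (nat_lit 133))))))) (XT.nd (nat_lit 858) (nat_lit 0) (nat_lit 0) (XT.nd (nat_lit 390) (nat_lit 76) (nat_lit 0) (XT.nd (nat_lit 156) (nat_lit 0) (nat_lit 0) (XT.nd (nat_lit 78) (nat_lit 152) (nat_lit 0) (XT.lf (nat_lit 0) (nat_lit 2291064033) (nat_lit 152) (nat_lit 1987109650) (nat_lit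 76) (nat_lit 51366302988) (nat_lit 11) (nat_lit 5) (nat_lit 13) (nat_lit 5) (nat_lit 12) (nat_lit 5) (nat_lit 379) (nat_lit 269) (nat_lit 132)) (XT.lf (nat_lit 0) (nat_lit 5991122471) (nat_lit 228) (nat_lit 50027976340) (nat_lit 76) (nat_lit 1123235899) (nat_lit 9) (nat_lit 5) (nat_lit 12) (nat_lit 5) (nat_lit 10) (nat_lit 4) (nat_lit 380) (nat_lit 269) (nat_lit 131))) (XT.nd (nat_lit 78) (nat_lit 0) (nat_lit 0) (XT.lf (nat_lit 0) (nat_lit 9859432146) (nat_lit 228) (nat_lit 42206487942) (nat_lit 76) (nat_lit 6617497942) (nat_lit 9) (nat_lit 5) (nat_lit 12) (nat_lit 5) (nat_lit 10) (nat_lit 4) (nat_lit 381) (nat_lit 269) (nat_lit 130)) (XT.nd (nat_lit 78) (nat_lit 0) (nat_lit 0) (XT.lf (nat_lit 0) (nat_lit 13838574359) (nat_lit 228) (nat_lit 34159101329) (nat_lit 76) (nat_lit 12273221482) (nat_lit 9) (nat_lit 5) (nat_lit 12) (nat_lit 5) (nat_lit 10) (nat_lit 4) (nat_lit 382) (nat_lit 269) (nat_lit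 129)) (XT.lf (nat_lit 0) (nat_lit 17932026031) (nat_lit 228) (nat_lit 25878784805) (nat_lit 76) (nat_lit 18095348414) (nat_lit 9) (nat_lit 5) (nat_lit 12) (nat_lit 5) (nat_lit 10) (nat_lit 4) (nat_lit 383) (nat_lit 269) (nat_lit 128))))) (XT.nd (nat_lit 234) (nat_lit 0) (nat_lit 0) (XT.nd (nat_lit 78) (nat_lit 76) (nat_lit 0) (XT.lf (nat_lit 0) (nat_lit 22143363962) (nat_lit 228) (nat_lit 17358303141) (nat_lit 76) (nat_lit 24088966032) (nat_lit 9) (nat_lit 5) (nat_lit 12) (nat_lit 5) (nat_lit 10) (nat_lit 4) (nat_lit 384) (nat_lit 269) (nat_lit 127)) (XT.nd (nat_lit 78) (nat_lit 76) (nat_lit 0) (XT.lf (nat_lit 0) (nat_lit 26476267965) (nat_lit 228) (nat_lit 8590211257) (nat_lit 76) (nat_lit 30259311479) (nat_lit 9) (nat_lit 5) (nat_lit 12) (nat_lit 5) (nat_lit 10) (nat_lit 4) (nat_lit 385) (nat_lit 269) (nat_lit 126)) (XT.lf (nat_lit 0) (nat_lit 441772865) (nat_lit 76) (nat_lit 30496997796)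 (nat_lit 152) (nat_lit 36174250044) (nat_lit 8) (nat_lit 5) (nat_lit 9) (nat_lit 5) (nat_lit 10) (nat_lit 4) (nat_lit 386) (nat_lit 269) (nat_lit 125)))) (XT.nd (nat_lit 78) (nat_lit 0) (nat_lit 0) (XT.lf (nat_lit 0) (nat_lit 9913112512) (nat_lit 76) (nat_lit 25704206232) (nat_lit 152) (nat_lit 33334089637) (nat_lit 8) (nat_lit 5) (nat_lit 9) (nat_lit 5) (nat_lit 10) (nat_lit 4) (nat_lit 387) (nat_lit 269) (nat_lit 124)) (XT.nd (nat_lit 78) (nat_lit 0) (nat_lit 0) (XT.lf (nat_lit 0) (nat_lit 19661121562) (nat_lit 76) (nat_lit 20770660945) (nat_lit 152) (nat_lit 30413304113) (nat_lit 8) (nat_lit 5) (nat_lit 9) (nat_lit 5) (nat_lit 10) (nat_lit 4) (nat_lit 388) (nat_lit 269) (nat_lit 123)) (XT.lf (nat_lit 0) (nat_lit 29694317694) (nat_lit 76) (nat_lit 15692051071) (nat_lit 152) (nat_lit 27409341330) (nat_lit 8) (nat_lit 5) (nat_lit 9) (nat_lit 5) (nat_lit 10) (nat_lit 4) (nat_lit 389) (nat_lit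 269) (nat_lit 122)))))) (XT.nd (nat_lit 31356) (nat_lit 0) (nat_lit 14212) (XT.nd (nat_lit 156) (nat_lit 0) (nat_lit 0) (XT.nd (nat_lit 78) (nat_lit 0) (nat_lit 0) (XT.lf (nat_lit 0) (nat_lit 40021467777) (nat_lit 76) (nat_lit 10463938989) (nat_lit 152) (nat_lit 24319576464) (nat_lit 8) (nat_lit 5) (nat_lit 9) (nat_lit 5) (nat_lit 10) (nat_lit 4) (nat_lit 390) (nat_lit 269) (nat_lit 121)) (XT.lf (nat_lit 0) (nat_lit 50651595536) (nat_lit 76) (nat_lit 5081756446) (nat_lit 152) (nat_lit 21141309723) (nat_lit 8) (nat_lit 5) (nat_lit 9) (nat_lit 5) (nat_lit 10) (nat_lit 4) (nat_lit 391) (nat_lit 269) (nat_lit 120))) (XT.nd (nat_lit 78) (nat_lit 0) (nat_lit 0) (XT.lf (nat_lit 0) (nat_lit 61139204100) (nat_lit 152) (nat_lit 17416978648) (nat_lit 0) (nat_lit 450238801) (nat_lit 8) (nat_lit 5) (nat_lit 10) (nat_lit 4) (nat_lit 8) (nat_lit 4) (nat_lit 392) (nat_lit 269) (nat_lit 119)) (XT.nd (nat_lit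 31044) (nat_lit 0) (nat_lit 15504) (XT.lf (nat_lit 0) (nat_lit 66753690437) (nat_lit 152) (nat_lit 8403562008) (nat_lit 0) (nat_lit 6043492911) (nat_lit 8) (nat_lit 5) (nat_lit 10) (nat_lit 4) (nat_lit 8) (nat_lit 4) (nat_lit 393) (nat_lit 269) (nat_lit 118)) (XT.lf (nat_lit 0) (nat_lit 1099081699) (nat_lit 0) (nat_lit 1099081699) (nat_lit 532) (nat_lit 1247710552) (nat_lit 212) (nat_lit 5) (nat_lit 212) (nat_lit 3) (nat_lit 219) (nat_lit 3) (nat_lit 270) (nat_lit 270) (nat_lit 240))))) (XT.nd (nat_lit 234) (nat_lit 684) (nat_lit 0) (XT.nd (nat_lit 78) (nat_lit 608) (nat_lit 0) (XT.lf (nat_lit 0) (nat_lit 5112092362) (nat_lit 0) (nat_lit 1019282620) (nat_lit 532) (nat_lit 806645663) (nat_lit 212) (nat_lit 5) (nat_lit 212) (nat_lit 3) (nat_lit 219) (nat_lit 3) (nat_lit 271) (nat_lit 270) (nat_lit 239)) (XT.nd (nat_lit 78) (nat_lit 0) (nat_lit 0) (XT.lf (nat_lit 0) (nat_lit 861545057) (nat_lit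 608) (nat_lit 5883490140) (nat_lit 684) (nat_lit 242235134) (nat_lit 204) (nat_lit 5) (nat_lit 212) (nat_lit 5) (nat_lit 213) (nat_lit 5) (nat_lit 272) (nat_lit 270) (nat_lit 238)) (XT.lf (nat_lit 0) (nat_lit 2528120443) (nat_lit 608) (nat_lit 2933198966) (nat_lit 684) (nat_lit 1577760576) (nat_lit 204) (nat_lit 5) (nat_lit 212) (nat_lit 5) (nat_lit 213) (nat_lit 5) (nat_lit 273) (nat_lit 270) (nat_lit 237)))) (XT.nd (nat_lit 78) (nat_lit 684) (nat_lit 0) (XT.lf (nat_lit 76) (nat_lit 71755309) (nat_lit 0) (nat_lit 4111335268) (nat_lit 684) (nat_lit 2911452519) (nat_lit 205) (nat_lit 5) (nat_lit 204) (nat_lit 5) (nat_lit 213) (nat_lit 5) (nat_lit 274) (nat_lit 270) (nat_lit 236)) (XT.nd (nat_lit 78) (nat_lit 684) (nat_lit 0) (XT.lf (nat_lit 76) (nat_lit 3192085627) (nat_lit 0) (nat_lit 2664430333) (nat_lit 684) (nat_lit 1296333737) (nat_lit 205) (nat_lit 5) (nat_lit 204) (nat_lit 5) (nat_lit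 213) (nat_lit 5) (nat_lit 275) (nat_lit 270) (nat_lit 235)) (XT.lf (nat_lit 0) (nat_lit 300213674) (nat_lit 684) (nat_lit 845714633) (nat_lit 760) (nat_lit 6068896832) (nat_lit 195) (nat_lit 5) (nat_lit 204) (nat_lit 5) (nat_lit 205) (nat_lit 5) (nat_lit 276) (nat_lit 270) (nat_lit 234))))))))
noncomputable def xc141 : XT := (XT.nd (nat_lit 1716) (nat_lit 4560) (nat_lit 0) (XT.nd (nat_lit 858) (nat_lit 4484) (nat_lit 0) (XT.nd (nat_lit 390) (nat_lit 760) (nat_lit 0) (XT.nd (nat_lit 156) (nat_lit 684) (nat_lit 0) (XT.nd (nat_lit 78) (nat_lit 0) (nat_lit 0) (XT.lf (nat_lit 0) (nat_lit 1887790172) (nat_lit 684) (nat_lit 4922399395) (nat_lit 760) (nat_lit 469232692) (nat_lit 196) (nat_lit 5) (nat_lit 205) (nat_lit 5) (nat_lit 206) (nat_lit 5) (nat_lit 277) (nat_lit 270) (nat_lit 233)) (XT.lf (nat_lit 0) (nat_lit 3486434748) (nat_lit 684) (nat_lit 1720031500) (nat_lit 760) (nat_lit 2140804415) (nat_lit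 196) (nat_lit 5) (nat_lit 205) (nat_lit 5) (nat_lit 206) (nat_lit 5) (nat_lit 278) (nat_lit 270) (nat_lit 232))) (XT.nd (nat_lit 78) (nat_lit 684) (nat_lit 0) (XT.lf (nat_lit 76) (nat_lit 1574095711) (nat_lit 0) (nat_lit 3519190960) (nat_lit 760) (nat_lit 2325270695) (nat_lit 197) (nat_lit 5) (nat_lit 196) (nat_lit 5) (nat_lit 206) (nat_lit 5) (nat_lit 279) (nat_lit 270) (nat_lit 231)) (XT.nd (nat_lit 78) (nat_lit 684) (nat_lit 0) (XT.lf (nat_lit 76) (nat_lit 4967621112) (nat_lit 0) (nat_lit 1744473953) (nat_lit 760) (nat_lit 781179238) (nat_lit 197) (nat_lit 5) (nat_lit 196) (nat_lit 5) (nat_lit 206) (nat_lit 5) (nat_lit 280) (nat_lit 270) (nat_lit 230)) (XT.lf (nat_lit 0) (nat_lit 750144952) (nat_lit 760) (nat_lit 6705717556) (nat_lit 836) (nat_lit 115628285) (nat_lit 187) (nat_lit 5) (nat_lit 197) (nat_lit 5) (nat_lit 198) (nat_lit 5) (nat_lit 281) (nat_lit 270) (nat_lit 229))))) (XT.nd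 (nat_lit 234) (nat_lit 760) (nat_lit 0) (XT.nd (nat_lit 78) (nat_lit 0) (nat_lit 0) (XT.lf (nat_lit 0) (nat_lit 2303338334) (nat_lit 760) (nat_lit 3302303358) (nat_lit 836) (nat_lit 2046617976) (nat_lit 187) (nat_lit 5) (nat_lit 197) (nat_lit 5) (nat_lit 198) (nat_lit 5) (nat_lit 282) (nat_lit 270) (nat_lit 228)) (XT.nd (nat_lit 78) (nat_lit 0) (nat_lit 0) (XT.lf (nat_lit 76) (nat_lit 171143576) (nat_lit 0) (nat_lit 3683727831) (nat_lit 836) (nat_lit 3882209281) (nat_lit 188) (nat_lit 5) (nat_lit 187) (nat_lit 5) (nat_lit 198) (nat_lit 5) (nat_lit 283) (nat_lit 270) (nat_lit 227)) (XT.lf (nat_lit 76) (nat_lit 3781425734) (nat_lit 0) (nat_lit 1656086675) (nat_lit 836) (nat_lit 2387573182) (nat_lit 188) (nat_lit 5) (nat_lit 187) (nat_lit 5) (nat_lit 198) (nat_lit 5) (nat_lit 284) (nat_lit 270) (nat_lit 226)))) (XT.nd (nat_lit 78) (nat_lit 836) (nat_lit 0) (XT.lf (nat_lit 0) (nat_lit 7024553113)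 (nat_lit 760) (nat_lit 455631529) (nat_lit 76) (nat_lit 437009368) (nat_lit 188) (nat_lit 5) (nat_lit 198) (nat_lit 5) (nat_lit 189) (nat_lit 5) (nat_lit 285) (nat_lit 270) (nat_lit 225)) (XT.nd (nat_lit 78) (nat_lit 0) (nat_lit 0) (XT.lf (nat_lit 0) (nat_lit 636167172) (nat_lit 836) (nat_lit 4766027382) (nat_lit 76) (nat_lit 2609795999) (nat_lit 177) (nat_lit 5) (nat_lit 188) (nat_lit 5) (nat_lit 178) (nat_lit 5) (nat_lit 286) (nat_lit 270) (nat_lit 224)) (XT.lf (nat_lit 0) (nat_lit 2152087892) (nat_lit 836) (nat_lit 1085870928) (nat_lit 76) (nat_lit 4872787815) (nat_lit 177) (nat_lit 5) (nat_lit 188) (nat_lit 5) (nat_lit 178) (nat_lit 5) (nat_lit 287) (nat_lit 270) (nat_lit 223)))))) (XT.nd (nat_lit 390) (nat_lit 1672) (nat_lit 0) (XT.nd (nat_lit 156) (nat_lit 1976) (nat_lit 0) (XT.nd (nat_lit 78) (nat_lit 0) (nat_lit 0) (XT.lf (nat_lit 0) (nat_lit 2723426213) (nat_lit 836) (nat_lit 972106314)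 (nat_lit 912) (nat_lit 4517623399) (nat_lit 166) (nat_lit 5) (nat_lit 177) (nat_lit 5) (nat_lit 178) (nat_lit 5) (nat_lit 288) (nat_lit 270) (nat_lit 222)) (XT.lf (nat_lit 0) (nat_lit 5266356428) (nat_lit 912) (nat_lit 1697846041) (nat_lit 76) (nat_lit 1355150240) (nat_lit 166) (nat_lit 5) (nat_lit 178) (nat_lit 5) (nat_lit 167) (nat_lit 5) (nat_lit 289) (nat_lit 270) (nat_lit 221))) (XT.nd (nat_lit 78) (nat_lit 1064) (nat_lit 0) (XT.lf (nat_lit 0) (nat_lit 2206665446) (nat_lit 912) (nat_lit 4666643701) (nat_lit 988) (nat_lit 1555899320) (nat_lit 154) (nat_lit 5) (nat_lit 166) (nat_lit 5) (nat_lit 167) (nat_lit 5) (nat_lit 290) (nat_lit 270) (nat_lit 220)) (XT.nd (nat_lit 78) (nat_lit 1064) (nat_lit 0) (XT.lf (nat_lit 0) (nat_lit 6228891447) (nat_lit 912) (nat_lit 2275780815) (nat_lit 988) (nat_lit 38540605) (nat_lit 154) (nat_lit 5) (nat_lit 166) (nat_lit 5) (nat_lit 167) (nat_lit 5) (nat_lit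 291) (nat_lit 270) (nat_lit 219)) (XT.lf (nat_lit 0) (nat_lit 1472775356) (nat_lit 1064) (nat_lit 6967792321) (nat_lit 76) (nat_lit 220415725) (nat_lit 140) (nat_lit 5) (nat_lit 154) (nat_lit 5) (nat_lit 141) (nat_lit 5) (nat_lit 292) (nat_lit 270) (nat_lit 218))))) (XT.nd (nat_lit 234) (nat_lit 608) (nat_lit 0) (XT.nd (nat_lit 78) (nat_lit 1064) (nat_lit 0) (XT.lf (nat_lit 0) (nat_lit 3035415457) (nat_lit 1064) (nat_lit 2971550950) (nat_lit 76) (nat_lit 2775233646) (nat_lit 140) (nat_lit 5) (nat_lit 154) (nat_lit 5) (nat_lit 141) (nat_lit 5) (nat_lit 293) (nat_lit 270) (nat_lit 217)) (XT.nd (nat_lit 78) (nat_lit 0) (nat_lit 0) (XT.lf (nat_lit 0) (nat_lit 1132512178) (nat_lit 1064) (nat_lit 3485081125) (nat_lit 1140) (nat_lit 4290403665) (nat_lit 126) (nat_lit 5) (nat_lit 140) (nat_lit 5) (nat_lit 141) (nat_lit 5) (nat_lit 294) (nat_lit 270) (nat_lit 216)) (XT.lf (nat_lit 0) (nat_lit 5386781159)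 (nat_lit 1064) (nat_lit 853022548) (nat_lit 1140) (nat_lit 2798106991) (nat_lit 126) (nat_lit 5) (nat_lit 140) (nat_lit 5) (nat_lit 141) (nat_lit 5) (nat_lit 295) (nat_lit 270) (nat_lit 215)))) (XT.nd (nat_lit 78) (nat_lit 76) (nat_lit 0) (XT.lf (nat_lit 0) (nat_lit 555857765) (nat_lit 532) (nat_lit 7341710659) (nat_lit 608) (nat_lit 1274663206) (nat_lit 119) (nat_lit 5) (nat_lit 126) (nat_lit 5) (nat_lit 127) (nat_lit 5) (nat_lit 296) (nat_lit 270) (nat_lit 214)) (XT.nd (nat_lit 78) (nat_lit 0) (nat_lit 0) (XT.lf (nat_lit 0) (nat_lit 298372218) (nat_lit 608) (nat_lit 4391796546) (nat_lit 76) (nat_lit 4620149207) (nat_lit 118) (nat_lit 5) (nat_lit 126) (nat_lit 5) (nat_lit 119) (nat_lit 5) (nat_lit 297) (nat_lit 270) (nat_lit 213)) (XT.lf (nat_lit 0) (nat_lit 1857983811) (nat_lit 608) (nat_lit 86673334) (nat_lit 76) (nat_lit 7508667558) (nat_lit 118) (nat_lit 5) (nat_lit 126) (nat_lit 5) (nat_lit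 119) (nat_lit 5) (nat_lit 298) (nat_lit 270) (nat_lit 212))))))) (XT.nd (nat_lit 858) (nat_lit 1824) (nat_lit 0) (XT.nd (nat_lit 390) (nat_lit 1216) (nat_lit 0) (XT.nd (nat_lit 156) (nat_lit 1064) (nat_lit 0) (XT.nd (nat_lit 78) (nat_lit 0) (nat_lit 0) (XT.lf (nat_lit 0) (nat_lit 3481633825) (nat_lit 532) (nat_lit 5208509905) (nat_lit 76) (nat_lit 910063851) (nat_lit 112) (nat_lit 5) (nat_lit 119) (nat_lit 5) (nat_lit 113) (nat_lit 5) (nat_lit 299) (nat_lit 270) (nat_lit 211)) (XT.lf (nat_lit 0) (nat_lit 5140844320) (nat_lit 532) (nat_lit 797919684) (nat_lit 76) (nat_lit 3813227846) (nat_lit 112) (nat_lit 5) (nat_lit 119) (nat_lit 5) (nat_lit 113) (nat_lit 5) (nat_lit 300) (nat_lit 270) (nat_lit 210))) (XT.nd (nat_lit 78) (nat_lit 532) (nat_lit 0) (XT.lf (nat_lit 0) (nat_lit 3786465301) (nat_lit 532) (nat_lit 3067446227) (nat_lit 608) (nat_lit 3054393217) (nat_lit 105) (nat_lit 5) (nat_lit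 112) (nat_lit 5) (nat_lit 113) (nat_lit 5) (nat_lit 301) (nat_lit 270) (nat_lit 209)) (XT.nd (nat_lit 78) (nat_lit 532) (nat_lit 0) (XT.lf (nat_lit 0) (nat_lit 8492645639) (nat_lit 532) (nat_lit 102097902) (nat_lit 608) (nat_lit 1475366969) (nat_lit 105) (nat_lit 5) (nat_lit 112) (nat_lit 5) (nat_lit 113) (nat_lit 5) (nat_lit 302) (nat_lit 270) (nat_lit 208)) (XT.lf (nat_lit 0) (nat_lit 175707716) (nat_lit 532) (nat_lit 7134512626) (nat_lit 76) (nat_lit 2925767043) (nat_lit 98) (nat_lit 5) (nat_lit 105) (nat_lit 5) (nat_lit 99) (nat_lit 5) (nat_lit 303) (nat_lit 270) (nat_lit 207))))) (XT.nd (nat_lit 234) (nat_lit 760) (nat_lit 0) (XT.nd (nat_lit 78) (nat_lit 456) (nat_lit 0) (XT.lf (nat_lit 0) (nat_lit 1833197152) (nat_lit 532) (nat_lit 2501568283) (nat_lit 76) (nat_lit 6072127461) (nat_lit 98) (nat_lit 5) (nat_lit 105) (nat_lit 5) (nat_lit 99) (nat_lit 5) (nat_lit 304) (nat_lit 270) (nat_lit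 206)) (XT.nd (nat_lit 78) (nat_lit 0) (nat_lit 0) (XT.lf (nat_lit 0) (nat_lit 2283319715) (nat_lit 456) (nat_lit 1249368412) (nat_lit 532) (nat_lit 7050553252) (nat_lit 92) (nat_lit 5) (nat_lit 98) (nat_lit 5) (nat_lit 99) (nat_lit 5) (nat_lit 305) (nat_lit 270) (nat_lit 205)) (XT.lf (nat_lit 0) (nat_lit 5298084323) (nat_lit 532) (nat_lit 3552101930) (nat_lit 76) (nat_lit 1914328111) (nat_lit 92) (nat_lit 5) (nat_lit 99) (nat_lit 5) (nat_lit 93) (nat_lit 5) (nat_lit 306) (nat_lit 270) (nat_lit 204)))) (XT.nd (nat_lit 78) (nat_lit 380) (nat_lit 0) (XT.lf (nat_lit 0) (nat_lit 1320259415) (nat_lit 380) (nat_lit 5792963196) (nat_lit 456) (nat_lit 3838178804) (nat_lit 87) (nat_lit 5) (nat_lit 92) (nat_lit 5) (nat_lit 93) (nat_lit 5) (nat_lit 307) (nat_lit 270) (nat_lit 203)) (XT.nd (nat_lit 78) (nat_lit 380) (nat_lit 0) (XT.lf (nat_lit 0) (nat_lit 6380626923) (nat_lit 380) (nat_lit 2610302398) (nat_lit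 456) (nat_lit 2152799303) (nat_lit 87) (nat_lit 5) (nat_lit 92) (nat_lit 5) (nat_lit 93) (nat_lit 5) (nat_lit 308) (nat_lit 270) (nat_lit 202)) (XT.lf (nat_lit 0) (nat_lit 217881778) (nat_lit 380) (nat_lit 10688622850) (nat_lit 456) (nat_lit 435949631) (nat_lit 82) (nat_lit 5) (nat_lit 87) (nat_lit 5) (nat_lit 88) (nat_lit 5) (nat_lit 309) (nat_lit 270) (nat_lit 201)))))) (XT.nd (nat_lit 468) (nat_lit 988) (nat_lit 0) (XT.nd (nat_lit 234) (nat_lit 380) (nat_lit 0) (XT.nd (nat_lit 78) (nat_lit 380) (nat_lit 0) (XT.lf (nat_lit 0) (nat_lit 1354005551) (nat_lit 456) (nat_lit 6170124709) (nat_lit 76) (nat_lit 4021269608) (nat_lit 81) (nat_lit 5) (nat_lit 87) (nat_lit 5) (nat_lit 82) (nat_lit 5) (nat_lit 310) (nat_lit 270) (nat_lit 200)) (XT.nd (nat_lit 78) (nat_lit 380) (nat_lit 0) (XT.lf (nat_lit 0) (nat_lit 3162859629) (nat_lit 456) (nat_lit 1101681164) (nat_lit 76) (nat_lit 7490613080) (nat_lit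 81) (nat_lit 5) (nat_lit 87) (nat_lit 5) (nat_lit 82) (nat_lit 5) (nat_lit 311) (nat_lit 270) (nat_lit 199)) (XT.lf (nat_lit 0) (nat_lit 4170764134) (nat_lit 380) (nat_lit 870027905) (nat_lit 456) (nat_lit 6930030477) (nat_lit 76) (nat_lit 5) (nat_lit 81) (nat_lit 5) (nat_lit 82) (nat_lit 5) (nat_lit 312) (nat_lit 270) (nat_lit 198)))) (XT.nd (nat_lit 78) (nat_lit 380) (nat_lit 0) (XT.lf (nat_lit 0) (nat_lit 6986678456) (nat_lit 456) (nat_lit 2623934387) (nat_lit 76) (nat_lit 2582064359) (nat_lit 76) (nat_lit 5) (nat_lit 82) (nat_lit 5) (nat_lit 77) (nat_lit 5) (nat_lit 313) (nat_lit 270) (nat_lit 197)) (XT.nd (nat_lit 78) (nat_lit 0) (nat_lit 0) (XT.lf (nat_lit 0) (nat_lit 2722947940) (nat_lit 380) (nat_lit 6278641788) (nat_lit 456) (nat_lit 3419340940) (nat_lit 71) (nat_lit 5) (nat_lit 76) (nat_lit 5) (nat_lit 77) (nat_lit 5) (nat_lit 314) (nat_lit 270) (nat_lit 196)) (XT.lf (nat_lit 0) (nat_lit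 8255263811) (nat_lit 380) (nat_lit 2824467257) (nat_lit 456) (nat_lit 1576277951) (nat_lit 71) (nat_lit 5) (nat_lit 76) (nat_lit 5) (nat_lit 77) (nat_lit 5) (nat_lit 315) (nat_lit 270) (nat_lit 195))))) (XT.nd (nat_lit 234) (nat_lit 608) (nat_lit 0) (XT.nd (nat_lit 78) (nat_lit 0) (nat_lit 0) (XT.lf (nat_lit 0) (nat_lit 309650929) (nat_lit 380) (nat_lit 11861386208) (nat_lit 76) (nat_lit 727251215) (nat_lit 66) (nat_lit 5) (nat_lit 71) (nat_lit 5) (nat_lit 67) (nat_lit 5) (nat_lit 316) (nat_lit 270) (nat_lit 194)) (XT.nd (nat_lit 78) (nat_lit 0) (nat_lit 0) (XT.lf (nat_lit 0) (nat_lit 2270368545) (nat_lit 380) (nat_lit 6491482376) (nat_lit 76) (nat_lit 4384075775) (nat_lit 66) (nat_lit 5) (nat_lit 71) (nat_lit 5) (nat_lit 67) (nat_lit 5) (nat_lit 317) (nat_lit 270) (nat_lit 193)) (XT.lf (nat_lit 0) (nat_lit 4267624764) (nat_lit 380) (nat_lit 988498550) (nat_lit 76) (nat_lit 8145593352) (nat_lit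 66) (nat_lit 5) (nat_lit 71) (nat_lit 5) (nat_lit 67) (nat_lit 5) (nat_lit 318) (nat_lit 270) (nat_lit 192)))) (XT.nd (nat_lit 78) (nat_lit 304) (nat_lit 0) (XT.lf (nat_lit 0) (nat_lit 4744965059) (nat_lit 304) (nat_lit 1603811207) (nat_lit 380) (nat_lit 7315737156) (nat_lit 62) (nat_lit 5) (nat_lit 66) (nat_lit 5) (nat_lit 67) (nat_lit 5) (nat_lit 319) (nat_lit 270) (nat_lit 191)) (XT.nd (nat_lit 78) (nat_lit 304) (nat_lit 0) (XT.lf (nat_lit 0) (nat_lit 8501870510) (nat_lit 380) (nat_lit 3312610981) (nat_lit 76) (nat_lit 2120478235) (nat_lit 62) (nat_lit 5) (nat_lit 67) (nat_lit 5) (nat_lit 63) (nat_lit 5) (nat_lit 320) (nat_lit 270) (nat_lit 190)) (XT.lf (nat_lit 0) (nat_lit 2468050059) (nat_lit 304) (nat_lit 8270414912) (nat_lit 380) (nat_lit 3474536632) (nat_lit 58) (nat_lit 5) (nat_lit 62) (nat_lit 5) (nat_lit 63) (nat_lit 5) (nat_lit 321) (nat_lit 270) (nat_lit 189))))))))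
noncomputable def xc142 : XT := (XT.nd (nat_lit 1716) (nat_lit 1064) (nat_lit 0) (XT.nd (nat_lit 858) (nat_lit 912) (nat_lit 0) (XT.nd (nat_lit 390) (nat_lit 608) (nat_lit 0) (XT.nd (nat_lit 156) (nat_lit 532) (nat_lit 0) (XT.nd (nat_lit 78) (nat_lit 76) (nat_lit 0) (XT.lf (nat_lit 0) (nat_lit 8463532925) (nat_lit 304) (nat_lit 4591726921) (nat_lit 380) (nat_lit 1443779780) (nat_lit 58) (nat_lit 5) (nat_lit 62) (nat_lit 5) (nat_lit 63) (nat_lit 5) (nat_lit 322) (nat_lit 270) (nat_lit 188)) (XT.lf (nat_lit 0) (nat_lit 615260030) (nat_lit 380) (nat_lit 187181056) (nat_lit 76) (nat_lit 13991675985) (nat_lit 57) (nat_lit 5) (nat_lit 62) (nat_lit 5) (nat_lit 58) (nat_lit 5) (nat_lit 323) (nat_lit 270) (nat_lit 187))) (XT.nd (nat_lit 78) (nat_lit 228) (nat_lit 0) (XT.lf (nat_lit 0) (nat_lit 2774920967) (nat_lit 380) (nat_lit 9214733295) (nat_lit 76) (nat_lit 3105971574) (nat_lit 53) (nat_lit 5) (nat_lit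 58) (nat_lit 5) (nat_lit 54) (nat_lit 5) (nat_lit 324) (nat_lit 270) (nat_lit 186)) (XT.nd (nat_lit 78) (nat_lit 228) (nat_lit 0) (XT.lf (nat_lit 0) (nat_lit 4990076333) (nat_lit 380) (nat_lit 3304961466) (nat_lit 76) (nat_lit 7111463547) (nat_lit 53) (nat_lit 5) (nat_lit 58) (nat_lit 5) (nat_lit 54) (nat_lit 5) (nat_lit 325) (nat_lit 270) (nat_lit 185)) (XT.lf (nat_lit 0) (nat_lit 2812004984) (nat_lit 228) (nat_lit 4468120596) (nat_lit 304) (nat_lit 8446365742) (nat_lit 50) (nat_lit 5) (nat_lit 53) (nat_lit 5) (nat_lit 54) (nat_lit 5) (nat_lit 326) (nat_lit 270) (nat_lit 184))))) (XT.nd (nat_lit 234) (nat_lit 304) (nat_lit 0) (XT.nd (nat_lit 78) (nat_lit 304) (nat_lit 0) (XT.lf (nat_lit 0) (nat_lit 9155502832) (nat_lit 228) (nat_lit 498459428) (nat_lit 304) (nat_lit 6401706330) (nat_lit 50) (nat_lit 5) (nat_lit 53) (nat_lit 5) (nat_lit 54) (nat_lit 5) (nat_lit 327) (nat_lit 270) (nat_lit 183))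 (XT.nd (nat_lit 78) (nat_lit 304) (nat_lit 0) (XT.lf (nat_lit 0) (nat_lit 12115711010) (nat_lit 304) (nat_lit 764445097) (nat_lit 76) (nat_lit 3514103164) (nat_lit 50) (nat_lit 5) (nat_lit 54) (nat_lit 5) (nat_lit 51) (nat_lit 5) (nat_lit 328) (nat_lit 270) (nat_lit 182)) (XT.lf (nat_lit 0) (nat_lit 5636598935) (nat_lit 304) (nat_lit 9056534741) (nat_lit 380) (nat_lit 2048657217) (nat_lit 46) (nat_lit 5) (nat_lit 50) (nat_lit 5) (nat_lit 51) (nat_lit 5) (nat_lit 329) (nat_lit 270) (nat_lit 181)))) (XT.nd (nat_lit 78) (nat_lit 228) (nat_lit 0) (XT.lf (nat_lit 0) (nat_lit 233860891) (nat_lit 380) (nat_lit 4880582297) (nat_lit 76) (nat_lit 11985552247) (nat_lit 45) (nat_lit 5) (nat_lit 50) (nat_lit 5) (nat_lit 46) (nat_lit 5) (nat_lit 330) (nat_lit 270) (nat_lit 180)) (XT.nd (nat_lit 78) (nat_lit 0) (nat_lit 0) (XT.lf (nat_lit 0) (nat_lit 1516829797) (nat_lit 228) (nat_lit 1024707547) (nat_lit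 304) (nat_lit 14926899145) (nat_lit 42) (nat_lit 5) (nat_lit 45) (nat_lit 5) (nat_lit 46) (nat_lit 5) (nat_lit 331) (nat_lit 270) (nat_lit 179)) (XT.lf (nat_lit 0) (nat_lit 4982339381) (nat_lit 304) (nat_lit 9694858310) (nat_lit 76) (nat_lit 3168849870) (nat_lit 42) (nat_lit 5) (nat_lit 46) (nat_lit 5) (nat_lit 43) (nat_lit 5) (nat_lit 332) (nat_lit 270) (nat_lit 178)))))) (XT.nd (nat_lit 390) (nat_lit 456) (nat_lit 0) (XT.nd (nat_lit 156) (nat_lit 228) (nat_lit 0) (XT.nd (nat_lit 78) (nat_lit 228) (nat_lit 0) (XT.lf (nat_lit 0) (nat_lit 7490472939) (nat_lit 304) (nat_lit 3283356193) (nat_lit 76) (nat_lit 7461367272) (nat_lit 42) (nat_lit 5) (nat_lit 46) (nat_lit 5) (nat_lit 43) (nat_lit 5) (nat_lit 333) (nat_lit 270) (nat_lit 177)) (XT.lf (nat_lit 0) (nat_lit 3363995731) (nat_lit 228) (nat_lit 6726620531) (nat_lit 304) (nat_lit 8544932190) (nat_lit 39) (nat_lit 5) (nat_lit 42) (nat_lit 5)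 (nat_lit 43) (nat_lit 5) (nat_lit 334) (nat_lit 270) (nat_lit 176))) (XT.nd (nat_lit 78) (nat_lit 228) (nat_lit 0) (XT.lf (nat_lit 0) (nat_lit 10256151915) (nat_lit 228) (nat_lit 2530439201) (nat_lit 304) (nat_lit 6260815918) (nat_lit 39) (nat_lit 5) (nat_lit 42) (nat_lit 5) (nat_lit 43) (nat_lit 5) (nat_lit 335) (nat_lit 270) (nat_lit 175)) (XT.nd (nat_lit 78) (nat_lit 228) (nat_lit 0) (XT.lf (nat_lit 0) (nat_lit 15565724125) (nat_lit 304) (nat_lit 2155468998) (nat_lit 76) (nat_lit 1750389775) (nat_lit 39) (nat_lit 5) (nat_lit 43) (nat_lit 5) (nat_lit 40) (nat_lit 5) (nat_lit 336) (nat_lit 270) (nat_lit 174)) (XT.lf (nat_lit 0) (nat_lit 4725481821) (nat_lit 228) (nat_lit 13758719308) (nat_lit 304) (nat_lit 1422632828) (nat_lit 36) (nat_lit 5) (nat_lit 39) (nat_lit 5) (nat_lit 40) (nat_lit 5) (nat_lit 337) (nat_lit 270) (nat_lit 173))))) (XT.nd (nat_lit 234) (nat_lit 152) (nat_lit 0) (XT.nd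 (nat_lit 78) (nat_lit 228) (nat_lit 0) (XT.lf (nat_lit 0) (nat_lit 1120466624) (nat_lit 304) (nat_lit 8529744799) (nat_lit 76) (nat_lit 10704405354) (nat_lit 35) (nat_lit 5) (nat_lit 39) (nat_lit 5) (nat_lit 36) (nat_lit 5) (nat_lit 338) (nat_lit 270) (nat_lit 172)) (XT.nd (nat_lit 78) (nat_lit 228) (nat_lit 0) (XT.lf (nat_lit 0) (nat_lit 3697231481) (nat_lit 304) (nat_lit 1713232686) (nat_lit 76) (nat_lit 15405393931) (nat_lit 35) (nat_lit 5) (nat_lit 39) (nat_lit 5) (nat_lit 36) (nat_lit 5) (nat_lit 339) (nat_lit 270) (nat_lit 171)) (XT.lf (nat_lit 0) (nat_lit 5393053491) (nat_lit 228) (nat_lit 996461810) (nat_lit 304) (nat_lit 14900300662) (nat_lit 32) (nat_lit 5) (nat_lit 35) (nat_lit 5) (nat_lit 36) (nat_lit 5) (nat_lit 340) (nat_lit 270) (nat_lit 170)))) (XT.nd (nat_lit 78) (nat_lit 152) (nat_lit 0) (XT.lf (nat_lit 0) (nat_lit 9200684182) (nat_lit 304) (nat_lit 9084251507) (nat_lit 76)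 (nat_lit 3491938413) (nat_lit 32) (nat_lit 5) (nat_lit 36) (nat_lit 5) (nat_lit 33) (nat_lit 5) (nat_lit 341) (nat_lit 270) (nat_lit 169)) (XT.nd (nat_lit 78) (nat_lit 152) (nat_lit 0) (XT.lf (nat_lit 0) (nat_lit 12092967263) (nat_lit 304) (nat_lit 2096774969) (nat_lit 76) (nat_lit 8088922683) (nat_lit 32) (nat_lit 5) (nat_lit 36) (nat_lit 5) (nat_lit 33) (nat_lit 5) (nat_lit 342) (nat_lit 270) (nat_lit 168)) (XT.lf (nat_lit 0) (nat_lit 5182480158) (nat_lit 152) (nat_lit 9926650194) (nat_lit 228) (nat_lit 7685289353) (nat_lit 30) (nat_lit 5) (nat_lit 32) (nat_lit 5) (nat_lit 33) (nat_lit 5) (nat_lit 343) (nat_lit 270) (nat_lit 167))))))) (XT.nd (nat_lit 858) (nat_lit 456) (nat_lit 0) (XT.nd (nat_lit 390) (nat_lit 304) (nat_lit 0) (XT.nd (nat_lit 156) (nat_lit 304) (nat_lit 0) (XT.nd (nat_lit 78) (nat_lit 0) (nat_lit 0) (XT.lf (nat_lit 0) (nat_lit 12704306233) (nat_lit 152) (nat_lit 5520129222)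 (nat_lit 228) (nat_lit 5100974878) (nat_lit 30) (nat_lit 5) (nat_lit 32) (nat_lit 5) (nat_lit 33) (nat_lit 5) (nat_lit 344) (nat_lit 270) (nat_lit 166)) (XT.lf (nat_lit 0) (nat_lit 20433545794) (nat_lit 152) (nat_lit 987502275) (nat_lit 228) (nat_lit 2451669406) (nat_lit 30) (nat_lit 5) (nat_lit 32) (nat_lit 5) (nat_lit 33) (nat_lit 5) (nat_lit 345) (nat_lit 270) (nat_lit 165))) (XT.nd (nat_lit 78) (nat_lit 0) (nat_lit 0) (XT.lf (nat_lit 0) (nat_lit 334111425) (nat_lit 304) (nat_lit 20455368361) (nat_lit 76) (nat_lit 3645032983) (nat_lit 26) (nat_lit 5) (nat_lit 30) (nat_lit 5) (nat_lit 27) (nat_lit 5) (nat_lit 346) (nat_lit 270) (nat_lit 164)) (XT.nd (nat_lit 78) (nat_lit 0) (nat_lit 0) (XT.lf (nat_lit 0) (nat_lit 3187222464) (nat_lit 304) (nat_lit 13374112960) (nat_lit 76) (nat_lit 8450127646) (nat_lit 26) (nat_lit 5) (nat_lit 30) (nat_lit 5) (nat_lit 27) (nat_lit 5) (nat_lit 347) (nat_lit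 270) (nat_lit 163)) (XT.lf (nat_lit 0) (nat_lit 6114453942) (nat_lit 304) (nat_lit 6097999972) (nat_lit 76) (nat_lit 13393631916) (nat_lit 26) (nat_lit 5) (nat_lit 30) (nat_lit 5) (nat_lit 27) (nat_lit 5) (nat_lit 348) (nat_lit 270) (nat_lit 162))))) (XT.nd (nat_lit 234) (nat_lit 152) (nat_lit 0) (XT.nd (nat_lit 78) (nat_lit 0) (nat_lit 0) (XT.lf (nat_lit 0) (nat_lit 1406779710) (nat_lit 152) (nat_lit 7725106750) (nat_lit 228) (nat_lit 17086608477) (nat_lit 24) (nat_lit 5) (nat_lit 26) (nat_lit 5) (nat_lit 27) (nat_lit 5) (nat_lit 349) (nat_lit 270) (nat_lit 161)) (XT.nd (nat_lit 78) (nat_lit 0) (nat_lit 0) (XT.lf (nat_lit 0) (nat_lit 9244805104) (nat_lit 152) (nat_lit 3045637930) (nat_lit 228) (nat_lit 14557333878) (nat_lit 24) (nat_lit 5) (nat_lit 26) (nat_lit 5) (nat_lit 27) (nat_lit 5) (nat_lit 350) (nat_lit 270) (nat_lit 160)) (XT.lf (nat_lit 0) (nat_lit 15550098810) (nat_lit 228) (nat_lit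 10211711884) (nat_lit 76) (nat_lit 1733954463) (nat_lit 24) (nat_lit 5) (nat_lit 27) (nat_lit 5) (nat_lit 25) (nat_lit 5) (nat_lit 351) (nat_lit 270) (nat_lit 159)))) (XT.nd (nat_lit 78) (nat_lit 152) (nat_lit 0) (XT.lf (nat_lit 0) (nat_lit 18927298763) (nat_lit 228) (nat_lit 2645073805) (nat_lit 76) (nat_lit 6590245403) (nat_lit 24) (nat_lit 5) (nat_lit 27) (nat_lit 5) (nat_lit 25) (nat_lit 5) (nat_lit 352) (nat_lit 270) (nat_lit 158)) (XT.nd (nat_lit 78) (nat_lit 0) (nat_lit 0) (XT.lf (nat_lit 0) (nat_lit 5234983979) (nat_lit 152) (nat_lit 17211055198) (nat_lit 228) (nat_lit 6402247506) (nat_lit 22) (nat_lit 5) (nat_lit 24) (nat_lit 5) (nat_lit 25) (nat_lit 5) (nat_lit 353) (nat_lit 270) (nat_lit 157)) (XT.lf (nat_lit 0) (nat_lit 13390086333) (nat_lit 152) (nat_lit 12697012475) (nat_lit 228) (nat_lit 3466940490) (nat_lit 22) (nat_lit 5) (nat_lit 24) (nat_lit 5) (nat_lit 25) (nat_lit 5) (nat_lit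 354) (nat_lit 270) (nat_lit 156)))))) (XT.nd (nat_lit 390) (nat_lit 228) (nat_lit 0) (XT.nd (nat_lit 156) (nat_lit 152) (nat_lit 0) (XT.nd (nat_lit 78) (nat_lit 76) (nat_lit 0) (XT.lf (nat_lit 0) (nat_lit 21774716917) (nat_lit 152) (nat_lit 8053010148) (nat_lit 228) (nat_lit 453543388) (nat_lit 22) (nat_lit 5) (nat_lit 24) (nat_lit 5) (nat_lit 25) (nat_lit 5) (nat_lit 355) (nat_lit 270) (nat_lit 155)) (XT.lf (nat_lit 0) (nat_lit 2589049699) (nat_lit 228) (nat_lit 659796327) (nat_lit 76) (nat_lit 27781008084) (nat_lit 21) (nat_lit 5) (nat_lit 24) (nat_lit 5) (nat_lit 22) (nat_lit 5) (nat_lit 356) (nat_lit 270) (nat_lit 154))) (XT.nd (nat_lit 78) (nat_lit 0) (nat_lit 0) (XT.lf (nat_lit 0) (nat_lit 5794222655) (nat_lit 228) (nat_lit 24265162070) (nat_lit 76) (nat_lit 1738978005) (nat_lit 19) (nat_lit 5) (nat_lit 22) (nat_lit 5) (nat_lit 20) (nat_lit 5) (nat_lit 357) (nat_lit 270) (nat_lit 153))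 (XT.nd (nat_lit 78) (nat_lit 0) (nat_lit 0) (XT.lf (nat_lit 0) (nat_lit 9125313210) (nat_lit 228) (nat_lit 16650996206) (nat_lit 76) (nat_lit 6812738598) (nat_lit 19) (nat_lit 5) (nat_lit 22) (nat_lit 5) (nat_lit 20) (nat_lit 5) (nat_lit 358) (nat_lit 270) (nat_lit 152)) (XT.lf (nat_lit 0) (nat_lit 12547469495) (nat_lit 228) (nat_lit 8822531047) (nat_lit 76) (nat_lit 12033733183) (nat_lit 19) (nat_lit 5) (nat_lit 22) (nat_lit 5) (nat_lit 20) (nat_lit 5) (nat_lit 359) (nat_lit 270) (nat_lit 151))))) (XT.nd (nat_lit 234) (nat_lit 76) (nat_lit 0) (XT.nd (nat_lit 78) (nat_lit 152) (nat_lit 0) (XT.lf (nat_lit 0) (nat_lit 16063681742) (nat_lit 228) (nat_lit 772926189) (nat_lit 76) (nat_lit 17406523796) (nat_lit 19) (nat_lit 5) (nat_lit 22) (nat_lit 5) (nat_lit 20) (nat_lit 5) (nat_lit 360) (nat_lit 270) (nat_lit 150)) (XT.nd (nat_lit 78) (nat_lit 0) (nat_lit 0) (XT.lf (nat_lit 0) (nat_lit 7654213275)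 (nat_lit 152) (nat_lit 12096386077) (nat_lit 228) (nat_lit 15355168813) (nat_lit 17) (nat_lit 5) (nat_lit 19) (nat_lit 5) (nat_lit 20) (nat_lit 5) (nat_lit 361) (nat_lit 270) (nat_lit 149)) (XT.lf (nat_lit 0) (nat_lit 16336826879) (nat_lit 152) (nat_lit 7210861365) (nat_lit 228) (nat_lit 12446621223) (nat_lit 17) (nat_lit 5) (nat_lit 19) (nat_lit 5) (nat_lit 20) (nat_lit 5) (nat_lit 362) (nat_lit 270) (nat_lit 148)))) (XT.nd (nat_lit 78) (nat_lit 76) (nat_lit 0) (XT.lf (nat_lit 0) (nat_lit 25267118627) (nat_lit 152) (nat_lit 2183569929) (nat_lit 228) (nat_lit 9459070805) (nat_lit 17) (nat_lit 5) (nat_lit 19) (nat_lit 5) (nat_lit 20) (nat_lit 5) (nat_lit 363) (nat_lit 270) (nat_lit 147)) (XT.nd (nat_lit 78) (nat_lit 76) (nat_lit 0) (XT.lf (nat_lit 0) (nat_lit 31491751241) (nat_lit 228) (nat_lit 3428766634) (nat_lit 76) (nat_lit 2931537662) (nat_lit 17) (nat_lit 5) (nat_lit 20) (nat_lit 5) (nat_lit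 18) (nat_lit 4) (nat_lit 364) (nat_lit 270) (nat_lit 146)) (XT.lf (nat_lit 0) (nat_lit 5097107245) (nat_lit 76) (nat_lit 30619969153) (nat_lit 152) (nat_lit 3103664891) (nat_lit 16) (nat_lit 5) (nat_lit 17) (nat_lit 5) (nat_lit 18) (nat_lit 4) (nat_lit 365) (nat_lit 270) (nat_lit 145))))))))
noncomputable def xc143 : XT := (XT.nd (nat_lit 1716) (nat_lit 0) (nat_lit 0) (XT.nd (nat_lit 858) (nat_lit 304) (nat_lit 0) (XT.nd (nat_lit 390) (nat_lit 76) (nat_lit 0) (XT.nd (nat_lit 156) (nat_lit 152) (nat_lit 0) (XT.nd (nat_lit 78) (nat_lit 0) (nat_lit 0) (XT.lf (nat_lit 0) (nat_lit 273182472) (nat_lit 152) (nat_lit 25883458835) (nat_lit 76) (nat_lit 13660962949) (nat_lit 15) (nat_lit 5) (nat_lit 17) (nat_lit 5) (nat_lit 16) (nat_lit 5) (nat_lit 366) (nat_lit 270) (nat_lit 144)) (XT.lf (nat_lit 0) (nat_lit 3681608737) (nat_lit 152) (nat_lit 17850750630) (nat_lit 76) (nat_lit 19311322866) (nat_lit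 15) (nat_lit 5) (nat_lit 17) (nat_lit 5) (nat_lit 16) (nat_lit 5) (nat_lit 367) (nat_lit 270) (nat_lit 143))) (XT.nd (nat_lit 78) (nat_lit 152) (nat_lit 0) (XT.lf (nat_lit 0) (nat_lit 7185155821) (nat_lit 152) (nat_lit 9588656232) (nat_lit 76) (nat_lit 25126954769) (nat_lit 15) (nat_lit 5) (nat_lit 17) (nat_lit 5) (nat_lit 16) (nat_lit 5) (nat_lit 368) (nat_lit 270) (nat_lit 142)) (XT.nd (nat_lit 78) (nat_lit 152) (nat_lit 0) (XT.lf (nat_lit 0) (nat_lit 10786885075) (nat_lit 152) (nat_lit 1089956336) (nat_lit 76) (nat_lit 31112940278) (nat_lit 15) (nat_lit 5) (nat_lit 17) (nat_lit 5) (nat_lit 16) (nat_lit 5) (nat_lit 369) (nat_lit 270) (nat_lit 141)) (XT.lf (nat_lit 0) (nat_lit 7805080336) (nat_lit 152) (nat_lit 6759890511) (nat_lit 228) (nat_lit 29544456738) (nat_lit 13) (nat_lit 5) (nat_lit 15) (nat_lit 5) (nat_lit 16) (nat_lit 5) (nat_lit 370) (nat_lit 270) (nat_lit 140))))) (XT.nd (nat_lit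 234) (nat_lit 76) (nat_lit 0) (XT.nd (nat_lit 78) (nat_lit 0) (nat_lit 0) (XT.lf (nat_lit 0) (nat_lit 16978488847) (nat_lit 152) (nat_lit 1482285975) (nat_lit 228) (nat_lit 26801766204) (nat_lit 13) (nat_lit 5) (nat_lit 15) (nat_lit 5) (nat_lit 16) (nat_lit 5) (nat_lit 371) (nat_lit 270) (nat_lit 139)) (XT.nd (nat_lit 78) (nat_lit 0) (nat_lit 0) (XT.lf (nat_lit 0) (nat_lit 22504981008) (nat_lit 228) (nat_lit 20071823392) (nat_lit 76) (nat_lit 3872506794) (nat_lit 13) (nat_lit 5) (nat_lit 16) (nat_lit 5) (nat_lit 14) (nat_lit 4) (nat_lit 372) (nat_lit 270) (nat_lit 138)) (XT.lf (nat_lit 0) (nat_lit 26678901340) (nat_lit 228) (nat_lit 11638263315) (nat_lit 76) (nat_lit 9354277068) (nat_lit 13) (nat_lit 5) (nat_lit 16) (nat_lit 5) (nat_lit 14) (nat_lit 4) (nat_lit 373) (nat_lit 270) (nat_lit 137)))) (XT.nd (nat_lit 78) (nat_lit 76) (nat_lit 0) (XT.lf (nat_lit 0) (nat_lit 30971934294) (nat_lit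 228) (nat_lit 2961754181) (nat_lit 76) (nat_lit 14996739479) (nat_lit 13) (nat_lit 5) (nat_lit 16) (nat_lit 5) (nat_lit 14) (nat_lit 4) (nat_lit 374) (nat_lit 270) (nat_lit 136)) (XT.nd (nat_lit 78) (nat_lit 0) (nat_lit 0) (XT.lf (nat_lit 0) (nat_lit 6084006301) (nat_lit 76) (nat_lit 29362307955) (nat_lit 152) (nat_lit 14779301223) (nat_lit 12) (nat_lit 5) (nat_lit 13) (nat_lit 5) (nat_lit 14) (nat_lit 4) (nat_lit 375) (nat_lit 270) (nat_lit 135)) (XT.lf (nat_lit 0) (nat_lit 15452183588) (nat_lit 76) (nat_lit 24626802457) (nat_lit 152) (nat_lit 11479958913) (nat_lit 12) (nat_lit 5) (nat_lit 13) (nat_lit 5) (nat_lit 14) (nat_lit 4) (nat_lit 376) (nat_lit 270) (nat_lit 134)))))) (XT.nd (nat_lit 390) (nat_lit 76) (nat_lit 0) (XT.nd (nat_lit 156) (nat_lit 228) (nat_lit 0) (XT.nd (nat_lit 78) (nat_lit 0) (nat_lit 0) (XT.lf (nat_lit 0) (nat_lit 25092018750) (nat_lit 76) (nat_lit 19752942073) (nat_lit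 152) (nat_lit 8087491718) (nat_lit 12) (nat_lit 5) (nat_lit 13) (nat_lit 5) (nat_lit 14) (nat_lit 4) (nat_lit 377) (nat_lit 270) (nat_lit 133)) (XT.lf (nat_lit 0) (nat_lit 35011934943) (nat_lit 76) (nat_lit 14736468090) (nat_lit 152) (nat_lit 4598935348) (nat_lit 12) (nat_lit 5) (nat_lit 13) (nat_lit 5) (nat_lit 14) (nat_lit 4) (nat_lit 378) (nat_lit 270) (nat_lit 132))) (XT.nd (nat_lit 78) (nat_lit 228) (nat_lit 0) (XT.lf (nat_lit 0) (nat_lit 45220600055) (nat_lit 76) (nat_lit 9572997180) (nat_lit 152) (nat_lit 1011241549) (nat_lit 12) (nat_lit 5) (nat_lit 13) (nat_lit 5) (nat_lit 14) (nat_lit 4) (nat_lit 379) (nat_lit 270) (nat_lit 131)) (XT.nd (nat_lit 78) (nat_lit 152) (nat_lit 0) (XT.lf (nat_lit 0) (nat_lit 2626452991) (nat_lit 152) (nat_lit 1605042556) (nat_lit 76) (nat_lit 53073959262) (nat_lit 11) (nat_lit 5) (nat_lit 13) (nat_lit 5) (nat_lit 12) (nat_lit 5) (nat_lit 380) (nat_lit 270)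 (nat_lit 130)) (XT.lf (nat_lit 0) (nat_lit 6435625604) (nat_lit 228) (nat_lit 51084901601) (nat_lit 76) (nat_lit 1327788396) (nat_lit 9) (nat_lit 5) (nat_lit 12) (nat_lit 5) (nat_lit 10) (nat_lit 4) (nat_lit 381) (nat_lit 270) (nat_lit 129))))) (XT.nd (nat_lit 234) (nat_lit 76) (nat_lit 0) (XT.nd (nat_lit 78) (nat_lit 0) (nat_lit 0) (XT.lf (nat_lit 0) (nat_lit 10412272837) (nat_lit 228) (nat_lit 43041698085) (nat_lit 76) (nat_lit 6981901929) (nat_lit 9) (nat_lit 5) (nat_lit 12) (nat_lit 5) (nat_lit 10) (nat_lit 4) (nat_lit 382) (nat_lit 270) (nat_lit 128)) (XT.nd (nat_lit 78) (nat_lit 0) (nat_lit 0) (XT.lf (nat_lit 0) (nat_lit 14503302198) (nat_lit 228) (nat_lit 34765442820) (nat_lit 76) (nat_lit 12802465747) (nat_lit 9) (nat_lit 5) (nat_lit 12) (nat_lit 5) (nat_lit 10) (nat_lit 4) (nat_lit 383) (nat_lit 270) (nat_lit 127)) (XT.lf (nat_lit 0) (nat_lit 18712288373) (nat_lit 228) (nat_lit 26248904127)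 (nat_lit 76) (nat_lit 18794565779) (nat_lit 9) (nat_lit 5) (nat_lit 12) (nat_lit 5) (nat_lit 10) (nat_lit 4) (nat_lit 384) (nat_lit 270) (nat_lit 126)))) (XT.nd (nat_lit 78) (nat_lit 76) (nat_lit 0) (XT.lf (nat_lit 0) (nat_lit 23042909116) (nat_lit 228) (nat_lit 17484640369) (nat_lit 76) (nat_lit 24963437841) (nat_lit 9) (nat_lit 5) (nat_lit 12) (nat_lit 5) (nat_lit 10) (nat_lit 4) (nat_lit 385) (nat_lit 270) (nat_lit 125)) (XT.nd (nat_lit 78) (nat_lit 76) (nat_lit 0) (XT.lf (nat_lit 0) (nat_lit 27498948464) (nat_lit 228) (nat_lit 8464993453) (nat_lit 76) (nat_lit 31314472210) (nat_lit 9) (nat_lit 5) (nat_lit 12) (nat_lit 5) (nat_lit 10) (nat_lit 4) (nat_lit 386) (nat_lit 270) (nat_lit 124)) (XT.lf (nat_lit 0) (nat_lit 834196035) (nat_lit 76) (nat_lit 31258122813) (nat_lit 152) (nat_lit 37027041101) (nat_lit 8) (nat_lit 5) (nat_lit 9) (nat_lit 5) (nat_lit 10) (nat_lit 4) (nat_lit 387) (nat_lit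 270) (nat_lit 123))))))) (XT.nd (nat_lit 31902) (nat_lit 0) (nat_lit 12768) (XT.nd (nat_lit 390) (nat_lit 0) (nat_lit 0) (XT.nd (nat_lit 156) (nat_lit 0) (nat_lit 0) (XT.nd (nat_lit 78) (nat_lit 0) (nat_lit 0) (XT.lf (nat_lit 0) (nat_lit 10578632085) (nat_lit 76) (nat_lit 26326026675) (nat_lit 152) (nat_lit 34108445875) (nat_lit 8) (nat_lit 5) (nat_lit 9) (nat_lit 5) (nat_lit 10) (nat_lit 4) (nat_lit 388) (nat_lit 270) (nat_lit 122)) (XT.lf (nat_lit 0) (nat_lit 20608359284) (nat_lit 76) (nat_lit 21248823741) (nat_lit 152) (nat_lit 31106609595) (nat_lit 8) (nat_lit 5) (nat_lit 9) (nat_lit 5) (nat_lit 10) (nat_lit 4) (nat_lit 389) (nat_lit 270) (nat_lit 121))) (XT.nd (nat_lit 78) (nat_lit 0) (nat_lit 0) (XT.lf (nat_lit 0) (nat_lit 30932141473) (nat_lit 76) (nat_lit 16022077620) (nat_lit 152) (nat_lit 28018909296) (nat_lit 8) (nat_lit 5) (nat_lit 9) (nat_lit 5) (nat_lit 10) (nat_lit 4) (nat_lit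 390) (nat_lit 270) (nat_lit 120)) (XT.nd (nat_lit 78) (nat_lit 0) (nat_lit 0) (XT.lf (nat_lit 0) (nat_lit 41558999430) (nat_lit 76) (nat_lit 10641221252) (nat_lit 152) (nat_lit 24842646988) (nat_lit 8) (nat_lit 5) (nat_lit 9) (nat_lit 5) (nat_lit 10) (nat_lit 4) (nat_lit 391) (nat_lit 270) (nat_lit 119)) (XT.lf (nat_lit 0) (nat_lit 52498218760) (nat_lit 76) (nat_lit 5101552919) (nat_lit 152) (nat_lit 21575047295) (nat_lit 8) (nat_lit 5) (nat_lit 9) (nat_lit 5) (nat_lit 10) (nat_lit 4) (nat_lit 392) (nat_lit 270) (nat_lit 118))))) (XT.nd (nat_lit 31278) (nat_lit 0) (nat_lit 14212) (XT.nd (nat_lit 31122) (nat_lit 0) (nat_lit 14820) (XT.lf (nat_lit 0) (nat_lit 63163374700) (nat_lit 152) (nat_lit 17617271730) (nat_lit 0) (nat_lit 590025207) (nat_lit 8) (nat_lit 5) (nat_lit 10) (nat_lit 4) (nat_lit 8) (nat_lit 4) (nat_lit 393) (nat_lit 270) (nat_lit 117)) (XT.nd (nat_lit 78) (nat_lit 0) (nat_lit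 0) (XT.lf (nat_lit 0) (nat_lit 416188565) (nat_lit 684) (nat_lit 1538192316) (nat_lit 684) (nat_lit 1538192316) (nat_lit 203) (nat_lit 3) (nat_lit 212) (nat_lit 3) (nat_lit 212) (nat_lit 5) (nat_lit 271) (nat_lit 271) (nat_lit 238)) (XT.lf (nat_lit 0) (nat_lit 2440227334) (nat_lit 684) (nat_lit 189903749) (nat_lit 684) (nat_lit 4405497783) (nat_lit 203) (nat_lit 3) (nat_lit 212) (nat_lit 3) (nat_lit 212) (nat_lit 5) (nat_lit 272) (nat_lit 271) (nat_lit 237)))) (XT.nd (nat_lit 78) (nat_lit 608) (nat_lit 0) (XT.lf (nat_lit 76) (nat_lit 2805730679) (nat_lit 0) (nat_lit 1255290146) (nat_lit 684) (nat_lit 3027914842) (nat_lit 204) (nat_lit 5) (nat_lit 203) (nat_lit 3) (nat_lit 212) (nat_lit 5) (nat_lit 273) (nat_lit 271) (nat_lit 236)) (XT.nd (nat_lit 78) (nat_lit 684) (nat_lit 0) (XT.lf (nat_lit 0) (nat_lit 5673442503) (nat_lit 608) (nat_lit 1284441078) (nat_lit 684) (nat_lit 187911739) (nat_lit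 204) (nat_lit 5) (nat_lit 212) (nat_lit 5) (nat_lit 213) (nat_lit 5) (nat_lit 274) (nat_lit 271) (nat_lit 235)) (XT.lf (nat_lit 0) (nat_lit 97775761) (nat_lit 684) (nat_lit 5412792591) (nat_lit 760) (nat_lit 1694871722) (nat_lit 195) (nat_lit 5) (nat_lit 204) (nat_lit 5) (nat_lit 205) (nat_lit 5) (nat_lit 275) (nat_lit 271) (nat_lit 234)))))) (XT.nd (nat_lit 468) (nat_lit 760) (nat_lit 0) (XT.nd (nat_lit 234) (nat_lit 684) (nat_lit 0) (XT.nd (nat_lit 78) (nat_lit 0) (nat_lit 0) (XT.lf (nat_lit 0) (nat_lit 1640398793) (nat_lit 684) (nat_lit 2327089318) (nat_lit 760) (nat_lit 3300522318) (nat_lit 195) (nat_lit 5) (nat_lit 204) (nat_lit 5) (nat_lit 205) (nat_lit 5) (nat_lit 276) (nat_lit 271) (nat_lit 233)) (XT.nd (nat_lit 78) (nat_lit 0) (nat_lit 0) (XT.lf (nat_lit 76) (nat_lit 834184777) (nat_lit 0) (nat_lit 2346711786) (nat_lit 760) (nat_lit 4153230043) (nat_lit 196) (nat_lit 5) (nat_lit 195)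 (nat_lit 5) (nat_lit 205) (nat_lit 5) (nat_lit 277) (nat_lit 271) (nat_lit 232)) (XT.lf (nat_lit 76) (nat_lit 4105048176) (nat_lit 0) (nat_lit 630964106) (nat_lit 760) (nat_lit 2667372183) (nat_lit 196) (nat_lit 5) (nat_lit 195) (nat_lit 5) (nat_lit 205) (nat_lit 5) (nat_lit 278) (nat_lit 271) (nat_lit 231)))) (XT.nd (nat_lit 78) (nat_lit 760) (nat_lit 0) (XT.lf (nat_lit 0) (nat_lit 6295419240) (nat_lit 684) (nat_lit 45612736) (nat_lit 760) (nat_lit 1135163113) (nat_lit 196) (nat_lit 5) (nat_lit 205) (nat_lit 5) (nat_lit 206) (nat_lit 5) (nat_lit 279) (nat_lit 271) (nat_lit 230)) (XT.nd (nat_lit 78) (nat_lit 0) (nat_lit 0) (XT.lf (nat_lit 0) (nat_lit 329781248) (nat_lit 760) (nat_lit 4224609011) (nat_lit 836) (nat_lit 2997305137) (nat_lit 186) (nat_lit 5) (nat_lit 196) (nat_lit 5) (nat_lit 197) (nat_lit 5) (nat_lit 280) (nat_lit 271) (nat_lit 229)) (XT.lf (nat_lit 0) (nat_lit 1811158571) (nat_lit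 760) (nat_lit 873140755) (nat_lit 836) (nat_lit 4946520419) (nat_lit 186) (nat_lit 5) (nat_lit 196) (nat_lit 5) (nat_lit 197) (nat_lit 5) (nat_lit 281) (nat_lit 271) (nat_lit 228))))) (XT.nd (nat_lit 234) (nat_lit 760) (nat_lit 0) (XT.nd (nat_lit 78) (nat_lit 0) (nat_lit 76) (XT.lf (nat_lit 76) (nat_lit 2596628552) (nat_lit 0) (nat_lit 715571936) (nat_lit 836) (nat_lit 4401042034) (nat_lit 187) (nat_lit 5) (nat_lit 186) (nat_lit 5) (nat_lit 197) (nat_lit 5) (nat_lit 282) (nat_lit 271) (nat_lit 227)) (XT.nd (nat_lit 78) (nat_lit 0) (nat_lit 0) (XT.lf (nat_lit 0) (nat_lit 4831343992) (nat_lit 760) (nat_lit 1656563111) (nat_lit 836) (nat_lit 1311214880) (nat_lit 187) (nat_lit 5) (nat_lit 197) (nat_lit 5) (nat_lit 198) (nat_lit 5) (nat_lit 283) (nat_lit 271) (nat_lit 226)) (XT.lf (nat_lit 76) (nat_lit 1903981257) (nat_lit 0) (nat_lit 4470430935) (nat_lit 836) (nat_lit 1513986107) (nat_lit 188)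 (nat_lit 5) (nat_lit 187) (nat_lit 5) (nat_lit 198) (nat_lit 5) (nat_lit 284) (nat_lit 271) (nat_lit 225)))) (XT.nd (nat_lit 78) (nat_lit 836) (nat_lit 0) (XT.lf (nat_lit 76) (nat_lit 5572250422) (nat_lit 0) (nat_lit 2362265653) (nat_lit 836) (nat_lit 46880521) (nat_lit 188) (nat_lit 5) (nat_lit 187) (nat_lit 5) (nat_lit 198) (nat_lit 5) (nat_lit 285) (nat_lit 271) (nat_lit 224)) (XT.nd (nat_lit 78) (nat_lit 0) (nat_lit 76) (XT.lf (nat_lit 76) (nat_lit 1250566942) (nat_lit 0) (nat_lit 151874838) (nat_lit 912) (nat_lit 6675473997) (nat_lit 177) (nat_lit 5) (nat_lit 176) (nat_lit 5) (nat_lit 188) (nat_lit 5) (nat_lit 286) (nat_lit 271) (nat_lit 223)) (XT.lf (nat_lit 0) (nat_lit 2895162220) (nat_lit 836) (nat_lit 3162682153) (nat_lit 76) (nat_lit 2119598330) (nat_lit 177) (nat_lit 5) (nat_lit 188) (nat_lit 5) (nat_lit 178) (nat_lit 5) (nat_lit 287) (nat_lit 271) (nat_lit 222))))))))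
noncomputable def xc144 : XT := (XT.nd (nat_lit 1716) (nat_lit 3192) (nat_lit 0) (XT.nd (nat_lit 858) (nat_lit 2356) (nat_lit 0) (XT.nd (nat_lit 390) (nat_lit 2660) (nat_lit 0) (XT.nd (nat_lit 156) (nat_lit 988) (nat_lit 0) (XT.nd (nat_lit 78) (nat_lit 0) (nat_lit 0) (XT.lf (nat_lit 0) (nat_lit 588498860) (nat_lit 836) (nat_lit 3808478614) (nat_lit 912) (nat_lit 3884196058) (nat_lit 166) (nat_lit 5) (nat_lit 177) (nat_lit 5) (nat_lit 178) (nat_lit 5) (nat_lit 288) (nat_lit 271) (nat_lit 221)) (XT.lf (nat_lit 0) (nat_lit 4483969005) (nat_lit 836) (nat_lit 1449897568) (nat_lit 912) (nat_lit 2454592325) (nat_lit 166) (nat_lit 5) (nat_lit 177) (nat_lit 5) (nat_lit 178) (nat_lit 5) (nat_lit 289) (nat_lit 271) (nat_lit 220))) (XT.nd (nat_lit 78) (nat_lit 988) (nat_lit 0) (XT.lf (nat_lit 0) (nat_lit 7485663221) (nat_lit 912) (nat_lit 45631714) (nat_lit 76) (nat_lit 968742887) (nat_lit 166) (nat_lit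 5) (nat_lit 178) (nat_lit 5) (nat_lit 167) (nat_lit 5) (nat_lit 290) (nat_lit 271) (nat_lit 219)) (XT.nd (nat_lit 78) (nat_lit 0) (nat_lit 0) (XT.lf (nat_lit 0) (nat_lit 472876643) (nat_lit 988) (nat_lit 4660028057) (nat_lit 76) (nat_lit 3481665800) (nat_lit 153) (nat_lit 5) (nat_lit 166) (nat_lit 5) (nat_lit 154) (nat_lit 5) (nat_lit 291) (nat_lit 271) (nat_lit 218)) (XT.lf (nat_lit 0) (nat_lit 1945719462) (nat_lit 988) (nat_lit 700081792) (nat_lit 76) (nat_lit 6087722972) (nat_lit 153) (nat_lit 5) (nat_lit 166) (nat_lit 5) (nat_lit 154) (nat_lit 5) (nat_lit 292) (nat_lit 271) (nat_lit 217))))) (XT.nd (nat_lit 234) (nat_lit 608) (nat_lit 0) (XT.nd (nat_lit 78) (nat_lit 1064) (nat_lit 0) (XT.lf (nat_lit 0) (nat_lit 3413064214) (nat_lit 988) (nat_lit 44527352) (nat_lit 1064) (nat_lit 5398733198) (nat_lit 140) (nat_lit 5) (nat_lit 153) (nat_lit 5) (nat_lit 154) (nat_lit 5) (nat_lit 293) (nat_lit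 271) (nat_lit 216)) (XT.nd (nat_lit 78) (nat_lit 1064) (nat_lit 0) (XT.lf (nat_lit 0) (nat_lit 5010172024) (nat_lit 1064) (nat_lit 1377208582) (nat_lit 76) (nat_lit 2595688072) (nat_lit 140) (nat_lit 5) (nat_lit 154) (nat_lit 5) (nat_lit 141) (nat_lit 5) (nat_lit 294) (nat_lit 271) (nat_lit 215)) (XT.lf (nat_lit 0) (nat_lit 2833471647) (nat_lit 1064) (nat_lit 3767502753) (nat_lit 1140) (nat_lit 2513007603) (nat_lit 126) (nat_lit 5) (nat_lit 140) (nat_lit 5) (nat_lit 141) (nat_lit 5) (nat_lit 295) (nat_lit 271) (nat_lit 214)))) (XT.nd (nat_lit 78) (nat_lit 608) (nat_lit 0) (XT.lf (nat_lit 0) (nat_lit 7166815763) (nat_lit 1064) (nat_lit 1051301762) (nat_lit 1140) (nat_lit 1031459743) (nat_lit 126) (nat_lit 5) (nat_lit 140) (nat_lit 5) (nat_lit 141) (nat_lit 5) (nat_lit 296) (nat_lit 271) (nat_lit 213)) (XT.nd (nat_lit 78) (nat_lit 0) (nat_lit 0) (XT.lf (nat_lit 0) (nat_lit 488863623) (nat_lit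 608) (nat_lit 7158392402) (nat_lit 76) (nat_lit 1741828926) (nat_lit 118) (nat_lit 5) (nat_lit 126) (nat_lit 5) (nat_lit 119) (nat_lit 5) (nat_lit 297) (nat_lit 271) (nat_lit 212)) (XT.lf (nat_lit 0) (nat_lit 2031738198) (nat_lit 608) (nat_lit 2869324955) (nat_lit 76) (nat_lit 4631581598) (nat_lit 118) (nat_lit 5) (nat_lit 126) (nat_lit 5) (nat_lit 119) (nat_lit 5) (nat_lit 298) (nat_lit 271) (nat_lit 211)))))) (XT.nd (nat_lit 390) (nat_lit 1292) (nat_lit 0) (XT.nd (nat_lit 156) (nat_lit 608) (nat_lit 0) (XT.nd (nat_lit 78) (nat_lit 0) (nat_lit 0) (XT.lf (nat_lit 0) (nat_lit 1546957337) (nat_lit 456) (nat_lit 2055825427) (nat_lit 532) (nat_lit 6078372504) (nat_lit 112) (nat_lit 5) (nat_lit 118) (nat_lit 5) (nat_lit 119) (nat_lit 5) (nat_lit 299) (nat_lit 271) (nat_lit 210)) (XT.lf (nat_lit 0) (nat_lit 5226311495) (nat_lit 532) (nat_lit 3719811631) (nat_lit 76) (nat_lit 887934898) (nat_lit 112)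 (nat_lit 5) (nat_lit 119) (nat_lit 5) (nat_lit 113) (nat_lit 5) (nat_lit 300) (nat_lit 271) (nat_lit 209))) (XT.nd (nat_lit 78) (nat_lit 76) (nat_lit 0) (XT.lf (nat_lit 0) (nat_lit 790612730) (nat_lit 532) (nat_lit 6104511779) (nat_lit 608) (nat_lit 3096620670) (nat_lit 105) (nat_lit 5) (nat_lit 112) (nat_lit 5) (nat_lit 113) (nat_lit 5) (nat_lit 301) (nat_lit 271) (nat_lit 208)) (XT.nd (nat_lit 78) (nat_lit 76) (nat_lit 0) (XT.lf (nat_lit 0) (nat_lit 5481444285) (nat_lit 532) (nat_lit 3139358649) (nat_lit 608) (nat_lit 1533247894) (nat_lit 105) (nat_lit 5) (nat_lit 112) (nat_lit 5) (nat_lit 113) (nat_lit 5) (nat_lit 302) (nat_lit 271) (nat_lit 207)) (XT.lf (nat_lit 0) (nat_lit 45274008) (nat_lit 608) (nat_lit 39904444) (nat_lit 76) (nat_lit 10237019088) (nat_lit 104) (nat_lit 5) (nat_lit 112) (nat_lit 5) (nat_lit 105) (nat_lit 5) (nat_lit 303) (nat_lit 271) (nat_lit 206))))) (XT.nd (nat_lit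 234) (nat_lit 380) (nat_lit 0) (XT.nd (nat_lit 78) (nat_lit 456) (nat_lit 0) (XT.lf (nat_lit 0) (nat_lit 1686932908) (nat_lit 532) (nat_lit 5744707627) (nat_lit 76) (nat_lit 3061978867) (nat_lit 98) (nat_lit 5) (nat_lit 105) (nat_lit 5) (nat_lit 99) (nat_lit 5) (nat_lit 304) (nat_lit 271) (nat_lit 205)) (XT.nd (nat_lit 78) (nat_lit 456) (nat_lit 0) (XT.lf (nat_lit 0) (nat_lit 3350284291) (nat_lit 532) (nat_lit 1019488751) (nat_lit 76) (nat_lit 6301319258) (nat_lit 98) (nat_lit 5) (nat_lit 105) (nat_lit 5) (nat_lit 99) (nat_lit 5) (nat_lit 305) (nat_lit 271) (nat_lit 204)) (XT.lf (nat_lit 0) (nat_lit 3893679940) (nat_lit 456) (nat_lit 1179316181) (nat_lit 532) (nat_lit 5780688750) (nat_lit 92) (nat_lit 5) (nat_lit 98) (nat_lit 5) (nat_lit 99) (nat_lit 5) (nat_lit 306) (nat_lit 271) (nat_lit 203)))) (XT.nd (nat_lit 78) (nat_lit 380) (nat_lit 0) (XT.lf (nat_lit 0) (nat_lit 6850581246) (nat_lit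 532) (nat_lit 2117033233) (nat_lit 76) (nat_lit 2074121956) (nat_lit 92) (nat_lit 5) (nat_lit 99) (nat_lit 5) (nat_lit 93) (nat_lit 5) (nat_lit 307) (nat_lit 271) (nat_lit 202)) (XT.nd (nat_lit 78) (nat_lit 0) (nat_lit 0) (XT.lf (nat_lit 0) (nat_lit 2886384916) (nat_lit 380) (nat_lit 5807873627) (nat_lit 456) (nat_lit 2540862798) (nat_lit 87) (nat_lit 5) (nat_lit 92) (nat_lit 5) (nat_lit 93) (nat_lit 5) (nat_lit 308) (nat_lit 271) (nat_lit 201)) (XT.lf (nat_lit 0) (nat_lit 8054101768) (nat_lit 380) (nat_lit 2534360533) (nat_lit 456) (nat_lit 846061563) (nat_lit 87) (nat_lit 5) (nat_lit 92) (nat_lit 5) (nat_lit 93) (nat_lit 5) (nat_lit 309) (nat_lit 271) (nat_lit 200))))))) (XT.nd (nat_lit 858) (nat_lit 1292) (nat_lit 0) (XT.nd (nat_lit 390) (nat_lit 1064) (nat_lit 0) (XT.nd (nat_lit 156) (nat_lit 380) (nat_lit 0) (XT.nd (nat_lit 78) (nat_lit 0) (nat_lit 0) (XT.lf (nat_lit 0) (nat_lit 881238624)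 (nat_lit 456) (nat_lit 9915073871) (nat_lit 76) (nat_lit 843428668) (nat_lit 81) (nat_lit 5) (nat_lit 87) (nat_lit 5) (nat_lit 82) (nat_lit 5) (nat_lit 310) (nat_lit 271) (nat_lit 199)) (XT.lf (nat_lit 0) (nat_lit 2677639881) (nat_lit 456) (nat_lit 4861131894) (nat_lit 76) (nat_lit 4311129686) (nat_lit 81) (nat_lit 5) (nat_lit 87) (nat_lit 5) (nat_lit 82) (nat_lit 5) (nat_lit 311) (nat_lit 271) (nat_lit 198))) (XT.nd (nat_lit 78) (nat_lit 0) (nat_lit 0) (XT.lf (nat_lit 0) (nat_lit 322133567) (nat_lit 380) (nat_lit 4184353215) (nat_lit 456) (nat_lit 7560587644) (nat_lit 76) (nat_lit 5) (nat_lit 81) (nat_lit 5) (nat_lit 82) (nat_lit 5) (nat_lit 312) (nat_lit 271) (nat_lit 197)) (XT.nd (nat_lit 78) (nat_lit 0) (nat_lit 0) (XT.lf (nat_lit 0) (nat_lit 5732244874) (nat_lit 380) (nat_lit 682941978) (nat_lit 456) (nat_lit 5874888681) (nat_lit 76) (nat_lit 5) (nat_lit 81) (nat_lit 5) (nat_lit 82) (nat_lit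 5) (nat_lit 313) (nat_lit 271) (nat_lit 196)) (XT.lf (nat_lit 0) (nat_lit 8385813114) (nat_lit 456) (nat_lit 1271409514) (nat_lit 76) (nat_lit 2862464855) (nat_lit 76) (nat_lit 5) (nat_lit 82) (nat_lit 5) (nat_lit 77) (nat_lit 5) (nat_lit 314) (nat_lit 271) (nat_lit 195))))) (XT.nd (nat_lit 234) (nat_lit 304) (nat_lit 0) (XT.nd (nat_lit 78) (nat_lit 380) (nat_lit 0) (XT.lf (nat_lit 0) (nat_lit 4221847490) (nat_lit 380) (nat_lit 6218300704) (nat_lit 456) (nat_lit 2315360889) (nat_lit 71) (nat_lit 5) (nat_lit 76) (nat_lit 5) (nat_lit 77) (nat_lit 5) (nat_lit 315) (nat_lit 271) (nat_lit 194)) (XT.nd (nat_lit 78) (nat_lit 380) (nat_lit 0) (XT.lf (nat_lit 0) (nat_lit 9878854845) (nat_lit 380) (nat_lit 2667744637) (nat_lit 456) (nat_lit 452148543) (nat_lit 71) (nat_lit 5) (nat_lit 76) (nat_lit 5) (nat_lit 77) (nat_lit 5) (nat_lit 316) (nat_lit 271) (nat_lit 193)) (XT.lf (nat_lit 0) (nat_lit 1449881283)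 (nat_lit 380) (nat_lit 10795255353) (nat_lit 76) (nat_lit 1003432041) (nat_lit 66) (nat_lit 5) (nat_lit 71) (nat_lit 5) (nat_lit 67) (nat_lit 5) (nat_lit 317) (nat_lit 271) (nat_lit 192)))) (XT.nd (nat_lit 78) (nat_lit 304) (nat_lit 0) (XT.lf (nat_lit 0) (nat_lit 3436480404) (nat_lit 380) (nat_lit 5305671078) (nat_lit 76) (nat_lit 4762552699) (nat_lit 66) (nat_lit 5) (nat_lit 71) (nat_lit 5) (nat_lit 67) (nat_lit 5) (nat_lit 318) (nat_lit 271) (nat_lit 191)) (XT.nd (nat_lit 78) (nat_lit 0) (nat_lit 0) (XT.lf (nat_lit 0) (nat_lit 328604150) (nat_lit 304) (nat_lit 5136228298) (nat_lit 380) (nat_lit 8304277543) (nat_lit 62) (nat_lit 5) (nat_lit 66) (nat_lit 5) (nat_lit 67) (nat_lit 5) (nat_lit 319) (nat_lit 271) (nat_lit 190)) (XT.lf (nat_lit 0) (nat_lit 6214518776) (nat_lit 304) (nat_lit 1372449747) (nat_lit 380) (nat_lit 6453540853) (nat_lit 62) (nat_lit 5) (nat_lit 66) (nat_lit 5) (nat_lit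 67) (nat_lit 5) (nat_lit 320) (nat_lit 271) (nat_lit 189)))))) (XT.nd (nat_lit 390) (nat_lit 608) (nat_lit 0) (XT.nd (nat_lit 156) (nat_lit 380) (nat_lit 0) (XT.nd (nat_lit 78) (nat_lit 304) (nat_lit 0) (XT.lf (nat_lit 0) (nat_lit 9776747461) (nat_lit 380) (nat_lit 2093098318) (nat_lit 76) (nat_lit 2450133569) (nat_lit 62) (nat_lit 5) (nat_lit 67) (nat_lit 5) (nat_lit 63) (nat_lit 5) (nat_lit 321) (nat_lit 271) (nat_lit 188)) (XT.lf (nat_lit 0) (nat_lit 3848052249) (nat_lit 304) (nat_lit 8215237681) (nat_lit 380) (nat_lit 2543657956) (nat_lit 58) (nat_lit 5) (nat_lit 62) (nat_lit 5) (nat_lit 63) (nat_lit 5) (nat_lit 322) (nat_lit 271) (nat_lit 187))) (XT.nd (nat_lit 78) (nat_lit 380) (nat_lit 0) (XT.lf (nat_lit 0) (nat_lit 9985361911) (nat_lit 304) (nat_lit 4435022730) (nat_lit 380) (nat_lit 482127373) (nat_lit 58) (nat_lit 5) (nat_lit 62) (nat_lit 5) (nat_lit 63) (nat_lit 5) (nat_lit 323)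 (nat_lit 271) (nat_lit 186)) (XT.nd (nat_lit 78) (nat_lit 0) (nat_lit 0) (XT.lf (nat_lit 0) (nat_lit 1080483216) (nat_lit 304) (nat_lit 520276509) (nat_lit 380) (nat_lit 13606006541) (nat_lit 53) (nat_lit 5) (nat_lit 57) (nat_lit 5) (nat_lit 58) (nat_lit 5) (nat_lit 324) (nat_lit 271) (nat_lit 185)) (XT.lf (nat_lit 0) (nat_lit 3801755505) (nat_lit 380) (nat_lit 8223810930) (nat_lit 76) (nat_lit 3492520511) (nat_lit 53) (nat_lit 5) (nat_lit 58) (nat_lit 5) (nat_lit 54) (nat_lit 5) (nat_lit 325) (nat_lit 271) (nat_lit 184))))) (XT.nd (nat_lit 234) (nat_lit 380) (nat_lit 0) (XT.nd (nat_lit 78) (nat_lit 228) (nat_lit 0) (XT.lf (nat_lit 0) (nat_lit 6055882418) (nat_lit 380) (nat_lit 2173659471) (nat_lit 76) (nat_lit 7609632492) (nat_lit 53) (nat_lit 5) (nat_lit 58) (nat_lit 5) (nat_lit 54) (nat_lit 5) (nat_lit 326) (nat_lit 271) (nat_lit 183)) (XT.nd (nat_lit 78) (nat_lit 0) (nat_lit 0) (XT.lf (nat_lit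 0) (nat_lit 4114752729) (nat_lit 228) (nat_lit 4284909666) (nat_lit 304) (nat_lit 7769610170) (nat_lit 50) (nat_lit 5) (nat_lit 53) (nat_lit 5) (nat_lit 54) (nat_lit 5) (nat_lit 327) (nat_lit 271) (nat_lit 182)) (XT.lf (nat_lit 0) (nat_lit 10613068495) (nat_lit 228) (nat_lit 205399087) (nat_lit 304) (nat_lit 5690702622) (nat_lit 50) (nat_lit 5) (nat_lit 53) (nat_lit 5) (nat_lit 54) (nat_lit 5) (nat_lit 328) (nat_lit 271) (nat_lit 181)))) (XT.nd (nat_lit 78) (nat_lit 76) (nat_lit 0) (XT.lf (nat_lit 0) (nat_lit 393215178) (nat_lit 304) (nat_lit 12942025893) (nat_lit 380) (nat_lit 3523298341) (nat_lit 46) (nat_lit 5) (nat_lit 50) (nat_lit 5) (nat_lit 51) (nat_lit 5) (nat_lit 329) (nat_lit 271) (nat_lit 180)) (XT.nd (nat_lit 78) (nat_lit 76) (nat_lit 0) (XT.lf (nat_lit 0) (nat_lit 6967118266) (nat_lit 304) (nat_lit 9005428962) (nat_lit 380) (nat_lit 1244527277) (nat_lit 46) (nat_lit 5) (nat_lit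 50) (nat_lit 5) (nat_lit 51) (nat_lit 5) (nat_lit 330) (nat_lit 271) (nat_lit 179)) (XT.lf (nat_lit 0) (nat_lit 1064856218) (nat_lit 380) (nat_lit 3881299862) (nat_lit 76) (nat_lit 12640412294) (nat_lit 45) (nat_lit 5) (nat_lit 50) (nat_lit 5) (nat_lit 46) (nat_lit 5) (nat_lit 331) (nat_lit 271) (nat_lit 178))))))))
noncomputable def xc145 : XT := (XT.nd (nat_lit 1716) (nat_lit 836) (nat_lit 0) (XT.nd (nat_lit 858) (nat_lit 608) (nat_lit 0) (XT.nd (nat_lit 390) (nat_lit 532) (nat_lit 0) (XT.nd (nat_lit 156) (nat_lit 228) (nat_lit 0) (XT.nd (nat_lit 78) (nat_lit 0) (nat_lit 0) (XT.lf (nat_lit 0) (nat_lit 2696802243) (nat_lit 228) (nat_lit 731866515) (nat_lit 304) (nat_lit 14537836462) (nat_lit 42) (nat_lit 5) (nat_lit 45) (nat_lit 5) (nat_lit 46) (nat_lit 5) (nat_lit 332) (nat_lit 271) (nat_lit 177)) (XT.lf (nat_lit 0) (nat_lit 5922096711) (nat_lit 304) (nat_lit 8862071588) (nat_lit 76) (nat_lit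 3571942554) (nat_lit 42) (nat_lit 5) (nat_lit 46) (nat_lit 5) (nat_lit 43) (nat_lit 5) (nat_lit 333) (nat_lit 271) (nat_lit 176))) (XT.nd (nat_lit 78) (nat_lit 228) (nat_lit 0) (XT.lf (nat_lit 0) (nat_lit 8482456204) (nat_lit 304) (nat_lit 2290951566) (nat_lit 76) (nat_lit 7984263812) (nat_lit 42) (nat_lit 5) (nat_lit 46) (nat_lit 5) (nat_lit 43) (nat_lit 5) (nat_lit 334) (nat_lit 271) (nat_lit 175)) (XT.nd (nat_lit 78) (nat_lit 0) (nat_lit 0) (XT.lf (nat_lit 0) (nat_lit 4545125765) (nat_lit 228) (nat_lit 6603514060) (nat_lit 304) (nat_lit 8021798802) (nat_lit 39) (nat_lit 5) (nat_lit 42) (nat_lit 5) (nat_lit 43) (nat_lit 5) (nat_lit 335) (nat_lit 271) (nat_lit 174)) (XT.lf (nat_lit 0) (nat_lit 11612584202) (nat_lit 228) (nat_lit 2290910545) (nat_lit 304) (nat_lit 5691862382) (nat_lit 39) (nat_lit 5) (nat_lit 42) (nat_lit 5) (nat_lit 43) (nat_lit 5) (nat_lit 336) (nat_lit 271) (nat_lit 173)))))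 (XT.nd (nat_lit 234) (nat_lit 228) (nat_lit 0) (XT.nd (nat_lit 78) (nat_lit 304) (nat_lit 0) (XT.lf (nat_lit 0) (nat_lit 16747587225) (nat_lit 304) (nat_lit 1182086829) (nat_lit 76) (nat_lit 2103179551) (nat_lit 39) (nat_lit 5) (nat_lit 43) (nat_lit 5) (nat_lit 40) (nat_lit 5) (nat_lit 337) (nat_lit 271) (nat_lit 172)) (XT.nd (nat_lit 78) (nat_lit 76) (nat_lit 0) (XT.lf (nat_lit 0) (nat_lit 5895115590) (nat_lit 228) (nat_lit 13847561379) (nat_lit 304) (nat_lit 738855127) (nat_lit 36) (nat_lit 5) (nat_lit 39) (nat_lit 5) (nat_lit 40) (nat_lit 5) (nat_lit 338) (nat_lit 271) (nat_lit 171)) (XT.lf (nat_lit 0) (nat_lit 1845615477) (nat_lit 304) (nat_lit 7772634183) (nat_lit 76) (nat_lit 11324950888) (nat_lit 35) (nat_lit 5) (nat_lit 39) (nat_lit 5) (nat_lit 36) (nat_lit 5) (nat_lit 339) (nat_lit 271) (nat_lit 170)))) (XT.nd (nat_lit 78) (nat_lit 228) (nat_lit 0) (XT.lf (nat_lit 0) (nat_lit 4479541487)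 (nat_lit 304) (nat_lit 781131647) (nat_lit 76) (nat_lit 16158248345) (nat_lit 35) (nat_lit 5) (nat_lit 39) (nat_lit 5) (nat_lit 36) (nat_lit 5) (nat_lit 340) (nat_lit 271) (nat_lit 169)) (XT.nd (nat_lit 78) (nat_lit 0) (nat_lit 0) (XT.lf (nat_lit 0) (nat_lit 6528700978) (nat_lit 228) (nat_lit 713699005) (nat_lit 304) (nat_lit 14665040920) (nat_lit 32) (nat_lit 5) (nat_lit 35) (nat_lit 5) (nat_lit 36) (nat_lit 5) (nat_lit 341) (nat_lit 271) (nat_lit 168)) (XT.lf (nat_lit 0) (nat_lit 10121563610) (nat_lit 304) (nat_lit 8393749950) (nat_lit 76) (nat_lit 3894323363) (nat_lit 32) (nat_lit 5) (nat_lit 36) (nat_lit 5) (nat_lit 33) (nat_lit 5) (nat_lit 342) (nat_lit 271) (nat_lit 167)))))) (XT.nd (nat_lit 390) (nat_lit 152) (nat_lit 0) (XT.nd (nat_lit 156) (nat_lit 304) (nat_lit 0) (XT.nd (nat_lit 78) (nat_lit 152) (nat_lit 0) (XT.lf (nat_lit 0) (nat_lit 13081832886) (nat_lit 304) (nat_lit 1224698507)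 (nat_lit 76) (nat_lit 8620548420) (nat_lit 32) (nat_lit 5) (nat_lit 36) (nat_lit 5) (nat_lit 33) (nat_lit 5) (nat_lit 343) (nat_lit 271) (nat_lit 166)) (XT.lf (nat_lit 0) (nat_lit 6263767805) (nat_lit 152) (nat_lit 9915377305) (nat_lit 228) (nat_lit 7279476076) (nat_lit 30) (nat_lit 5) (nat_lit 32) (nat_lit 5) (nat_lit 33) (nat_lit 5) (nat_lit 344) (nat_lit 271) (nat_lit 165))) (XT.nd (nat_lit 78) (nat_lit 304) (nat_lit 0) (XT.lf (nat_lit 0) (nat_lit 13984283229) (nat_lit 152) (nat_lit 5385662812) (nat_lit 228) (nat_lit 4636167273) (nat_lit 30) (nat_lit 5) (nat_lit 32) (nat_lit 5) (nat_lit 33) (nat_lit 5) (nat_lit 345) (nat_lit 271) (nat_lit 164)) (XT.nd (nat_lit 78) (nat_lit 304) (nat_lit 0) (XT.lf (nat_lit 0) (nat_lit 21919219943) (nat_lit 152) (nat_lit 725796967) (nat_lit 228) (nat_lit 1925377884) (nat_lit 30) (nat_lit 5) (nat_lit 32) (nat_lit 5) (nat_lit 33) (nat_lit 5) (nat_lit 346) (nat_lit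 271) (nat_lit 163)) (XT.lf (nat_lit 0) (nat_lit 926426480) (nat_lit 304) (nat_lit 20176775657) (nat_lit 76) (nat_lit 4045874264) (nat_lit 26) (nat_lit 5) (nat_lit 30) (nat_lit 5) (nat_lit 27) (nat_lit 5) (nat_lit 347) (nat_lit 271) (nat_lit 162))))) (XT.nd (nat_lit 234) (nat_lit 0) (nat_lit 0) (XT.nd (nat_lit 78) (nat_lit 152) (nat_lit 0) (XT.lf (nat_lit 0) (nat_lit 3848170898) (nat_lit 304) (nat_lit 12909070567) (nat_lit 76) (nat_lit 8986631758) (nat_lit 26) (nat_lit 5) (nat_lit 30) (nat_lit 5) (nat_lit 27) (nat_lit 5) (nat_lit 348) (nat_lit 271) (nat_lit 161)) (XT.nd (nat_lit 78) (nat_lit 152) (nat_lit 0) (XT.lf (nat_lit 0) (nat_lit 6846753347) (nat_lit 304) (nat_lit 5439905231) (nat_lit 76) (nat_lit 14070198430) (nat_lit 26) (nat_lit 5) (nat_lit 30) (nat_lit 5) (nat_lit 27) (nat_lit 5) (nat_lit 349) (nat_lit 271) (nat_lit 160)) (XT.lf (nat_lit 0) (nat_lit 2281772402) (nat_lit 152) (nat_lit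 7664955336) (nat_lit 228) (nat_lit 17041177620) (nat_lit 24) (nat_lit 5) (nat_lit 26) (nat_lit 5) (nat_lit 27) (nat_lit 5) (nat_lit 350) (nat_lit 271) (nat_lit 159)))) (XT.nd (nat_lit 78) (nat_lit 0) (nat_lit 0) (XT.lf (nat_lit 0) (nat_lit 10330682559) (nat_lit 152) (nat_lit 2853604528) (nat_lit 228) (nat_lit 14452278057) (nat_lit 24) (nat_lit 5) (nat_lit 26) (nat_lit 5) (nat_lit 27) (nat_lit 5) (nat_lit 351) (nat_lit 271) (nat_lit 158)) (XT.nd (nat_lit 78) (nat_lit 0) (nat_lit 0) (XT.lf (nat_lit 0) (nat_lit 16529082357) (nat_lit 228) (nat_lit 9719564077) (nat_lit 76) (nat_lit 2055752063) (nat_lit 24) (nat_lit 5) (nat_lit 27) (nat_lit 5) (nat_lit 25) (nat_lit 5) (nat_lit 352) (nat_lit 271) (nat_lit 157)) (XT.lf (nat_lit 0) (nat_lit 19992671689) (nat_lit 228) (nat_lit 1949184113) (nat_lit 76) (nat_lit 7049874092) (nat_lit 24) (nat_lit 5) (nat_lit 27) (nat_lit 5) (nat_lit 25) (nat_lit 5) (nat_lit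 353) (nat_lit 271) (nat_lit 156))))))) (XT.nd (nat_lit 858) (nat_lit 304) (nat_lit 0) (XT.nd (nat_lit 390) (nat_lit 152) (nat_lit 0) (XT.nd (nat_lit 156) (nat_lit 228) (nat_lit 0) (XT.nd (nat_lit 78) (nat_lit 0) (nat_lit 0) (XT.lf (nat_lit 0) (nat_lit 6159674994) (nat_lit 152) (nat_lit 17450186499) (nat_lit 228) (nat_lit 6088345026) (nat_lit 22) (nat_lit 5) (nat_lit 24) (nat_lit 5) (nat_lit 25) (nat_lit 5) (nat_lit 354) (nat_lit 271) (nat_lit 155)) (XT.lf (nat_lit 0) (nat_lit 14537071928) (nat_lit 152) (nat_lit 12808796291) (nat_lit 228) (nat_lit 3079715787) (nat_lit 22) (nat_lit 5) (nat_lit 24) (nat_lit 5) (nat_lit 25) (nat_lit 5) (nat_lit 355) (nat_lit 271) (nat_lit 154))) (XT.nd (nat_lit 78) (nat_lit 152) (nat_lit 0) (XT.lf (nat_lit 0) (nat_lit 9584718) (nat_lit 228) (nat_lit 8023631027) (nat_lit 76) (nat_lit 23141852653) (nat_lit 21) (nat_lit 5) (nat_lit 24) (nat_lit 5) (nat_lit 22) (nat_lit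 5) (nat_lit 356) (nat_lit 271) (nat_lit 153)) (XT.nd (nat_lit 78) (nat_lit 0) (nat_lit 0) (XT.lf (nat_lit 0) (nat_lit 33320754) (nat_lit 152) (nat_lit 3087719410) (nat_lit 228) (nat_lit 28825355412) (nat_lit 19) (nat_lit 5) (nat_lit 21) (nat_lit 5) (nat_lit 22) (nat_lit 5) (nat_lit 357) (nat_lit 271) (nat_lit 152)) (XT.lf (nat_lit 0) (nat_lit 6418081698) (nat_lit 228) (nat_lit 24276186374) (nat_lit 76) (nat_lit 2043841086) (nat_lit 19) (nat_lit 5) (nat_lit 22) (nat_lit 5) (nat_lit 20) (nat_lit 5) (nat_lit 358) (nat_lit 271) (nat_lit 151))))) (XT.nd (nat_lit 234) (nat_lit 152) (nat_lit 0) (XT.nd (nat_lit 78) (nat_lit 0) (nat_lit 0) (XT.lf (nat_lit 0) (nat_lit 9835997231) (nat_lit 228) (nat_lit 16454477006) (nat_lit 76) (nat_lit 7262454484) (nat_lit 19) (nat_lit 5) (nat_lit 22) (nat_lit 5) (nat_lit 20) (nat_lit 5) (nat_lit 359) (nat_lit 271) (nat_lit 150)) (XT.nd (nat_lit 78) (nat_lit 0) (nat_lit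 0) (XT.lf (nat_lit 0) (nat_lit 13348092245) (nat_lit 228) (nat_lit 8411431167) (nat_lit 76) (nat_lit 12632933264) (nat_lit 19) (nat_lit 5) (nat_lit 22) (nat_lit 5) (nat_lit 20) (nat_lit 5) (nat_lit 360) (nat_lit 271) (nat_lit 149)) (XT.lf (nat_lit 0) (nat_lit 16957435559) (nat_lit 228) (nat_lit 140020953) (nat_lit 76) (nat_lit 18159970078) (nat_lit 19) (nat_lit 5) (nat_lit 22) (nat_lit 5) (nat_lit 20) (nat_lit 5) (nat_lit 361) (nat_lit 271) (nat_lit 148)))) (XT.nd (nat_lit 78) (nat_lit 0) (nat_lit 0) (XT.lf (nat_lit 0) (nat_lit 8533500409) (nat_lit 152) (nat_lit 12215709786) (nat_lit 228) (nat_lit 15396923192) (nat_lit 17) (nat_lit 5) (nat_lit 19) (nat_lit 5) (nat_lit 20) (nat_lit 5) (nat_lit 362) (nat_lit 271) (nat_lit 147)) (XT.nd (nat_lit 78) (nat_lit 0) (nat_lit 0) (XT.lf (nat_lit 0) (nat_lit 17457670265) (nat_lit 152) (nat_lit 7190713542) (nat_lit 228) (nat_lit 12413320165) (nat_lit 17)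 (nat_lit 5) (nat_lit 19) (nat_lit 5) (nat_lit 20) (nat_lit 5) (nat_lit 363) (nat_lit 271) (nat_lit 146)) (XT.lf (nat_lit 0) (nat_lit 26637499738) (nat_lit 152) (nat_lit 2019490945) (nat_lit 228) (nat_lit 9347988857) (nat_lit 17) (nat_lit 5) (nat_lit 19) (nat_lit 5) (nat_lit 20) (nat_lit 5) (nat_lit 364) (nat_lit 271) (nat_lit 145)))))) (XT.nd (nat_lit 390) (nat_lit 152) (nat_lit 0) (XT.nd (nat_lit 156) (nat_lit 76) (nat_lit 0) (XT.nd (nat_lit 78) (nat_lit 76) (nat_lit 0) (XT.lf (nat_lit 0) (nat_lit 32810278917) (nat_lit 228) (nat_lit 2927519699) (nat_lit 76) (nat_lit 3238033335) (nat_lit 17) (nat_lit 5) (nat_lit 20) (nat_lit 5) (nat_lit 18) (nat_lit 4) (nat_lit 365) (nat_lit 271) (nat_lit 144)) (XT.lf (nat_lit 0) (nat_lit 5848207749) (nat_lit 76) (nat_lit 31309019567) (nat_lit 152) (nat_lit 2816521716) (nat_lit 16) (nat_lit 5) (nat_lit 17) (nat_lit 5) (nat_lit 18) (nat_lit 4) (nat_lit 366)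 (nat_lit 271) (nat_lit 143))) (XT.nd (nat_lit 78) (nat_lit 0) (nat_lit 0) (XT.lf (nat_lit 0) (nat_lit 643351746) (nat_lit 152) (nat_lit 26071470797) (nat_lit 76) (nat_lit 14285927168) (nat_lit 15) (nat_lit 5) (nat_lit 17) (nat_lit 5) (nat_lit 16) (nat_lit 5) (nat_lit 367) (nat_lit 271) (nat_lit 142)) (XT.nd (nat_lit 78) (nat_lit 0) (nat_lit 0) (XT.lf (nat_lit 0) (nat_lit 4143487873) (nat_lit 152) (nat_lit 17814921884) (nat_lit 76) (nat_lit 20099531805) (nat_lit 15) (nat_lit 5) (nat_lit 17) (nat_lit 5) (nat_lit 16) (nat_lit 5) (nat_lit 368) (nat_lit 271) (nat_lit 141)) (XT.lf (nat_lit 0) (nat_lit 7741905518) (nat_lit 152) (nat_lit 9321605953) (nat_lit 76) (nat_lit 26083549095) (nat_lit 15) (nat_lit 5) (nat_lit 17) (nat_lit 5) (nat_lit 16) (nat_lit 5) (nat_lit 369) (nat_lit 271) (nat_lit 140))))) (XT.nd (nat_lit 234) (nat_lit 0) (nat_lit 0) (XT.nd (nat_lit 78) (nat_lit 152) (nat_lit 0) (XT.lf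 (nat_lit 0) (nat_lit 11441748931) (nat_lit 152) (nat_lit 584101661) (nat_lit 76) (nat_lit 32243207790) (nat_lit 15) (nat_lit 5) (nat_lit 17) (nat_lit 5) (nat_lit 16) (nat_lit 5) (nat_lit 370) (nat_lit 271) (nat_lit 139)) (XT.nd (nat_lit 78) (nat_lit 0) (nat_lit 0) (XT.lf (nat_lit 0) (nat_lit 8572506176) (nat_lit 152) (nat_lit 6756148980) (nat_lit 228) (nat_lit 30093788115) (nat_lit 13) (nat_lit 5) (nat_lit 15) (nat_lit 5) (nat_lit 16) (nat_lit 5) (nat_lit 371) (nat_lit 271) (nat_lit 138)) (XT.lf (nat_lit 0) (nat_lit 18005584707) (nat_lit 152) (nat_lit 1326231985) (nat_lit 228) (nat_lit 27278632468) (nat_lit 13) (nat_lit 5) (nat_lit 15) (nat_lit 5) (nat_lit 16) (nat_lit 5) (nat_lit 372) (nat_lit 271) (nat_lit 137)))) (XT.nd (nat_lit 78) (nat_lit 0) (nat_lit 0) (XT.lf (nat_lit 0) (nat_lit 23489981088) (nat_lit 228) (nat_lit 20163510378) (nat_lit 76) (nat_lit 4179565155) (nat_lit 13) (nat_lit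 5) (nat_lit 16) (nat_lit 5) (nat_lit 14) (nat_lit 4) (nat_lit 373) (nat_lit 271) (nat_lit 136)) (XT.nd (nat_lit 78) (nat_lit 0) (nat_lit 0) (XT.lf (nat_lit 0) (nat_lit 27780094254) (nat_lit 228) (nat_lit 11491811491) (nat_lit 76) (nat_lit 9820228833) (nat_lit 13) (nat_lit 5) (nat_lit 16) (nat_lit 5) (nat_lit 14) (nat_lit 4) (nat_lit 374) (nat_lit 271) (nat_lit 135)) (XT.lf (nat_lit 0) (nat_lit 32193156279) (nat_lit 228) (nat_lit 2569442027) (nat_lit 76) (nat_lit 15626567346) (nat_lit 13) (nat_lit 5) (nat_lit 16) (nat_lit 5) (nat_lit 14) (nat_lit 4) (nat_lit 375) (nat_lit 271) (nat_lit 134))))))))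
noncomputable def xc146 : XT := (XT.nd (nat_lit 32838) (nat_lit 0) (nat_lit 8892) (XT.nd (nat_lit 858) (nat_lit 76) (nat_lit 0) (XT.nd (nat_lit 390) (nat_lit 228) (nat_lit 0) (XT.nd (nat_lit 156) (nat_lit 0) (nat_lit 0) (XT.nd (nat_lit 78) (nat_lit 0) (nat_lit 0) (XT.lf (nat_lit 0) (nat_lit 6742973968) (nat_lit 76) (nat_lit 30054866858) (nat_lit 152) (nat_lit 14925497815) (nat_lit 12) (nat_lit 5) (nat_lit 13) (nat_lit 5) (nat_lit 14) (nat_lit 4) (nat_lit 376) (nat_lit 271) (nat_lit 133)) (XT.lf (nat_lit 0) (nat_lit 16378319463) (nat_lit 76) (nat_lit 25182780963) (nat_lit 152) (nat_lit 11535831035) (nat_lit 12) (nat_lit 5) (nat_lit 13) (nat_lit 5) (nat_lit 14) (nat_lit 4) (nat_lit 377) (nat_lit 271) (nat_lit 132))) (XT.nd (nat_lit 78) (nat_lit 0) (nat_lit 0) (XT.lf (nat_lit 0) (nat_lit 26293876757) (nat_lit 76) (nat_lit 20168029784) (nat_lit 152) (nat_lit 8049993513) (nat_lit 12) (nat_lit 5)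 (nat_lit 13) (nat_lit 5) (nat_lit 14) (nat_lit 4) (nat_lit 378) (nat_lit 271) (nat_lit 131)) (XT.nd (nat_lit 78) (nat_lit 0) (nat_lit 0) (XT.lf (nat_lit 0) (nat_lit 36498309927) (nat_lit 76) (nat_lit 15006231500) (nat_lit 152) (nat_lit 4464939373) (nat_lit 12) (nat_lit 5) (nat_lit 13) (nat_lit 5) (nat_lit 14) (nat_lit 4) (nat_lit 379) (nat_lit 271) (nat_lit 130)) (XT.lf (nat_lit 0) (nat_lit 47000535471) (nat_lit 76) (nat_lit 9692875802) (nat_lit 152) (nat_lit 777536042) (nat_lit 12) (nat_lit 5) (nat_lit 13) (nat_lit 5) (nat_lit 14) (nat_lit 4) (nat_lit 380) (nat_lit 271) (nat_lit 129))))) (XT.nd (nat_lit 234) (nat_lit 0) (nat_lit 0) (XT.nd (nat_lit 78) (nat_lit 152) (nat_lit 0) (XT.lf (nat_lit 0) (nat_lit 2956596414) (nat_lit 152) (nat_lit 1236867710) (nat_lit 76) (nat_lit 54823277847) (nat_lit 11) (nat_lit 5) (nat_lit 13) (nat_lit 5) (nat_lit 12) (nat_lit 5) (nat_lit 381) (nat_lit 271) (nat_lit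 128)) (XT.nd (nat_lit 78) (nat_lit 0) (nat_lit 0) (XT.lf (nat_lit 0) (nat_lit 6878264980) (nat_lit 228) (nat_lit 52199017100) (nat_lit 76) (nat_lit 1528669668) (nat_lit 9) (nat_lit 5) (nat_lit 12) (nat_lit 5) (nat_lit 10) (nat_lit 4) (nat_lit 382) (nat_lit 271) (nat_lit 127)) (XT.lf (nat_lit 0) (nat_lit 10966942584) (nat_lit 228) (nat_lit 43926704806) (nat_lit 76) (nat_lit 7347715900) (nat_lit 9) (nat_lit 5) (nat_lit 12) (nat_lit 5) (nat_lit 10) (nat_lit 4) (nat_lit 383) (nat_lit 271) (nat_lit 126)))) (XT.nd (nat_lit 78) (nat_lit 0) (nat_lit 0) (XT.lf (nat_lit 0) (nat_lit 15173645499) (nat_lit 228) (nat_lit 35413994239) (nat_lit 76) (nat_lit 13338342547) (nat_lit 9) (nat_lit 5) (nat_lit 12) (nat_lit 5) (nat_lit 10) (nat_lit 4) (nat_lit 384) (nat_lit 271) (nat_lit 125)) (XT.nd (nat_lit 78) (nat_lit 0) (nat_lit 0) (XT.lf (nat_lit 0) (nat_lit 19502049485) (nat_lit 228) (nat_lit 26653447109) (nat_lit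 76) (nat_lit 19505784139) (nat_lit 9) (nat_lit 5) (nat_lit 12) (nat_lit 5) (nat_lit 10) (nat_lit 4) (nat_lit 385) (nat_lit 271) (nat_lit 124)) (XT.lf (nat_lit 0) (nat_lit 23955936642) (nat_lit 228) (nat_lit 17637408569) (nat_lit 76) (nat_lit 25855429701) (nat_lit 9) (nat_lit 5) (nat_lit 12) (nat_lit 5) (nat_lit 10) (nat_lit 4) (nat_lit 386) (nat_lit 271) (nat_lit 123)))))) (XT.nd (nat_lit 390) (nat_lit 0) (nat_lit 0) (XT.nd (nat_lit 156) (nat_lit 0) (nat_lit 0) (XT.nd (nat_lit 78) (nat_lit 76) (nat_lit 0) (XT.lf (nat_lit 0) (nat_lit 28539198717) (nat_lit 228) (nat_lit 8358000528) (nat_lit 76) (nat_lit 32392827468) (nat_lit 9) (nat_lit 5) (nat_lit 12) (nat_lit 5) (nat_lit 10) (nat_lit 4) (nat_lit 387) (nat_lit 271) (nat_lit 122)) (XT.lf (nat_lit 0) (nat_lit 1216625991) (nat_lit 76) (nat_lit 32050909464) (nat_lit 152) (nat_lit 37918758692) (nat_lit 8) (nat_lit 5) (nat_lit 9) (nat_lit 5) (nat_lit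 10) (nat_lit 4) (nat_lit 388) (nat_lit 271) (nat_lit 121))) (XT.nd (nat_lit 78) (nat_lit 0) (nat_lit 0) (XT.lf (nat_lit 0) (nat_lit 11242985295) (nat_lit 76) (nat_lit 26975072491) (nat_lit 152) (nat_lit 34918986978) (nat_lit 8) (nat_lit 5) (nat_lit 9) (nat_lit 5) (nat_lit 10) (nat_lit 4) (nat_lit 389) (nat_lit 271) (nat_lit 120)) (XT.nd (nat_lit 78) (nat_lit 0) (nat_lit 0) (XT.lf (nat_lit 0) (nat_lit 21563497682) (nat_lit 76) (nat_lit 21749652546) (nat_lit 152) (nat_lit 31833291112) (nat_lit 8) (nat_lit 5) (nat_lit 9) (nat_lit 5) (nat_lit 10) (nat_lit 4) (nat_lit 390) (nat_lit 271) (nat_lit 119)) (XT.lf (nat_lit 0) (nat_lit 32187181075) (nat_lit 76) (nat_lit 16370083728) (nat_lit 152) (nat_lit 28658974856) (nat_lit 8) (nat_lit 5) (nat_lit 9) (nat_lit 5) (nat_lit 10) (nat_lit 4) (nat_lit 391) (nat_lit 271) (nat_lit 118))))) (XT.nd (nat_lit 31356) (nat_lit 0) (nat_lit 14136) (XT.nd (nat_lit 78)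 (nat_lit 0) (nat_lit 0) (XT.lf (nat_lit 0) (nat_lit 43123318304) (nat_lit 76) (nat_lit 10831665443) (nat_lit 152) (nat_lit 25393264534) (nat_lit 8) (nat_lit 5) (nat_lit 9) (nat_lit 5) (nat_lit 10) (nat_lit 4) (nat_lit 392) (nat_lit 271) (nat_lit 117)) (XT.nd (nat_lit 31200) (nat_lit 0) (nat_lit 14820) (XT.lf (nat_lit 0) (nat_lit 54381465218) (nat_lit 76) (nat_lit 5129558296) (nat_lit 152) (nat_lit 22033306614) (nat_lit 8) (nat_lit 5) (nat_lit 9) (nat_lit 5) (nat_lit 10) (nat_lit 4) (nat_lit 393) (nat_lit 271) (nat_lit 116)) (XT.lf (nat_lit 0) (nat_lit 2008703148) (nat_lit 684) (nat_lit 767437216) (nat_lit 684) (nat_lit 767437216) (nat_lit 203) (nat_lit 3) (nat_lit 212) (nat_lit 3) (nat_lit 212) (nat_lit 5) (nat_lit 272) (nat_lit 272) (nat_lit 236)))) (XT.nd (nat_lit 78) (nat_lit 684) (nat_lit 0) (XT.lf (nat_lit 76) (nat_lit 1418290373) (nat_lit 0) (nat_lit 4176794587) (nat_lit 684) (nat_lit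 1546790536) (nat_lit 204) (nat_lit 5) (nat_lit 203) (nat_lit 3) (nat_lit 212) (nat_lit 5) (nat_lit 273) (nat_lit 272) (nat_lit 235)) (XT.nd (nat_lit 78) (nat_lit 684) (nat_lit 0) (XT.lf (nat_lit 76) (nat_lit 4460566751) (nat_lit 0) (nat_lit 2716040488) (nat_lit 684) (nat_lit 23171483) (nat_lit 204) (nat_lit 5) (nat_lit 203) (nat_lit 3) (nat_lit 212) (nat_lit 5) (nat_lit 274) (nat_lit 272) (nat_lit 234)) (XT.lf (nat_lit 76) (nat_lit 294145577) (nat_lit 0) (nat_lit 1166606753) (nat_lit 760) (nat_lit 5800100912) (nat_lit 195) (nat_lit 5) (nat_lit 194) (nat_lit 5) (nat_lit 204) (nat_lit 5) (nat_lit 275) (nat_lit 272) (nat_lit 233))))))) (XT.nd (nat_lit 858) (nat_lit 3876) (nat_lit 0) (XT.nd (nat_lit 390) (nat_lit 760) (nat_lit 0) (XT.nd (nat_lit 156) (nat_lit 684) (nat_lit 0) (XT.nd (nat_lit 78) (nat_lit 0) (nat_lit 0) (XT.lf (nat_lit 0) (nat_lit 2964366818) (nat_lit 684) (nat_lit 3886183469) (nat_lit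 760) (nat_lit 474150263) (nat_lit 195) (nat_lit 5) (nat_lit 204) (nat_lit 5) (nat_lit 205) (nat_lit 5) (nat_lit 276) (nat_lit 272) (nat_lit 232)) (XT.lf (nat_lit 0) (nat_lit 4469861033) (nat_lit 684) (nat_lit 757103065) (nat_lit 760) (nat_lit 2165006326) (nat_lit 195) (nat_lit 5) (nat_lit 204) (nat_lit 5) (nat_lit 205) (nat_lit 5) (nat_lit 277) (nat_lit 272) (nat_lit 231))) (XT.nd (nat_lit 78) (nat_lit 684) (nat_lit 0) (XT.lf (nat_lit 76) (nat_lit 2482932792) (nat_lit 0) (nat_lit 3508270994) (nat_lit 760) (nat_lit 1471138258) (nat_lit 196) (nat_lit 5) (nat_lit 195) (nat_lit 5) (nat_lit 205) (nat_lit 5) (nat_lit 278) (nat_lit 272) (nat_lit 230)) (XT.nd (nat_lit 78) (nat_lit 684) (nat_lit 0) (XT.lf (nat_lit 76) (nat_lit 5804629206) (nat_lit 0) (nat_lit 1709269587) (nat_lit 760) (nat_lit 22452875) (nat_lit 196) (nat_lit 5) (nat_lit 195) (nat_lit 5) (nat_lit 205) (nat_lit 5) (nat_lit 279) (nat_lit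 272) (nat_lit 229)) (XT.lf (nat_lit 0) (nat_lit 1407140398) (nat_lit 760) (nat_lit 6016167900) (nat_lit 836) (nat_lit 190052503) (nat_lit 186) (nat_lit 5) (nat_lit 196) (nat_lit 5) (nat_lit 197) (nat_lit 5) (nat_lit 280) (nat_lit 272) (nat_lit 228))))) (XT.nd (nat_lit 234) (nat_lit 760) (nat_lit 0) (XT.nd (nat_lit 78) (nat_lit 0) (nat_lit 0) (XT.lf (nat_lit 0) (nat_lit 2864016683) (nat_lit 760) (nat_lit 2680912734) (nat_lit 836) (nat_lit 2148380122) (nat_lit 186) (nat_lit 5) (nat_lit 196) (nat_lit 5) (nat_lit 197) (nat_lit 5) (nat_lit 281) (nat_lit 272) (nat_lit 227)) (XT.nd (nat_lit 78) (nat_lit 0) (nat_lit 0) (XT.lf (nat_lit 76) (nat_lit 736824230) (nat_lit 0) (nat_lit 3586569377) (nat_lit 836) (nat_lit 3453675413) (nat_lit 187) (nat_lit 5) (nat_lit 186) (nat_lit 5) (nat_lit 197) (nat_lit 5) (nat_lit 282) (nat_lit 272) (nat_lit 226)) (XT.lf (nat_lit 76) (nat_lit 4280408708) (nat_lit 0) (nat_lit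 1526028948) (nat_lit 836) (nat_lit 2057678036) (nat_lit 187) (nat_lit 5) (nat_lit 186) (nat_lit 5) (nat_lit 197) (nat_lit 5) (nat_lit 283) (nat_lit 272) (nat_lit 225)))) (XT.nd (nat_lit 78) (nat_lit 836) (nat_lit 0) (XT.lf (nat_lit 0) (nat_lit 7294038584) (nat_lit 760) (nat_lit 61609851) (nat_lit 836) (nat_lit 599489365) (nat_lit 187) (nat_lit 5) (nat_lit 197) (nat_lit 5) (nat_lit 198) (nat_lit 5) (nat_lit 284) (nat_lit 272) (nat_lit 224)) (XT.nd (nat_lit 78) (nat_lit 0) (nat_lit 0) (XT.lf (nat_lit 0) (nat_lit 767380054) (nat_lit 836) (nat_lit 4466789898) (nat_lit 912) (nat_lit 2814497738) (nat_lit 176) (nat_lit 5) (nat_lit 187) (nat_lit 5) (nat_lit 188) (nat_lit 5) (nat_lit 285) (nat_lit 272) (nat_lit 223)) (XT.lf (nat_lit 0) (nat_lit 2182127279) (nat_lit 836) (nat_lit 847781936) (nat_lit 912) (nat_lit 5116348781) (nat_lit 176) (nat_lit 5) (nat_lit 187) (nat_lit 5) (nat_lit 188) (nat_lit 5)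 (nat_lit 286) (nat_lit 272) (nat_lit 222)))))) (XT.nd (nat_lit 390) (nat_lit 2128) (nat_lit 0) (XT.nd (nat_lit 156) (nat_lit 1748) (nat_lit 0) (XT.nd (nat_lit 78) (nat_lit 0) (nat_lit 76) (XT.lf (nat_lit 76) (nat_lit 2905246896) (nat_lit 0) (nat_lit 719349185) (nat_lit 912) (nat_lit 4622769045) (nat_lit 177) (nat_lit 5) (nat_lit 176) (nat_lit 5) (nat_lit 188) (nat_lit 5) (nat_lit 287) (nat_lit 272) (nat_lit 221)) (XT.lf (nat_lit 0) (nat_lit 5093347120) (nat_lit 836) (nat_lit 1611482828) (nat_lit 76) (nat_lit 1647328472) (nat_lit 177) (nat_lit 5) (nat_lit 188) (nat_lit 5) (nat_lit 178) (nat_lit 5) (nat_lit 288) (nat_lit 272) (nat_lit 220))) (XT.nd (nat_lit 78) (nat_lit 988) (nat_lit 0) (XT.lf (nat_lit 0) (nat_lit 2236095579) (nat_lit 836) (nat_lit 4358294201) (nat_lit 912) (nat_lit 1866197885) (nat_lit 166) (nat_lit 5) (nat_lit 177) (nat_lit 5) (nat_lit 178) (nat_lit 5) (nat_lit 289) (nat_lit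 272) (nat_lit 219)) (XT.nd (nat_lit 78) (nat_lit 988) (nat_lit 0) (XT.lf (nat_lit 0) (nat_lit 6200955796) (nat_lit 836) (nat_lit 1916269474) (nat_lit 912) (nat_lit 455876644) (nat_lit 166) (nat_lit 5) (nat_lit 177) (nat_lit 5) (nat_lit 178) (nat_lit 5) (nat_lit 290) (nat_lit 272) (nat_lit 218)) (XT.lf (nat_lit 0) (nat_lit 959758389) (nat_lit 988) (nat_lit 7109653298) (nat_lit 76) (nat_lit 619946056) (nat_lit 153) (nat_lit 5) (nat_lit 166) (nat_lit 5) (nat_lit 154) (nat_lit 5) (nat_lit 291) (nat_lit 272) (nat_lit 217))))) (XT.nd (nat_lit 234) (nat_lit 1140) (nat_lit 0) (XT.nd (nat_lit 78) (nat_lit 988) (nat_lit 0) (XT.lf (nat_lit 0) (nat_lit 2413899504) (nat_lit 988) (nat_lit 3165569014) (nat_lit 76) (nat_lit 3229464850) (nat_lit 153) (nat_lit 5) (nat_lit 166) (nat_lit 5) (nat_lit 154) (nat_lit 5) (nat_lit 292) (nat_lit 272) (nat_lit 216)) (XT.nd (nat_lit 78) (nat_lit 0) (nat_lit 0) (XT.lf (nat_lit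 0) (nat_lit 882802492) (nat_lit 988) (nat_lit 3000489700) (nat_lit 1064) (nat_lit 5049775174) (nat_lit 140) (nat_lit 5) (nat_lit 153) (nat_lit 5) (nat_lit 154) (nat_lit 5) (nat_lit 293) (nat_lit 272) (nat_lit 215)) (XT.lf (nat_lit 0) (nat_lit 5086560732) (nat_lit 988) (nat_lit 306089261) (nat_lit 1064) (nat_lit 3668515319) (nat_lit 140) (nat_lit 5) (nat_lit 153) (nat_lit 5) (nat_lit 154) (nat_lit 5) (nat_lit 294) (nat_lit 272) (nat_lit 214)))) (XT.nd (nat_lit 78) (nat_lit 76) (nat_lit 0) (XT.lf (nat_lit 0) (nat_lit 171674902) (nat_lit 1064) (nat_lit 6766014882) (nat_lit 1140) (nat_lit 2255817416) (nat_lit 126) (nat_lit 5) (nat_lit 140) (nat_lit 5) (nat_lit 141) (nat_lit 5) (nat_lit 295) (nat_lit 272) (nat_lit 213)) (XT.nd (nat_lit 78) (nat_lit 76) (nat_lit 0) (XT.lf (nat_lit 0) (nat_lit 4489768193) (nat_lit 1064) (nat_lit 4048186610) (nat_lit 1140) (nat_lit 791708066) (nat_lit 126) (nat_lit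 5) (nat_lit 140) (nat_lit 5) (nat_lit 141) (nat_lit 5) (nat_lit 296) (nat_lit 272) (nat_lit 212)) (XT.lf (nat_lit 0) (nat_lit 668648052) (nat_lit 1140) (nat_lit 570216237) (nat_lit 76) (nat_lit 8231946747) (nat_lit 125) (nat_lit 5) (nat_lit 140) (nat_lit 5) (nat_lit 126) (nat_lit 5) (nat_lit 297) (nat_lit 272) (nat_lit 211))))))))
noncomputable def xc147 : XT := (XT.nd (nat_lit 1716) (nat_lit 2584) (nat_lit 0) (XT.nd (nat_lit 858) (nat_lit 1976) (nat_lit 0) (XT.nd (nat_lit 390) (nat_lit 988) (nat_lit 0) (XT.nd (nat_lit 156) (nat_lit 988) (nat_lit 0) (XT.nd (nat_lit 78) (nat_lit 0) (nat_lit 0) (XT.lf (nat_lit 0) (nat_lit 2177718670) (nat_lit 608) (nat_lit 5767100011) (nat_lit 76) (nat_lit 1670615750) (nat_lit 118) (nat_lit 5) (nat_lit 126) (nat_lit 5) (nat_lit 119) (nat_lit 5) (nat_lit 298) (nat_lit 272) (nat_lit 210)) (XT.lf (nat_lit 0) (nat_lit 3718116693) (nat_lit 608) (nat_lit 1396138526)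 (nat_lit 76) (nat_lit 4650657160) (nat_lit 118) (nat_lit 5) (nat_lit 126) (nat_lit 5) (nat_lit 119) (nat_lit 5) (nat_lit 299) (nat_lit 272) (nat_lit 209))) (XT.nd (nat_lit 78) (nat_lit 532) (nat_lit 0) (XT.lf (nat_lit 0) (nat_lit 3137345312) (nat_lit 456) (nat_lit 2166446442) (nat_lit 532) (nat_lit 4615205625) (nat_lit 112) (nat_lit 5) (nat_lit 118) (nat_lit 5) (nat_lit 119) (nat_lit 5) (nat_lit 300) (nat_lit 272) (nat_lit 208)) (XT.nd (nat_lit 78) (nat_lit 532) (nat_lit 0) (XT.lf (nat_lit 0) (nat_lit 6929173661) (nat_lit 532) (nat_lit 2280879472) (nat_lit 76) (nat_lit 867979610) (nat_lit 112) (nat_lit 5) (nat_lit 119) (nat_lit 5) (nat_lit 113) (nat_lit 5) (nat_lit 301) (nat_lit 272) (nat_lit 207)) (XT.lf (nat_lit 0) (nat_lit 2349656379) (nat_lit 532) (nat_lit 6268121924) (nat_lit 608) (nat_lit 1623716261) (nat_lit 105) (nat_lit 5) (nat_lit 112) (nat_lit 5) (nat_lit 113) (nat_lit 5) (nat_lit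 302) (nat_lit 272) (nat_lit 206))))) (XT.nd (nat_lit 234) (nat_lit 456) (nat_lit 0) (XT.nd (nat_lit 78) (nat_lit 532) (nat_lit 0) (XT.lf (nat_lit 0) (nat_lit 7136494670) (nat_lit 532) (nat_lit 3214582896) (nat_lit 608) (nat_lit 59048215) (nat_lit 105) (nat_lit 5) (nat_lit 112) (nat_lit 5) (nat_lit 113) (nat_lit 5) (nat_lit 303) (nat_lit 272) (nat_lit 205)) (XT.nd (nat_lit 78) (nat_lit 0) (nat_lit 0) (XT.lf (nat_lit 0) (nat_lit 1467674507) (nat_lit 456) (nat_lit 40184929) (nat_lit 532) (nat_lit 9076022566) (nat_lit 98) (nat_lit 5) (nat_lit 104) (nat_lit 5) (nat_lit 105) (nat_lit 5) (nat_lit 304) (nat_lit 272) (nat_lit 204)) (XT.lf (nat_lit 0) (nat_lit 3157046938) (nat_lit 532) (nat_lit 4405275476) (nat_lit 76) (nat_lit 3199496459) (nat_lit 98) (nat_lit 5) (nat_lit 105) (nat_lit 5) (nat_lit 99) (nat_lit 5) (nat_lit 305) (nat_lit 272) (nat_lit 203)))) (XT.nd (nat_lit 78) (nat_lit 0) (nat_lit 0)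 (XT.lf (nat_lit 0) (nat_lit 425980137) (nat_lit 456) (nat_lit 4407068670) (nat_lit 532) (nat_lit 6112801855) (nat_lit 92) (nat_lit 5) (nat_lit 98) (nat_lit 5) (nat_lit 99) (nat_lit 5) (nat_lit 306) (nat_lit 272) (nat_lit 202)) (XT.nd (nat_lit 78) (nat_lit 0) (nat_lit 0) (XT.lf (nat_lit 0) (nat_lit 5463841864) (nat_lit 456) (nat_lit 1113335233) (nat_lit 532) (nat_lit 4557765648) (nat_lit 92) (nat_lit 5) (nat_lit 98) (nat_lit 5) (nat_lit 99) (nat_lit 5) (nat_lit 307) (nat_lit 272) (nat_lit 201)) (XT.lf (nat_lit 0) (nat_lit 8369657355) (nat_lit 532) (nat_lit 727408444) (nat_lit 76) (nat_lit 2232833504) (nat_lit 92) (nat_lit 5) (nat_lit 99) (nat_lit 5) (nat_lit 93) (nat_lit 5) (nat_lit 308) (nat_lit 272) (nat_lit 200)))))) (XT.nd (nat_lit 390) (nat_lit 760) (nat_lit 0) (XT.nd (nat_lit 156) (nat_lit 760) (nat_lit 0) (XT.nd (nat_lit 78) (nat_lit 76) (nat_lit 0) (XT.lf (nat_lit 0) (nat_lit 4411865820)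 (nat_lit 380) (nat_lit 5832351644) (nat_lit 456) (nat_lit 1285708372) (nat_lit 87) (nat_lit 5) (nat_lit 92) (nat_lit 5) (nat_lit 93) (nat_lit 5) (nat_lit 309) (nat_lit 272) (nat_lit 199)) (XT.lf (nat_lit 0) (nat_lit 412940505) (nat_lit 456) (nat_lit 2047884652) (nat_lit 76) (nat_lit 9275594384) (nat_lit 86) (nat_lit 5) (nat_lit 92) (nat_lit 5) (nat_lit 87) (nat_lit 5) (nat_lit 310) (nat_lit 272) (nat_lit 198))) (XT.nd (nat_lit 78) (nat_lit 380) (nat_lit 0) (XT.lf (nat_lit 0) (nat_lit 2153320602) (nat_lit 456) (nat_lit 8761946907) (nat_lit 76) (nat_lit 1033024721) (nat_lit 81) (nat_lit 5) (nat_lit 87) (nat_lit 5) (nat_lit 82) (nat_lit 5) (nat_lit 311) (nat_lit 272) (nat_lit 197)) (XT.nd (nat_lit 78) (nat_lit 380) (nat_lit 0) (XT.lf (nat_lit 0) (nat_lit 3967332980) (nat_lit 456) (nat_lit 3598636550) (nat_lit 76) (nat_lit 4599971532) (nat_lit 81) (nat_lit 5) (nat_lit 87) (nat_lit 5) (nat_lit 82)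 (nat_lit 5) (nat_lit 312) (nat_lit 272) (nat_lit 196)) (XT.lf (nat_lit 0) (nat_lit 1726319725) (nat_lit 380) (nat_lit 4102906371) (nat_lit 456) (nat_lit 6561150214) (nat_lit 76) (nat_lit 5) (nat_lit 81) (nat_lit 5) (nat_lit 82) (nat_lit 5) (nat_lit 313) (nat_lit 272) (nat_lit 195))))) (XT.nd (nat_lit 234) (nat_lit 380) (nat_lit 0) (XT.nd (nat_lit 78) (nat_lit 380) (nat_lit 0) (XT.lf (nat_lit 0) (nat_lit 7258117222) (nat_lit 380) (nat_lit 502481267) (nat_lit 456) (nat_lit 4860596449) (nat_lit 76) (nat_lit 5) (nat_lit 81) (nat_lit 5) (nat_lit 82) (nat_lit 5) (nat_lit 314) (nat_lit 272) (nat_lit 194)) (XT.nd (nat_lit 78) (nat_lit 0) (nat_lit 0) (XT.lf (nat_lit 0) (nat_lit 40318670) (nat_lit 380) (nat_lit 9718706574) (nat_lit 456) (nat_lit 3099696759) (nat_lit 71) (nat_lit 5) (nat_lit 76) (nat_lit 5) (nat_lit 77) (nat_lit 5) (nat_lit 315) (nat_lit 272) (nat_lit 193)) (XT.lf (nat_lit 0) (nat_lit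 5684360312) (nat_lit 380) (nat_lit 6170425804) (nat_lit 456) (nat_lit 1247522933) (nat_lit 71) (nat_lit 5) (nat_lit 76) (nat_lit 5) (nat_lit 77) (nat_lit 5) (nat_lit 316) (nat_lit 272) (nat_lit 192)))) (XT.nd (nat_lit 78) (nat_lit 304) (nat_lit 0) (XT.lf (nat_lit 0) (nat_lit 626001911) (nat_lit 456) (nat_lit 1887857633) (nat_lit 76) (nat_lit 10839846116) (nat_lit 70) (nat_lit 5) (nat_lit 76) (nat_lit 5) (nat_lit 71) (nat_lit 5) (nat_lit 317) (nat_lit 272) (nat_lit 191)) (XT.nd (nat_lit 78) (nat_lit 0) (nat_lit 0) (XT.lf (nat_lit 0) (nat_lit 2559397919) (nat_lit 380) (nat_lit 9778767607) (nat_lit 76) (nat_lit 1273296800) (nat_lit 66) (nat_lit 5) (nat_lit 71) (nat_lit 5) (nat_lit 67) (nat_lit 5) (nat_lit 318) (nat_lit 272) (nat_lit 190)) (XT.lf (nat_lit 0) (nat_lit 4574545881) (nat_lit 380) (nat_lit 4163534991) (nat_lit 76) (nat_lit 5138207723) (nat_lit 66) (nat_lit 5) (nat_lit 71) (nat_lit 5)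 (nat_lit 67) (nat_lit 5) (nat_lit 319) (nat_lit 272) (nat_lit 189))))))) (XT.nd (nat_lit 858) (nat_lit 1064) (nat_lit 0) (XT.nd (nat_lit 390) (nat_lit 836) (nat_lit 0) (XT.nd (nat_lit 156) (nat_lit 380) (nat_lit 0) (XT.nd (nat_lit 78) (nat_lit 0) (nat_lit 0) (XT.lf (nat_lit 0) (nat_lit 1627010590) (nat_lit 304) (nat_lit 5018979422) (nat_lit 380) (nat_lit 7503242357) (nat_lit 62) (nat_lit 5) (nat_lit 66) (nat_lit 5) (nat_lit 67) (nat_lit 5) (nat_lit 320) (nat_lit 272) (nat_lit 188)) (XT.lf (nat_lit 0) (nat_lit 7651972122) (nat_lit 304) (nat_lit 1150190497) (nat_lit 380) (nat_lit 5627570853) (nat_lit 62) (nat_lit 5) (nat_lit 66) (nat_lit 5) (nat_lit 67) (nat_lit 5) (nat_lit 321) (nat_lit 272) (nat_lit 187))) (XT.nd (nat_lit 78) (nat_lit 380) (nat_lit 0) (XT.lf (nat_lit 0) (nat_lit 11031328834) (nat_lit 380) (nat_lit 912710014) (nat_lit 76) (nat_lit 2774406722) (nat_lit 62) (nat_lit 5) (nat_lit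 67) (nat_lit 5) (nat_lit 63) (nat_lit 5) (nat_lit 322) (nat_lit 272) (nat_lit 186)) (XT.nd (nat_lit 78) (nat_lit 76) (nat_lit 0) (XT.lf (nat_lit 0) (nat_lit 5194487018) (nat_lit 304) (nat_lit 8175815201) (nat_lit 380) (nat_lit 1644272743) (nat_lit 58) (nat_lit 5) (nat_lit 62) (nat_lit 5) (nat_lit 63) (nat_lit 5) (nat_lit 323) (nat_lit 272) (nat_lit 185)) (XT.lf (nat_lit 0) (nat_lit 441890960) (nat_lit 380) (nat_lit 3844167199) (nat_lit 76) (nat_lit 11033708607) (nat_lit 57) (nat_lit 5) (nat_lit 62) (nat_lit 5) (nat_lit 58) (nat_lit 5) (nat_lit 324) (nat_lit 272) (nat_lit 184))))) (XT.nd (nat_lit 234) (nat_lit 532) (nat_lit 0) (XT.nd (nat_lit 78) (nat_lit 0) (nat_lit 0) (XT.lf (nat_lit 0) (nat_lit 2316702720) (nat_lit 304) (nat_lit 245391189) (nat_lit 380) (nat_lit 13071437111) (nat_lit 53) (nat_lit 5) (nat_lit 57) (nat_lit 5) (nat_lit 58) (nat_lit 5) (nat_lit 325) (nat_lit 272) (nat_lit 183))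 (XT.nd (nat_lit 78) (nat_lit 0) (nat_lit 0) (XT.lf (nat_lit 0) (nat_lit 4805229330) (nat_lit 380) (nat_lit 7275912794) (nat_lit 76) (nat_lit 3873825289) (nat_lit 53) (nat_lit 5) (nat_lit 58) (nat_lit 5) (nat_lit 54) (nat_lit 5) (nat_lit 326) (nat_lit 272) (nat_lit 182)) (XT.lf (nat_lit 0) (nat_lit 7101074580) (nat_lit 380) (nat_lit 1079051329) (nat_lit 76) (nat_lit 8106396383) (nat_lit 53) (nat_lit 5) (nat_lit 58) (nat_lit 5) (nat_lit 54) (nat_lit 5) (nat_lit 327) (nat_lit 272) (nat_lit 181)))) (XT.nd (nat_lit 78) (nat_lit 304) (nat_lit 0) (XT.lf (nat_lit 0) (nat_lit 5386642474) (nat_lit 228) (nat_lit 4114414116) (nat_lit 304) (nat_lit 7125946147) (nat_lit 50) (nat_lit 5) (nat_lit 53) (nat_lit 5) (nat_lit 54) (nat_lit 5) (nat_lit 328) (nat_lit 272) (nat_lit 180)) (XT.nd (nat_lit 78) (nat_lit 304) (nat_lit 0) (XT.lf (nat_lit 0) (nat_lit 11968443204) (nat_lit 304) (nat_lit 4932193258) (nat_lit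 76) (nat_lit 77234672) (nat_lit 50) (nat_lit 5) (nat_lit 54) (nat_lit 5) (nat_lit 51) (nat_lit 5) (nat_lit 329) (nat_lit 272) (nat_lit 179)) (XT.lf (nat_lit 0) (nat_lit 1532605190) (nat_lit 304) (nat_lit 13016886843) (nat_lit 380) (nat_lit 2788618984) (nat_lit 46) (nat_lit 5) (nat_lit 50) (nat_lit 5) (nat_lit 51) (nat_lit 5) (nat_lit 330) (nat_lit 272) (nat_lit 178)))))) (XT.nd (nat_lit 468) (nat_lit 532) (nat_lit 0) (XT.nd (nat_lit 234) (nat_lit 228) (nat_lit 0) (XT.nd (nat_lit 78) (nat_lit 304) (nat_lit 0) (XT.lf (nat_lit 0) (nat_lit 8270882840) (nat_lit 304) (nat_lit 8971320154) (nat_lit 380) (nat_lit 465961826) (nat_lit 46) (nat_lit 5) (nat_lit 50) (nat_lit 5) (nat_lit 51) (nat_lit 5) (nat_lit 331) (nat_lit 272) (nat_lit 177)) (XT.nd (nat_lit 78) (nat_lit 228) (nat_lit 0) (XT.lf (nat_lit 0) (nat_lit 1873481610) (nat_lit 380) (nat_lit 2917806815) (nat_lit 76) (nat_lit 13297967089) (nat_lit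 45) (nat_lit 5) (nat_lit 50) (nat_lit 5) (nat_lit 46) (nat_lit 5) (nat_lit 332) (nat_lit 272) (nat_lit 176)) (XT.lf (nat_lit 0) (nat_lit 3847050784) (nat_lit 228) (nat_lit 448815196) (nat_lit 304) (nat_lit 14185141641) (nat_lit 42) (nat_lit 5) (nat_lit 45) (nat_lit 5) (nat_lit 46) (nat_lit 5) (nat_lit 333) (nat_lit 272) (nat_lit 175)))) (XT.nd (nat_lit 78) (nat_lit 228) (nat_lit 0) (XT.lf (nat_lit 0) (nat_lit 6844681046) (nat_lit 304) (nat_lit 8068802364) (nat_lit 76) (nat_lit 3969445998) (nat_lit 42) (nat_lit 5) (nat_lit 46) (nat_lit 5) (nat_lit 43) (nat_lit 5) (nat_lit 334) (nat_lit 272) (nat_lit 174)) (XT.nd (nat_lit 78) (nat_lit 228) (nat_lit 0) (XT.lf (nat_lit 0) (nat_lit 9460154583) (nat_lit 304) (nat_lit 1331397229) (nat_lit 76) (nat_lit 8505680239) (nat_lit 42) (nat_lit 5) (nat_lit 46) (nat_lit 5) (nat_lit 43) (nat_lit 5) (nat_lit 335) (nat_lit 272) (nat_lit 173)) (XT.lf (nat_lit 0)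 (nat_lit 5699681218) (nat_lit 228) (nat_lit 6495365275) (nat_lit 304) (nat_lit 7527716831) (nat_lit 39) (nat_lit 5) (nat_lit 42) (nat_lit 5) (nat_lit 43) (nat_lit 5) (nat_lit 336) (nat_lit 272) (nat_lit 172))))) (XT.nd (nat_lit 234) (nat_lit 304) (nat_lit 0) (XT.nd (nat_lit 78) (nat_lit 228) (nat_lit 0) (XT.lf (nat_lit 0) (nat_lit 12949507049) (nat_lit 228) (nat_lit 2062303680) (nat_lit 304) (nat_lit 5149282394) (nat_lit 39) (nat_lit 5) (nat_lit 42) (nat_lit 5) (nat_lit 43) (nat_lit 5) (nat_lit 337) (nat_lit 272) (nat_lit 171)) (XT.nd (nat_lit 78) (nat_lit 228) (nat_lit 0) (XT.lf (nat_lit 0) (nat_lit 17923868528) (nat_lit 304) (nat_lit 239091296) (nat_lit 76) (nat_lit 2449315831) (nat_lit 39) (nat_lit 5) (nat_lit 43) (nat_lit 5) (nat_lit 40) (nat_lit 5) (nat_lit 338) (nat_lit 272) (nat_lit 170)) (XT.lf (nat_lit 0) (nat_lit 7040834469) (nat_lit 228) (nat_lit 13957663016) (nat_lit 304) (nat_lit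 76265680) (nat_lit 36) (nat_lit 5) (nat_lit 39) (nat_lit 5) (nat_lit 40) (nat_lit 5) (nat_lit 339) (nat_lit 272) (nat_lit 169)))) (XT.nd (nat_lit 78) (nat_lit 228) (nat_lit 0) (XT.lf (nat_lit 0) (nat_lit 2552821866) (nat_lit 304) (nat_lit 7050960762) (nat_lit 76) (nat_lit 11946925236) (nat_lit 35) (nat_lit 5) (nat_lit 39) (nat_lit 5) (nat_lit 36) (nat_lit 5) (nat_lit 340) (nat_lit 272) (nat_lit 168)) (XT.nd (nat_lit 78) (nat_lit 0) (nat_lit 0) (XT.lf (nat_lit 0) (nat_lit 124913117) (nat_lit 228) (nat_lit 5123067710) (nat_lit 304) (nat_lit 16793289070) (nat_lit 32) (nat_lit 5) (nat_lit 35) (nat_lit 5) (nat_lit 36) (nat_lit 5) (nat_lit 341) (nat_lit 272) (nat_lit 167)) (XT.lf (nat_lit 0) (nat_lit 7642514578) (nat_lit 228) (nat_lit 440401088) (nat_lit 304) (nat_lit 14461888403) (nat_lit 32) (nat_lit 5) (nat_lit 35) (nat_lit 5) (nat_lit 36) (nat_lit 5) (nat_lit 342) (nat_lit 272) (nat_lit 166))))))))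
noncomputable def xc148 : XT := (XT.nd (nat_lit 1716) (nat_lit 608) (nat_lit 0) (XT.nd (nat_lit 858) (nat_lit 532) (nat_lit 0) (XT.nd (nat_lit 390) (nat_lit 456) (nat_lit 0) (XT.nd (nat_lit 156) (nat_lit 152) (nat_lit 0) (XT.nd (nat_lit 78) (nat_lit 0) (nat_lit 0) (XT.lf (nat_lit 0) (nat_lit 11033051882) (nat_lit 304) (nat_lit 7737815157) (nat_lit 76) (nat_lit 4291694866) (nat_lit 32) (nat_lit 5) (nat_lit 36) (nat_lit 5) (nat_lit 33) (nat_lit 5) (nat_lit 343) (nat_lit 272) (nat_lit 165)) (XT.lf (nat_lit 0) (nat_lit 14064425119) (nat_lit 304) (nat_lit 380131412) (nat_lit 76) (nat_lit 9151535554) (nat_lit 32) (nat_lit 5) (nat_lit 36) (nat_lit 5) (nat_lit 33) (nat_lit 5) (nat_lit 344) (nat_lit 272) (nat_lit 164))) (XT.nd (nat_lit 78) (nat_lit 0) (nat_lit 0) (XT.lf (nat_lit 0) (nat_lit 7324348614) (nat_lit 152) (nat_lit 9921508248) (nat_lit 228) (nat_lit 6898018755) (nat_lit 30) (nat_lit 5) (nat_lit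 32) (nat_lit 5) (nat_lit 33) (nat_lit 5) (nat_lit 345) (nat_lit 272) (nat_lit 163)) (XT.nd (nat_lit 78) (nat_lit 0) (nat_lit 0) (XT.lf (nat_lit 0) (nat_lit 15251061993) (nat_lit 152) (nat_lit 5264387672) (nat_lit 228) (nat_lit 4192881802) (nat_lit 30) (nat_lit 5) (nat_lit 32) (nat_lit 5) (nat_lit 33) (nat_lit 5) (nat_lit 346) (nat_lit 272) (nat_lit 162)) (XT.lf (nat_lit 0) (nat_lit 23399369616) (nat_lit 152) (nat_lit 472964056) (nat_lit 228) (nat_lit 1417730979) (nat_lit 30) (nat_lit 5) (nat_lit 32) (nat_lit 5) (nat_lit 33) (nat_lit 5) (nat_lit 347) (nat_lit 272) (nat_lit 161))))) (XT.nd (nat_lit 234) (nat_lit 152) (nat_lit 0) (XT.nd (nat_lit 78) (nat_lit 0) (nat_lit 0) (XT.lf (nat_lit 0) (nat_lit 1503085061) (nat_lit 304) (nat_lit 19941044187) (nat_lit 76) (nat_lit 4442008048) (nat_lit 26) (nat_lit 5) (nat_lit 30) (nat_lit 5) (nat_lit 27) (nat_lit 5) (nat_lit 348) (nat_lit 272) (nat_lit 160))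 (XT.nd (nat_lit 78) (nat_lit 0) (nat_lit 0) (XT.lf (nat_lit 0) (nat_lit 4496495430) (nat_lit 304) (nat_lit 12479804102) (nat_lit 76) (nat_lit 9522985620) (nat_lit 26) (nat_lit 5) (nat_lit 30) (nat_lit 5) (nat_lit 27) (nat_lit 5) (nat_lit 349) (nat_lit 272) (nat_lit 159)) (XT.lf (nat_lit 0) (nat_lit 7569514593) (nat_lit 304) (nat_lit 4810346483) (nat_lit 76) (nat_lit 14751289732) (nat_lit 26) (nat_lit 5) (nat_lit 30) (nat_lit 5) (nat_lit 27) (nat_lit 5) (nat_lit 350) (nat_lit 272) (nat_lit 158)))) (XT.nd (nat_lit 78) (nat_lit 0) (nat_lit 0) (XT.lf (nat_lit 0) (nat_lit 3135209363) (nat_lit 152) (nat_lit 7619755899) (nat_lit 228) (nat_lit 17026416990) (nat_lit 24) (nat_lit 5) (nat_lit 26) (nat_lit 5) (nat_lit 27) (nat_lit 5) (nat_lit 351) (nat_lit 272) (nat_lit 157)) (XT.nd (nat_lit 78) (nat_lit 0) (nat_lit 0) (XT.lf (nat_lit 0) (nat_lit 11402723219) (nat_lit 152) (nat_lit 2672078589) (nat_lit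 228) (nat_lit 14375170711) (nat_lit 24) (nat_lit 5) (nat_lit 26) (nat_lit 5) (nat_lit 27) (nat_lit 5) (nat_lit 352) (nat_lit 272) (nat_lit 156)) (XT.lf (nat_lit 0) (nat_lit 17508016929) (nat_lit 228) (nat_lit 9258488954) (nat_lit 76) (nat_lit 2371717176) (nat_lit 24) (nat_lit 5) (nat_lit 27) (nat_lit 5) (nat_lit 25) (nat_lit 5) (nat_lit 353) (nat_lit 272) (nat_lit 155)))))) (XT.nd (nat_lit 390) (nat_lit 152) (nat_lit 0) (XT.nd (nat_lit 156) (nat_lit 228) (nat_lit 0) (XT.nd (nat_lit 78) (nat_lit 152) (nat_lit 0) (XT.lf (nat_lit 0) (nat_lit 21061444171) (nat_lit 228) (nat_lit 1276919787) (nat_lit 76) (nat_lit 7508256287) (nat_lit 24) (nat_lit 5) (nat_lit 27) (nat_lit 5) (nat_lit 25) (nat_lit 5) (nat_lit 354) (nat_lit 272) (nat_lit 154)) (XT.lf (nat_lit 0) (nat_lit 7068040977) (nat_lit 152) (nat_lit 17712404174) (nat_lit 228) (nat_lit 5794070214) (nat_lit 22) (nat_lit 5) (nat_lit 24) (nat_lit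 5) (nat_lit 25) (nat_lit 5) (nat_lit 355) (nat_lit 272) (nat_lit 153))) (XT.nd (nat_lit 78) (nat_lit 228) (nat_lit 0) (XT.lf (nat_lit 0) (nat_lit 15675684798) (nat_lit 152) (nat_lit 12939382587) (nat_lit 228) (nat_lit 2709073122) (nat_lit 22) (nat_lit 5) (nat_lit 24) (nat_lit 5) (nat_lit 25) (nat_lit 5) (nat_lit 356) (nat_lit 272) (nat_lit 152)) (XT.nd (nat_lit 78) (nat_lit 152) (nat_lit 0) (XT.lf (nat_lit 0) (nat_lit 450647672) (nat_lit 228) (nat_lit 7572824653) (nat_lit 76) (nat_lit 24072921379) (nat_lit 21) (nat_lit 5) (nat_lit 24) (nat_lit 5) (nat_lit 22) (nat_lit 5) (nat_lit 357) (nat_lit 272) (nat_lit 151)) (XT.lf (nat_lit 0) (nat_lit 719056120) (nat_lit 152) (nat_lit 2930134642) (nat_lit 228) (nat_lit 29241878106) (nat_lit 19) (nat_lit 5) (nat_lit 21) (nat_lit 5) (nat_lit 22) (nat_lit 5) (nat_lit 358) (nat_lit 272) (nat_lit 150))))) (XT.nd (nat_lit 234) (nat_lit 152) (nat_lit 0) (XT.nd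 (nat_lit 78) (nat_lit 0) (nat_lit 0) (XT.lf (nat_lit 0) (nat_lit 7034822814) (nat_lit 228) (nat_lit 24328696153) (nat_lit 76) (nat_lit 2343344404) (nat_lit 19) (nat_lit 5) (nat_lit 22) (nat_lit 5) (nat_lit 20) (nat_lit 5) (nat_lit 359) (nat_lit 272) (nat_lit 149)) (XT.nd (nat_lit 78) (nat_lit 0) (nat_lit 0) (XT.lf (nat_lit 0) (nat_lit 10542920513) (nat_lit 228) (nat_lit 16292018295) (nat_lit 76) (nat_lit 7711578687) (nat_lit 19) (nat_lit 5) (nat_lit 22) (nat_lit 5) (nat_lit 20) (nat_lit 5) (nat_lit 360) (nat_lit 272) (nat_lit 148)) (XT.lf (nat_lit 0) (nat_lit 14148382938) (nat_lit 228) (nat_lit 8026790586) (nat_lit 76) (nat_lit 13236436377) (nat_lit 19) (nat_lit 5) (nat_lit 22) (nat_lit 5) (nat_lit 20) (nat_lit 5) (nat_lit 361) (nat_lit 272) (nat_lit 147)))) (XT.nd (nat_lit 78) (nat_lit 0) (nat_lit 0) (XT.lf (nat_lit 0) (nat_lit 483646704) (nat_lit 152) (nat_lit 17375362900) (nat_lit 228) (nat_lit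 18443747424) (nat_lit 17) (nat_lit 5) (nat_lit 19) (nat_lit 5) (nat_lit 20) (nat_lit 5) (nat_lit 362) (nat_lit 272) (nat_lit 146)) (XT.nd (nat_lit 78) (nat_lit 0) (nat_lit 0) (XT.lf (nat_lit 0) (nat_lit 9401872974) (nat_lit 152) (nat_lit 12352594998) (nat_lit 228) (nat_lit 15463976816) (nat_lit 17) (nat_lit 5) (nat_lit 19) (nat_lit 5) (nat_lit 20) (nat_lit 5) (nat_lit 363) (nat_lit 272) (nat_lit 145)) (XT.lf (nat_lit 0) (nat_lit 18575931977) (nat_lit 152) (nat_lit 7183535840) (nat_lit 228) (nat_lit 12402366302) (nat_lit 17) (nat_lit 5) (nat_lit 19) (nat_lit 5) (nat_lit 20) (nat_lit 5) (nat_lit 364) (nat_lit 272) (nat_lit 144))))))) (XT.nd (nat_lit 858) (nat_lit 304) (nat_lit 0) (XT.nd (nat_lit 390) (nat_lit 152) (nat_lit 0) (XT.nd (nat_lit 156) (nat_lit 152) (nat_lit 0) (XT.nd (nat_lit 78) (nat_lit 0) (nat_lit 0) (XT.lf (nat_lit 0) (nat_lit 28013839881) (nat_lit 152) (nat_lit 1863668772) (nat_lit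 228) (nat_lit 9256240690) (nat_lit 17) (nat_lit 5) (nat_lit 19) (nat_lit 5) (nat_lit 20) (nat_lit 5) (nat_lit 365) (nat_lit 272) (nat_lit 143)) (XT.lf (nat_lit 0) (nat_lit 34146906202) (nat_lit 228) (nat_lit 2445913738) (nat_lit 76) (nat_lit 3541178241) (nat_lit 17) (nat_lit 5) (nat_lit 20) (nat_lit 5) (nat_lit 18) (nat_lit 4) (nat_lit 366) (nat_lit 272) (nat_lit 142))) (XT.nd (nat_lit 78) (nat_lit 76) (nat_lit 0) (XT.lf (nat_lit 0) (nat_lit 6587502871) (nat_lit 76) (nat_lit 32031918526) (nat_lit 152) (nat_lit 2542592330) (nat_lit 16) (nat_lit 5) (nat_lit 17) (nat_lit 5) (nat_lit 18) (nat_lit 4) (nat_lit 367) (nat_lit 272) (nat_lit 141)) (XT.nd (nat_lit 78) (nat_lit 0) (nat_lit 0) (XT.lf (nat_lit 0) (nat_lit 1003847322) (nat_lit 152) (nat_lit 26298904955) (nat_lit 76) (nat_lit 14917290666) (nat_lit 15) (nat_lit 5) (nat_lit 17) (nat_lit 5) (nat_lit 16) (nat_lit 5) (nat_lit 368) (nat_lit 272)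 (nat_lit 140)) (XT.lf (nat_lit 0) (nat_lit 4599049813) (nat_lit 152) (nat_lit 17810816176) (nat_lit 76) (nat_lit 20899397063) (nat_lit 15) (nat_lit 5) (nat_lit 17) (nat_lit 5) (nat_lit 16) (nat_lit 5) (nat_lit 369) (nat_lit 272) (nat_lit 139))))) (XT.nd (nat_lit 234) (nat_lit 0) (nat_lit 0) (XT.nd (nat_lit 78) (nat_lit 152) (nat_lit 0) (XT.lf (nat_lit 0) (nat_lit 8295771717) (nat_lit 152) (nat_lit 9078386787) (nat_lit 76) (nat_lit 27057200523) (nat_lit 15) (nat_lit 5) (nat_lit 17) (nat_lit 5) (nat_lit 16) (nat_lit 5) (nat_lit 370) (nat_lit 272) (nat_lit 138)) (XT.nd (nat_lit 78) (nat_lit 152) (nat_lit 0) (XT.lf (nat_lit 0) (nat_lit 12097243178) (nat_lit 152) (nat_lit 93986513) (nat_lit 76) (nat_lit 33396081650) (nat_lit 15) (nat_lit 5) (nat_lit 17) (nat_lit 5) (nat_lit 16) (nat_lit 5) (nat_lit 371) (nat_lit 272) (nat_lit 137)) (XT.lf (nat_lit 0) (nat_lit 9332342715) (nat_lit 152) (nat_lit 6764151343)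 (nat_lit 228) (nat_lit 30678944746) (nat_lit 13) (nat_lit 5) (nat_lit 15) (nat_lit 5) (nat_lit 16) (nat_lit 5) (nat_lit 372) (nat_lit 272) (nat_lit 136)))) (XT.nd (nat_lit 78) (nat_lit 0) (nat_lit 0) (XT.lf (nat_lit 0) (nat_lit 19033772980) (nat_lit 152) (nat_lit 1177007191) (nat_lit 228) (nat_lit 27788586575) (nat_lit 13) (nat_lit 5) (nat_lit 15) (nat_lit 5) (nat_lit 16) (nat_lit 5) (nat_lit 373) (nat_lit 272) (nat_lit 135)) (XT.nd (nat_lit 78) (nat_lit 0) (nat_lit 0) (XT.lf (nat_lit 0) (nat_lit 24486744477) (nat_lit 228) (nat_lit 20287250909) (nat_lit 76) (nat_lit 4484877793) (nat_lit 13) (nat_lit 5) (nat_lit 16) (nat_lit 5) (nat_lit 14) (nat_lit 4) (nat_lit 374) (nat_lit 272) (nat_lit 134)) (XT.lf (nat_lit 0) (nat_lit 28897054320) (nat_lit 228) (nat_lit 11369415564) (nat_lit 76) (nat_lit 10289520828) (nat_lit 13) (nat_lit 5) (nat_lit 16) (nat_lit 5) (nat_lit 14) (nat_lit 4) (nat_lit 375)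 (nat_lit 272) (nat_lit 133)))))) (XT.nd (nat_lit 390) (nat_lit 228) (nat_lit 0) (XT.nd (nat_lit 156) (nat_lit 0) (nat_lit 0) (XT.nd (nat_lit 78) (nat_lit 76) (nat_lit 0) (XT.lf (nat_lit 0) (nat_lit 33434249257) (nat_lit 228) (nat_lit 2192981334) (nat_lit 76) (nat_lit 16264961580) (nat_lit 13) (nat_lit 5) (nat_lit 16) (nat_lit 5) (nat_lit 14) (nat_lit 4) (nat_lit 376) (nat_lit 272) (nat_lit 132)) (XT.lf (nat_lit 0) (nat_lit 7394360631) (nat_lit 76) (nat_lit 30779012313) (nat_lit 152) (nat_lit 15093139794) (nat_lit 12) (nat_lit 5) (nat_lit 13) (nat_lit 5) (nat_lit 14) (nat_lit 4) (nat_lit 377) (nat_lit 272) (nat_lit 131))) (XT.nd (nat_lit 78) (nat_lit 0) (nat_lit 0) (XT.lf (nat_lit 0) (nat_lit 17305685983) (nat_lit 76) (nat_lit 25765933759) (nat_lit 152) (nat_lit 11609941930) (nat_lit 12) (nat_lit 5) (nat_lit 13) (nat_lit 5) (nat_lit 14) (nat_lit 4) (nat_lit 378) (nat_lit 272) (nat_lit 130))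 (XT.nd (nat_lit 78) (nat_lit 0) (nat_lit 0) (XT.lf (nat_lit 0) (nat_lit 27506010473) (nat_lit 76) (nat_lit 20605759384) (nat_lit 152) (nat_lit 8027450566) (nat_lit 12) (nat_lit 5) (nat_lit 13) (nat_lit 5) (nat_lit 14) (nat_lit 4) (nat_lit 379) (nat_lit 272) (nat_lit 129)) (XT.lf (nat_lit 0) (nat_lit 38004247005) (nat_lit 76) (nat_lit 15293980296) (nat_lit 152) (nat_lit 4342535367) (nat_lit 12) (nat_lit 5) (nat_lit 13) (nat_lit 5) (nat_lit 14) (nat_lit 4) (nat_lit 380) (nat_lit 272) (nat_lit 128))))) (XT.nd (nat_lit 234) (nat_lit 0) (nat_lit 0) (XT.nd (nat_lit 78) (nat_lit 228) (nat_lit 0) (XT.lf (nat_lit 0) (nat_lit 48809568797) (nat_lit 76) (nat_lit 9825955135) (nat_lit 152) (nat_lit 551976505) (nat_lit 12) (nat_lit 5) (nat_lit 13) (nat_lit 5) (nat_lit 14) (nat_lit 4) (nat_lit 381) (nat_lit 272) (nat_lit 127)) (XT.nd (nat_lit 78) (nat_lit 152) (nat_lit 0) (XT.lf (nat_lit 0) (nat_lit 3282215630)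 (nat_lit 152) (nat_lit 881546441) (nat_lit 76) (nat_lit 56616057818) (nat_lit 11) (nat_lit 5) (nat_lit 13) (nat_lit 5) (nat_lit 12) (nat_lit 5) (nat_lit 382) (nat_lit 272) (nat_lit 126)) (XT.lf (nat_lit 0) (nat_lit 7319857164) (nat_lit 228) (nat_lit 53370575747) (nat_lit 76) (nat_lit 1726332586) (nat_lit 9) (nat_lit 5) (nat_lit 12) (nat_lit 5) (nat_lit 10) (nat_lit 4) (nat_lit 383) (nat_lit 272) (nat_lit 125)))) (XT.nd (nat_lit 78) (nat_lit 0) (nat_lit 0) (XT.lf (nat_lit 0) (nat_lit 11524343322) (nat_lit 228) (nat_lit 44861581808) (nat_lit 76) (nat_lit 7715528763) (nat_lit 9) (nat_lit 5) (nat_lit 12) (nat_lit 5) (nat_lit 10) (nat_lit 4) (nat_lit 384) (nat_lit 272) (nat_lit 124)) (XT.nd (nat_lit 78) (nat_lit 0) (nat_lit 0) (XT.lf (nat_lit 0) (nat_lit 15850595117) (nat_lit 228) (nat_lit 36104643055) (nat_lit 76) (nat_lit 13881581548) (nat_lit 9) (nat_lit 5) (nat_lit 12) (nat_lit 5) (nat_lit 10)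 (nat_lit 4) (nat_lit 385) (nat_lit 272) (nat_lit 123)) (XT.lf (nat_lit 0) (nat_lit 20302392768) (nat_lit 228) (nat_lit 27092107793) (nat_lit 76) (nat_lit 20229878755) (nat_lit 9) (nat_lit 5) (nat_lit 12) (nat_lit 5) (nat_lit 10) (nat_lit 4) (nat_lit 386) (nat_lit 272) (nat_lit 122))))))))
noncomputable def xc149 : XT := (XT.nd (nat_lit 32994) (nat_lit 0) (nat_lit 6004) (XT.nd (nat_lit 32136) (nat_lit 0) (nat_lit 12692) (XT.nd (nat_lit 390) (nat_lit 0) (nat_lit 0) (XT.nd (nat_lit 156) (nat_lit 76) (nat_lit 0) (XT.nd (nat_lit 78) (nat_lit 0) (nat_lit 0) (XT.lf (nat_lit 0) (nat_lit 24883626197) (nat_lit 228) (nat_lit 17816100992) (nat_lit 76) (nat_lit 26765967439) (nat_lit 9) (nat_lit 5) (nat_lit 12) (nat_lit 5) (nat_lit 10) (nat_lit 4) (nat_lit 387) (nat_lit 272) (nat_lit 121)) (XT.lf (nat_lit 0) (nat_lit 29598298422) (nat_lit 228) (nat_lit 8268517403) (nat_lit 76) (nat_lit 33495558745) (nat_lit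 9) (nat_lit 5) (nat_lit 12) (nat_lit 5) (nat_lit 10) (nat_lit 4) (nat_lit 388) (nat_lit 272) (nat_lit 120))) (XT.nd (nat_lit 78) (nat_lit 0) (nat_lit 0) (XT.lf (nat_lit 0) (nat_lit 1590012390) (nat_lit 76) (nat_lit 32875800842) (nat_lit 152) (nat_lit 38849804682) (nat_lit 8) (nat_lit 5) (nat_lit 9) (nat_lit 5) (nat_lit 10) (nat_lit 4) (nat_lit 389) (nat_lit 272) (nat_lit 119)) (XT.nd (nat_lit 78) (nat_lit 0) (nat_lit 0) (XT.lf (nat_lit 0) (nat_lit 11907350212) (nat_lit 76) (nat_lit 27651668446) (nat_lit 152) (nat_lit 35766054868) (nat_lit 8) (nat_lit 5) (nat_lit 9) (nat_lit 5) (nat_lit 10) (nat_lit 4) (nat_lit 390) (nat_lit 272) (nat_lit 118)) (XT.lf (nat_lit 0) (nat_lit 22527951504) (nat_lit 76) (nat_lit 22273349676) (nat_lit 152) (nat_lit 32593627982) (nat_lit 8) (nat_lit 5) (nat_lit 9) (nat_lit 5) (nat_lit 10) (nat_lit 4) (nat_lit 391) (nat_lit 272) (nat_lit 117))))) (XT.nd (nat_lit 31512)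 (nat_lit 0) (nat_lit 14136) (XT.nd (nat_lit 31356) (nat_lit 0) (nat_lit 14136) (XT.lf (nat_lit 0) (nat_lit 33461096402) (nat_lit 76) (nat_lit 16736145030) (nat_lit 152) (nat_lit 29329752001) (nat_lit 8) (nat_lit 5) (nat_lit 9) (nat_lit 5) (nat_lit 10) (nat_lit 4) (nat_lit 392) (nat_lit 272) (nat_lit 116)) (XT.nd (nat_lit 78) (nat_lit 684) (nat_lit 0) (XT.lf (nat_lit 0) (nat_lit 3558293045) (nat_lit 684) (nat_lit 20452914) (nat_lit 684) (nat_lit 20452914) (nat_lit 203) (nat_lit 3) (nat_lit 212) (nat_lit 3) (nat_lit 212) (nat_lit 5) (nat_lit 273) (nat_lit 273) (nat_lit 234)) (XT.lf (nat_lit 0) (nat_lit 1384666426) (nat_lit 684) (nat_lit 4285091949) (nat_lit 760) (nat_lit 1587106894) (nat_lit 194) (nat_lit 5) (nat_lit 203) (nat_lit 3) (nat_lit 204) (nat_lit 5) (nat_lit 274) (nat_lit 273) (nat_lit 233)))) (XT.nd (nat_lit 78) (nat_lit 0) (nat_lit 0) (XT.lf (nat_lit 0) (nat_lit 2837542513) (nat_lit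 684) (nat_lit 1272725929) (nat_lit 760) (nat_lit 3208689228) (nat_lit 194) (nat_lit 5) (nat_lit 203) (nat_lit 3) (nat_lit 204) (nat_lit 5) (nat_lit 275) (nat_lit 273) (nat_lit 232)) (XT.nd (nat_lit 78) (nat_lit 0) (nat_lit 0) (XT.lf (nat_lit 76) (nat_lit 1836222210) (nat_lit 0) (nat_lit 2460706218) (nat_lit 760) (nat_lit 3087306997) (nat_lit 195) (nat_lit 5) (nat_lit 194) (nat_lit 5) (nat_lit 204) (nat_lit 5) (nat_lit 276) (nat_lit 273) (nat_lit 231)) (XT.lf (nat_lit 76) (nat_lit 5035198654) (nat_lit 0) (nat_lit 724334023) (nat_lit 760) (nat_lit 1693359893) (nat_lit 195) (nat_lit 5) (nat_lit 194) (nat_lit 5) (nat_lit 204) (nat_lit 5) (nat_lit 277) (nat_lit 273) (nat_lit 230)))))) (XT.nd (nat_lit 390) (nat_lit 760) (nat_lit 0) (XT.nd (nat_lit 156) (nat_lit 0) (nat_lit 0) (XT.nd (nat_lit 78) (nat_lit 760) (nat_lit 0) (XT.lf (nat_lit 76) (nat_lit 781093556) (nat_lit 0) (nat_lit 6451024193) (nat_lit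 760) (nat_lit 292706815) (nat_lit 196) (nat_lit 5) (nat_lit 195) (nat_lit 5) (nat_lit 205) (nat_lit 5) (nat_lit 278) (nat_lit 273) (nat_lit 229)) (XT.lf (nat_lit 0) (nat_lit 1108244627) (nat_lit 760) (nat_lit 3522604329) (nat_lit 836) (nat_lit 2968499210) (nat_lit 185) (nat_lit 5) (nat_lit 195) (nat_lit 5) (nat_lit 196) (nat_lit 5) (nat_lit 279) (nat_lit 273) (nat_lit 228))) (XT.nd (nat_lit 78) (nat_lit 0) (nat_lit 0) (XT.lf (nat_lit 0) (nat_lit 2495721528) (nat_lit 760) (nat_lit 238188263) (nat_lit 836) (nat_lit 4943780738) (nat_lit 185) (nat_lit 5) (nat_lit 195) (nat_lit 5) (nat_lit 196) (nat_lit 5) (nat_lit 280) (nat_lit 273) (nat_lit 227)) (XT.nd (nat_lit 78) (nat_lit 0) (nat_lit 76) (XT.lf (nat_lit 76) (nat_lit 3177199347) (nat_lit 0) (nat_lit 729989845) (nat_lit 836) (nat_lit 3851899086) (nat_lit 186) (nat_lit 5) (nat_lit 185) (nat_lit 5) (nat_lit 196) (nat_lit 5) (nat_lit 281) (nat_lit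 273) (nat_lit 226)) (XT.lf (nat_lit 0) (nat_lit 5329371624) (nat_lit 760) (nat_lit 1186795344) (nat_lit 836) (nat_lit 1327880853) (nat_lit 186) (nat_lit 5) (nat_lit 196) (nat_lit 5) (nat_lit 197) (nat_lit 5) (nat_lit 282) (nat_lit 273) (nat_lit 225))))) (XT.nd (nat_lit 234) (nat_lit 0) (nat_lit 76) (XT.nd (nat_lit 78) (nat_lit 836) (nat_lit 0) (XT.lf (nat_lit 76) (nat_lit 2318037015) (nat_lit 0) (nat_lit 4460176025) (nat_lit 836) (nat_lit 1153989307) (nat_lit 187) (nat_lit 5) (nat_lit 186) (nat_lit 5) (nat_lit 197) (nat_lit 5) (nat_lit 283) (nat_lit 273) (nat_lit 224)) (XT.nd (nat_lit 78) (nat_lit 0) (nat_lit 0) (XT.lf (nat_lit 0) (nat_lit 209715321) (nat_lit 836) (nat_lit 2103675391) (nat_lit 912) (nat_lit 5710685078) (nat_lit 175) (nat_lit 5) (nat_lit 186) (nat_lit 5) (nat_lit 187) (nat_lit 5) (nat_lit 284) (nat_lit 273) (nat_lit 223)) (XT.lf (nat_lit 76) (nat_lit 1499995337) (nat_lit 0)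 (nat_lit 61797611) (nat_lit 912) (nat_lit 6557601957) (nat_lit 176) (nat_lit 5) (nat_lit 175) (nat_lit 5) (nat_lit 187) (nat_lit 5) (nat_lit 285) (nat_lit 273) (nat_lit 222)))) (XT.nd (nat_lit 78) (nat_lit 0) (nat_lit 0) (XT.lf (nat_lit 0) (nat_lit 2954937344) (nat_lit 836) (nat_lit 3015187323) (nat_lit 912) (nat_lit 2247581284) (nat_lit 176) (nat_lit 5) (nat_lit 187) (nat_lit 5) (nat_lit 188) (nat_lit 5) (nat_lit 286) (nat_lit 273) (nat_lit 221)) (XT.nd (nat_lit 78) (nat_lit 0) (nat_lit 0) (XT.lf (nat_lit 76) (nat_lit 679467019) (nat_lit 0) (nat_lit 3676146684) (nat_lit 912) (nat_lit 3964523691) (nat_lit 177) (nat_lit 5) (nat_lit 176) (nat_lit 5) (nat_lit 188) (nat_lit 5) (nat_lit 287) (nat_lit 273) (nat_lit 220)) (XT.lf (nat_lit 76) (nat_lit 4516735480) (nat_lit 0) (nat_lit 1271533961) (nat_lit 912) (nat_lit 2637812590) (nat_lit 177) (nat_lit 5) (nat_lit 176) (nat_lit 5) (nat_lit 188) (nat_lit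 5) (nat_lit 288) (nat_lit 273) (nat_lit 219))))))) (XT.nd (nat_lit 858) (nat_lit 2356) (nat_lit 0) (XT.nd (nat_lit 390) (nat_lit 2660) (nat_lit 0) (XT.nd (nat_lit 156) (nat_lit 912) (nat_lit 0) (XT.nd (nat_lit 78) (nat_lit 912) (nat_lit 0) (XT.lf (nat_lit 0) (nat_lit 7236278586) (nat_lit 836) (nat_lit 108239236) (nat_lit 76) (nat_lit 1191650949) (nat_lit 177) (nat_lit 5) (nat_lit 188) (nat_lit 5) (nat_lit 178) (nat_lit 5) (nat_lit 289) (nat_lit 273) (nat_lit 218)) (XT.lf (nat_lit 0) (nat_lit 88057306) (nat_lit 912) (nat_lit 4810654745) (nat_lit 76) (nat_lit 3750608362) (nat_lit 165) (nat_lit 5) (nat_lit 177) (nat_lit 5) (nat_lit 166) (nat_lit 5) (nat_lit 290) (nat_lit 273) (nat_lit 217))) (XT.nd (nat_lit 78) (nat_lit 912) (nat_lit 0) (XT.lf (nat_lit 0) (nat_lit 1454883899) (nat_lit 912) (nat_lit 902782409) (nat_lit 76) (nat_lit 6409036696) (nat_lit 165) (nat_lit 5) (nat_lit 177) (nat_lit 5)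 (nat_lit 166) (nat_lit 5) (nat_lit 291) (nat_lit 273) (nat_lit 216)) (XT.nd (nat_lit 78) (nat_lit 0) (nat_lit 0) (XT.lf (nat_lit 0) (nat_lit 2859266249) (nat_lit 988) (nat_lit 5736282814) (nat_lit 76) (nat_lit 292281405) (nat_lit 153) (nat_lit 5) (nat_lit 166) (nat_lit 5) (nat_lit 154) (nat_lit 5) (nat_lit 292) (nat_lit 273) (nat_lit 215)) (XT.lf (nat_lit 0) (nat_lit 4302544750) (nat_lit 988) (nat_lit 1720089402) (nat_lit 76) (nat_lit 2990171093) (nat_lit 153) (nat_lit 5) (nat_lit 166) (nat_lit 5) (nat_lit 154) (nat_lit 5) (nat_lit 293) (nat_lit 273) (nat_lit 214))))) (XT.nd (nat_lit 234) (nat_lit 608) (nat_lit 0) (XT.nd (nat_lit 78) (nat_lit 1064) (nat_lit 0) (XT.lf (nat_lit 0) (nat_lit 2434630830) (nat_lit 988) (nat_lit 3343151078) (nat_lit 1064) (nat_lit 3364200589) (nat_lit 140) (nat_lit 5) (nat_lit 153) (nat_lit 5) (nat_lit 154) (nat_lit 5) (nat_lit 294) (nat_lit 273) (nat_lit 213)) (XT.nd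 (nat_lit 78) (nat_lit 1064) (nat_lit 0) (XT.lf (nat_lit 0) (nat_lit 6720074315) (nat_lit 988) (nat_lit 560559984) (nat_lit 1064) (nat_lit 1995009769) (nat_lit 140) (nat_lit 5) (nat_lit 153) (nat_lit 5) (nat_lit 154) (nat_lit 5) (nat_lit 295) (nat_lit 273) (nat_lit 212)) (XT.lf (nat_lit 0) (nat_lit 1702351748) (nat_lit 1064) (nat_lit 7131770837) (nat_lit 1140) (nat_lit 579132942) (nat_lit 126) (nat_lit 5) (nat_lit 140) (nat_lit 5) (nat_lit 141) (nat_lit 5) (nat_lit 296) (nat_lit 273) (nat_lit 211)))) (XT.nd (nat_lit 78) (nat_lit 532) (nat_lit 0) (XT.lf (nat_lit 0) (nat_lit 860958355) (nat_lit 1140) (nat_lit 3458014337) (nat_lit 76) (nat_lit 5235902678) (nat_lit 125) (nat_lit 5) (nat_lit 140) (nat_lit 5) (nat_lit 126) (nat_lit 5) (nat_lit 297) (nat_lit 273) (nat_lit 210)) (XT.nd (nat_lit 78) (nat_lit 0) (nat_lit 0) (XT.lf (nat_lit 0) (nat_lit 905332392) (nat_lit 532) (nat_lit 1404218599) (nat_lit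 608) (nat_lit 7391810147) (nat_lit 118) (nat_lit 5) (nat_lit 125) (nat_lit 5) (nat_lit 126) (nat_lit 5) (nat_lit 298) (nat_lit 273) (nat_lit 209)) (XT.lf (nat_lit 0) (nat_lit 3821134064) (nat_lit 608) (nat_lit 4426262353) (nat_lit 76) (nat_lit 1604353750) (nat_lit 118) (nat_lit 5) (nat_lit 126) (nat_lit 5) (nat_lit 119) (nat_lit 5) (nat_lit 299) (nat_lit 273) (nat_lit 208)))))) (XT.nd (nat_lit 390) (nat_lit 1292) (nat_lit 0) (XT.nd (nat_lit 156) (nat_lit 608) (nat_lit 0) (XT.nd (nat_lit 78) (nat_lit 0) (nat_lit 0) (XT.lf (nat_lit 0) (nat_lit 32366831) (nat_lit 456) (nat_lit 5329724718) (nat_lit 532) (nat_lit 4645130422) (nat_lit 112) (nat_lit 5) (nat_lit 118) (nat_lit 5) (nat_lit 119) (nat_lit 5) (nat_lit 300) (nat_lit 273) (nat_lit 207)) (XT.lf (nat_lit 0) (nat_lit 4686814200) (nat_lit 456) (nat_lit 2277576372) (nat_lit 532) (nat_lit 3202603208) (nat_lit 112) (nat_lit 5) (nat_lit 118) (nat_lit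 5) (nat_lit 119) (nat_lit 5) (nat_lit 301) (nat_lit 273) (nat_lit 206))) (XT.nd (nat_lit 78) (nat_lit 608) (nat_lit 0) (XT.lf (nat_lit 0) (nat_lit 8594370787) (nat_lit 532) (nat_lit 887785913) (nat_lit 76) (nat_lit 850100312) (nat_lit 112) (nat_lit 5) (nat_lit 119) (nat_lit 5) (nat_lit 113) (nat_lit 5) (nat_lit 302) (nat_lit 273) (nat_lit 205)) (XT.nd (nat_lit 78) (nat_lit 76) (nat_lit 0) (XT.lf (nat_lit 0) (nat_lit 3867337386) (nat_lit 532) (nat_lit 6437761200) (nat_lit 608) (nat_lit 196508220) (nat_lit 105) (nat_lit 5) (nat_lit 112) (nat_lit 5) (nat_lit 113) (nat_lit 5) (nat_lit 303) (nat_lit 273) (nat_lit 204)) (XT.lf (nat_lit 0) (nat_lit 1345337074) (nat_lit 608) (nat_lit 1934229711) (nat_lit 76) (nat_lit 7396707282) (nat_lit 104) (nat_lit 5) (nat_lit 112) (nat_lit 5) (nat_lit 105) (nat_lit 5) (nat_lit 304) (nat_lit 273) (nat_lit 203))))) (XT.nd (nat_lit 234) (nat_lit 380) (nat_lit 0) (XT.nd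 (nat_lit 78) (nat_lit 456) (nat_lit 0) (XT.lf (nat_lit 0) (nat_lit 2930858556) (nat_lit 532) (nat_lit 7921554705) (nat_lit 76) (nat_lit 3745575) (nat_lit 98) (nat_lit 5) (nat_lit 105) (nat_lit 5) (nat_lit 99) (nat_lit 5) (nat_lit 305) (nat_lit 273) (nat_lit 202)) (XT.nd (nat_lit 78) (nat_lit 456) (nat_lit 0) (XT.lf (nat_lit 0) (nat_lit 4589778935) (nat_lit 532) (nat_lit 3112442337) (nat_lit 76) (nat_lit 3338518610) (nat_lit 98) (nat_lit 5) (nat_lit 105) (nat_lit 5) (nat_lit 99) (nat_lit 5) (nat_lit 306) (nat_lit 273) (nat_lit 201)) (XT.lf (nat_lit 0) (nat_lit 1849780440) (nat_lit 456) (nat_lit 4440872542) (nat_lit 532) (nat_lit 4940512353) (nat_lit 92) (nat_lit 5) (nat_lit 98) (nat_lit 5) (nat_lit 99) (nat_lit 5) (nat_lit 307) (nat_lit 273) (nat_lit 200)))) (XT.nd (nat_lit 78) (nat_lit 380) (nat_lit 0) (XT.lf (nat_lit 0) (nat_lit 6997680323) (nat_lit 456) (nat_lit 1051193360) (nat_lit 532)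 (nat_lit 3378310697) (nat_lit 92) (nat_lit 5) (nat_lit 98) (nat_lit 5) (nat_lit 99) (nat_lit 5) (nat_lit 308) (nat_lit 273) (nat_lit 199)) (XT.nd (nat_lit 78) (nat_lit 0) (nat_lit 0) (XT.lf (nat_lit 0) (nat_lit 632838099) (nat_lit 380) (nat_lit 9232147232) (nat_lit 456) (nat_lit 1764012726) (nat_lit 87) (nat_lit 5) (nat_lit 92) (nat_lit 5) (nat_lit 93) (nat_lit 5) (nat_lit 309) (nat_lit 273) (nat_lit 198)) (XT.lf (nat_lit 0) (nat_lit 5900513016) (nat_lit 380) (nat_lit 5866160735) (nat_lit 456) (nat_lit 69325990) (nat_lit 87) (nat_lit 5) (nat_lit 92) (nat_lit 5) (nat_lit 93) (nat_lit 5) (nat_lit 310) (nat_lit 273) (nat_lit 197))))))))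
noncomputable def xc150 : XT := (XT.nd (nat_lit 1716) (nat_lit 1596) (nat_lit 0) (XT.nd (nat_lit 858) (nat_lit 1292) (nat_lit 0) (XT.nd (nat_lit 390) (nat_lit 1064) (nat_lit 0) (XT.nd (nat_lit 156) (nat_lit 380) (nat_lit 0) (XT.nd (nat_lit 78) (nat_lit 380) (nat_lit 0) (XT.lf (nat_lit 0) (nat_lit 1619954902) (nat_lit 456) (nat_lit 765581668) (nat_lit 76) (nat_lit 9663960245) (nat_lit 86) (nat_lit 5) (nat_lit 92) (nat_lit 5) (nat_lit 87) (nat_lit 5) (nat_lit 311) (nat_lit 273) (nat_lit 196)) (XT.lf (nat_lit 0) (nat_lit 3392059931) (nat_lit 456) (nat_lit 7657495313) (nat_lit 76) (nat_lit 1218877555) (nat_lit 81) (nat_lit 5) (nat_lit 87) (nat_lit 5) (nat_lit 82) (nat_lit 5) (nat_lit 312) (nat_lit 273) (nat_lit 195))) (XT.nd (nat_lit 78) (nat_lit 380) (nat_lit 0) (XT.lf (nat_lit 0) (nat_lit 5226294437) (nat_lit 456) (nat_lit 2379110208) (nat_lit 76) (nat_lit 4888322224) (nat_lit 81) (nat_lit 5)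 (nat_lit 87) (nat_lit 5) (nat_lit 82) (nat_lit 5) (nat_lit 313) (nat_lit 273) (nat_lit 194)) (XT.nd (nat_lit 78) (nat_lit 0) (nat_lit 0) (XT.lf (nat_lit 0) (nat_lit 3092580192) (nat_lit 380) (nat_lit 4030897474) (nat_lit 456) (nat_lit 5602121718) (nat_lit 76) (nat_lit 5) (nat_lit 81) (nat_lit 5) (nat_lit 82) (nat_lit 5) (nat_lit 314) (nat_lit 273) (nat_lit 193)) (XT.lf (nat_lit 0) (nat_lit 8752046054) (nat_lit 380) (nat_lit 328142026) (nat_lit 456) (nat_lit 3884217253) (nat_lit 76) (nat_lit 5) (nat_lit 81) (nat_lit 5) (nat_lit 82) (nat_lit 5) (nat_lit 315) (nat_lit 273) (nat_lit 192))))) (XT.nd (nat_lit 234) (nat_lit 608) (nat_lit 0) (XT.nd (nat_lit 78) (nat_lit 76) (nat_lit 0) (XT.lf (nat_lit 0) (nat_lit 1338477159) (nat_lit 380) (nat_lit 9782671732) (nat_lit 456) (nat_lit 2088514085) (nat_lit 71) (nat_lit 5) (nat_lit 76) (nat_lit 5) (nat_lit 77) (nat_lit 5) (nat_lit 316) (nat_lit 273) (nat_lit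 191)) (XT.nd (nat_lit 78) (nat_lit 76) (nat_lit 0) (XT.lf (nat_lit 0) (nat_lit 7114064839) (nat_lit 380) (nat_lit 6134571550) (nat_lit 456) (nat_lit 212935440) (nat_lit 71) (nat_lit 5) (nat_lit 76) (nat_lit 5) (nat_lit 77) (nat_lit 5) (nat_lit 317) (nat_lit 273) (nat_lit 190)) (XT.lf (nat_lit 0) (nat_lit 1665261912) (nat_lit 456) (nat_lit 699177476) (nat_lit 76) (nat_lit 11356755464) (nat_lit 70) (nat_lit 5) (nat_lit 76) (nat_lit 5) (nat_lit 71) (nat_lit 5) (nat_lit 318) (nat_lit 273) (nat_lit 189)))) (XT.nd (nat_lit 78) (nat_lit 304) (nat_lit 0) (XT.lf (nat_lit 0) (nat_lit 3641006133) (nat_lit 380) (nat_lit 8808726538) (nat_lit 76) (nat_lit 1537494192) (nat_lit 66) (nat_lit 5) (nat_lit 71) (nat_lit 5) (nat_lit 67) (nat_lit 5) (nat_lit 319) (nat_lit 273) (nat_lit 188)) (XT.nd (nat_lit 78) (nat_lit 304) (nat_lit 0) (XT.lf (nat_lit 0) (nat_lit 5687341749) (nat_lit 380) (nat_lit 3061835121) (nat_lit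 76) (nat_lit 5511769963) (nat_lit 66) (nat_lit 5) (nat_lit 71) (nat_lit 5) (nat_lit 67) (nat_lit 5) (nat_lit 320) (nat_lit 273) (nat_lit 187)) (XT.lf (nat_lit 0) (nat_lit 2890401279) (nat_lit 304) (nat_lit 4913788861) (nat_lit 380) (nat_lit 6738459797) (nat_lit 62) (nat_lit 5) (nat_lit 66) (nat_lit 5) (nat_lit 67) (nat_lit 5) (nat_lit 321) (nat_lit 273) (nat_lit 186)))))) (XT.nd (nat_lit 390) (nat_lit 608) (nat_lit 0) (XT.nd (nat_lit 156) (nat_lit 380) (nat_lit 0) (XT.nd (nat_lit 78) (nat_lit 304) (nat_lit 0) (XT.lf (nat_lit 0) (nat_lit 9060735530) (nat_lit 304) (nat_lit 936385587) (nat_lit 380) (nat_lit 4835349599) (nat_lit 62) (nat_lit 5) (nat_lit 66) (nat_lit 5) (nat_lit 67) (nat_lit 5) (nat_lit 322) (nat_lit 273) (nat_lit 185)) (XT.lf (nat_lit 0) (nat_lit 236338055) (nat_lit 304) (nat_lit 12034300073) (nat_lit 380) (nat_lit 2859946666) (nat_lit 58) (nat_lit 5) (nat_lit 62) (nat_lit 5) (nat_lit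 63) (nat_lit 5) (nat_lit 323) (nat_lit 273) (nat_lit 184))) (XT.nd (nat_lit 78) (nat_lit 380) (nat_lit 0) (XT.lf (nat_lit 0) (nat_lit 6510650785) (nat_lit 304) (nat_lit 8151620706) (nat_lit 380) (nat_lit 773914856) (nat_lit 58) (nat_lit 5) (nat_lit 62) (nat_lit 5) (nat_lit 63) (nat_lit 5) (nat_lit 324) (nat_lit 273) (nat_lit 183)) (XT.nd (nat_lit 78) (nat_lit 304) (nat_lit 0) (XT.lf (nat_lit 0) (nat_lit 1330623109) (nat_lit 380) (nat_lit 2813555870) (nat_lit 76) (nat_lit 11606937022) (nat_lit 57) (nat_lit 5) (nat_lit 62) (nat_lit 5) (nat_lit 58) (nat_lit 5) (nat_lit 325) (nat_lit 273) (nat_lit 182)) (XT.lf (nat_lit 0) (nat_lit 3500042801) (nat_lit 380) (nat_lit 12554085607) (nat_lit 76) (nat_lit 20654110) (nat_lit 53) (nat_lit 5) (nat_lit 58) (nat_lit 5) (nat_lit 54) (nat_lit 5) (nat_lit 326) (nat_lit 273) (nat_lit 181))))) (XT.nd (nat_lit 234) (nat_lit 380) (nat_lit 0) (XT.nd (nat_lit 78)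 (nat_lit 228) (nat_lit 0) (XT.lf (nat_lit 0) (nat_lit 5787750957) (nat_lit 380) (nat_lit 6368153355) (nat_lit 76) (nat_lit 4250695306) (nat_lit 53) (nat_lit 5) (nat_lit 58) (nat_lit 5) (nat_lit 54) (nat_lit 5) (nat_lit 327) (nat_lit 273) (nat_lit 180)) (XT.nd (nat_lit 78) (nat_lit 228) (nat_lit 0) (XT.lf (nat_lit 0) (nat_lit 8128053174) (nat_lit 380) (nat_lit 18183235) (nat_lit 76) (nat_lit 8602651632) (nat_lit 53) (nat_lit 5) (nat_lit 58) (nat_lit 5) (nat_lit 54) (nat_lit 5) (nat_lit 328) (nat_lit 273) (nat_lit 179)) (XT.lf (nat_lit 0) (nat_lit 6630763345) (nat_lit 228) (nat_lit 3955969983) (nat_lit 304) (nat_lit 6513301374) (nat_lit 50) (nat_lit 5) (nat_lit 53) (nat_lit 5) (nat_lit 54) (nat_lit 5) (nat_lit 329) (nat_lit 273) (nat_lit 178)))) (XT.nd (nat_lit 78) (nat_lit 380) (nat_lit 0) (XT.lf (nat_lit 0) (nat_lit 13107452433) (nat_lit 304) (nat_lit 4006770565) (nat_lit 76) (nat_lit 347878052)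 (nat_lit 50) (nat_lit 5) (nat_lit 54) (nat_lit 5) (nat_lit 51) (nat_lit 5) (nat_lit 330) (nat_lit 273) (nat_lit 177)) (XT.nd (nat_lit 78) (nat_lit 76) (nat_lit 0) (XT.lf (nat_lit 0) (nat_lit 2641448419) (nat_lit 304) (nat_lit 13111984053) (nat_lit 380) (nat_lit 2080140399) (nat_lit 46) (nat_lit 5) (nat_lit 50) (nat_lit 5) (nat_lit 51) (nat_lit 5) (nat_lit 331) (nat_lit 273) (nat_lit 176)) (XT.lf (nat_lit 0) (nat_lit 283482656) (nat_lit 380) (nat_lit 8667309246) (nat_lit 76) (nat_lit 9264571888) (nat_lit 45) (nat_lit 5) (nat_lit 50) (nat_lit 5) (nat_lit 46) (nat_lit 5) (nat_lit 332) (nat_lit 273) (nat_lit 175))))))) (XT.nd (nat_lit 858) (nat_lit 608) (nat_lit 0) (XT.nd (nat_lit 390) (nat_lit 532) (nat_lit 0) (XT.nd (nat_lit 156) (nat_lit 228) (nat_lit 0) (XT.nd (nat_lit 78) (nat_lit 228) (nat_lit 0) (XT.lf (nat_lit 0) (nat_lit 2661781171) (nat_lit 380) (nat_lit 1987401494) (nat_lit 76) (nat_lit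 13959270533) (nat_lit 45) (nat_lit 5) (nat_lit 50) (nat_lit 5) (nat_lit 46) (nat_lit 5) (nat_lit 333) (nat_lit 273) (nat_lit 174)) (XT.lf (nat_lit 0) (nat_lit 4970422034) (nat_lit 228) (nat_lit 174781006) (nat_lit 304) (nat_lit 13867148039) (nat_lit 42) (nat_lit 5) (nat_lit 45) (nat_lit 5) (nat_lit 46) (nat_lit 5) (nat_lit 334) (nat_lit 273) (nat_lit 173))) (XT.nd (nat_lit 78) (nat_lit 228) (nat_lit 0) (XT.lf (nat_lit 0) (nat_lit 7752181374) (nat_lit 304) (nat_lit 7312533538) (nat_lit 76) (nat_lit 4362207545) (nat_lit 42) (nat_lit 5) (nat_lit 46) (nat_lit 5) (nat_lit 43) (nat_lit 5) (nat_lit 335) (nat_lit 273) (nat_lit 172)) (XT.nd (nat_lit 78) (nat_lit 228) (nat_lit 0) (XT.lf (nat_lit 0) (nat_lit 10425667858) (nat_lit 304) (nat_lit 402083905) (nat_lit 76) (nat_lit 9026557604) (nat_lit 42) (nat_lit 5) (nat_lit 46) (nat_lit 5) (nat_lit 43) (nat_lit 5) (nat_lit 336) (nat_lit 273) (nat_lit 171))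 (XT.lf (nat_lit 0) (nat_lit 6830424392) (nat_lit 228) (nat_lit 6401552272) (nat_lit 304) (nat_lit 7060989249) (nat_lit 39) (nat_lit 5) (nat_lit 42) (nat_lit 5) (nat_lit 43) (nat_lit 5) (nat_lit 337) (nat_lit 273) (nat_lit 170))))) (XT.nd (nat_lit 234) (nat_lit 228) (nat_lit 0) (XT.nd (nat_lit 78) (nat_lit 304) (nat_lit 0) (XT.lf (nat_lit 0) (nat_lit 14269791035) (nat_lit 228) (nat_lit 1843906808) (nat_lit 304) (nat_lit 4631373402) (nat_lit 39) (nat_lit 5) (nat_lit 42) (nat_lit 5) (nat_lit 43) (nat_lit 5) (nat_lit 338) (nat_lit 273) (nat_lit 169)) (XT.nd (nat_lit 78) (nat_lit 76) (nat_lit 0) (XT.lf (nat_lit 0) (nat_lit 689480858) (nat_lit 228) (nat_lit 18413903166) (nat_lit 304) (nat_lit 2106735348) (nat_lit 36) (nat_lit 5) (nat_lit 39) (nat_lit 5) (nat_lit 40) (nat_lit 5) (nat_lit 339) (nat_lit 273) (nat_lit 168)) (XT.lf (nat_lit 0) (nat_lit 555831567) (nat_lit 304) (nat_lit 13527150242) (nat_lit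 76) (nat_lit 7603863701) (nat_lit 35) (nat_lit 5) (nat_lit 39) (nat_lit 5) (nat_lit 36) (nat_lit 5) (nat_lit 340) (nat_lit 273) (nat_lit 167)))) (XT.nd (nat_lit 78) (nat_lit 228) (nat_lit 0) (XT.lf (nat_lit 0) (nat_lit 3243826283) (nat_lit 304) (nat_lit 6362449575) (nat_lit 76) (nat_lit 12571357897) (nat_lit 35) (nat_lit 5) (nat_lit 39) (nat_lit 5) (nat_lit 36) (nat_lit 5) (nat_lit 341) (nat_lit 273) (nat_lit 166)) (XT.nd (nat_lit 78) (nat_lit 0) (nat_lit 0) (XT.lf (nat_lit 0) (nat_lit 1019876598) (nat_lit 228) (nat_lit 4990634607) (nat_lit 304) (nat_lit 16672715175) (nat_lit 32) (nat_lit 5) (nat_lit 35) (nat_lit 5) (nat_lit 36) (nat_lit 5) (nat_lit 342) (nat_lit 273) (nat_lit 165)) (XT.lf (nat_lit 0) (nat_lit 8737048353) (nat_lit 228) (nat_lit 175821728) (nat_lit 304) (nat_lit 14289558096) (nat_lit 32) (nat_lit 5) (nat_lit 35) (nat_lit 5) (nat_lit 36) (nat_lit 5) (nat_lit 343) (nat_lit 273)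 (nat_lit 164)))))) (XT.nd (nat_lit 390) (nat_lit 456) (nat_lit 0) (XT.nd (nat_lit 156) (nat_lit 0) (nat_lit 0) (XT.nd (nat_lit 78) (nat_lit 152) (nat_lit 0) (XT.lf (nat_lit 0) (nat_lit 11936992222) (nat_lit 304) (nat_lit 7114310728) (nat_lit 76) (nat_lit 4684883267) (nat_lit 32) (nat_lit 5) (nat_lit 36) (nat_lit 5) (nat_lit 33) (nat_lit 5) (nat_lit 344) (nat_lit 273) (nat_lit 163)) (XT.lf (nat_lit 0) (nat_lit 447922590) (nat_lit 152) (nat_lit 14599001942) (nat_lit 228) (nat_lit 9239200226) (nat_lit 30) (nat_lit 5) (nat_lit 32) (nat_lit 5) (nat_lit 33) (nat_lit 5) (nat_lit 345) (nat_lit 273) (nat_lit 162))) (XT.nd (nat_lit 78) (nat_lit 0) (nat_lit 0) (XT.lf (nat_lit 0) (nat_lit 8366652148) (nat_lit 152) (nat_lit 9944546675) (nat_lit 228) (nat_lit 6539551076) (nat_lit 30) (nat_lit 5) (nat_lit 32) (nat_lit 5) (nat_lit 33) (nat_lit 5) (nat_lit 346) (nat_lit 273) (nat_lit 161)) (XT.nd (nat_lit 78)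 (nat_lit 0) (nat_lit 0) (XT.lf (nat_lit 0) (nat_lit 16507208488) (nat_lit 152) (nat_lit 5155710738) (nat_lit 228) (nat_lit 3769728215) (nat_lit 30) (nat_lit 5) (nat_lit 32) (nat_lit 5) (nat_lit 33) (nat_lit 5) (nat_lit 347) (nat_lit 273) (nat_lit 160)) (XT.lf (nat_lit 0) (nat_lit 24876704720) (nat_lit 152) (nat_lit 228309712) (nat_lit 228) (nat_lit 927311412) (nat_lit 30) (nat_lit 5) (nat_lit 32) (nat_lit 5) (nat_lit 33) (nat_lit 5) (nat_lit 348) (nat_lit 273) (nat_lit 159))))) (XT.nd (nat_lit 234) (nat_lit 152) (nat_lit 0) (XT.nd (nat_lit 78) (nat_lit 0) (nat_lit 0) (XT.lf (nat_lit 0) (nat_lit 2065536258) (nat_lit 304) (nat_lit 19746519607) (nat_lit 76) (nat_lit 4834253638) (nat_lit 26) (nat_lit 5) (nat_lit 30) (nat_lit 5) (nat_lit 27) (nat_lit 5) (nat_lit 349) (nat_lit 273) (nat_lit 158)) (XT.nd (nat_lit 78) (nat_lit 0) (nat_lit 0) (XT.lf (nat_lit 0) (nat_lit 5133680239) (nat_lit 304) (nat_lit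 12084532298) (nat_lit 76) (nat_lit 10060117275) (nat_lit 26) (nat_lit 5) (nat_lit 30) (nat_lit 5) (nat_lit 27) (nat_lit 5) (nat_lit 350) (nat_lit 273) (nat_lit 157)) (XT.lf (nat_lit 0) (nat_lit 8284260173) (nat_lit 304) (nat_lit 4207408405) (nat_lit 76) (nat_lit 15437946953) (nat_lit 26) (nat_lit 5) (nat_lit 30) (nat_lit 5) (nat_lit 27) (nat_lit 5) (nat_lit 351) (nat_lit 273) (nat_lit 156)))) (XT.nd (nat_lit 78) (nat_lit 0) (nat_lit 0) (XT.lf (nat_lit 0) (nat_lit 3969188151) (nat_lit 152) (nat_lit 7588995105) (nat_lit 228) (nat_lit 17041407862) (nat_lit 24) (nat_lit 5) (nat_lit 26) (nat_lit 5) (nat_lit 27) (nat_lit 5) (nat_lit 352) (nat_lit 273) (nat_lit 155)) (XT.nd (nat_lit 78) (nat_lit 0) (nat_lit 0) (XT.lf (nat_lit 0) (nat_lit 12463176282) (nat_lit 152) (nat_lit 2500441460) (nat_lit 228) (nat_lit 14325065019) (nat_lit 24) (nat_lit 5) (nat_lit 26) (nat_lit 5) (nat_lit 27) (nat_lit 5) (nat_lit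 353) (nat_lit 273) (nat_lit 154)) (XT.lf (nat_lit 0) (nat_lit 18488589797) (nat_lit 228) (nat_lit 8826787458) (nat_lit 76) (nat_lit 2682563809) (nat_lit 24) (nat_lit 5) (nat_lit 27) (nat_lit 5) (nat_lit 25) (nat_lit 5) (nat_lit 354) (nat_lit 273) (nat_lit 153))))))))
noncomputable def xc151 : XT := (XT.nd (nat_lit 1716) (nat_lit 380) (nat_lit 0) (XT.nd (nat_lit 858) (nat_lit 304) (nat_lit 0) (XT.nd (nat_lit 390) (nat_lit 152) (nat_lit 0) (XT.nd (nat_lit 156) (nat_lit 228) (nat_lit 0) (XT.nd (nat_lit 78) (nat_lit 152) (nat_lit 0) (XT.lf (nat_lit 0) (nat_lit 22135357749) (nat_lit 228) (nat_lit 626434988) (nat_lit 76) (nat_lit 7966217682) (nat_lit 24) (nat_lit 5) (nat_lit 27) (nat_lit 5) (nat_lit 25) (nat_lit 5) (nat_lit 355) (nat_lit 273) (nat_lit 152)) (XT.lf (nat_lit 0) (nat_lit 7962121732) (nat_lit 152) (nat_lit 17997487374) (nat_lit 228) (nat_lit 5518344613) (nat_lit 22) (nat_lit 5) (nat_lit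 24) (nat_lit 5) (nat_lit 25) (nat_lit 5) (nat_lit 356) (nat_lit 273) (nat_lit 151))) (XT.nd (nat_lit 78) (nat_lit 228) (nat_lit 0) (XT.lf (nat_lit 0) (nat_lit 16808129639) (nat_lit 152) (nat_lit 13088448604) (nat_lit 228) (nat_lit 2353891231) (nat_lit 22) (nat_lit 5) (nat_lit 24) (nat_lit 5) (nat_lit 25) (nat_lit 5) (nat_lit 357) (nat_lit 273) (nat_lit 150)) (XT.nd (nat_lit 78) (nat_lit 152) (nat_lit 0) (XT.lf (nat_lit 0) (nat_lit 879640203) (nat_lit 228) (nat_lit 7148189895) (nat_lit 76) (nat_lit 25018328123) (nat_lit 21) (nat_lit 5) (nat_lit 24) (nat_lit 5) (nat_lit 22) (nat_lit 5) (nat_lit 358) (nat_lit 273) (nat_lit 149)) (XT.lf (nat_lit 0) (nat_lit 1386056914) (nat_lit 152) (nat_lit 2782185772) (nat_lit 228) (nat_lit 29696627174) (nat_lit 19) (nat_lit 5) (nat_lit 21) (nat_lit 5) (nat_lit 22) (nat_lit 5) (nat_lit 359) (nat_lit 273) (nat_lit 148))))) (XT.nd (nat_lit 234) (nat_lit 152) (nat_lit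 0) (XT.nd (nat_lit 78) (nat_lit 0) (nat_lit 0) (XT.lf (nat_lit 0) (nat_lit 7645715425) (nat_lit 228) (nat_lit 24421573522) (nat_lit 76) (nat_lit 2638159851) (nat_lit 19) (nat_lit 5) (nat_lit 22) (nat_lit 5) (nat_lit 20) (nat_lit 5) (nat_lit 360) (nat_lit 273) (nat_lit 147)) (XT.nd (nat_lit 78) (nat_lit 0) (nat_lit 0) (XT.lf (nat_lit 0) (nat_lit 11247409998) (nat_lit 228) (nat_lit 16162348246) (nat_lit 76) (nat_lit 8160901888) (nat_lit 19) (nat_lit 5) (nat_lit 22) (nat_lit 5) (nat_lit 20) (nat_lit 5) (nat_lit 361) (nat_lit 273) (nat_lit 146)) (XT.lf (nat_lit 0) (nat_lit 14949729446) (nat_lit 228) (nat_lit 7667176248) (nat_lit 76) (nat_lit 13845156498) (nat_lit 19) (nat_lit 5) (nat_lit 22) (nat_lit 5) (nat_lit 20) (nat_lit 5) (nat_lit 362) (nat_lit 273) (nat_lit 145)))) (XT.nd (nat_lit 78) (nat_lit 0) (nat_lit 0) (XT.lf (nat_lit 0) (nat_lit 1092687710) (nat_lit 152) (nat_lit 17673724678) (nat_lit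 228) (nat_lit 18613706379) (nat_lit 17) (nat_lit 5) (nat_lit 19) (nat_lit 5) (nat_lit 20) (nat_lit 5) (nat_lit 363) (nat_lit 273) (nat_lit 144)) (XT.nd (nat_lit 78) (nat_lit 0) (nat_lit 0) (XT.lf (nat_lit 0) (nat_lit 10261144314) (nat_lit 152) (nat_lit 12506765947) (nat_lit 228) (nat_lit 15555708287) (nat_lit 17) (nat_lit 5) (nat_lit 19) (nat_lit 5) (nat_lit 20) (nat_lit 5) (nat_lit 364) (nat_lit 273) (nat_lit 143)) (XT.lf (nat_lit 0) (nat_lit 19693612995) (nat_lit 152) (nat_lit 7188938128) (nat_lit 228) (nat_lit 12413089881) (nat_lit 17) (nat_lit 5) (nat_lit 19) (nat_lit 5) (nat_lit 20) (nat_lit 5) (nat_lit 365) (nat_lit 273) (nat_lit 142)))))) (XT.nd (nat_lit 390) (nat_lit 152) (nat_lit 0) (XT.nd (nat_lit 156) (nat_lit 152) (nat_lit 0) (XT.nd (nat_lit 78) (nat_lit 0) (nat_lit 0) (XT.lf (nat_lit 0) (nat_lit 29398335716) (nat_lit 152) (nat_lit 1715594576) (nat_lit 228) (nat_lit 9183105182)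 (nat_lit 17) (nat_lit 5) (nat_lit 19) (nat_lit 5) (nat_lit 20) (nat_lit 5) (nat_lit 366) (nat_lit 273) (nat_lit 141)) (XT.lf (nat_lit 0) (nat_lit 35503407758) (nat_lit 228) (nat_lit 1982547299) (nat_lit 76) (nat_lit 3841592027) (nat_lit 17) (nat_lit 5) (nat_lit 20) (nat_lit 5) (nat_lit 18) (nat_lit 4) (nat_lit 367) (nat_lit 273) (nat_lit 140))) (XT.nd (nat_lit 78) (nat_lit 76) (nat_lit 0) (XT.lf (nat_lit 0) (nat_lit 7316609614) (nat_lit 76) (nat_lit 32788925070) (nat_lit 152) (nat_lit 2281020126) (nat_lit 16) (nat_lit 5) (nat_lit 17) (nat_lit 5) (nat_lit 18) (nat_lit 4) (nat_lit 368) (nat_lit 273) (nat_lit 139)) (XT.nd (nat_lit 78) (nat_lit 0) (nat_lit 0) (XT.lf (nat_lit 0) (nat_lit 1355571774) (nat_lit 152) (nat_lit 26565004760) (nat_lit 76) (nat_lit 15555954341) (nat_lit 15) (nat_lit 5) (nat_lit 17) (nat_lit 5) (nat_lit 16) (nat_lit 5) (nat_lit 369) (nat_lit 273) (nat_lit 138)) (XT.lf (nat_lit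 0) (nat_lit 5049263087) (nat_lit 152) (nat_lit 17837502462) (nat_lit 76) (nat_lit 21711956601) (nat_lit 15) (nat_lit 5) (nat_lit 17) (nat_lit 5) (nat_lit 16) (nat_lit 5) (nat_lit 370) (nat_lit 273) (nat_lit 137))))) (XT.nd (nat_lit 234) (nat_lit 0) (nat_lit 0) (XT.nd (nat_lit 78) (nat_lit 152) (nat_lit 0) (XT.lf (nat_lit 0) (nat_lit 8847792227) (nat_lit 152) (nat_lit 8857885771) (nat_lit 76) (nat_lit 28049088991) (nat_lit 15) (nat_lit 5) (nat_lit 17) (nat_lit 5) (nat_lit 16) (nat_lit 5) (nat_lit 371) (nat_lit 273) (nat_lit 136)) (XT.nd (nat_lit 78) (nat_lit 0) (nat_lit 0) (XT.lf (nat_lit 0) (nat_lit 389287991) (nat_lit 152) (nat_lit 12368932380) (nat_lit 228) (nat_lit 34187342894) (nat_lit 13) (nat_lit 5) (nat_lit 15) (nat_lit 5) (nat_lit 16) (nat_lit 5) (nat_lit 372) (nat_lit 273) (nat_lit 135)) (XT.lf (nat_lit 0) (nat_lit 10086119532) (nat_lit 152) (nat_lit 6783569326) (nat_lit 228) (nat_lit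 31299890888) (nat_lit 13) (nat_lit 5) (nat_lit 15) (nat_lit 5) (nat_lit 16) (nat_lit 5) (nat_lit 373) (nat_lit 273) (nat_lit 134)))) (XT.nd (nat_lit 78) (nat_lit 0) (nat_lit 0) (XT.lf (nat_lit 0) (nat_lit 20064792514) (nat_lit 152) (nat_lit 1034155701) (nat_lit 228) (nat_lit 28331543007) (nat_lit 13) (nat_lit 5) (nat_lit 15) (nat_lit 5) (nat_lit 16) (nat_lit 5) (nat_lit 374) (nat_lit 273) (nat_lit 133)) (XT.nd (nat_lit 78) (nat_lit 0) (nat_lit 0) (XT.lf (nat_lit 0) (nat_lit 25496645101) (nat_lit 228) (nat_lit 20442324483) (nat_lit 76) (nat_lit 4789021340) (nat_lit 13) (nat_lit 5) (nat_lit 16) (nat_lit 5) (nat_lit 14) (nat_lit 4) (nat_lit 375) (nat_lit 273) (nat_lit 132)) (XT.lf (nat_lit 0) (nat_lit 30031245843) (nat_lit 228) (nat_lit 11270164095) (nat_lit 76) (nat_lit 10762863941) (nat_lit 13) (nat_lit 5) (nat_lit 16) (nat_lit 5) (nat_lit 14) (nat_lit 4) (nat_lit 376) (nat_lit 273) (nat_lit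 131))))))) (XT.nd (nat_lit 858) (nat_lit 76) (nat_lit 0) (XT.nd (nat_lit 390) (nat_lit 228) (nat_lit 0) (XT.nd (nat_lit 156) (nat_lit 0) (nat_lit 0) (XT.nd (nat_lit 78) (nat_lit 76) (nat_lit 0) (XT.lf (nat_lit 0) (nat_lit 34696771777) (nat_lit 228) (nat_lit 1831262099) (nat_lit 76) (nat_lit 16912772066) (nat_lit 13) (nat_lit 5) (nat_lit 16) (nat_lit 5) (nat_lit 14) (nat_lit 4) (nat_lit 377) (nat_lit 273) (nat_lit 130)) (XT.lf (nat_lit 0) (nat_lit 8039508864) (nat_lit 76) (nat_lit 31535071388) (nat_lit 152) (nat_lit 15281891234) (nat_lit 12) (nat_lit 5) (nat_lit 13) (nat_lit 5) (nat_lit 14) (nat_lit 4) (nat_lit 378) (nat_lit 273) (nat_lit 129))) (XT.nd (nat_lit 78) (nat_lit 0) (nat_lit 0) (XT.lf (nat_lit 0) (nat_lit 18235844343) (nat_lit 76) (nat_lit 26376473623) (nat_lit 152) (nat_lit 11701888001) (nat_lit 12) (nat_lit 5) (nat_lit 13) (nat_lit 5) (nat_lit 14) (nat_lit 4) (nat_lit 379) (nat_lit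 273) (nat_lit 128)) (XT.nd (nat_lit 78) (nat_lit 0) (nat_lit 0) (XT.lf (nat_lit 0) (nat_lit 28730208049) (nat_lit 76) (nat_lit 21066225224) (nat_lit 152) (nat_lit 8019388464) (nat_lit 12) (nat_lit 5) (nat_lit 13) (nat_lit 5) (nat_lit 14) (nat_lit 4) (nat_lit 380) (nat_lit 273) (nat_lit 127)) (XT.lf (nat_lit 0) (nat_lit 39531769816) (nat_lit 76) (nat_lit 15599686170) (nat_lit 152) (nat_lit 4231174905) (nat_lit 12) (nat_lit 5) (nat_lit 13) (nat_lit 5) (nat_lit 14) (nat_lit 4) (nat_lit 381) (nat_lit 273) (nat_lit 126))))) (XT.nd (nat_lit 234) (nat_lit 0) (nat_lit 0) (XT.nd (nat_lit 78) (nat_lit 228) (nat_lit 0) (XT.lf (nat_lit 0) (nat_lit 50649967900) (nat_lit 76) (nat_lit 9972079871) (nat_lit 152) (nat_lit 333937234) (nat_lit 12) (nat_lit 5) (nat_lit 13) (nat_lit 5) (nat_lit 14) (nat_lit 4) (nat_lit 382) (nat_lit 273) (nat_lit 125)) (XT.nd (nat_lit 78) (nat_lit 152) (nat_lit 0) (XT.lf (nat_lit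 0) (nat_lit 3604003170) (nat_lit 152) (nat_lit 538092467) (nat_lit 76) (nat_lit 58454120696) (nat_lit 11) (nat_lit 5) (nat_lit 13) (nat_lit 5) (nat_lit 12) (nat_lit 5) (nat_lit 383) (nat_lit 273) (nat_lit 124)) (XT.lf (nat_lit 0) (nat_lit 7761193132) (nat_lit 228) (nat_lit 54599922008) (nat_lit 76) (nat_lit 1921211288) (nat_lit 9) (nat_lit 5) (nat_lit 12) (nat_lit 5) (nat_lit 10) (nat_lit 4) (nat_lit 384) (nat_lit 273) (nat_lit 123)))) (XT.nd (nat_lit 78) (nat_lit 0) (nat_lit 0) (XT.lf (nat_lit 0) (nat_lit 12085355421) (nat_lit 228) (nat_lit 45846486533) (nat_lit 76) (nat_lit 8085915718) (nat_lit 9) (nat_lit 5) (nat_lit 12) (nat_lit 5) (nat_lit 10) (nat_lit 4) (nat_lit 385) (nat_lit 273) (nat_lit 122)) (XT.nd (nat_lit 78) (nat_lit 0) (nat_lit 0) (XT.lf (nat_lit 0) (nat_lit 16535124426) (nat_lit 228) (nat_lit 36837352512) (nat_lit 76) (nat_lit 14432903841) (nat_lit 9) (nat_lit 5) (nat_lit 12)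 (nat_lit 5) (nat_lit 10) (nat_lit 4) (nat_lit 386) (nat_lit 273) (nat_lit 121)) (XT.lf (nat_lit 0) (nat_lit 21114388294) (nat_lit 228) (nat_lit 27564647886) (nat_lit 76) (nat_lit 20967721571) (nat_lit 9) (nat_lit 5) (nat_lit 12) (nat_lit 5) (nat_lit 10) (nat_lit 4) (nat_lit 387) (nat_lit 273) (nat_lit 120)))))) (XT.nd (nat_lit 31824) (nat_lit 0) (nat_lit 13376) (XT.nd (nat_lit 234) (nat_lit 0) (nat_lit 0) (XT.nd (nat_lit 78) (nat_lit 76) (nat_lit 0) (XT.lf (nat_lit 0) (nat_lit 25827148326) (nat_lit 228) (nat_lit 18020270293) (nat_lit 76) (nat_lit 27696078941) (nat_lit 9) (nat_lit 5) (nat_lit 12) (nat_lit 5) (nat_lit 10) (nat_lit 4) (nat_lit 388) (nat_lit 273) (nat_lit 119)) (XT.nd (nat_lit 78) (nat_lit 76) (nat_lit 0) (XT.lf (nat_lit 0) (nat_lit 30677522465) (nat_lit 228) (nat_lit 8195879985) (nat_lit 76) (nat_lit 34623855099) (nat_lit 9) (nat_lit 5) (nat_lit 12) (nat_lit 5) (nat_lit 10) (nat_lit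 4) (nat_lit 389) (nat_lit 273) (nat_lit 118)) (XT.lf (nat_lit 0) (nat_lit 1955261653) (nat_lit 76) (nat_lit 33733282420) (nat_lit 152) (nat_lit 39820636959) (nat_lit 8) (nat_lit 5) (nat_lit 9) (nat_lit 5) (nat_lit 10) (nat_lit 4) (nat_lit 390) (nat_lit 273) (nat_lit 117)))) (XT.nd (nat_lit 78) (nat_lit 0) (nat_lit 0) (XT.lf (nat_lit 0) (nat_lit 12572870614) (nat_lit 76) (nat_lit 28356177289) (nat_lit 152) (nat_lit 36650044414) (nat_lit 8) (nat_lit 5) (nat_lit 9) (nat_lit 5) (nat_lit 10) (nat_lit 4) (nat_lit 391) (nat_lit 273) (nat_lit 116)) (XT.nd (nat_lit 31434) (nat_lit 0) (nat_lit 14136) (XT.lf (nat_lit 0) (nat_lit 23503110336) (nat_lit 76) (nat_lit 22820150933) (nat_lit 152) (nat_lit 33387949346) (nat_lit 8) (nat_lit 5) (nat_lit 9) (nat_lit 5) (nat_lit 10) (nat_lit 4) (nat_lit 392) (nat_lit 273) (nat_lit 115)) (XT.lf (nat_lit 0) (nat_lit 697830131) (nat_lit 0) (nat_lit 697830131) (nat_lit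 684) (nat_lit 2262921098) (nat_lit 194) (nat_lit 5) (nat_lit 194) (nat_lit 3) (nat_lit 203) (nat_lit 3) (nat_lit 274) (nat_lit 274) (nat_lit 232))))) (XT.nd (nat_lit 234) (nat_lit 760) (nat_lit 0) (XT.nd (nat_lit 78) (nat_lit 0) (nat_lit 0) (XT.lf (nat_lit 0) (nat_lit 4203821388) (nat_lit 684) (nat_lit 2910311716) (nat_lit 760) (nat_lit 266436865) (nat_lit 194) (nat_lit 5) (nat_lit 203) (nat_lit 3) (nat_lit 204) (nat_lit 5) (nat_lit 275) (nat_lit 274) (nat_lit 231)) (XT.nd (nat_lit 78) (nat_lit 0) (nat_lit 0) (XT.lf (nat_lit 76) (nat_lit 151597090) (nat_lit 0) (nat_lit 5469242504) (nat_lit 760) (nat_lit 1826379732) (nat_lit 195) (nat_lit 5) (nat_lit 194) (nat_lit 5) (nat_lit 204) (nat_lit 5) (nat_lit 276) (nat_lit 274) (nat_lit 230)) (XT.lf (nat_lit 76) (nat_lit 3336546189) (nat_lit 0) (nat_lit 3721351103) (nat_lit 760) (nat_lit 458843218) (nat_lit 195) (nat_lit 5) (nat_lit 194) (nat_lit 5)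 (nat_lit 204) (nat_lit 5) (nat_lit 277) (nat_lit 274) (nat_lit 229)))) (XT.nd (nat_lit 78) (nat_lit 0) (nat_lit 76) (XT.lf (nat_lit 0) (nat_lit 880150728) (nat_lit 760) (nat_lit 1009281537) (nat_lit 836) (nat_lit 5700359111) (nat_lit 184) (nat_lit 5) (nat_lit 194) (nat_lit 5) (nat_lit 195) (nat_lit 5) (nat_lit 278) (nat_lit 274) (nat_lit 228)) (XT.nd (nat_lit 78) (nat_lit 0) (nat_lit 0) (XT.lf (nat_lit 0) (nat_lit 2222791807) (nat_lit 760) (nat_lit 5397881283) (nat_lit 836) (nat_lit 45224793) (nat_lit 185) (nat_lit 5) (nat_lit 195) (nat_lit 5) (nat_lit 196) (nat_lit 5) (nat_lit 279) (nat_lit 274) (nat_lit 227)) (XT.lf (nat_lit 0) (nat_lit 3586537315) (nat_lit 760) (nat_lit 2128026567) (nat_lit 836) (nat_lit 2030475059) (nat_lit 185) (nat_lit 5) (nat_lit 195) (nat_lit 5) (nat_lit 196) (nat_lit 5) (nat_lit 280) (nat_lit 274) (nat_lit 226))))))))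
noncomputable def xc152 : XT := (XT.nd (nat_lit 1716) (nat_lit 4104) (nat_lit 0) (XT.nd (nat_lit 858) (nat_lit 4028) (nat_lit 0) (XT.nd (nat_lit 390) (nat_lit 760) (nat_lit 0) (XT.nd (nat_lit 156) (nat_lit 760) (nat_lit 0) (XT.nd (nat_lit 78) (nat_lit 0) (nat_lit 0) (XT.lf (nat_lit 76) (nat_lit 1235330963) (nat_lit 0) (nat_lit 3720967402) (nat_lit 836) (nat_lit 2871473751) (nat_lit 186) (nat_lit 5) (nat_lit 185) (nat_lit 5) (nat_lit 196) (nat_lit 5) (nat_lit 281) (nat_lit 274) (nat_lit 225)) (XT.lf (nat_lit 76) (nat_lit 4714794454) (nat_lit 0) (nat_lit 1628164226) (nat_lit 836) (nat_lit 1570920417) (nat_lit 186) (nat_lit 5) (nat_lit 185) (nat_lit 5) (nat_lit 196) (nat_lit 5) (nat_lit 282) (nat_lit 274) (nat_lit 224))) (XT.nd (nat_lit 78) (nat_lit 836) (nat_lit 0) (XT.lf (nat_lit 76) (nat_lit 266969797) (nat_lit 0) (nat_lit 7467694422) (nat_lit 836) (nat_lit 269162874) (nat_lit 187) (nat_lit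 5) (nat_lit 186) (nat_lit 5) (nat_lit 197) (nat_lit 5) (nat_lit 283) (nat_lit 274) (nat_lit 223)) (XT.nd (nat_lit 78) (nat_lit 0) (nat_lit 0) (XT.lf (nat_lit 0) (nat_lit 1055717489) (nat_lit 836) (nat_lit 4249640624) (nat_lit 912) (nat_lit 2790808836) (nat_lit 175) (nat_lit 5) (nat_lit 186) (nat_lit 5) (nat_lit 187) (nat_lit 5) (nat_lit 284) (nat_lit 274) (nat_lit 222)) (XT.lf (nat_lit 0) (nat_lit 2372446037) (nat_lit 836) (nat_lit 689577854) (nat_lit 912) (nat_lit 5130595301) (nat_lit 175) (nat_lit 5) (nat_lit 186) (nat_lit 5) (nat_lit 187) (nat_lit 5) (nat_lit 285) (nat_lit 274) (nat_lit 221))))) (XT.nd (nat_lit 234) (nat_lit 760) (nat_lit 0) (XT.nd (nat_lit 78) (nat_lit 0) (nat_lit 76) (XT.lf (nat_lit 76) (nat_lit 3007720566) (nat_lit 0) (nat_lit 708617127) (nat_lit 912) (nat_lit 4576140666) (nat_lit 176) (nat_lit 5) (nat_lit 175) (nat_lit 5) (nat_lit 187) (nat_lit 5) (nat_lit 286) (nat_lit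 274) (nat_lit 220)) (XT.nd (nat_lit 78) (nat_lit 0) (nat_lit 0) (XT.lf (nat_lit 0) (nat_lit 5083868138) (nat_lit 836) (nat_lit 1611056957) (nat_lit 912) (nat_lit 1701047570) (nat_lit 176) (nat_lit 5) (nat_lit 187) (nat_lit 5) (nat_lit 188) (nat_lit 5) (nat_lit 287) (nat_lit 274) (nat_lit 219)) (XT.lf (nat_lit 76) (nat_lit 2179784211) (nat_lit 0) (nat_lit 4301580890) (nat_lit 912) (nat_lit 2021673454) (nat_lit 177) (nat_lit 5) (nat_lit 176) (nat_lit 5) (nat_lit 188) (nat_lit 5) (nat_lit 288) (nat_lit 274) (nat_lit 218)))) (XT.nd (nat_lit 78) (nat_lit 836) (nat_lit 0) (XT.lf (nat_lit 76) (nat_lit 6089065877) (nat_lit 0) (nat_lit 1809825422) (nat_lit 912) (nat_lit 715213039) (nat_lit 177) (nat_lit 5) (nat_lit 176) (nat_lit 5) (nat_lit 188) (nat_lit 5) (nat_lit 289) (nat_lit 274) (nat_lit 217)) (XT.nd (nat_lit 78) (nat_lit 0) (nat_lit 0) (XT.lf (nat_lit 0) (nat_lit 601409961) (nat_lit 912) (nat_lit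 7357096353) (nat_lit 76) (nat_lit 770439365) (nat_lit 165) (nat_lit 5) (nat_lit 177) (nat_lit 5) (nat_lit 166) (nat_lit 5) (nat_lit 290) (nat_lit 274) (nat_lit 216)) (XT.lf (nat_lit 0) (nat_lit 1950188515) (nat_lit 912) (nat_lit 3463698210) (nat_lit 76) (nat_lit 3433042062) (nat_lit 165) (nat_lit 5) (nat_lit 177) (nat_lit 5) (nat_lit 166) (nat_lit 5) (nat_lit 291) (nat_lit 274) (nat_lit 215)))))) (XT.nd (nat_lit 390) (nat_lit 2128) (nat_lit 0) (XT.nd (nat_lit 156) (nat_lit 988) (nat_lit 0) (XT.nd (nat_lit 78) (nat_lit 0) (nat_lit 0) (XT.lf (nat_lit 0) (nat_lit 528283786) (nat_lit 912) (nat_lit 2780654418) (nat_lit 988) (nat_lit 5660544382) (nat_lit 153) (nat_lit 5) (nat_lit 165) (nat_lit 5) (nat_lit 166) (nat_lit 5) (nat_lit 292) (nat_lit 274) (nat_lit 214)) (XT.lf (nat_lit 0) (nat_lit 4682780527) (nat_lit 912) (nat_lit 25840512) (nat_lit 988) (nat_lit 4387199878) (nat_lit 153) (nat_lit 5)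 (nat_lit 165) (nat_lit 5) (nat_lit 166) (nat_lit 5) (nat_lit 293) (nat_lit 274) (nat_lit 213))) (XT.nd (nat_lit 78) (nat_lit 988) (nat_lit 0) (XT.lf (nat_lit 0) (nat_lit 6143590421) (nat_lit 988) (nat_lit 319673344) (nat_lit 76) (nat_lit 2762996499) (nat_lit 153) (nat_lit 5) (nat_lit 166) (nat_lit 5) (nat_lit 154) (nat_lit 5) (nat_lit 294) (nat_lit 274) (nat_lit 212)) (XT.nd (nat_lit 78) (nat_lit 0) (nat_lit 0) (XT.lf (nat_lit 0) (nat_lit 3945453017) (nat_lit 988) (nat_lit 3681589344) (nat_lit 1064) (nat_lit 1733513976) (nat_lit 140) (nat_lit 5) (nat_lit 153) (nat_lit 5) (nat_lit 154) (nat_lit 5) (nat_lit 295) (nat_lit 274) (nat_lit 211)) (XT.lf (nat_lit 0) (nat_lit 8317582624) (nat_lit 988) (nat_lit 808584292) (nat_lit 1064) (nat_lit 373682751) (nat_lit 140) (nat_lit 5) (nat_lit 153) (nat_lit 5) (nat_lit 154) (nat_lit 5) (nat_lit 296) (nat_lit 274) (nat_lit 210))))) (XT.nd (nat_lit 234) (nat_lit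 456) (nat_lit 0) (XT.nd (nat_lit 78) (nat_lit 532) (nat_lit 0) (XT.lf (nat_lit 0) (nat_lit 1027273956) (nat_lit 1140) (nat_lit 6461508083) (nat_lit 76) (nat_lit 2153730023) (nat_lit 125) (nat_lit 5) (nat_lit 140) (nat_lit 5) (nat_lit 126) (nat_lit 5) (nat_lit 297) (nat_lit 274) (nat_lit 209)) (XT.nd (nat_lit 78) (nat_lit 532) (nat_lit 0) (XT.lf (nat_lit 0) (nat_lit 2451972434) (nat_lit 1140) (nat_lit 2129726785) (nat_lit 76) (nat_lit 5208062070) (nat_lit 125) (nat_lit 5) (nat_lit 140) (nat_lit 5) (nat_lit 126) (nat_lit 5) (nat_lit 298) (nat_lit 274) (nat_lit 208)) (XT.lf (nat_lit 0) (nat_lit 2350480855) (nat_lit 532) (nat_lit 1561584644) (nat_lit 608) (nat_lit 6029674796) (nat_lit 118) (nat_lit 5) (nat_lit 125) (nat_lit 5) (nat_lit 126) (nat_lit 5) (nat_lit 299) (nat_lit 274) (nat_lit 207)))) (XT.nd (nat_lit 78) (nat_lit 456) (nat_lit 0) (XT.lf (nat_lit 0) (nat_lit 5423263452) (nat_lit 608)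 (nat_lit 3132100786) (nat_lit 76) (nat_lit 1542784606) (nat_lit 118) (nat_lit 5) (nat_lit 126) (nat_lit 5) (nat_lit 119) (nat_lit 5) (nat_lit 300) (nat_lit 274) (nat_lit 206)) (XT.nd (nat_lit 78) (nat_lit 0) (nat_lit 0) (XT.lf (nat_lit 0) (nat_lit 1446297573) (nat_lit 456) (nat_lit 5534409215) (nat_lit 532) (nat_lit 3278602213) (nat_lit 112) (nat_lit 5) (nat_lit 118) (nat_lit 5) (nat_lit 119) (nat_lit 5) (nat_lit 301) (nat_lit 274) (nat_lit 205)) (XT.lf (nat_lit 0) (nat_lit 6199224196) (nat_lit 456) (nat_lit 2389391774) (nat_lit 532) (nat_lit 1836659827) (nat_lit 112) (nat_lit 5) (nat_lit 118) (nat_lit 5) (nat_lit 119) (nat_lit 5) (nat_lit 302) (nat_lit 274) (nat_lit 204))))))) (XT.nd (nat_lit 858) (nat_lit 1748) (nat_lit 0) (XT.nd (nat_lit 390) (nat_lit 1292) (nat_lit 0) (XT.nd (nat_lit 156) (nat_lit 456) (nat_lit 0) (XT.nd (nat_lit 78) (nat_lit 76) (nat_lit 0) (XT.lf (nat_lit 0) (nat_lit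 472421881) (nat_lit 532) (nat_lit 9757986914) (nat_lit 608) (nat_lit 366325074) (nat_lit 105) (nat_lit 5) (nat_lit 112) (nat_lit 5) (nat_lit 113) (nat_lit 5) (nat_lit 303) (nat_lit 274) (nat_lit 203)) (XT.lf (nat_lit 0) (nat_lit 1165594625) (nat_lit 608) (nat_lit 5436181296) (nat_lit 76) (nat_lit 4170109277) (nat_lit 104) (nat_lit 5) (nat_lit 112) (nat_lit 5) (nat_lit 105) (nat_lit 5) (nat_lit 304) (nat_lit 274) (nat_lit 202))) (XT.nd (nat_lit 78) (nat_lit 456) (nat_lit 0) (XT.lf (nat_lit 0) (nat_lit 2710016090) (nat_lit 608) (nat_lit 637722057) (nat_lit 76) (nat_lit 7605301634) (nat_lit 104) (nat_lit 5) (nat_lit 112) (nat_lit 5) (nat_lit 105) (nat_lit 5) (nat_lit 305) (nat_lit 274) (nat_lit 201)) (XT.nd (nat_lit 78) (nat_lit 0) (nat_lit 0) (XT.lf (nat_lit 0) (nat_lit 4317833428) (nat_lit 532) (nat_lit 6775714547) (nat_lit 76) (nat_lit 45641687) (nat_lit 98) (nat_lit 5) (nat_lit 105) (nat_lit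 5) (nat_lit 99) (nat_lit 5) (nat_lit 306) (nat_lit 274) (nat_lit 200)) (XT.lf (nat_lit 0) (nat_lit 5988685036) (nat_lit 532) (nat_lit 1862624541) (nat_lit 76) (nat_lit 3479240912) (nat_lit 98) (nat_lit 5) (nat_lit 105) (nat_lit 5) (nat_lit 99) (nat_lit 5) (nat_lit 307) (nat_lit 274) (nat_lit 199))))) (XT.nd (nat_lit 234) (nat_lit 456) (nat_lit 0) (XT.nd (nat_lit 78) (nat_lit 380) (nat_lit 0) (XT.lf (nat_lit 0) (nat_lit 3235296381) (nat_lit 456) (nat_lit 4481339563) (nat_lit 532) (nat_lit 3810875373) (nat_lit 92) (nat_lit 5) (nat_lit 98) (nat_lit 5) (nat_lit 99) (nat_lit 5) (nat_lit 308) (nat_lit 274) (nat_lit 198)) (XT.nd (nat_lit 78) (nat_lit 380) (nat_lit 0) (XT.lf (nat_lit 0) (nat_lit 8498894740) (nat_lit 456) (nat_lit 992671729) (nat_lit 532) (nat_lit 2239026668) (nat_lit 92) (nat_lit 5) (nat_lit 98) (nat_lit 5) (nat_lit 99) (nat_lit 5) (nat_lit 309) (nat_lit 274) (nat_lit 197)) (XT.lf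 (nat_lit 0) (nat_lit 1968610836) (nat_lit 380) (nat_lit 9372061690) (nat_lit 456) (nat_lit 598531523) (nat_lit 87) (nat_lit 5) (nat_lit 92) (nat_lit 5) (nat_lit 93) (nat_lit 5) (nat_lit 310) (nat_lit 274) (nat_lit 196)))) (XT.nd (nat_lit 78) (nat_lit 380) (nat_lit 0) (XT.lf (nat_lit 0) (nat_lit 1089818857) (nat_lit 456) (nat_lit 4808263453) (nat_lit 76) (nat_lit 6255139072) (nat_lit 86) (nat_lit 5) (nat_lit 92) (nat_lit 5) (nat_lit 87) (nat_lit 5) (nat_lit 311) (nat_lit 274) (nat_lit 195)) (XT.nd (nat_lit 78) (nat_lit 0) (nat_lit 0) (XT.lf (nat_lit 0) (nat_lit 487568476) (nat_lit 380) (nat_lit 2311721631) (nat_lit 456) (nat_lit 9574775334) (nat_lit 81) (nat_lit 5) (nat_lit 86) (nat_lit 5) (nat_lit 87) (nat_lit 5) (nat_lit 312) (nat_lit 274) (nat_lit 194)) (XT.lf (nat_lit 0) (nat_lit 4600561018) (nat_lit 456) (nat_lit 6598399358) (nat_lit 76) (nat_lit 1401416257) (nat_lit 81) (nat_lit 5) (nat_lit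 87) (nat_lit 5) (nat_lit 82) (nat_lit 5) (nat_lit 313) (nat_lit 274) (nat_lit 193)))))) (XT.nd (nat_lit 390) (nat_lit 912) (nat_lit 0) (XT.nd (nat_lit 156) (nat_lit 456) (nat_lit 0) (XT.nd (nat_lit 78) (nat_lit 380) (nat_lit 0) (XT.lf (nat_lit 0) (nat_lit 6457587433) (nat_lit 456) (nat_lit 1199201171) (nat_lit 76) (nat_lit 5176692642) (nat_lit 81) (nat_lit 5) (nat_lit 87) (nat_lit 5) (nat_lit 82) (nat_lit 5) (nat_lit 314) (nat_lit 274) (nat_lit 192)) (XT.lf (nat_lit 0) (nat_lit 4424372467) (nat_lit 380) (nat_lit 3967927623) (nat_lit 456) (nat_lit 4680673633) (nat_lit 76) (nat_lit 5) (nat_lit 81) (nat_lit 5) (nat_lit 82) (nat_lit 5) (nat_lit 315) (nat_lit 274) (nat_lit 191))) (XT.nd (nat_lit 78) (nat_lit 456) (nat_lit 0) (XT.lf (nat_lit 0) (nat_lit 10217534493) (nat_lit 380) (nat_lit 159445729) (nat_lit 456) (nat_lit 2942965385) (nat_lit 76) (nat_lit 5) (nat_lit 81) (nat_lit 5) (nat_lit 82)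 (nat_lit 5) (nat_lit 316) (nat_lit 274) (nat_lit 190)) (XT.nd (nat_lit 78) (nat_lit 76) (nat_lit 0) (XT.lf (nat_lit 0) (nat_lit 2601130229) (nat_lit 380) (nat_lit 9861620788) (nat_lit 456) (nat_lit 1110380012) (nat_lit 71) (nat_lit 5) (nat_lit 76) (nat_lit 5) (nat_lit 77) (nat_lit 5) (nat_lit 317) (nat_lit 274) (nat_lit 189)) (XT.lf (nat_lit 0) (nat_lit 775713515) (nat_lit 456) (nat_lit 5326779379) (nat_lit 76) (nat_lit 7730832078) (nat_lit 70) (nat_lit 5) (nat_lit 76) (nat_lit 5) (nat_lit 71) (nat_lit 5) (nat_lit 318) (nat_lit 274) (nat_lit 188))))) (XT.nd (nat_lit 234) (nat_lit 608) (nat_lit 0) (XT.nd (nat_lit 78) (nat_lit 0) (nat_lit 0) (XT.lf (nat_lit 0) (nat_lit 462705918) (nat_lit 304) (nat_lit 2218861884) (nat_lit 380) (nat_lit 11419908821) (nat_lit 66) (nat_lit 5) (nat_lit 70) (nat_lit 5) (nat_lit 71) (nat_lit 5) (nat_lit 319) (nat_lit 274) (nat_lit 187)) (XT.nd (nat_lit 78) (nat_lit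 0) (nat_lit 0) (XT.lf (nat_lit 0) (nat_lit 4697381455) (nat_lit 380) (nat_lit 7882108801) (nat_lit 76) (nat_lit 1796644269) (nat_lit 66) (nat_lit 5) (nat_lit 71) (nat_lit 5) (nat_lit 67) (nat_lit 5) (nat_lit 320) (nat_lit 274) (nat_lit 186)) (XT.lf (nat_lit 0) (nat_lit 6777520388) (nat_lit 380) (nat_lit 1997496453) (nat_lit 76) (nat_lit 5883943695) (nat_lit 66) (nat_lit 5) (nat_lit 71) (nat_lit 5) (nat_lit 67) (nat_lit 5) (nat_lit 321) (nat_lit 274) (nat_lit 185)))) (XT.nd (nat_lit 78) (nat_lit 304) (nat_lit 0) (XT.lf (nat_lit 0) (nat_lit 4121971806) (nat_lit 304) (nat_lit 4820124250) (nat_lit 380) (nat_lit 6007556913) (nat_lit 62) (nat_lit 5) (nat_lit 66) (nat_lit 5) (nat_lit 67) (nat_lit 5) (nat_lit 322) (nat_lit 274) (nat_lit 184)) (XT.nd (nat_lit 78) (nat_lit 304) (nat_lit 0) (XT.lf (nat_lit 0) (nat_lit 10444070692) (nat_lit 304) (nat_lit 730420575) (nat_lit 380) (nat_lit 4074529817) (nat_lit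 62) (nat_lit 5) (nat_lit 66) (nat_lit 5) (nat_lit 67) (nat_lit 5) (nat_lit 323) (nat_lit 274) (nat_lit 183)) (XT.lf (nat_lit 0) (nat_lit 1369961358) (nat_lit 304) (nat_lit 12133708735) (nat_lit 380) (nat_lit 2052845969) (nat_lit 58) (nat_lit 5) (nat_lit 62) (nat_lit 5) (nat_lit 63) (nat_lit 5) (nat_lit 324) (nat_lit 274) (nat_lit 182))))))))
noncomputable def xc153 : XT := (XT.nd (nat_lit 1716) (nat_lit 988) (nat_lit 0) (XT.nd (nat_lit 858) (nat_lit 912) (nat_lit 0) (XT.nd (nat_lit 390) (nat_lit 608) (nat_lit 0) (XT.nd (nat_lit 156) (nat_lit 532) (nat_lit 0) (XT.nd (nat_lit 78) (nat_lit 0) (nat_lit 0) (XT.lf (nat_lit 0) (nat_lit 68398756) (nat_lit 380) (nat_lit 8073079547) (nat_lit 76) (nat_lit 7730602375) (nat_lit 57) (nat_lit 5) (nat_lit 62) (nat_lit 5) (nat_lit 58) (nat_lit 5) (nat_lit 325) (nat_lit 274) (nat_lit 181)) (XT.lf (nat_lit 0) (nat_lit 2195761351) (nat_lit 380) (nat_lit 1817807634)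 (nat_lit 76) (nat_lit 12183458033) (nat_lit 57) (nat_lit 5) (nat_lit 62) (nat_lit 5) (nat_lit 58) (nat_lit 5) (nat_lit 326) (nat_lit 274) (nat_lit 180))) (XT.nd (nat_lit 78) (nat_lit 228) (nat_lit 0) (XT.lf (nat_lit 0) (nat_lit 4418990441) (nat_lit 380) (nat_lit 11837468542) (nat_lit 76) (nat_lit 274337091) (nat_lit 53) (nat_lit 5) (nat_lit 58) (nat_lit 5) (nat_lit 54) (nat_lit 5) (nat_lit 327) (nat_lit 274) (nat_lit 179)) (XT.nd (nat_lit 78) (nat_lit 228) (nat_lit 0) (XT.lf (nat_lit 0) (nat_lit 6751622667) (nat_lit 380) (nat_lit 5497800254) (nat_lit 76) (nat_lit 4623908746) (nat_lit 53) (nat_lit 5) (nat_lit 58) (nat_lit 5) (nat_lit 54) (nat_lit 5) (nat_lit 328) (nat_lit 274) (nat_lit 178)) (XT.lf (nat_lit 0) (nat_lit 1031890371) (nat_lit 228) (nat_lit 8117146065) (nat_lit 304) (nat_lit 8077296456) (nat_lit 50) (nat_lit 5) (nat_lit 53) (nat_lit 5) (nat_lit 54) (nat_lit 5) (nat_lit 329) (nat_lit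 274) (nat_lit 177))))) (XT.nd (nat_lit 234) (nat_lit 304) (nat_lit 0) (XT.nd (nat_lit 78) (nat_lit 304) (nat_lit 0) (XT.lf (nat_lit 0) (nat_lit 7850066675) (nat_lit 228) (nat_lit 3808953393) (nat_lit 304) (nat_lit 5929717327) (nat_lit 50) (nat_lit 5) (nat_lit 53) (nat_lit 5) (nat_lit 54) (nat_lit 5) (nat_lit 330) (nat_lit 274) (nat_lit 176)) (XT.nd (nat_lit 78) (nat_lit 304) (nat_lit 0) (XT.lf (nat_lit 0) (nat_lit 14235859277) (nat_lit 304) (nat_lit 3115202082) (nat_lit 76) (nat_lit 611237704) (nat_lit 50) (nat_lit 5) (nat_lit 54) (nat_lit 5) (nat_lit 51) (nat_lit 5) (nat_lit 331) (nat_lit 274) (nat_lit 175)) (XT.lf (nat_lit 0) (nat_lit 3722544142) (nat_lit 304) (nat_lit 13226891888) (nat_lit 380) (nat_lit 1395879369) (nat_lit 46) (nat_lit 5) (nat_lit 50) (nat_lit 5) (nat_lit 51) (nat_lit 5) (nat_lit 332) (nat_lit 274) (nat_lit 174)))) (XT.nd (nat_lit 78) (nat_lit 228) (nat_lit 0) (XT.lf (nat_lit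 0) (nat_lit 1002759090) (nat_lit 380) (nat_lit 7939037722) (nat_lit 76) (nat_lit 9797231794) (nat_lit 45) (nat_lit 5) (nat_lit 50) (nat_lit 5) (nat_lit 46) (nat_lit 5) (nat_lit 333) (nat_lit 274) (nat_lit 173)) (XT.nd (nat_lit 78) (nat_lit 228) (nat_lit 0) (XT.lf (nat_lit 0) (nat_lit 3431704465) (nat_lit 380) (nat_lit 1087517906) (nat_lit 76) (nat_lit 14625352289) (nat_lit 45) (nat_lit 5) (nat_lit 50) (nat_lit 5) (nat_lit 46) (nat_lit 5) (nat_lit 334) (nat_lit 274) (nat_lit 172)) (XT.lf (nat_lit 0) (nat_lit 5979537263) (nat_lit 304) (nat_lit 13492201171) (nat_lit 76) (nat_lit 89195446) (nat_lit 42) (nat_lit 5) (nat_lit 46) (nat_lit 5) (nat_lit 43) (nat_lit 5) (nat_lit 335) (nat_lit 274) (nat_lit 171)))))) (XT.nd (nat_lit 390) (nat_lit 456) (nat_lit 0) (XT.nd (nat_lit 156) (nat_lit 228) (nat_lit 0) (XT.nd (nat_lit 78) (nat_lit 228) (nat_lit 0) (XT.lf (nat_lit 0) (nat_lit 8646599861) (nat_lit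 304) (nat_lit 6590885039) (nat_lit 76) (nat_lit 4751041692) (nat_lit 42) (nat_lit 5) (nat_lit 46) (nat_lit 5) (nat_lit 43) (nat_lit 5) (nat_lit 336) (nat_lit 274) (nat_lit 170)) (XT.lf (nat_lit 0) (nat_lit 509410025) (nat_lit 228) (nat_lit 10876500401) (nat_lit 304) (nat_lit 9043295359) (nat_lit 39) (nat_lit 5) (nat_lit 42) (nat_lit 5) (nat_lit 43) (nat_lit 5) (nat_lit 337) (nat_lit 274) (nat_lit 169))) (XT.nd (nat_lit 78) (nat_lit 228) (nat_lit 0) (XT.lf (nat_lit 0) (nat_lit 7939996128) (nat_lit 228) (nat_lit 6321495944) (nat_lit 304) (nat_lit 6620015564) (nat_lit 39) (nat_lit 5) (nat_lit 42) (nat_lit 5) (nat_lit 43) (nat_lit 5) (nat_lit 338) (nat_lit 274) (nat_lit 168)) (XT.nd (nat_lit 78) (nat_lit 228) (nat_lit 0) (XT.lf (nat_lit 0) (nat_lit 15576194479) (nat_lit 228) (nat_lit 1635046444) (nat_lit 304) (nat_lit 4136524933) (nat_lit 39) (nat_lit 5) (nat_lit 42) (nat_lit 5) (nat_lit 43) (nat_lit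 5) (nat_lit 339) (nat_lit 274) (nat_lit 167)) (XT.lf (nat_lit 0) (nat_lit 1596814384) (nat_lit 228) (nat_lit 18686904447) (nat_lit 304) (nat_lit 1543289489) (nat_lit 36) (nat_lit 5) (nat_lit 39) (nat_lit 5) (nat_lit 40) (nat_lit 5) (nat_lit 340) (nat_lit 274) (nat_lit 166))))) (XT.nd (nat_lit 234) (nat_lit 152) (nat_lit 0) (XT.nd (nat_lit 78) (nat_lit 228) (nat_lit 0) (XT.lf (nat_lit 0) (nat_lit 1169030554) (nat_lit 304) (nat_lit 13059139497) (nat_lit 76) (nat_lit 8090256218) (nat_lit 35) (nat_lit 5) (nat_lit 39) (nat_lit 5) (nat_lit 36) (nat_lit 5) (nat_lit 341) (nat_lit 274) (nat_lit 165)) (XT.nd (nat_lit 78) (nat_lit 228) (nat_lit 0) (XT.lf (nat_lit 0) (nat_lit 3920290625) (nat_lit 304) (nat_lit 5704949031) (nat_lit 76) (nat_lit 13199252621) (nat_lit 35) (nat_lit 5) (nat_lit 39) (nat_lit 5) (nat_lit 36) (nat_lit 5) (nat_lit 342) (nat_lit 274) (nat_lit 164)) (XT.lf (nat_lit 0) (nat_lit 1890529535)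 (nat_lit 228) (nat_lit 4870653265) (nat_lit 304) (nat_lit 16584365602) (nat_lit 32) (nat_lit 5) (nat_lit 35) (nat_lit 5) (nat_lit 36) (nat_lit 5) (nat_lit 343) (nat_lit 274) (nat_lit 163)))) (XT.nd (nat_lit 78) (nat_lit 152) (nat_lit 0) (XT.lf (nat_lit 0) (nat_lit 9734776329) (nat_lit 304) (nat_lit 14066883047) (nat_lit 76) (nat_lit 79172952) (nat_lit 32) (nat_lit 5) (nat_lit 36) (nat_lit 5) (nat_lit 33) (nat_lit 5) (nat_lit 344) (nat_lit 274) (nat_lit 162)) (XT.nd (nat_lit 78) (nat_lit 152) (nat_lit 0) (XT.lf (nat_lit 0) (nat_lit 12835161168) (nat_lit 304) (nat_lit 6521218339) (nat_lit 76) (nat_lit 5074687522) (nat_lit 32) (nat_lit 5) (nat_lit 36) (nat_lit 5) (nat_lit 33) (nat_lit 5) (nat_lit 345) (nat_lit 274) (nat_lit 161)) (XT.lf (nat_lit 0) (nat_lit 1259974904) (nat_lit 152) (nat_lit 14770363437) (nat_lit 228) (nat_lit 8967436192) (nat_lit 30) (nat_lit 5) (nat_lit 32) (nat_lit 5) (nat_lit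 33) (nat_lit 5) (nat_lit 346) (nat_lit 274) (nat_lit 160))))))) (XT.nd (nat_lit 858) (nat_lit 380) (nat_lit 0) (XT.nd (nat_lit 390) (nat_lit 304) (nat_lit 0) (XT.nd (nat_lit 156) (nat_lit 304) (nat_lit 0) (XT.nd (nat_lit 78) (nat_lit 0) (nat_lit 0) (XT.lf (nat_lit 0) (nat_lit 9393005728) (nat_lit 152) (nat_lit 9984039810) (nat_lit 228) (nat_lit 6202786112) (nat_lit 30) (nat_lit 5) (nat_lit 32) (nat_lit 5) (nat_lit 33) (nat_lit 5) (nat_lit 347) (nat_lit 274) (nat_lit 159)) (XT.lf (nat_lit 0) (nat_lit 17755195632) (nat_lit 152) (nat_lit 5059077919) (nat_lit 228) (nat_lit 3365391425) (nat_lit 30) (nat_lit 5) (nat_lit 32) (nat_lit 5) (nat_lit 33) (nat_lit 5) (nat_lit 348) (nat_lit 274) (nat_lit 158))) (XT.nd (nat_lit 78) (nat_lit 304) (nat_lit 0) (XT.lf (nat_lit 0) (nat_lit 26345110623) (nat_lit 228) (nat_lit 444032093) (nat_lit 76) (nat_lit 8653379) (nat_lit 30) (nat_lit 5) (nat_lit 33) (nat_lit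 5) (nat_lit 31) (nat_lit 5) (nat_lit 349) (nat_lit 274) (nat_lit 157)) (XT.nd (nat_lit 78) (nat_lit 0) (nat_lit 0) (XT.lf (nat_lit 0) (nat_lit 2615162488) (nat_lit 304) (nat_lit 19591666722) (nat_lit 76) (nat_lit 5223399777) (nat_lit 26) (nat_lit 5) (nat_lit 30) (nat_lit 5) (nat_lit 27) (nat_lit 5) (nat_lit 350) (nat_lit 274) (nat_lit 156)) (XT.lf (nat_lit 0) (nat_lit 5761147095) (nat_lit 304) (nat_lit 11721584312) (nat_lit 76) (nat_lit 10598929074) (nat_lit 26) (nat_lit 5) (nat_lit 30) (nat_lit 5) (nat_lit 27) (nat_lit 5) (nat_lit 351) (nat_lit 274) (nat_lit 155))))) (XT.nd (nat_lit 234) (nat_lit 152) (nat_lit 0) (XT.nd (nat_lit 78) (nat_lit 152) (nat_lit 0) (XT.lf (nat_lit 0) (nat_lit 8992454433) (nat_lit 304) (nat_lit 3629277303) (nat_lit 76) (nat_lit 16131190490) (nat_lit 26) (nat_lit 5) (nat_lit 30) (nat_lit 5) (nat_lit 27) (nat_lit 5) (nat_lit 352) (nat_lit 274) (nat_lit 154)) (XT.nd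 (nat_lit 78) (nat_lit 0) (nat_lit 0) (XT.lf (nat_lit 0) (nat_lit 4785711725) (nat_lit 152) (nat_lit 7572199437) (nat_lit 228) (nat_lit 17085309502) (nat_lit 24) (nat_lit 5) (nat_lit 26) (nat_lit 5) (nat_lit 27) (nat_lit 5) (nat_lit 353) (nat_lit 274) (nat_lit 153)) (XT.lf (nat_lit 0) (nat_lit 13514205482) (nat_lit 152) (nat_lit 2338109538) (nat_lit 228) (nat_lit 14301088236) (nat_lit 24) (nat_lit 5) (nat_lit 26) (nat_lit 5) (nat_lit 27) (nat_lit 5) (nat_lit 354) (nat_lit 274) (nat_lit 152)))) (XT.nd (nat_lit 78) (nat_lit 152) (nat_lit 0) (XT.lf (nat_lit 0) (nat_lit 19472441911) (nat_lit 228) (nat_lit 8422860604) (nat_lit 76) (nat_lit 2988976361) (nat_lit 24) (nat_lit 5) (nat_lit 27) (nat_lit 5) (nat_lit 25) (nat_lit 5) (nat_lit 355) (nat_lit 274) (nat_lit 151)) (XT.nd (nat_lit 78) (nat_lit 0) (nat_lit 0) (XT.lf (nat_lit 0) (nat_lit 4104955) (nat_lit 152) (nat_lit 23212046596) (nat_lit 228)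 (nat_lit 8420493704) (nat_lit 22) (nat_lit 5) (nat_lit 24) (nat_lit 5) (nat_lit 25) (nat_lit 5) (nat_lit 356) (nat_lit 274) (nat_lit 150)) (XT.lf (nat_lit 0) (nat_lit 8843873052) (nat_lit 152) (nat_lit 18305261062) (nat_lit 228) (nat_lit 5260153122) (nat_lit 22) (nat_lit 5) (nat_lit 24) (nat_lit 5) (nat_lit 25) (nat_lit 5) (nat_lit 357) (nat_lit 274) (nat_lit 149)))))) (XT.nd (nat_lit 390) (nat_lit 152) (nat_lit 0) (XT.nd (nat_lit 156) (nat_lit 152) (nat_lit 0) (XT.nd (nat_lit 78) (nat_lit 76) (nat_lit 0) (XT.lf (nat_lit 0) (nat_lit 17936536312) (nat_lit 152) (nat_lit 13255712806) (nat_lit 228) (nat_lit 2013108133) (nat_lit 22) (nat_lit 5) (nat_lit 24) (nat_lit 5) (nat_lit 25) (nat_lit 5) (nat_lit 358) (nat_lit 274) (nat_lit 148)) (XT.lf (nat_lit 0) (nat_lit 1297652654) (nat_lit 228) (nat_lit 6748233200) (nat_lit 76) (nat_lit 25979283380) (nat_lit 21) (nat_lit 5) (nat_lit 24) (nat_lit 5) (nat_lit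 22) (nat_lit 5) (nat_lit 359) (nat_lit 274) (nat_lit 147))) (XT.nd (nat_lit 78) (nat_lit 0) (nat_lit 0) (XT.lf (nat_lit 0) (nat_lit 2036017460) (nat_lit 152) (nat_lit 2643337359) (nat_lit 228) (nat_lit 30189272360) (nat_lit 19) (nat_lit 5) (nat_lit 21) (nat_lit 5) (nat_lit 22) (nat_lit 5) (nat_lit 360) (nat_lit 274) (nat_lit 146)) (XT.nd (nat_lit 78) (nat_lit 0) (nat_lit 0) (XT.lf (nat_lit 0) (nat_lit 8251981908) (nat_lit 228) (nat_lit 24553802672) (nat_lit 76) (nat_lit 2928931676) (nat_lit 19) (nat_lit 5) (nat_lit 22) (nat_lit 5) (nat_lit 20) (nat_lit 5) (nat_lit 361) (nat_lit 274) (nat_lit 145)) (XT.lf (nat_lit 0) (nat_lit 11950749793) (nat_lit 228) (nat_lit 16064288542) (nat_lit 76) (nat_lit 8611192079) (nat_lit 19) (nat_lit 5) (nat_lit 22) (nat_lit 5) (nat_lit 20) (nat_lit 5) (nat_lit 362) (nat_lit 274) (nat_lit 144))))) (XT.nd (nat_lit 234) (nat_lit 0) (nat_lit 0) (XT.nd (nat_lit 78) (nat_lit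 152) (nat_lit 0) (XT.lf (nat_lit 0) (nat_lit 15753481034) (nat_lit 228) (nat_lit 7331239932) (nat_lit 76) (nat_lit 14459989965) (nat_lit 19) (nat_lit 5) (nat_lit 22) (nat_lit 5) (nat_lit 20) (nat_lit 5) (nat_lit 363) (nat_lit 274) (nat_lit 143)) (XT.nd (nat_lit 78) (nat_lit 0) (nat_lit 0) (XT.lf (nat_lit 0) (nat_lit 1685871399) (nat_lit 152) (nat_lit 17993832631) (nat_lit 228) (nat_lit 18810770160) (nat_lit 17) (nat_lit 5) (nat_lit 19) (nat_lit 5) (nat_lit 20) (nat_lit 5) (nat_lit 364) (nat_lit 274) (nat_lit 142)) (XT.lf (nat_lit 0) (nat_lit 11113059282) (nat_lit 152) (nat_lit 12677984665) (nat_lit 228) (nat_lit 15671556807) (nat_lit 17) (nat_lit 5) (nat_lit 19) (nat_lit 5) (nat_lit 20) (nat_lit 5) (nat_lit 365) (nat_lit 274) (nat_lit 141)))) (XT.nd (nat_lit 78) (nat_lit 0) (nat_lit 0) (XT.lf (nat_lit 0) (nat_lit 20812655015) (nat_lit 152) (nat_lit 7206563301) (nat_lit 228) (nat_lit 12444877986)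 (nat_lit 17) (nat_lit 5) (nat_lit 19) (nat_lit 5) (nat_lit 20) (nat_lit 5) (nat_lit 366) (nat_lit 274) (nat_lit 140)) (XT.nd (nat_lit 78) (nat_lit 0) (nat_lit 0) (XT.lf (nat_lit 0) (nat_lit 30793133972) (nat_lit 152) (nat_lit 1574787684) (nat_lit 228) (nat_lit 9127914268) (nat_lit 17) (nat_lit 5) (nat_lit 19) (nat_lit 5) (nat_lit 20) (nat_lit 5) (nat_lit 367) (nat_lit 274) (nat_lit 139)) (XT.lf (nat_lit 0) (nat_lit 36881540785) (nat_lit 228) (nat_lit 1536091159) (nat_lit 76) (nat_lit 4139871590) (nat_lit 17) (nat_lit 5) (nat_lit 20) (nat_lit 5) (nat_lit 18) (nat_lit 4) (nat_lit 368) (nat_lit 274) (nat_lit 138))))))))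
noncomputable def xc154 : XT := (XT.nd (nat_lit 1716) (nat_lit 76) (nat_lit 0) (XT.nd (nat_lit 858) (nat_lit 228) (nat_lit 0) (XT.nd (nat_lit 390) (nat_lit 76) (nat_lit 0) (XT.nd (nat_lit 156) (nat_lit 152) (nat_lit 0) (XT.nd (nat_lit 78) (nat_lit 76) (nat_lit 0) (XT.lf (nat_lit 0) (nat_lit 8037080338) (nat_lit 76) (nat_lit 33580349432) (nat_lit 152) (nat_lit 2030994727) (nat_lit 16) (nat_lit 5) (nat_lit 17) (nat_lit 5) (nat_lit 18) (nat_lit 4) (nat_lit 369) (nat_lit 274) (nat_lit 137)) (XT.lf (nat_lit 0) (nat_lit 1699386286) (nat_lit 152) (nat_lit 26869102282) (nat_lit 76) (nat_lit 16202805424) (nat_lit 15) (nat_lit 5) (nat_lit 17) (nat_lit 5) (nat_lit 16) (nat_lit 5) (nat_lit 370) (nat_lit 274) (nat_lit 136))) (XT.nd (nat_lit 78) (nat_lit 152) (nat_lit 0) (XT.lf (nat_lit 0) (nat_lit 5495058804) (nat_lit 152) (nat_lit 17894129847) (nat_lit 76) (nat_lit 22538240010) (nat_lit 15) (nat_lit 5)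 (nat_lit 17) (nat_lit 5) (nat_lit 16) (nat_lit 5) (nat_lit 371) (nat_lit 274) (nat_lit 135)) (XT.nd (nat_lit 78) (nat_lit 152) (nat_lit 0) (XT.lf (nat_lit 0) (nat_lit 9398971454) (nat_lit 152) (nat_lit 8659061481) (nat_lit 76) (nat_lit 29060391477) (nat_lit 15) (nat_lit 5) (nat_lit 17) (nat_lit 5) (nat_lit 16) (nat_lit 5) (nat_lit 372) (nat_lit 274) (nat_lit 134)) (XT.lf (nat_lit 0) (nat_lit 860972976) (nat_lit 152) (nat_lit 12561838646) (nat_lit 228) (nat_lit 34922262015) (nat_lit 13) (nat_lit 5) (nat_lit 15) (nat_lit 5) (nat_lit 16) (nat_lit 5) (nat_lit 373) (nat_lit 274) (nat_lit 133))))) (XT.nd (nat_lit 234) (nat_lit 76) (nat_lit 0) (XT.nd (nat_lit 78) (nat_lit 0) (nat_lit 0) (XT.lf (nat_lit 0) (nat_lit 10835311220) (nat_lit 152) (nat_lit 6814103876) (nat_lit 228) (nat_lit 31956653474) (nat_lit 13) (nat_lit 5) (nat_lit 15) (nat_lit 5) (nat_lit 16) (nat_lit 5) (nat_lit 374) (nat_lit 274)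 (nat_lit 132)) (XT.nd (nat_lit 78) (nat_lit 0) (nat_lit 0) (XT.lf (nat_lit 0) (nat_lit 21100336389) (nat_lit 152) (nat_lit 897245877) (nat_lit 228) (nat_lit 28907475568) (nat_lit 13) (nat_lit 5) (nat_lit 15) (nat_lit 5) (nat_lit 16) (nat_lit 5) (nat_lit 375) (nat_lit 274) (nat_lit 131)) (XT.lf (nat_lit 0) (nat_lit 26521039496) (nat_lit 228) (nat_lit 20628085543) (nat_lit 76) (nat_lit 5092553619) (nat_lit 13) (nat_lit 5) (nat_lit 16) (nat_lit 5) (nat_lit 14) (nat_lit 4) (nat_lit 376) (nat_lit 274) (nat_lit 130)))) (XT.nd (nat_lit 78) (nat_lit 76) (nat_lit 0) (XT.lf (nat_lit 0) (nat_lit 31184120152) (nat_lit 228) (nat_lit 11193212052) (nat_lit 76) (nat_lit 11240955334) (nat_lit 13) (nat_lit 5) (nat_lit 16) (nat_lit 5) (nat_lit 14) (nat_lit 4) (nat_lit 377) (nat_lit 274) (nat_lit 129)) (XT.nd (nat_lit 78) (nat_lit 76) (nat_lit 0) (XT.lf (nat_lit 0) (nat_lit 35982273895) (nat_lit 228) (nat_lit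 1483232034) (nat_lit 76) (nat_lit 17570840155) (nat_lit 13) (nat_lit 5) (nat_lit 16) (nat_lit 5) (nat_lit 14) (nat_lit 4) (nat_lit 378) (nat_lit 274) (nat_lit 128)) (XT.lf (nat_lit 0) (nat_lit 8679711392) (nat_lit 76) (nat_lit 32323416589) (nat_lit 152) (nat_lit 15491462353) (nat_lit 12) (nat_lit 5) (nat_lit 13) (nat_lit 5) (nat_lit 14) (nat_lit 4) (nat_lit 379) (nat_lit 274) (nat_lit 127)))))) (XT.nd (nat_lit 390) (nat_lit 152) (nat_lit 0) (XT.nd (nat_lit 156) (nat_lit 76) (nat_lit 0) (XT.nd (nat_lit 78) (nat_lit 0) (nat_lit 0) (XT.lf (nat_lit 0) (nat_lit 19170315073) (nat_lit 76) (nat_lit 27014654297) (nat_lit 152) (nat_lit 11811308118) (nat_lit 12) (nat_lit 5) (nat_lit 13) (nat_lit 5) (nat_lit 14) (nat_lit 4) (nat_lit 380) (nat_lit 274) (nat_lit 126)) (XT.lf (nat_lit 0) (nat_lit 29968226330) (nat_lit 76) (nat_lit 21549558064) (nat_lit 152) (nat_lit 8025371552) (nat_lit 12) (nat_lit 5) (nat_lit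 13) (nat_lit 5) (nat_lit 14) (nat_lit 4) (nat_lit 381) (nat_lit 274) (nat_lit 125))) (XT.nd (nat_lit 78) (nat_lit 76) (nat_lit 0) (XT.lf (nat_lit 0) (nat_lit 41082880230) (nat_lit 76) (nat_lit 15923352563) (nat_lit 152) (nat_lit 4130344554) (nat_lit 12) (nat_lit 5) (nat_lit 13) (nat_lit 5) (nat_lit 14) (nat_lit 4) (nat_lit 382) (nat_lit 274) (nat_lit 124)) (XT.nd (nat_lit 78) (nat_lit 76) (nat_lit 0) (XT.lf (nat_lit 0) (nat_lit 52523988606) (nat_lit 76) (nat_lit 10131121693) (nat_lit 152) (nat_lit 122823703) (nat_lit 12) (nat_lit 5) (nat_lit 13) (nat_lit 5) (nat_lit 14) (nat_lit 4) (nat_lit 383) (nat_lit 274) (nat_lit 123)) (XT.lf (nat_lit 0) (nat_lit 3922624793) (nat_lit 152) (nat_lit 205568668) (nat_lit 76) (nat_lit 60339312932) (nat_lit 11) (nat_lit 5) (nat_lit 13) (nat_lit 5) (nat_lit 12) (nat_lit 5) (nat_lit 384) (nat_lit 274) (nat_lit 122))))) (XT.nd (nat_lit 234) (nat_lit 0) (nat_lit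 0) (XT.nd (nat_lit 78) (nat_lit 0) (nat_lit 0) (XT.lf (nat_lit 0) (nat_lit 8203040381) (nat_lit 228) (nat_lit 55887489834) (nat_lit 76) (nat_lit 2113722474) (nat_lit 9) (nat_lit 5) (nat_lit 12) (nat_lit 5) (nat_lit 10) (nat_lit 4) (nat_lit 385) (nat_lit 274) (nat_lit 121)) (XT.nd (nat_lit 78) (nat_lit 0) (nat_lit 0) (XT.lf (nat_lit 0) (nat_lit 12650839826) (nat_lit 228) (nat_lit 46881657989) (nat_lit 76) (nat_lit 8459439643) (nat_lit 9) (nat_lit 5) (nat_lit 12) (nat_lit 5) (nat_lit 10) (nat_lit 4) (nat_lit 386) (nat_lit 274) (nat_lit 120)) (XT.lf (nat_lit 0) (nat_lit 17228191501) (nat_lit 228) (nat_lit 37612159359) (nat_lit 76) (nat_lit 14993023435) (nat_lit 9) (nat_lit 5) (nat_lit 12) (nat_lit 5) (nat_lit 10) (nat_lit 4) (nat_lit 387) (nat_lit 274) (nat_lit 119)))) (XT.nd (nat_lit 78) (nat_lit 0) (nat_lit 0) (XT.lf (nat_lit 0) (nat_lit 21939095033) (nat_lit 228) (nat_lit 28070894383) (nat_lit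 76) (nat_lit 21720182809) (nat_lit 9) (nat_lit 5) (nat_lit 12) (nat_lit 5) (nat_lit 10) (nat_lit 4) (nat_lit 388) (nat_lit 274) (nat_lit 118)) (XT.nd (nat_lit 78) (nat_lit 0) (nat_lit 0) (XT.lf (nat_lit 0) (nat_lit 26787666746) (nat_lit 228) (nat_lit 18249526033) (nat_lit 76) (nat_lit 28646795863) (nat_lit 9) (nat_lit 5) (nat_lit 12) (nat_lit 5) (nat_lit 10) (nat_lit 4) (nat_lit 389) (nat_lit 274) (nat_lit 117)) (XT.lf (nat_lit 0) (nat_lit 31778143256) (nat_lit 228) (nat_lit 8139472531) (nat_lit 76) (nat_lit 35778914979) (nat_lit 9) (nat_lit 5) (nat_lit 12) (nat_lit 5) (nat_lit 10) (nat_lit 4) (nat_lit 390) (nat_lit 274) (nat_lit 116))))))) (XT.nd (nat_lit 32292) (nat_lit 0) (nat_lit 11020) (XT.nd (nat_lit 31824) (nat_lit 0) (nat_lit 12616) (XT.nd (nat_lit 31590) (nat_lit 0) (nat_lit 13376) (XT.nd (nat_lit 78) (nat_lit 0) (nat_lit 0) (XT.lf (nat_lit 0) (nat_lit 2313239789) (nat_lit 76) (nat_lit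 34623881660) (nat_lit 152) (nat_lit 40831768592) (nat_lit 8) (nat_lit 5) (nat_lit 9) (nat_lit 5) (nat_lit 10) (nat_lit 4) (nat_lit 391) (nat_lit 274) (nat_lit 115)) (XT.lf (nat_lit 0) (nat_lit 13240658952) (nat_lit 76) (nat_lit 29088999275) (nat_lit 152) (nat_lit 37571402566) (nat_lit 8) (nat_lit 5) (nat_lit 9) (nat_lit 5) (nat_lit 10) (nat_lit 4) (nat_lit 392) (nat_lit 274) (nat_lit 114))) (XT.nd (nat_lit 78) (nat_lit 760) (nat_lit 0) (XT.lf (nat_lit 0) (nat_lit 1396199382) (nat_lit 0) (nat_lit 1396199382) (nat_lit 684) (nat_lit 930113001) (nat_lit 194) (nat_lit 5) (nat_lit 194) (nat_lit 3) (nat_lit 203) (nat_lit 3) (nat_lit 275) (nat_lit 275) (nat_lit 230)) (XT.nd (nat_lit 78) (nat_lit 760) (nat_lit 0) (XT.lf (nat_lit 0) (nat_lit 5922543705) (nat_lit 0) (nat_lit 1035514833) (nat_lit 684) (nat_lit 555024709) (nat_lit 194) (nat_lit 5) (nat_lit 194) (nat_lit 3) (nat_lit 203) (nat_lit 3) (nat_lit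 276) (nat_lit 275) (nat_lit 229)) (XT.lf (nat_lit 0) (nat_lit 745813861) (nat_lit 760) (nat_lit 6032230678) (nat_lit 836) (nat_lit 805942906) (nat_lit 184) (nat_lit 5) (nat_lit 194) (nat_lit 5) (nat_lit 195) (nat_lit 5) (nat_lit 277) (nat_lit 275) (nat_lit 228))))) (XT.nd (nat_lit 234) (nat_lit 760) (nat_lit 0) (XT.nd (nat_lit 78) (nat_lit 0) (nat_lit 0) (XT.lf (nat_lit 0) (nat_lit 2051445392) (nat_lit 760) (nat_lit 2879525831) (nat_lit 836) (nat_lit 2726756385) (nat_lit 184) (nat_lit 5) (nat_lit 194) (nat_lit 5) (nat_lit 195) (nat_lit 5) (nat_lit 278) (nat_lit 275) (nat_lit 227)) (XT.nd (nat_lit 78) (nat_lit 0) (nat_lit 0) (XT.lf (nat_lit 76) (nat_lit 347345471) (nat_lit 0) (nat_lit 3004132767) (nat_lit 836) (nat_lit 4383720880) (nat_lit 185) (nat_lit 5) (nat_lit 184) (nat_lit 5) (nat_lit 195) (nat_lit 5) (nat_lit 279) (nat_lit 275) (nat_lit 226)) (XT.lf (nat_lit 76) (nat_lit 3703124313) (nat_lit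 0) (nat_lit 969501122) (nat_lit 836) (nat_lit 3143076918) (nat_lit 185) (nat_lit 5) (nat_lit 184) (nat_lit 5) (nat_lit 195) (nat_lit 5) (nat_lit 280) (nat_lit 275) (nat_lit 225)))) (XT.nd (nat_lit 78) (nat_lit 836) (nat_lit 0) (XT.lf (nat_lit 0) (nat_lit 5998823178) (nat_lit 760) (nat_lit 777732297) (nat_lit 836) (nat_lit 1123268727) (nat_lit 185) (nat_lit 5) (nat_lit 195) (nat_lit 5) (nat_lit 196) (nat_lit 5) (nat_lit 281) (nat_lit 275) (nat_lit 224)) (XT.nd (nat_lit 78) (nat_lit 836) (nat_lit 0) (XT.lf (nat_lit 76) (nat_lit 2672661890) (nat_lit 0) (nat_lit 4683348547) (nat_lit 836) (nat_lit 630884332) (nat_lit 186) (nat_lit 5) (nat_lit 185) (nat_lit 5) (nat_lit 196) (nat_lit 5) (nat_lit 282) (nat_lit 275) (nat_lit 223)) (XT.lf (nat_lit 0) (nat_lit 628410068) (nat_lit 836) (nat_lit 1868226309) (nat_lit 912) (nat_lit 5580968915) (nat_lit 174) (nat_lit 5) (nat_lit 185) (nat_lit 5) (nat_lit 186)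 (nat_lit 5) (nat_lit 283) (nat_lit 275) (nat_lit 222)))))) (XT.nd (nat_lit 390) (nat_lit 1596) (nat_lit 0) (XT.nd (nat_lit 156) (nat_lit 0) (nat_lit 76) (XT.nd (nat_lit 78) (nat_lit 0) (nat_lit 76) (XT.lf (nat_lit 76) (nat_lit 1680714369) (nat_lit 0) (nat_lit 205876039) (nat_lit 912) (nat_lit 6285193206) (nat_lit 175) (nat_lit 5) (nat_lit 174) (nat_lit 5) (nat_lit 186) (nat_lit 5) (nat_lit 284) (nat_lit 275) (nat_lit 221)) (XT.lf (nat_lit 0) (nat_lit 3181019360) (nat_lit 836) (nat_lit 2942947515) (nat_lit 912) (nat_lit 2145008509) (nat_lit 175) (nat_lit 5) (nat_lit 186) (nat_lit 5) (nat_lit 187) (nat_lit 5) (nat_lit 285) (nat_lit 275) (nat_lit 220))) (XT.nd (nat_lit 78) (nat_lit 0) (nat_lit 0) (XT.lf (nat_lit 76) (nat_lit 695720856) (nat_lit 0) (nat_lit 3787237077) (nat_lit 912) (nat_lit 3887203695) (nat_lit 176) (nat_lit 5) (nat_lit 175) (nat_lit 5) (nat_lit 187) (nat_lit 5) (nat_lit 286)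 (nat_lit 275) (nat_lit 219)) (XT.nd (nat_lit 78) (nat_lit 0) (nat_lit 76) (XT.lf (nat_lit 76) (nat_lit 4476711132) (nat_lit 0) (nat_lit 1337817566) (nat_lit 912) (nat_lit 2660272516) (nat_lit 176) (nat_lit 5) (nat_lit 175) (nat_lit 5) (nat_lit 187) (nat_lit 5) (nat_lit 287) (nat_lit 275) (nat_lit 218)) (XT.lf (nat_lit 0) (nat_lit 7159546283) (nat_lit 836) (nat_lit 250598030) (nat_lit 912) (nat_lit 1173361727) (nat_lit 176) (nat_lit 5) (nat_lit 187) (nat_lit 5) (nat_lit 188) (nat_lit 5) (nat_lit 288) (nat_lit 275) (nat_lit 217))))) (XT.nd (nat_lit 234) (nat_lit 836) (nat_lit 0) (XT.nd (nat_lit 78) (nat_lit 912) (nat_lit 0) (XT.lf (nat_lit 76) (nat_lit 3640156701) (nat_lit 0) (nat_lit 4916206416) (nat_lit 912) (nat_lit 138892659) (nat_lit 177) (nat_lit 5) (nat_lit 176) (nat_lit 5) (nat_lit 188) (nat_lit 5) (nat_lit 289) (nat_lit 275) (nat_lit 216)) (XT.nd (nat_lit 78) (nat_lit 0) (nat_lit 76)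 (XT.lf (nat_lit 0) (nat_lit 1127713080) (nat_lit 912) (nat_lit 1196454461) (nat_lit 988) (nat_lit 6486985589) (nat_lit 164) (nat_lit 5) (nat_lit 176) (nat_lit 5) (nat_lit 177) (nat_lit 5) (nat_lit 290) (nat_lit 275) (nat_lit 215)) (XT.lf (nat_lit 0) (nat_lit 2424781862) (nat_lit 912) (nat_lit 6129968295) (nat_lit 76) (nat_lit 375994730) (nat_lit 165) (nat_lit 5) (nat_lit 177) (nat_lit 5) (nat_lit 166) (nat_lit 5) (nat_lit 291) (nat_lit 275) (nat_lit 214)))) (XT.nd (nat_lit 78) (nat_lit 912) (nat_lit 0) (XT.lf (nat_lit 0) (nat_lit 3761441356) (nat_lit 912) (nat_lit 2161938332) (nat_lit 76) (nat_lit 3130637386) (nat_lit 165) (nat_lit 5) (nat_lit 177) (nat_lit 5) (nat_lit 166) (nat_lit 5) (nat_lit 292) (nat_lit 275) (nat_lit 213)) (XT.nd (nat_lit 78) (nat_lit 0) (nat_lit 0) (XT.lf (nat_lit 0) (nat_lit 1936022037) (nat_lit 912) (nat_lit 3187260305) (nat_lit 988) (nat_lit 4058262382) (nat_lit 153)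 (nat_lit 5) (nat_lit 165) (nat_lit 5) (nat_lit 166) (nat_lit 5) (nat_lit 293) (nat_lit 275) (nat_lit 212)) (XT.lf (nat_lit 0) (nat_lit 6174613203) (nat_lit 912) (nat_lit 340388791) (nat_lit 988) (nat_lit 2798332058) (nat_lit 153) (nat_lit 5) (nat_lit 165) (nat_lit 5) (nat_lit 166) (nat_lit 5) (nat_lit 294) (nat_lit 275) (nat_lit 211))))))))
noncomputable def xc155 : XT := (XT.nd (nat_lit 1716) (nat_lit 2812) (nat_lit 0) (XT.nd (nat_lit 858) (nat_lit 2128) (nat_lit 0) (XT.nd (nat_lit 390) (nat_lit 1596) (nat_lit 0) (XT.nd (nat_lit 156) (nat_lit 1140) (nat_lit 0) (XT.nd (nat_lit 78) (nat_lit 0) (nat_lit 0) (XT.lf (nat_lit 0) (nat_lit 1060089545) (nat_lit 988) (nat_lit 6891694103) (nat_lit 1064) (nat_lit 1497297544) (nat_lit 140) (nat_lit 5) (nat_lit 153) (nat_lit 5) (nat_lit 154) (nat_lit 5) (nat_lit 295) (nat_lit 275) (nat_lit 210)) (XT.lf (nat_lit 0) (nat_lit 5419065229) (nat_lit 988) (nat_lit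 4016510333) (nat_lit 1064) (nat_lit 153308414) (nat_lit 140) (nat_lit 5) (nat_lit 153) (nat_lit 5) (nat_lit 154) (nat_lit 5) (nat_lit 296) (nat_lit 275) (nat_lit 209))) (XT.nd (nat_lit 78) (nat_lit 0) (nat_lit 0) (XT.lf (nat_lit 0) (nat_lit 140203425) (nat_lit 1064) (nat_lit 1037509934) (nat_lit 1140) (nat_lit 8555785134) (nat_lit 125) (nat_lit 5) (nat_lit 139) (nat_lit 5) (nat_lit 140) (nat_lit 5) (nat_lit 297) (nat_lit 275) (nat_lit 208)) (XT.nd (nat_lit 78) (nat_lit 0) (nat_lit 0) (XT.lf (nat_lit 0) (nat_lit 2577689581) (nat_lit 1140) (nat_lit 5265034897) (nat_lit 76) (nat_lit 2038810187) (nat_lit 125) (nat_lit 5) (nat_lit 140) (nat_lit 5) (nat_lit 126) (nat_lit 5) (nat_lit 298) (nat_lit 275) (nat_lit 207)) (XT.lf (nat_lit 0) (nat_lit 4000868895) (nat_lit 1140) (nat_lit 843794871) (nat_lit 76) (nat_lit 5190001275) (nat_lit 125) (nat_lit 5) (nat_lit 140) (nat_lit 5) (nat_lit 126) (nat_lit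 5) (nat_lit 299) (nat_lit 275) (nat_lit 206))))) (XT.nd (nat_lit 234) (nat_lit 608) (nat_lit 0) (XT.nd (nat_lit 78) (nat_lit 456) (nat_lit 0) (XT.lf (nat_lit 0) (nat_lit 3757585433) (nat_lit 532) (nat_lit 1717056453) (nat_lit 608) (nat_lit 4717597130) (nat_lit 118) (nat_lit 5) (nat_lit 125) (nat_lit 5) (nat_lit 126) (nat_lit 5) (nat_lit 300) (nat_lit 275) (nat_lit 205)) (XT.nd (nat_lit 78) (nat_lit 456) (nat_lit 0) (XT.lf (nat_lit 0) (nat_lit 6988068402) (nat_lit 608) (nat_lit 1881027108) (nat_lit 76) (nat_lit 1485665601) (nat_lit 118) (nat_lit 5) (nat_lit 126) (nat_lit 5) (nat_lit 119) (nat_lit 5) (nat_lit 301) (nat_lit 275) (nat_lit 204)) (XT.lf (nat_lit 0) (nat_lit 2821536568) (nat_lit 456) (nat_lit 5742662958) (nat_lit 532) (nat_lit 1957521951) (nat_lit 112) (nat_lit 5) (nat_lit 118) (nat_lit 5) (nat_lit 119) (nat_lit 5) (nat_lit 302) (nat_lit 275) (nat_lit 203)))) (XT.nd (nat_lit 78) (nat_lit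 608) (nat_lit 0) (XT.lf (nat_lit 0) (nat_lit 7678259240) (nat_lit 456) (nat_lit 2502065243) (nat_lit 532) (nat_lit 513664157) (nat_lit 112) (nat_lit 5) (nat_lit 118) (nat_lit 5) (nat_lit 119) (nat_lit 5) (nat_lit 303) (nat_lit 275) (nat_lit 202)) (XT.nd (nat_lit 78) (nat_lit 0) (nat_lit 0) (XT.lf (nat_lit 0) (nat_lit 954366848) (nat_lit 608) (nat_lit 9069879823) (nat_lit 76) (nat_lit 846975517) (nat_lit 104) (nat_lit 5) (nat_lit 112) (nat_lit 5) (nat_lit 105) (nat_lit 5) (nat_lit 304) (nat_lit 275) (nat_lit 201)) (XT.lf (nat_lit 0) (nat_lit 2486308973) (nat_lit 608) (nat_lit 4284184653) (nat_lit 76) (nat_lit 4282293268) (nat_lit 104) (nat_lit 5) (nat_lit 112) (nat_lit 5) (nat_lit 105) (nat_lit 5) (nat_lit 305) (nat_lit 275) (nat_lit 200)))))) (XT.nd (nat_lit 390) (nat_lit 1216) (nat_lit 0) (XT.nd (nat_lit 156) (nat_lit 456) (nat_lit 0) (XT.nd (nat_lit 78) (nat_lit 0) (nat_lit 0) (XT.lf (nat_lit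 0) (nat_lit 632262724) (nat_lit 456) (nat_lit 3413429127) (nat_lit 532) (nat_lit 7194732658) (nat_lit 98) (nat_lit 5) (nat_lit 104) (nat_lit 5) (nat_lit 105) (nat_lit 5) (nat_lit 306) (nat_lit 275) (nat_lit 199)) (XT.lf (nat_lit 0) (nat_lit 5671846812) (nat_lit 532) (nat_lit 5674916987) (nat_lit 76) (nat_lit 86396125) (nat_lit 98) (nat_lit 5) (nat_lit 105) (nat_lit 5) (nat_lit 99) (nat_lit 5) (nat_lit 307) (nat_lit 275) (nat_lit 198))) (XT.nd (nat_lit 78) (nat_lit 456) (nat_lit 0) (XT.lf (nat_lit 0) (nat_lit 7357159550) (nat_lit 532) (nat_lit 652416872) (nat_lit 76) (nat_lit 3621856185) (nat_lit 98) (nat_lit 5) (nat_lit 105) (nat_lit 5) (nat_lit 99) (nat_lit 5) (nat_lit 308) (nat_lit 275) (nat_lit 197)) (XT.nd (nat_lit 78) (nat_lit 0) (nat_lit 0) (XT.lf (nat_lit 0) (nat_lit 4586029065) (nat_lit 456) (nat_lit 4528345350) (nat_lit 532) (nat_lit 2720703237) (nat_lit 92) (nat_lit 5) (nat_lit 98)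 (nat_lit 5) (nat_lit 99) (nat_lit 5) (nat_lit 309) (nat_lit 275) (nat_lit 196)) (XT.lf (nat_lit 0) (nat_lit 9971020604) (nat_lit 456) (nat_lit 937564114) (nat_lit 532) (nat_lit 1136781549) (nat_lit 92) (nat_lit 5) (nat_lit 98) (nat_lit 5) (nat_lit 99) (nat_lit 5) (nat_lit 310) (nat_lit 275) (nat_lit 195))))) (XT.nd (nat_lit 234) (nat_lit 380) (nat_lit 0) (XT.nd (nat_lit 78) (nat_lit 380) (nat_lit 0) (XT.lf (nat_lit 0) (nat_lit 521592174) (nat_lit 456) (nat_lit 8997181577) (nat_lit 76) (nat_lit 2742008527) (nat_lit 86) (nat_lit 5) (nat_lit 92) (nat_lit 5) (nat_lit 87) (nat_lit 5) (nat_lit 311) (nat_lit 275) (nat_lit 194)) (XT.nd (nat_lit 78) (nat_lit 380) (nat_lit 0) (XT.lf (nat_lit 0) (nat_lit 2215765610) (nat_lit 456) (nat_lit 3722799339) (nat_lit 76) (nat_lit 6543548537) (nat_lit 86) (nat_lit 5) (nat_lit 92) (nat_lit 5) (nat_lit 87) (nat_lit 5) (nat_lit 312) (nat_lit 275) (nat_lit 193)) (XT.lf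 (nat_lit 0) (nat_lit 1719851548) (nat_lit 380) (nat_lit 2236532007) (nat_lit 456) (nat_lit 8753888104) (nat_lit 81) (nat_lit 5) (nat_lit 86) (nat_lit 5) (nat_lit 87) (nat_lit 5) (nat_lit 313) (nat_lit 275) (nat_lit 192)))) (XT.nd (nat_lit 78) (nat_lit 380) (nat_lit 0) (XT.lf (nat_lit 0) (nat_lit 5781785774) (nat_lit 456) (nat_lit 5581514113) (nat_lit 76) (nat_lit 1581051708) (nat_lit 81) (nat_lit 5) (nat_lit 87) (nat_lit 5) (nat_lit 82) (nat_lit 5) (nat_lit 314) (nat_lit 275) (nat_lit 191)) (XT.nd (nat_lit 78) (nat_lit 380) (nat_lit 0) (XT.lf (nat_lit 0) (nat_lit 7664138285) (nat_lit 456) (nat_lit 55723588) (nat_lit 76) (nat_lit 5465578823) (nat_lit 81) (nat_lit 5) (nat_lit 87) (nat_lit 5) (nat_lit 82) (nat_lit 5) (nat_lit 315) (nat_lit 275) (nat_lit 190)) (XT.lf (nat_lit 0) (nat_lit 5724993989) (nat_lit 380) (nat_lit 3913625104) (nat_lit 456) (nat_lit 3794124535) (nat_lit 76) (nat_lit 5) (nat_lit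 81) (nat_lit 5) (nat_lit 82) (nat_lit 5) (nat_lit 316) (nat_lit 275) (nat_lit 189))))))) (XT.nd (nat_lit 858) (nat_lit 1368) (nat_lit 0) (XT.nd (nat_lit 390) (nat_lit 684) (nat_lit 0) (XT.nd (nat_lit 156) (nat_lit 380) (nat_lit 0) (XT.nd (nat_lit 78) (nat_lit 380) (nat_lit 0) (XT.lf (nat_lit 0) (nat_lit 11653911205) (nat_lit 456) (nat_lit 2030173320) (nat_lit 76) (nat_lit 3983224) (nat_lit 76) (nat_lit 5) (nat_lit 82) (nat_lit 5) (nat_lit 77) (nat_lit 5) (nat_lit 317) (nat_lit 275) (nat_lit 188)) (XT.lf (nat_lit 0) (nat_lit 3831486461) (nat_lit 380) (nat_lit 9955253278) (nat_lit 456) (nat_lit 162647491) (nat_lit 71) (nat_lit 5) (nat_lit 76) (nat_lit 5) (nat_lit 77) (nat_lit 5) (nat_lit 318) (nat_lit 275) (nat_lit 187))) (XT.nd (nat_lit 78) (nat_lit 304) (nat_lit 0) (XT.lf (nat_lit 0) (nat_lit 1732868629) (nat_lit 456) (nat_lit 4346942313) (nat_lit 76) (nat_lit 8138202476) (nat_lit 70) (nat_lit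 5) (nat_lit 76) (nat_lit 5) (nat_lit 71) (nat_lit 5) (nat_lit 319) (nat_lit 275) (nat_lit 186)) (XT.nd (nat_lit 78) (nat_lit 0) (nat_lit 0) (XT.lf (nat_lit 0) (nat_lit 1605054596) (nat_lit 304) (nat_lit 2074490972) (nat_lit 380) (nat_lit 10815221478) (nat_lit 66) (nat_lit 5) (nat_lit 70) (nat_lit 5) (nat_lit 71) (nat_lit 5) (nat_lit 320) (nat_lit 275) (nat_lit 185)) (XT.lf (nat_lit 0) (nat_lit 5731078030) (nat_lit 380) (nat_lit 6996053889) (nat_lit 76) (nat_lit 2051340328) (nat_lit 66) (nat_lit 5) (nat_lit 71) (nat_lit 5) (nat_lit 67) (nat_lit 5) (nat_lit 321) (nat_lit 275) (nat_lit 184))))) (XT.nd (nat_lit 234) (nat_lit 380) (nat_lit 0) (XT.nd (nat_lit 78) (nat_lit 304) (nat_lit 0) (XT.lf (nat_lit 0) (nat_lit 7847617973) (nat_lit 380) (nat_lit 967597874) (nat_lit 76) (nat_lit 6255410287) (nat_lit 66) (nat_lit 5) (nat_lit 71) (nat_lit 5) (nat_lit 67) (nat_lit 5) (nat_lit 322) (nat_lit 275)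 (nat_lit 183)) (XT.nd (nat_lit 78) (nat_lit 0) (nat_lit 0) (XT.lf (nat_lit 0) (nat_lit 5324769889) (nat_lit 304) (nat_lit 4737488580) (nat_lit 380) (nat_lit 5308288211) (nat_lit 62) (nat_lit 5) (nat_lit 66) (nat_lit 5) (nat_lit 67) (nat_lit 5) (nat_lit 323) (nat_lit 275) (nat_lit 182)) (XT.lf (nat_lit 0) (nat_lit 11805100510) (nat_lit 304) (nat_lit 531712418) (nat_lit 380) (nat_lit 3342886674) (nat_lit 62) (nat_lit 5) (nat_lit 66) (nat_lit 5) (nat_lit 67) (nat_lit 5) (nat_lit 324) (nat_lit 275) (nat_lit 181)))) (XT.nd (nat_lit 78) (nat_lit 76) (nat_lit 0) (XT.lf (nat_lit 0) (nat_lit 2472925749) (nat_lit 304) (nat_lit 12251117734) (nat_lit 380) (nat_lit 1272788312) (nat_lit 58) (nat_lit 5) (nat_lit 62) (nat_lit 5) (nat_lit 63) (nat_lit 5) (nat_lit 325) (nat_lit 275) (nat_lit 180)) (XT.nd (nat_lit 78) (nat_lit 0) (nat_lit 0) (XT.lf (nat_lit 0) (nat_lit 871634747) (nat_lit 380) (nat_lit 7266577845)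 (nat_lit 76) (nat_lit 8184183457) (nat_lit 57) (nat_lit 5) (nat_lit 62) (nat_lit 5) (nat_lit 58) (nat_lit 5) (nat_lit 326) (nat_lit 275) (nat_lit 179)) (XT.lf (nat_lit 0) (nat_lit 3039482763) (nat_lit 380) (nat_lit 854192262) (nat_lit 76) (nat_lit 12764168581) (nat_lit 57) (nat_lit 5) (nat_lit 62) (nat_lit 5) (nat_lit 58) (nat_lit 5) (nat_lit 327) (nat_lit 275) (nat_lit 178)))))) (XT.nd (nat_lit 468) (nat_lit 532) (nat_lit 0) (XT.nd (nat_lit 234) (nat_lit 304) (nat_lit 0) (XT.nd (nat_lit 78) (nat_lit 228) (nat_lit 0) (XT.lf (nat_lit 0) (nat_lit 5318782660) (nat_lit 380) (nat_lit 11162109392) (nat_lit 76) (nat_lit 521103689) (nat_lit 53) (nat_lit 5) (nat_lit 58) (nat_lit 5) (nat_lit 54) (nat_lit 5) (nat_lit 328) (nat_lit 275) (nat_lit 177)) (XT.nd (nat_lit 78) (nat_lit 228) (nat_lit 0) (XT.lf (nat_lit 0) (nat_lit 7699047566) (nat_lit 380) (nat_lit 4662265129) (nat_lit 76) (nat_lit 4994214829)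 (nat_lit 53) (nat_lit 5) (nat_lit 58) (nat_lit 5) (nat_lit 54) (nat_lit 5) (nat_lit 329) (nat_lit 275) (nat_lit 176)) (XT.lf (nat_lit 0) (nat_lit 2053507693) (nat_lit 228) (nat_lit 8102703467) (nat_lit 304) (nat_lit 7563321090) (nat_lit 50) (nat_lit 5) (nat_lit 53) (nat_lit 5) (nat_lit 54) (nat_lit 5) (nat_lit 330) (nat_lit 275) (nat_lit 175)))) (XT.nd (nat_lit 78) (nat_lit 304) (nat_lit 0) (XT.lf (nat_lit 0) (nat_lit 9047375094) (nat_lit 228) (nat_lit 3672778324) (nat_lit 304) (nat_lit 5373342575) (nat_lit 50) (nat_lit 5) (nat_lit 53) (nat_lit 5) (nat_lit 54) (nat_lit 5) (nat_lit 331) (nat_lit 275) (nat_lit 174)) (XT.nd (nat_lit 78) (nat_lit 304) (nat_lit 0) (XT.lf (nat_lit 0) (nat_lit 15355915799) (nat_lit 304) (nat_lit 2254966374) (nat_lit 76) (nat_lit 867979313) (nat_lit 50) (nat_lit 5) (nat_lit 54) (nat_lit 5) (nat_lit 51) (nat_lit 5) (nat_lit 332) (nat_lit 275) (nat_lit 173)) (XT.lf (nat_lit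 0) (nat_lit 4778562318) (nat_lit 304) (nat_lit 13361231223) (nat_lit 380) (nat_lit 733952148) (nat_lit 46) (nat_lit 5) (nat_lit 50) (nat_lit 5) (nat_lit 51) (nat_lit 5) (nat_lit 333) (nat_lit 275) (nat_lit 172))))) (XT.nd (nat_lit 234) (nat_lit 228) (nat_lit 0) (XT.nd (nat_lit 78) (nat_lit 228) (nat_lit 0) (XT.lf (nat_lit 0) (nat_lit 1702812599) (nat_lit 380) (nat_lit 7245649987) (nat_lit 76) (nat_lit 10331249370) (nat_lit 45) (nat_lit 5) (nat_lit 50) (nat_lit 5) (nat_lit 46) (nat_lit 5) (nat_lit 334) (nat_lit 275) (nat_lit 171)) (XT.nd (nat_lit 78) (nat_lit 228) (nat_lit 0) (XT.lf (nat_lit 0) (nat_lit 4185112625) (nat_lit 380) (nat_lit 215717359) (nat_lit 76) (nat_lit 15297220258) (nat_lit 45) (nat_lit 5) (nat_lit 50) (nat_lit 5) (nat_lit 46) (nat_lit 5) (nat_lit 335) (nat_lit 275) (nat_lit 170)) (XT.lf (nat_lit 0) (nat_lit 6801499154) (nat_lit 304) (nat_lit 12983351182) (nat_lit 76) (nat_lit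 342325601) (nat_lit 42) (nat_lit 5) (nat_lit 46) (nat_lit 5) (nat_lit 43) (nat_lit 5) (nat_lit 336) (nat_lit 275) (nat_lit 169)))) (XT.nd (nat_lit 78) (nat_lit 228) (nat_lit 0) (XT.lf (nat_lit 0) (nat_lit 9529857830) (nat_lit 304) (nat_lit 5901605741) (nat_lit 76) (nat_lit 5136732449) (nat_lit 42) (nat_lit 5) (nat_lit 46) (nat_lit 5) (nat_lit 43) (nat_lit 5) (nat_lit 337) (nat_lit 275) (nat_lit 168)) (XT.nd (nat_lit 78) (nat_lit 0) (nat_lit 0) (XT.lf (nat_lit 0) (nat_lit 1403002039) (nat_lit 228) (nat_lit 10938617844) (nat_lit 304) (nat_lit 8680804548) (nat_lit 39) (nat_lit 5) (nat_lit 42) (nat_lit 5) (nat_lit 43) (nat_lit 5) (nat_lit 338) (nat_lit 275) (nat_lit 167)) (XT.lf (nat_lit 0) (nat_lit 9030923889) (nat_lit 228) (nat_lit 6254657746) (nat_lit 304) (nat_lit 6203286252) (nat_lit 39) (nat_lit 5) (nat_lit 42) (nat_lit 5) (nat_lit 43) (nat_lit 5) (nat_lit 339) (nat_lit 275) (nat_lit 166))))))))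
noncomputable def xc156 : XT := (XT.nd (nat_lit 1716) (nat_lit 532) (nat_lit 0) (XT.nd (nat_lit 858) (nat_lit 532) (nat_lit 0) (XT.nd (nat_lit 390) (nat_lit 456) (nat_lit 0) (XT.nd (nat_lit 156) (nat_lit 304) (nat_lit 0) (XT.nd (nat_lit 78) (nat_lit 228) (nat_lit 0) (XT.lf (nat_lit 0) (nat_lit 16871371456) (nat_lit 228) (nat_lit 1435085142) (nat_lit 304) (nat_lit 3663213128) (nat_lit 39) (nat_lit 5) (nat_lit 42) (nat_lit 5) (nat_lit 43) (nat_lit 5) (nat_lit 340) (nat_lit 275) (nat_lit 165)) (XT.lf (nat_lit 0) (nat_lit 2480470630) (nat_lit 228) (nat_lit 18984135378) (nat_lit 304) (nat_lit 998912409) (nat_lit 36) (nat_lit 5) (nat_lit 39) (nat_lit 5) (nat_lit 40) (nat_lit 5) (nat_lit 341) (nat_lit 275) (nat_lit 164))) (XT.nd (nat_lit 78) (nat_lit 228) (nat_lit 0) (XT.lf (nat_lit 0) (nat_lit 1766382590) (nat_lit 304) (nat_lit 12627249574) (nat_lit 76) (nat_lit 8576414377) (nat_lit 35) (nat_lit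 5) (nat_lit 39) (nat_lit 5) (nat_lit 36) (nat_lit 5) (nat_lit 342) (nat_lit 275) (nat_lit 163)) (XT.nd (nat_lit 78) (nat_lit 228) (nat_lit 0) (XT.lf (nat_lit 0) (nat_lit 4583803343) (nat_lit 304) (nat_lit 5076423611) (nat_lit 76) (nat_lit 13831589881) (nat_lit 35) (nat_lit 5) (nat_lit 39) (nat_lit 5) (nat_lit 36) (nat_lit 5) (nat_lit 343) (nat_lit 275) (nat_lit 162)) (XT.lf (nat_lit 0) (nat_lit 2739079372) (nat_lit 228) (nat_lit 4762554387) (nat_lit 304) (nat_lit 16527149631) (nat_lit 32) (nat_lit 5) (nat_lit 35) (nat_lit 5) (nat_lit 36) (nat_lit 5) (nat_lit 344) (nat_lit 275) (nat_lit 161))))) (XT.nd (nat_lit 234) (nat_lit 304) (nat_lit 0) (XT.nd (nat_lit 78) (nat_lit 152) (nat_lit 0) (XT.lf (nat_lit 0) (nat_lit 10551148919) (nat_lit 304) (nat_lit 13705858751) (nat_lit 76) (nat_lit 323545963) (nat_lit 32) (nat_lit 5) (nat_lit 36) (nat_lit 5) (nat_lit 33) (nat_lit 5) (nat_lit 345) (nat_lit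 275) (nat_lit 160)) (XT.nd (nat_lit 78) (nat_lit 152) (nat_lit 0) (XT.lf (nat_lit 0) (nat_lit 13729273576) (nat_lit 304) (nat_lit 5956630823) (nat_lit 76) (nat_lit 5461877491) (nat_lit 32) (nat_lit 5) (nat_lit 36) (nat_lit 5) (nat_lit 33) (nat_lit 5) (nat_lit 346) (nat_lit 275) (nat_lit 159)) (XT.lf (nat_lit 0) (nat_lit 2050545040) (nat_lit 152) (nat_lit 14962170199) (nat_lit 228) (nat_lit 8719030642) (nat_lit 30) (nat_lit 5) (nat_lit 32) (nat_lit 5) (nat_lit 33) (nat_lit 5) (nat_lit 347) (nat_lit 275) (nat_lit 158)))) (XT.nd (nat_lit 78) (nat_lit 304) (nat_lit 0) (XT.lf (nat_lit 0) (nat_lit 10405641422) (nat_lit 152) (nat_lit 10039576401) (nat_lit 228) (nat_lit 5886511796) (nat_lit 30) (nat_lit 5) (nat_lit 32) (nat_lit 5) (nat_lit 33) (nat_lit 5) (nat_lit 348) (nat_lit 275) (nat_lit 157)) (XT.nd (nat_lit 78) (nat_lit 304) (nat_lit 0) (XT.lf (nat_lit 0) (nat_lit 18997410261) (nat_lit 152) (nat_lit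 4973972001) (nat_lit 228) (nat_lit 2978627052) (nat_lit 30) (nat_lit 5) (nat_lit 32) (nat_lit 5) (nat_lit 33) (nat_lit 5) (nat_lit 349) (nat_lit 275) (nat_lit 156)) (XT.lf (nat_lit 0) (nat_lit 11760693) (nat_lit 304) (nat_lit 27338309390) (nat_lit 76) (nat_lit 236910980) (nat_lit 26) (nat_lit 5) (nat_lit 30) (nat_lit 5) (nat_lit 27) (nat_lit 5) (nat_lit 350) (nat_lit 275) (nat_lit 155)))))) (XT.nd (nat_lit 390) (nat_lit 380) (nat_lit 0) (XT.nd (nat_lit 156) (nat_lit 152) (nat_lit 0) (XT.nd (nat_lit 78) (nat_lit 0) (nat_lit 0) (XT.lf (nat_lit 0) (nat_lit 3153283818) (nat_lit 304) (nat_lit 19475063370) (nat_lit 76) (nat_lit 5610206898) (nat_lit 26) (nat_lit 5) (nat_lit 30) (nat_lit 5) (nat_lit 27) (nat_lit 5) (nat_lit 351) (nat_lit 275) (nat_lit 154)) (XT.lf (nat_lit 0) (nat_lit 6380259620) (nat_lit 304) (nat_lit 11389393634) (nat_lit 76) (nat_lit 11140299983) (nat_lit 26) (nat_lit 5) (nat_lit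 30) (nat_lit 5) (nat_lit 27) (nat_lit 5) (nat_lit 352) (nat_lit 275) (nat_lit 153))) (XT.nd (nat_lit 78) (nat_lit 152) (nat_lit 0) (XT.lf (nat_lit 0) (nat_lit 9695507786) (nat_lit 304) (nat_lit 3074235033) (nat_lit 76) (nat_lit 16832022357) (nat_lit 26) (nat_lit 5) (nat_lit 30) (nat_lit 5) (nat_lit 27) (nat_lit 5) (nat_lit 353) (nat_lit 275) (nat_lit 152)) (XT.nd (nat_lit 78) (nat_lit 0) (nat_lit 0) (XT.lf (nat_lit 0) (nat_lit 5586694641) (nat_lit 152) (nat_lit 7568933221) (nat_lit 228) (nat_lit 17157355453) (nat_lit 24) (nat_lit 5) (nat_lit 26) (nat_lit 5) (nat_lit 27) (nat_lit 5) (nat_lit 354) (nat_lit 275) (nat_lit 151)) (XT.lf (nat_lit 0) (nat_lit 14557895301) (nat_lit 152) (nat_lit 2184532242) (nat_lit 228) (nat_lit 14302438034) (nat_lit 24) (nat_lit 5) (nat_lit 26) (nat_lit 5) (nat_lit 27) (nat_lit 5) (nat_lit 355) (nat_lit 275) (nat_lit 150))))) (XT.nd (nat_lit 234) (nat_lit 228) (nat_lit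 0) (XT.nd (nat_lit 78) (nat_lit 152) (nat_lit 0) (XT.lf (nat_lit 0) (nat_lit 20461172073) (nat_lit 228) (nat_lit 8045203808) (nat_lit 76) (nat_lit 3291611659) (nat_lit 24) (nat_lit 5) (nat_lit 27) (nat_lit 5) (nat_lit 25) (nat_lit 5) (nat_lit 356) (nat_lit 275) (nat_lit 149)) (XT.nd (nat_lit 78) (nat_lit 0) (nat_lit 0) (XT.lf (nat_lit 0) (nat_lit 628390888) (nat_lit 152) (nat_lit 23683018739) (nat_lit 228) (nat_lit 8261708680) (nat_lit 22) (nat_lit 5) (nat_lit 24) (nat_lit 5) (nat_lit 25) (nat_lit 5) (nat_lit 357) (nat_lit 275) (nat_lit 148)) (XT.lf (nat_lit 0) (nat_lit 9715172528) (nat_lit 152) (nat_lit 18635594374) (nat_lit 228) (nat_lit 5018540400) (nat_lit 22) (nat_lit 5) (nat_lit 24) (nat_lit 5) (nat_lit 25) (nat_lit 5) (nat_lit 358) (nat_lit 275) (nat_lit 147)))) (XT.nd (nat_lit 78) (nat_lit 228) (nat_lit 0) (XT.lf (nat_lit 0) (nat_lit 19062965688) (nat_lit 152) (nat_lit 13440933200)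 (nat_lit 228) (nat_lit 1685717575) (nat_lit 22) (nat_lit 5) (nat_lit 24) (nat_lit 5) (nat_lit 25) (nat_lit 5) (nat_lit 359) (nat_lit 275) (nat_lit 146)) (XT.nd (nat_lit 78) (nat_lit 152) (nat_lit 0) (XT.lf (nat_lit 0) (nat_lit 1705724702) (nat_lit 228) (nat_lit 6371547015) (nat_lit 76) (nat_lit 26956989163) (nat_lit 21) (nat_lit 5) (nat_lit 24) (nat_lit 5) (nat_lit 22) (nat_lit 5) (nat_lit 360) (nat_lit 275) (nat_lit 145)) (XT.lf (nat_lit 0) (nat_lit 2670553389) (nat_lit 152) (nat_lit 2513085225) (nat_lit 228) (nat_lit 30719558289) (nat_lit 19) (nat_lit 5) (nat_lit 21) (nat_lit 5) (nat_lit 22) (nat_lit 5) (nat_lit 361) (nat_lit 275) (nat_lit 144))))))) (XT.nd (nat_lit 858) (nat_lit 228) (nat_lit 0) (XT.nd (nat_lit 390) (nat_lit 152) (nat_lit 0) (XT.nd (nat_lit 156) (nat_lit 152) (nat_lit 0) (XT.nd (nat_lit 78) (nat_lit 0) (nat_lit 0) (XT.lf (nat_lit 0) (nat_lit 8854801069) (nat_lit 228) (nat_lit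 24724465148) (nat_lit 76) (nat_lit 3216278398) (nat_lit 19) (nat_lit 5) (nat_lit 22) (nat_lit 5) (nat_lit 20) (nat_lit 5) (nat_lit 362) (nat_lit 275) (nat_lit 143)) (XT.lf (nat_lit 0) (nat_lit 12654184621) (nat_lit 228) (nat_lit 15996749622) (nat_lit 76) (nat_lit 9063196552) (nat_lit 19) (nat_lit 5) (nat_lit 22) (nat_lit 5) (nat_lit 20) (nat_lit 5) (nat_lit 363) (nat_lit 275) (nat_lit 142))) (XT.nd (nat_lit 78) (nat_lit 152) (nat_lit 0) (XT.lf (nat_lit 0) (nat_lit 16560951808) (nat_lit 228) (nat_lit 7017713464) (nat_lit 76) (nat_lit 15081817538) (nat_lit 19) (nat_lit 5) (nat_lit 22) (nat_lit 5) (nat_lit 20) (nat_lit 5) (nat_lit 364) (nat_lit 275) (nat_lit 141)) (XT.nd (nat_lit 78) (nat_lit 0) (nat_lit 0) (XT.lf (nat_lit 0) (nat_lit 2264681171) (nat_lit 152) (nat_lit 18335604640) (nat_lit 228) (nat_lit 19034488673) (nat_lit 17) (nat_lit 5) (nat_lit 19) (nat_lit 5) (nat_lit 20) (nat_lit 5) (nat_lit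 365) (nat_lit 275) (nat_lit 140)) (XT.lf (nat_lit 0) (nat_lit 11959299245) (nat_lit 152) (nat_lit 12866049477) (nat_lit 228) (nat_lit 15811019442) (nat_lit 17) (nat_lit 5) (nat_lit 19) (nat_lit 5) (nat_lit 20) (nat_lit 5) (nat_lit 366) (nat_lit 275) (nat_lit 139))))) (XT.nd (nat_lit 234) (nat_lit 152) (nat_lit 0) (XT.nd (nat_lit 78) (nat_lit 0) (nat_lit 0) (XT.lf (nat_lit 0) (nat_lit 21934945524) (nat_lit 152) (nat_lit 7236085706) (nat_lit 228) (nat_lit 12497171831) (nat_lit 17) (nat_lit 5) (nat_lit 19) (nat_lit 5) (nat_lit 20) (nat_lit 5) (nat_lit 367) (nat_lit 275) (nat_lit 138)) (XT.nd (nat_lit 78) (nat_lit 0) (nat_lit 0) (XT.lf (nat_lit 0) (nat_lit 32200336592) (nat_lit 152) (nat_lit 1440793942) (nat_lit 228) (nat_lit 9090050246) (nat_lit 17) (nat_lit 5) (nat_lit 19) (nat_lit 5) (nat_lit 20) (nat_lit 5) (nat_lit 368) (nat_lit 275) (nat_lit 137)) (XT.lf (nat_lit 0) (nat_lit 38283048555)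 (nat_lit 228) (nat_lit 1105283934) (nat_lit 76) (nat_lit 4436592766) (nat_lit 17) (nat_lit 5) (nat_lit 20) (nat_lit 5) (nat_lit 18) (nat_lit 4) (nat_lit 369) (nat_lit 275) (nat_lit 136)))) (XT.nd (nat_lit 78) (nat_lit 76) (nat_lit 0) (XT.lf (nat_lit 0) (nat_lit 8750407317) (nat_lit 76) (nat_lit 34406552083) (nat_lit 152) (nat_lit 1791749243) (nat_lit 16) (nat_lit 5) (nat_lit 17) (nat_lit 5) (nat_lit 18) (nat_lit 4) (nat_lit 370) (nat_lit 275) (nat_lit 135)) (XT.nd (nat_lit 78) (nat_lit 0) (nat_lit 0) (XT.lf (nat_lit 0) (nat_lit 2036113335) (nat_lit 152) (nat_lit 27210614487) (nat_lit 76) (nat_lit 16858719403) (nat_lit 15) (nat_lit 5) (nat_lit 17) (nat_lit 5) (nat_lit 16) (nat_lit 5) (nat_lit 371) (nat_lit 275) (nat_lit 134)) (XT.lf (nat_lit 0) (nat_lit 5937333345) (nat_lit 152) (nat_lit 17979923778) (nat_lit 76) (nat_lit 23379270528) (nat_lit 15) (nat_lit 5) (nat_lit 17) (nat_lit 5) (nat_lit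 16) (nat_lit 5) (nat_lit 372) (nat_lit 275) (nat_lit 133)))))) (XT.nd (nat_lit 390) (nat_lit 76) (nat_lit 0) (XT.nd (nat_lit 156) (nat_lit 0) (nat_lit 0) (XT.nd (nat_lit 78) (nat_lit 152) (nat_lit 0) (XT.lf (nat_lit 0) (nat_lit 9950283100) (nat_lit 152) (nat_lit 8480940156) (nat_lit 76) (nat_lit 30092284112) (nat_lit 15) (nat_lit 5) (nat_lit 17) (nat_lit 5) (nat_lit 16) (nat_lit 5) (nat_lit 373) (nat_lit 275) (nat_lit 132)) (XT.lf (nat_lit 0) (nat_lit 1320402265) (nat_lit 152) (nat_lit 12770759310) (nat_lit 228) (nat_lit 35695916146) (nat_lit 13) (nat_lit 5) (nat_lit 15) (nat_lit 5) (nat_lit 16) (nat_lit 5) (nat_lit 374) (nat_lit 275) (nat_lit 131))) (XT.nd (nat_lit 78) (nat_lit 0) (nat_lit 0) (XT.lf (nat_lit 0) (nat_lit 11581341527) (nat_lit 152) (nat_lit 6855483794) (nat_lit 228) (nat_lit 32649320331) (nat_lit 13) (nat_lit 5) (nat_lit 15) (nat_lit 5) (nat_lit 16) (nat_lit 5) (nat_lit 375)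 (nat_lit 275) (nat_lit 130)) (XT.nd (nat_lit 78) (nat_lit 0) (nat_lit 0) (XT.lf (nat_lit 0) (nat_lit 22142056160) (nat_lit 152) (nat_lit 765868885) (nat_lit 228) (nat_lit 29516415615) (nat_lit 13) (nat_lit 5) (nat_lit 15) (nat_lit 5) (nat_lit 16) (nat_lit 5) (nat_lit 376) (nat_lit 275) (nat_lit 129)) (XT.lf (nat_lit 0) (nat_lit 27561269646) (nat_lit 228) (nat_lit 20843960181) (nat_lit 76) (nat_lit 5396015154) (nat_lit 13) (nat_lit 5) (nat_lit 16) (nat_lit 5) (nat_lit 14) (nat_lit 4) (nat_lit 377) (nat_lit 275) (nat_lit 128))))) (XT.nd (nat_lit 234) (nat_lit 0) (nat_lit 0) (XT.nd (nat_lit 78) (nat_lit 76) (nat_lit 0) (XT.lf (nat_lit 0) (nat_lit 32357118480) (nat_lit 228) (nat_lit 11137777416) (nat_lit 76) (nat_lit 11724480039) (nat_lit 13) (nat_lit 5) (nat_lit 16) (nat_lit 5) (nat_lit 14) (nat_lit 4) (nat_lit 378) (nat_lit 275) (nat_lit 127)) (XT.nd (nat_lit 78) (nat_lit 76) (nat_lit 0) (XT.lf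 (nat_lit 0) (nat_lit 37292300096) (nat_lit 228) (nat_lit 1147893074) (nat_lit 76) (nat_lit 18240000355) (nat_lit 13) (nat_lit 5) (nat_lit 16) (nat_lit 5) (nat_lit 14) (nat_lit 4) (nat_lit 379) (nat_lit 275) (nat_lit 126)) (XT.lf (nat_lit 0) (nat_lit 9316214773) (nat_lit 76) (nat_lit 33144465169) (nat_lit 152) (nat_lit 15721607657) (nat_lit 12) (nat_lit 5) (nat_lit 13) (nat_lit 5) (nat_lit 14) (nat_lit 4) (nat_lit 380) (nat_lit 275) (nat_lit 125)))) (XT.nd (nat_lit 78) (nat_lit 0) (nat_lit 0) (XT.lf (nat_lit 0) (nat_lit 20110581845) (nat_lit 76) (nat_lit 27680769734) (nat_lit 152) (nat_lit 11937881764) (nat_lit 12) (nat_lit 5) (nat_lit 13) (nat_lit 5) (nat_lit 14) (nat_lit 4) (nat_lit 381) (nat_lit 275) (nat_lit 124)) (XT.nd (nat_lit 78) (nat_lit 0) (nat_lit 0) (XT.lf (nat_lit 0) (nat_lit 31221794789) (nat_lit 76) (nat_lit 22055924231) (nat_lit 152) (nat_lit 8045001050) (nat_lit 12) (nat_lit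 5) (nat_lit 13) (nat_lit 5) (nat_lit 14) (nat_lit 4) (nat_lit 382) (nat_lit 275) (nat_lit 123)) (XT.lf (nat_lit 0) (nat_lit 42659562432) (nat_lit 76) (nat_lit 16265013747) (nat_lit 152) (nat_lit 4039563970) (nat_lit 12) (nat_lit 5) (nat_lit 13) (nat_lit 5) (nat_lit 14) (nat_lit 4) (nat_lit 383) (nat_lit 275) (nat_lit 122))))))))
noncomputable def xc157 : XT := (XT.nd (nat_lit 33306) (nat_lit 0) (nat_lit 5852) (XT.nd (nat_lit 32448) (nat_lit 0) (nat_lit 11780) (XT.nd (nat_lit 390) (nat_lit 0) (nat_lit 0) (XT.nd (nat_lit 156) (nat_lit 0) (nat_lit 0) (XT.nd (nat_lit 78) (nat_lit 152) (nat_lit 0) (XT.lf (nat_lit 0) (nat_lit 80330635) (nat_lit 152) (nat_lit 10221836446) (nat_lit 76) (nat_lit 54352737122) (nat_lit 11) (nat_lit 5) (nat_lit 13) (nat_lit 5) (nat_lit 12) (nat_lit 5) (nat_lit 384) (nat_lit 275) (nat_lit 121)) (XT.lf (nat_lit 0) (nat_lit 119242813) (nat_lit 152) (nat_lit 4120624837) (nat_lit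 228) (nat_lit 62155411780) (nat_lit 9) (nat_lit 5) (nat_lit 11) (nat_lit 5) (nat_lit 12) (nat_lit 5) (nat_lit 385) (nat_lit 275) (nat_lit 120))) (XT.nd (nat_lit 78) (nat_lit 0) (nat_lit 0) (XT.lf (nat_lit 0) (nat_lit 8646144935) (nat_lit 228) (nat_lit 57233800801) (nat_lit 76) (nat_lit 2304266627) (nat_lit 9) (nat_lit 5) (nat_lit 12) (nat_lit 5) (nat_lit 10) (nat_lit 4) (nat_lit 386) (nat_lit 275) (nat_lit 119)) (XT.nd (nat_lit 78) (nat_lit 0) (nat_lit 0) (XT.lf (nat_lit 0) (nat_lit 13221640111) (nat_lit 228) (nat_lit 47967414788) (nat_lit 76) (nat_lit 8836652423) (nat_lit 9) (nat_lit 5) (nat_lit 12) (nat_lit 5) (nat_lit 10) (nat_lit 4) (nat_lit 387) (nat_lit 275) (nat_lit 118)) (XT.lf (nat_lit 0) (nat_lit 17930741217) (nat_lit 228) (nat_lit 38429171771) (nat_lit 76) (nat_lit 15562648693) (nat_lit 9) (nat_lit 5) (nat_lit 12) (nat_lit 5) (nat_lit 10) (nat_lit 4) (nat_lit 388) (nat_lit 275) (nat_lit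 117))))) (XT.nd (nat_lit 31824) (nat_lit 0) (nat_lit 13224) (XT.nd (nat_lit 78) (nat_lit 0) (nat_lit 0) (XT.lf (nat_lit 0) (nat_lit 22777563002) (nat_lit 228) (nat_lit 28610737361) (nat_lit 76) (nat_lit 22488132520) (nat_lit 9) (nat_lit 5) (nat_lit 12) (nat_lit 5) (nat_lit 10) (nat_lit 4) (nat_lit 389) (nat_lit 275) (nat_lit 116)) (XT.nd (nat_lit 78) (nat_lit 0) (nat_lit 0) (XT.lf (nat_lit 0) (nat_lit 27766340552) (nat_lit 228) (nat_lit 18503532345) (nat_lit 76) (nat_lit 29619155300) (nat_lit 9) (nat_lit 5) (nat_lit 12) (nat_lit 5) (nat_lit 10) (nat_lit 4) (nat_lit 390) (nat_lit 275) (nat_lit 115)) (XT.lf (nat_lit 0) (nat_lit 32901432994) (nat_lit 228) (nat_lit 8098725184) (nat_lit 76) (nat_lit 36961948021) (nat_lit 9) (nat_lit 5) (nat_lit 12) (nat_lit 5) (nat_lit 10) (nat_lit 4) (nat_lit 391) (nat_lit 275) (nat_lit 114)))) (XT.nd (nat_lit 78) (nat_lit 0) (nat_lit 0) (XT.lf (nat_lit 0) (nat_lit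 355204410) (nat_lit 836) (nat_lit 1717840930) (nat_lit 836) (nat_lit 1717840930) (nat_lit 183) (nat_lit 3) (nat_lit 194) (nat_lit 3) (nat_lit 194) (nat_lit 5) (nat_lit 276) (nat_lit 276) (nat_lit 228)) (XT.nd (nat_lit 78) (nat_lit 0) (nat_lit 0) (XT.lf (nat_lit 0) (nat_lit 1953123590) (nat_lit 836) (nat_lit 333630754) (nat_lit 836) (nat_lit 5367270492) (nat_lit 183) (nat_lit 3) (nat_lit 194) (nat_lit 3) (nat_lit 194) (nat_lit 5) (nat_lit 277) (nat_lit 276) (nat_lit 227)) (XT.lf (nat_lit 76) (nat_lit 2893085182) (nat_lit 0) (nat_lit 319760922) (nat_lit 836) (nat_lit 4516382920) (nat_lit 184) (nat_lit 5) (nat_lit 183) (nat_lit 3) (nat_lit 194) (nat_lit 5) (nat_lit 278) (nat_lit 276) (nat_lit 226)))))) (XT.nd (nat_lit 390) (nat_lit 760) (nat_lit 0) (XT.nd (nat_lit 156) (nat_lit 760) (nat_lit 0) (XT.nd (nat_lit 78) (nat_lit 0) (nat_lit 0) (XT.lf (nat_lit 0) (nat_lit 4483458745) (nat_lit 760) (nat_lit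 1625982001) (nat_lit 836) (nat_lit 1698226621) (nat_lit 184) (nat_lit 5) (nat_lit 194) (nat_lit 5) (nat_lit 195) (nat_lit 5) (nat_lit 279) (nat_lit 276) (nat_lit 225)) (XT.lf (nat_lit 76) (nat_lit 1684558875) (nat_lit 0) (nat_lit 4081644831) (nat_lit 836) (nat_lit 2123200737) (nat_lit 185) (nat_lit 5) (nat_lit 184) (nat_lit 5) (nat_lit 195) (nat_lit 5) (nat_lit 280) (nat_lit 276) (nat_lit 224))) (XT.nd (nat_lit 78) (nat_lit 760) (nat_lit 0) (XT.lf (nat_lit 76) (nat_lit 5102366625) (nat_lit 0) (nat_lit 1957215361) (nat_lit 836) (nat_lit 915008284) (nat_lit 185) (nat_lit 5) (nat_lit 184) (nat_lit 5) (nat_lit 195) (nat_lit 5) (nat_lit 281) (nat_lit 276) (nat_lit 223)) (XT.nd (nat_lit 78) (nat_lit 0) (nat_lit 0) (XT.lf (nat_lit 0) (nat_lit 287130007) (nat_lit 836) (nat_lit 7523884796) (nat_lit 912) (nat_lit 252449931) (nat_lit 174) (nat_lit 5) (nat_lit 185) (nat_lit 5) (nat_lit 186) (nat_lit 5)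 (nat_lit 282) (nat_lit 276) (nat_lit 222)) (XT.lf (nat_lit 0) (nat_lit 1513242253) (nat_lit 836) (nat_lit 4097241440) (nat_lit 912) (nat_lit 2544208427) (nat_lit 174) (nat_lit 5) (nat_lit 185) (nat_lit 5) (nat_lit 186) (nat_lit 5) (nat_lit 283) (nat_lit 276) (nat_lit 221))))) (XT.nd (nat_lit 234) (nat_lit 760) (nat_lit 0) (XT.nd (nat_lit 78) (nat_lit 0) (nat_lit 0) (XT.lf (nat_lit 0) (nat_lit 2735003113) (nat_lit 836) (nat_lit 594008977) (nat_lit 912) (nat_lit 4921021475) (nat_lit 174) (nat_lit 5) (nat_lit 185) (nat_lit 5) (nat_lit 186) (nat_lit 5) (nat_lit 284) (nat_lit 276) (nat_lit 220)) (XT.nd (nat_lit 78) (nat_lit 0) (nat_lit 76) (XT.lf (nat_lit 76) (nat_lit 3048358117) (nat_lit 0) (nat_lit 934424710) (nat_lit 912) (nat_lit 4365910470) (nat_lit 175) (nat_lit 5) (nat_lit 174) (nat_lit 5) (nat_lit 186) (nat_lit 5) (nat_lit 285) (nat_lit 276) (nat_lit 219)) (XT.lf (nat_lit 0) (nat_lit 5249897341)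 (nat_lit 836) (nat_lit 1679381544) (nat_lit 912) (nat_lit 1521711868) (nat_lit 175) (nat_lit 5) (nat_lit 186) (nat_lit 5) (nat_lit 187) (nat_lit 5) (nat_lit 286) (nat_lit 276) (nat_lit 218)))) (XT.nd (nat_lit 78) (nat_lit 836) (nat_lit 0) (XT.lf (nat_lit 76) (nat_lit 2055193403) (nat_lit 0) (nat_lit 4491089068) (nat_lit 912) (nat_lit 2010467990) (nat_lit 176) (nat_lit 5) (nat_lit 175) (nat_lit 5) (nat_lit 187) (nat_lit 5) (nat_lit 287) (nat_lit 276) (nat_lit 217)) (XT.nd (nat_lit 78) (nat_lit 836) (nat_lit 0) (XT.lf (nat_lit 76) (nat_lit 5910625011) (nat_lit 0) (nat_lit 1950995665) (nat_lit 912) (nat_lit 804787666) (nat_lit 176) (nat_lit 5) (nat_lit 175) (nat_lit 5) (nat_lit 187) (nat_lit 5) (nat_lit 288) (nat_lit 276) (nat_lit 216)) (XT.lf (nat_lit 0) (nat_lit 409393464) (nat_lit 912) (nat_lit 7692962621) (nat_lit 988) (nat_lit 677567986) (nat_lit 164) (nat_lit 5) (nat_lit 176) (nat_lit 5)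 (nat_lit 177) (nat_lit 5) (nat_lit 289) (nat_lit 276) (nat_lit 215))))))) (XT.nd (nat_lit 858) (nat_lit 2432) (nat_lit 0) (XT.nd (nat_lit 390) (nat_lit 2660) (nat_lit 0) (XT.nd (nat_lit 156) (nat_lit 836) (nat_lit 0) (XT.nd (nat_lit 78) (nat_lit 0) (nat_lit 0) (XT.lf (nat_lit 0) (nat_lit 1655855891) (nat_lit 912) (nat_lit 3848819750) (nat_lit 988) (nat_lit 3391686076) (nat_lit 164) (nat_lit 5) (nat_lit 176) (nat_lit 5) (nat_lit 177) (nat_lit 5) (nat_lit 290) (nat_lit 276) (nat_lit 214)) (XT.lf (nat_lit 76) (nat_lit 86383304) (nat_lit 0) (nat_lit 2819800979) (nat_lit 988) (nat_lit 6111227085) (nat_lit 165) (nat_lit 5) (nat_lit 164) (nat_lit 5) (nat_lit 177) (nat_lit 5) (nat_lit 291) (nat_lit 276) (nat_lit 213))) (XT.nd (nat_lit 78) (nat_lit 836) (nat_lit 0) (XT.lf (nat_lit 76) (nat_lit 4192844141) (nat_lit 0) (nat_lit 6439372) (nat_lit 988) (nat_lit 4942760915) (nat_lit 165) (nat_lit 5) (nat_lit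 164) (nat_lit 5) (nat_lit 177) (nat_lit 5) (nat_lit 292) (nat_lit 276) (nat_lit 212)) (XT.nd (nat_lit 78) (nat_lit 912) (nat_lit 0) (XT.lf (nat_lit 0) (nat_lit 5526416924) (nat_lit 912) (nat_lit 901816914) (nat_lit 76) (nat_lit 2842431955) (nat_lit 165) (nat_lit 5) (nat_lit 177) (nat_lit 5) (nat_lit 166) (nat_lit 5) (nat_lit 293) (nat_lit 276) (nat_lit 211)) (XT.lf (nat_lit 0) (nat_lit 3306092271) (nat_lit 912) (nat_lit 3587512156) (nat_lit 988) (nat_lit 2509637616) (nat_lit 153) (nat_lit 5) (nat_lit 165) (nat_lit 5) (nat_lit 166) (nat_lit 5) (nat_lit 294) (nat_lit 276) (nat_lit 210))))) (XT.nd (nat_lit 234) (nat_lit 1596) (nat_lit 0) (XT.nd (nat_lit 78) (nat_lit 1064) (nat_lit 0) (XT.lf (nat_lit 0) (nat_lit 7633627883) (nat_lit 912) (nat_lit 646361660) (nat_lit 988) (nat_lit 1260561012) (nat_lit 153) (nat_lit 5) (nat_lit 165) (nat_lit 5) (nat_lit 166) (nat_lit 5) (nat_lit 295) (nat_lit 276)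 (nat_lit 209)) (XT.nd (nat_lit 78) (nat_lit 0) (nat_lit 0) (XT.lf (nat_lit 0) (nat_lit 41625947) (nat_lit 1064) (nat_lit 7274333890) (nat_lit 76) (nat_lit 2365621304) (nat_lit 139) (nat_lit 5) (nat_lit 153) (nat_lit 5) (nat_lit 140) (nat_lit 5) (nat_lit 296) (nat_lit 276) (nat_lit 208)) (XT.lf (nat_lit 0) (nat_lit 1353667098) (nat_lit 1064) (nat_lit 2981256785) (nat_lit 76) (nat_lit 5491752511) (nat_lit 139) (nat_lit 5) (nat_lit 153) (nat_lit 5) (nat_lit 140) (nat_lit 5) (nat_lit 297) (nat_lit 276) (nat_lit 207)))) (XT.nd (nat_lit 78) (nat_lit 532) (nat_lit 0) (XT.lf (nat_lit 0) (nat_lit 1443684044) (nat_lit 1064) (nat_lit 1246406853) (nat_lit 1140) (nat_lit 7286572198) (nat_lit 125) (nat_lit 5) (nat_lit 139) (nat_lit 5) (nat_lit 140) (nat_lit 5) (nat_lit 298) (nat_lit 276) (nat_lit 206)) (XT.nd (nat_lit 78) (nat_lit 532) (nat_lit 0) (XT.lf (nat_lit 0) (nat_lit 4087386567) (nat_lit 1140) (nat_lit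 4112477480) (nat_lit 76) (nat_lit 1930748613) (nat_lit 125) (nat_lit 5) (nat_lit 140) (nat_lit 5) (nat_lit 126) (nat_lit 5) (nat_lit 299) (nat_lit 276) (nat_lit 205)) (XT.lf (nat_lit 0) (nat_lit 411254655) (nat_lit 532) (nat_lit 5104240429) (nat_lit 608) (nat_lit 4774102918) (nat_lit 118) (nat_lit 5) (nat_lit 125) (nat_lit 5) (nat_lit 126) (nat_lit 5) (nat_lit 300) (nat_lit 276) (nat_lit 204)))))) (XT.nd (nat_lit 468) (nat_lit 1368) (nat_lit 0) (XT.nd (nat_lit 234) (nat_lit 608) (nat_lit 0) (XT.nd (nat_lit 78) (nat_lit 456) (nat_lit 0) (XT.lf (nat_lit 0) (nat_lit 5130177405) (nat_lit 532) (nat_lit 1870956939) (nat_lit 608) (nat_lit 3451859600) (nat_lit 118) (nat_lit 5) (nat_lit 125) (nat_lit 5) (nat_lit 126) (nat_lit 5) (nat_lit 301) (nat_lit 276) (nat_lit 203)) (XT.nd (nat_lit 78) (nat_lit 456) (nat_lit 0) (XT.lf (nat_lit 0) (nat_lit 8519330821) (nat_lit 608) (nat_lit 669631828) (nat_lit 76)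 (nat_lit 1432768756) (nat_lit 118) (nat_lit 5) (nat_lit 126) (nat_lit 5) (nat_lit 119) (nat_lit 5) (nat_lit 302) (nat_lit 276) (nat_lit 202)) (XT.lf (nat_lit 0) (nat_lit 4161579091) (nat_lit 456) (nat_lit 5954740629) (nat_lit 532) (nat_lit 678290848) (nat_lit 112) (nat_lit 5) (nat_lit 118) (nat_lit 5) (nat_lit 119) (nat_lit 5) (nat_lit 303) (nat_lit 276) (nat_lit 201)))) (XT.nd (nat_lit 78) (nat_lit 532) (nat_lit 0) (XT.lf (nat_lit 0) (nat_lit 754889287) (nat_lit 532) (nat_lit 1853253635) (nat_lit 76) (nat_lit 8364926309) (nat_lit 111) (nat_lit 5) (nat_lit 118) (nat_lit 5) (nat_lit 112) (nat_lit 5) (nat_lit 304) (nat_lit 276) (nat_lit 200)) (XT.nd (nat_lit 78) (nat_lit 0) (nat_lit 0) (XT.lf (nat_lit 0) (nat_lit 2231295435) (nat_lit 608) (nat_lit 8065197497) (nat_lit 76) (nat_lit 859841785) (nat_lit 104) (nat_lit 5) (nat_lit 112) (nat_lit 5) (nat_lit 105) (nat_lit 5) (nat_lit 305) (nat_lit 276)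 (nat_lit 199)) (XT.lf (nat_lit 0) (nat_lit 3772837642) (nat_lit 608) (nat_lit 3173119202) (nat_lit 76) (nat_lit 4398584398) (nat_lit 104) (nat_lit 5) (nat_lit 112) (nat_lit 5) (nat_lit 105) (nat_lit 5) (nat_lit 306) (nat_lit 276) (nat_lit 198))))) (XT.nd (nat_lit 234) (nat_lit 456) (nat_lit 0) (XT.nd (nat_lit 78) (nat_lit 456) (nat_lit 0) (XT.lf (nat_lit 0) (nat_lit 1878668743) (nat_lit 456) (nat_lit 3476832943) (nat_lit 532) (nat_lit 6183112408) (nat_lit 98) (nat_lit 5) (nat_lit 104) (nat_lit 5) (nat_lit 105) (nat_lit 5) (nat_lit 307) (nat_lit 276) (nat_lit 197)) (XT.nd (nat_lit 78) (nat_lit 456) (nat_lit 0) (XT.lf (nat_lit 0) (nat_lit 6996190530) (nat_lit 532) (nat_lit 4615954395) (nat_lit 76) (nat_lit 126112325) (nat_lit 98) (nat_lit 5) (nat_lit 105) (nat_lit 5) (nat_lit 99) (nat_lit 5) (nat_lit 308) (nat_lit 276) (nat_lit 196)) (XT.lf (nat_lit 0) (nat_lit 531795737) (nat_lit 456) (nat_lit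 8171761723) (nat_lit 532) (nat_lit 3239871104) (nat_lit 92) (nat_lit 5) (nat_lit 98) (nat_lit 5) (nat_lit 99) (nat_lit 5) (nat_lit 309) (nat_lit 276) (nat_lit 195)))) (XT.nd (nat_lit 78) (nat_lit 456) (nat_lit 0) (XT.lf (nat_lit 0) (nat_lit 5905317726) (nat_lit 456) (nat_lit 4581780403) (nat_lit 532) (nat_lit 1666969072) (nat_lit 92) (nat_lit 5) (nat_lit 98) (nat_lit 5) (nat_lit 99) (nat_lit 5) (nat_lit 310) (nat_lit 276) (nat_lit 194)) (XT.nd (nat_lit 78) (nat_lit 456) (nat_lit 0) (XT.lf (nat_lit 0) (nat_lit 11417440338) (nat_lit 456) (nat_lit 885676175) (nat_lit 532) (nat_lit 68598333) (nat_lit 92) (nat_lit 5) (nat_lit 98) (nat_lit 5) (nat_lit 99) (nat_lit 5) (nat_lit 311) (nat_lit 276) (nat_lit 193)) (XT.lf (nat_lit 0) (nat_lit 1598649829) (nat_lit 456) (nat_lit 8073201861) (nat_lit 76) (nat_lit 2922089456) (nat_lit 86) (nat_lit 5) (nat_lit 92) (nat_lit 5) (nat_lit 87) (nat_lit 5) (nat_lit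 312) (nat_lit 276) (nat_lit 192))))))))
noncomputable def xc158 : XT := (XT.nd (nat_lit 1716) (nat_lit 1672) (nat_lit 0) (XT.nd (nat_lit 858) (nat_lit 1216) (nat_lit 0) (XT.nd (nat_lit 390) (nat_lit 1064) (nat_lit 0) (XT.nd (nat_lit 156) (nat_lit 380) (nat_lit 0) (XT.nd (nat_lit 78) (nat_lit 380) (nat_lit 0) (XT.lf (nat_lit 0) (nat_lit 3312733616) (nat_lit 456) (nat_lit 2675361802) (nat_lit 76) (nat_lit 6834826521) (nat_lit 86) (nat_lit 5) (nat_lit 92) (nat_lit 5) (nat_lit 87) (nat_lit 5) (nat_lit 313) (nat_lit 276) (nat_lit 191)) (XT.lf (nat_lit 0) (nat_lit 2919204675) (nat_lit 380) (nat_lit 2167383955) (nat_lit 456) (nat_lit 7971985481) (nat_lit 81) (nat_lit 5) (nat_lit 86) (nat_lit 5) (nat_lit 87) (nat_lit 5) (nat_lit 314) (nat_lit 276) (nat_lit 190))) (XT.nd (nat_lit 78) (nat_lit 380) (nat_lit 0) (XT.lf (nat_lit 0) (nat_lit 6938562870) (nat_lit 456) (nat_lit 4603858936) (nat_lit 76) (nat_lit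 1758177823) (nat_lit 81) (nat_lit 5) (nat_lit 87) (nat_lit 5) (nat_lit 82) (nat_lit 5) (nat_lit 315) (nat_lit 276) (nat_lit 189)) (XT.nd (nat_lit 78) (nat_lit 0) (nat_lit 0) (XT.lf (nat_lit 0) (nat_lit 1075336548) (nat_lit 380) (nat_lit 7783745710) (nat_lit 456) (nat_lit 4690463484) (nat_lit 76) (nat_lit 5) (nat_lit 81) (nat_lit 5) (nat_lit 82) (nat_lit 5) (nat_lit 316) (nat_lit 276) (nat_lit 188)) (XT.lf (nat_lit 0) (nat_lit 6997592472) (nat_lit 380) (nat_lit 3867643955) (nat_lit 456) (nat_lit 2939931204) (nat_lit 76) (nat_lit 5) (nat_lit 81) (nat_lit 5) (nat_lit 82) (nat_lit 5) (nat_lit 317) (nat_lit 276) (nat_lit 187))))) (XT.nd (nat_lit 234) (nat_lit 608) (nat_lit 0) (XT.nd (nat_lit 78) (nat_lit 456) (nat_lit 0) (XT.lf (nat_lit 0) (nat_lit 12915207536) (nat_lit 456) (nat_lit 994150009) (nat_lit 76) (nat_lit 159638232) (nat_lit 76) (nat_lit 5) (nat_lit 82) (nat_lit 5) (nat_lit 77) (nat_lit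 5) (nat_lit 318) (nat_lit 276) (nat_lit 186)) (XT.nd (nat_lit 78) (nat_lit 0) (nat_lit 0) (XT.lf (nat_lit 0) (nat_lit 742425349) (nat_lit 456) (nat_lit 9313380387) (nat_lit 76) (nat_lit 4282682975) (nat_lit 70) (nat_lit 5) (nat_lit 76) (nat_lit 5) (nat_lit 71) (nat_lit 5) (nat_lit 319) (nat_lit 276) (nat_lit 185)) (XT.lf (nat_lit 0) (nat_lit 2665129652) (nat_lit 456) (nat_lit 3403130160) (nat_lit 76) (nat_lit 8547722700) (nat_lit 70) (nat_lit 5) (nat_lit 76) (nat_lit 5) (nat_lit 71) (nat_lit 5) (nat_lit 320) (nat_lit 276) (nat_lit 184)))) (XT.nd (nat_lit 78) (nat_lit 304) (nat_lit 0) (XT.lf (nat_lit 0) (nat_lit 2716895084) (nat_lit 304) (nat_lit 1937897567) (nat_lit 380) (nat_lit 10246771528) (nat_lit 66) (nat_lit 5) (nat_lit 70) (nat_lit 5) (nat_lit 71) (nat_lit 5) (nat_lit 321) (nat_lit 276) (nat_lit 183)) (XT.nd (nat_lit 78) (nat_lit 304) (nat_lit 0) (XT.lf (nat_lit 0) (nat_lit 6744536559)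 (nat_lit 380) (nat_lit 6147854464) (nat_lit 76) (nat_lit 2302150714) (nat_lit 66) (nat_lit 5) (nat_lit 71) (nat_lit 5) (nat_lit 67) (nat_lit 5) (nat_lit 322) (nat_lit 276) (nat_lit 182)) (XT.lf (nat_lit 0) (nat_lit 31247078) (nat_lit 304) (nat_lit 8869115515) (nat_lit 380) (nat_lit 6595883336) (nat_lit 62) (nat_lit 5) (nat_lit 66) (nat_lit 5) (nat_lit 67) (nat_lit 5) (nat_lit 323) (nat_lit 276) (nat_lit 181)))))) (XT.nd (nat_lit 390) (nat_lit 532) (nat_lit 0) (XT.nd (nat_lit 156) (nat_lit 684) (nat_lit 0) (XT.nd (nat_lit 78) (nat_lit 0) (nat_lit 0) (XT.lf (nat_lit 0) (nat_lit 6501704925) (nat_lit 304) (nat_lit 4665418310) (nat_lit 380) (nat_lit 4638528084) (nat_lit 62) (nat_lit 5) (nat_lit 66) (nat_lit 5) (nat_lit 67) (nat_lit 5) (nat_lit 324) (nat_lit 276) (nat_lit 180)) (XT.lf (nat_lit 0) (nat_lit 13146818515) (nat_lit 304) (nat_lit 339707551) (nat_lit 380) (nat_lit 2638310387) (nat_lit 62)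 (nat_lit 5) (nat_lit 66) (nat_lit 5) (nat_lit 67) (nat_lit 5) (nat_lit 325) (nat_lit 276) (nat_lit 179))) (XT.nd (nat_lit 78) (nat_lit 380) (nat_lit 0) (XT.lf (nat_lit 0) (nat_lit 3548023644) (nat_lit 304) (nat_lit 12386204982) (nat_lit 380) (nat_lit 517642678) (nat_lit 58) (nat_lit 5) (nat_lit 62) (nat_lit 5) (nat_lit 63) (nat_lit 5) (nat_lit 326) (nat_lit 276) (nat_lit 178)) (XT.nd (nat_lit 78) (nat_lit 304) (nat_lit 0) (XT.lf (nat_lit 0) (nat_lit 1652976577) (nat_lit 380) (nat_lit 6496080422) (nat_lit 76) (nat_lit 8638647608) (nat_lit 57) (nat_lit 5) (nat_lit 62) (nat_lit 5) (nat_lit 58) (nat_lit 5) (nat_lit 327) (nat_lit 276) (nat_lit 177)) (XT.lf (nat_lit 0) (nat_lit 81475498) (nat_lit 304) (nat_lit 3783171821) (nat_lit 380) (nat_lit 13269254388) (nat_lit 53) (nat_lit 5) (nat_lit 57) (nat_lit 5) (nat_lit 58) (nat_lit 5) (nat_lit 328) (nat_lit 276) (nat_lit 176))))) (XT.nd (nat_lit 234)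 (nat_lit 304) (nat_lit 0) (XT.nd (nat_lit 78) (nat_lit 228) (nat_lit 0) (XT.lf (nat_lit 0) (nat_lit 6201526935) (nat_lit 380) (nat_lit 10525643420) (nat_lit 76) (nat_lit 761580315) (nat_lit 53) (nat_lit 5) (nat_lit 58) (nat_lit 5) (nat_lit 54) (nat_lit 5) (nat_lit 329) (nat_lit 276) (nat_lit 175)) (XT.nd (nat_lit 78) (nat_lit 228) (nat_lit 0) (XT.lf (nat_lit 0) (nat_lit 8632136270) (nat_lit 380) (nat_lit 3859094972) (nat_lit 76) (nat_lit 5362335949) (nat_lit 53) (nat_lit 5) (nat_lit 58) (nat_lit 5) (nat_lit 54) (nat_lit 5) (nat_lit 330) (nat_lit 276) (nat_lit 174)) (XT.lf (nat_lit 0) (nat_lit 3048905563) (nat_lit 228) (nat_lit 8102635377) (nat_lit 304) (nat_lit 7077340847) (nat_lit 50) (nat_lit 5) (nat_lit 53) (nat_lit 5) (nat_lit 54) (nat_lit 5) (nat_lit 331) (nat_lit 276) (nat_lit 173)))) (XT.nd (nat_lit 78) (nat_lit 304) (nat_lit 0) (XT.lf (nat_lit 0) (nat_lit 10225391143) (nat_lit 228)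 (nat_lit 3546894495) (nat_lit 304) (nat_lit 4842426468) (nat_lit 50) (nat_lit 5) (nat_lit 53) (nat_lit 5) (nat_lit 54) (nat_lit 5) (nat_lit 332) (nat_lit 276) (nat_lit 172)) (XT.nd (nat_lit 78) (nat_lit 304) (nat_lit 0) (XT.lf (nat_lit 0) (nat_lit 16469794088) (nat_lit 304) (nat_lit 1423669403) (nat_lit 76) (nat_lit 1118737777) (nat_lit 50) (nat_lit 5) (nat_lit 54) (nat_lit 5) (nat_lit 51) (nat_lit 5) (nat_lit 333) (nat_lit 276) (nat_lit 171)) (XT.lf (nat_lit 0) (nat_lit 5812051954) (nat_lit 304) (nat_lit 13514667443) (nat_lit 380) (nat_lit 92568317) (nat_lit 46) (nat_lit 5) (nat_lit 50) (nat_lit 5) (nat_lit 51) (nat_lit 5) (nat_lit 334) (nat_lit 276) (nat_lit 170))))))) (XT.nd (nat_lit 858) (nat_lit 608) (nat_lit 0) (XT.nd (nat_lit 390) (nat_lit 532) (nat_lit 0) (XT.nd (nat_lit 156) (nat_lit 228) (nat_lit 0) (XT.nd (nat_lit 78) (nat_lit 228) (nat_lit 0) (XT.lf (nat_lit 0) (nat_lit 2385408653)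 (nat_lit 380) (nat_lit 6584935910) (nat_lit 76) (nat_lit 10867504715) (nat_lit 45) (nat_lit 5) (nat_lit 50) (nat_lit 5) (nat_lit 46) (nat_lit 5) (nat_lit 335) (nat_lit 276) (nat_lit 169)) (XT.lf (nat_lit 0) (nat_lit 642864038) (nat_lit 228) (nat_lit 4287099699) (nat_lit 304) (nat_lit 15339178510) (nat_lit 42) (nat_lit 5) (nat_lit 45) (nat_lit 5) (nat_lit 46) (nat_lit 5) (nat_lit 336) (nat_lit 276) (nat_lit 168))) (XT.nd (nat_lit 78) (nat_lit 228) (nat_lit 0) (XT.lf (nat_lit 0) (nat_lit 7611233423) (nat_lit 304) (nat_lit 12511680990) (nat_lit 76) (nat_lit 588672560) (nat_lit 42) (nat_lit 5) (nat_lit 46) (nat_lit 5) (nat_lit 43) (nat_lit 5) (nat_lit 337) (nat_lit 276) (nat_lit 167)) (XT.nd (nat_lit 78) (nat_lit 228) (nat_lit 0) (XT.lf (nat_lit 0) (nat_lit 10403801423) (nat_lit 304) (nat_lit 5242565829) (nat_lit 76) (nat_lit 5520035579) (nat_lit 42) (nat_lit 5) (nat_lit 46) (nat_lit 5) (nat_lit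 43) (nat_lit 5) (nat_lit 338) (nat_lit 276) (nat_lit 166)) (XT.lf (nat_lit 0) (nat_lit 2272983243) (nat_lit 228) (nat_lit 11017763684) (nat_lit 304) (nat_lit 8343821132) (nat_lit 39) (nat_lit 5) (nat_lit 42) (nat_lit 5) (nat_lit 43) (nat_lit 5) (nat_lit 339) (nat_lit 276) (nat_lit 165))))) (XT.nd (nat_lit 234) (nat_lit 304) (nat_lit 0) (XT.nd (nat_lit 78) (nat_lit 228) (nat_lit 0) (XT.lf (nat_lit 0) (nat_lit 10105629414) (nat_lit 228) (nat_lit 6200537580) (nat_lit 304) (nat_lit 5809377508) (nat_lit 39) (nat_lit 5) (nat_lit 42) (nat_lit 5) (nat_lit 43) (nat_lit 5) (nat_lit 340) (nat_lit 276) (nat_lit 164)) (XT.nd (nat_lit 78) (nat_lit 228) (nat_lit 0) (XT.lf (nat_lit 0) (nat_lit 18157879404) (nat_lit 228) (nat_lit 1243419348) (nat_lit 304) (nat_lit 3209995608) (nat_lit 39) (nat_lit 5) (nat_lit 42) (nat_lit 5) (nat_lit 43) (nat_lit 5) (nat_lit 341) (nat_lit 276) (nat_lit 163)) (XT.lf (nat_lit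 0) (nat_lit 3342660991) (nat_lit 228) (nat_lit 19305402108) (nat_lit 304) (nat_lit 472111221) (nat_lit 36) (nat_lit 5) (nat_lit 39) (nat_lit 5) (nat_lit 40) (nat_lit 5) (nat_lit 342) (nat_lit 276) (nat_lit 162)))) (XT.nd (nat_lit 78) (nat_lit 228) (nat_lit 0) (XT.lf (nat_lit 0) (nat_lit 2349377951) (nat_lit 304) (nat_lit 12229684643) (nat_lit 76) (nat_lit 9063182227) (nat_lit 35) (nat_lit 5) (nat_lit 39) (nat_lit 5) (nat_lit 36) (nat_lit 5) (nat_lit 343) (nat_lit 276) (nat_lit 161)) (XT.nd (nat_lit 78) (nat_lit 228) (nat_lit 0) (XT.lf (nat_lit 0) (nat_lit 5235884320) (nat_lit 304) (nat_lit 4474946981) (nat_lit 76) (nat_lit 14469329247) (nat_lit 35) (nat_lit 5) (nat_lit 39) (nat_lit 5) (nat_lit 36) (nat_lit 5) (nat_lit 344) (nat_lit 276) (nat_lit 160)) (XT.lf (nat_lit 0) (nat_lit 3567631196) (nat_lit 228) (nat_lit 4665805723) (nat_lit 304) (nat_lit 16500061924) (nat_lit 32) (nat_lit 5) (nat_lit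 35) (nat_lit 5) (nat_lit 36) (nat_lit 5) (nat_lit 345) (nat_lit 276) (nat_lit 159)))))) (XT.nd (nat_lit 390) (nat_lit 456) (nat_lit 0) (XT.nd (nat_lit 156) (nat_lit 152) (nat_lit 0) (XT.nd (nat_lit 78) (nat_lit 0) (nat_lit 0) (XT.lf (nat_lit 0) (nat_lit 11361914040) (nat_lit 304) (nat_lit 13378952896) (nat_lit 76) (nat_lit 561358500) (nat_lit 32) (nat_lit 5) (nat_lit 36) (nat_lit 5) (nat_lit 33) (nat_lit 5) (nat_lit 346) (nat_lit 276) (nat_lit 158)) (XT.lf (nat_lit 0) (nat_lit 14620987368) (nat_lit 304) (nat_lit 5418745653) (nat_lit 76) (nat_lit 5847196104) (nat_lit 32) (nat_lit 5) (nat_lit 36) (nat_lit 5) (nat_lit 33) (nat_lit 5) (nat_lit 347) (nat_lit 276) (nat_lit 157))) (XT.nd (nat_lit 78) (nat_lit 0) (nat_lit 0) (XT.lf (nat_lit 0) (nat_lit 2821620151) (nat_lit 152) (nat_lit 15174157050) (nat_lit 228) (nat_lit 8492875445) (nat_lit 30) (nat_lit 5) (nat_lit 32) (nat_lit 5) (nat_lit 33) (nat_lit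 5) (nat_lit 348) (nat_lit 276) (nat_lit 156)) (XT.nd (nat_lit 78) (nat_lit 0) (nat_lit 0) (XT.lf (nat_lit 0) (nat_lit 11406702665) (nat_lit 152) (nat_lit 10110784804) (nat_lit 228) (nat_lit 5589586648) (nat_lit 30) (nat_lit 5) (nat_lit 32) (nat_lit 5) (nat_lit 33) (nat_lit 5) (nat_lit 349) (nat_lit 276) (nat_lit 155)) (XT.lf (nat_lit 0) (nat_lit 20236159754) (nat_lit 152) (nat_lit 4899910687) (nat_lit 228) (nat_lit 2608257221) (nat_lit 30) (nat_lit 5) (nat_lit 32) (nat_lit 5) (nat_lit 33) (nat_lit 5) (nat_lit 350) (nat_lit 276) (nat_lit 154))))) (XT.nd (nat_lit 234) (nat_lit 152) (nat_lit 0) (XT.nd (nat_lit 78) (nat_lit 0) (nat_lit 0) (XT.lf (nat_lit 0) (nat_lit 458391625) (nat_lit 304) (nat_lit 27474620464) (nat_lit 76) (nat_lit 467421346) (nat_lit 26) (nat_lit 5) (nat_lit 30) (nat_lit 5) (nat_lit 27) (nat_lit 5) (nat_lit 351) (nat_lit 276) (nat_lit 153)) (XT.nd (nat_lit 78) (nat_lit 0) (nat_lit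 0) (XT.lf (nat_lit 0) (nat_lit 3681162053) (nat_lit 304) (nat_lit 19395394682) (nat_lit 76) (nat_lit 5995409257) (nat_lit 26) (nat_lit 5) (nat_lit 30) (nat_lit 5) (nat_lit 27) (nat_lit 5) (nat_lit 352) (nat_lit 276) (nat_lit 152)) (XT.lf (nat_lit 0) (nat_lit 6992327331) (nat_lit 304) (nat_lit 11086492346) (nat_lit 76) (nat_lit 11685087771) (nat_lit 26) (nat_lit 5) (nat_lit 30) (nat_lit 5) (nat_lit 27) (nat_lit 5) (nat_lit 353) (nat_lit 276) (nat_lit 151)))) (XT.nd (nat_lit 78) (nat_lit 152) (nat_lit 0) (XT.lf (nat_lit 0) (nat_lit 10394780712) (nat_lit 304) (nat_lit 2540653252) (nat_lit 76) (nat_lit 17541428453) (nat_lit 26) (nat_lit 5) (nat_lit 30) (nat_lit 5) (nat_lit 27) (nat_lit 5) (nat_lit 354) (nat_lit 276) (nat_lit 150)) (XT.nd (nat_lit 78) (nat_lit 0) (nat_lit 0) (XT.lf (nat_lit 0) (nat_lit 6373968931) (nat_lit 152) (nat_lit 7578796769) (nat_lit 228) (nat_lit 17256850050) (nat_lit 24)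 (nat_lit 5) (nat_lit 26) (nat_lit 5) (nat_lit 27) (nat_lit 5) (nat_lit 355) (nat_lit 276) (nat_lit 149)) (XT.lf (nat_lit 0) (nat_lit 15596256870) (nat_lit 152) (nat_lit 2039190104) (nat_lit 228) (nat_lit 14328379072) (nat_lit 24) (nat_lit 5) (nat_lit 26) (nat_lit 5) (nat_lit 27) (nat_lit 5) (nat_lit 356) (nat_lit 276) (nat_lit 148))))))))
noncomputable def xc159 : XT := (XT.nd (nat_lit 1716) (nat_lit 304) (nat_lit 0) (XT.nd (nat_lit 858) (nat_lit 304) (nat_lit 0) (XT.nd (nat_lit 390) (nat_lit 304) (nat_lit 0) (XT.nd (nat_lit 156) (nat_lit 76) (nat_lit 0) (XT.nd (nat_lit 78) (nat_lit 152) (nat_lit 0) (XT.lf (nat_lit 0) (nat_lit 21456340918) (nat_lit 228) (nat_lit 7692401554) (nat_lit 76) (nat_lit 3591100897) (nat_lit 24) (nat_lit 5) (nat_lit 27) (nat_lit 5) (nat_lit 25) (nat_lit 5) (nat_lit 357) (nat_lit 276) (nat_lit 147)) (XT.lf (nat_lit 0) (nat_lit 1235575901) (nat_lit 152) (nat_lit 24181058311)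 (nat_lit 228) (nat_lit 8121776139) (nat_lit 22) (nat_lit 5) (nat_lit 24) (nat_lit 5) (nat_lit 25) (nat_lit 5) (nat_lit 358) (nat_lit 276) (nat_lit 146))) (XT.nd (nat_lit 78) (nat_lit 76) (nat_lit 0) (XT.lf (nat_lit 0) (nat_lit 10577825070) (nat_lit 152) (nat_lit 18988399108) (nat_lit 228) (nat_lit 4792607484) (nat_lit 22) (nat_lit 5) (nat_lit 24) (nat_lit 5) (nat_lit 25) (nat_lit 5) (nat_lit 359) (nat_lit 276) (nat_lit 145)) (XT.nd (nat_lit 78) (nat_lit 76) (nat_lit 0) (XT.lf (nat_lit 0) (nat_lit 20189415208) (nat_lit 152) (nat_lit 13643905762) (nat_lit 228) (nat_lit 1370765678) (nat_lit 22) (nat_lit 5) (nat_lit 24) (nat_lit 5) (nat_lit 25) (nat_lit 5) (nat_lit 360) (nat_lit 276) (nat_lit 144)) (XT.lf (nat_lit 0) (nat_lit 2104848624) (nat_lit 228) (nat_lit 6016804858) (nat_lit 76) (nat_lit 27952641323) (nat_lit 21) (nat_lit 5) (nat_lit 24) (nat_lit 5) (nat_lit 22) (nat_lit 5) (nat_lit 361)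 (nat_lit 276) (nat_lit 143))))) (XT.nd (nat_lit 234) (nat_lit 152) (nat_lit 0) (XT.nd (nat_lit 78) (nat_lit 0) (nat_lit 0) (XT.lf (nat_lit 0) (nat_lit 3291206709) (nat_lit 152) (nat_lit 2390954684) (nat_lit 228) (nat_lit 31287301847) (nat_lit 19) (nat_lit 5) (nat_lit 21) (nat_lit 5) (nat_lit 22) (nat_lit 5) (nat_lit 362) (nat_lit 276) (nat_lit 142)) (XT.nd (nat_lit 78) (nat_lit 0) (nat_lit 0) (XT.lf (nat_lit 0) (nat_lit 9455311444) (nat_lit 228) (nat_lit 24932735437) (nat_lit 76) (nat_lit 3500794625) (nat_lit 19) (nat_lit 5) (nat_lit 22) (nat_lit 5) (nat_lit 20) (nat_lit 5) (nat_lit 363) (nat_lit 276) (nat_lit 141)) (XT.lf (nat_lit 0) (nat_lit 13358923114) (nat_lit 228) (nat_lit 15958726221) (nat_lit 76) (nat_lit 9517643783) (nat_lit 19) (nat_lit 5) (nat_lit 22) (nat_lit 5) (nat_lit 20) (nat_lit 5) (nat_lit 364) (nat_lit 276) (nat_lit 140)))) (XT.nd (nat_lit 78) (nat_lit 152) (nat_lit 0) (XT.lf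 (nat_lit 0) (nat_lit 17373424008) (nat_lit 228) (nat_lit 6725404198) (nat_lit 76) (nat_lit 15711506369) (nat_lit 19) (nat_lit 5) (nat_lit 22) (nat_lit 5) (nat_lit 20) (nat_lit 5) (nat_lit 365) (nat_lit 276) (nat_lit 139)) (XT.nd (nat_lit 78) (nat_lit 0) (nat_lit 0) (XT.lf (nat_lit 0) (nat_lit 2830532466) (nat_lit 152) (nat_lit 18698998285) (nat_lit 228) (nat_lit 19284470840) (nat_lit 17) (nat_lit 5) (nat_lit 19) (nat_lit 5) (nat_lit 20) (nat_lit 5) (nat_lit 366) (nat_lit 276) (nat_lit 138)) (XT.lf (nat_lit 0) (nat_lit 12801486824) (nat_lit 152) (nat_lit 13070793588) (nat_lit 228) (nat_lit 15973648575) (nat_lit 17) (nat_lit 5) (nat_lit 19) (nat_lit 5) (nat_lit 20) (nat_lit 5) (nat_lit 367) (nat_lit 276) (nat_lit 137)))))) (XT.nd (nat_lit 390) (nat_lit 152) (nat_lit 0) (XT.nd (nat_lit 156) (nat_lit 152) (nat_lit 0) (XT.nd (nat_lit 78) (nat_lit 0) (nat_lit 0) (XT.lf (nat_lit 0) (nat_lit 23062322629)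 (nat_lit 152) (nat_lit 7277209663) (nat_lit 228) (nat_lit 12569464219) (nat_lit 17) (nat_lit 5) (nat_lit 19) (nat_lit 5) (nat_lit 20) (nat_lit 5) (nat_lit 368) (nat_lit 276) (nat_lit 136)) (XT.lf (nat_lit 0) (nat_lit 33622005660) (nat_lit 152) (nat_lit 1313184154) (nat_lit 228) (nat_lit 9068943241) (nat_lit 17) (nat_lit 5) (nat_lit 19) (nat_lit 5) (nat_lit 20) (nat_lit 5) (nat_lit 369) (nat_lit 276) (nat_lit 135))) (XT.nd (nat_lit 78) (nat_lit 152) (nat_lit 0) (XT.lf (nat_lit 0) (nat_lit 39709663818) (nat_lit 228) (nat_lit 688927927) (nat_lit 76) (nat_lit 4732311934) (nat_lit 17) (nat_lit 5) (nat_lit 20) (nat_lit 5) (nat_lit 18) (nat_lit 4) (nat_lit 370) (nat_lit 276) (nat_lit 134)) (XT.nd (nat_lit 78) (nat_lit 76) (nat_lit 0) (XT.lf (nat_lit 0) (nat_lit 9458027056) (nat_lit 76) (nat_lit 35267942884) (nat_lit 152) (nat_lit 1562557686) (nat_lit 16) (nat_lit 5) (nat_lit 17) (nat_lit 5) (nat_lit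 18) (nat_lit 4) (nat_lit 371) (nat_lit 276) (nat_lit 133)) (XT.lf (nat_lit 0) (nat_lit 2366539237) (nat_lit 152) (nat_lit 27589039753) (nat_lit 76) (nat_lit 17524561876) (nat_lit 15) (nat_lit 5) (nat_lit 17) (nat_lit 5) (nat_lit 16) (nat_lit 5) (nat_lit 372) (nat_lit 276) (nat_lit 132))))) (XT.nd (nat_lit 234) (nat_lit 0) (nat_lit 0) (XT.nd (nat_lit 78) (nat_lit 152) (nat_lit 0) (XT.lf (nat_lit 0) (nat_lit 6376950920) (nat_lit 152) (nat_lit 18094182492) (nat_lit 76) (nat_lit 24236066984) (nat_lit 15) (nat_lit 5) (nat_lit 17) (nat_lit 5) (nat_lit 16) (nat_lit 5) (nat_lit 373) (nat_lit 276) (nat_lit 131)) (XT.nd (nat_lit 78) (nat_lit 152) (nat_lit 0) (XT.lf (nat_lit 0) (nat_lit 10502672733) (nat_lit 152) (nat_lit 8322612050) (nat_lit 76) (nat_lit 31145944228) (nat_lit 15) (nat_lit 5) (nat_lit 17) (nat_lit 5) (nat_lit 16) (nat_lit 5) (nat_lit 374) (nat_lit 276) (nat_lit 130)) (XT.lf (nat_lit 0)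 (nat_lit 1768724012) (nat_lit 152) (nat_lit 12995587722) (nat_lit 228) (nat_lit 36508509410) (nat_lit 13) (nat_lit 5) (nat_lit 15) (nat_lit 5) (nat_lit 16) (nat_lit 5) (nat_lit 375) (nat_lit 276) (nat_lit 129)))) (XT.nd (nat_lit 78) (nat_lit 0) (nat_lit 0) (XT.lf (nat_lit 0) (nat_lit 12325587287) (nat_lit 152) (nat_lit 6907464455) (nat_lit 228) (nat_lit 33378038562) (nat_lit 13) (nat_lit 5) (nat_lit 15) (nat_lit 5) (nat_lit 16) (nat_lit 5) (nat_lit 376) (nat_lit 276) (nat_lit 128)) (XT.nd (nat_lit 78) (nat_lit 0) (nat_lit 0) (XT.lf (nat_lit 0) (nat_lit 23191565917) (nat_lit 152) (nat_lit 639637328) (nat_lit 228) (nat_lit 30158450434) (nat_lit 13) (nat_lit 5) (nat_lit 15) (nat_lit 5) (nat_lit 16) (nat_lit 5) (nat_lit 377) (nat_lit 276) (nat_lit 127)) (XT.lf (nat_lit 0) (nat_lit 28618665719) (nat_lit 228) (nat_lit 21089443065) (nat_lit 76) (nat_lit 5699930605) (nat_lit 13) (nat_lit 5) (nat_lit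 16) (nat_lit 5) (nat_lit 14) (nat_lit 4) (nat_lit 378) (nat_lit 276) (nat_lit 126))))))) (XT.nd (nat_lit 858) (nat_lit 0) (nat_lit 0) (XT.nd (nat_lit 390) (nat_lit 228) (nat_lit 0) (XT.nd (nat_lit 156) (nat_lit 76) (nat_lit 0) (XT.nd (nat_lit 78) (nat_lit 0) (nat_lit 0) (XT.lf (nat_lit 0) (nat_lit 33551674737) (nat_lit 228) (nat_lit 11103138000) (nat_lit 76) (nat_lit 12214112495) (nat_lit 13) (nat_lit 5) (nat_lit 16) (nat_lit 5) (nat_lit 14) (nat_lit 4) (nat_lit 379) (nat_lit 276) (nat_lit 125)) (XT.lf (nat_lit 0) (nat_lit 38628392111) (nat_lit 228) (nat_lit 824298082) (nat_lit 76) (nat_lit 18921081972) (nat_lit 13) (nat_lit 5) (nat_lit 16) (nat_lit 5) (nat_lit 14) (nat_lit 4) (nat_lit 380) (nat_lit 276) (nat_lit 124))) (XT.nd (nat_lit 78) (nat_lit 0) (nat_lit 0) (XT.lf (nat_lit 0) (nat_lit 9950222886) (nat_lit 76) (nat_lit 33998678550) (nat_lit 152) (nat_lit 15972124239) (nat_lit 12) (nat_lit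 5) (nat_lit 13) (nat_lit 5) (nat_lit 14) (nat_lit 4) (nat_lit 381) (nat_lit 276) (nat_lit 123)) (XT.nd (nat_lit 78) (nat_lit 0) (nat_lit 0) (XT.lf (nat_lit 0) (nat_lit 21058095096) (nat_lit 76) (nat_lit 28375153433) (nat_lit 152) (nat_lit 12081327296) (nat_lit 12) (nat_lit 5) (nat_lit 13) (nat_lit 5) (nat_lit 14) (nat_lit 4) (nat_lit 382) (nat_lit 276) (nat_lit 122)) (XT.lf (nat_lit 0) (nat_lit 32492619308) (nat_lit 76) (nat_lit 22585524878) (nat_lit 152) (nat_lit 8077913294) (nat_lit 12) (nat_lit 5) (nat_lit 13) (nat_lit 5) (nat_lit 14) (nat_lit 4) (nat_lit 383) (nat_lit 276) (nat_lit 121))))) (XT.nd (nat_lit 234) (nat_lit 0) (nat_lit 0) (XT.nd (nat_lit 78) (nat_lit 228) (nat_lit 0) (XT.lf (nat_lit 0) (nat_lit 44263786854) (nat_lit 76) (nat_lit 16624733985) (nat_lit 152) (nat_lit 3958384105) (nat_lit 12) (nat_lit 5) (nat_lit 13) (nat_lit 5) (nat_lit 14) (nat_lit 4) (nat_lit 384) (nat_lit 276)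 (nat_lit 120)) (XT.nd (nat_lit 78) (nat_lit 152) (nat_lit 0) (XT.lf (nat_lit 0) (nat_lit 275379272) (nat_lit 152) (nat_lit 10209412233) (nat_lit 76) (nat_lit 56103723157) (nat_lit 11) (nat_lit 5) (nat_lit 13) (nat_lit 5) (nat_lit 12) (nat_lit 5) (nat_lit 385) (nat_lit 276) (nat_lit 119)) (XT.lf (nat_lit 0) (nat_lit 438771175) (nat_lit 152) (nat_lit 4118357501) (nat_lit 228) (nat_lit 63824057181) (nat_lit 9) (nat_lit 5) (nat_lit 11) (nat_lit 5) (nat_lit 12) (nat_lit 5) (nat_lit 386) (nat_lit 276) (nat_lit 118)))) (XT.nd (nat_lit 78) (nat_lit 0) (nat_lit 0) (XT.lf (nat_lit 0) (nat_lit 9091233254) (nat_lit 228) (nat_lit 58639462456) (nat_lit 76) (nat_lit 2493229180) (nat_lit 9) (nat_lit 5) (nat_lit 12) (nat_lit 5) (nat_lit 10) (nat_lit 4) (nat_lit 387) (nat_lit 276) (nat_lit 117)) (XT.nd (nat_lit 78) (nat_lit 0) (nat_lit 0) (XT.lf (nat_lit 0) (nat_lit 13798584432) (nat_lit 228) (nat_lit 49104153379)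 (nat_lit 76) (nat_lit 9218096223) (nat_lit 9) (nat_lit 5) (nat_lit 12) (nat_lit 5) (nat_lit 10) (nat_lit 4) (nat_lit 388) (nat_lit 276) (nat_lit 116)) (XT.lf (nat_lit 0) (nat_lit 18643707257) (nat_lit 228) (nat_lit 39288567454) (nat_lit 76) (nat_lit 16142483714) (nat_lit 9) (nat_lit 5) (nat_lit 12) (nat_lit 5) (nat_lit 10) (nat_lit 4) (nat_lit 389) (nat_lit 276) (nat_lit 115)))))) (XT.nd (nat_lit 32136) (nat_lit 0) (nat_lit 12464) (XT.nd (nat_lit 31902) (nat_lit 0) (nat_lit 13224) (XT.nd (nat_lit 78) (nat_lit 0) (nat_lit 0) (XT.lf (nat_lit 0) (nat_lit 23630835332) (nat_lit 228) (nat_lit 29184127958) (nat_lit 76) (nat_lit 23272442089) (nat_lit 9) (nat_lit 5) (nat_lit 12) (nat_lit 5) (nat_lit 10) (nat_lit 4) (nat_lit 390) (nat_lit 276) (nat_lit 114)) (XT.nd (nat_lit 31746) (nat_lit 0) (nat_lit 13224) (XT.lf (nat_lit 0) (nat_lit 28764326342) (nat_lit 228) (nat_lit 18782005768) (nat_lit 76) (nat_lit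 30614201408) (nat_lit 9) (nat_lit 5) (nat_lit 12) (nat_lit 5) (nat_lit 10) (nat_lit 4) (nat_lit 391) (nat_lit 276) (nat_lit 113)) (XT.lf (nat_lit 0) (nat_lit 1586075879) (nat_lit 836) (nat_lit 1138730682) (nat_lit 836) (nat_lit 1138730682) (nat_lit 183) (nat_lit 3) (nat_lit 194) (nat_lit 3) (nat_lit 194) (nat_lit 5) (nat_lit 277) (nat_lit 277) (nat_lit 226)))) (XT.nd (nat_lit 78) (nat_lit 0) (nat_lit 0) (XT.lf (nat_lit 76) (nat_lit 898446573) (nat_lit 0) (nat_lit 3491257311) (nat_lit 836) (nat_lit 3413924129) (nat_lit 184) (nat_lit 5) (nat_lit 183) (nat_lit 3) (nat_lit 194) (nat_lit 5) (nat_lit 278) (nat_lit 277) (nat_lit 225)) (XT.nd (nat_lit 78) (nat_lit 0) (nat_lit 76) (XT.lf (nat_lit 76) (nat_lit 4192426625) (nat_lit 0) (nat_lit 1428800594) (nat_lit 836) (nat_lit 2262093590) (nat_lit 184) (nat_lit 5) (nat_lit 183) (nat_lit 3) (nat_lit 194) (nat_lit 5) (nat_lit 279) (nat_lit 277) (nat_lit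 224)) (XT.lf (nat_lit 0) (nat_lit 6852357824) (nat_lit 760) (nat_lit 411749297) (nat_lit 836) (nat_lit 702578589) (nat_lit 184) (nat_lit 5) (nat_lit 194) (nat_lit 5) (nat_lit 195) (nat_lit 5) (nat_lit 280) (nat_lit 277) (nat_lit 223))))) (XT.nd (nat_lit 234) (nat_lit 0) (nat_lit 76) (XT.nd (nat_lit 78) (nat_lit 0) (nat_lit 0) (XT.lf (nat_lit 0) (nat_lit 66499137) (nat_lit 836) (nat_lit 5067631494) (nat_lit 912) (nat_lit 2918554685) (nat_lit 173) (nat_lit 5) (nat_lit 184) (nat_lit 5) (nat_lit 185) (nat_lit 5) (nat_lit 281) (nat_lit 277) (nat_lit 222)) (XT.nd (nat_lit 78) (nat_lit 0) (nat_lit 0) (XT.lf (nat_lit 0) (nat_lit 1222263940) (nat_lit 836) (nat_lit 1684925379) (nat_lit 912) (nat_lit 5235034798) (nat_lit 173) (nat_lit 5) (nat_lit 184) (nat_lit 5) (nat_lit 185) (nat_lit 5) (nat_lit 282) (nat_lit 277) (nat_lit 221)) (XT.lf (nat_lit 76) (nat_lit 1810402419) (nat_lit 0) (nat_lit 578644515)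 (nat_lit 912) (nat_lit 5846254987) (nat_lit 174) (nat_lit 5) (nat_lit 173) (nat_lit 5) (nat_lit 185) (nat_lit 5) (nat_lit 283) (nat_lit 277) (nat_lit 220)))) (XT.nd (nat_lit 78) (nat_lit 0) (nat_lit 0) (XT.lf (nat_lit 0) (nat_lit 3585572281) (nat_lit 836) (nat_lit 2928640118) (nat_lit 912) (nat_lit 1817256517) (nat_lit 174) (nat_lit 5) (nat_lit 185) (nat_lit 5) (nat_lit 186) (nat_lit 5) (nat_lit 284) (nat_lit 277) (nat_lit 219)) (XT.nd (nat_lit 78) (nat_lit 0) (nat_lit 0) (XT.lf (nat_lit 76) (nat_lit 654850770) (nat_lit 0) (nat_lit 4136393146) (nat_lit 912) (nat_lit 3640214465) (nat_lit 175) (nat_lit 5) (nat_lit 174) (nat_lit 5) (nat_lit 186) (nat_lit 5) (nat_lit 285) (nat_lit 277) (nat_lit 218)) (XT.lf (nat_lit 76) (nat_lit 4381417228) (nat_lit 0) (nat_lit 1643362711) (nat_lit 912) (nat_lit 2510047806) (nat_lit 175) (nat_lit 5) (nat_lit 174) (nat_lit 5) (nat_lit 186) (nat_lit 5) (nat_lit 286)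 (nat_lit 277) (nat_lit 217))))))))
noncomputable def xc160 : XT := (XT.nd (nat_lit 1716) (nat_lit 3420) (nat_lit 0) (XT.nd (nat_lit 858) (nat_lit 3116) (nat_lit 0) (XT.nd (nat_lit 390) (nat_lit 1824) (nat_lit 0) (XT.nd (nat_lit 156) (nat_lit 912) (nat_lit 0) (XT.nd (nat_lit 78) (nat_lit 0) (nat_lit 0) (XT.lf (nat_lit 0) (nat_lit 7267557707) (nat_lit 836) (nat_lit 455510568) (nat_lit 912) (nat_lit 919190074) (nat_lit 175) (nat_lit 5) (nat_lit 186) (nat_lit 5) (nat_lit 187) (nat_lit 5) (nat_lit 287) (nat_lit 277) (nat_lit 216)) (XT.lf (nat_lit 76) (nat_lit 3378608958) (nat_lit 0) (nat_lit 5182174723) (nat_lit 912) (nat_lit 191856763) (nat_lit 176) (nat_lit 5) (nat_lit 175) (nat_lit 5) (nat_lit 187) (nat_lit 5) (nat_lit 288) (nat_lit 277) (nat_lit 215))) (XT.nd (nat_lit 78) (nat_lit 0) (nat_lit 76) (XT.lf (nat_lit 0) (nat_lit 975846728) (nat_lit 912) (nat_lit 1563973194) (nat_lit 988) (nat_lit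 6327252362) (nat_lit 163) (nat_lit 5) (nat_lit 175) (nat_lit 5) (nat_lit 176) (nat_lit 5) (nat_lit 289) (nat_lit 277) (nat_lit 214)) (XT.nd (nat_lit 78) (nat_lit 0) (nat_lit 0) (XT.lf (nat_lit 0) (nat_lit 2165484710) (nat_lit 912) (nat_lit 6606705748) (nat_lit 988) (nat_lit 213079890) (nat_lit 164) (nat_lit 5) (nat_lit 176) (nat_lit 5) (nat_lit 177) (nat_lit 5) (nat_lit 290) (nat_lit 277) (nat_lit 213)) (XT.lf (nat_lit 0) (nat_lit 3398550444) (nat_lit 912) (nat_lit 2685599147) (nat_lit 988) (nat_lit 3022742352) (nat_lit 164) (nat_lit 5) (nat_lit 176) (nat_lit 5) (nat_lit 177) (nat_lit 5) (nat_lit 291) (nat_lit 277) (nat_lit 212))))) (XT.nd (nat_lit 234) (nat_lit 1064) (nat_lit 0) (XT.nd (nat_lit 78) (nat_lit 836) (nat_lit 0) (XT.lf (nat_lit 76) (nat_lit 1355123869) (nat_lit 0) (nat_lit 3294124589) (nat_lit 988) (nat_lit 4583601068) (nat_lit 165) (nat_lit 5) (nat_lit 164) (nat_lit 5) (nat_lit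 177) (nat_lit 5) (nat_lit 292) (nat_lit 277) (nat_lit 211)) (XT.nd (nat_lit 78) (nat_lit 836) (nat_lit 0) (XT.lf (nat_lit 76) (nat_lit 5547900403) (nat_lit 0) (nat_lit 385010787) (nat_lit 988) (nat_lit 3429914781) (nat_lit 165) (nat_lit 5) (nat_lit 164) (nat_lit 5) (nat_lit 177) (nat_lit 5) (nat_lit 293) (nat_lit 277) (nat_lit 210)) (XT.lf (nat_lit 0) (nat_lit 326418499) (nat_lit 912) (nat_lit 6926221839) (nat_lit 988) (nat_lit 2244235108) (nat_lit 153) (nat_lit 5) (nat_lit 165) (nat_lit 5) (nat_lit 166) (nat_lit 5) (nat_lit 294) (nat_lit 277) (nat_lit 209)))) (XT.nd (nat_lit 78) (nat_lit 1064) (nat_lit 0) (XT.lf (nat_lit 0) (nat_lit 4641951043) (nat_lit 912) (nat_lit 3982284322) (nat_lit 988) (nat_lit 1010440329) (nat_lit 153) (nat_lit 5) (nat_lit 165) (nat_lit 5) (nat_lit 166) (nat_lit 5) (nat_lit 295) (nat_lit 277) (nat_lit 208)) (XT.nd (nat_lit 78) (nat_lit 988) (nat_lit 0) (XT.lf (nat_lit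 0) (nat_lit 225756742) (nat_lit 988) (nat_lit 716499369) (nat_lit 76) (nat_lit 8835256591) (nat_lit 152) (nat_lit 5) (nat_lit 165) (nat_lit 5) (nat_lit 153) (nat_lit 5) (nat_lit 296) (nat_lit 277) (nat_lit 207)) (XT.lf (nat_lit 0) (nat_lit 1507431441) (nat_lit 1064) (nat_lit 6218642916) (nat_lit 76) (nat_lit 2197488549) (nat_lit 139) (nat_lit 5) (nat_lit 153) (nat_lit 5) (nat_lit 140) (nat_lit 5) (nat_lit 297) (nat_lit 277) (nat_lit 206)))))) (XT.nd (nat_lit 390) (nat_lit 1520) (nat_lit 0) (XT.nd (nat_lit 156) (nat_lit 532) (nat_lit 0) (XT.nd (nat_lit 78) (nat_lit 1064) (nat_lit 0) (XT.lf (nat_lit 0) (nat_lit 2816176835) (nat_lit 1064) (nat_lit 1833877993) (nat_lit 76) (nat_lit 5424367810) (nat_lit 139) (nat_lit 5) (nat_lit 153) (nat_lit 5) (nat_lit 140) (nat_lit 5) (nat_lit 298) (nat_lit 277) (nat_lit 205)) (XT.lf (nat_lit 0) (nat_lit 2711685409) (nat_lit 1064) (nat_lit 1451365862) (nat_lit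 1140) (nat_lit 6066875002) (nat_lit 125) (nat_lit 5) (nat_lit 139) (nat_lit 5) (nat_lit 140) (nat_lit 5) (nat_lit 299) (nat_lit 277) (nat_lit 204))) (XT.nd (nat_lit 78) (nat_lit 532) (nat_lit 0) (XT.lf (nat_lit 0) (nat_lit 5560150778) (nat_lit 1140) (nat_lit 3000571888) (nat_lit 76) (nat_lit 1829159448) (nat_lit 125) (nat_lit 5) (nat_lit 140) (nat_lit 5) (nat_lit 126) (nat_lit 5) (nat_lit 300) (nat_lit 277) (nat_lit 203)) (XT.nd (nat_lit 78) (nat_lit 0) (nat_lit 0) (XT.lf (nat_lit 0) (nat_lit 1646761624) (nat_lit 532) (nat_lit 5356774236) (nat_lit 608) (nat_lit 3551048875) (nat_lit 118) (nat_lit 5) (nat_lit 125) (nat_lit 5) (nat_lit 126) (nat_lit 5) (nat_lit 301) (nat_lit 277) (nat_lit 202)) (XT.lf (nat_lit 0) (nat_lit 6471625765) (nat_lit 532) (nat_lit 2023596903) (nat_lit 608) (nat_lit 2228932737) (nat_lit 118) (nat_lit 5) (nat_lit 125) (nat_lit 5) (nat_lit 126) (nat_lit 5) (nat_lit 302)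 (nat_lit 277) (nat_lit 201))))) (XT.nd (nat_lit 234) (nat_lit 988) (nat_lit 0) (XT.nd (nat_lit 78) (nat_lit 76) (nat_lit 0) (XT.lf (nat_lit 0) (nat_lit 515383902) (nat_lit 456) (nat_lit 9510234980) (nat_lit 532) (nat_lit 873450282) (nat_lit 112) (nat_lit 5) (nat_lit 118) (nat_lit 5) (nat_lit 119) (nat_lit 5) (nat_lit 303) (nat_lit 277) (nat_lit 200)) (XT.nd (nat_lit 78) (nat_lit 0) (nat_lit 0) (XT.lf (nat_lit 0) (nat_lit 551536341) (nat_lit 532) (nat_lit 5613790298) (nat_lit 76) (nat_lit 4912652222) (nat_lit 111) (nat_lit 5) (nat_lit 118) (nat_lit 5) (nat_lit 112) (nat_lit 5) (nat_lit 304) (nat_lit 277) (nat_lit 199)) (XT.lf (nat_lit 0) (nat_lit 1978063093) (nat_lit 532) (nat_lit 732621756) (nat_lit 76) (nat_lit 8552089570) (nat_lit 111) (nat_lit 5) (nat_lit 118) (nat_lit 5) (nat_lit 112) (nat_lit 5) (nat_lit 305) (nat_lit 277) (nat_lit 198)))) (XT.nd (nat_lit 78) (nat_lit 456) (nat_lit 0)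 (XT.lf (nat_lit 0) (nat_lit 3474874492) (nat_lit 608) (nat_lit 7103667023) (nat_lit 76) (nat_lit 873814060) (nat_lit 104) (nat_lit 5) (nat_lit 112) (nat_lit 5) (nat_lit 105) (nat_lit 5) (nat_lit 306) (nat_lit 277) (nat_lit 197)) (XT.nd (nat_lit 78) (nat_lit 456) (nat_lit 0) (XT.lf (nat_lit 0) (nat_lit 5028391891) (nat_lit 608) (nat_lit 2099879381) (nat_lit 76) (nat_lit 4519063311) (nat_lit 104) (nat_lit 5) (nat_lit 112) (nat_lit 5) (nat_lit 105) (nat_lit 5) (nat_lit 307) (nat_lit 277) (nat_lit 196)) (XT.lf (nat_lit 0) (nat_lit 3092006973) (nat_lit 456) (nat_lit 3544377579) (nat_lit 532) (nat_lit 5211604903) (nat_lit 98) (nat_lit 5) (nat_lit 104) (nat_lit 5) (nat_lit 105) (nat_lit 5) (nat_lit 308) (nat_lit 277) (nat_lit 195))))))) (XT.nd (nat_lit 858) (nat_lit 1368) (nat_lit 0) (XT.nd (nat_lit 390) (nat_lit 1140) (nat_lit 0) (XT.nd (nat_lit 156) (nat_lit 456) (nat_lit 0) (XT.nd (nat_lit 78)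 (nat_lit 456) (nat_lit 0) (XT.lf (nat_lit 0) (nat_lit 8294009429) (nat_lit 532) (nat_lit 3595784613) (nat_lit 76) (nat_lit 164888923) (nat_lit 98) (nat_lit 5) (nat_lit 105) (nat_lit 5) (nat_lit 99) (nat_lit 5) (nat_lit 309) (nat_lit 277) (nat_lit 194)) (XT.lf (nat_lit 0) (nat_lit 1695038725) (nat_lit 456) (nat_lit 8336899713) (nat_lit 532) (nat_lit 2234780575) (nat_lit 92) (nat_lit 5) (nat_lit 98) (nat_lit 5) (nat_lit 99) (nat_lit 5) (nat_lit 310) (nat_lit 277) (nat_lit 193))) (XT.nd (nat_lit 78) (nat_lit 456) (nat_lit 0) (XT.lf (nat_lit 0) (nat_lit 7196350185) (nat_lit 456) (nat_lit 4641549483) (nat_lit 532) (nat_lit 646796919) (nat_lit 92) (nat_lit 5) (nat_lit 98) (nat_lit 5) (nat_lit 99) (nat_lit 5) (nat_lit 311) (nat_lit 277) (nat_lit 192)) (XT.nd (nat_lit 78) (nat_lit 0) (nat_lit 0) (XT.lf (nat_lit 0) (nat_lit 124653864) (nat_lit 380) (nat_lit 826002913) (nat_lit 456) (nat_lit 11758891762)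 (nat_lit 86) (nat_lit 5) (nat_lit 91) (nat_lit 5) (nat_lit 92) (nat_lit 5) (nat_lit 312) (nat_lit 277) (nat_lit 191)) (XT.lf (nat_lit 0) (nat_lit 2647089944) (nat_lit 456) (nat_lit 7190037221) (nat_lit 76) (nat_lit 3101957506) (nat_lit 86) (nat_lit 5) (nat_lit 92) (nat_lit 5) (nat_lit 87) (nat_lit 5) (nat_lit 313) (nat_lit 277) (nat_lit 190))))) (XT.nd (nat_lit 234) (nat_lit 760) (nat_lit 0) (XT.nd (nat_lit 78) (nat_lit 380) (nat_lit 0) (XT.lf (nat_lit 0) (nat_lit 4383456033) (nat_lit 456) (nat_lit 1663039456) (nat_lit 76) (nat_lit 7129391089) (nat_lit 86) (nat_lit 5) (nat_lit 92) (nat_lit 5) (nat_lit 87) (nat_lit 5) (nat_lit 314) (nat_lit 277) (nat_lit 189)) (XT.nd (nat_lit 78) (nat_lit 0) (nat_lit 0) (XT.lf (nat_lit 0) (nat_lit 4088652415) (nat_lit 380) (nat_lit 2103982425) (nat_lit 456) (nat_lit 7226585458) (nat_lit 81) (nat_lit 5) (nat_lit 86) (nat_lit 5) (nat_lit 87) (nat_lit 5) (nat_lit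 315) (nat_lit 277) (nat_lit 188)) (XT.lf (nat_lit 0) (nat_lit 8073596487) (nat_lit 456) (nat_lit 3662607563) (nat_lit 76) (nat_lit 1933172723) (nat_lit 81) (nat_lit 5) (nat_lit 87) (nat_lit 5) (nat_lit 82) (nat_lit 5) (nat_lit 316) (nat_lit 277) (nat_lit 187)))) (XT.nd (nat_lit 78) (nat_lit 380) (nat_lit 0) (XT.lf (nat_lit 0) (nat_lit 2176381755) (nat_lit 380) (nat_lit 7858627108) (nat_lit 456) (nat_lit 3891354993) (nat_lit 76) (nat_lit 5) (nat_lit 81) (nat_lit 5) (nat_lit 82) (nat_lit 5) (nat_lit 317) (nat_lit 277) (nat_lit 186)) (XT.nd (nat_lit 78) (nat_lit 380) (nat_lit 0) (XT.lf (nat_lit 0) (nat_lit 8245175693) (nat_lit 380) (nat_lit 3829662620) (nat_lit 456) (nat_lit 2115680212) (nat_lit 76) (nat_lit 5) (nat_lit 81) (nat_lit 5) (nat_lit 82) (nat_lit 5) (nat_lit 318) (nat_lit 277) (nat_lit 185)) (XT.lf (nat_lit 0) (nat_lit 10184554) (nat_lit 380) (nat_lit 14151921999) (nat_lit 456) (nat_lit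 300947862) (nat_lit 71) (nat_lit 5) (nat_lit 76) (nat_lit 5) (nat_lit 77) (nat_lit 5) (nat_lit 319) (nat_lit 277) (nat_lit 184)))))) (XT.nd (nat_lit 390) (nat_lit 684) (nat_lit 0) (XT.nd (nat_lit 156) (nat_lit 608) (nat_lit 0) (XT.nd (nat_lit 78) (nat_lit 0) (nat_lit 0) (XT.lf (nat_lit 0) (nat_lit 1619333997) (nat_lit 456) (nat_lit 8549849349) (nat_lit 76) (nat_lit 4571720891) (nat_lit 70) (nat_lit 5) (nat_lit 76) (nat_lit 5) (nat_lit 71) (nat_lit 5) (nat_lit 320) (nat_lit 277) (nat_lit 183)) (XT.lf (nat_lit 0) (nat_lit 3574827122) (nat_lit 456) (nat_lit 2492668289) (nat_lit 76) (nat_lit 8960035378) (nat_lit 70) (nat_lit 5) (nat_lit 76) (nat_lit 5) (nat_lit 71) (nat_lit 5) (nat_lit 321) (nat_lit 277) (nat_lit 182))) (XT.nd (nat_lit 78) (nat_lit 304) (nat_lit 0) (XT.lf (nat_lit 0) (nat_lit 3801030695) (nat_lit 304) (nat_lit 1808619907) (nat_lit 380) (nat_lit 9712524570) (nat_lit 66) (nat_lit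 5) (nat_lit 70) (nat_lit 5) (nat_lit 71) (nat_lit 5) (nat_lit 322) (nat_lit 277) (nat_lit 181)) (XT.nd (nat_lit 78) (nat_lit 304) (nat_lit 0) (XT.lf (nat_lit 0) (nat_lit 7740091797) (nat_lit 380) (nat_lit 5334947237) (nat_lit 76) (nat_lit 2549620529) (nat_lit 66) (nat_lit 5) (nat_lit 71) (nat_lit 5) (nat_lit 67) (nat_lit 5) (nat_lit 323) (nat_lit 277) (nat_lit 180)) (XT.lf (nat_lit 0) (nat_lit 1019749480) (nat_lit 304) (nat_lit 8927232741) (nat_lit 380) (nat_lit 5988896949) (nat_lit 62) (nat_lit 5) (nat_lit 66) (nat_lit 5) (nat_lit 67) (nat_lit 5) (nat_lit 324) (nat_lit 277) (nat_lit 179))))) (XT.nd (nat_lit 234) (nat_lit 304) (nat_lit 0) (XT.nd (nat_lit 78) (nat_lit 380) (nat_lit 0) (XT.lf (nat_lit 0) (nat_lit 7655557034) (nat_lit 304) (nat_lit 4603481598) (nat_lit 380) (nat_lit 3996263647) (nat_lit 62) (nat_lit 5) (nat_lit 66) (nat_lit 5) (nat_lit 67) (nat_lit 5) (nat_lit 325) (nat_lit 277)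 (nat_lit 178)) (XT.nd (nat_lit 78) (nat_lit 380) (nat_lit 0) (XT.lf (nat_lit 0) (nat_lit 14472097790) (nat_lit 304) (nat_lit 153880077) (nat_lit 380) (nat_lit 1958799233) (nat_lit 62) (nat_lit 5) (nat_lit 66) (nat_lit 5) (nat_lit 67) (nat_lit 5) (nat_lit 326) (nat_lit 277) (nat_lit 177)) (XT.lf (nat_lit 0) (nat_lit 210429027) (nat_lit 380) (nat_lit 12326134266) (nat_lit 76) (nat_lit 4385364193) (nat_lit 57) (nat_lit 5) (nat_lit 62) (nat_lit 5) (nat_lit 58) (nat_lit 5) (nat_lit 327) (nat_lit 277) (nat_lit 176)))) (XT.nd (nat_lit 78) (nat_lit 304) (nat_lit 0) (XT.lf (nat_lit 0) (nat_lit 2414407506) (nat_lit 380) (nat_lit 5759211720) (nat_lit 76) (nat_lit 9094751751) (nat_lit 57) (nat_lit 5) (nat_lit 62) (nat_lit 5) (nat_lit 58) (nat_lit 5) (nat_lit 328) (nat_lit 277) (nat_lit 175)) (XT.nd (nat_lit 78) (nat_lit 0) (nat_lit 0) (XT.lf (nat_lit 0) (nat_lit 1006536063) (nat_lit 304) (nat_lit 3674027809)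 (nat_lit 380) (nat_lit 12944792932) (nat_lit 53) (nat_lit 5) (nat_lit 57) (nat_lit 5) (nat_lit 58) (nat_lit 5) (nat_lit 329) (nat_lit 277) (nat_lit 174)) (XT.lf (nat_lit 0) (nat_lit 7069240002) (nat_lit 380) (nat_lit 9925841741) (nat_lit 76) (nat_lit 996364302) (nat_lit 53) (nat_lit 5) (nat_lit 58) (nat_lit 5) (nat_lit 54) (nat_lit 5) (nat_lit 330) (nat_lit 277) (nat_lit 173))))))))
noncomputable def xc161 : XT := (XT.nd (nat_lit 1716) (nat_lit 836) (nat_lit 0) (XT.nd (nat_lit 858) (nat_lit 988) (nat_lit 0) (XT.nd (nat_lit 390) (nat_lit 456) (nat_lit 0) (XT.nd (nat_lit 156) (nat_lit 380) (nat_lit 0) (XT.nd (nat_lit 78) (nat_lit 228) (nat_lit 0) (XT.lf (nat_lit 0) (nat_lit 9552913231) (nat_lit 380) (nat_lit 3085963956) (nat_lit 76) (nat_lit 5728969695) (nat_lit 53) (nat_lit 5) (nat_lit 58) (nat_lit 5) (nat_lit 54) (nat_lit 5) (nat_lit 331) (nat_lit 277) (nat_lit 172)) (XT.lf (nat_lit 0) (nat_lit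 4020561852) (nat_lit 228) (nat_lit 8116523002) (nat_lit 304) (nat_lit 6617703419) (nat_lit 50) (nat_lit 5) (nat_lit 53) (nat_lit 5) (nat_lit 54) (nat_lit 5) (nat_lit 332) (nat_lit 277) (nat_lit 171))) (XT.nd (nat_lit 78) (nat_lit 380) (nat_lit 0) (XT.lf (nat_lit 0) (nat_lit 11386705422) (nat_lit 228) (nat_lit 3430785373) (nat_lit 304) (nat_lit 4335313190) (nat_lit 50) (nat_lit 5) (nat_lit 53) (nat_lit 5) (nat_lit 54) (nat_lit 5) (nat_lit 333) (nat_lit 277) (nat_lit 170)) (XT.nd (nat_lit 78) (nat_lit 380) (nat_lit 0) (XT.lf (nat_lit 0) (nat_lit 17579592326) (nat_lit 304) (nat_lit 619036699) (nat_lit 76) (nat_lit 1364119201) (nat_lit 50) (nat_lit 5) (nat_lit 54) (nat_lit 5) (nat_lit 51) (nat_lit 5) (nat_lit 334) (nat_lit 277) (nat_lit 169)) (XT.lf (nat_lit 0) (nat_lit 519633296) (nat_lit 380) (nat_lit 13162027988) (nat_lit 76) (nat_lit 6300568442) (nat_lit 45) (nat_lit 5) (nat_lit 50) (nat_lit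 5) (nat_lit 46) (nat_lit 5) (nat_lit 335) (nat_lit 277) (nat_lit 168))))) (XT.nd (nat_lit 234) (nat_lit 228) (nat_lit 0) (XT.nd (nat_lit 78) (nat_lit 228) (nat_lit 0) (XT.lf (nat_lit 0) (nat_lit 3052231235) (nat_lit 380) (nat_lit 5954806000) (nat_lit 76) (nat_lit 11406856149) (nat_lit 45) (nat_lit 5) (nat_lit 50) (nat_lit 5) (nat_lit 46) (nat_lit 5) (nat_lit 336) (nat_lit 277) (nat_lit 167)) (XT.nd (nat_lit 78) (nat_lit 0) (nat_lit 0) (XT.lf (nat_lit 0) (nat_lit 1481713457) (nat_lit 228) (nat_lit 4181949981) (nat_lit 304) (nat_lit 15194781419) (nat_lit 42) (nat_lit 5) (nat_lit 45) (nat_lit 5) (nat_lit 46) (nat_lit 5) (nat_lit 337) (nat_lit 277) (nat_lit 166)) (XT.lf (nat_lit 0) (nat_lit 8410490677) (nat_lit 304) (nat_lit 12075295415) (nat_lit 76) (nat_lit 828858132) (nat_lit 42) (nat_lit 5) (nat_lit 46) (nat_lit 5) (nat_lit 43) (nat_lit 5) (nat_lit 338) (nat_lit 277) (nat_lit 165)))) (XT.nd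 (nat_lit 78) (nat_lit 228) (nat_lit 0) (XT.lf (nat_lit 0) (nat_lit 11270206972) (nat_lit 304) (nat_lit 4611749595) (nat_lit 76) (nat_lit 5901680719) (nat_lit 42) (nat_lit 5) (nat_lit 46) (nat_lit 5) (nat_lit 43) (nat_lit 5) (nat_lit 339) (nat_lit 277) (nat_lit 164)) (XT.nd (nat_lit 78) (nat_lit 0) (nat_lit 0) (XT.lf (nat_lit 0) (nat_lit 3121539545) (nat_lit 228) (nat_lit 11113578247) (nat_lit 304) (nat_lit 8031021852) (nat_lit 39) (nat_lit 5) (nat_lit 42) (nat_lit 5) (nat_lit 43) (nat_lit 5) (nat_lit 340) (nat_lit 277) (nat_lit 163)) (XT.lf (nat_lit 0) (nat_lit 11166435971) (nat_lit 228) (nat_lit 6158671816) (nat_lit 304) (nat_lit 5436946295) (nat_lit 39) (nat_lit 5) (nat_lit 42) (nat_lit 5) (nat_lit 43) (nat_lit 5) (nat_lit 341) (nat_lit 277) (nat_lit 162)))))) (XT.nd (nat_lit 390) (nat_lit 456) (nat_lit 0) (XT.nd (nat_lit 156) (nat_lit 228) (nat_lit 0) (XT.nd (nat_lit 78) (nat_lit 304) (nat_lit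 0) (XT.lf (nat_lit 0) (nat_lit 19438186344) (nat_lit 228) (nat_lit 1059477374) (nat_lit 304) (nat_lit 2775506603) (nat_lit 39) (nat_lit 5) (nat_lit 42) (nat_lit 5) (nat_lit 43) (nat_lit 5) (nat_lit 342) (nat_lit 277) (nat_lit 161)) (XT.lf (nat_lit 0) (nat_lit 37781286) (nat_lit 304) (nat_lit 19612395022) (nat_lit 76) (nat_lit 4147332680) (nat_lit 35) (nat_lit 5) (nat_lit 39) (nat_lit 5) (nat_lit 36) (nat_lit 5) (nat_lit 343) (nat_lit 277) (nat_lit 160))) (XT.nd (nat_lit 78) (nat_lit 228) (nat_lit 0) (XT.lf (nat_lit 0) (nat_lit 2919438781) (nat_lit 304) (nat_lit 11864760291) (nat_lit 76) (nat_lit 9551380286) (nat_lit 35) (nat_lit 5) (nat_lit 39) (nat_lit 5) (nat_lit 36) (nat_lit 5) (nat_lit 344) (nat_lit 277) (nat_lit 159)) (XT.nd (nat_lit 78) (nat_lit 228) (nat_lit 0) (XT.lf (nat_lit 0) (nat_lit 5877989483) (nat_lit 304) (nat_lit 3898695496) (nat_lit 76) (nat_lit 15113411641) (nat_lit 35) (nat_lit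 5) (nat_lit 39) (nat_lit 5) (nat_lit 36) (nat_lit 5) (nat_lit 345) (nat_lit 277) (nat_lit 158)) (XT.lf (nat_lit 0) (nat_lit 4378194342) (nat_lit 228) (nat_lit 4579910072) (nat_lit 304) (nat_lit 16502178311) (nat_lit 32) (nat_lit 5) (nat_lit 35) (nat_lit 5) (nat_lit 36) (nat_lit 5) (nat_lit 346) (nat_lit 277) (nat_lit 157))))) (XT.nd (nat_lit 234) (nat_lit 304) (nat_lit 0) (XT.nd (nat_lit 78) (nat_lit 152) (nat_lit 0) (XT.lf (nat_lit 0) (nat_lit 12168631253) (nat_lit 304) (nat_lit 13084608770) (nat_lit 76) (nat_lit 793211186) (nat_lit 32) (nat_lit 5) (nat_lit 36) (nat_lit 5) (nat_lit 33) (nat_lit 5) (nat_lit 347) (nat_lit 277) (nat_lit 156)) (XT.nd (nat_lit 78) (nat_lit 152) (nat_lit 0) (XT.lf (nat_lit 0) (nat_lit 15511908050) (nat_lit 304) (nat_lit 4905858787) (nat_lit 76) (nat_lit 6231361435) (nat_lit 32) (nat_lit 5) (nat_lit 36) (nat_lit 5) (nat_lit 33) (nat_lit 5) (nat_lit 348) (nat_lit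 277) (nat_lit 155)) (XT.lf (nat_lit 0) (nat_lit 3575095940) (nat_lit 152) (nat_lit 15406101287) (nat_lit 228) (nat_lit 8287933066) (nat_lit 30) (nat_lit 5) (nat_lit 32) (nat_lit 5) (nat_lit 33) (nat_lit 5) (nat_lit 349) (nat_lit 277) (nat_lit 154)))) (XT.nd (nat_lit 78) (nat_lit 304) (nat_lit 0) (XT.lf (nat_lit 0) (nat_lit 12398250527) (nat_lit 152) (nat_lit 10197331189) (nat_lit 228) (nat_lit 5310935761) (nat_lit 30) (nat_lit 5) (nat_lit 32) (nat_lit 5) (nat_lit 33) (nat_lit 5) (nat_lit 350) (nat_lit 277) (nat_lit 153)) (XT.nd (nat_lit 78) (nat_lit 304) (nat_lit 0) (XT.lf (nat_lit 0) (nat_lit 21473678314) (nat_lit 152) (nat_lit 4836444746) (nat_lit 228) (nat_lit 2253166601) (nat_lit 30) (nat_lit 5) (nat_lit 32) (nat_lit 5) (nat_lit 33) (nat_lit 5) (nat_lit 351) (nat_lit 277) (nat_lit 152)) (XT.lf (nat_lit 0) (nat_lit 892803297) (nat_lit 304) (nat_lit 27654275981) (nat_lit 76) (nat_lit 692022775)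 (nat_lit 26) (nat_lit 5) (nat_lit 30) (nat_lit 5) (nat_lit 27) (nat_lit 5) (nat_lit 352) (nat_lit 277) (nat_lit 151))))))) (XT.nd (nat_lit 858) (nat_lit 304) (nat_lit 0) (XT.nd (nat_lit 390) (nat_lit 380) (nat_lit 0) (XT.nd (nat_lit 156) (nat_lit 152) (nat_lit 0) (XT.nd (nat_lit 78) (nat_lit 0) (nat_lit 0) (XT.lf (nat_lit 0) (nat_lit 4200004606) (nat_lit 304) (nat_lit 19351447690) (nat_lit 76) (nat_lit 6379716960) (nat_lit 26) (nat_lit 5) (nat_lit 30) (nat_lit 5) (nat_lit 27) (nat_lit 5) (nat_lit 353) (nat_lit 277) (nat_lit 150)) (XT.lf (nat_lit 0) (nat_lit 7598609474) (nat_lit 304) (nat_lit 10811505726) (nat_lit 76) (nat_lit 12234131109) (nat_lit 26) (nat_lit 5) (nat_lit 30) (nat_lit 5) (nat_lit 27) (nat_lit 5) (nat_lit 354) (nat_lit 277) (nat_lit 149))) (XT.nd (nat_lit 78) (nat_lit 152) (nat_lit 0) (XT.lf (nat_lit 0) (nat_lit 11091587553) (nat_lit 304) (nat_lit 2026988004) (nat_lit 76) (nat_lit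 18260380728) (nat_lit 26) (nat_lit 5) (nat_lit 30) (nat_lit 5) (nat_lit 27) (nat_lit 5) (nat_lit 355) (nat_lit 277) (nat_lit 148)) (XT.nd (nat_lit 78) (nat_lit 0) (nat_lit 0) (XT.lf (nat_lit 0) (nat_lit 7149289659) (nat_lit 152) (nat_lit 7601424647) (nat_lit 228) (nat_lit 17383165160) (nat_lit 24) (nat_lit 5) (nat_lit 26) (nat_lit 5) (nat_lit 27) (nat_lit 5) (nat_lit 356) (nat_lit 277) (nat_lit 147)) (XT.lf (nat_lit 0) (nat_lit 16631233567) (nat_lit 152) (nat_lit 1901592967) (nat_lit 228) (nat_lit 14378239773) (nat_lit 24) (nat_lit 5) (nat_lit 26) (nat_lit 5) (nat_lit 27) (nat_lit 5) (nat_lit 357) (nat_lit 277) (nat_lit 146))))) (XT.nd (nat_lit 234) (nat_lit 228) (nat_lit 0) (XT.nd (nat_lit 78) (nat_lit 152) (nat_lit 0) (XT.lf (nat_lit 0) (nat_lit 22459474715) (nat_lit 228) (nat_lit 7363122353) (nat_lit 76) (nat_lit 3888051463) (nat_lit 24) (nat_lit 5) (nat_lit 27) (nat_lit 5) (nat_lit 25)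 (nat_lit 5) (nat_lit 358) (nat_lit 277) (nat_lit 145)) (XT.nd (nat_lit 78) (nat_lit 0) (nat_lit 0) (XT.lf (nat_lit 0) (nat_lit 1827203727) (nat_lit 152) (nat_lit 24706234626) (nat_lit 228) (nat_lit 7999905998) (nat_lit 22) (nat_lit 5) (nat_lit 24) (nat_lit 5) (nat_lit 25) (nat_lit 5) (nat_lit 359) (nat_lit 277) (nat_lit 144)) (XT.lf (nat_lit 0) (nat_lit 11433568122) (nat_lit 152) (nat_lit 19363628330) (nat_lit 228) (nat_lit 4581508597) (nat_lit 22) (nat_lit 5) (nat_lit 24) (nat_lit 5) (nat_lit 25) (nat_lit 5) (nat_lit 360) (nat_lit 277) (nat_lit 143)))) (XT.nd (nat_lit 78) (nat_lit 228) (nat_lit 0) (XT.lf (nat_lit 0) (nat_lit 21317824169) (nat_lit 152) (nat_lit 13864462982) (nat_lit 228) (nat_lit 1067347763) (nat_lit 22) (nat_lit 5) (nat_lit 24) (nat_lit 5) (nat_lit 25) (nat_lit 5) (nat_lit 361) (nat_lit 277) (nat_lit 142)) (XT.nd (nat_lit 78) (nat_lit 152) (nat_lit 0) (XT.lf (nat_lit 0) (nat_lit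 2495972385) (nat_lit 228) (nat_lit 5682756673) (nat_lit 76) (nat_lit 28967431784) (nat_lit 21) (nat_lit 5) (nat_lit 24) (nat_lit 5) (nat_lit 22) (nat_lit 5) (nat_lit 362) (nat_lit 277) (nat_lit 141)) (XT.lf (nat_lit 0) (nat_lit 3899450610) (nat_lit 152) (nat_lit 2276498861) (nat_lit 228) (nat_lit 31892389757) (nat_lit 19) (nat_lit 5) (nat_lit 21) (nat_lit 5) (nat_lit 22) (nat_lit 5) (nat_lit 363) (nat_lit 277) (nat_lit 140)))))) (XT.nd (nat_lit 390) (nat_lit 152) (nat_lit 0) (XT.nd (nat_lit 156) (nat_lit 152) (nat_lit 0) (XT.nd (nat_lit 78) (nat_lit 0) (nat_lit 0) (XT.lf (nat_lit 0) (nat_lit 10054614433) (nat_lit 228) (nat_lit 25177876831) (nat_lit 76) (nat_lit 3783052769) (nat_lit 19) (nat_lit 5) (nat_lit 22) (nat_lit 5) (nat_lit 20) (nat_lit 5) (nat_lit 364) (nat_lit 277) (nat_lit 139)) (XT.lf (nat_lit 0) (nat_lit 14066140949) (nat_lit 228) (nat_lit 15949293183) (nat_lit 76) (nat_lit 9975245238)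 (nat_lit 19) (nat_lit 5) (nat_lit 22) (nat_lit 5) (nat_lit 20) (nat_lit 5) (nat_lit 365) (nat_lit 277) (nat_lit 138))) (XT.nd (nat_lit 78) (nat_lit 152) (nat_lit 0) (XT.lf (nat_lit 0) (nat_lit 18192151137) (nat_lit 228) (nat_lit 6453190766) (nat_lit 76) (nat_lit 16349911892) (nat_lit 19) (nat_lit 5) (nat_lit 22) (nat_lit 5) (nat_lit 20) (nat_lit 5) (nat_lit 366) (nat_lit 277) (nat_lit 137)) (XT.nd (nat_lit 78) (nat_lit 0) (nat_lit 0) (XT.lf (nat_lit 0) (nat_lit 3384777178) (nat_lit 152) (nat_lit 19084009619) (nat_lit 228) (nat_lit 19560382197) (nat_lit 17) (nat_lit 5) (nat_lit 19) (nat_lit 5) (nat_lit 20) (nat_lit 5) (nat_lit 367) (nat_lit 277) (nat_lit 136)) (XT.lf (nat_lit 0) (nat_lit 13641190398) (nat_lit 152) (nat_lit 13292083790) (nat_lit 228) (nat_lit 16159049520) (nat_lit 17) (nat_lit 5) (nat_lit 19) (nat_lit 5) (nat_lit 20) (nat_lit 5) (nat_lit 368) (nat_lit 277) (nat_lit 135))))) (XT.nd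 (nat_lit 234) (nat_lit 152) (nat_lit 0) (XT.nd (nat_lit 78) (nat_lit 0) (nat_lit 0) (XT.lf (nat_lit 0) (nat_lit 24196579657) (nat_lit 152) (nat_lit 7329668083) (nat_lit 228) (nat_lit 12661297163) (nat_lit 17) (nat_lit 5) (nat_lit 19) (nat_lit 5) (nat_lit 20) (nat_lit 5) (nat_lit 369) (nat_lit 277) (nat_lit 134)) (XT.nd (nat_lit 78) (nat_lit 0) (nat_lit 0) (XT.lf (nat_lit 0) (nat_lit 35060168110) (nat_lit 152) (nat_lit 1191552621) (nat_lit 228) (nat_lit 9064068836) (nat_lit 17) (nat_lit 5) (nat_lit 19) (nat_lit 5) (nat_lit 20) (nat_lit 5) (nat_lit 370) (nat_lit 277) (nat_lit 133)) (XT.lf (nat_lit 0) (nat_lit 41163112094) (nat_lit 228) (nat_lit 285885212) (nat_lit 76) (nat_lit 5027567545) (nat_lit 17) (nat_lit 5) (nat_lit 20) (nat_lit 5) (nat_lit 18) (nat_lit 4) (nat_lit 371) (nat_lit 277) (nat_lit 132)))) (XT.nd (nat_lit 78) (nat_lit 76) (nat_lit 0) (XT.lf (nat_lit 0) (nat_lit 10161324396) (nat_lit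 76) (nat_lit 36164980359) (nat_lit 152) (nat_lit 1342732527) (nat_lit 16) (nat_lit 5) (nat_lit 17) (nat_lit 5) (nat_lit 18) (nat_lit 4) (nat_lit 372) (nat_lit 277) (nat_lit 131)) (XT.nd (nat_lit 78) (nat_lit 0) (nat_lit 0) (XT.lf (nat_lit 0) (nat_lit 2691416555) (nat_lit 152) (nat_lit 28003954635) (nat_lit 76) (nat_lit 18201190325) (nat_lit 15) (nat_lit 5) (nat_lit 17) (nat_lit 5) (nat_lit 16) (nat_lit 5) (nat_lit 373) (nat_lit 277) (nat_lit 130)) (XT.lf (nat_lit 0) (nat_lit 6814745992) (nat_lit 152) (nat_lit 18236273685) (nat_lit 76) (nat_lit 25109645685) (nat_lit 15) (nat_lit 5) (nat_lit 17) (nat_lit 5) (nat_lit 16) (nat_lit 5) (nat_lit 374) (nat_lit 277) (nat_lit 129))))))))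
noncomputable def xc162 : XT := (XT.nd (nat_lit 33462) (nat_lit 0) (nat_lit 7752) (XT.nd (nat_lit 858) (nat_lit 228) (nat_lit 0) (XT.nd (nat_lit 390) (nat_lit 76) (nat_lit 0) (XT.nd (nat_lit 156) (nat_lit 0) (nat_lit 0) (XT.nd (nat_lit 78) (nat_lit 152) (nat_lit 0) (XT.lf (nat_lit 0) (nat_lit 11057060240) (nat_lit 152) (nat_lit 8183228003) (nat_lit 76) (nat_lit 32222552353) (nat_lit 15) (nat_lit 5) (nat_lit 17) (nat_lit 5) (nat_lit 16) (nat_lit 5) (nat_lit 375) (nat_lit 277) (nat_lit 128)) (XT.lf (nat_lit 0) (nat_lit 2207033805) (nat_lit 152) (nat_lit 13236247729) (nat_lit 228) (nat_lit 37360307043) (nat_lit 13) (nat_lit 5) (nat_lit 15) (nat_lit 5) (nat_lit 16) (nat_lit 5) (nat_lit 376) (nat_lit 277) (nat_lit 127))) (XT.nd (nat_lit 78) (nat_lit 0) (nat_lit 0) (XT.lf (nat_lit 0) (nat_lit 13069382160) (nat_lit 152) (nat_lit 6969826618) (nat_lit 228) (nat_lit 34143013069) (nat_lit 13) (nat_lit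 5) (nat_lit 15) (nat_lit 5) (nat_lit 16) (nat_lit 5) (nat_lit 377) (nat_lit 277) (nat_lit 126)) (XT.nd (nat_lit 78) (nat_lit 0) (nat_lit 0) (XT.lf (nat_lit 0) (nat_lit 24250446151) (nat_lit 152) (nat_lit 518183952) (nat_lit 228) (nat_lit 30833721762) (nat_lit 13) (nat_lit 5) (nat_lit 15) (nat_lit 5) (nat_lit 16) (nat_lit 5) (nat_lit 378) (nat_lit 277) (nat_lit 125)) (XT.lf (nat_lit 0) (nat_lit 29694548703) (nat_lit 228) (nat_lit 21364094572) (nat_lit 76) (nat_lit 6004810129) (nat_lit 13) (nat_lit 5) (nat_lit 16) (nat_lit 5) (nat_lit 14) (nat_lit 4) (nat_lit 379) (nat_lit 277) (nat_lit 124))))) (XT.nd (nat_lit 234) (nat_lit 0) (nat_lit 0) (XT.nd (nat_lit 78) (nat_lit 76) (nat_lit 0) (XT.lf (nat_lit 0) (nat_lit 34769218195) (nat_lit 228) (nat_lit 11088628465) (nat_lit 76) (nat_lit 12710518011) (nat_lit 13) (nat_lit 5) (nat_lit 16) (nat_lit 5) (nat_lit 14) (nat_lit 4) (nat_lit 380) (nat_lit 277)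 (nat_lit 123)) (XT.nd (nat_lit 78) (nat_lit 76) (nat_lit 0) (XT.lf (nat_lit 0) (nat_lit 39992091657) (nat_lit 228) (nat_lit 511547728) (nat_lit 76) (nat_lit 19614910685) (nat_lit 13) (nat_lit 5) (nat_lit 16) (nat_lit 5) (nat_lit 14) (nat_lit 4) (nat_lit 381) (nat_lit 277) (nat_lit 122)) (XT.lf (nat_lit 0) (nat_lit 10582900248) (nat_lit 76) (nat_lit 34886561826) (nat_lit 152) (nat_lit 16242850178) (nat_lit 12) (nat_lit 5) (nat_lit 13) (nat_lit 5) (nat_lit 14) (nat_lit 4) (nat_lit 382) (nat_lit 277) (nat_lit 121)))) (XT.nd (nat_lit 78) (nat_lit 0) (nat_lit 0) (XT.lf (nat_lit 0) (nat_lit 22014275498) (nat_lit 76) (nat_lit 29098177861) (nat_lit 152) (nat_lit 12241400331) (nat_lit 12) (nat_lit 5) (nat_lit 13) (nat_lit 5) (nat_lit 14) (nat_lit 4) (nat_lit 383) (nat_lit 277) (nat_lit 120)) (XT.nd (nat_lit 78) (nat_lit 0) (nat_lit 0) (XT.lf (nat_lit 0) (nat_lit 33782385799) (nat_lit 76) (nat_lit 23138595309)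 (nat_lit 152) (nat_lit 8123778087) (nat_lit 12) (nat_lit 5) (nat_lit 13) (nat_lit 5) (nat_lit 14) (nat_lit 4) (nat_lit 384) (nat_lit 277) (nat_lit 119)) (XT.lf (nat_lit 0) (nat_lit 45897513966) (nat_lit 76) (nat_lit 17002606766) (nat_lit 152) (nat_lit 3886385525) (nat_lit 12) (nat_lit 5) (nat_lit 13) (nat_lit 5) (nat_lit 14) (nat_lit 4) (nat_lit 385) (nat_lit 277) (nat_lit 118)))))) (XT.nd (nat_lit 390) (nat_lit 0) (nat_lit 0) (XT.nd (nat_lit 156) (nat_lit 0) (nat_lit 0) (XT.nd (nat_lit 78) (nat_lit 152) (nat_lit 0) (XT.lf (nat_lit 0) (nat_lit 465221117) (nat_lit 152) (nat_lit 10214931751) (nat_lit 76) (nat_lit 57900327094) (nat_lit 11) (nat_lit 5) (nat_lit 13) (nat_lit 5) (nat_lit 12) (nat_lit 5) (nat_lit 386) (nat_lit 277) (nat_lit 117)) (XT.lf (nat_lit 0) (nat_lit 749748504) (nat_lit 152) (nat_lit 4123248520) (nat_lit 228) (nat_lit 65554014119) (nat_lit 9) (nat_lit 5) (nat_lit 11) (nat_lit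 5) (nat_lit 12) (nat_lit 5) (nat_lit 387) (nat_lit 277) (nat_lit 116))) (XT.nd (nat_lit 78) (nat_lit 0) (nat_lit 0) (XT.lf (nat_lit 0) (nat_lit 9539014055) (nat_lit 228) (nat_lit 60105166860) (nat_lit 76) (nat_lit 2680981616) (nat_lit 9) (nat_lit 5) (nat_lit 12) (nat_lit 5) (nat_lit 10) (nat_lit 4) (nat_lit 388) (nat_lit 277) (nat_lit 115)) (XT.nd (nat_lit 78) (nat_lit 0) (nat_lit 0) (XT.lf (nat_lit 0) (nat_lit 14382487405) (nat_lit 228) (nat_lit 50292346456) (nat_lit 76) (nat_lit 9604304702) (nat_lit 9) (nat_lit 5) (nat_lit 12) (nat_lit 5) (nat_lit 10) (nat_lit 4) (nat_lit 389) (nat_lit 277) (nat_lit 114)) (XT.lf (nat_lit 0) (nat_lit 19368014048) (nat_lit 228) (nat_lit 40190591931) (nat_lit 76) (nat_lit 16733229675) (nat_lit 9) (nat_lit 5) (nat_lit 12) (nat_lit 5) (nat_lit 10) (nat_lit 4) (nat_lit 390) (nat_lit 277) (nat_lit 113))))) (XT.nd (nat_lit 31980) (nat_lit 0) (nat_lit 12388) (XT.nd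 (nat_lit 31824) (nat_lit 0) (nat_lit 13224) (XT.lf (nat_lit 0) (nat_lit 24499950269) (nat_lit 228) (nat_lit 29791076508) (nat_lit 76) (nat_lit 24073985691) (nat_lit 9) (nat_lit 5) (nat_lit 12) (nat_lit 5) (nat_lit 10) (nat_lit 4) (nat_lit 391) (nat_lit 277) (nat_lit 112)) (XT.nd (nat_lit 78) (nat_lit 0) (nat_lit 0) (XT.lf (nat_lit 0) (nat_lit 2783828140) (nat_lit 836) (nat_lit 578448756) (nat_lit 836) (nat_lit 578448756) (nat_lit 183) (nat_lit 3) (nat_lit 194) (nat_lit 3) (nat_lit 194) (nat_lit 5) (nat_lit 278) (nat_lit 278) (nat_lit 224)) (XT.lf (nat_lit 76) (nat_lit 2102631900) (nat_lit 0) (nat_lit 4663419150) (nat_lit 836) (nat_lit 1196166302) (nat_lit 184) (nat_lit 5) (nat_lit 183) (nat_lit 3) (nat_lit 194) (nat_lit 5) (nat_lit 279) (nat_lit 278) (nat_lit 223)))) (XT.nd (nat_lit 78) (nat_lit 836) (nat_lit 0) (XT.lf (nat_lit 76) (nat_lit 5461143045) (nat_lit 0) (nat_lit 2507998709) (nat_lit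 836) (nat_lit 77358776) (nat_lit 184) (nat_lit 5) (nat_lit 183) (nat_lit 3) (nat_lit 194) (nat_lit 5) (nat_lit 280) (nat_lit 278) (nat_lit 222)) (XT.nd (nat_lit 78) (nat_lit 0) (nat_lit 76) (XT.lf (nat_lit 76) (nat_lit 768916113) (nat_lit 0) (nat_lit 250261401) (nat_lit 912) (nat_lit 7115017910) (nat_lit 173) (nat_lit 5) (nat_lit 172) (nat_lit 5) (nat_lit 184) (nat_lit 5) (nat_lit 281) (nat_lit 278) (nat_lit 221)) (XT.lf (nat_lit 0) (nat_lit 2152311309) (nat_lit 836) (nat_lit 3992082295) (nat_lit 912) (nat_lit 2080090092) (nat_lit 173) (nat_lit 5) (nat_lit 184) (nat_lit 5) (nat_lit 185) (nat_lit 5) (nat_lit 282) (nat_lit 278) (nat_lit 220))))))) (XT.nd (nat_lit 858) (nat_lit 3952) (nat_lit 0) (XT.nd (nat_lit 390) (nat_lit 760) (nat_lit 0) (XT.nd (nat_lit 156) (nat_lit 0) (nat_lit 76) (XT.nd (nat_lit 78) (nat_lit 0) (nat_lit 0) (XT.lf (nat_lit 0) (nat_lit 3282055351) (nat_lit 836) (nat_lit 543649700)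 (nat_lit 912) (nat_lit 4493036101) (nat_lit 173) (nat_lit 5) (nat_lit 184) (nat_lit 5) (nat_lit 185) (nat_lit 5) (nat_lit 283) (nat_lit 278) (nat_lit 219)) (XT.lf (nat_lit 76) (nat_lit 3044853388) (nat_lit 0) (nat_lit 1391406737) (nat_lit 912) (nat_lit 3979984130) (nat_lit 174) (nat_lit 5) (nat_lit 173) (nat_lit 5) (nat_lit 185) (nat_lit 5) (nat_lit 284) (nat_lit 278) (nat_lit 218))) (XT.nd (nat_lit 78) (nat_lit 0) (nat_lit 0) (XT.lf (nat_lit 0) (nat_lit 5603717977) (nat_lit 836) (nat_lit 1799119206) (nat_lit 912) (nat_lit 1114607503) (nat_lit 174) (nat_lit 5) (nat_lit 185) (nat_lit 5) (nat_lit 186) (nat_lit 5) (nat_lit 285) (nat_lit 278) (nat_lit 217)) (XT.nd (nat_lit 78) (nat_lit 0) (nat_lit 0) (XT.lf (nat_lit 76) (nat_lit 1879941310) (nat_lit 0) (nat_lit 4921558008) (nat_lit 912) (nat_lit 1820450047) (nat_lit 175) (nat_lit 5) (nat_lit 174) (nat_lit 5) (nat_lit 186) (nat_lit 5) (nat_lit 286)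 (nat_lit 278) (nat_lit 216)) (XT.lf (nat_lit 76) (nat_lit 5683194713) (nat_lit 0) (nat_lit 2334482105) (nat_lit 912) (nat_lit 712562005) (nat_lit 175) (nat_lit 5) (nat_lit 174) (nat_lit 5) (nat_lit 186) (nat_lit 5) (nat_lit 287) (nat_lit 278) (nat_lit 215))))) (XT.nd (nat_lit 234) (nat_lit 0) (nat_lit 0) (XT.nd (nat_lit 78) (nat_lit 0) (nat_lit 0) (XT.lf (nat_lit 0) (nat_lit 395645744) (nat_lit 912) (nat_lit 8100005615) (nat_lit 988) (nat_lit 346855072) (nat_lit 163) (nat_lit 5) (nat_lit 175) (nat_lit 5) (nat_lit 176) (nat_lit 5) (nat_lit 288) (nat_lit 278) (nat_lit 214)) (XT.nd (nat_lit 78) (nat_lit 0) (nat_lit 0) (XT.lf (nat_lit 0) (nat_lit 1542751033) (nat_lit 912) (nat_lit 4303726215) (nat_lit 988) (nat_lit 3110967013) (nat_lit 163) (nat_lit 5) (nat_lit 175) (nat_lit 5) (nat_lit 176) (nat_lit 5) (nat_lit 289) (nat_lit 278) (nat_lit 213)) (XT.lf (nat_lit 0) (nat_lit 2691051614) (nat_lit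 912) (nat_lit 417080115) (nat_lit 988) (nat_lit 5968804781) (nat_lit 163) (nat_lit 5) (nat_lit 175) (nat_lit 5) (nat_lit 176) (nat_lit 5) (nat_lit 290) (nat_lit 278) (nat_lit 212)))) (XT.nd (nat_lit 78) (nat_lit 0) (nat_lit 76) (XT.lf (nat_lit 76) (nat_lit 3634246012) (nat_lit 0) (nat_lit 242239440) (nat_lit 988) (nat_lit 5323554097) (nat_lit 164) (nat_lit 5) (nat_lit 163) (nat_lit 5) (nat_lit 176) (nat_lit 5) (nat_lit 291) (nat_lit 278) (nat_lit 211)) (XT.nd (nat_lit 78) (nat_lit 0) (nat_lit 0) (XT.lf (nat_lit 0) (nat_lit 5096339624) (nat_lit 912) (nat_lit 1560883688) (nat_lit 988) (nat_lit 2669750095) (nat_lit 164) (nat_lit 5) (nat_lit 176) (nat_lit 5) (nat_lit 177) (nat_lit 5) (nat_lit 292) (nat_lit 278) (nat_lit 210)) (XT.lf (nat_lit 76) (nat_lit 2589244515) (nat_lit 0) (nat_lit 3760305835) (nat_lit 988) (nat_lit 3108362536) (nat_lit 165) (nat_lit 5) (nat_lit 164) (nat_lit 5) (nat_lit 177)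 (nat_lit 5) (nat_lit 293) (nat_lit 278) (nat_lit 209)))))) (XT.nd (nat_lit 390) (nat_lit 2128) (nat_lit 0) (XT.nd (nat_lit 156) (nat_lit 1064) (nat_lit 0) (XT.nd (nat_lit 78) (nat_lit 836) (nat_lit 0) (XT.lf (nat_lit 76) (nat_lit 6873043172) (nat_lit 0) (nat_lit 753218885) (nat_lit 988) (nat_lit 1967038862) (nat_lit 165) (nat_lit 5) (nat_lit 164) (nat_lit 5) (nat_lit 177) (nat_lit 5) (nat_lit 294) (nat_lit 278) (nat_lit 208)) (XT.lf (nat_lit 0) (nat_lit 1536867369) (nat_lit 912) (nat_lit 7412791796) (nat_lit 988) (nat_lit 782934574) (nat_lit 153) (nat_lit 5) (nat_lit 165) (nat_lit 5) (nat_lit 166) (nat_lit 5) (nat_lit 295) (nat_lit 278) (nat_lit 207))) (XT.nd (nat_lit 78) (nat_lit 988) (nat_lit 0) (XT.lf (nat_lit 0) (nat_lit 434699540) (nat_lit 988) (nat_lit 3933327098) (nat_lit 76) (nat_lit 5507806163) (nat_lit 152) (nat_lit 5) (nat_lit 165) (nat_lit 5) (nat_lit 153) (nat_lit 5) (nat_lit 296)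 (nat_lit 278) (nat_lit 206)) (XT.nd (nat_lit 78) (nat_lit 0) (nat_lit 0) (XT.lf (nat_lit 0) (nat_lit 434736431) (nat_lit 988) (nat_lit 1214733354) (nat_lit 1064) (nat_lit 8374463032) (nat_lit 139) (nat_lit 5) (nat_lit 152) (nat_lit 5) (nat_lit 153) (nat_lit 5) (nat_lit 297) (nat_lit 278) (nat_lit 205)) (XT.lf (nat_lit 0) (nat_lit 2933139553) (nat_lit 1064) (nat_lit 5204409490) (nat_lit 76) (nat_lit 2038037209) (nat_lit 139) (nat_lit 5) (nat_lit 153) (nat_lit 5) (nat_lit 140) (nat_lit 5) (nat_lit 298) (nat_lit 278) (nat_lit 204))))) (XT.nd (nat_lit 234) (nat_lit 1064) (nat_lit 0) (XT.nd (nat_lit 78) (nat_lit 1064) (nat_lit 0) (XT.lf (nat_lit 0) (nat_lit 4240939003) (nat_lit 1064) (nat_lit 723076163) (nat_lit 76) (nat_lit 5368287197) (nat_lit 139) (nat_lit 5) (nat_lit 153) (nat_lit 5) (nat_lit 140) (nat_lit 5) (nat_lit 299) (nat_lit 278) (nat_lit 203)) (XT.nd (nat_lit 78) (nat_lit 0) (nat_lit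 0) (XT.lf (nat_lit 0) (nat_lit 3947424551) (nat_lit 1064) (nat_lit 1652854621) (nat_lit 1140) (nat_lit 4893150870) (nat_lit 125) (nat_lit 5) (nat_lit 139) (nat_lit 5) (nat_lit 140) (nat_lit 5) (nat_lit 300) (nat_lit 278) (nat_lit 202)) (XT.lf (nat_lit 0) (nat_lit 6999594205) (nat_lit 1140) (nat_lit 1926219248) (nat_lit 76) (nat_lit 1733679229) (nat_lit 125) (nat_lit 5) (nat_lit 140) (nat_lit 5) (nat_lit 126) (nat_lit 5) (nat_lit 301) (nat_lit 278) (nat_lit 201)))) (XT.nd (nat_lit 78) (nat_lit 532) (nat_lit 0) (XT.lf (nat_lit 0) (nat_lit 2849118879) (nat_lit 532) (nat_lit 5611177712) (nat_lit 608) (nat_lit 2369733108) (nat_lit 118) (nat_lit 5) (nat_lit 125) (nat_lit 5) (nat_lit 126) (nat_lit 5) (nat_lit 302) (nat_lit 278) (nat_lit 200)) (XT.nd (nat_lit 78) (nat_lit 532) (nat_lit 0) (XT.lf (nat_lit 0) (nat_lit 7785147748) (nat_lit 532) (nat_lit 2175275926) (nat_lit 608) (nat_lit 1045463599) (nat_lit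 118) (nat_lit 5) (nat_lit 125) (nat_lit 5) (nat_lit 126) (nat_lit 5) (nat_lit 303) (nat_lit 278) (nat_lit 199)) (XT.lf (nat_lit 0) (nat_lit 318428821) (nat_lit 532) (nat_lit 9510318309) (nat_lit 76) (nat_lit 1358066658) (nat_lit 111) (nat_lit 5) (nat_lit 118) (nat_lit 5) (nat_lit 112) (nat_lit 5) (nat_lit 304) (nat_lit 278) (nat_lit 198))))))))
noncomputable def xc163 : XT := (XT.nd (nat_lit 1716) (nat_lit 2280) (nat_lit 0) (XT.nd (nat_lit 858) (nat_lit 1824) (nat_lit 0) (XT.nd (nat_lit 390) (nat_lit 912) (nat_lit 0) (XT.nd (nat_lit 156) (nat_lit 456) (nat_lit 0) (XT.nd (nat_lit 78) (nat_lit 532) (nat_lit 0) (XT.lf (nat_lit 0) (nat_lit 1733642748) (nat_lit 532) (nat_lit 4640233630) (nat_lit 76) (nat_lit 4998105062) (nat_lit 111) (nat_lit 5) (nat_lit 118) (nat_lit 5) (nat_lit 112) (nat_lit 5) (nat_lit 305) (nat_lit 278) (nat_lit 197)) (XT.lf (nat_lit 0) (nat_lit 361156152) (nat_lit 532) (nat_lit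 2811332445) (nat_lit 608) (nat_lit 8390844722) (nat_lit 104) (nat_lit 5) (nat_lit 111) (nat_lit 5) (nat_lit 112) (nat_lit 5) (nat_lit 306) (nat_lit 278) (nat_lit 196))) (XT.nd (nat_lit 78) (nat_lit 456) (nat_lit 0) (XT.lf (nat_lit 0) (nat_lit 4688216960) (nat_lit 608) (nat_lit 6182375677) (nat_lit 76) (nat_lit 888884191) (nat_lit 104) (nat_lit 5) (nat_lit 112) (nat_lit 5) (nat_lit 105) (nat_lit 5) (nat_lit 307) (nat_lit 278) (nat_lit 195)) (XT.nd (nat_lit 78) (nat_lit 456) (nat_lit 0) (XT.lf (nat_lit 0) (nat_lit 6256036107) (nat_lit 608) (nat_lit 1061515223) (nat_lit 76) (nat_lit 4643815510) (nat_lit 104) (nat_lit 5) (nat_lit 112) (nat_lit 5) (nat_lit 105) (nat_lit 5) (nat_lit 308) (nat_lit 278) (nat_lit 194)) (XT.lf (nat_lit 0) (nat_lit 4275330070) (nat_lit 456) (nat_lit 3616058748) (nat_lit 532) (nat_lit 4277368757) (nat_lit 98) (nat_lit 5) (nat_lit 104) (nat_lit 5) (nat_lit 105) (nat_lit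 5) (nat_lit 309) (nat_lit 278) (nat_lit 193))))) (XT.nd (nat_lit 234) (nat_lit 380) (nat_lit 0) (XT.nd (nat_lit 78) (nat_lit 532) (nat_lit 0) (XT.lf (nat_lit 0) (nat_lit 9568311079) (nat_lit 532) (nat_lit 2611520897) (nat_lit 76) (nat_lit 202820065) (nat_lit 98) (nat_lit 5) (nat_lit 105) (nat_lit 5) (nat_lit 99) (nat_lit 5) (nat_lit 310) (nat_lit 278) (nat_lit 192)) (XT.nd (nat_lit 78) (nat_lit 76) (nat_lit 0) (XT.lf (nat_lit 0) (nat_lit 2827319913) (nat_lit 456) (nat_lit 8511585023) (nat_lit 532) (nat_lit 1262813094) (nat_lit 92) (nat_lit 5) (nat_lit 98) (nat_lit 5) (nat_lit 99) (nat_lit 5) (nat_lit 311) (nat_lit 278) (nat_lit 191)) (XT.lf (nat_lit 0) (nat_lit 335863279) (nat_lit 532) (nat_lit 4368316193) (nat_lit 76) (nat_lit 8122917915) (nat_lit 91) (nat_lit 5) (nat_lit 98) (nat_lit 5) (nat_lit 92) (nat_lit 5) (nat_lit 312) (nat_lit 278) (nat_lit 190)))) (XT.nd (nat_lit 78) (nat_lit 0) (nat_lit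 0) (XT.lf (nat_lit 0) (nat_lit 1190157635) (nat_lit 380) (nat_lit 759481608) (nat_lit 456) (nat_lit 11109499062) (nat_lit 86) (nat_lit 5) (nat_lit 91) (nat_lit 5) (nat_lit 92) (nat_lit 5) (nat_lit 313) (nat_lit 278) (nat_lit 189)) (XT.nd (nat_lit 78) (nat_lit 0) (nat_lit 0) (XT.lf (nat_lit 0) (nat_lit 3669551582) (nat_lit 456) (nat_lit 6344977949) (nat_lit 76) (nat_lit 3281928632) (nat_lit 86) (nat_lit 5) (nat_lit 92) (nat_lit 5) (nat_lit 87) (nat_lit 5) (nat_lit 314) (nat_lit 278) (nat_lit 188)) (XT.lf (nat_lit 0) (nat_lit 5430541209) (nat_lit 456) (nat_lit 683066185) (nat_lit 76) (nat_lit 7427653794) (nat_lit 86) (nat_lit 5) (nat_lit 92) (nat_lit 5) (nat_lit 87) (nat_lit 5) (nat_lit 315) (nat_lit 278) (nat_lit 187)))))) (XT.nd (nat_lit 390) (nat_lit 608) (nat_lit 0) (XT.nd (nat_lit 156) (nat_lit 836) (nat_lit 0) (XT.nd (nat_lit 78) (nat_lit 0) (nat_lit 0) (XT.lf (nat_lit 0) (nat_lit 5231079732)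 (nat_lit 380) (nat_lit 2046050857) (nat_lit 456) (nat_lit 6515341183) (nat_lit 81) (nat_lit 5) (nat_lit 86) (nat_lit 5) (nat_lit 87) (nat_lit 5) (nat_lit 316) (nat_lit 278) (nat_lit 186)) (XT.lf (nat_lit 0) (nat_lit 9189474596) (nat_lit 456) (nat_lit 2755078738) (nat_lit 76) (nat_lit 2106399845) (nat_lit 81) (nat_lit 5) (nat_lit 87) (nat_lit 5) (nat_lit 82) (nat_lit 5) (nat_lit 317) (nat_lit 278) (nat_lit 185))) (XT.nd (nat_lit 78) (nat_lit 456) (nat_lit 0) (XT.lf (nat_lit 0) (nat_lit 3249105680) (nat_lit 380) (nat_lit 7944861015) (nat_lit 456) (nat_lit 3122222898) (nat_lit 76) (nat_lit 5) (nat_lit 81) (nat_lit 5) (nat_lit 82) (nat_lit 5) (nat_lit 318) (nat_lit 278) (nat_lit 184)) (XT.nd (nat_lit 78) (nat_lit 456) (nat_lit 0) (XT.lf (nat_lit 0) (nat_lit 9470620743) (nat_lit 380) (nat_lit 3799382686) (nat_lit 456) (nat_lit 1319079992) (nat_lit 76) (nat_lit 5) (nat_lit 81) (nat_lit 5) (nat_lit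 82) (nat_lit 5) (nat_lit 319) (nat_lit 278) (nat_lit 183)) (XT.lf (nat_lit 0) (nat_lit 525816035) (nat_lit 456) (nat_lit 13870920499) (nat_lit 76) (nat_lit 473367704) (nat_lit 70) (nat_lit 5) (nat_lit 76) (nat_lit 5) (nat_lit 71) (nat_lit 5) (nat_lit 320) (nat_lit 278) (nat_lit 182))))) (XT.nd (nat_lit 234) (nat_lit 304) (nat_lit 0) (XT.nd (nat_lit 78) (nat_lit 304) (nat_lit 0) (XT.lf (nat_lit 0) (nat_lit 2473490308) (nat_lit 456) (nat_lit 7823280969) (nat_lit 76) (nat_lit 4860213291) (nat_lit 70) (nat_lit 5) (nat_lit 76) (nat_lit 5) (nat_lit 71) (nat_lit 5) (nat_lit 321) (nat_lit 278) (nat_lit 181)) (XT.nd (nat_lit 78) (nat_lit 304) (nat_lit 0) (XT.lf (nat_lit 0) (nat_lit 4464184839) (nat_lit 456) (nat_lit 1613017405) (nat_lit 76) (nat_lit 9375769230) (nat_lit 70) (nat_lit 5) (nat_lit 76) (nat_lit 5) (nat_lit 71) (nat_lit 5) (nat_lit 322) (nat_lit 278) (nat_lit 180)) (XT.lf (nat_lit 0) (nat_lit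 4860135382) (nat_lit 304) (nat_lit 1686222282) (nat_lit 380) (nat_lit 9210564362) (nat_lit 66) (nat_lit 5) (nat_lit 70) (nat_lit 5) (nat_lit 71) (nat_lit 5) (nat_lit 323) (nat_lit 278) (nat_lit 179)))) (XT.nd (nat_lit 78) (nat_lit 304) (nat_lit 0) (XT.lf (nat_lit 0) (nat_lit 8719979669) (nat_lit 380) (nat_lit 4554904354) (nat_lit 76) (nat_lit 2794273245) (nat_lit 66) (nat_lit 5) (nat_lit 71) (nat_lit 5) (nat_lit 67) (nat_lit 5) (nat_lit 324) (nat_lit 278) (nat_lit 178)) (XT.nd (nat_lit 78) (nat_lit 0) (nat_lit 0) (XT.lf (nat_lit 0) (nat_lit 1981216684) (nat_lit 304) (nat_lit 8999031023) (nat_lit 380) (nat_lit 5409903392) (nat_lit 62) (nat_lit 5) (nat_lit 66) (nat_lit 5) (nat_lit 67) (nat_lit 5) (nat_lit 325) (nat_lit 278) (nat_lit 177)) (XT.lf (nat_lit 0) (nat_lit 8788985608) (nat_lit 304) (nat_lit 4551276628) (nat_lit 380) (nat_lit 3379587998) (nat_lit 62) (nat_lit 5) (nat_lit 66) (nat_lit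 5) (nat_lit 67) (nat_lit 5) (nat_lit 326) (nat_lit 278) (nat_lit 176))))))) (XT.nd (nat_lit 858) (nat_lit 988) (nat_lit 0) (XT.nd (nat_lit 390) (nat_lit 608) (nat_lit 0) (XT.nd (nat_lit 156) (nat_lit 304) (nat_lit 0) (XT.nd (nat_lit 78) (nat_lit 380) (nat_lit 0) (XT.lf (nat_lit 0) (nat_lit 15757682003) (nat_lit 380) (nat_lit 1276435537) (nat_lit 76) (nat_lit 25757324) (nat_lit 62) (nat_lit 5) (nat_lit 67) (nat_lit 5) (nat_lit 63) (nat_lit 5) (nat_lit 327) (nat_lit 278) (nat_lit 175)) (XT.lf (nat_lit 0) (nat_lit 907850279) (nat_lit 380) (nat_lit 11791305561) (nat_lit 76) (nat_lit 4708133579) (nat_lit 57) (nat_lit 5) (nat_lit 62) (nat_lit 5) (nat_lit 58) (nat_lit 5) (nat_lit 328) (nat_lit 278) (nat_lit 174))) (XT.nd (nat_lit 78) (nat_lit 304) (nat_lit 0) (XT.lf (nat_lit 0) (nat_lit 3157818742) (nat_lit 380) (nat_lit 5053723282) (nat_lit 76) (nat_lit 9553233585) (nat_lit 57) (nat_lit 5) (nat_lit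 62) (nat_lit 5) (nat_lit 58) (nat_lit 5) (nat_lit 329) (nat_lit 278) (nat_lit 173)) (XT.nd (nat_lit 78) (nat_lit 0) (nat_lit 0) (XT.lf (nat_lit 0) (nat_lit 1906386495) (nat_lit 304) (nat_lit 3574389875) (nat_lit 380) (nat_lit 12652074331) (nat_lit 53) (nat_lit 5) (nat_lit 57) (nat_lit 5) (nat_lit 58) (nat_lit 5) (nat_lit 330) (nat_lit 278) (nat_lit 172)) (XT.lf (nat_lit 0) (nat_lit 7923853972) (nat_lit 380) (nat_lit 9360603531) (nat_lit 76) (nat_lit 1226025783) (nat_lit 53) (nat_lit 5) (nat_lit 58) (nat_lit 5) (nat_lit 54) (nat_lit 5) (nat_lit 331) (nat_lit 278) (nat_lit 171))))) (XT.nd (nat_lit 234) (nat_lit 380) (nat_lit 0) (XT.nd (nat_lit 78) (nat_lit 228) (nat_lit 0) (XT.lf (nat_lit 0) (nat_lit 10463322734) (nat_lit 380) (nat_lit 2340665727) (nat_lit 76) (nat_lit 6094790778) (nat_lit 53) (nat_lit 5) (nat_lit 58) (nat_lit 5) (nat_lit 54) (nat_lit 5) (nat_lit 332) (nat_lit 278) (nat_lit 170))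 (XT.nd (nat_lit 78) (nat_lit 0) (nat_lit 0) (XT.lf (nat_lit 0) (nat_lit 4970841373) (nat_lit 228) (nat_lit 8143983782) (nat_lit 304) (nat_lit 6182849985) (nat_lit 50) (nat_lit 5) (nat_lit 53) (nat_lit 5) (nat_lit 54) (nat_lit 5) (nat_lit 333) (nat_lit 278) (nat_lit 169)) (XT.lf (nat_lit 0) (nat_lit 12533804319) (nat_lit 228) (nat_lit 3323966303) (nat_lit 304) (nat_lit 3850436143) (nat_lit 50) (nat_lit 5) (nat_lit 53) (nat_lit 5) (nat_lit 54) (nat_lit 5) (nat_lit 334) (nat_lit 278) (nat_lit 168)))) (XT.nd (nat_lit 78) (nat_lit 76) (nat_lit 0) (XT.lf (nat_lit 0) (nat_lit 164300130) (nat_lit 304) (nat_lit 18524619782) (nat_lit 380) (nat_lit 1441981997) (nat_lit 46) (nat_lit 5) (nat_lit 50) (nat_lit 5) (nat_lit 51) (nat_lit 5) (nat_lit 335) (nat_lit 278) (nat_lit 167)) (XT.nd (nat_lit 78) (nat_lit 0) (nat_lit 0) (XT.lf (nat_lit 0) (nat_lit 1113144938) (nat_lit 380) (nat_lit 12753317966) (nat_lit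 76) (nat_lit 6696698401) (nat_lit 45) (nat_lit 5) (nat_lit 50) (nat_lit 5) (nat_lit 46) (nat_lit 5) (nat_lit 336) (nat_lit 278) (nat_lit 166)) (XT.lf (nat_lit 0) (nat_lit 3704888116) (nat_lit 380) (nat_lit 5353284295) (nat_lit 76) (nat_lit 11950142324) (nat_lit 45) (nat_lit 5) (nat_lit 50) (nat_lit 5) (nat_lit 46) (nat_lit 5) (nat_lit 337) (nat_lit 278) (nat_lit 165)))))) (XT.nd (nat_lit 468) (nat_lit 532) (nat_lit 0) (XT.nd (nat_lit 234) (nat_lit 228) (nat_lit 0) (XT.nd (nat_lit 78) (nat_lit 0) (nat_lit 0) (XT.lf (nat_lit 0) (nat_lit 2298682060) (nat_lit 228) (nat_lit 4087064708) (nat_lit 304) (nat_lit 15080757347) (nat_lit 42) (nat_lit 5) (nat_lit 45) (nat_lit 5) (nat_lit 46) (nat_lit 5) (nat_lit 338) (nat_lit 278) (nat_lit 164)) (XT.nd (nat_lit 78) (nat_lit 0) (nat_lit 0) (XT.lf (nat_lit 0) (nat_lit 9200952490) (nat_lit 304) (nat_lit 11672415241) (nat_lit 76) (nat_lit 1063475402) (nat_lit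 42) (nat_lit 5) (nat_lit 46) (nat_lit 5) (nat_lit 43) (nat_lit 5) (nat_lit 339) (nat_lit 278) (nat_lit 163)) (XT.lf (nat_lit 0) (nat_lit 12130786087) (nat_lit 304) (nat_lit 4007248649) (nat_lit 76) (nat_lit 6282373399) (nat_lit 42) (nat_lit 5) (nat_lit 46) (nat_lit 5) (nat_lit 43) (nat_lit 5) (nat_lit 340) (nat_lit 278) (nat_lit 162)))) (XT.nd (nat_lit 78) (nat_lit 0) (nat_lit 0) (XT.lf (nat_lit 0) (nat_lit 3950756288) (nat_lit 228) (nat_lit 11225741040) (nat_lit 304) (nat_lit 7741163635) (nat_lit 39) (nat_lit 5) (nat_lit 42) (nat_lit 5) (nat_lit 43) (nat_lit 5) (nat_lit 341) (nat_lit 278) (nat_lit 161)) (XT.nd (nat_lit 78) (nat_lit 0) (nat_lit 0) (XT.lf (nat_lit 0) (nat_lit 12215575222) (nat_lit 228) (nat_lit 6128631432) (nat_lit 304) (nat_lit 5084725681) (nat_lit 39) (nat_lit 5) (nat_lit 42) (nat_lit 5) (nat_lit 43) (nat_lit 5) (nat_lit 342) (nat_lit 278) (nat_lit 160)) (XT.lf (nat_lit 0)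 (nat_lit 20714677732) (nat_lit 228) (nat_lit 882717483) (nat_lit 304) (nat_lit 2358452382) (nat_lit 39) (nat_lit 5) (nat_lit 42) (nat_lit 5) (nat_lit 43) (nat_lit 5) (nat_lit 343) (nat_lit 278) (nat_lit 159))))) (XT.nd (nat_lit 234) (nat_lit 228) (nat_lit 0) (XT.nd (nat_lit 78) (nat_lit 0) (nat_lit 0) (XT.lf (nat_lit 0) (nat_lit 523943358) (nat_lit 304) (nat_lit 19490266978) (nat_lit 76) (nat_lit 4481755176) (nat_lit 35) (nat_lit 5) (nat_lit 39) (nat_lit 5) (nat_lit 36) (nat_lit 5) (nat_lit 344) (nat_lit 278) (nat_lit 158)) (XT.nd (nat_lit 78) (nat_lit 0) (nat_lit 0) (XT.lf (nat_lit 0) (nat_lit 3477923530) (nat_lit 304) (nat_lit 11530897376) (nat_lit 76) (nat_lit 10041807632) (nat_lit 35) (nat_lit 5) (nat_lit 39) (nat_lit 5) (nat_lit 36) (nat_lit 5) (nat_lit 345) (nat_lit 278) (nat_lit 157)) (XT.lf (nat_lit 0) (nat_lit 6511515173) (nat_lit 304) (nat_lit 3345942066) (nat_lit 76) (nat_lit 15764761502)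 (nat_lit 35) (nat_lit 5) (nat_lit 39) (nat_lit 5) (nat_lit 36) (nat_lit 5) (nat_lit 346) (nat_lit 278) (nat_lit 156)))) (XT.nd (nat_lit 78) (nat_lit 0) (nat_lit 0) (XT.lf (nat_lit 0) (nat_lit 5172688640) (nat_lit 228) (nat_lit 4504403403) (nat_lit 304) (nat_lit 16532651833) (nat_lit 32) (nat_lit 5) (nat_lit 35) (nat_lit 5) (nat_lit 36) (nat_lit 5) (nat_lit 347) (nat_lit 278) (nat_lit 155)) (XT.nd (nat_lit 78) (nat_lit 0) (nat_lit 0) (XT.lf (nat_lit 0) (nat_lit 12972807724) (nat_lit 304) (nat_lit 12821371075) (nat_lit 76) (nat_lit 1019676889) (nat_lit 32) (nat_lit 5) (nat_lit 36) (nat_lit 5) (nat_lit 33) (nat_lit 5) (nat_lit 348) (nat_lit 278) (nat_lit 154)) (XT.lf (nat_lit 0) (nat_lit 16403592994) (nat_lit 304) (nat_lit 4416358864) (nat_lit 76) (nat_lit 6615068654) (nat_lit 32) (nat_lit 5) (nat_lit 36) (nat_lit 5) (nat_lit 33) (nat_lit 5) (nat_lit 349) (nat_lit 278) (nat_lit 153))))))))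
noncomputable def xc164 : XT := (XT.nd (nat_lit 1716) (nat_lit 608) (nat_lit 0) (XT.nd (nat_lit 858) (nat_lit 380) (nat_lit 0) (XT.nd (nat_lit 390) (nat_lit 304) (nat_lit 0) (XT.nd (nat_lit 156) (nat_lit 304) (nat_lit 0) (XT.nd (nat_lit 78) (nat_lit 0) (nat_lit 0) (XT.lf (nat_lit 0) (nat_lit 4312782587) (nat_lit 152) (nat_lit 15657821063) (nat_lit 228) (nat_lit 8103232721) (nat_lit 30) (nat_lit 5) (nat_lit 32) (nat_lit 5) (nat_lit 33) (nat_lit 5) (nat_lit 350) (nat_lit 278) (nat_lit 152)) (XT.lf (nat_lit 0) (nat_lit 13382269662) (nat_lit 152) (nat_lit 10298917861) (nat_lit 228) (nat_lit 5049547001) (nat_lit 30) (nat_lit 5) (nat_lit 32) (nat_lit 5) (nat_lit 33) (nat_lit 5) (nat_lit 351) (nat_lit 278) (nat_lit 151))) (XT.nd (nat_lit 78) (nat_lit 304) (nat_lit 0) (XT.lf (nat_lit 0) (nat_lit 22712132955) (nat_lit 152) (nat_lit 4783156278) (nat_lit 228) (nat_lit 1912298655) (nat_lit 30) (nat_lit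 5) (nat_lit 32) (nat_lit 5) (nat_lit 33) (nat_lit 5) (nat_lit 352) (nat_lit 278) (nat_lit 150)) (XT.nd (nat_lit 78) (nat_lit 0) (nat_lit 0) (XT.lf (nat_lit 0) (nat_lit 1316099718) (nat_lit 304) (nat_lit 27876322870) (nat_lit 76) (nat_lit 911274163) (nat_lit 26) (nat_lit 5) (nat_lit 30) (nat_lit 5) (nat_lit 27) (nat_lit 5) (nat_lit 353) (nat_lit 278) (nat_lit 149)) (XT.lf (nat_lit 0) (nat_lit 4710968164) (nat_lit 304) (nat_lit 19342106276) (nat_lit 76) (nat_lit 6763817891) (nat_lit 26) (nat_lit 5) (nat_lit 30) (nat_lit 5) (nat_lit 27) (nat_lit 5) (nat_lit 354) (nat_lit 278) (nat_lit 148))))) (XT.nd (nat_lit 234) (nat_lit 152) (nat_lit 0) (XT.nd (nat_lit 78) (nat_lit 152) (nat_lit 0) (XT.lf (nat_lit 0) (nat_lit 8200318651) (nat_lit 304) (nat_lit 10563147165) (nat_lit 76) (nat_lit 12788251568) (nat_lit 26) (nat_lit 5) (nat_lit 30) (nat_lit 5) (nat_lit 27) (nat_lit 5) (nat_lit 355) (nat_lit 278)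 (nat_lit 147)) (XT.nd (nat_lit 78) (nat_lit 152) (nat_lit 0) (XT.lf (nat_lit 0) (nat_lit 11787200124) (nat_lit 304) (nat_lit 1531774603) (nat_lit 76) (nat_lit 18989839263) (nat_lit 26) (nat_lit 5) (nat_lit 30) (nat_lit 5) (nat_lit 27) (nat_lit 5) (nat_lit 356) (nat_lit 278) (nat_lit 146)) (XT.lf (nat_lit 0) (nat_lit 7914340185) (nat_lit 152) (nat_lit 7636484047) (nat_lit 228) (nat_lit 17535737133) (nat_lit 24) (nat_lit 5) (nat_lit 26) (nat_lit 5) (nat_lit 27) (nat_lit 5) (nat_lit 357) (nat_lit 278) (nat_lit 145)))) (XT.nd (nat_lit 78) (nat_lit 152) (nat_lit 0) (XT.lf (nat_lit 0) (nat_lit 17664706336) (nat_lit 152) (nat_lit 1771278291) (nat_lit 228) (nat_lit 14451409313) (nat_lit 24) (nat_lit 5) (nat_lit 26) (nat_lit 5) (nat_lit 27) (nat_lit 5) (nat_lit 358) (nat_lit 278) (nat_lit 144)) (XT.nd (nat_lit 78) (nat_lit 152) (nat_lit 0) (XT.lf (nat_lit 0) (nat_lit 23472068995) (nat_lit 228) (nat_lit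 7056114009) (nat_lit 76) (nat_lit 4183048686) (nat_lit 24) (nat_lit 5) (nat_lit 27) (nat_lit 5) (nat_lit 25) (nat_lit 5) (nat_lit 359) (nat_lit 278) (nat_lit 143)) (XT.lf (nat_lit 0) (nat_lit 2404746344) (nat_lit 152) (nat_lit 25258661712) (nat_lit 228) (nat_lit 7895362293) (nat_lit 22) (nat_lit 5) (nat_lit 24) (nat_lit 5) (nat_lit 25) (nat_lit 5) (nat_lit 360) (nat_lit 278) (nat_lit 142)))))) (XT.nd (nat_lit 390) (nat_lit 152) (nat_lit 0) (XT.nd (nat_lit 156) (nat_lit 228) (nat_lit 0) (XT.nd (nat_lit 78) (nat_lit 0) (nat_lit 0) (XT.lf (nat_lit 0) (nat_lit 12284076627) (nat_lit 152) (nat_lit 19761275089) (nat_lit 228) (nat_lit 4384448142) (nat_lit 22) (nat_lit 5) (nat_lit 24) (nat_lit 5) (nat_lit 25) (nat_lit 5) (nat_lit 361) (nat_lit 278) (nat_lit 141)) (XT.lf (nat_lit 0) (nat_lit 22450078759) (nat_lit 152) (nat_lit 14102472511) (nat_lit 228) (nat_lit 774605367) (nat_lit 22) (nat_lit 5) (nat_lit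 24) (nat_lit 5) (nat_lit 25) (nat_lit 5) (nat_lit 362) (nat_lit 278) (nat_lit 140))) (XT.nd (nat_lit 78) (nat_lit 152) (nat_lit 0) (XT.lf (nat_lit 0) (nat_lit 2880002563) (nat_lit 228) (nat_lit 5368224452) (nat_lit 76) (nat_lit 30002550713) (nat_lit 21) (nat_lit 5) (nat_lit 24) (nat_lit 5) (nat_lit 22) (nat_lit 5) (nat_lit 363) (nat_lit 278) (nat_lit 139)) (XT.nd (nat_lit 78) (nat_lit 0) (nat_lit 0) (XT.lf (nat_lit 0) (nat_lit 4496694002) (nat_lit 152) (nat_lit 2169297113) (nat_lit 228) (nat_lit 32534776358) (nat_lit 19) (nat_lit 5) (nat_lit 21) (nat_lit 5) (nat_lit 22) (nat_lit 5) (nat_lit 364) (nat_lit 278) (nat_lit 138)) (XT.lf (nat_lit 0) (nat_lit 10653777275) (nat_lit 228) (nat_lit 25459237578) (nat_lit 76) (nat_lit 4063604683) (nat_lit 19) (nat_lit 5) (nat_lit 22) (nat_lit 5) (nat_lit 20) (nat_lit 5) (nat_lit 365) (nat_lit 278) (nat_lit 137))))) (XT.nd (nat_lit 234) (nat_lit 0) (nat_lit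 0) (XT.nd (nat_lit 78) (nat_lit 152) (nat_lit 0) (XT.lf (nat_lit 0) (nat_lit 14776983827) (nat_lit 228) (nat_lit 15967601534) (nat_lit 76) (nat_lit 10436697091) (nat_lit 19) (nat_lit 5) (nat_lit 22) (nat_lit 5) (nat_lit 20) (nat_lit 5) (nat_lit 366) (nat_lit 278) (nat_lit 136)) (XT.nd (nat_lit 78) (nat_lit 152) (nat_lit 0) (XT.lf (nat_lit 0) (nat_lit 19018360962) (nat_lit 228) (nat_lit 6200019067) (nat_lit 76) (nat_lit 16997879633) (nat_lit 19) (nat_lit 5) (nat_lit 22) (nat_lit 5) (nat_lit 20) (nat_lit 5) (nat_lit 367) (nat_lit 278) (nat_lit 135)) (XT.lf (nat_lit 0) (nat_lit 3928707843) (nat_lit 152) (nat_lit 19490672038) (nat_lit 228) (nat_lit 19861942680) (nat_lit 17) (nat_lit 5) (nat_lit 19) (nat_lit 5) (nat_lit 20) (nat_lit 5) (nat_lit 368) (nat_lit 278) (nat_lit 134)))) (XT.nd (nat_lit 78) (nat_lit 0) (nat_lit 0) (XT.lf (nat_lit 0) (nat_lit 14479928391) (nat_lit 152) (nat_lit 13529819245)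 (nat_lit 228) (nat_lit 16366878304) (nat_lit 17) (nat_lit 5) (nat_lit 19) (nat_lit 5) (nat_lit 20) (nat_lit 5) (nat_lit 369) (nat_lit 278) (nat_lit 133)) (XT.nd (nat_lit 78) (nat_lit 0) (nat_lit 0) (XT.lf (nat_lit 0) (nat_lit 25339469552) (nat_lit 152) (nat_lit 7393221176) (nat_lit 228) (nat_lit 12772259668) (nat_lit 17) (nat_lit 5) (nat_lit 19) (nat_lit 5) (nat_lit 20) (nat_lit 5) (nat_lit 370) (nat_lit 278) (nat_lit 132)) (XT.lf (nat_lit 0) (nat_lit 36516820246) (nat_lit 152) (nat_lit 1075515753) (nat_lit 228) (nat_lit 9074945844) (nat_lit 17) (nat_lit 5) (nat_lit 19) (nat_lit 5) (nat_lit 20) (nat_lit 5) (nat_lit 371) (nat_lit 278) (nat_lit 131))))))) (XT.nd (nat_lit 858) (nat_lit 304) (nat_lit 0) (XT.nd (nat_lit 390) (nat_lit 152) (nat_lit 0) (XT.nd (nat_lit 156) (nat_lit 76) (nat_lit 0) (XT.nd (nat_lit 78) (nat_lit 0) (nat_lit 0) (XT.lf (nat_lit 0) (nat_lit 107014299) (nat_lit 76) (nat_lit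 42539129244) (nat_lit 152) (nat_lit 5216895954) (nat_lit 16) (nat_lit 5) (nat_lit 17) (nat_lit 5) (nat_lit 18) (nat_lit 4) (nat_lit 372) (nat_lit 278) (nat_lit 130)) (XT.lf (nat_lit 0) (nat_lit 10861636395) (nat_lit 76) (nat_lit 37098171063) (nat_lit 152) (nat_lit 1131622394) (nat_lit 16) (nat_lit 5) (nat_lit 17) (nat_lit 5) (nat_lit 18) (nat_lit 4) (nat_lit 373) (nat_lit 278) (nat_lit 129))) (XT.nd (nat_lit 78) (nat_lit 0) (nat_lit 0) (XT.lf (nat_lit 0) (nat_lit 3011466376) (nat_lit 152) (nat_lit 28455010865) (nat_lit 76) (nat_lit 18889455833) (nat_lit 15) (nat_lit 5) (nat_lit 17) (nat_lit 5) (nat_lit 16) (nat_lit 5) (nat_lit 374) (nat_lit 278) (nat_lit 128)) (XT.nd (nat_lit 78) (nat_lit 0) (nat_lit 0) (XT.lf (nat_lit 0) (nat_lit 7251525580) (nat_lit 152) (nat_lit 18405631401) (nat_lit 76) (nat_lit 26001022238) (nat_lit 15) (nat_lit 5) (nat_lit 17) (nat_lit 5) (nat_lit 16) (nat_lit 5) (nat_lit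 375) (nat_lit 278) (nat_lit 127)) (XT.lf (nat_lit 0) (nat_lit 11614342152) (nat_lit 152) (nat_lit 8061996207) (nat_lit 76) (nat_lit 33323294149) (nat_lit 15) (nat_lit 5) (nat_lit 17) (nat_lit 5) (nat_lit 16) (nat_lit 5) (nat_lit 376) (nat_lit 278) (nat_lit 126))))) (XT.nd (nat_lit 234) (nat_lit 0) (nat_lit 0) (XT.nd (nat_lit 78) (nat_lit 0) (nat_lit 0) (XT.lf (nat_lit 0) (nat_lit 2636378075) (nat_lit 152) (nat_lit 13492692666) (nat_lit 228) (nat_lit 38251634070) (nat_lit 13) (nat_lit 5) (nat_lit 15) (nat_lit 5) (nat_lit 16) (nat_lit 5) (nat_lit 377) (nat_lit 278) (nat_lit 125)) (XT.nd (nat_lit 78) (nat_lit 0) (nat_lit 0) (XT.lf (nat_lit 0) (nat_lit 13814020184) (nat_lit 152) (nat_lit 7042375304) (nat_lit 228) (nat_lit 34944505223) (nat_lit 13) (nat_lit 5) (nat_lit 15) (nat_lit 5) (nat_lit 16) (nat_lit 5) (nat_lit 378) (nat_lit 278) (nat_lit 124)) (XT.lf (nat_lit 0) (nat_lit 25320247458) (nat_lit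 152) (nat_lit 401160430) (nat_lit 228) (nat_lit 31542424447) (nat_lit 13) (nat_lit 5) (nat_lit 15) (nat_lit 5) (nat_lit 16) (nat_lit 5) (nat_lit 379) (nat_lit 278) (nat_lit 123)))) (XT.nd (nat_lit 78) (nat_lit 0) (nat_lit 0) (XT.lf (nat_lit 0) (nat_lit 30790232946) (nat_lit 228) (nat_lit 21667538114) (nat_lit 76) (nat_lit 6311150687) (nat_lit 13) (nat_lit 5) (nat_lit 16) (nat_lit 5) (nat_lit 14) (nat_lit 4) (nat_lit 380) (nat_lit 278) (nat_lit 122)) (XT.nd (nat_lit 78) (nat_lit 0) (nat_lit 0) (XT.lf (nat_lit 0) (nat_lit 36011176083) (nat_lit 228) (nat_lit 11093637517) (nat_lit 76) (nat_lit 13214354186) (nat_lit 13) (nat_lit 5) (nat_lit 16) (nat_lit 5) (nat_lit 14) (nat_lit 4) (nat_lit 381) (nat_lit 278) (nat_lit 121)) (XT.lf (nat_lit 0) (nat_lit 41384943088) (nat_lit 228) (nat_lit 208787556) (nat_lit 76) (nat_lit 20322310078) (nat_lit 13) (nat_lit 5) (nat_lit 16) (nat_lit 5) (nat_lit 14) (nat_lit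 4) (nat_lit 382) (nat_lit 278) (nat_lit 120)))))) (XT.nd (nat_lit 390) (nat_lit 152) (nat_lit 0) (XT.nd (nat_lit 156) (nat_lit 76) (nat_lit 0) (XT.nd (nat_lit 78) (nat_lit 0) (nat_lit 0) (XT.lf (nat_lit 0) (nat_lit 11215375166) (nat_lit 76) (nat_lit 35808663365) (nat_lit 152) (nat_lit 16533663078) (nat_lit 12) (nat_lit 5) (nat_lit 13) (nat_lit 5) (nat_lit 14) (nat_lit 4) (nat_lit 383) (nat_lit 278) (nat_lit 119)) (XT.lf (nat_lit 0) (nat_lit 22980517269) (nat_lit 76) (nat_lit 29850253959) (nat_lit 152) (nat_lit 12417892238) (nat_lit 12) (nat_lit 5) (nat_lit 13) (nat_lit 5) (nat_lit 14) (nat_lit 4) (nat_lit 384) (nat_lit 278) (nat_lit 118))) (XT.nd (nat_lit 78) (nat_lit 76) (nat_lit 0) (XT.lf (nat_lit 0) (nat_lit 35092763690) (nat_lit 76) (nat_lit 23715404393) (nat_lit 152) (nat_lit 8182297156) (nat_lit 12) (nat_lit 5) (nat_lit 13) (nat_lit 5) (nat_lit 14) (nat_lit 4) (nat_lit 385) (nat_lit 278)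 (nat_lit 117)) (XT.nd (nat_lit 78) (nat_lit 76) (nat_lit 0) (XT.lf (nat_lit 0) (nat_lit 47562697945) (nat_lit 76) (nat_lit 17398754119) (nat_lit 152) (nat_lit 3823176825) (nat_lit 12) (nat_lit 5) (nat_lit 13) (nat_lit 5) (nat_lit 14) (nat_lit 4) (nat_lit 386) (nat_lit 278) (nat_lit 116)) (XT.lf (nat_lit 0) (nat_lit 650334756) (nat_lit 152) (nat_lit 10237881873) (nat_lit 76) (nat_lit 59744314231) (nat_lit 11) (nat_lit 5) (nat_lit 13) (nat_lit 5) (nat_lit 12) (nat_lit 5) (nat_lit 387) (nat_lit 278) (nat_lit 115))))) (XT.nd (nat_lit 32136) (nat_lit 0) (nat_lit 12388) (XT.nd (nat_lit 78) (nat_lit 0) (nat_lit 0) (XT.lf (nat_lit 0) (nat_lit 1052959400) (nat_lit 152) (nat_lit 4135097822) (nat_lit 228) (nat_lit 67346476019) (nat_lit 9) (nat_lit 5) (nat_lit 11) (nat_lit 5) (nat_lit 12) (nat_lit 5) (nat_lit 388) (nat_lit 278) (nat_lit 114)) (XT.nd (nat_lit 78) (nat_lit 0) (nat_lit 0) (XT.lf (nat_lit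 0) (nat_lit 9990180050) (nat_lit 228) (nat_lit 61631689319) (nat_lit 76) (nat_lit 2867882513) (nat_lit 9) (nat_lit 5) (nat_lit 12) (nat_lit 5) (nat_lit 10) (nat_lit 4) (nat_lit 389) (nat_lit 278) (nat_lit 113)) (XT.lf (nat_lit 0) (nat_lit 14974151904) (nat_lit 228) (nat_lit 51532541561) (nat_lit 76) (nat_lit 9995804183) (nat_lit 9) (nat_lit 5) (nat_lit 12) (nat_lit 5) (nat_lit 10) (nat_lit 4) (nat_lit 390) (nat_lit 278) (nat_lit 112)))) (XT.nd (nat_lit 78) (nat_lit 836) (nat_lit 0) (XT.lf (nat_lit 0) (nat_lit 3951488507) (nat_lit 836) (nat_lit 35481882) (nat_lit 836) (nat_lit 35481882) (nat_lit 183) (nat_lit 3) (nat_lit 194) (nat_lit 3) (nat_lit 194) (nat_lit 5) (nat_lit 279) (nat_lit 279) (nat_lit 222)) (XT.nd (nat_lit 78) (nat_lit 0) (nat_lit 0) (XT.lf (nat_lit 0) (nat_lit 936302436) (nat_lit 836) (nat_lit 4863714078) (nat_lit 912) (nat_lit 2329607603) (nat_lit 172) (nat_lit 5) (nat_lit 183)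 (nat_lit 3) (nat_lit 184) (nat_lit 5) (nat_lit 280) (nat_lit 279) (nat_lit 221)) (XT.lf (nat_lit 0) (nat_lit 2003731576) (nat_lit 836) (nat_lit 1536117614) (nat_lit 912) (nat_lit 4678345981) (nat_lit 172) (nat_lit 5) (nat_lit 183) (nat_lit 3) (nat_lit 184) (nat_lit 5) (nat_lit 281) (nat_lit 279) (nat_lit 220))))))))
noncomputable def xc165 : XT := (XT.nd (nat_lit 1716) (nat_lit 3952) (nat_lit 0) (XT.nd (nat_lit 858) (nat_lit 3344) (nat_lit 0) (XT.nd (nat_lit 390) (nat_lit 760) (nat_lit 0) (XT.nd (nat_lit 156) (nat_lit 0) (nat_lit 76) (XT.nd (nat_lit 78) (nat_lit 0) (nat_lit 76) (XT.lf (nat_lit 76) (nat_lit 1906978709) (nat_lit 0) (nat_lit 1174711838) (nat_lit 912) (nat_lit 5228516626) (nat_lit 173) (nat_lit 5) (nat_lit 172) (nat_lit 5) (nat_lit 184) (nat_lit 5) (nat_lit 282) (nat_lit 279) (nat_lit 219)) (XT.lf (nat_lit 0) (nat_lit 4181078214) (nat_lit 836) (nat_lit 2954734628) (nat_lit 912)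 (nat_lit 1269628968) (nat_lit 173) (nat_lit 5) (nat_lit 184) (nat_lit 5) (nat_lit 185) (nat_lit 5) (nat_lit 283) (nat_lit 279) (nat_lit 218))) (XT.nd (nat_lit 78) (nat_lit 0) (nat_lit 0) (XT.lf (nat_lit 76) (nat_lit 574662441) (nat_lit 0) (nat_lit 4718366505) (nat_lit 912) (nat_lit 3211248141) (nat_lit 174) (nat_lit 5) (nat_lit 173) (nat_lit 5) (nat_lit 185) (nat_lit 5) (nat_lit 284) (nat_lit 279) (nat_lit 217)) (XT.nd (nat_lit 78) (nat_lit 0) (nat_lit 76) (XT.lf (nat_lit 76) (nat_lit 4248593086) (nat_lit 0) (nat_lit 2182892446) (nat_lit 912) (nat_lit 2174924698) (nat_lit 174) (nat_lit 5) (nat_lit 173) (nat_lit 5) (nat_lit 185) (nat_lit 5) (nat_lit 285) (nat_lit 279) (nat_lit 216)) (XT.lf (nat_lit 0) (nat_lit 7572733021) (nat_lit 836) (nat_lit 705595265) (nat_lit 912) (nat_lit 434343485) (nat_lit 174) (nat_lit 5) (nat_lit 185) (nat_lit 5) (nat_lit 186) (nat_lit 5) (nat_lit 286) (nat_lit 279)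 (nat_lit 215))))) (XT.nd (nat_lit 234) (nat_lit 0) (nat_lit 76) (XT.nd (nat_lit 78) (nat_lit 912) (nat_lit 0) (XT.lf (nat_lit 76) (nat_lit 3072587090) (nat_lit 0) (nat_lit 5692329518) (nat_lit 912) (nat_lit 56823514) (nat_lit 175) (nat_lit 5) (nat_lit 174) (nat_lit 5) (nat_lit 186) (nat_lit 5) (nat_lit 287) (nat_lit 279) (nat_lit 214)) (XT.nd (nat_lit 78) (nat_lit 0) (nat_lit 0) (XT.lf (nat_lit 0) (nat_lit 1011217509) (nat_lit 912) (nat_lit 1988063249) (nat_lit 988) (nat_lit 5935414684) (nat_lit 162) (nat_lit 5) (nat_lit 174) (nat_lit 5) (nat_lit 175) (nat_lit 5) (nat_lit 288) (nat_lit 279) (nat_lit 213)) (XT.lf (nat_lit 76) (nat_lit 1900511402) (nat_lit 0) (nat_lit 194805790) (nat_lit 988) (nat_lit 6956260310) (nat_lit 163) (nat_lit 5) (nat_lit 162) (nat_lit 5) (nat_lit 175) (nat_lit 5) (nat_lit 289) (nat_lit 279) (nat_lit 212)))) (XT.nd (nat_lit 78) (nat_lit 0) (nat_lit 0) (XT.lf (nat_lit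 0) (nat_lit 3225858306) (nat_lit 912) (nat_lit 3273796958) (nat_lit 988) (nat_lit 2671999759) (nat_lit 163) (nat_lit 5) (nat_lit 175) (nat_lit 5) (nat_lit 176) (nat_lit 5) (nat_lit 290) (nat_lit 279) (nat_lit 211)) (XT.nd (nat_lit 78) (nat_lit 0) (nat_lit 0) (XT.lf (nat_lit 76) (nat_lit 709535643) (nat_lit 0) (nat_lit 3658218245) (nat_lit 988) (nat_lit 4928361281) (nat_lit 164) (nat_lit 5) (nat_lit 163) (nat_lit 5) (nat_lit 176) (nat_lit 5) (nat_lit 291) (nat_lit 279) (nat_lit 210)) (XT.lf (nat_lit 76) (nat_lit 4857523777) (nat_lit 0) (nat_lit 688831400) (nat_lit 988) (nat_lit 3877980910) (nat_lit 164) (nat_lit 5) (nat_lit 163) (nat_lit 5) (nat_lit 176) (nat_lit 5) (nat_lit 292) (nat_lit 279) (nat_lit 209)))))) (XT.nd (nat_lit 390) (nat_lit 2584) (nat_lit 0) (XT.nd (nat_lit 156) (nat_lit 912) (nat_lit 0) (XT.nd (nat_lit 78) (nat_lit 0) (nat_lit 0) (XT.lf (nat_lit 0) (nat_lit 6753455156) (nat_lit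 912) (nat_lit 471614964) (nat_lit 988) (nat_lit 2331636803) (nat_lit 164) (nat_lit 5) (nat_lit 176) (nat_lit 5) (nat_lit 177) (nat_lit 5) (nat_lit 293) (nat_lit 279) (nat_lit 208)) (XT.lf (nat_lit 76) (nat_lit 3791878896) (nat_lit 0) (nat_lit 4219384695) (nat_lit 988) (nat_lit 1681445098) (nat_lit 165) (nat_lit 5) (nat_lit 164) (nat_lit 5) (nat_lit 177) (nat_lit 5) (nat_lit 294) (nat_lit 279) (nat_lit 207))) (XT.nd (nat_lit 78) (nat_lit 912) (nat_lit 0) (XT.lf (nat_lit 76) (nat_lit 8171425773) (nat_lit 0) (nat_lit 1111999611) (nat_lit 988) (nat_lit 550158461) (nat_lit 165) (nat_lit 5) (nat_lit 164) (nat_lit 5) (nat_lit 177) (nat_lit 5) (nat_lit 295) (nat_lit 279) (nat_lit 206)) (XT.nd (nat_lit 78) (nat_lit 0) (nat_lit 0) (XT.lf (nat_lit 0) (nat_lit 622074986) (nat_lit 988) (nat_lit 7269598826) (nat_lit 76) (nat_lit 2086350396) (nat_lit 152) (nat_lit 5) (nat_lit 165) (nat_lit 5) (nat_lit 153)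 (nat_lit 5) (nat_lit 296) (nat_lit 279) (nat_lit 205)) (XT.lf (nat_lit 0) (nat_lit 1819353525) (nat_lit 988) (nat_lit 2920989524) (nat_lit 76) (nat_lit 5386347360) (nat_lit 152) (nat_lit 5) (nat_lit 165) (nat_lit 5) (nat_lit 153) (nat_lit 5) (nat_lit 297) (nat_lit 279) (nat_lit 204))))) (XT.nd (nat_lit 234) (nat_lit 532) (nat_lit 0) (XT.nd (nat_lit 78) (nat_lit 1064) (nat_lit 0) (XT.lf (nat_lit 0) (nat_lit 1567034171) (nat_lit 988) (nat_lit 1474341783) (nat_lit 1064) (nat_lit 7238857538) (nat_lit 139) (nat_lit 5) (nat_lit 152) (nat_lit 5) (nat_lit 153) (nat_lit 5) (nat_lit 298) (nat_lit 279) (nat_lit 203)) (XT.nd (nat_lit 78) (nat_lit 1064) (nat_lit 0) (XT.lf (nat_lit 0) (nat_lit 4322373413) (nat_lit 1064) (nat_lit 4228679474) (nat_lit 76) (nat_lit 1886739833) (nat_lit 139) (nat_lit 5) (nat_lit 153) (nat_lit 5) (nat_lit 140) (nat_lit 5) (nat_lit 299) (nat_lit 279) (nat_lit 202)) (XT.lf (nat_lit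 0) (nat_lit 361174809) (nat_lit 1064) (nat_lit 5273803685) (nat_lit 1140) (nat_lit 4965381873) (nat_lit 125) (nat_lit 5) (nat_lit 139) (nat_lit 5) (nat_lit 140) (nat_lit 5) (nat_lit 300) (nat_lit 279) (nat_lit 201)))) (XT.nd (nat_lit 78) (nat_lit 532) (nat_lit 0) (XT.lf (nat_lit 0) (nat_lit 5153969239) (nat_lit 1064) (nat_lit 1851321193) (nat_lit 1140) (nat_lit 3762039483) (nat_lit 125) (nat_lit 5) (nat_lit 139) (nat_lit 5) (nat_lit 140) (nat_lit 5) (nat_lit 301) (nat_lit 279) (nat_lit 200)) (XT.nd (nat_lit 78) (nat_lit 532) (nat_lit 0) (XT.lf (nat_lit 0) (nat_lit 8409166257) (nat_lit 1140) (nat_lit 886475619) (nat_lit 76) (nat_lit 1643965595) (nat_lit 125) (nat_lit 5) (nat_lit 140) (nat_lit 5) (nat_lit 126) (nat_lit 5) (nat_lit 302) (nat_lit 279) (nat_lit 199)) (XT.lf (nat_lit 0) (nat_lit 4021362552) (nat_lit 532) (nat_lit 5867834515) (nat_lit 608) (nat_lit 1226905567) (nat_lit 118) (nat_lit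 5) (nat_lit 125) (nat_lit 5) (nat_lit 126) (nat_lit 5) (nat_lit 303) (nat_lit 279) (nat_lit 198))))))) (XT.nd (nat_lit 858) (nat_lit 1520) (nat_lit 0) (XT.nd (nat_lit 390) (nat_lit 1368) (nat_lit 0) (XT.nd (nat_lit 156) (nat_lit 532) (nat_lit 0) (XT.nd (nat_lit 78) (nat_lit 456) (nat_lit 0) (XT.lf (nat_lit 0) (nat_lit 99749927) (nat_lit 608) (nat_lit 2225525999) (nat_lit 76) (nat_lit 8973061582) (nat_lit 117) (nat_lit 5) (nat_lit 125) (nat_lit 5) (nat_lit 118) (nat_lit 5) (nat_lit 304) (nat_lit 279) (nat_lit 197)) (XT.lf (nat_lit 0) (nat_lit 1459593644) (nat_lit 532) (nat_lit 8686918755) (nat_lit 76) (nat_lit 1338685622) (nat_lit 111) (nat_lit 5) (nat_lit 118) (nat_lit 5) (nat_lit 112) (nat_lit 5) (nat_lit 305) (nat_lit 279) (nat_lit 196))) (XT.nd (nat_lit 78) (nat_lit 532) (nat_lit 0) (XT.lf (nat_lit 0) (nat_lit 2884304418) (nat_lit 532) (nat_lit 3703024033) (nat_lit 76) (nat_lit 5089676334)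 (nat_lit 111) (nat_lit 5) (nat_lit 118) (nat_lit 5) (nat_lit 112) (nat_lit 5) (nat_lit 306) (nat_lit 279) (nat_lit 195)) (XT.nd (nat_lit 78) (nat_lit 0) (nat_lit 0) (XT.lf (nat_lit 0) (nat_lit 1437854338) (nat_lit 532) (nat_lit 2906707452) (nat_lit 608) (nat_lit 7530280566) (nat_lit 104) (nat_lit 5) (nat_lit 111) (nat_lit 5) (nat_lit 112) (nat_lit 5) (nat_lit 307) (nat_lit 279) (nat_lit 194)) (XT.lf (nat_lit 0) (nat_lit 5874293041) (nat_lit 608) (nat_lit 5298564870) (nat_lit 76) (nat_lit 905046154) (nat_lit 104) (nat_lit 5) (nat_lit 112) (nat_lit 5) (nat_lit 105) (nat_lit 5) (nat_lit 308) (nat_lit 279) (nat_lit 193))))) (XT.nd (nat_lit 234) (nat_lit 912) (nat_lit 0) (XT.nd (nat_lit 78) (nat_lit 456) (nat_lit 0) (XT.lf (nat_lit 0) (nat_lit 7458697358) (nat_lit 608) (nat_lit 55222740) (nat_lit 76) (nat_lit 4772931371) (nat_lit 104) (nat_lit 5) (nat_lit 112) (nat_lit 5) (nat_lit 105) (nat_lit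 5) (nat_lit 309) (nat_lit 279) (nat_lit 192)) (XT.nd (nat_lit 78) (nat_lit 0) (nat_lit 0) (XT.lf (nat_lit 0) (nat_lit 5431550089) (nat_lit 456) (nat_lit 3691879414) (nat_lit 532) (nat_lit 3377709527) (nat_lit 98) (nat_lit 5) (nat_lit 104) (nat_lit 5) (nat_lit 105) (nat_lit 5) (nat_lit 310) (nat_lit 279) (nat_lit 191)) (XT.lf (nat_lit 0) (nat_lit 10821974953) (nat_lit 532) (nat_lit 1660422415) (nat_lit 76) (nat_lit 239995697) (nat_lit 98) (nat_lit 5) (nat_lit 105) (nat_lit 5) (nat_lit 99) (nat_lit 5) (nat_lit 311) (nat_lit 279) (nat_lit 190)))) (XT.nd (nat_lit 78) (nat_lit 456) (nat_lit 0) (XT.lf (nat_lit 0) (nat_lit 3931491030) (nat_lit 456) (nat_lit 8695840405) (nat_lit 532) (nat_lit 321330064) (nat_lit 92) (nat_lit 5) (nat_lit 98) (nat_lit 5) (nat_lit 99) (nat_lit 5) (nat_lit 312) (nat_lit 279) (nat_lit 189)) (XT.nd (nat_lit 78) (nat_lit 380) (nat_lit 0) (XT.lf (nat_lit 0) (nat_lit 1278226980)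 (nat_lit 532) (nat_lit 3488642075) (nat_lit 76) (nat_lit 8414565040) (nat_lit 91) (nat_lit 5) (nat_lit 98) (nat_lit 5) (nat_lit 92) (nat_lit 5) (nat_lit 313) (nat_lit 279) (nat_lit 188)) (XT.lf (nat_lit 0) (nat_lit 2226676913) (nat_lit 380) (nat_lit 696205738) (nat_lit 456) (nat_lit 10498152633) (nat_lit 86) (nat_lit 5) (nat_lit 91) (nat_lit 5) (nat_lit 92) (nat_lit 5) (nat_lit 314) (nat_lit 279) (nat_lit 187)))))) (XT.nd (nat_lit 390) (nat_lit 760) (nat_lit 0) (XT.nd (nat_lit 156) (nat_lit 380) (nat_lit 0) (XT.nd (nat_lit 78) (nat_lit 380) (nat_lit 0) (XT.lf (nat_lit 0) (nat_lit 4668552202) (nat_lit 456) (nat_lit 5535458885) (nat_lit 76) (nat_lit 3462309765) (nat_lit 86) (nat_lit 5) (nat_lit 92) (nat_lit 5) (nat_lit 87) (nat_lit 5) (nat_lit 315) (nat_lit 279) (nat_lit 186)) (XT.lf (nat_lit 0) (nat_lit 272505413) (nat_lit 380) (nat_lit 6186594892) (nat_lit 456) (nat_lit 7460134642) (nat_lit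 81) (nat_lit 5) (nat_lit 86) (nat_lit 5) (nat_lit 87) (nat_lit 5) (nat_lit 316) (nat_lit 279) (nat_lit 185))) (XT.nd (nat_lit 78) (nat_lit 380) (nat_lit 0) (XT.lf (nat_lit 0) (nat_lit 6349241028) (nat_lit 380) (nat_lit 1993330167) (nat_lit 456) (nat_lit 5836032977) (nat_lit 81) (nat_lit 5) (nat_lit 86) (nat_lit 5) (nat_lit 87) (nat_lit 5) (nat_lit 317) (nat_lit 279) (nat_lit 184)) (XT.nd (nat_lit 78) (nat_lit 380) (nat_lit 0) (XT.lf (nat_lit 0) (nat_lit 10288676803) (nat_lit 456) (nat_lit 1878727375) (nat_lit 76) (nat_lit 2278208997) (nat_lit 81) (nat_lit 5) (nat_lit 87) (nat_lit 5) (nat_lit 82) (nat_lit 5) (nat_lit 318) (nat_lit 279) (nat_lit 183)) (XT.lf (nat_lit 0) (nat_lit 4296180578) (nat_lit 380) (nat_lit 8042265280) (nat_lit 456) (nat_lit 2380869559) (nat_lit 76) (nat_lit 5) (nat_lit 81) (nat_lit 5) (nat_lit 82) (nat_lit 5) (nat_lit 319) (nat_lit 279) (nat_lit 182))))) (XT.nd (nat_lit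 234) (nat_lit 304) (nat_lit 0) (XT.nd (nat_lit 78) (nat_lit 456) (nat_lit 0) (XT.lf (nat_lit 0) (nat_lit 10676682791) (nat_lit 380) (nat_lit 3776527696) (nat_lit 456) (nat_lit 547953338) (nat_lit 76) (nat_lit 5) (nat_lit 81) (nat_lit 5) (nat_lit 82) (nat_lit 5) (nat_lit 320) (nat_lit 279) (nat_lit 181)) (XT.nd (nat_lit 78) (nat_lit 0) (nat_lit 0) (XT.lf (nat_lit 0) (nat_lit 1323703421) (nat_lit 456) (nat_lit 13332617182) (nat_lit 76) (nat_lit 634501525) (nat_lit 70) (nat_lit 5) (nat_lit 76) (nat_lit 5) (nat_lit 71) (nat_lit 5) (nat_lit 321) (nat_lit 279) (nat_lit 180)) (XT.lf (nat_lit 0) (nat_lit 3307027934) (nat_lit 456) (nat_lit 7131347425) (nat_lit 76) (nat_lit 5148672884) (nat_lit 70) (nat_lit 5) (nat_lit 76) (nat_lit 5) (nat_lit 71) (nat_lit 5) (nat_lit 322) (nat_lit 279) (nat_lit 179)))) (XT.nd (nat_lit 78) (nat_lit 304) (nat_lit 0) (XT.lf (nat_lit 0) (nat_lit 5335326808) (nat_lit 456)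 (nat_lit 761765235) (nat_lit 76) (nat_lit 9795540553) (nat_lit 70) (nat_lit 5) (nat_lit 76) (nat_lit 5) (nat_lit 71) (nat_lit 5) (nat_lit 323) (nat_lit 279) (nat_lit 178)) (XT.nd (nat_lit 78) (nat_lit 0) (nat_lit 0) (XT.lf (nat_lit 0) (nat_lit 5896762110) (nat_lit 304) (nat_lit 1570293518) (nat_lit 380) (nat_lit 8739086077) (nat_lit 66) (nat_lit 5) (nat_lit 70) (nat_lit 5) (nat_lit 71) (nat_lit 5) (nat_lit 324) (nat_lit 279) (nat_lit 177)) (XT.lf (nat_lit 0) (nat_lit 9686343992) (nat_lit 380) (nat_lit 3805425270) (nat_lit 76) (nat_lit 3036612236) (nat_lit 66) (nat_lit 5) (nat_lit 71) (nat_lit 5) (nat_lit 67) (nat_lit 5) (nat_lit 325) (nat_lit 279) (nat_lit 176))))))))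
noncomputable def xc166 : XT := (XT.nd (nat_lit 1716) (nat_lit 1368) (nat_lit 0) (XT.nd (nat_lit 858) (nat_lit 836) (nat_lit 0) (XT.nd (nat_lit 390) (nat_lit 836) (nat_lit 0) (XT.nd (nat_lit 156) (nat_lit 380) (nat_lit 0) (XT.nd (nat_lit 78) (nat_lit 0) (nat_lit 0) (XT.lf (nat_lit 0) (nat_lit 2918091887) (nat_lit 304) (nat_lit 9084235528) (nat_lit 380) (nat_lit 4857090243) (nat_lit 62) (nat_lit 5) (nat_lit 66) (nat_lit 5) (nat_lit 67) (nat_lit 5) (nat_lit 326) (nat_lit 279) (nat_lit 175)) (XT.lf (nat_lit 0) (nat_lit 9904537412) (nat_lit 304) (nat_lit 4508430048) (nat_lit 380) (nat_lit 2786693841) (nat_lit 62) (nat_lit 5) (nat_lit 66) (nat_lit 5) (nat_lit 67) (nat_lit 5) (nat_lit 327) (nat_lit 279) (nat_lit 174))) (XT.nd (nat_lit 78) (nat_lit 380) (nat_lit 0) (XT.lf (nat_lit 0) (nat_lit 16884996651) (nat_lit 380) (nat_lit 468182662) (nat_lit 76) (nat_lit 197291629) (nat_lit 62) (nat_lit 5) (nat_lit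 67) (nat_lit 5) (nat_lit 63) (nat_lit 5) (nat_lit 328) (nat_lit 279) (nat_lit 173)) (XT.nd (nat_lit 78) (nat_lit 0) (nat_lit 0) (XT.lf (nat_lit 0) (nat_lit 1586521719) (nat_lit 380) (nat_lit 11292360467) (nat_lit 76) (nat_lit 5029609899) (nat_lit 57) (nat_lit 5) (nat_lit 62) (nat_lit 5) (nat_lit 58) (nat_lit 5) (nat_lit 329) (nat_lit 279) (nat_lit 172)) (XT.lf (nat_lit 0) (nat_lit 3885015374) (nat_lit 380) (nat_lit 4377486182) (nat_lit 76) (nat_lit 10014813420) (nat_lit 57) (nat_lit 5) (nat_lit 62) (nat_lit 5) (nat_lit 58) (nat_lit 5) (nat_lit 330) (nat_lit 279) (nat_lit 171))))) (XT.nd (nat_lit 234) (nat_lit 532) (nat_lit 0) (XT.nd (nat_lit 78) (nat_lit 0) (nat_lit 0) (XT.lf (nat_lit 0) (nat_lit 2783310723) (nat_lit 304) (nat_lit 3483809555) (nat_lit 380) (nat_lit 12389669940) (nat_lit 53) (nat_lit 5) (nat_lit 57) (nat_lit 5) (nat_lit 58) (nat_lit 5) (nat_lit 331) (nat_lit 279) (nat_lit 170))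 (XT.nd (nat_lit 78) (nat_lit 0) (nat_lit 0) (XT.lf (nat_lit 0) (nat_lit 8767222122) (nat_lit 380) (nat_lit 8827948679) (nat_lit 76) (nat_lit 1451109461) (nat_lit 53) (nat_lit 5) (nat_lit 58) (nat_lit 5) (nat_lit 54) (nat_lit 5) (nat_lit 332) (nat_lit 279) (nat_lit 169)) (XT.lf (nat_lit 0) (nat_lit 11365234582) (nat_lit 380) (nat_lit 1621106127) (nat_lit 76) (nat_lit 6460452855) (nat_lit 53) (nat_lit 5) (nat_lit 58) (nat_lit 5) (nat_lit 54) (nat_lit 5) (nat_lit 333) (nat_lit 279) (nat_lit 168)))) (XT.nd (nat_lit 78) (nat_lit 304) (nat_lit 0) (XT.lf (nat_lit 0) (nat_lit 5902003249) (nat_lit 228) (nat_lit 8184669674) (nat_lit 304) (nat_lit 5771309812) (nat_lit 50) (nat_lit 5) (nat_lit 53) (nat_lit 5) (nat_lit 54) (nat_lit 5) (nat_lit 334) (nat_lit 279) (nat_lit 167)) (XT.nd (nat_lit 78) (nat_lit 304) (nat_lit 0) (XT.lf (nat_lit 0) (nat_lit 13669077317) (nat_lit 228) (nat_lit 3225982747) (nat_lit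 304) (nat_lit 3386312652) (nat_lit 50) (nat_lit 5) (nat_lit 53) (nat_lit 5) (nat_lit 54) (nat_lit 5) (nat_lit 335) (nat_lit 279) (nat_lit 166)) (XT.lf (nat_lit 0) (nat_lit 937065477) (nat_lit 304) (nat_lit 18866948344) (nat_lit 380) (nat_lit 912984723) (nat_lit 46) (nat_lit 5) (nat_lit 50) (nat_lit 5) (nat_lit 51) (nat_lit 5) (nat_lit 336) (nat_lit 279) (nat_lit 165)))))) (XT.nd (nat_lit 390) (nat_lit 532) (nat_lit 0) (XT.nd (nat_lit 156) (nat_lit 228) (nat_lit 0) (XT.nd (nat_lit 78) (nat_lit 0) (nat_lit 0) (XT.lf (nat_lit 0) (nat_lit 1691286805) (nat_lit 380) (nat_lit 12378474898) (nat_lit 76) (nat_lit 7092823130) (nat_lit 45) (nat_lit 5) (nat_lit 50) (nat_lit 5) (nat_lit 46) (nat_lit 5) (nat_lit 337) (nat_lit 279) (nat_lit 164)) (XT.lf (nat_lit 0) (nat_lit 4344915846) (nat_lit 380) (nat_lit 4778501653) (nat_lit 76) (nat_lit 12498184241) (nat_lit 45) (nat_lit 5) (nat_lit 50) (nat_lit 5) (nat_lit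 46) (nat_lit 5) (nat_lit 338) (nat_lit 279) (nat_lit 163))) (XT.nd (nat_lit 78) (nat_lit 0) (nat_lit 0) (XT.lf (nat_lit 0) (nat_lit 3095814074) (nat_lit 228) (nat_lit 4001981510) (nat_lit 304) (nat_lit 14996025280) (nat_lit 42) (nat_lit 5) (nat_lit 45) (nat_lit 5) (nat_lit 46) (nat_lit 5) (nat_lit 339) (nat_lit 279) (nat_lit 162)) (XT.nd (nat_lit 78) (nat_lit 0) (nat_lit 0) (XT.lf (nat_lit 0) (nat_lit 9984236313) (nat_lit 304) (nat_lit 11301370772) (nat_lit 76) (nat_lit 1293090595) (nat_lit 42) (nat_lit 5) (nat_lit 46) (nat_lit 5) (nat_lit 43) (nat_lit 5) (nat_lit 340) (nat_lit 279) (nat_lit 161)) (XT.lf (nat_lit 0) (nat_lit 12987190493) (nat_lit 304) (nat_lit 3427255500) (nat_lit 76) (nat_lit 6662796961) (nat_lit 42) (nat_lit 5) (nat_lit 46) (nat_lit 5) (nat_lit 43) (nat_lit 5) (nat_lit 341) (nat_lit 279) (nat_lit 160))))) (XT.nd (nat_lit 234) (nat_lit 304) (nat_lit 0) (XT.nd (nat_lit 78)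 (nat_lit 0) (nat_lit 0) (XT.lf (nat_lit 0) (nat_lit 4762624775) (nat_lit 228) (nat_lit 11353969059) (nat_lit 304) (nat_lit 7473079124) (nat_lit 39) (nat_lit 5) (nat_lit 42) (nat_lit 5) (nat_lit 43) (nat_lit 5) (nat_lit 342) (nat_lit 279) (nat_lit 159)) (XT.nd (nat_lit 78) (nat_lit 0) (nat_lit 0) (XT.lf (nat_lit 0) (nat_lit 13255193739) (nat_lit 228) (nat_lit 6110020266) (nat_lit 304) (nat_lit 4751520442) (nat_lit 39) (nat_lit 5) (nat_lit 42) (nat_lit 5) (nat_lit 43) (nat_lit 5) (nat_lit 343) (nat_lit 279) (nat_lit 158)) (XT.lf (nat_lit 0) (nat_lit 21989662977) (nat_lit 228) (nat_lit 712626086) (nat_lit 304) (nat_lit 1957606915) (nat_lit 39) (nat_lit 5) (nat_lit 42) (nat_lit 5) (nat_lit 43) (nat_lit 5) (nat_lit 344) (nat_lit 279) (nat_lit 157)))) (XT.nd (nat_lit 78) (nat_lit 0) (nat_lit 0) (XT.lf (nat_lit 0) (nat_lit 996847664) (nat_lit 304) (nat_lit 19405260693) (nat_lit 76) (nat_lit 4814155344)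 (nat_lit 35) (nat_lit 5) (nat_lit 39) (nat_lit 5) (nat_lit 36) (nat_lit 5) (nat_lit 345) (nat_lit 279) (nat_lit 156)) (XT.nd (nat_lit 78) (nat_lit 0) (nat_lit 0) (XT.lf (nat_lit 0) (nat_lit 4026131144) (nat_lit 304) (nat_lit 11226616245) (nat_lit 76) (nat_lit 10535243912) (nat_lit 35) (nat_lit 5) (nat_lit 39) (nat_lit 5) (nat_lit 36) (nat_lit 5) (nat_lit 346) (nat_lit 279) (nat_lit 155)) (XT.lf (nat_lit 0) (nat_lit 7137802287) (nat_lit 304) (nat_lit 2815050374) (nat_lit 76) (nat_lit 16424288863) (nat_lit 35) (nat_lit 5) (nat_lit 39) (nat_lit 5) (nat_lit 36) (nat_lit 5) (nat_lit 347) (nat_lit 279) (nat_lit 154))))))) (XT.nd (nat_lit 858) (nat_lit 532) (nat_lit 0) (XT.nd (nat_lit 390) (nat_lit 456) (nat_lit 0) (XT.nd (nat_lit 156) (nat_lit 152) (nat_lit 0) (XT.nd (nat_lit 78) (nat_lit 0) (nat_lit 0) (XT.lf (nat_lit 0) (nat_lit 5952950332) (nat_lit 228) (nat_lit 4438853093) (nat_lit 304) (nat_lit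 16590709031) (nat_lit 32) (nat_lit 5) (nat_lit 35) (nat_lit 5) (nat_lit 36) (nat_lit 5) (nat_lit 348) (nat_lit 279) (nat_lit 153)) (XT.lf (nat_lit 0) (nat_lit 13775902347) (nat_lit 304) (nat_lit 12587880473) (nat_lit 76) (nat_lit 1241302511) (nat_lit 32) (nat_lit 5) (nat_lit 36) (nat_lit 5) (nat_lit 33) (nat_lit 5) (nat_lit 349) (nat_lit 279) (nat_lit 152))) (XT.nd (nat_lit 78) (nat_lit 152) (nat_lit 0) (XT.lf (nat_lit 0) (nat_lit 17297555533) (nat_lit 304) (nat_lit 3948721732) (nat_lit 76) (nat_lit 6998991894) (nat_lit 32) (nat_lit 5) (nat_lit 36) (nat_lit 5) (nat_lit 33) (nat_lit 5) (nat_lit 350) (nat_lit 279) (nat_lit 151)) (XT.nd (nat_lit 78) (nat_lit 0) (nat_lit 0) (XT.lf (nat_lit 0) (nat_lit 5036410355) (nat_lit 152) (nat_lit 15929173885) (nat_lit 228) (nat_lit 7937866759) (nat_lit 30) (nat_lit 5) (nat_lit 32) (nat_lit 5) (nat_lit 33) (nat_lit 5) (nat_lit 351) (nat_lit 279) (nat_lit 150))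 (XT.lf (nat_lit 0) (nat_lit 14360673957) (nat_lit 152) (nat_lit 10415281698) (nat_lit 228) (nat_lit 4804467446) (nat_lit 30) (nat_lit 5) (nat_lit 32) (nat_lit 5) (nat_lit 33) (nat_lit 5) (nat_lit 352) (nat_lit 279) (nat_lit 149))))) (XT.nd (nat_lit 234) (nat_lit 152) (nat_lit 0) (XT.nd (nat_lit 78) (nat_lit 304) (nat_lit 0) (XT.lf (nat_lit 0) (nat_lit 23953629181) (nat_lit 152) (nat_lit 4739657084) (nat_lit 228) (nat_lit 1584652115) (nat_lit 30) (nat_lit 5) (nat_lit 32) (nat_lit 5) (nat_lit 33) (nat_lit 5) (nat_lit 353) (nat_lit 279) (nat_lit 148)) (XT.nd (nat_lit 78) (nat_lit 0) (nat_lit 0) (XT.lf (nat_lit 0) (nat_lit 1729333602) (nat_lit 304) (nat_lit 28139908823) (nat_lit 76) (nat_lit 1125708914) (nat_lit 26) (nat_lit 5) (nat_lit 30) (nat_lit 5) (nat_lit 27) (nat_lit 5) (nat_lit 354) (nat_lit 279) (nat_lit 147)) (XT.lf (nat_lit 0) (nat_lit 5215162154) (nat_lit 304) (nat_lit 19366346423)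 (nat_lit 76) (nat_lit 7148379540) (nat_lit 26) (nat_lit 5) (nat_lit 30) (nat_lit 5) (nat_lit 27) (nat_lit 5) (nat_lit 355) (nat_lit 279) (nat_lit 146)))) (XT.nd (nat_lit 78) (nat_lit 152) (nat_lit 0) (XT.lf (nat_lit 0) (nat_lit 8798624273) (nat_lit 304) (nat_lit 10340213384) (nat_lit 76) (nat_lit 13348255535) (nat_lit 26) (nat_lit 5) (nat_lit 30) (nat_lit 5) (nat_lit 27) (nat_lit 5) (nat_lit 356) (nat_lit 279) (nat_lit 145)) (XT.nd (nat_lit 78) (nat_lit 152) (nat_lit 0) (XT.lf (nat_lit 0) (nat_lit 12482851140) (nat_lit 304) (nat_lit 1053622796) (nat_lit 76) (nat_lit 19730754266) (nat_lit 26) (nat_lit 5) (nat_lit 30) (nat_lit 5) (nat_lit 27) (nat_lit 5) (nat_lit 357) (nat_lit 279) (nat_lit 144)) (XT.lf (nat_lit 0) (nat_lit 8670737150) (nat_lit 152) (nat_lit 7683673262) (nat_lit 228) (nat_lit 17714063953) (nat_lit 24) (nat_lit 5) (nat_lit 26) (nat_lit 5) (nat_lit 27) (nat_lit 5) (nat_lit 358)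 (nat_lit 279) (nat_lit 143)))))) (XT.nd (nat_lit 390) (nat_lit 380) (nat_lit 0) (XT.nd (nat_lit 156) (nat_lit 152) (nat_lit 0) (XT.nd (nat_lit 78) (nat_lit 0) (nat_lit 0) (XT.lf (nat_lit 0) (nat_lit 18698498750) (nat_lit 152) (nat_lit 1647809546) (nat_lit 228) (nat_lit 14547334803) (nat_lit 24) (nat_lit 5) (nat_lit 26) (nat_lit 5) (nat_lit 27) (nat_lit 5) (nat_lit 359) (nat_lit 279) (nat_lit 142)) (XT.lf (nat_lit 0) (nat_lit 24495592021) (nat_lit 228) (nat_lit 6770199149) (nat_lit 76) (nat_lit 4476657479) (nat_lit 24) (nat_lit 5) (nat_lit 27) (nat_lit 5) (nat_lit 25) (nat_lit 5) (nat_lit 360) (nat_lit 279) (nat_lit 141))) (XT.nd (nat_lit 78) (nat_lit 0) (nat_lit 0) (XT.lf (nat_lit 0) (nat_lit 2969608599) (nat_lit 152) (nat_lit 25838497203) (nat_lit 228) (nat_lit 7807460333) (nat_lit 22) (nat_lit 5) (nat_lit 24) (nat_lit 5) (nat_lit 25) (nat_lit 5) (nat_lit 361) (nat_lit 279) (nat_lit 140))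 (XT.nd (nat_lit 78) (nat_lit 0) (nat_lit 0) (XT.lf (nat_lit 0) (nat_lit 13130967727) (nat_lit 152) (nat_lit 20181371245) (nat_lit 228) (nat_lit 4200677869) (nat_lit 22) (nat_lit 5) (nat_lit 24) (nat_lit 5) (nat_lit 25) (nat_lit 5) (nat_lit 362) (nat_lit 279) (nat_lit 139)) (XT.lf (nat_lit 0) (nat_lit 23588016851) (nat_lit 152) (nat_lit 14357835913) (nat_lit 228) (nat_lit 491723414) (nat_lit 22) (nat_lit 5) (nat_lit 24) (nat_lit 5) (nat_lit 25) (nat_lit 5) (nat_lit 363) (nat_lit 279) (nat_lit 138))))) (XT.nd (nat_lit 234) (nat_lit 152) (nat_lit 0) (XT.nd (nat_lit 78) (nat_lit 152) (nat_lit 0) (XT.lf (nat_lit 0) (nat_lit 3257807113) (nat_lit 228) (nat_lit 5072098104) (nat_lit 76) (nat_lit 31059188622) (nat_lit 21) (nat_lit 5) (nat_lit 24) (nat_lit 5) (nat_lit 22) (nat_lit 5) (nat_lit 364) (nat_lit 279) (nat_lit 137)) (XT.nd (nat_lit 78) (nat_lit 0) (nat_lit 0) (XT.lf (nat_lit 0) (nat_lit 5084285814)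 (nat_lit 152) (nat_lit 2068953542) (nat_lit 228) (nat_lit 33214481546) (nat_lit 19) (nat_lit 5) (nat_lit 21) (nat_lit 5) (nat_lit 22) (nat_lit 5) (nat_lit 365) (nat_lit 279) (nat_lit 136)) (XT.lf (nat_lit 0) (nat_lit 11253835884) (nat_lit 228) (nat_lit 25776247283) (nat_lit 76) (nat_lit 4342983208) (nat_lit 19) (nat_lit 5) (nat_lit 22) (nat_lit 5) (nat_lit 20) (nat_lit 5) (nat_lit 366) (nat_lit 279) (nat_lit 135)))) (XT.nd (nat_lit 78) (nat_lit 152) (nat_lit 0) (XT.lf (nat_lit 0) (nat_lit 15492570323) (nat_lit 228) (nat_lit 16012874802) (nat_lit 76) (nat_lit 10902681872) (nat_lit 19) (nat_lit 5) (nat_lit 22) (nat_lit 5) (nat_lit 20) (nat_lit 5) (nat_lit 367) (nat_lit 279) (nat_lit 134)) (XT.nd (nat_lit 78) (nat_lit 152) (nat_lit 0) (XT.lf (nat_lit 0) (nat_lit 19853258375) (nat_lit 228) (nat_lit 5964898495) (nat_lit 76) (nat_lit 17656246962) (nat_lit 19) (nat_lit 5) (nat_lit 22) (nat_lit 5)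 (nat_lit 20) (nat_lit 5) (nat_lit 368) (nat_lit 279) (nat_lit 133)) (XT.lf (nat_lit 0) (nat_lit 4463561584) (nat_lit 152) (nat_lit 19919055249) (nat_lit 228) (nat_lit 20188924551) (nat_lit 17) (nat_lit 5) (nat_lit 19) (nat_lit 5) (nat_lit 20) (nat_lit 5) (nat_lit 369) (nat_lit 279) (nat_lit 132))))))))
noncomputable def xc167 : XT := (XT.nd (nat_lit 33696) (nat_lit 0) (nat_lit 8284) (XT.nd (nat_lit 858) (nat_lit 304) (nat_lit 0) (XT.nd (nat_lit 390) (nat_lit 228) (nat_lit 0) (XT.nd (nat_lit 156) (nat_lit 76) (nat_lit 0) (XT.nd (nat_lit 78) (nat_lit 0) (nat_lit 0) (XT.lf (nat_lit 0) (nat_lit 15319173335) (nat_lit 152) (nat_lit 13783930376) (nat_lit 228) (nat_lit 16596839595) (nat_lit 17) (nat_lit 5) (nat_lit 19) (nat_lit 5) (nat_lit 20) (nat_lit 5) (nat_lit 370) (nat_lit 279) (nat_lit 131)) (XT.lf (nat_lit 0) (nat_lit 26492709069) (nat_lit 152) (nat_lit 7467655242) (nat_lit 228) (nat_lit 12901985655)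 (nat_lit 17) (nat_lit 5) (nat_lit 19) (nat_lit 5) (nat_lit 20) (nat_lit 5) (nat_lit 371) (nat_lit 279) (nat_lit 130))) (XT.nd (nat_lit 78) (nat_lit 76) (nat_lit 0) (XT.lf (nat_lit 0) (nat_lit 37993932067) (nat_lit 152) (nat_lit 964710770) (nat_lit 228) (nat_lit 9101134216) (nat_lit 17) (nat_lit 5) (nat_lit 19) (nat_lit 5) (nat_lit 20) (nat_lit 5) (nat_lit 372) (nat_lit 279) (nat_lit 129)) (XT.nd (nat_lit 78) (nat_lit 0) (nat_lit 0) (XT.lf (nat_lit 0) (nat_lit 494178385) (nat_lit 76) (nat_lit 43667964572) (nat_lit 152) (nat_lit 5129332823) (nat_lit 16) (nat_lit 5) (nat_lit 17) (nat_lit 5) (nat_lit 18) (nat_lit 4) (nat_lit 373) (nat_lit 279) (nat_lit 128)) (XT.lf (nat_lit 0) (nat_lit 11560256027) (nat_lit 76) (nat_lit 38068069058) (nat_lit 152) (nat_lit 928609891) (nat_lit 16) (nat_lit 5) (nat_lit 17) (nat_lit 5) (nat_lit 18) (nat_lit 4) (nat_lit 374) (nat_lit 279) (nat_lit 127))))) (XT.nd (nat_lit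 234) (nat_lit 152) (nat_lit 0) (XT.nd (nat_lit 78) (nat_lit 0) (nat_lit 0) (XT.lf (nat_lit 0) (nat_lit 3327380472) (nat_lit 152) (nat_lit 28941932555) (nat_lit 76) (nat_lit 19590204733) (nat_lit 15) (nat_lit 5) (nat_lit 17) (nat_lit 5) (nat_lit 16) (nat_lit 5) (nat_lit 375) (nat_lit 279) (nat_lit 126)) (XT.nd (nat_lit 78) (nat_lit 0) (nat_lit 0) (XT.lf (nat_lit 0) (nat_lit 7688071449) (nat_lit 152) (nat_lit 18601753124) (nat_lit 76) (nat_lit 26911213319) (nat_lit 15) (nat_lit 5) (nat_lit 17) (nat_lit 5) (nat_lit 16) (nat_lit 5) (nat_lit 376) (nat_lit 279) (nat_lit 125)) (XT.lf (nat_lit 0) (nat_lit 12175393875) (nat_lit 152) (nat_lit 7958179182) (nat_lit 76) (nat_lit 34449362307) (nat_lit 15) (nat_lit 5) (nat_lit 17) (nat_lit 5) (nat_lit 16) (nat_lit 5) (nat_lit 377) (nat_lit 279) (nat_lit 124)))) (XT.nd (nat_lit 78) (nat_lit 0) (nat_lit 0) (XT.lf (nat_lit 0) (nat_lit 3057757340) (nat_lit 152)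 (nat_lit 13764904404) (nat_lit 228) (nat_lit 39182874124) (nat_lit 13) (nat_lit 5) (nat_lit 15) (nat_lit 5) (nat_lit 16) (nat_lit 5) (nat_lit 378) (nat_lit 279) (nat_lit 123)) (XT.nd (nat_lit 78) (nat_lit 0) (nat_lit 0) (XT.lf (nat_lit 0) (nat_lit 14560759161) (nat_lit 152) (nat_lit 7124938756) (nat_lit 228) (nat_lit 35782831673) (nat_lit 13) (nat_lit 5) (nat_lit 15) (nat_lit 5) (nat_lit 16) (nat_lit 5) (nat_lit 379) (nat_lit 279) (nat_lit 122)) (XT.lf (nat_lit 0) (nat_lit 26402494077) (nat_lit 152) (nat_lit 288236207) (nat_lit 228) (nat_lit 32284805232) (nat_lit 13) (nat_lit 5) (nat_lit 15) (nat_lit 5) (nat_lit 16) (nat_lit 5) (nat_lit 380) (nat_lit 279) (nat_lit 121)))))) (XT.nd (nat_lit 390) (nat_lit 228) (nat_lit 0) (XT.nd (nat_lit 156) (nat_lit 76) (nat_lit 0) (XT.nd (nat_lit 78) (nat_lit 0) (nat_lit 0) (XT.lf (nat_lit 0) (nat_lit 31907028616) (nat_lit 228) (nat_lit 21999457654) (nat_lit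 76) (nat_lit 6619437280) (nat_lit 13) (nat_lit 5) (nat_lit 16) (nat_lit 5) (nat_lit 14) (nat_lit 4) (nat_lit 381) (nat_lit 279) (nat_lit 120)) (XT.lf (nat_lit 0) (nat_lit 37278976105) (nat_lit 228) (nat_lit 11117605280) (nat_lit 76) (nat_lit 13726272261) (nat_lit 13) (nat_lit 5) (nat_lit 16) (nat_lit 5) (nat_lit 14) (nat_lit 4) (nat_lit 382) (nat_lit 279) (nat_lit 119))) (XT.nd (nat_lit 78) (nat_lit 0) (nat_lit 0) (XT.lf (nat_lit 0) (nat_lit 86482382) (nat_lit 76) (nat_lit 42722844921) (nat_lit 152) (nat_lit 20958452057) (nat_lit 12) (nat_lit 5) (nat_lit 13) (nat_lit 5) (nat_lit 14) (nat_lit 4) (nat_lit 383) (nat_lit 279) (nat_lit 118)) (XT.nd (nat_lit 78) (nat_lit 0) (nat_lit 0) (XT.lf (nat_lit 0) (nat_lit 11848742738) (nat_lit 76) (nat_lit 36765574491) (nat_lit 152) (nat_lit 16844478696) (nat_lit 12) (nat_lit 5) (nat_lit 13) (nat_lit 5) (nat_lit 14) (nat_lit 4) (nat_lit 384) (nat_lit 279)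 (nat_lit 117)) (XT.lf (nat_lit 0) (nat_lit 23958191347) (nat_lit 76) (nat_lit 30631830728) (nat_lit 152) (nat_lit 12610628739) (nat_lit 12) (nat_lit 5) (nat_lit 13) (nat_lit 5) (nat_lit 14) (nat_lit 4) (nat_lit 385) (nat_lit 279) (nat_lit 116))))) (XT.nd (nat_lit 234) (nat_lit 152) (nat_lit 0) (XT.nd (nat_lit 78) (nat_lit 76) (nat_lit 0) (XT.lf (nat_lit 0) (nat_lit 36425409280) (nat_lit 76) (nat_lit 24316254049) (nat_lit 152) (nat_lit 8253202705) (nat_lit 12) (nat_lit 5) (nat_lit 13) (nat_lit 5) (nat_lit 14) (nat_lit 4) (nat_lit 386) (nat_lit 279) (nat_lit 115)) (XT.nd (nat_lit 78) (nat_lit 76) (nat_lit 0) (XT.lf (nat_lit 0) (nat_lit 49261290223) (nat_lit 76) (nat_lit 17813325990) (nat_lit 152) (nat_lit 3768393134) (nat_lit 12) (nat_lit 5) (nat_lit 13) (nat_lit 5) (nat_lit 14) (nat_lit 4) (nat_lit 387) (nat_lit 279) (nat_lit 114)) (XT.lf (nat_lit 0) (nat_lit 831176692) (nat_lit 152) (nat_lit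 10277794433) (nat_lit 76) (nat_lit 61637480046) (nat_lit 11) (nat_lit 5) (nat_lit 13) (nat_lit 5) (nat_lit 12) (nat_lit 5) (nat_lit 388) (nat_lit 279) (nat_lit 113)))) (XT.nd (nat_lit 78) (nat_lit 0) (nat_lit 0) (XT.lf (nat_lit 0) (nat_lit 1349152235) (nat_lit 152) (nat_lit 4153723145) (nat_lit 228) (nat_lit 69202709188) (nat_lit 9) (nat_lit 5) (nat_lit 11) (nat_lit 5) (nat_lit 12) (nat_lit 5) (nat_lit 389) (nat_lit 279) (nat_lit 112)) (XT.nd (nat_lit 32058) (nat_lit 0) (nat_lit 12388) (XT.lf (nat_lit 0) (nat_lit 10445409604) (nat_lit 228) (nat_lit 63219887291) (nat_lit 76) (nat_lit 3054278541) (nat_lit 9) (nat_lit 5) (nat_lit 12) (nat_lit 5) (nat_lit 10) (nat_lit 4) (nat_lit 390) (nat_lit 279) (nat_lit 111)) (XT.lf (nat_lit 0) (nat_lit 486789619) (nat_lit 0) (nat_lit 486789619) (nat_lit 836) (nat_lit 3134576479) (nat_lit 172) (nat_lit 5) (nat_lit 172) (nat_lit 3) (nat_lit 183) (nat_lit 3)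 (nat_lit 280) (nat_lit 280) (nat_lit 220))))))) (XT.nd (nat_lit 858) (nat_lit 3268) (nat_lit 0) (XT.nd (nat_lit 390) (nat_lit 836) (nat_lit 0) (XT.nd (nat_lit 156) (nat_lit 0) (nat_lit 0) (XT.nd (nat_lit 78) (nat_lit 0) (nat_lit 0) (XT.lf (nat_lit 0) (nat_lit 2985611200) (nat_lit 836) (nat_lit 3916387959) (nat_lit 912) (nat_lit 1403821106) (nat_lit 172) (nat_lit 5) (nat_lit 183) (nat_lit 3) (nat_lit 184) (nat_lit 5) (nat_lit 281) (nat_lit 280) (nat_lit 219)) (XT.lf (nat_lit 0) (nat_lit 4026192738) (nat_lit 836) (nat_lit 520805471) (nat_lit 912) (nat_lit 3852021871) (nat_lit 172) (nat_lit 5) (nat_lit 183) (nat_lit 3) (nat_lit 184) (nat_lit 5) (nat_lit 282) (nat_lit 280) (nat_lit 218))) (XT.nd (nat_lit 78) (nat_lit 0) (nat_lit 76) (XT.lf (nat_lit 76) (nat_lit 3015177901) (nat_lit 0) (nat_lit 2074259531) (nat_lit 912) (nat_lit 3405966128) (nat_lit 173) (nat_lit 5) (nat_lit 172) (nat_lit 5) (nat_lit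 184) (nat_lit 5) (nat_lit 283) (nat_lit 280) (nat_lit 217)) (XT.nd (nat_lit 78) (nat_lit 0) (nat_lit 0) (XT.lf (nat_lit 0) (nat_lit 6157955151) (nat_lit 836) (nat_lit 1952689386) (nat_lit 912) (nat_lit 484959965) (nat_lit 173) (nat_lit 5) (nat_lit 184) (nat_lit 5) (nat_lit 185) (nat_lit 5) (nat_lit 284) (nat_lit 280) (nat_lit 216)) (XT.lf (nat_lit 76) (nat_lit 1671896583) (nat_lit 0) (nat_lit 5587823817) (nat_lit 912) (nat_lit 1439178832) (nat_lit 174) (nat_lit 5) (nat_lit 173) (nat_lit 5) (nat_lit 185) (nat_lit 5) (nat_lit 285) (nat_lit 280) (nat_lit 215))))) (XT.nd (nat_lit 234) (nat_lit 0) (nat_lit 76) (XT.nd (nat_lit 78) (nat_lit 912) (nat_lit 0) (XT.lf (nat_lit 76) (nat_lit 5424589003) (nat_lit 0) (nat_lit 2955084381) (nat_lit 912) (nat_lit 426185300) (nat_lit 174) (nat_lit 5) (nat_lit 173) (nat_lit 5) (nat_lit 185) (nat_lit 5) (nat_lit 286) (nat_lit 280) (nat_lit 214)) (XT.nd (nat_lit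 78) (nat_lit 0) (nat_lit 76) (XT.lf (nat_lit 76) (nat_lit 353961679) (nat_lit 0) (nat_lit 220572231) (nat_lit 988) (nat_lit 8342346673) (nat_lit 162) (nat_lit 5) (nat_lit 161) (nat_lit 5) (nat_lit 174) (nat_lit 5) (nat_lit 287) (nat_lit 280) (nat_lit 213)) (XT.lf (nat_lit 0) (nat_lit 1623035802) (nat_lit 912) (nat_lit 4811028980) (nat_lit 988) (nat_lit 2596361705) (nat_lit 162) (nat_lit 5) (nat_lit 174) (nat_lit 5) (nat_lit 175) (nat_lit 5) (nat_lit 288) (nat_lit 280) (nat_lit 212)))) (XT.nd (nat_lit 78) (nat_lit 0) (nat_lit 0) (XT.lf (nat_lit 0) (nat_lit 2673031632) (nat_lit 912) (nat_lit 970000258) (nat_lit 988) (nat_lit 5505352262) (nat_lit 162) (nat_lit 5) (nat_lit 174) (nat_lit 5) (nat_lit 175) (nat_lit 5) (nat_lit 289) (nat_lit 280) (nat_lit 211)) (XT.nd (nat_lit 78) (nat_lit 0) (nat_lit 76) (XT.lf (nat_lit 76) (nat_lit 3024665898) (nat_lit 0) (nat_lit 727727638) (nat_lit 988) (nat_lit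 5517654472) (nat_lit 163) (nat_lit 5) (nat_lit 162) (nat_lit 5) (nat_lit 175) (nat_lit 5) (nat_lit 290) (nat_lit 280) (nat_lit 210)) (XT.lf (nat_lit 0) (nat_lit 4865498361) (nat_lit 912) (nat_lit 2279503520) (nat_lit 988) (nat_lit 2250419470) (nat_lit 163) (nat_lit 5) (nat_lit 175) (nat_lit 5) (nat_lit 176) (nat_lit 5) (nat_lit 291) (nat_lit 280) (nat_lit 209)))))) (XT.nd (nat_lit 468) (nat_lit 2508) (nat_lit 0) (XT.nd (nat_lit 234) (nat_lit 912) (nat_lit 0) (XT.nd (nat_lit 78) (nat_lit 0) (nat_lit 0) (XT.lf (nat_lit 76) (nat_lit 1812618202) (nat_lit 0) (nat_lit 4194493702) (nat_lit 988) (nat_lit 3517688032) (nat_lit 164) (nat_lit 5) (nat_lit 163) (nat_lit 5) (nat_lit 176) (nat_lit 5) (nat_lit 292) (nat_lit 280) (nat_lit 208)) (XT.nd (nat_lit 78) (nat_lit 0) (nat_lit 76) (XT.lf (nat_lit 76) (nat_lit 6053537344) (nat_lit 0) (nat_lit 1123602080) (nat_lit 988) (nat_lit 2481190156) (nat_lit 164)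 (nat_lit 5) (nat_lit 163) (nat_lit 5) (nat_lit 176) (nat_lit 5) (nat_lit 293) (nat_lit 280) (nat_lit 207)) (XT.lf (nat_lit 76) (nat_lit 596760248) (nat_lit 0) (nat_lit 7782911642) (nat_lit 988) (nat_lit 1416363012) (nat_lit 165) (nat_lit 5) (nat_lit 164) (nat_lit 5) (nat_lit 177) (nat_lit 5) (nat_lit 294) (nat_lit 280) (nat_lit 206)))) (XT.nd (nat_lit 78) (nat_lit 988) (nat_lit 0) (XT.lf (nat_lit 76) (nat_lit 4966015172) (nat_lit 0) (nat_lit 4672358623) (nat_lit 988) (nat_lit 298984017) (nat_lit 165) (nat_lit 5) (nat_lit 164) (nat_lit 5) (nat_lit 177) (nat_lit 5) (nat_lit 295) (nat_lit 280) (nat_lit 205)) (XT.nd (nat_lit 78) (nat_lit 0) (nat_lit 76) (XT.lf (nat_lit 0) (nat_lit 808417053) (nat_lit 988) (nat_lit 645664933) (nat_lit 1064) (nat_lit 8629483123) (nat_lit 151) (nat_lit 5) (nat_lit 164) (nat_lit 5) (nat_lit 165) (nat_lit 5) (nat_lit 296) (nat_lit 280) (nat_lit 204)) (XT.lf (nat_lit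 0) (nat_lit 1972400341) (nat_lit 988) (nat_lit 6390271853) (nat_lit 76) (nat_lit 1870598201) (nat_lit 152) (nat_lit 5) (nat_lit 165) (nat_lit 5) (nat_lit 153) (nat_lit 5) (nat_lit 297) (nat_lit 280) (nat_lit 203))))) (XT.nd (nat_lit 234) (nat_lit 1596) (nat_lit 0) (XT.nd (nat_lit 78) (nat_lit 988) (nat_lit 0) (XT.lf (nat_lit 0) (nat_lit 3166810932) (nat_lit 988) (nat_lit 1943167813) (nat_lit 76) (nat_lit 5277702143) (nat_lit 152) (nat_lit 5) (nat_lit 165) (nat_lit 5) (nat_lit 153) (nat_lit 5) (nat_lit 298) (nat_lit 280) (nat_lit 202)) (XT.nd (nat_lit 78) (nat_lit 0) (nat_lit 0) (XT.lf (nat_lit 0) (nat_lit 2669050991) (nat_lit 988) (nat_lit 1728927798) (nat_lit 1064) (nat_lit 6148794133) (nat_lit 139) (nat_lit 5) (nat_lit 152) (nat_lit 5) (nat_lit 153) (nat_lit 5) (nat_lit 299) (nat_lit 280) (nat_lit 201)) (XT.lf (nat_lit 0) (nat_lit 5678587808) (nat_lit 1064) (nat_lit 3288651085) (nat_lit 76)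 (nat_lit 1743098374) (nat_lit 139) (nat_lit 5) (nat_lit 153) (nat_lit 5) (nat_lit 140) (nat_lit 5) (nat_lit 300) (nat_lit 280) (nat_lit 200)))) (XT.nd (nat_lit 78) (nat_lit 532) (nat_lit 0) (XT.lf (nat_lit 0) (nat_lit 1428439133) (nat_lit 1064) (nat_lit 5576562392) (nat_lit 1140) (nat_lit 3873657978) (nat_lit 125) (nat_lit 5) (nat_lit 139) (nat_lit 5) (nat_lit 140) (nat_lit 5) (nat_lit 301) (nat_lit 280) (nat_lit 199)) (XT.nd (nat_lit 78) (nat_lit 532) (nat_lit 0) (XT.lf (nat_lit 0) (nat_lit 6334247618) (nat_lit 1064) (nat_lit 2047195389) (nat_lit 1140) (nat_lit 2670351783) (nat_lit 125) (nat_lit 5) (nat_lit 139) (nat_lit 5) (nat_lit 140) (nat_lit 5) (nat_lit 302) (nat_lit 280) (nat_lit 198)) (XT.lf (nat_lit 0) (nat_lit 123874838) (nat_lit 532) (nat_lit 9669480350) (nat_lit 608) (nat_lit 1437012013) (nat_lit 118) (nat_lit 5) (nat_lit 125) (nat_lit 5) (nat_lit 126) (nat_lit 5) (nat_lit 303)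 (nat_lit 280) (nat_lit 197))))))))
noncomputable def xc168 : XT := (XT.nd (nat_lit 1716) (nat_lit 2356) (nat_lit 0) (XT.nd (nat_lit 858) (nat_lit 1900) (nat_lit 0) (XT.nd (nat_lit 390) (nat_lit 988) (nat_lit 0) (XT.nd (nat_lit 156) (nat_lit 988) (nat_lit 0) (XT.nd (nat_lit 78) (nat_lit 76) (nat_lit 0) (XT.lf (nat_lit 0) (nat_lit 5166388485) (nat_lit 532) (nat_lit 6127121008) (nat_lit 608) (nat_lit 119477147) (nat_lit 118) (nat_lit 5) (nat_lit 125) (nat_lit 5) (nat_lit 126) (nat_lit 5) (nat_lit 304) (nat_lit 280) (nat_lit 196)) (XT.lf (nat_lit 0) (nat_lit 1191972939) (nat_lit 608) (nat_lit 1272888830) (nat_lit 76) (nat_lit 9136572422) (nat_lit 117) (nat_lit 5) (nat_lit 125) (nat_lit 5) (nat_lit 118) (nat_lit 5) (nat_lit 305) (nat_lit 280) (nat_lit 195))) (XT.nd (nat_lit 78) (nat_lit 532) (nat_lit 0) (XT.lf (nat_lit 0) (nat_lit 2570034257) (nat_lit 532) (nat_lit 7902461651) (nat_lit 76) (nat_lit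 1322174463) (nat_lit 111) (nat_lit 5) (nat_lit 118) (nat_lit 5) (nat_lit 112) (nat_lit 5) (nat_lit 306) (nat_lit 280) (nat_lit 194)) (XT.nd (nat_lit 78) (nat_lit 532) (nat_lit 0) (XT.lf (nat_lit 0) (nat_lit 4006418796) (nat_lit 532) (nat_lit 2799488865) (nat_lit 76) (nat_lit 5187345529) (nat_lit 111) (nat_lit 5) (nat_lit 118) (nat_lit 5) (nat_lit 112) (nat_lit 5) (nat_lit 307) (nat_lit 280) (nat_lit 193)) (XT.lf (nat_lit 0) (nat_lit 2485668545) (nat_lit 532) (nat_lit 3004310253) (nat_lit 608) (nat_lit 6707749453) (nat_lit 104) (nat_lit 5) (nat_lit 111) (nat_lit 5) (nat_lit 112) (nat_lit 5) (nat_lit 308) (nat_lit 280) (nat_lit 192))))) (XT.nd (nat_lit 234) (nat_lit 532) (nat_lit 0) (XT.nd (nat_lit 78) (nat_lit 456) (nat_lit 0) (XT.lf (nat_lit 0) (nat_lit 7035939471) (nat_lit 608) (nat_lit 4449620904) (nat_lit 76) (nat_lit 922295981) (nat_lit 104) (nat_lit 5) (nat_lit 112) (nat_lit 5) (nat_lit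 105) (nat_lit 5) (nat_lit 309) (nat_lit 280) (nat_lit 191)) (XT.nd (nat_lit 78) (nat_lit 0) (nat_lit 0) (XT.lf (nat_lit 0) (nat_lit 940008096) (nat_lit 456) (nat_lit 7708202269) (nat_lit 532) (nat_lit 3975533985) (nat_lit 98) (nat_lit 5) (nat_lit 104) (nat_lit 5) (nat_lit 105) (nat_lit 5) (nat_lit 310) (nat_lit 280) (nat_lit 190)) (XT.lf (nat_lit 0) (nat_lit 6563447592) (nat_lit 456) (nat_lit 3771849580) (nat_lit 532) (nat_lit 2510070794) (nat_lit 98) (nat_lit 5) (nat_lit 104) (nat_lit 5) (nat_lit 105) (nat_lit 5) (nat_lit 311) (nat_lit 280) (nat_lit 189)))) (XT.nd (nat_lit 78) (nat_lit 532) (nat_lit 0) (XT.lf (nat_lit 0) (nat_lit 12057761115) (nat_lit 532) (nat_lit 739885282) (nat_lit 76) (nat_lit 276501846) (nat_lit 98) (nat_lit 5) (nat_lit 105) (nat_lit 5) (nat_lit 99) (nat_lit 5) (nat_lit 312) (nat_lit 280) (nat_lit 188)) (XT.nd (nat_lit 78) (nat_lit 0) (nat_lit 0) (XT.lf (nat_lit 0) (nat_lit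 580622237) (nat_lit 532) (nat_lit 8303219046) (nat_lit 76) (nat_lit 4423786948) (nat_lit 91) (nat_lit 5) (nat_lit 98) (nat_lit 5) (nat_lit 92) (nat_lit 5) (nat_lit 313) (nat_lit 280) (nat_lit 187)) (XT.lf (nat_lit 0) (nat_lit 2195344458) (nat_lit 532) (nat_lit 2640597403) (nat_lit 76) (nat_lit 8712208503) (nat_lit 91) (nat_lit 5) (nat_lit 98) (nat_lit 5) (nat_lit 92) (nat_lit 5) (nat_lit 314) (nat_lit 280) (nat_lit 186)))))) (XT.nd (nat_lit 390) (nat_lit 1140) (nat_lit 0) (XT.nd (nat_lit 156) (nat_lit 380) (nat_lit 0) (XT.nd (nat_lit 78) (nat_lit 0) (nat_lit 0) (XT.lf (nat_lit 0) (nat_lit 3236840920) (nat_lit 380) (nat_lit 635971806) (nat_lit 456) (nat_lit 9922691518) (nat_lit 86) (nat_lit 5) (nat_lit 91) (nat_lit 5) (nat_lit 92) (nat_lit 5) (nat_lit 315) (nat_lit 280) (nat_lit 185)) (XT.lf (nat_lit 0) (nat_lit 5646495536) (nat_lit 456) (nat_lit 4759050785) (nat_lit 76) (nat_lit 3643399600)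 (nat_lit 86) (nat_lit 5) (nat_lit 92) (nat_lit 5) (nat_lit 87) (nat_lit 5) (nat_lit 316) (nat_lit 280) (nat_lit 184))) (XT.nd (nat_lit 78) (nat_lit 0) (nat_lit 0) (XT.lf (nat_lit 0) (nat_lit 1213912521) (nat_lit 380) (nat_lit 6261413889) (nat_lit 456) (nat_lit 6834648933) (nat_lit 81) (nat_lit 5) (nat_lit 86) (nat_lit 5) (nat_lit 87) (nat_lit 5) (nat_lit 317) (nat_lit 280) (nat_lit 183)) (XT.nd (nat_lit 78) (nat_lit 0) (nat_lit 0) (XT.lf (nat_lit 0) (nat_lit 7445768692) (nat_lit 380) (nat_lit 1945577791) (nat_lit 456) (nat_lit 5186560812) (nat_lit 81) (nat_lit 5) (nat_lit 86) (nat_lit 5) (nat_lit 87) (nat_lit 5) (nat_lit 318) (nat_lit 280) (nat_lit 182)) (XT.lf (nat_lit 0) (nat_lit 11373581777) (nat_lit 456) (nat_lit 1031136209) (nat_lit 76) (nat_lit 2448937353) (nat_lit 81) (nat_lit 5) (nat_lit 87) (nat_lit 5) (nat_lit 82) (nat_lit 5) (nat_lit 319) (nat_lit 280) (nat_lit 181))))) (XT.nd (nat_lit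 234) (nat_lit 304) (nat_lit 0) (XT.nd (nat_lit 78) (nat_lit 456) (nat_lit 0) (XT.lf (nat_lit 0) (nat_lit 5320156699) (nat_lit 380) (nat_lit 8150682295) (nat_lit 456) (nat_lit 1665209186) (nat_lit 76) (nat_lit 5) (nat_lit 81) (nat_lit 5) (nat_lit 82) (nat_lit 5) (nat_lit 320) (nat_lit 280) (nat_lit 180)) (XT.nd (nat_lit 78) (nat_lit 380) (nat_lit 0) (XT.lf (nat_lit 0) (nat_lit 195871447) (nat_lit 456) (nat_lit 3562992664) (nat_lit 76) (nat_lit 11668154010) (nat_lit 75) (nat_lit 5) (nat_lit 81) (nat_lit 5) (nat_lit 76) (nat_lit 5) (nat_lit 321) (nat_lit 280) (nat_lit 179)) (XT.lf (nat_lit 0) (nat_lit 2100630947) (nat_lit 456) (nat_lit 12832953005) (nat_lit 76) (nat_lit 792034818) (nat_lit 70) (nat_lit 5) (nat_lit 76) (nat_lit 5) (nat_lit 71) (nat_lit 5) (nat_lit 322) (nat_lit 280) (nat_lit 178)))) (XT.nd (nat_lit 78) (nat_lit 304) (nat_lit 0) (XT.lf (nat_lit 0) (nat_lit 4121982873) (nat_lit 456)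 (nat_lit 6471848341) (nat_lit 76) (nat_lit 5437597388) (nat_lit 70) (nat_lit 5) (nat_lit 76) (nat_lit 5) (nat_lit 71) (nat_lit 5) (nat_lit 323) (nat_lit 280) (nat_lit 177)) (XT.nd (nat_lit 78) (nat_lit 0) (nat_lit 0) (XT.lf (nat_lit 0) (nat_lit 64642741) (nat_lit 304) (nat_lit 6126262442) (nat_lit 380) (nat_lit 10155933295) (nat_lit 66) (nat_lit 5) (nat_lit 70) (nat_lit 5) (nat_lit 71) (nat_lit 5) (nat_lit 324) (nat_lit 280) (nat_lit 176)) (XT.lf (nat_lit 0) (nat_lit 6913350774) (nat_lit 304) (nat_lit 1460445558) (nat_lit 380) (nat_lit 8296389947) (nat_lit 66) (nat_lit 5) (nat_lit 70) (nat_lit 5) (nat_lit 71) (nat_lit 5) (nat_lit 325) (nat_lit 280) (nat_lit 175))))))) (XT.nd (nat_lit 858) (nat_lit 1140) (nat_lit 0) (XT.nd (nat_lit 390) (nat_lit 532) (nat_lit 0) (XT.nd (nat_lit 156) (nat_lit 380) (nat_lit 0) (XT.nd (nat_lit 78) (nat_lit 304) (nat_lit 0) (XT.lf (nat_lit 0) (nat_lit 10641242855)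 (nat_lit 380) (nat_lit 3084329084) (nat_lit 76) (nat_lit 3277122228) (nat_lit 66) (nat_lit 5) (nat_lit 71) (nat_lit 5) (nat_lit 67) (nat_lit 5) (nat_lit 326) (nat_lit 280) (nat_lit 174)) (XT.lf (nat_lit 0) (nat_lit 3832704775) (nat_lit 304) (nat_lit 9182602518) (nat_lit 380) (nat_lit 4328742953) (nat_lit 62) (nat_lit 5) (nat_lit 66) (nat_lit 5) (nat_lit 67) (nat_lit 5) (nat_lit 327) (nat_lit 280) (nat_lit 173))) (XT.nd (nat_lit 78) (nat_lit 380) (nat_lit 0) (XT.lf (nat_lit 0) (nat_lit 11004654244) (nat_lit 304) (nat_lit 4474595496) (nat_lit 380) (nat_lit 2215867475) (nat_lit 62) (nat_lit 5) (nat_lit 66) (nat_lit 5) (nat_lit 67) (nat_lit 5) (nat_lit 328) (nat_lit 280) (nat_lit 172)) (XT.nd (nat_lit 78) (nat_lit 76) (nat_lit 0) (XT.lf (nat_lit 0) (nat_lit 322006096) (nat_lit 304) (nat_lit 17689644152) (nat_lit 380) (nat_lit 45258774) (nat_lit 58) (nat_lit 5) (nat_lit 62) (nat_lit 5) (nat_lit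 63) (nat_lit 5) (nat_lit 329) (nat_lit 280) (nat_lit 171)) (XT.lf (nat_lit 0) (nat_lit 2248158216) (nat_lit 380) (nat_lit 10827394584) (nat_lit 76) (nat_lit 5350384436) (nat_lit 57) (nat_lit 5) (nat_lit 62) (nat_lit 5) (nat_lit 58) (nat_lit 5) (nat_lit 330) (nat_lit 280) (nat_lit 170))))) (XT.nd (nat_lit 234) (nat_lit 228) (nat_lit 0) (XT.nd (nat_lit 78) (nat_lit 304) (nat_lit 0) (XT.lf (nat_lit 0) (nat_lit 4597721996) (nat_lit 380) (nat_lit 3728483878) (nat_lit 76) (nat_lit 10480195920) (nat_lit 57) (nat_lit 5) (nat_lit 62) (nat_lit 5) (nat_lit 58) (nat_lit 5) (nat_lit 331) (nat_lit 280) (nat_lit 169)) (XT.nd (nat_lit 78) (nat_lit 0) (nat_lit 0) (XT.lf (nat_lit 0) (nat_lit 3639486671) (nat_lit 304) (nat_lit 3401867044) (nat_lit 380) (nat_lit 12156244928) (nat_lit 53) (nat_lit 5) (nat_lit 57) (nat_lit 5) (nat_lit 58) (nat_lit 5) (nat_lit 332) (nat_lit 280) (nat_lit 168)) (XT.lf (nat_lit 0)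 (nat_lit 9601124384) (nat_lit 380) (nat_lit 8326010856) (nat_lit 76) (nat_lit 1672136292) (nat_lit 53) (nat_lit 5) (nat_lit 58) (nat_lit 5) (nat_lit 54) (nat_lit 5) (nat_lit 333) (nat_lit 280) (nat_lit 167)))) (XT.nd (nat_lit 78) (nat_lit 228) (nat_lit 0) (XT.lf (nat_lit 0) (nat_lit 12260449481) (nat_lit 380) (nat_lit 925296318) (nat_lit 76) (nat_lit 6826590273) (nat_lit 53) (nat_lit 5) (nat_lit 58) (nat_lit 5) (nat_lit 54) (nat_lit 5) (nat_lit 334) (nat_lit 280) (nat_lit 166)) (XT.nd (nat_lit 78) (nat_lit 0) (nat_lit 0) (XT.lf (nat_lit 0) (nat_lit 6816207879) (nat_lit 228) (nat_lit 8238265545) (nat_lit 304) (nat_lit 5381695150) (nat_lit 50) (nat_lit 5) (nat_lit 53) (nat_lit 5) (nat_lit 54) (nat_lit 5) (nat_lit 335) (nat_lit 280) (nat_lit 165)) (XT.lf (nat_lit 0) (nat_lit 14794823940) (nat_lit 228) (nat_lit 3136408618) (nat_lit 304) (nat_lit 2941538967) (nat_lit 50) (nat_lit 5) (nat_lit 53)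 (nat_lit 5) (nat_lit 54) (nat_lit 5) (nat_lit 336) (nat_lit 280) (nat_lit 164)))))) (XT.nd (nat_lit 390) (nat_lit 532) (nat_lit 0) (XT.nd (nat_lit 156) (nat_lit 228) (nat_lit 0) (XT.nd (nat_lit 78) (nat_lit 76) (nat_lit 0) (XT.lf (nat_lit 0) (nat_lit 1688936837) (nat_lit 304) (nat_lit 19231797371) (nat_lit 380) (nat_lit 400967407) (nat_lit 46) (nat_lit 5) (nat_lit 50) (nat_lit 5) (nat_lit 51) (nat_lit 5) (nat_lit 337) (nat_lit 280) (nat_lit 163)) (XT.lf (nat_lit 0) (nat_lit 2255502192) (nat_lit 380) (nat_lit 12035866843) (nat_lit 76) (nat_lit 7489624958) (nat_lit 45) (nat_lit 5) (nat_lit 50) (nat_lit 5) (nat_lit 46) (nat_lit 5) (nat_lit 338) (nat_lit 280) (nat_lit 162))) (XT.nd (nat_lit 78) (nat_lit 228) (nat_lit 0) (XT.lf (nat_lit 0) (nat_lit 4973784470) (nat_lit 380) (nat_lit 4228689418) (nat_lit 76) (nat_lit 13051787180) (nat_lit 45) (nat_lit 5) (nat_lit 50) (nat_lit 5) (nat_lit 46) (nat_lit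 5) (nat_lit 339) (nat_lit 280) (nat_lit 161)) (XT.nd (nat_lit 78) (nat_lit 0) (nat_lit 0) (XT.lf (nat_lit 0) (nat_lit 3875060023) (nat_lit 228) (nat_lit 3926268367) (nat_lit 304) (nat_lit 14939586133) (nat_lit 42) (nat_lit 5) (nat_lit 45) (nat_lit 5) (nat_lit 46) (nat_lit 5) (nat_lit 340) (nat_lit 280) (nat_lit 160)) (XT.lf (nat_lit 0) (nat_lit 10761900125) (nat_lit 304) (nat_lit 10960595770) (nat_lit 76) (nat_lit 1518244827) (nat_lit 42) (nat_lit 5) (nat_lit 46) (nat_lit 5) (nat_lit 43) (nat_lit 5) (nat_lit 341) (nat_lit 280) (nat_lit 159))))) (XT.nd (nat_lit 234) (nat_lit 304) (nat_lit 0) (XT.nd (nat_lit 78) (nat_lit 228) (nat_lit 0) (XT.lf (nat_lit 0) (nat_lit 13841016618) (nat_lit 304) (nat_lit 2870057511) (nat_lit 76) (nat_lit 7043614379) (nat_lit 42) (nat_lit 5) (nat_lit 46) (nat_lit 5) (nat_lit 43) (nat_lit 5) (nat_lit 342) (nat_lit 280) (nat_lit 158)) (XT.nd (nat_lit 78) (nat_lit 0)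 (nat_lit 0) (XT.lf (nat_lit 0) (nat_lit 5559048432) (nat_lit 228) (nat_lit 11498015209) (nat_lit 304) (nat_lit 7225672460) (nat_lit 39) (nat_lit 5) (nat_lit 42) (nat_lit 5) (nat_lit 43) (nat_lit 5) (nat_lit 343) (nat_lit 280) (nat_lit 157)) (XT.lf (nat_lit 0) (nat_lit 14287359176) (nat_lit 228) (nat_lit 6102473378) (nat_lit 304) (nat_lit 4436202911) (nat_lit 39) (nat_lit 5) (nat_lit 42) (nat_lit 5) (nat_lit 43) (nat_lit 5) (nat_lit 344) (nat_lit 280) (nat_lit 156)))) (XT.nd (nat_lit 78) (nat_lit 304) (nat_lit 0) (XT.lf (nat_lit 0) (nat_lit 23265381628) (nat_lit 228) (nat_lit 548716037) (nat_lit 304) (nat_lit 1571807798) (nat_lit 39) (nat_lit 5) (nat_lit 42) (nat_lit 5) (nat_lit 43) (nat_lit 5) (nat_lit 345) (nat_lit 280) (nat_lit 155)) (XT.nd (nat_lit 78) (nat_lit 0) (nat_lit 0) (XT.lf (nat_lit 0) (nat_lit 1457694752) (nat_lit 304) (nat_lit 19356148560) (nat_lit 76) (nat_lit 5145164520) (nat_lit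 35) (nat_lit 5) (nat_lit 39) (nat_lit 5) (nat_lit 36) (nat_lit 5) (nat_lit 346) (nat_lit 280) (nat_lit 154)) (XT.lf (nat_lit 0) (nat_lit 4565305038) (nat_lit 304) (nat_lit 10950531281) (nat_lit 76) (nat_lit 11032451245) (nat_lit 35) (nat_lit 5) (nat_lit 39) (nat_lit 5) (nat_lit 36) (nat_lit 5) (nat_lit 347) (nat_lit 280) (nat_lit 153))))))))
noncomputable def xc169 : XT := (XT.nd (nat_lit 1716) (nat_lit 760) (nat_lit 0) (XT.nd (nat_lit 858) (nat_lit 532) (nat_lit 0) (XT.nd (nat_lit 390) (nat_lit 304) (nat_lit 0) (XT.nd (nat_lit 156) (nat_lit 152) (nat_lit 0) (XT.nd (nat_lit 78) (nat_lit 228) (nat_lit 0) (XT.lf (nat_lit 0) (nat_lit 7758140200) (nat_lit 304) (nat_lit 2304469409) (nat_lit 76) (nat_lit 17092891330) (nat_lit 35) (nat_lit 5) (nat_lit 39) (nat_lit 5) (nat_lit 36) (nat_lit 5) (nat_lit 348) (nat_lit 280) (nat_lit 152)) (XT.lf (nat_lit 0) (nat_lit 6720737667) (nat_lit 228) (nat_lit 4382856265)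 (nat_lit 304) (nat_lit 16675646480) (nat_lit 32) (nat_lit 5) (nat_lit 35) (nat_lit 5) (nat_lit 36) (nat_lit 5) (nat_lit 349) (nat_lit 280) (nat_lit 151))) (XT.nd (nat_lit 78) (nat_lit 152) (nat_lit 0) (XT.lf (nat_lit 0) (nat_lit 14579329659) (nat_lit 304) (nat_lit 12382868443) (nat_lit 76) (nat_lit 1458610694) (nat_lit 32) (nat_lit 5) (nat_lit 36) (nat_lit 5) (nat_lit 33) (nat_lit 5) (nat_lit 350) (nat_lit 280) (nat_lit 150)) (XT.nd (nat_lit 78) (nat_lit 152) (nat_lit 0) (XT.lf (nat_lit 0) (nat_lit 18195268841) (nat_lit 304) (nat_lit 3501505283) (nat_lit 76) (nat_lit 7383786027) (nat_lit 32) (nat_lit 5) (nat_lit 36) (nat_lit 5) (nat_lit 33) (nat_lit 5) (nat_lit 351) (nat_lit 280) (nat_lit 149)) (XT.lf (nat_lit 0) (nat_lit 5747634903) (nat_lit 152) (nat_lit 16220055220) (nat_lit 228) (nat_lit 7790987262) (nat_lit 30) (nat_lit 5) (nat_lit 32) (nat_lit 5) (nat_lit 33) (nat_lit 5) (nat_lit 352)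 (nat_lit 280) (nat_lit 148))))) (XT.nd (nat_lit 234) (nat_lit 0) (nat_lit 0) (XT.nd (nat_lit 78) (nat_lit 304) (nat_lit 0) (XT.lf (nat_lit 0) (nat_lit 15335311882) (nat_lit 152) (nat_lit 10546192690) (nat_lit 228) (nat_lit 4574800014) (nat_lit 30) (nat_lit 5) (nat_lit 32) (nat_lit 5) (nat_lit 33) (nat_lit 5) (nat_lit 353) (nat_lit 280) (nat_lit 147)) (XT.nd (nat_lit 78) (nat_lit 304) (nat_lit 0) (XT.lf (nat_lit 0) (nat_lit 25200216412) (nat_lit 152) (nat_lit 4705587129) (nat_lit 228) (nat_lit 1269277643) (nat_lit 30) (nat_lit 5) (nat_lit 32) (nat_lit 5) (nat_lit 33) (nat_lit 5) (nat_lit 354) (nat_lit 280) (nat_lit 146)) (XT.lf (nat_lit 0) (nat_lit 2133509673) (nat_lit 304) (nat_lit 28444277892) (nat_lit 76) (nat_lit 1335836601) (nat_lit 26) (nat_lit 5) (nat_lit 30) (nat_lit 5) (nat_lit 27) (nat_lit 5) (nat_lit 355) (nat_lit 280) (nat_lit 145)))) (XT.nd (nat_lit 78) (nat_lit 0) (nat_lit 0) (XT.lf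 (nat_lit 0) (nat_lit 5713652030) (nat_lit 304) (nat_lit 19423231771) (nat_lit 76) (nat_lit 7534050752) (nat_lit 26) (nat_lit 5) (nat_lit 30) (nat_lit 5) (nat_lit 27) (nat_lit 5) (nat_lit 356) (nat_lit 280) (nat_lit 144)) (XT.nd (nat_lit 78) (nat_lit 0) (nat_lit 0) (XT.lf (nat_lit 0) (nat_lit 9394655828) (nat_lit 304) (nat_lit 10141579937) (nat_lit 76) (nat_lit 13914936041) (nat_lit 26) (nat_lit 5) (nat_lit 30) (nat_lit 5) (nat_lit 27) (nat_lit 5) (nat_lit 357) (nat_lit 280) (nat_lit 143)) (XT.lf (nat_lit 0) (nat_lit 13179737477) (nat_lit 304) (nat_lit 591212209) (nat_lit 76) (nat_lit 20484068001) (nat_lit 26) (nat_lit 5) (nat_lit 30) (nat_lit 5) (nat_lit 27) (nat_lit 5) (nat_lit 358) (nat_lit 280) (nat_lit 142)))))) (XT.nd (nat_lit 390) (nat_lit 228) (nat_lit 0) (XT.nd (nat_lit 156) (nat_lit 152) (nat_lit 0) (XT.nd (nat_lit 78) (nat_lit 0) (nat_lit 0) (XT.lf (nat_lit 0) (nat_lit 9420035209)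 (nat_lit 152) (nat_lit 7742720262) (nat_lit 228) (nat_lit 17917702580) (nat_lit 24) (nat_lit 5) (nat_lit 26) (nat_lit 5) (nat_lit 27) (nat_lit 5) (nat_lit 359) (nat_lit 280) (nat_lit 141)) (XT.lf (nat_lit 0) (nat_lit 19734381814) (nat_lit 152) (nat_lit 1530774708) (nat_lit 228) (nat_lit 14665518642) (nat_lit 24) (nat_lit 5) (nat_lit 26) (nat_lit 5) (nat_lit 27) (nat_lit 5) (nat_lit 360) (nat_lit 280) (nat_lit 140))) (XT.nd (nat_lit 78) (nat_lit 152) (nat_lit 0) (XT.lf (nat_lit 0) (nat_lit 25531488113) (nat_lit 228) (nat_lit 6504271021) (nat_lit 76) (nat_lit 4769423914) (nat_lit 24) (nat_lit 5) (nat_lit 27) (nat_lit 5) (nat_lit 25) (nat_lit 5) (nat_lit 361) (nat_lit 280) (nat_lit 139)) (XT.nd (nat_lit 78) (nat_lit 0) (nat_lit 0) (XT.lf (nat_lit 0) (nat_lit 3523132587) (nat_lit 152) (nat_lit 26445941346) (nat_lit 228) (nat_lit 7735564030) (nat_lit 22) (nat_lit 5) (nat_lit 24) (nat_lit 5) (nat_lit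 25) (nat_lit 5) (nat_lit 362) (nat_lit 280) (nat_lit 138)) (XT.lf (nat_lit 0) (nat_lit 13975805233) (nat_lit 152) (nat_lit 20623986389) (nat_lit 228) (nat_lit 4029494211) (nat_lit 22) (nat_lit 5) (nat_lit 24) (nat_lit 5) (nat_lit 25) (nat_lit 5) (nat_lit 363) (nat_lit 280) (nat_lit 137))))) (XT.nd (nat_lit 234) (nat_lit 0) (nat_lit 0) (XT.nd (nat_lit 78) (nat_lit 228) (nat_lit 0) (XT.lf (nat_lit 0) (nat_lit 24733432575) (nat_lit 152) (nat_lit 14630487502) (nat_lit 228) (nat_lit 217927550) (nat_lit 22) (nat_lit 5) (nat_lit 24) (nat_lit 5) (nat_lit 25) (nat_lit 5) (nat_lit 364) (nat_lit 280) (nat_lit 136)) (XT.nd (nat_lit 78) (nat_lit 152) (nat_lit 0) (XT.lf (nat_lit 0) (nat_lit 3630217991) (nat_lit 228) (nat_lit 4793331572) (nat_lit 76) (nat_lit 32138538405) (nat_lit 21) (nat_lit 5) (nat_lit 24) (nat_lit 5) (nat_lit 22) (nat_lit 5) (nat_lit 365) (nat_lit 280) (nat_lit 135)) (XT.lf (nat_lit 0)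 (nat_lit 5663519066) (nat_lit 152) (nat_lit 1975095591) (nat_lit 228) (nat_lit 33931588910) (nat_lit 19) (nat_lit 5) (nat_lit 21) (nat_lit 5) (nat_lit 22) (nat_lit 5) (nat_lit 366) (nat_lit 280) (nat_lit 134)))) (XT.nd (nat_lit 78) (nat_lit 0) (nat_lit 0) (XT.lf (nat_lit 0) (nat_lit 11855797544) (nat_lit 228) (nat_lit 26128413557) (nat_lit 76) (nat_lit 4621703644) (nat_lit 19) (nat_lit 5) (nat_lit 22) (nat_lit 5) (nat_lit 20) (nat_lit 5) (nat_lit 367) (nat_lit 280) (nat_lit 133)) (XT.nd (nat_lit 78) (nat_lit 0) (nat_lit 0) (XT.lf (nat_lit 0) (nat_lit 16213994602) (nat_lit 228) (nat_lit 16084405566) (nat_lit 76) (nat_lit 11373870038) (nat_lit 19) (nat_lit 5) (nat_lit 22) (nat_lit 5) (nat_lit 20) (nat_lit 5) (nat_lit 368) (nat_lit 280) (nat_lit 132)) (XT.lf (nat_lit 0) (nat_lit 20698028134) (nat_lit 228) (nat_lit 5746898382) (nat_lit 76) (nat_lit 18325844768) (nat_lit 19) (nat_lit 5) (nat_lit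 22) (nat_lit 5) (nat_lit 20) (nat_lit 5) (nat_lit 369) (nat_lit 280) (nat_lit 131))))))) (XT.nd (nat_lit 858) (nat_lit 304) (nat_lit 0) (XT.nd (nat_lit 390) (nat_lit 228) (nat_lit 0) (XT.nd (nat_lit 156) (nat_lit 76) (nat_lit 0) (XT.nd (nat_lit 78) (nat_lit 0) (nat_lit 0) (XT.lf (nat_lit 0) (nat_lit 4990523861) (nat_lit 152) (nat_lit 20369264337) (nat_lit 228) (nat_lit 20541150484) (nat_lit 17) (nat_lit 5) (nat_lit 19) (nat_lit 5) (nat_lit 20) (nat_lit 5) (nat_lit 370) (nat_lit 280) (nat_lit 130)) (XT.lf (nat_lit 0) (nat_lit 16160355749) (nat_lit 152) (nat_lit 14054377832) (nat_lit 228) (nat_lit 16848684780) (nat_lit 17) (nat_lit 5) (nat_lit 19) (nat_lit 5) (nat_lit 20) (nat_lit 5) (nat_lit 371) (nat_lit 280) (nat_lit 129))) (XT.nd (nat_lit 78) (nat_lit 76) (nat_lit 0) (XT.lf (nat_lit 0) (nat_lit 27657982781) (nat_lit 152) (nat_lit 7552781544) (nat_lit 228) (nat_lit 13050152017) (nat_lit 17)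 (nat_lit 5) (nat_lit 19) (nat_lit 5) (nat_lit 20) (nat_lit 5) (nat_lit 372) (nat_lit 280) (nat_lit 128)) (XT.nd (nat_lit 78) (nat_lit 76) (nat_lit 0) (XT.lf (nat_lit 0) (nat_lit 39493451428) (nat_lit 152) (nat_lit 858794467) (nat_lit 228) (nat_lit 9142233089) (nat_lit 17) (nat_lit 5) (nat_lit 19) (nat_lit 5) (nat_lit 20) (nat_lit 5) (nat_lit 373) (nat_lit 280) (nat_lit 127)) (XT.lf (nat_lit 0) (nat_lit 870916883) (nat_lit 76) (nat_lit 44839122794) (nat_lit 152) (nat_lit 5053153415) (nat_lit 16) (nat_lit 5) (nat_lit 17) (nat_lit 5) (nat_lit 18) (nat_lit 4) (nat_lit 374) (nat_lit 280) (nat_lit 126))))) (XT.nd (nat_lit 234) (nat_lit 152) (nat_lit 0) (XT.nd (nat_lit 78) (nat_lit 76) (nat_lit 0) (XT.lf (nat_lit 0) (nat_lit 12258435695) (nat_lit 76) (nat_lit 39075275485) (nat_lit 152) (nat_lit 733109555) (nat_lit 16) (nat_lit 5) (nat_lit 17) (nat_lit 5) (nat_lit 18) (nat_lit 4) (nat_lit 375) (nat_lit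 280) (nat_lit 125)) (XT.nd (nat_lit 78) (nat_lit 0) (nat_lit 0) (XT.lf (nat_lit 0) (nat_lit 3639823344) (nat_lit 152) (nat_lit 29464513620) (nat_lit 76) (nat_lit 20304280208) (nat_lit 15) (nat_lit 5) (nat_lit 17) (nat_lit 5) (nat_lit 16) (nat_lit 5) (nat_lit 376) (nat_lit 280) (nat_lit 124)) (XT.lf (nat_lit 0) (nat_lit 8125142193) (nat_lit 152) (nat_lit 18824197066) (nat_lit 76) (nat_lit 27841238391) (nat_lit 15) (nat_lit 5) (nat_lit 17) (nat_lit 5) (nat_lit 16) (nat_lit 5) (nat_lit 377) (nat_lit 280) (nat_lit 123)))) (XT.nd (nat_lit 78) (nat_lit 152) (nat_lit 0) (XT.lf (nat_lit 0) (nat_lit 12741071808) (nat_lit 152) (nat_lit 7871090915) (nat_lit 76) (nat_lit 35601958393) (nat_lit 15) (nat_lit 5) (nat_lit 17) (nat_lit 5) (nat_lit 16) (nat_lit 5) (nat_lit 378) (nat_lit 280) (nat_lit 122)) (XT.nd (nat_lit 78) (nat_lit 0) (nat_lit 0) (XT.lf (nat_lit 0) (nat_lit 3472129255) (nat_lit 152) (nat_lit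 14052892501) (nat_lit 228) (nat_lit 40154468399) (nat_lit 13) (nat_lit 5) (nat_lit 15) (nat_lit 5) (nat_lit 16) (nat_lit 5) (nat_lit 379) (nat_lit 280) (nat_lit 121)) (XT.lf (nat_lit 0) (nat_lit 15310823873) (nat_lit 152) (nat_lit 7217367467) (nat_lit 228) (nat_lit 36658363275) (nat_lit 13) (nat_lit 5) (nat_lit 15) (nat_lit 5) (nat_lit 16) (nat_lit 5) (nat_lit 380) (nat_lit 280) (nat_lit 120)))))) (XT.nd (nat_lit 390) (nat_lit 228) (nat_lit 0) (XT.nd (nat_lit 156) (nat_lit 76) (nat_lit 0) (XT.nd (nat_lit 78) (nat_lit 0) (nat_lit 0) (XT.lf (nat_lit 0) (nat_lit 27498687285) (nat_lit 152) (nat_lit 179097417) (nat_lit 228) (nat_lit 33061161672) (nat_lit 13) (nat_lit 5) (nat_lit 15) (nat_lit 5) (nat_lit 16) (nat_lit 5) (nat_lit 381) (nat_lit 280) (nat_lit 119)) (XT.lf (nat_lit 0) (nat_lit 33046244076) (nat_lit 228) (nat_lit 22359595400) (nat_lit 76) (nat_lit 6930144136) (nat_lit 13) (nat_lit 5)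 (nat_lit 16) (nat_lit 5) (nat_lit 14) (nat_lit 4) (nat_lit 382) (nat_lit 280) (nat_lit 118))) (XT.nd (nat_lit 78) (nat_lit 76) (nat_lit 0) (XT.lf (nat_lit 0) (nat_lit 38574048885) (nat_lit 228) (nat_lit 11160020833) (nat_lit 76) (nat_lit 14246918427) (nat_lit 13) (nat_lit 5) (nat_lit 16) (nat_lit 5) (nat_lit 14) (nat_lit 4) (nat_lit 383) (nat_lit 280) (nat_lit 117)) (XT.nd (nat_lit 78) (nat_lit 0) (nat_lit 0) (XT.lf (nat_lit 0) (nat_lit 377335413) (nat_lit 76) (nat_lit 43890599419) (nat_lit 152) (nat_lit 21407405353) (nat_lit 12) (nat_lit 5) (nat_lit 13) (nat_lit 5) (nat_lit 14) (nat_lit 4) (nat_lit 384) (nat_lit 280) (nat_lit 116)) (XT.lf (nat_lit 0) (nat_lit 12484067700) (nat_lit 76) (nat_lit 37757929251) (nat_lit 152) (nat_lit 17175249692) (nat_lit 12) (nat_lit 5) (nat_lit 13) (nat_lit 5) (nat_lit 14) (nat_lit 4) (nat_lit 385) (nat_lit 280) (nat_lit 115))))) (XT.nd (nat_lit 234) (nat_lit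 228) (nat_lit 0) (XT.nd (nat_lit 78) (nat_lit 0) (nat_lit 0) (XT.lf (nat_lit 0) (nat_lit 24948648427) (nat_lit 76) (nat_lit 31443394897) (nat_lit 152) (nat_lit 12819468606) (nat_lit 12) (nat_lit 5) (nat_lit 13) (nat_lit 5) (nat_lit 14) (nat_lit 4) (nat_lit 386) (nat_lit 280) (nat_lit 114)) (XT.nd (nat_lit 78) (nat_lit 0) (nat_lit 0) (XT.lf (nat_lit 0) (nat_lit 37781968975) (nat_lit 76) (nat_lit 24941478804) (nat_lit 152) (nat_lit 8336256072) (nat_lit 12) (nat_lit 5) (nat_lit 13) (nat_lit 5) (nat_lit 14) (nat_lit 4) (nat_lit 387) (nat_lit 280) (nat_lit 113)) (XT.lf (nat_lit 0) (nat_lit 50995242926) (nat_lit 76) (nat_lit 18246499685) (nat_lit 152) (nat_lit 3721694720) (nat_lit 12) (nat_lit 5) (nat_lit 13) (nat_lit 5) (nat_lit 14) (nat_lit 4) (nat_lit 388) (nat_lit 280) (nat_lit 112)))) (XT.nd (nat_lit 78) (nat_lit 152) (nat_lit 0) (XT.lf (nat_lit 0) (nat_lit 1008182775) (nat_lit 152) (nat_lit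 10334244115) (nat_lit 76) (nat_lit 63581652415) (nat_lit 11) (nat_lit 5) (nat_lit 13) (nat_lit 5) (nat_lit 12) (nat_lit 5) (nat_lit 389) (nat_lit 280) (nat_lit 111)) (XT.nd (nat_lit 32136) (nat_lit 0) (nat_lit 12388) (XT.lf (nat_lit 0) (nat_lit 1639041501) (nat_lit 152) (nat_lit 4178959204) (nat_lit 228) (nat_lit 71124052871) (nat_lit 9) (nat_lit 5) (nat_lit 11) (nat_lit 5) (nat_lit 12) (nat_lit 5) (nat_lit 390) (nat_lit 280) (nat_lit 110)) (XT.lf (nat_lit 0) (nat_lit 994349911) (nat_lit 0) (nat_lit 994349911) (nat_lit 836) (nat_lit 2209697934) (nat_lit 172) (nat_lit 5) (nat_lit 172) (nat_lit 3) (nat_lit 183) (nat_lit 3) (nat_lit 281) (nat_lit 281) (nat_lit 218))))))))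
noncomputable def xc170 : XT := (XT.nd (nat_lit 1716) (nat_lit 4484) (nat_lit 0) (XT.nd (nat_lit 858) (nat_lit 2736) (nat_lit 0) (XT.nd (nat_lit 390) (nat_lit 0) (nat_lit 0) (XT.nd (nat_lit 156) (nat_lit 836) (nat_lit 0) (XT.nd (nat_lit 78) (nat_lit 0) (nat_lit 0) (XT.lf (nat_lit 0) (nat_lit 4980372948) (nat_lit 836) (nat_lit 3003398364) (nat_lit 912) (nat_lit 507416817) (nat_lit 172) (nat_lit 5) (nat_lit 183) (nat_lit 3) (nat_lit 184) (nat_lit 5) (nat_lit 282) (nat_lit 281) (nat_lit 217)) (XT.lf (nat_lit 76) (nat_lit 473272839) (nat_lit 0) (nat_lit 5527957410) (nat_lit 912) (nat_lit 2587675656) (nat_lit 173) (nat_lit 5) (nat_lit 172) (nat_lit 5) (nat_lit 184) (nat_lit 5) (nat_lit 283) (nat_lit 281) (nat_lit 216))) (XT.nd (nat_lit 78) (nat_lit 836) (nat_lit 0) (XT.lf (nat_lit 76) (nat_lit 4096291953) (nat_lit 0) (nat_lit 2951178935) (nat_lit 912) (nat_lit 1642365118) (nat_lit 173) (nat_lit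 5) (nat_lit 172) (nat_lit 5) (nat_lit 184) (nat_lit 5) (nat_lit 284) (nat_lit 281) (nat_lit 215)) (XT.nd (nat_lit 78) (nat_lit 836) (nat_lit 0) (XT.lf (nat_lit 76) (nat_lit 7809051207) (nat_lit 0) (nat_lit 281512768) (nat_lit 912) (nat_lit 704386003) (nat_lit 173) (nat_lit 5) (nat_lit 172) (nat_lit 5) (nat_lit 184) (nat_lit 5) (nat_lit 285) (nat_lit 281) (nat_lit 214)) (XT.lf (nat_lit 0) (nat_lit 273358004) (nat_lit 912) (nat_lit 6165461664) (nat_lit 988) (nat_lit 2463933275) (nat_lit 161) (nat_lit 5) (nat_lit 173) (nat_lit 5) (nat_lit 174) (nat_lit 5) (nat_lit 286) (nat_lit 281) (nat_lit 213))))) (XT.nd (nat_lit 234) (nat_lit 0) (nat_lit 76) (XT.nd (nat_lit 78) (nat_lit 0) (nat_lit 0) (XT.lf (nat_lit 0) (nat_lit 1246086433) (nat_lit 912) (nat_lit 2451204844) (nat_lit 988) (nat_lit 5317004957) (nat_lit 161) (nat_lit 5) (nat_lit 173) (nat_lit 5) (nat_lit 174) (nat_lit 5) (nat_lit 287) (nat_lit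 281) (nat_lit 212)) (XT.nd (nat_lit 78) (nat_lit 0) (nat_lit 76) (XT.lf (nat_lit 76) (nat_lit 1381792397) (nat_lit 0) (nat_lit 847417138) (nat_lit 988) (nat_lit 6900646454) (nat_lit 162) (nat_lit 5) (nat_lit 161) (nat_lit 5) (nat_lit 174) (nat_lit 5) (nat_lit 288) (nat_lit 281) (nat_lit 211)) (XT.lf (nat_lit 0) (nat_lit 3255685710) (nat_lit 912) (nat_lit 3909044424) (nat_lit 988) (nat_lit 2083840068) (nat_lit 162) (nat_lit 5) (nat_lit 174) (nat_lit 5) (nat_lit 175) (nat_lit 5) (nat_lit 289) (nat_lit 281) (nat_lit 210)))) (XT.nd (nat_lit 78) (nat_lit 0) (nat_lit 0) (XT.lf (nat_lit 76) (nat_lit 17073110) (nat_lit 0) (nat_lit 4274137699) (nat_lit 988) (nat_lit 5080387829) (nat_lit 163) (nat_lit 5) (nat_lit 162) (nat_lit 5) (nat_lit 175) (nat_lit 5) (nat_lit 290) (nat_lit 281) (nat_lit 209)) (XT.nd (nat_lit 78) (nat_lit 0) (nat_lit 76) (XT.lf (nat_lit 76) (nat_lit 4121286876) (nat_lit 0) (nat_lit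 1246380727) (nat_lit 988) (nat_lit 4130451852) (nat_lit 163) (nat_lit 5) (nat_lit 162) (nat_lit 5) (nat_lit 175) (nat_lit 5) (nat_lit 291) (nat_lit 281) (nat_lit 208)) (XT.lf (nat_lit 0) (nat_lit 6465760895) (nat_lit 912) (nat_lit 1318095671) (nat_lit 988) (nat_lit 1844993717) (nat_lit 163) (nat_lit 5) (nat_lit 175) (nat_lit 5) (nat_lit 176) (nat_lit 5) (nat_lit 292) (nat_lit 281) (nat_lit 207)))))) (XT.nd (nat_lit 390) (nat_lit 1976) (nat_lit 0) (XT.nd (nat_lit 156) (nat_lit 912) (nat_lit 0) (XT.nd (nat_lit 78) (nat_lit 0) (nat_lit 0) (XT.lf (nat_lit 76) (nat_lit 2886693694) (nat_lit 0) (nat_lit 4722372919) (nat_lit 988) (nat_lit 2154160244) (nat_lit 164) (nat_lit 5) (nat_lit 163) (nat_lit 5) (nat_lit 176) (nat_lit 5) (nat_lit 293) (nat_lit 281) (nat_lit 206)) (XT.lf (nat_lit 76) (nat_lit 7225140500) (nat_lit 0) (nat_lit 1547644517) (nat_lit 988) (nat_lit 1129355541) (nat_lit 164) (nat_lit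 5) (nat_lit 163) (nat_lit 5) (nat_lit 176) (nat_lit 5) (nat_lit 294) (nat_lit 281) (nat_lit 205))) (XT.nd (nat_lit 78) (nat_lit 988) (nat_lit 0) (XT.lf (nat_lit 76) (nat_lit 1644158112) (nat_lit 0) (nat_lit 8333284805) (nat_lit 988) (nat_lit 67684549) (nat_lit 165) (nat_lit 5) (nat_lit 164) (nat_lit 5) (nat_lit 177) (nat_lit 5) (nat_lit 295) (nat_lit 281) (nat_lit 204)) (XT.nd (nat_lit 78) (nat_lit 0) (nat_lit 0) (XT.lf (nat_lit 0) (nat_lit 1022349558) (nat_lit 988) (nat_lit 4087512228) (nat_lit 1064) (nat_lit 5081832107) (nat_lit 151) (nat_lit 5) (nat_lit 164) (nat_lit 5) (nat_lit 165) (nat_lit 5) (nat_lit 296) (nat_lit 281) (nat_lit 203)) (XT.lf (nat_lit 76) (nat_lit 341641933) (nat_lit 0) (nat_lit 1780033851) (nat_lit 1064) (nat_lit 8221702162) (nat_lit 152) (nat_lit 5) (nat_lit 151) (nat_lit 5) (nat_lit 165) (nat_lit 5) (nat_lit 297) (nat_lit 281) (nat_lit 202))))) (XT.nd (nat_lit 234)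 (nat_lit 1064) (nat_lit 0) (XT.nd (nat_lit 78) (nat_lit 988) (nat_lit 0) (XT.lf (nat_lit 0) (nat_lit 3286792547) (nat_lit 988) (nat_lit 5547561177) (nat_lit 76) (nat_lit 1664351450) (nat_lit 152) (nat_lit 5) (nat_lit 165) (nat_lit 5) (nat_lit 153) (nat_lit 5) (nat_lit 298) (nat_lit 281) (nat_lit 201)) (XT.nd (nat_lit 78) (nat_lit 988) (nat_lit 0) (XT.lf (nat_lit 0) (nat_lit 4480475644) (nat_lit 988) (nat_lit 997172720) (nat_lit 76) (nat_lit 5181310200) (nat_lit 152) (nat_lit 5) (nat_lit 165) (nat_lit 5) (nat_lit 153) (nat_lit 5) (nat_lit 299) (nat_lit 281) (nat_lit 200)) (XT.lf (nat_lit 0) (nat_lit 3743566667) (nat_lit 988) (nat_lit 1979076113) (nat_lit 1064) (nat_lit 5101069126) (nat_lit 139) (nat_lit 5) (nat_lit 152) (nat_lit 5) (nat_lit 153) (nat_lit 5) (nat_lit 300) (nat_lit 281) (nat_lit 199)))) (XT.nd (nat_lit 78) (nat_lit 1064) (nat_lit 0) (XT.lf (nat_lit 0) (nat_lit 7005080038) (nat_lit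 1064) (nat_lit 2381665624) (nat_lit 76) (nat_lit 1606642476) (nat_lit 139) (nat_lit 5) (nat_lit 153) (nat_lit 5) (nat_lit 140) (nat_lit 5) (nat_lit 301) (nat_lit 281) (nat_lit 198)) (XT.nd (nat_lit 78) (nat_lit 0) (nat_lit 0) (XT.lf (nat_lit 0) (nat_lit 2467078036) (nat_lit 1064) (nat_lit 5880106409) (nat_lit 1140) (nat_lit 2820402780) (nat_lit 125) (nat_lit 5) (nat_lit 139) (nat_lit 5) (nat_lit 140) (nat_lit 5) (nat_lit 302) (nat_lit 281) (nat_lit 197)) (XT.lf (nat_lit 0) (nat_lit 7491057307) (nat_lit 1064) (nat_lit 2240890032) (nat_lit 1140) (nat_lit 1615059485) (nat_lit 125) (nat_lit 5) (nat_lit 139) (nat_lit 5) (nat_lit 140) (nat_lit 5) (nat_lit 303) (nat_lit 281) (nat_lit 196))))))) (XT.nd (nat_lit 858) (nat_lit 1900) (nat_lit 0) (XT.nd (nat_lit 390) (nat_lit 1520) (nat_lit 0) (XT.nd (nat_lit 156) (nat_lit 456) (nat_lit 0) (XT.nd (nat_lit 78) (nat_lit 76) (nat_lit 0) (XT.lf (nat_lit 0)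 (nat_lit 1122139682) (nat_lit 532) (nat_lit 10040391418) (nat_lit 608) (nat_lit 369214036) (nat_lit 118) (nat_lit 5) (nat_lit 125) (nat_lit 5) (nat_lit 126) (nat_lit 5) (nat_lit 304) (nat_lit 281) (nat_lit 195)) (XT.lf (nat_lit 0) (nat_lit 936845263) (nat_lit 608) (nat_lit 5443101558) (nat_lit 76) (nat_lit 5340655739) (nat_lit 117) (nat_lit 5) (nat_lit 125) (nat_lit 5) (nat_lit 118) (nat_lit 5) (nat_lit 305) (nat_lit 281) (nat_lit 194))) (XT.nd (nat_lit 78) (nat_lit 456) (nat_lit 0) (XT.lf (nat_lit 0) (nat_lit 2254436354) (nat_lit 608) (nat_lit 350190446) (nat_lit 76) (nat_lit 9311055109) (nat_lit 117) (nat_lit 5) (nat_lit 125) (nat_lit 5) (nat_lit 118) (nat_lit 5) (nat_lit 306) (nat_lit 281) (nat_lit 193)) (XT.nd (nat_lit 78) (nat_lit 0) (nat_lit 0) (XT.lf (nat_lit 0) (nat_lit 3652557853) (nat_lit 532) (nat_lit 7154461822) (nat_lit 76) (nat_lit 1308421158) (nat_lit 111) (nat_lit 5) (nat_lit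 118) (nat_lit 5) (nat_lit 112) (nat_lit 5) (nat_lit 307) (nat_lit 281) (nat_lit 192)) (XT.lf (nat_lit 0) (nat_lit 5102749776) (nat_lit 532) (nat_lit 1927091318) (nat_lit 76) (nat_lit 5291103236) (nat_lit 111) (nat_lit 5) (nat_lit 118) (nat_lit 5) (nat_lit 112) (nat_lit 5) (nat_lit 308) (nat_lit 281) (nat_lit 191))))) (XT.nd (nat_lit 234) (nat_lit 532) (nat_lit 0) (XT.nd (nat_lit 78) (nat_lit 456) (nat_lit 0) (XT.lf (nat_lit 0) (nat_lit 3507244518) (nat_lit 532) (nat_lit 3104244044) (nat_lit 608) (nat_lit 5920727124) (nat_lit 104) (nat_lit 5) (nat_lit 111) (nat_lit 5) (nat_lit 112) (nat_lit 5) (nat_lit 309) (nat_lit 281) (nat_lit 190)) (XT.nd (nat_lit 78) (nat_lit 456) (nat_lit 0) (XT.lf (nat_lit 0) (nat_lit 8175868289) (nat_lit 608) (nat_lit 3633066255) (nat_lit 76) (nat_lit 940631692) (nat_lit 104) (nat_lit 5) (nat_lit 112) (nat_lit 5) (nat_lit 105) (nat_lit 5) (nat_lit 310) (nat_lit 281)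 (nat_lit 189)) (XT.lf (nat_lit 0) (nat_lit 1908937465) (nat_lit 456) (nat_lit 7909558806) (nat_lit 532) (nat_lit 3154052413) (nat_lit 98) (nat_lit 5) (nat_lit 104) (nat_lit 5) (nat_lit 105) (nat_lit 5) (nat_lit 311) (nat_lit 281) (nat_lit 188)))) (XT.nd (nat_lit 78) (nat_lit 532) (nat_lit 0) (XT.lf (nat_lit 0) (nat_lit 7673680269) (nat_lit 456) (nat_lit 3855986106) (nat_lit 532) (nat_lit 1672025742) (nat_lit 98) (nat_lit 5) (nat_lit 104) (nat_lit 5) (nat_lit 105) (nat_lit 5) (nat_lit 312) (nat_lit 281) (nat_lit 187)) (XT.nd (nat_lit 78) (nat_lit 76) (nat_lit 0) (XT.lf (nat_lit 0) (nat_lit 155602276) (nat_lit 456) (nat_lit 13124211917) (nat_lit 532) (nat_lit 158314347) (nat_lit 92) (nat_lit 5) (nat_lit 98) (nat_lit 5) (nat_lit 99) (nat_lit 5) (nat_lit 313) (nat_lit 281) (nat_lit 186)) (XT.lf (nat_lit 0) (nat_lit 1451216311) (nat_lit 532) (nat_lit 7627360341) (nat_lit 76) (nat_lit 4600390374)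 (nat_lit 91) (nat_lit 5) (nat_lit 98) (nat_lit 5) (nat_lit 92) (nat_lit 5) (nat_lit 314) (nat_lit 281) (nat_lit 185)))))) (XT.nd (nat_lit 390) (nat_lit 1140) (nat_lit 0) (XT.nd (nat_lit 156) (nat_lit 380) (nat_lit 0) (XT.nd (nat_lit 78) (nat_lit 380) (nat_lit 0) (XT.lf (nat_lit 0) (nat_lit 3089530429) (nat_lit 532) (nat_lit 1821800494) (nat_lit 76) (nat_lit 9016186231) (nat_lit 91) (nat_lit 5) (nat_lit 98) (nat_lit 5) (nat_lit 92) (nat_lit 5) (nat_lit 315) (nat_lit 281) (nat_lit 184)) (XT.lf (nat_lit 0) (nat_lit 4223156912) (nat_lit 380) (nat_lit 578587481) (nat_lit 456) (nat_lit 9381079499) (nat_lit 86) (nat_lit 5) (nat_lit 91) (nat_lit 5) (nat_lit 92) (nat_lit 5) (nat_lit 316) (nat_lit 281) (nat_lit 183))) (XT.nd (nat_lit 78) (nat_lit 380) (nat_lit 0) (XT.lf (nat_lit 0) (nat_lit 6605679043) (nat_lit 456) (nat_lit 4013452184) (nat_lit 76) (nat_lit 3825489356) (nat_lit 86) (nat_lit 5) (nat_lit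 92) (nat_lit 5) (nat_lit 87) (nat_lit 5) (nat_lit 317) (nat_lit 281) (nat_lit 182)) (XT.nd (nat_lit 78) (nat_lit 0) (nat_lit 0) (XT.lf (nat_lit 0) (nat_lit 2129990511) (nat_lit 380) (nat_lit 6344836614) (nat_lit 456) (nat_lit 6239151358) (nat_lit 81) (nat_lit 5) (nat_lit 86) (nat_lit 5) (nat_lit 87) (nat_lit 5) (nat_lit 318) (nat_lit 281) (nat_lit 181)) (XT.lf (nat_lit 0) (nat_lit 8523181184) (nat_lit 380) (nat_lit 1902566784) (nat_lit 456) (nat_lit 4564937206) (nat_lit 81) (nat_lit 5) (nat_lit 86) (nat_lit 5) (nat_lit 87) (nat_lit 5) (nat_lit 319) (nat_lit 281) (nat_lit 180))))) (XT.nd (nat_lit 234) (nat_lit 684) (nat_lit 0) (XT.nd (nat_lit 78) (nat_lit 456) (nat_lit 0) (XT.lf (nat_lit 0) (nat_lit 12446474280) (nat_lit 456) (nat_lit 210007906) (nat_lit 76) (nat_lit 2618910410) (nat_lit 81) (nat_lit 5) (nat_lit 87) (nat_lit 5) (nat_lit 82) (nat_lit 5) (nat_lit 320) (nat_lit 281) (nat_lit 179))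 (XT.nd (nat_lit 78) (nat_lit 76) (nat_lit 0) (XT.lf (nat_lit 0) (nat_lit 6323470236) (nat_lit 380) (nat_lit 8269978009) (nat_lit 456) (nat_lit 973260984) (nat_lit 76) (nat_lit 5) (nat_lit 81) (nat_lit 5) (nat_lit 82) (nat_lit 5) (nat_lit 321) (nat_lit 281) (nat_lit 178)) (XT.lf (nat_lit 0) (nat_lit 907987638) (nat_lit 456) (nat_lit 2834933324) (nat_lit 76) (nat_lit 12123961735) (nat_lit 75) (nat_lit 5) (nat_lit 81) (nat_lit 5) (nat_lit 76) (nat_lit 5) (nat_lit 322) (nat_lit 281) (nat_lit 177)))) (XT.nd (nat_lit 78) (nat_lit 304) (nat_lit 0) (XT.lf (nat_lit 0) (nat_lit 2858547061) (nat_lit 456) (nat_lit 12369942073) (nat_lit 76) (nat_lit 946343743) (nat_lit 70) (nat_lit 5) (nat_lit 76) (nat_lit 5) (nat_lit 71) (nat_lit 5) (nat_lit 323) (nat_lit 281) (nat_lit 176)) (XT.nd (nat_lit 78) (nat_lit 304) (nat_lit 0) (XT.lf (nat_lit 0) (nat_lit 4920299820) (nat_lit 456) (nat_lit 5842703285) (nat_lit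 76) (nat_lit 5727470825) (nat_lit 70) (nat_lit 5) (nat_lit 76) (nat_lit 5) (nat_lit 71) (nat_lit 5) (nat_lit 324) (nat_lit 281) (nat_lit 175)) (XT.lf (nat_lit 0) (nat_lit 881810956) (nat_lit 304) (nat_lit 6157665106) (nat_lit 380) (nat_lit 9776272739) (nat_lit 66) (nat_lit 5) (nat_lit 70) (nat_lit 5) (nat_lit 71) (nat_lit 5) (nat_lit 325) (nat_lit 281) (nat_lit 174))))))))
noncomputable def xc171 : XT := (XT.nd (nat_lit 1716) (nat_lit 1216) (nat_lit 0) (XT.nd (nat_lit 858) (nat_lit 1140) (nat_lit 0) (XT.nd (nat_lit 390) (nat_lit 532) (nat_lit 0) (XT.nd (nat_lit 156) (nat_lit 684) (nat_lit 0) (XT.nd (nat_lit 78) (nat_lit 0) (nat_lit 0) (XT.lf (nat_lit 0) (nat_lit 7912235698) (nat_lit 304) (nat_lit 1356312119) (nat_lit 380) (nat_lit 7880875282) (nat_lit 66) (nat_lit 5) (nat_lit 70) (nat_lit 5) (nat_lit 71) (nat_lit 5) (nat_lit 326) (nat_lit 281) (nat_lit 173)) (XT.lf (nat_lit 0) (nat_lit 11586654656)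 (nat_lit 380) (nat_lit 2389547292) (nat_lit 76) (nat_lit 3516270681) (nat_lit 66) (nat_lit 5) (nat_lit 71) (nat_lit 5) (nat_lit 67) (nat_lit 5) (nat_lit 327) (nat_lit 281) (nat_lit 172))) (XT.nd (nat_lit 78) (nat_lit 380) (nat_lit 0) (XT.lf (nat_lit 0) (nat_lit 4727278840) (nat_lit 304) (nat_lit 9293918017) (nat_lit 380) (nat_lit 3823239046) (nat_lit 62) (nat_lit 5) (nat_lit 66) (nat_lit 5) (nat_lit 67) (nat_lit 5) (nat_lit 328) (nat_lit 281) (nat_lit 171)) (XT.nd (nat_lit 78) (nat_lit 380) (nat_lit 0) (XT.lf (nat_lit 0) (nat_lit 12091680204) (nat_lit 304) (nat_lit 4449452220) (nat_lit 380) (nat_lit 1665483115) (nat_lit 62) (nat_lit 5) (nat_lit 66) (nat_lit 5) (nat_lit 67) (nat_lit 5) (nat_lit 329) (nat_lit 281) (nat_lit 170)) (XT.lf (nat_lit 0) (nat_lit 550449279) (nat_lit 380) (nat_lit 17486175017) (nat_lit 76) (nat_lit 542772807) (nat_lit 57) (nat_lit 5) (nat_lit 62) (nat_lit 5) (nat_lit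 58) (nat_lit 5) (nat_lit 330) (nat_lit 281) (nat_lit 169))))) (XT.nd (nat_lit 234) (nat_lit 228) (nat_lit 0) (XT.nd (nat_lit 78) (nat_lit 304) (nat_lit 0) (XT.lf (nat_lit 0) (nat_lit 2894395351) (nat_lit 380) (nat_lit 10394617499) (nat_lit 76) (nat_lit 5671030044) (nat_lit 57) (nat_lit 5) (nat_lit 62) (nat_lit 5) (nat_lit 58) (nat_lit 5) (nat_lit 331) (nat_lit 281) (nat_lit 168)) (XT.nd (nat_lit 78) (nat_lit 304) (nat_lit 0) (XT.lf (nat_lit 0) (nat_lit 5297588013) (nat_lit 380) (nat_lit 3104805460) (nat_lit 76) (nat_lit 10950071774) (nat_lit 57) (nat_lit 5) (nat_lit 62) (nat_lit 5) (nat_lit 58) (nat_lit 5) (nat_lit 332) (nat_lit 281) (nat_lit 167)) (XT.lf (nat_lit 0) (nat_lit 4476993098) (nat_lit 304) (nat_lit 3328169641) (nat_lit 380) (nat_lit 11950553248) (nat_lit 53) (nat_lit 5) (nat_lit 57) (nat_lit 5) (nat_lit 58) (nat_lit 5) (nat_lit 333) (nat_lit 281) (nat_lit 166)))) (XT.nd (nat_lit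 78) (nat_lit 228) (nat_lit 0) (XT.lf (nat_lit 0) (nat_lit 10427272544) (nat_lit 380) (nat_lit 7853030994) (nat_lit 76) (nat_lit 1889605072) (nat_lit 53) (nat_lit 5) (nat_lit 58) (nat_lit 5) (nat_lit 54) (nat_lit 5) (nat_lit 334) (nat_lit 281) (nat_lit 165)) (XT.nd (nat_lit 78) (nat_lit 228) (nat_lit 0) (XT.lf (nat_lit 0) (nat_lit 13150704159) (nat_lit 380) (nat_lit 251346287) (nat_lit 76) (nat_lit 7193819720) (nat_lit 53) (nat_lit 5) (nat_lit 58) (nat_lit 5) (nat_lit 54) (nat_lit 5) (nat_lit 335) (nat_lit 281) (nat_lit 164)) (XT.lf (nat_lit 0) (nat_lit 7715523536) (nat_lit 228) (nat_lit 8304487675) (nat_lit 304) (nat_lit 5012696427) (nat_lit 50) (nat_lit 5) (nat_lit 53) (nat_lit 5) (nat_lit 54) (nat_lit 5) (nat_lit 336) (nat_lit 281) (nat_lit 163)))))) (XT.nd (nat_lit 390) (nat_lit 532) (nat_lit 0) (XT.nd (nat_lit 156) (nat_lit 228) (nat_lit 0) (XT.nd (nat_lit 78) (nat_lit 380) (nat_lit 0)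 (XT.lf (nat_lit 0) (nat_lit 15913260328) (nat_lit 228) (nat_lit 3054844726) (nat_lit 304) (nat_lit 2514785546) (nat_lit 50) (nat_lit 5) (nat_lit 53) (nat_lit 5) (nat_lit 54) (nat_lit 5) (nat_lit 337) (nat_lit 281) (nat_lit 162)) (XT.lf (nat_lit 0) (nat_lit 93583766) (nat_lit 380) (nat_lit 19524610464) (nat_lit 76) (nat_lit 2327288810) (nat_lit 45) (nat_lit 5) (nat_lit 50) (nat_lit 5) (nat_lit 46) (nat_lit 5) (nat_lit 338) (nat_lit 281) (nat_lit 161))) (XT.nd (nat_lit 78) (nat_lit 228) (nat_lit 0) (XT.lf (nat_lit 0) (nat_lit 2807168372) (nat_lit 380) (nat_lit 11723964903) (nat_lit 76) (nat_lit 7887767505) (nat_lit 45) (nat_lit 5) (nat_lit 50) (nat_lit 5) (nat_lit 46) (nat_lit 5) (nat_lit 339) (nat_lit 281) (nat_lit 160)) (XT.nd (nat_lit 78) (nat_lit 228) (nat_lit 0) (XT.lf (nat_lit 0) (nat_lit 5592901999) (nat_lit 380) (nat_lit 3702173455) (nat_lit 76) (nat_lit 13611742541) (nat_lit 45) (nat_lit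 5) (nat_lit 50) (nat_lit 5) (nat_lit 46) (nat_lit 5) (nat_lit 340) (nat_lit 281) (nat_lit 159)) (XT.lf (nat_lit 0) (nat_lit 4638282816) (nat_lit 228) (nat_lit 3859521977) (nat_lit 304) (nat_lit 14910518645) (nat_lit 42) (nat_lit 5) (nat_lit 45) (nat_lit 5) (nat_lit 46) (nat_lit 5) (nat_lit 341) (nat_lit 281) (nat_lit 158))))) (XT.nd (nat_lit 234) (nat_lit 304) (nat_lit 0) (XT.nd (nat_lit 78) (nat_lit 228) (nat_lit 0) (XT.lf (nat_lit 0) (nat_lit 11535446847) (nat_lit 304) (nat_lit 10648621746) (nat_lit 76) (nat_lit 1739455773) (nat_lit 42) (nat_lit 5) (nat_lit 46) (nat_lit 5) (nat_lit 43) (nat_lit 5) (nat_lit 342) (nat_lit 281) (nat_lit 157)) (XT.nd (nat_lit 78) (nat_lit 228) (nat_lit 0) (XT.lf (nat_lit 0) (nat_lit 14693809950) (nat_lit 304) (nat_lit 2334031180) (nat_lit 76) (nat_lit 7425469996) (nat_lit 42) (nat_lit 5) (nat_lit 46) (nat_lit 5) (nat_lit 43) (nat_lit 5) (nat_lit 343) (nat_lit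 281) (nat_lit 156)) (XT.lf (nat_lit 0) (nat_lit 6341848646) (nat_lit 228) (nat_lit 11657666834) (nat_lit 304) (nat_lit 6997915309) (nat_lit 39) (nat_lit 5) (nat_lit 42) (nat_lit 5) (nat_lit 43) (nat_lit 5) (nat_lit 344) (nat_lit 281) (nat_lit 155)))) (XT.nd (nat_lit 78) (nat_lit 304) (nat_lit 0) (XT.lf (nat_lit 0) (nat_lit 15314066127) (nat_lit 228) (nat_lit 6105655510) (nat_lit 304) (nat_lit 4137709072) (nat_lit 39) (nat_lit 5) (nat_lit 42) (nat_lit 5) (nat_lit 43) (nat_lit 5) (nat_lit 345) (nat_lit 281) (nat_lit 154)) (XT.nd (nat_lit 78) (nat_lit 304) (nat_lit 0) (XT.lf (nat_lit 0) (nat_lit 24544009267) (nat_lit 228) (nat_lit 390525024) (nat_lit 304) (nat_lit 1199952395) (nat_lit 39) (nat_lit 5) (nat_lit 42) (nat_lit 5) (nat_lit 43) (nat_lit 5) (nat_lit 346) (nat_lit 281) (nat_lit 153)) (XT.lf (nat_lit 0) (nat_lit 1907629439) (nat_lit 304) (nat_lit 19341800540) (nat_lit 76) (nat_lit 5475393256)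 (nat_lit 35) (nat_lit 5) (nat_lit 39) (nat_lit 5) (nat_lit 36) (nat_lit 5) (nat_lit 347) (nat_lit 281) (nat_lit 152))))))) (XT.nd (nat_lit 858) (nat_lit 532) (nat_lit 0) (XT.nd (nat_lit 390) (nat_lit 456) (nat_lit 0) (XT.nd (nat_lit 156) (nat_lit 228) (nat_lit 0) (XT.nd (nat_lit 78) (nat_lit 0) (nat_lit 0) (XT.lf (nat_lit 0) (nat_lit 5096636854) (nat_lit 304) (nat_lit 10701345786) (nat_lit 76) (nat_lit 11534176045) (nat_lit 35) (nat_lit 5) (nat_lit 39) (nat_lit 5) (nat_lit 36) (nat_lit 5) (nat_lit 348) (nat_lit 281) (nat_lit 151)) (XT.lf (nat_lit 0) (nat_lit 8373770487) (nat_lit 304) (nat_lit 1812728313) (nat_lit 76) (nat_lit 17771455995) (nat_lit 35) (nat_lit 5) (nat_lit 39) (nat_lit 5) (nat_lit 36) (nat_lit 5) (nat_lit 349) (nat_lit 281) (nat_lit 150))) (XT.nd (nat_lit 78) (nat_lit 0) (nat_lit 0) (XT.lf (nat_lit 0) (nat_lit 7477736199) (nat_lit 228) (nat_lit 4336038229) (nat_lit 304) (nat_lit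 16786827533) (nat_lit 32) (nat_lit 5) (nat_lit 35) (nat_lit 5) (nat_lit 36) (nat_lit 5) (nat_lit 350) (nat_lit 281) (nat_lit 149)) (XT.nd (nat_lit 78) (nat_lit 0) (nat_lit 0) (XT.lf (nat_lit 0) (nat_lit 15384463571) (nat_lit 304) (nat_lit 12205152456) (nat_lit 76) (nat_lit 1672101419) (nat_lit 32) (nat_lit 5) (nat_lit 36) (nat_lit 5) (nat_lit 33) (nat_lit 5) (nat_lit 351) (nat_lit 281) (nat_lit 148)) (XT.lf (nat_lit 0) (nat_lit 19098169646) (nat_lit 304) (nat_lit 3073344577) (nat_lit 76) (nat_lit 7770088350) (nat_lit 32) (nat_lit 5) (nat_lit 36) (nat_lit 5) (nat_lit 33) (nat_lit 5) (nat_lit 352) (nat_lit 281) (nat_lit 147))))) (XT.nd (nat_lit 234) (nat_lit 304) (nat_lit 0) (XT.nd (nat_lit 78) (nat_lit 0) (nat_lit 0) (XT.lf (nat_lit 0) (nat_lit 6448042306) (nat_lit 152) (nat_lit 16530397208) (nat_lit 228) (nat_lit 7661802844) (nat_lit 30) (nat_lit 5) (nat_lit 32) (nat_lit 5) (nat_lit 33) (nat_lit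 5) (nat_lit 353) (nat_lit 281) (nat_lit 146)) (XT.nd (nat_lit 78) (nat_lit 0) (nat_lit 0) (XT.lf (nat_lit 0) (nat_lit 16307971584) (nat_lit 152) (nat_lit 10691452579) (nat_lit 228) (nat_lit 4359700290) (nat_lit 30) (nat_lit 5) (nat_lit 32) (nat_lit 5) (nat_lit 33) (nat_lit 5) (nat_lit 354) (nat_lit 281) (nat_lit 145)) (XT.lf (nat_lit 0) (nat_lit 26453893143) (nat_lit 152) (nat_lit 4680613100) (nat_lit 228) (nat_lit 965274687) (nat_lit 30) (nat_lit 5) (nat_lit 32) (nat_lit 5) (nat_lit 33) (nat_lit 5) (nat_lit 355) (nat_lit 281) (nat_lit 144)))) (XT.nd (nat_lit 78) (nat_lit 0) (nat_lit 0) (XT.lf (nat_lit 0) (nat_lit 2529587790) (nat_lit 304) (nat_lit 28788766380) (nat_lit 76) (nat_lit 1542144539) (nat_lit 26) (nat_lit 5) (nat_lit 30) (nat_lit 5) (nat_lit 27) (nat_lit 5) (nat_lit 356) (nat_lit 281) (nat_lit 143)) (XT.nd (nat_lit 78) (nat_lit 0) (nat_lit 0) (XT.lf (nat_lit 0) (nat_lit 6207462395)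 (nat_lit 304) (nat_lit 19511909453) (nat_lit 76) (nat_lit 7921463381) (nat_lit 26) (nat_lit 5) (nat_lit 30) (nat_lit 5) (nat_lit 27) (nat_lit 5) (nat_lit 357) (nat_lit 281) (nat_lit 142)) (XT.lf (nat_lit 0) (nat_lit 9989505992) (nat_lit 304) (nat_lit 9966196975) (nat_lit 76) (nat_lit 14489074518) (nat_lit 26) (nat_lit 5) (nat_lit 30) (nat_lit 5) (nat_lit 27) (nat_lit 5) (nat_lit 358) (nat_lit 281) (nat_lit 141)))))) (XT.nd (nat_lit 468) (nat_lit 228) (nat_lit 0) (XT.nd (nat_lit 234) (nat_lit 152) (nat_lit 0) (XT.nd (nat_lit 78) (nat_lit 152) (nat_lit 0) (XT.lf (nat_lit 0) (nat_lit 13879023280) (nat_lit 304) (nat_lit 143288032) (nat_lit 76) (nat_lit 21250716638) (nat_lit 26) (nat_lit 5) (nat_lit 30) (nat_lit 5) (nat_lit 27) (nat_lit 5) (nat_lit 359) (nat_lit 281) (nat_lit 140)) (XT.nd (nat_lit 78) (nat_lit 0) (nat_lit 0) (XT.lf (nat_lit 0) (nat_lit 10163731510) (nat_lit 152) (nat_lit 7813381361)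 (nat_lit 228) (nat_lit 18146266468) (nat_lit 24) (nat_lit 5) (nat_lit 26) (nat_lit 5) (nat_lit 27) (nat_lit 5) (nat_lit 360) (nat_lit 281) (nat_lit 139)) (XT.lf (nat_lit 0) (nat_lit 20774078554) (nat_lit 152) (nat_lit 1419784835) (nat_lit 228) (nat_lit 14805516056) (nat_lit 24) (nat_lit 5) (nat_lit 26) (nat_lit 5) (nat_lit 27) (nat_lit 5) (nat_lit 361) (nat_lit 281) (nat_lit 138)))) (XT.nd (nat_lit 78) (nat_lit 152) (nat_lit 0) (XT.lf (nat_lit 0) (nat_lit 26581180829) (nat_lit 228) (nat_lit 6257289525) (nat_lit 76) (nat_lit 5061876705) (nat_lit 24) (nat_lit 5) (nat_lit 27) (nat_lit 5) (nat_lit 25) (nat_lit 5) (nat_lit 362) (nat_lit 281) (nat_lit 137)) (XT.nd (nat_lit 78) (nat_lit 0) (nat_lit 0) (XT.lf (nat_lit 0) (nat_lit 4066601783) (nat_lit 152) (nat_lit 27081236097) (nat_lit 228) (nat_lit 7679083384) (nat_lit 22) (nat_lit 5) (nat_lit 24) (nat_lit 5) (nat_lit 25) (nat_lit 5) (nat_lit 363)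 (nat_lit 281) (nat_lit 136)) (XT.lf (nat_lit 0) (nat_lit 14820103874) (nat_lit 152) (nat_lit 21089226865) (nat_lit 228) (nat_lit 3870235768) (nat_lit 22) (nat_lit 5) (nat_lit 24) (nat_lit 5) (nat_lit 25) (nat_lit 5) (nat_lit 364) (nat_lit 281) (nat_lit 135))))) (XT.nd (nat_lit 234) (nat_lit 0) (nat_lit 0) (XT.nd (nat_lit 78) (nat_lit 152) (nat_lit 0) (XT.lf (nat_lit 0) (nat_lit 46591124) (nat_lit 228) (nat_lit 14873331673) (nat_lit 76) (nat_lit 25841019079) (nat_lit 21) (nat_lit 5) (nat_lit 24) (nat_lit 5) (nat_lit 22) (nat_lit 5) (nat_lit 365) (nat_lit 281) (nat_lit 134)) (XT.nd (nat_lit 78) (nat_lit 152) (nat_lit 0) (XT.lf (nat_lit 0) (nat_lit 3998033631) (nat_lit 228) (nat_lit 4530939158) (nat_lit 76) (nat_lit 33241797322) (nat_lit 21) (nat_lit 5) (nat_lit 24) (nat_lit 5) (nat_lit 22) (nat_lit 5) (nat_lit 366) (nat_lit 281) (nat_lit 133)) (XT.lf (nat_lit 0) (nat_lit 6235634721) (nat_lit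 152) (nat_lit 1887372723) (nat_lit 228) (nat_lit 34686244012) (nat_lit 19) (nat_lit 5) (nat_lit 21) (nat_lit 5) (nat_lit 22) (nat_lit 5) (nat_lit 367) (nat_lit 281) (nat_lit 132)))) (XT.nd (nat_lit 78) (nat_lit 0) (nat_lit 0) (XT.lf (nat_lit 0) (nat_lit 12460643479) (nat_lit 228) (nat_lit 26515318896) (nat_lit 76) (nat_lit 4900265151) (nat_lit 19) (nat_lit 5) (nat_lit 22) (nat_lit 5) (nat_lit 20) (nat_lit 5) (nat_lit 368) (nat_lit 281) (nat_lit 131)) (XT.nd (nat_lit 78) (nat_lit 0) (nat_lit 0) (XT.lf (nat_lit 0) (nat_lit 16942329011) (nat_lit 228) (nat_lit 16181552230) (nat_lit 76) (nat_lit 11850921476) (nat_lit 19) (nat_lit 5) (nat_lit 22) (nat_lit 5) (nat_lit 20) (nat_lit 5) (nat_lit 369) (nat_lit 281) (nat_lit 130)) (XT.lf (nat_lit 0) (nat_lit 21553837494) (nat_lit 228) (nat_lit 5545144652) (nat_lit 76) (nat_lit 19007499079) (nat_lit 19) (nat_lit 5) (nat_lit 22) (nat_lit 5) (nat_lit 20)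 (nat_lit 5) (nat_lit 370) (nat_lit 281) (nat_lit 129))))))))
noncomputable def xc172 : XT := (XT.nd (nat_lit 33930) (nat_lit 0) (nat_lit 7980) (XT.nd (nat_lit 858) (nat_lit 76) (nat_lit 0) (XT.nd (nat_lit 390) (nat_lit 228) (nat_lit 0) (XT.nd (nat_lit 156) (nat_lit 76) (nat_lit 0) (XT.nd (nat_lit 78) (nat_lit 0) (nat_lit 0) (XT.lf (nat_lit 0) (nat_lit 5510732017) (nat_lit 152) (nat_lit 20841438913) (nat_lit 228) (nat_lit 20918491791) (nat_lit 17) (nat_lit 5) (nat_lit 19) (nat_lit 5) (nat_lit 20) (nat_lit 5) (nat_lit 371) (nat_lit 281) (nat_lit 128)) (XT.lf (nat_lit 0) (nat_lit 17004867820) (nat_lit 152) (nat_lit 14341151541) (nat_lit 228) (nat_lit 17122210171) (nat_lit 17) (nat_lit 5) (nat_lit 19) (nat_lit 5) (nat_lit 20) (nat_lit 5) (nat_lit 372) (nat_lit 281) (nat_lit 127))) (XT.nd (nat_lit 78) (nat_lit 76) (nat_lit 0) (XT.lf (nat_lit 0) (nat_lit 28836946923) (nat_lit 152) (nat_lit 7648435256)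 (nat_lit 228) (nat_lit 13216476818) (nat_lit 17) (nat_lit 5) (nat_lit 19) (nat_lit 5) (nat_lit 20) (nat_lit 5) (nat_lit 373) (nat_lit 281) (nat_lit 126)) (XT.nd (nat_lit 78) (nat_lit 76) (nat_lit 0) (XT.lf (nat_lit 0) (nat_lit 41017308037) (nat_lit 152) (nat_lit 757442054) (nat_lit 228) (nat_lit 9197878956) (nat_lit 17) (nat_lit 5) (nat_lit 19) (nat_lit 5) (nat_lit 20) (nat_lit 5) (nat_lit 374) (nat_lit 281) (nat_lit 125)) (XT.lf (nat_lit 0) (nat_lit 1238182241) (nat_lit 76) (nat_lit 46053388084) (nat_lit 152) (nat_lit 4987894976) (nat_lit 16) (nat_lit 5) (nat_lit 17) (nat_lit 5) (nat_lit 18) (nat_lit 4) (nat_lit 375) (nat_lit 281) (nat_lit 124))))) (XT.nd (nat_lit 234) (nat_lit 152) (nat_lit 0) (XT.nd (nat_lit 78) (nat_lit 76) (nat_lit 0) (XT.lf (nat_lit 0) (nat_lit 12957390563) (nat_lit 76) (nat_lit 40120438222) (nat_lit 152) (nat_lit 544565907) (nat_lit 16) (nat_lit 5) (nat_lit 17) (nat_lit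 5) (nat_lit 18) (nat_lit 4) (nat_lit 376) (nat_lit 281) (nat_lit 123)) (XT.nd (nat_lit 78) (nat_lit 0) (nat_lit 0) (XT.lf (nat_lit 0) (nat_lit 3949434161) (nat_lit 152) (nat_lit 30022615386) (nat_lit 76) (nat_lit 21032523831) (nat_lit 15) (nat_lit 5) (nat_lit 17) (nat_lit 5) (nat_lit 16) (nat_lit 5) (nat_lit 377) (nat_lit 281) (nat_lit 122)) (XT.lf (nat_lit 0) (nat_lit 8563475212) (nat_lit 152) (nat_lit 19072579635) (nat_lit 76) (nat_lit 28792121384) (nat_lit 15) (nat_lit 5) (nat_lit 17) (nat_lit 5) (nat_lit 16) (nat_lit 5) (nat_lit 378) (nat_lit 281) (nat_lit 121)))) (XT.nd (nat_lit 78) (nat_lit 152) (nat_lit 0) (XT.lf (nat_lit 0) (nat_lit 13312215374) (nat_lit 152) (nat_lit 7800094183) (nat_lit 76) (nat_lit 36782294660) (nat_lit 15) (nat_lit 5) (nat_lit 17) (nat_lit 5) (nat_lit 16) (nat_lit 5) (nat_lit 379) (nat_lit 281) (nat_lit 120)) (XT.nd (nat_lit 78) (nat_lit 0) (nat_lit 0) (XT.lf (nat_lit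 0) (nat_lit 3880411519) (nat_lit 152) (nat_lit 14356693400) (nat_lit 228) (nat_lit 41166914734) (nat_lit 13) (nat_lit 5) (nat_lit 15) (nat_lit 5) (nat_lit 16) (nat_lit 5) (nat_lit 380) (nat_lit 281) (nat_lit 119)) (XT.lf (nat_lit 0) (nat_lit 16065409158) (nat_lit 152) (nat_lit 7319533271) (nat_lit 228) (nat_lit 37571524157) (nat_lit 13) (nat_lit 5) (nat_lit 15) (nat_lit 5) (nat_lit 16) (nat_lit 5) (nat_lit 381) (nat_lit 281) (nat_lit 118)))))) (XT.nd (nat_lit 390) (nat_lit 0) (nat_lit 0) (XT.nd (nat_lit 156) (nat_lit 76) (nat_lit 0) (XT.nd (nat_lit 78) (nat_lit 0) (nat_lit 0) (XT.lf (nat_lit 0) (nat_lit 28610308649) (nat_lit 152) (nat_lit 73445854) (nat_lit 228) (nat_lit 33871841167) (nat_lit 13) (nat_lit 5) (nat_lit 15) (nat_lit 5) (nat_lit 16) (nat_lit 5) (nat_lit 382) (nat_lit 281) (nat_lit 117)) (XT.lf (nat_lit 0) (nat_lit 34209188191) (nat_lit 228) (nat_lit 22747749665) (nat_lit 76) (nat_lit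 7243735836) (nat_lit 13) (nat_lit 5) (nat_lit 16) (nat_lit 5) (nat_lit 14) (nat_lit 4) (nat_lit 383) (nat_lit 281) (nat_lit 116))) (XT.nd (nat_lit 78) (nat_lit 76) (nat_lit 0) (XT.lf (nat_lit 0) (nat_lit 39897830344) (nat_lit 228) (nat_lit 11220419907) (nat_lit 76) (nat_lit 14776935082) (nat_lit 13) (nat_lit 5) (nat_lit 16) (nat_lit 5) (nat_lit 14) (nat_lit 4) (nat_lit 384) (nat_lit 281) (nat_lit 115)) (XT.nd (nat_lit 78) (nat_lit 0) (nat_lit 0) (XT.lf (nat_lit 0) (nat_lit 660366815) (nat_lit 76) (nat_lit 45099926649) (nat_lit 152) (nat_lit 21880148518) (nat_lit 12) (nat_lit 5) (nat_lit 13) (nat_lit 5) (nat_lit 14) (nat_lit 4) (nat_lit 385) (nat_lit 281) (nat_lit 114)) (XT.lf (nat_lit 0) (nat_lit 13122387148) (nat_lit 76) (nat_lit 38786404261) (nat_lit 152) (nat_lit 17525964468) (nat_lit 12) (nat_lit 5) (nat_lit 13) (nat_lit 5) (nat_lit 14) (nat_lit 4) (nat_lit 386) (nat_lit 281) (nat_lit 113)))))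 (XT.nd (nat_lit 32448) (nat_lit 0) (nat_lit 12160) (XT.nd (nat_lit 78) (nat_lit 0) (nat_lit 0) (XT.lf (nat_lit 0) (nat_lit 25953221877) (nat_lit 76) (nat_lit 32285470660) (nat_lit 152) (nat_lit 13044302456) (nat_lit 12) (nat_lit 5) (nat_lit 13) (nat_lit 5) (nat_lit 14) (nat_lit 4) (nat_lit 387) (nat_lit 281) (nat_lit 112)) (XT.nd (nat_lit 78) (nat_lit 0) (nat_lit 0) (XT.lf (nat_lit 0) (nat_lit 39164082411) (nat_lit 76) (nat_lit 25591445416) (nat_lit 152) (nat_lit 8431246465) (nat_lit 12) (nat_lit 5) (nat_lit 13) (nat_lit 5) (nat_lit 14) (nat_lit 4) (nat_lit 388) (nat_lit 281) (nat_lit 111)) (XT.lf (nat_lit 0) (nat_lit 52766512220) (nat_lit 76) (nat_lit 18698479383) (nat_lit 152) (nat_lit 3682765670) (nat_lit 12) (nat_lit 5) (nat_lit 13) (nat_lit 5) (nat_lit 14) (nat_lit 4) (nat_lit 389) (nat_lit 281) (nat_lit 110)))) (XT.nd (nat_lit 78) (nat_lit 0) (nat_lit 0) (XT.lf (nat_lit 0) (nat_lit 1488839287)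 (nat_lit 0) (nat_lit 1488839287) (nat_lit 836) (nat_lit 1315562971) (nat_lit 172) (nat_lit 5) (nat_lit 172) (nat_lit 3) (nat_lit 183) (nat_lit 3) (nat_lit 282) (nat_lit 282) (nat_lit 216)) (XT.nd (nat_lit 78) (nat_lit 0) (nat_lit 0) (XT.lf (nat_lit 0) (nat_lit 6559951340) (nat_lit 0) (nat_lit 369209378) (nat_lit 836) (nat_lit 1756512607) (nat_lit 172) (nat_lit 5) (nat_lit 172) (nat_lit 3) (nat_lit 183) (nat_lit 3) (nat_lit 283) (nat_lit 282) (nat_lit 215)) (XT.lf (nat_lit 76) (nat_lit 1449275602) (nat_lit 0) (nat_lit 6484758869) (nat_lit 912) (nat_lit 853869038) (nat_lit 173) (nat_lit 5) (nat_lit 172) (nat_lit 5) (nat_lit 184) (nat_lit 5) (nat_lit 284) (nat_lit 282) (nat_lit 214))))))) (XT.nd (nat_lit 858) (nat_lit 2508) (nat_lit 0) (XT.nd (nat_lit 390) (nat_lit 760) (nat_lit 0) (XT.nd (nat_lit 156) (nat_lit 0) (nat_lit 76) (XT.nd (nat_lit 78) (nat_lit 0) (nat_lit 0) (XT.lf (nat_lit 0) (nat_lit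 65732316) (nat_lit 912) (nat_lit 3741243206) (nat_lit 988) (nat_lit 5086575481) (nat_lit 160) (nat_lit 5) (nat_lit 172) (nat_lit 5) (nat_lit 173) (nat_lit 5) (nat_lit 285) (nat_lit 282) (nat_lit 213)) (XT.lf (nat_lit 0) (nat_lit 962774319) (nat_lit 912) (nat_lit 63019938) (nat_lit 988) (nat_lit 7977419351) (nat_lit 160) (nat_lit 5) (nat_lit 172) (nat_lit 5) (nat_lit 173) (nat_lit 5) (nat_lit 286) (nat_lit 282) (nat_lit 212))) (XT.nd (nat_lit 78) (nat_lit 0) (nat_lit 0) (XT.lf (nat_lit 0) (nat_lit 1909220289) (nat_lit 912) (nat_lit 5353063114) (nat_lit 988) (nat_lit 1853314458) (nat_lit 161) (nat_lit 5) (nat_lit 173) (nat_lit 5) (nat_lit 174) (nat_lit 5) (nat_lit 287) (nat_lit 282) (nat_lit 211)) (XT.nd (nat_lit 78) (nat_lit 0) (nat_lit 0) (XT.lf (nat_lit 0) (nat_lit 2863722953) (nat_lit 912) (nat_lit 1556427979) (nat_lit 988) (nat_lit 4811916255) (nat_lit 161) (nat_lit 5) (nat_lit 173) (nat_lit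 5) (nat_lit 174) (nat_lit 5) (nat_lit 288) (nat_lit 282) (nat_lit 210)) (XT.lf (nat_lit 76) (nat_lit 2382065913) (nat_lit 0) (nat_lit 1457463783) (nat_lit 988) (nat_lit 5512821263) (nat_lit 162) (nat_lit 5) (nat_lit 161) (nat_lit 5) (nat_lit 174) (nat_lit 5) (nat_lit 289) (nat_lit 282) (nat_lit 209))))) (XT.nd (nat_lit 234) (nat_lit 912) (nat_lit 0) (XT.nd (nat_lit 78) (nat_lit 0) (nat_lit 0) (XT.lf (nat_lit 0) (nat_lit 4846389398) (nat_lit 912) (nat_lit 3040063117) (nat_lit 988) (nat_lit 1589834875) (nat_lit 162) (nat_lit 5) (nat_lit 174) (nat_lit 5) (nat_lit 175) (nat_lit 5) (nat_lit 290) (nat_lit 282) (nat_lit 208)) (XT.nd (nat_lit 78) (nat_lit 0) (nat_lit 0) (XT.lf (nat_lit 76) (nat_lit 994168799) (nat_lit 0) (nat_lit 4884712567) (nat_lit 988) (nat_lit 3725292421) (nat_lit 163) (nat_lit 5) (nat_lit 162) (nat_lit 5) (nat_lit 175) (nat_lit 5) (nat_lit 291) (nat_lit 282) (nat_lit 207)) (XT.lf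 (nat_lit 76) (nat_lit 5193064799) (nat_lit 0) (nat_lit 1752073835) (nat_lit 988) (nat_lit 2790766338) (nat_lit 163) (nat_lit 5) (nat_lit 162) (nat_lit 5) (nat_lit 175) (nat_lit 5) (nat_lit 292) (nat_lit 282) (nat_lit 206)))) (XT.nd (nat_lit 78) (nat_lit 988) (nat_lit 0) (XT.lf (nat_lit 0) (nat_lit 8030548674) (nat_lit 912) (nat_lit 386959914) (nat_lit 988) (nat_lit 1454553787) (nat_lit 163) (nat_lit 5) (nat_lit 175) (nat_lit 5) (nat_lit 176) (nat_lit 5) (nat_lit 293) (nat_lit 282) (nat_lit 205)) (XT.nd (nat_lit 78) (nat_lit 988) (nat_lit 0) (XT.lf (nat_lit 76) (nat_lit 3934456675) (nat_lit 0) (nat_lit 5243009519) (nat_lit 988) (nat_lit 834056586) (nat_lit 164) (nat_lit 5) (nat_lit 163) (nat_lit 5) (nat_lit 176) (nat_lit 5) (nat_lit 294) (nat_lit 282) (nat_lit 204)) (XT.lf (nat_lit 0) (nat_lit 177625269) (nat_lit 988) (nat_lit 1782582501) (nat_lit 1064) (nat_lit 8195642933) (nat_lit 150) (nat_lit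 5) (nat_lit 163) (nat_lit 5) (nat_lit 164) (nat_lit 5) (nat_lit 295) (nat_lit 282) (nat_lit 203)))))) (XT.nd (nat_lit 390) (nat_lit 2584) (nat_lit 0) (XT.nd (nat_lit 156) (nat_lit 0) (nat_lit 0) (XT.nd (nat_lit 78) (nat_lit 0) (nat_lit 0) (XT.lf (nat_lit 0) (nat_lit 1217367455) (nat_lit 988) (nat_lit 7652318141) (nat_lit 1064) (nat_lit 1434220205) (nat_lit 151) (nat_lit 5) (nat_lit 164) (nat_lit 5) (nat_lit 165) (nat_lit 5) (nat_lit 296) (nat_lit 282) (nat_lit 202)) (XT.lf (nat_lit 0) (nat_lit 2301293976) (nat_lit 988) (nat_lit 3239253953) (nat_lit 1064) (nat_lit 4915541835) (nat_lit 151) (nat_lit 5) (nat_lit 164) (nat_lit 5) (nat_lit 165) (nat_lit 5) (nat_lit 297) (nat_lit 282) (nat_lit 201))) (XT.nd (nat_lit 78) (nat_lit 0) (nat_lit 76) (XT.lf (nat_lit 76) (nat_lit 1313256365) (nat_lit 0) (nat_lit 2093227361) (nat_lit 1064) (nat_lit 7206767889) (nat_lit 152) (nat_lit 5) (nat_lit 151) (nat_lit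 5) (nat_lit 165) (nat_lit 5) (nat_lit 298) (nat_lit 282) (nat_lit 200)) (XT.nd (nat_lit 78) (nat_lit 0) (nat_lit 0) (XT.lf (nat_lit 0) (nat_lit 4568561745) (nat_lit 988) (nat_lit 4738949053) (nat_lit 76) (nat_lit 1466978103) (nat_lit 152) (nat_lit 5) (nat_lit 165) (nat_lit 5) (nat_lit 153) (nat_lit 5) (nat_lit 299) (nat_lit 282) (nat_lit 199)) (XT.lf (nat_lit 0) (nat_lit 5763594206) (nat_lit 988) (nat_lit 80448136) (nat_lit 76) (nat_lit 5096648642) (nat_lit 152) (nat_lit 5) (nat_lit 165) (nat_lit 5) (nat_lit 153) (nat_lit 5) (nat_lit 300) (nat_lit 282) (nat_lit 198))))) (XT.nd (nat_lit 234) (nat_lit 608) (nat_lit 0) (XT.nd (nat_lit 78) (nat_lit 1064) (nat_lit 0) (XT.lf (nat_lit 0) (nat_lit 4793232651) (nat_lit 988) (nat_lit 2225346766) (nat_lit 1064) (nat_lit 4092645049) (nat_lit 139) (nat_lit 5) (nat_lit 152) (nat_lit 5) (nat_lit 153) (nat_lit 5) (nat_lit 301) (nat_lit 282) (nat_lit 197))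 (XT.nd (nat_lit 78) (nat_lit 1064) (nat_lit 0) (XT.lf (nat_lit 0) (nat_lit 8305000179) (nat_lit 1064) (nat_lit 1505198735) (nat_lit 76) (nat_lit 1476927857) (nat_lit 139) (nat_lit 5) (nat_lit 153) (nat_lit 5) (nat_lit 140) (nat_lit 5) (nat_lit 302) (nat_lit 282) (nat_lit 196)) (XT.lf (nat_lit 0) (nat_lit 3479713932) (nat_lit 1064) (nat_lit 6184935603) (nat_lit 1140) (nat_lit 1802681998) (nat_lit 125) (nat_lit 5) (nat_lit 139) (nat_lit 5) (nat_lit 140) (nat_lit 5) (nat_lit 303) (nat_lit 282) (nat_lit 195)))) (XT.nd (nat_lit 78) (nat_lit 608) (nat_lit 0) (XT.lf (nat_lit 0) (nat_lit 8627074031) (nat_lit 1064) (nat_lit 2432802172) (nat_lit 1140) (nat_lit 593285186) (nat_lit 125) (nat_lit 5) (nat_lit 139) (nat_lit 5) (nat_lit 140) (nat_lit 5) (nat_lit 304) (nat_lit 282) (nat_lit 194)) (XT.nd (nat_lit 78) (nat_lit 0) (nat_lit 0) (XT.lf (nat_lit 0) (nat_lit 653834605) (nat_lit 608) (nat_lit 9757352985)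 (nat_lit 76) (nat_lit 1432824260) (nat_lit 117) (nat_lit 5) (nat_lit 125) (nat_lit 5) (nat_lit 118) (nat_lit 5) (nat_lit 305) (nat_lit 282) (nat_lit 193)) (XT.lf (nat_lit 0) (nat_lit 1961750841) (nat_lit 608) (nat_lit 4673496499) (nat_lit 76) (nat_lit 5404162318) (nat_lit 117) (nat_lit 5) (nat_lit 125) (nat_lit 5) (nat_lit 118) (nat_lit 5) (nat_lit 306) (nat_lit 282) (nat_lit 192))))))))
noncomputable def xc173 : XT := (XT.nd (nat_lit 1716) (nat_lit 2584) (nat_lit 0) (XT.nd (nat_lit 858) (nat_lit 1520) (nat_lit 0) (XT.nd (nat_lit 390) (nat_lit 1368) (nat_lit 0) (XT.nd (nat_lit 156) (nat_lit 532) (nat_lit 0) (XT.nd (nat_lit 78) (nat_lit 0) (nat_lit 0) (XT.lf (nat_lit 0) (nat_lit 555877324) (nat_lit 456) (nat_lit 2739302756) (nat_lit 532) (nat_lit 8945956664) (nat_lit 111) (nat_lit 5) (nat_lit 117) (nat_lit 5) (nat_lit 118) (nat_lit 5) (nat_lit 307) (nat_lit 282) (nat_lit 191)) (XT.lf (nat_lit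 0) (nat_lit 4709841788) (nat_lit 532) (nat_lit 6440569257) (nat_lit 76) (nat_lit 1297321697) (nat_lit 111) (nat_lit 5) (nat_lit 118) (nat_lit 5) (nat_lit 112) (nat_lit 5) (nat_lit 308) (nat_lit 282) (nat_lit 190))) (XT.nd (nat_lit 78) (nat_lit 532) (nat_lit 0) (XT.lf (nat_lit 0) (nat_lit 6175936347) (nat_lit 532) (nat_lit 1083422097) (nat_lit 76) (nat_lit 5400950802) (nat_lit 111) (nat_lit 5) (nat_lit 118) (nat_lit 5) (nat_lit 112) (nat_lit 5) (nat_lit 309) (nat_lit 282) (nat_lit 189)) (XT.nd (nat_lit 78) (nat_lit 0) (nat_lit 0) (XT.lf (nat_lit 0) (nat_lit 4505105756) (nat_lit 532) (nat_lit 3206613032) (nat_lit 608) (nat_lit 5166823995) (nat_lit 104) (nat_lit 5) (nat_lit 111) (nat_lit 5) (nat_lit 112) (nat_lit 5) (nat_lit 310) (nat_lit 282) (nat_lit 188)) (XT.lf (nat_lit 0) (nat_lit 9296675146) (nat_lit 608) (nat_lit 2846551336) (nat_lit 76) (nat_lit 960053237) (nat_lit 104) (nat_lit 5) (nat_lit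 112) (nat_lit 5) (nat_lit 105) (nat_lit 5) (nat_lit 311) (nat_lit 282) (nat_lit 187))))) (XT.nd (nat_lit 234) (nat_lit 380) (nat_lit 0) (XT.nd (nat_lit 78) (nat_lit 532) (nat_lit 0) (XT.lf (nat_lit 0) (nat_lit 2852933016) (nat_lit 456) (nat_lit 8118671821) (nat_lit 532) (nat_lit 2361929155) (nat_lit 98) (nat_lit 5) (nat_lit 104) (nat_lit 5) (nat_lit 105) (nat_lit 5) (nat_lit 312) (nat_lit 282) (nat_lit 186)) (XT.nd (nat_lit 78) (nat_lit 532) (nat_lit 0) (XT.lf (nat_lit 0) (nat_lit 8764791091) (nat_lit 456) (nat_lit 3944312534) (nat_lit 532) (nat_lit 861269202) (nat_lit 98) (nat_lit 5) (nat_lit 104) (nat_lit 5) (nat_lit 105) (nat_lit 5) (nat_lit 313) (nat_lit 282) (nat_lit 185)) (XT.lf (nat_lit 0) (nat_lit 668443820) (nat_lit 532) (nat_lit 12781419753) (nat_lit 76) (nat_lit 364378126) (nat_lit 91) (nat_lit 5) (nat_lit 98) (nat_lit 5) (nat_lit 92) (nat_lit 5) (nat_lit 314) (nat_lit 282) (nat_lit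 184)))) (XT.nd (nat_lit 78) (nat_lit 380) (nat_lit 0) (XT.lf (nat_lit 0) (nat_lit 2298952448) (nat_lit 532) (nat_lit 6984322092) (nat_lit 76) (nat_lit 4779772447) (nat_lit 91) (nat_lit 5) (nat_lit 98) (nat_lit 5) (nat_lit 92) (nat_lit 5) (nat_lit 315) (nat_lit 282) (nat_lit 183)) (XT.nd (nat_lit 78) (nat_lit 380) (nat_lit 0) (XT.lf (nat_lit 0) (nat_lit 3962992699) (nat_lit 532) (nat_lit 1029989403) (nat_lit 76) (nat_lit 9326837218) (nat_lit 91) (nat_lit 5) (nat_lit 98) (nat_lit 5) (nat_lit 92) (nat_lit 5) (nat_lit 316) (nat_lit 282) (nat_lit 182)) (XT.lf (nat_lit 0) (nat_lit 5188018048) (nat_lit 380) (nat_lit 523870944) (nat_lit 456) (nat_lit 8871397958) (nat_lit 86) (nat_lit 5) (nat_lit 91) (nat_lit 5) (nat_lit 92) (nat_lit 5) (nat_lit 317) (nat_lit 282) (nat_lit 181)))))) (XT.nd (nat_lit 390) (nat_lit 760) (nat_lit 0) (XT.nd (nat_lit 156) (nat_lit 380) (nat_lit 0) (XT.nd (nat_lit 78) (nat_lit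 380) (nat_lit 0) (XT.lf (nat_lit 0) (nat_lit 7548300955) (nat_lit 456) (nat_lit 3296481703) (nat_lit 76) (nat_lit 4008863489) (nat_lit 86) (nat_lit 5) (nat_lit 92) (nat_lit 5) (nat_lit 87) (nat_lit 5) (nat_lit 318) (nat_lit 282) (nat_lit 180)) (XT.lf (nat_lit 0) (nat_lit 3023054723) (nat_lit 380) (nat_lit 6436756139) (nat_lit 456) (nat_lit 5671742957) (nat_lit 81) (nat_lit 5) (nat_lit 86) (nat_lit 5) (nat_lit 87) (nat_lit 5) (nat_lit 319) (nat_lit 282) (nat_lit 179))) (XT.nd (nat_lit 78) (nat_lit 380) (nat_lit 0) (XT.lf (nat_lit 0) (nat_lit 9583890694) (nat_lit 380) (nat_lit 1864084978) (nat_lit 456) (nat_lit 3969280524) (nat_lit 81) (nat_lit 5) (nat_lit 86) (nat_lit 5) (nat_lit 87) (nat_lit 5) (nat_lit 320) (nat_lit 282) (nat_lit 178)) (XT.nd (nat_lit 78) (nat_lit 0) (nat_lit 0) (XT.lf (nat_lit 0) (nat_lit 598521691) (nat_lit 380) (nat_lit 12916783509) (nat_lit 456) (nat_lit 2195674545) (nat_lit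 76) (nat_lit 5) (nat_lit 81) (nat_lit 5) (nat_lit 82) (nat_lit 5) (nat_lit 321) (nat_lit 282) (nat_lit 177)) (XT.lf (nat_lit 0) (nat_lit 7308450840) (nat_lit 380) (nat_lit 8400041007) (nat_lit 456) (nat_lit 303142688) (nat_lit 76) (nat_lit 5) (nat_lit 81) (nat_lit 5) (nat_lit 82) (nat_lit 5) (nat_lit 322) (nat_lit 282) (nat_lit 176))))) (XT.nd (nat_lit 234) (nat_lit 304) (nat_lit 0) (XT.nd (nat_lit 78) (nat_lit 380) (nat_lit 0) (XT.lf (nat_lit 0) (nat_lit 1600926247) (nat_lit 456) (nat_lit 2132961700) (nat_lit 76) (nat_lit 12587372457) (nat_lit 75) (nat_lit 5) (nat_lit 81) (nat_lit 5) (nat_lit 76) (nat_lit 5) (nat_lit 323) (nat_lit 282) (nat_lit 175)) (XT.nd (nat_lit 78) (nat_lit 0) (nat_lit 0) (XT.lf (nat_lit 0) (nat_lit 3599310717) (nat_lit 456) (nat_lit 11941719456) (nat_lit 76) (nat_lit 1097787954) (nat_lit 70) (nat_lit 5) (nat_lit 76) (nat_lit 5) (nat_lit 71) (nat_lit 5) (nat_lit 324)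 (nat_lit 282) (nat_lit 174)) (XT.lf (nat_lit 0) (nat_lit 5703838178) (nat_lit 456) (nat_lit 5241944694) (nat_lit 76) (nat_lit 6018764755) (nat_lit 70) (nat_lit 5) (nat_lit 76) (nat_lit 5) (nat_lit 71) (nat_lit 5) (nat_lit 325) (nat_lit 282) (nat_lit 173)))) (XT.nd (nat_lit 78) (nat_lit 0) (nat_lit 0) (XT.lf (nat_lit 0) (nat_lit 1676696742) (nat_lit 304) (nat_lit 6198757384) (nat_lit 380) (nat_lit 9424506199) (nat_lit 66) (nat_lit 5) (nat_lit 70) (nat_lit 5) (nat_lit 71) (nat_lit 5) (nat_lit 326) (nat_lit 282) (nat_lit 172)) (XT.nd (nat_lit 78) (nat_lit 0) (nat_lit 0) (XT.lf (nat_lit 0) (nat_lit 8895652727) (nat_lit 304) (nat_lit 1257547430) (nat_lit 380) (nat_lit 7491034819) (nat_lit 66) (nat_lit 5) (nat_lit 70) (nat_lit 5) (nat_lit 71) (nat_lit 5) (nat_lit 327) (nat_lit 282) (nat_lit 171)) (XT.lf (nat_lit 0) (nat_lit 12524483832) (nat_lit 380) (nat_lit 1719116957) (nat_lit 76) (nat_lit 3754509096)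 (nat_lit 66) (nat_lit 5) (nat_lit 71) (nat_lit 5) (nat_lit 67) (nat_lit 5) (nat_lit 328) (nat_lit 282) (nat_lit 170))))))) (XT.nd (nat_lit 858) (nat_lit 988) (nat_lit 0) (XT.nd (nat_lit 390) (nat_lit 912) (nat_lit 0) (XT.nd (nat_lit 156) (nat_lit 380) (nat_lit 0) (XT.nd (nat_lit 78) (nat_lit 0) (nat_lit 0) (XT.lf (nat_lit 0) (nat_lit 5603938305) (nat_lit 304) (nat_lit 9417996586) (nat_lit 380) (nat_lit 3339042640) (nat_lit 62) (nat_lit 5) (nat_lit 66) (nat_lit 5) (nat_lit 67) (nat_lit 5) (nat_lit 329) (nat_lit 282) (nat_lit 169)) (XT.lf (nat_lit 0) (nat_lit 13167868570) (nat_lit 304) (nat_lit 4432703775) (nat_lit 380) (nat_lit 1133997533) (nat_lit 62) (nat_lit 5) (nat_lit 66) (nat_lit 5) (nat_lit 67) (nat_lit 5) (nat_lit 330) (nat_lit 282) (nat_lit 168))) (XT.nd (nat_lit 78) (nat_lit 0) (nat_lit 0) (XT.lf (nat_lit 0) (nat_lit 1128897115) (nat_lit 380) (nat_lit 17275227333) (nat_lit 76) (nat_lit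 714525968) (nat_lit 57) (nat_lit 5) (nat_lit 62) (nat_lit 5) (nat_lit 58) (nat_lit 5) (nat_lit 331) (nat_lit 282) (nat_lit 167)) (XT.nd (nat_lit 78) (nat_lit 0) (nat_lit 0) (XT.lf (nat_lit 0) (nat_lit 3526794549) (nat_lit 380) (nat_lit 9992346379) (nat_lit 76) (nat_lit 5992102670) (nat_lit 57) (nat_lit 5) (nat_lit 62) (nat_lit 5) (nat_lit 58) (nat_lit 5) (nat_lit 332) (nat_lit 282) (nat_lit 166)) (XT.lf (nat_lit 0) (nat_lit 5986192681) (nat_lit 380) (nat_lit 2504639289) (nat_lit 76) (nat_lit 11425119290) (nat_lit 57) (nat_lit 5) (nat_lit 62) (nat_lit 5) (nat_lit 58) (nat_lit 5) (nat_lit 333) (nat_lit 282) (nat_lit 165))))) (XT.nd (nat_lit 234) (nat_lit 380) (nat_lit 0) (XT.nd (nat_lit 78) (nat_lit 228) (nat_lit 0) (XT.lf (nat_lit 0) (nat_lit 5297816066) (nat_lit 304) (nat_lit 3262350280) (nat_lit 380) (nat_lit 11771432907) (nat_lit 53) (nat_lit 5) (nat_lit 57) (nat_lit 5) (nat_lit 58) (nat_lit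 5) (nat_lit 334) (nat_lit 282) (nat_lit 164)) (XT.nd (nat_lit 78) (nat_lit 228) (nat_lit 0) (XT.lf (nat_lit 0) (nat_lit 11247315180) (nat_lit 380) (nat_lit 7407351128) (nat_lit 76) (nat_lit 2103993942) (nat_lit 53) (nat_lit 5) (nat_lit 58) (nat_lit 5) (nat_lit 54) (nat_lit 5) (nat_lit 335) (nat_lit 282) (nat_lit 163)) (XT.lf (nat_lit 0) (nat_lit 410552641) (nat_lit 228) (nat_lit 13631070057) (nat_lit 304) (nat_lit 7156135647) (nat_lit 50) (nat_lit 5) (nat_lit 53) (nat_lit 5) (nat_lit 54) (nat_lit 5) (nat_lit 336) (nat_lit 282) (nat_lit 162)))) (XT.nd (nat_lit 78) (nat_lit 380) (nat_lit 0) (XT.lf (nat_lit 0) (nat_lit 8601932612) (nat_lit 228) (nat_lit 8383082353) (nat_lit 304) (nat_lit 4663077718) (nat_lit 50) (nat_lit 5) (nat_lit 53) (nat_lit 5) (nat_lit 54) (nat_lit 5) (nat_lit 337) (nat_lit 282) (nat_lit 161)) (XT.nd (nat_lit 78) (nat_lit 380) (nat_lit 0) (XT.lf (nat_lit 0) (nat_lit 17026525487)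 (nat_lit 228) (nat_lit 2980917298) (nat_lit 304) (nat_lit 2104792606) (nat_lit 50) (nat_lit 5) (nat_lit 53) (nat_lit 5) (nat_lit 54) (nat_lit 5) (nat_lit 338) (nat_lit 282) (nat_lit 160)) (XT.lf (nat_lit 0) (nat_lit 566295274) (nat_lit 380) (nat_lit 19456972131) (nat_lit 76) (nat_lit 2565509219) (nat_lit 45) (nat_lit 5) (nat_lit 50) (nat_lit 5) (nat_lit 46) (nat_lit 5) (nat_lit 339) (nat_lit 282) (nat_lit 159)))))) (XT.nd (nat_lit 468) (nat_lit 532) (nat_lit 0) (XT.nd (nat_lit 234) (nat_lit 228) (nat_lit 0) (XT.nd (nat_lit 78) (nat_lit 228) (nat_lit 0) (XT.lf (nat_lit 0) (nat_lit 3347600894) (nat_lit 380) (nat_lit 11441337591) (nat_lit 76) (nat_lit 8287897370) (nat_lit 45) (nat_lit 5) (nat_lit 50) (nat_lit 5) (nat_lit 46) (nat_lit 5) (nat_lit 340) (nat_lit 282) (nat_lit 158)) (XT.nd (nat_lit 78) (nat_lit 228) (nat_lit 0) (XT.lf (nat_lit 0) (nat_lit 6203618642) (nat_lit 380) (nat_lit 3197368505)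 (nat_lit 76) (nat_lit 14178829613) (nat_lit 45) (nat_lit 5) (nat_lit 50) (nat_lit 5) (nat_lit 46) (nat_lit 5) (nat_lit 341) (nat_lit 282) (nat_lit 157)) (XT.lf (nat_lit 0) (nat_lit 5387263512) (nat_lit 228) (nat_lit 3801366228) (nat_lit 304) (nat_lit 14907975526) (nat_lit 42) (nat_lit 5) (nat_lit 45) (nat_lit 5) (nat_lit 46) (nat_lit 5) (nat_lit 342) (nat_lit 282) (nat_lit 156)))) (XT.nd (nat_lit 78) (nat_lit 228) (nat_lit 0) (XT.lf (nat_lit 0) (nat_lit 12306328537) (nat_lit 304) (nat_lit 10364072577) (nat_lit 76) (nat_lit 1957219238) (nat_lit 42) (nat_lit 5) (nat_lit 46) (nat_lit 5) (nat_lit 43) (nat_lit 5) (nat_lit 343) (nat_lit 282) (nat_lit 155)) (XT.nd (nat_lit 78) (nat_lit 228) (nat_lit 0) (XT.lf (nat_lit 0) (nat_lit 15547069185) (nat_lit 304) (nat_lit 1817636755) (nat_lit 76) (nat_lit 7808991175) (nat_lit 42) (nat_lit 5) (nat_lit 46) (nat_lit 5) (nat_lit 43) (nat_lit 5) (nat_lit 344)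 (nat_lit 282) (nat_lit 154)) (XT.lf (nat_lit 0) (nat_lit 7112770296) (nat_lit 228) (nat_lit 11832744345) (nat_lit 304) (nat_lit 6788843131) (nat_lit 39) (nat_lit 5) (nat_lit 42) (nat_lit 5) (nat_lit 43) (nat_lit 5) (nat_lit 345) (nat_lit 282) (nat_lit 153))))) (XT.nd (nat_lit 234) (nat_lit 228) (nat_lit 0) (XT.nd (nat_lit 78) (nat_lit 304) (nat_lit 0) (XT.lf (nat_lit 0) (nat_lit 16337241694) (nat_lit 228) (nat_lit 6119259647) (nat_lit 304) (nat_lit 3855034871) (nat_lit 39) (nat_lit 5) (nat_lit 42) (nat_lit 5) (nat_lit 43) (nat_lit 5) (nat_lit 346) (nat_lit 282) (nat_lit 152)) (XT.nd (nat_lit 78) (nat_lit 304) (nat_lit 0) (XT.lf (nat_lit 0) (nat_lit 25827663121) (nat_lit 228) (nat_lit 237614048) (nat_lit 304) (nat_lit 840994197) (nat_lit 39) (nat_lit 5) (nat_lit 42) (nat_lit 5) (nat_lit 43) (nat_lit 5) (nat_lit 347) (nat_lit 282) (nat_lit 151)) (XT.lf (nat_lit 0) (nat_lit 2347744404) (nat_lit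 304) (nat_lit 19361179379) (nat_lit 76) (nat_lit 5805432980) (nat_lit 35) (nat_lit 5) (nat_lit 39) (nat_lit 5) (nat_lit 36) (nat_lit 5) (nat_lit 348) (nat_lit 282) (nat_lit 150)))) (XT.nd (nat_lit 78) (nat_lit 228) (nat_lit 0) (XT.lf (nat_lit 0) (nat_lit 5621270020) (nat_lit 304) (nat_lit 10477847152) (nat_lit 76) (nat_lit 12041150769) (nat_lit 35) (nat_lit 5) (nat_lit 39) (nat_lit 5) (nat_lit 36) (nat_lit 5) (nat_lit 349) (nat_lit 282) (nat_lit 149)) (XT.nd (nat_lit 78) (nat_lit 228) (nat_lit 0) (XT.lf (nat_lit 0) (nat_lit 8985890456) (nat_lit 304) (nat_lit 1338431514) (nat_lit 76) (nat_lit 18460861269) (nat_lit 35) (nat_lit 5) (nat_lit 39) (nat_lit 5) (nat_lit 36) (nat_lit 5) (nat_lit 350) (nat_lit 282) (nat_lit 148)) (XT.lf (nat_lit 0) (nat_lit 8225563809) (nat_lit 228) (nat_lit 4298051016) (nat_lit 304) (nat_lit 16923679279) (nat_lit 32) (nat_lit 5) (nat_lit 35) (nat_lit 5) (nat_lit 36)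 (nat_lit 5) (nat_lit 351) (nat_lit 282) (nat_lit 147))))))))
noncomputable def xc174 : XT := (XT.nd (nat_lit 1716) (nat_lit 380) (nat_lit 0) (XT.nd (nat_lit 858) (nat_lit 532) (nat_lit 0) (XT.nd (nat_lit 390) (nat_lit 456) (nat_lit 0) (XT.nd (nat_lit 156) (nat_lit 152) (nat_lit 0) (XT.nd (nat_lit 78) (nat_lit 0) (nat_lit 0) (XT.lf (nat_lit 0) (nat_lit 16192640914) (nat_lit 304) (nat_lit 12053631433) (nat_lit 76) (nat_lit 1882253531) (nat_lit 32) (nat_lit 5) (nat_lit 36) (nat_lit 5) (nat_lit 33) (nat_lit 5) (nat_lit 352) (nat_lit 282) (nat_lit 146)) (XT.lf (nat_lit 0) (nat_lit 20007661761) (nat_lit 304) (nat_lit 2662947248) (nat_lit 76) (nat_lit 8158520194) (nat_lit 32) (nat_lit 5) (nat_lit 36) (nat_lit 5) (nat_lit 33) (nat_lit 5) (nat_lit 353) (nat_lit 282) (nat_lit 145))) (XT.nd (nat_lit 78) (nat_lit 0) (nat_lit 0) (XT.lf (nat_lit 0) (nat_lit 7139153814) (nat_lit 152) (nat_lit 16860167482)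 (nat_lit 228) (nat_lit 7549575645) (nat_lit 30) (nat_lit 5) (nat_lit 32) (nat_lit 5) (nat_lit 33) (nat_lit 5) (nat_lit 354) (nat_lit 282) (nat_lit 144)) (XT.nd (nat_lit 78) (nat_lit 0) (nat_lit 0) (XT.lf (nat_lit 0) (nat_lit 17280385720) (nat_lit 152) (nat_lit 10850893591) (nat_lit 228) (nat_lit 4158373547) (nat_lit 30) (nat_lit 5) (nat_lit 32) (nat_lit 5) (nat_lit 33) (nat_lit 5) (nat_lit 355) (nat_lit 282) (nat_lit 143)) (XT.lf (nat_lit 0) (nat_lit 27716611868) (nat_lit 152) (nat_lit 4664427060) (nat_lit 228) (nat_lit 671788508) (nat_lit 30) (nat_lit 5) (nat_lit 32) (nat_lit 5) (nat_lit 33) (nat_lit 5) (nat_lit 356) (nat_lit 282) (nat_lit 142))))) (XT.nd (nat_lit 234) (nat_lit 152) (nat_lit 0) (XT.nd (nat_lit 78) (nat_lit 0) (nat_lit 0) (XT.lf (nat_lit 0) (nat_lit 2918485913) (nat_lit 304) (nat_lit 29172799011) (nat_lit 76) (nat_lit 1745099270) (nat_lit 26) (nat_lit 5) (nat_lit 30) (nat_lit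 5) (nat_lit 27) (nat_lit 5) (nat_lit 357) (nat_lit 282) (nat_lit 141)) (XT.nd (nat_lit 78) (nat_lit 0) (nat_lit 0) (XT.lf (nat_lit 0) (nat_lit 6697579945) (nat_lit 304) (nat_lit 19631606193) (nat_lit 76) (nat_lit 8311233880) (nat_lit 26) (nat_lit 5) (nat_lit 30) (nat_lit 5) (nat_lit 27) (nat_lit 5) (nat_lit 358) (nat_lit 282) (nat_lit 140)) (XT.lf (nat_lit 0) (nat_lit 10584233578) (nat_lit 304) (nat_lit 9813085269) (nat_lit 76) (nat_lit 15071442479) (nat_lit 26) (nat_lit 5) (nat_lit 30) (nat_lit 5) (nat_lit 27) (nat_lit 5) (nat_lit 359) (nat_lit 282) (nat_lit 139)))) (XT.nd (nat_lit 78) (nat_lit 0) (nat_lit 0) (XT.lf (nat_lit 0) (nat_lit 297141348) (nat_lit 152) (nat_lit 14287557872) (nat_lit 228) (nat_lit 21737347002) (nat_lit 24) (nat_lit 5) (nat_lit 26) (nat_lit 5) (nat_lit 27) (nat_lit 5) (nat_lit 360) (nat_lit 282) (nat_lit 138)) (XT.nd (nat_lit 78) (nat_lit 0) (nat_lit 0) (XT.lf (nat_lit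 0) (nat_lit 10903269946) (nat_lit 152) (nat_lit 7895439972) (nat_lit 228) (nat_lit 18399423254) (nat_lit 24) (nat_lit 5) (nat_lit 26) (nat_lit 5) (nat_lit 27) (nat_lit 5) (nat_lit 361) (nat_lit 282) (nat_lit 137)) (XT.lf (nat_lit 0) (nat_lit 21819268378) (nat_lit 152) (nat_lit 1314472719) (nat_lit 228) (nat_lit 14966932791) (nat_lit 24) (nat_lit 5) (nat_lit 26) (nat_lit 5) (nat_lit 27) (nat_lit 5) (nat_lit 362) (nat_lit 282) (nat_lit 136)))))) (XT.nd (nat_lit 390) (nat_lit 304) (nat_lit 0) (XT.nd (nat_lit 156) (nat_lit 76) (nat_lit 0) (XT.nd (nat_lit 78) (nat_lit 152) (nat_lit 0) (XT.lf (nat_lit 0) (nat_lit 27646076027) (nat_lit 228) (nat_lit 6028277486) (nat_lit 76) (nat_lit 5354528625) (nat_lit 24) (nat_lit 5) (nat_lit 27) (nat_lit 5) (nat_lit 25) (nat_lit 5) (nat_lit 363) (nat_lit 282) (nat_lit 135)) (XT.lf (nat_lit 0) (nat_lit 4601244966) (nat_lit 152) (nat_lit 27744664330) (nat_lit 228)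 (nat_lit 7637472129) (nat_lit 22) (nat_lit 5) (nat_lit 24) (nat_lit 5) (nat_lit 25) (nat_lit 5) (nat_lit 364) (nat_lit 282) (nat_lit 134))) (XT.nd (nat_lit 78) (nat_lit 76) (nat_lit 0) (XT.lf (nat_lit 0) (nat_lit 15665333331) (nat_lit 152) (nat_lit 21577234884) (nat_lit 228) (nat_lit 3722280942) (nat_lit 22) (nat_lit 5) (nat_lit 24) (nat_lit 5) (nat_lit 25) (nat_lit 5) (nat_lit 365) (nat_lit 282) (nat_lit 133)) (XT.nd (nat_lit 78) (nat_lit 0) (nat_lit 0) (XT.lf (nat_lit 0) (nat_lit 299356917) (nat_lit 228) (nat_lit 14925170108) (nat_lit 76) (nat_lit 26751300879) (nat_lit 21) (nat_lit 5) (nat_lit 24) (nat_lit 5) (nat_lit 22) (nat_lit 5) (nat_lit 366) (nat_lit 282) (nat_lit 132)) (XT.lf (nat_lit 0) (nat_lit 4362021299) (nat_lit 228) (nat_lit 4283992074) (nat_lit 76) (nat_lit 34370168939) (nat_lit 21) (nat_lit 5) (nat_lit 24) (nat_lit 5) (nat_lit 22) (nat_lit 5) (nat_lit 367) (nat_lit 282) (nat_lit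 131))))) (XT.nd (nat_lit 234) (nat_lit 152) (nat_lit 0) (XT.nd (nat_lit 78) (nat_lit 0) (nat_lit 0) (XT.lf (nat_lit 0) (nat_lit 6801825342) (nat_lit 152) (nat_lit 1805455179) (nat_lit 228) (nat_lit 35478652837) (nat_lit 19) (nat_lit 5) (nat_lit 21) (nat_lit 5) (nat_lit 22) (nat_lit 5) (nat_lit 368) (nat_lit 282) (nat_lit 130)) (XT.nd (nat_lit 78) (nat_lit 0) (nat_lit 0) (XT.lf (nat_lit 0) (nat_lit 13069331300) (nat_lit 228) (nat_lit 26936617781) (nat_lit 76) (nat_lit 5179152073) (nat_lit 19) (nat_lit 5) (nat_lit 22) (nat_lit 5) (nat_lit 20) (nat_lit 5) (nat_lit 369) (nat_lit 282) (nat_lit 129)) (XT.lf (nat_lit 0) (nat_lit 17678626567) (nat_lit 228) (nat_lit 16303735999) (nat_lit 76) (nat_lit 12334486953) (nat_lit 19) (nat_lit 5) (nat_lit 22) (nat_lit 5) (nat_lit 20) (nat_lit 5) (nat_lit 370) (nat_lit 282) (nat_lit 128)))) (XT.nd (nat_lit 78) (nat_lit 152) (nat_lit 0) (XT.lf (nat_lit 0) (nat_lit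 22421838721) (nat_lit 228) (nat_lit 5358816663) (nat_lit 76) (nat_lit 19702032628) (nat_lit 19) (nat_lit 5) (nat_lit 22) (nat_lit 5) (nat_lit 20) (nat_lit 5) (nat_lit 371) (nat_lit 282) (nat_lit 127)) (XT.nd (nat_lit 78) (nat_lit 0) (nat_lit 0) (XT.lf (nat_lit 0) (nat_lit 6025278636) (nat_lit 152) (nat_lit 21335752346) (nat_lit 228) (nat_lit 21320866785) (nat_lit 17) (nat_lit 5) (nat_lit 19) (nat_lit 5) (nat_lit 20) (nat_lit 5) (nat_lit 372) (nat_lit 282) (nat_lit 126)) (XT.lf (nat_lit 0) (nat_lit 17854066921) (nat_lit 152) (nat_lit 14644269840) (nat_lit 228) (nat_lit 17417255350) (nat_lit 17) (nat_lit 5) (nat_lit 19) (nat_lit 5) (nat_lit 20) (nat_lit 5) (nat_lit 373) (nat_lit 282) (nat_lit 125))))))) (XT.nd (nat_lit 858) (nat_lit 76) (nat_lit 0) (XT.nd (nat_lit 390) (nat_lit 152) (nat_lit 0) (XT.nd (nat_lit 156) (nat_lit 152) (nat_lit 0) (XT.nd (nat_lit 78) (nat_lit 0) (nat_lit 0) (XT.lf (nat_lit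 0) (nat_lit 30031233065) (nat_lit 152) (nat_lit 7754474482) (nat_lit 228) (nat_lit 13400717602) (nat_lit 17) (nat_lit 5) (nat_lit 19) (nat_lit 5) (nat_lit 20) (nat_lit 5) (nat_lit 374) (nat_lit 282) (nat_lit 124)) (XT.lf (nat_lit 0) (nat_lit 42567417312) (nat_lit 152) (nat_lit 660346062) (nat_lit 228) (nat_lit 9267743945) (nat_lit 17) (nat_lit 5) (nat_lit 19) (nat_lit 5) (nat_lit 20) (nat_lit 5) (nat_lit 375) (nat_lit 282) (nat_lit 123))) (XT.nd (nat_lit 78) (nat_lit 76) (nat_lit 0) (XT.lf (nat_lit 0) (nat_lit 1596882851) (nat_lit 76) (nat_lit 47311596011) (nat_lit 152) (nat_lit 4933127035) (nat_lit 16) (nat_lit 5) (nat_lit 17) (nat_lit 5) (nat_lit 18) (nat_lit 4) (nat_lit 376) (nat_lit 282) (nat_lit 122)) (XT.nd (nat_lit 78) (nat_lit 76) (nat_lit 0) (XT.lf (nat_lit 0) (nat_lit 13658301739) (nat_lit 76) (nat_lit 41204251644) (nat_lit 152) (nat_lit 362451632) (nat_lit 16) (nat_lit 5) (nat_lit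 17) (nat_lit 5) (nat_lit 18) (nat_lit 4) (nat_lit 377) (nat_lit 282) (nat_lit 121)) (XT.lf (nat_lit 0) (nat_lit 4256828598) (nat_lit 152) (nat_lit 30616164389) (nat_lit 76) (nat_lit 21775777062) (nat_lit 15) (nat_lit 5) (nat_lit 17) (nat_lit 5) (nat_lit 16) (nat_lit 5) (nat_lit 378) (nat_lit 282) (nat_lit 120))))) (XT.nd (nat_lit 234) (nat_lit 0) (nat_lit 0) (XT.nd (nat_lit 78) (nat_lit 152) (nat_lit 0) (XT.lf (nat_lit 0) (nat_lit 9003788606) (nat_lit 152) (nat_lit 19346573084) (nat_lit 76) (nat_lit 29764892323) (nat_lit 15) (nat_lit 5) (nat_lit 17) (nat_lit 5) (nat_lit 16) (nat_lit 5) (nat_lit 379) (nat_lit 282) (nat_lit 119)) (XT.nd (nat_lit 78) (nat_lit 152) (nat_lit 0) (XT.lf (nat_lit 0) (nat_lit 13889648959) (nat_lit 152) (nat_lit 7744598038) (nat_lit 76) (nat_lit 37991595827) (nat_lit 15) (nat_lit 5) (nat_lit 17) (nat_lit 5) (nat_lit 16) (nat_lit 5) (nat_lit 380) (nat_lit 282) (nat_lit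 118)) (XT.lf (nat_lit 0) (nat_lit 4283484610) (nat_lit 152) (nat_lit 14676369717) (nat_lit 228) (nat_lit 42220766821) (nat_lit 13) (nat_lit 5) (nat_lit 15) (nat_lit 5) (nat_lit 16) (nat_lit 5) (nat_lit 381) (nat_lit 282) (nat_lit 117)))) (XT.nd (nat_lit 78) (nat_lit 0) (nat_lit 0) (XT.lf (nat_lit 0) (nat_lit 16825682836) (nat_lit 152) (nat_lit 7431328507) (nat_lit 228) (nat_lit 38522790896) (nat_lit 13) (nat_lit 5) (nat_lit 15) (nat_lit 5) (nat_lit 16) (nat_lit 5) (nat_lit 382) (nat_lit 282) (nat_lit 116)) (XT.nd (nat_lit 78) (nat_lit 0) (nat_lit 0) (XT.lf (nat_lit 0) (nat_lit 29710099946) (nat_lit 228) (nat_lit 34688516895) (nat_lit 76) (nat_lit 28436061) (nat_lit 13) (nat_lit 5) (nat_lit 16) (nat_lit 5) (nat_lit 14) (nat_lit 4) (nat_lit 383) (nat_lit 282) (nat_lit 115)) (XT.lf (nat_lit 0) (nat_lit 35397172568) (nat_lit 228) (nat_lit 23163772882) (nat_lit 76) (nat_lit 7560668399) (nat_lit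 13) (nat_lit 5) (nat_lit 16) (nat_lit 5) (nat_lit 14) (nat_lit 4) (nat_lit 384) (nat_lit 282) (nat_lit 114)))))) (XT.nd (nat_lit 32682) (nat_lit 0) (nat_lit 11248) (XT.nd (nat_lit 156) (nat_lit 0) (nat_lit 0) (XT.nd (nat_lit 78) (nat_lit 76) (nat_lit 0) (XT.lf (nat_lit 0) (nat_lit 41251764023) (nat_lit 228) (nat_lit 11298382725) (nat_lit 76) (nat_lit 15316962055) (nat_lit 13) (nat_lit 5) (nat_lit 16) (nat_lit 5) (nat_lit 14) (nat_lit 4) (nat_lit 385) (nat_lit 282) (nat_lit 113)) (XT.lf (nat_lit 0) (nat_lit 936291817) (nat_lit 76) (nat_lit 46351698364) (nat_lit 152) (nat_lit 22376802765) (nat_lit 12) (nat_lit 5) (nat_lit 13) (nat_lit 5) (nat_lit 14) (nat_lit 4) (nat_lit 386) (nat_lit 282) (nat_lit 112))) (XT.nd (nat_lit 78) (nat_lit 0) (nat_lit 0) (XT.lf (nat_lit 0) (nat_lit 13764713128) (nat_lit 76) (nat_lit 39851718637) (nat_lit 152) (nat_lit 17896646113) (nat_lit 12) (nat_lit 5) (nat_lit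 13) (nat_lit 5) (nat_lit 14) (nat_lit 4) (nat_lit 387) (nat_lit 282) (nat_lit 111)) (XT.nd (nat_lit 78) (nat_lit 0) (nat_lit 0) (XT.lf (nat_lit 0) (nat_lit 26973230539) (nat_lit 76) (nat_lit 33158619486) (nat_lit 152) (nat_lit 13285051637) (nat_lit 12) (nat_lit 5) (nat_lit 13) (nat_lit 5) (nat_lit 14) (nat_lit 4) (nat_lit 388) (nat_lit 282) (nat_lit 110)) (XT.lf (nat_lit 0) (nat_lit 40573385471) (nat_lit 76) (nat_lit 26266552572) (nat_lit 152) (nat_lit 8537989788) (nat_lit 12) (nat_lit 5) (nat_lit 13) (nat_lit 5) (nat_lit 14) (nat_lit 4) (nat_lit 389) (nat_lit 282) (nat_lit 109))))) (XT.nd (nat_lit 234) (nat_lit 0) (nat_lit 0) (XT.nd (nat_lit 78) (nat_lit 912) (nat_lit 0) (XT.lf (nat_lit 0) (nat_lit 1971490023) (nat_lit 0) (nat_lit 1971490023) (nat_lit 836) (nat_lit 449736334) (nat_lit 172) (nat_lit 5) (nat_lit 172) (nat_lit 3) (nat_lit 183) (nat_lit 3) (nat_lit 283) (nat_lit 283) (nat_lit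 214)) (XT.nd (nat_lit 78) (nat_lit 912) (nat_lit 0) (XT.lf (nat_lit 0) (nat_lit 7607207274) (nat_lit 0) (nat_lit 1230743053) (nat_lit 836) (nat_lit 51356479) (nat_lit 172) (nat_lit 5) (nat_lit 172) (nat_lit 3) (nat_lit 183) (nat_lit 3) (nat_lit 284) (nat_lit 283) (nat_lit 213)) (XT.lf (nat_lit 0) (nat_lit 811811255) (nat_lit 912) (nat_lit 6604850918) (nat_lit 988) (nat_lit 1579337974) (nat_lit 160) (nat_lit 5) (nat_lit 172) (nat_lit 5) (nat_lit 173) (nat_lit 5) (nat_lit 285) (nat_lit 283) (nat_lit 212)))) (XT.nd (nat_lit 78) (nat_lit 0) (nat_lit 0) (XT.lf (nat_lit 0) (nat_lit 1693077530) (nat_lit 912) (nat_lit 2935537126) (nat_lit 988) (nat_lit 4477573855) (nat_lit 160) (nat_lit 5) (nat_lit 172) (nat_lit 5) (nat_lit 173) (nat_lit 5) (nat_lit 286) (nat_lit 283) (nat_lit 211)) (XT.nd (nat_lit 78) (nat_lit 0) (nat_lit 76) (XT.lf (nat_lit 76) (nat_lit 842741547) (nat_lit 0) (nat_lit 1735049224)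 (nat_lit 988) (nat_lit 6642684933) (nat_lit 161) (nat_lit 5) (nat_lit 160) (nat_lit 5) (nat_lit 173) (nat_lit 5) (nat_lit 287) (nat_lit 283) (nat_lit 210)) (XT.lf (nat_lit 0) (nat_lit 3500724010) (nat_lit 912) (nat_lit 4573545290) (nat_lit 988) (nat_lit 1263672290) (nat_lit 161) (nat_lit 5) (nat_lit 173) (nat_lit 5) (nat_lit 174) (nat_lit 5) (nat_lit 288) (nat_lit 283) (nat_lit 209))))))))
noncomputable def xc175 : XT := (XT.nd (nat_lit 1716) (nat_lit 4104) (nat_lit 0) (XT.nd (nat_lit 858) (nat_lit 2964) (nat_lit 0) (XT.nd (nat_lit 390) (nat_lit 836) (nat_lit 0) (XT.nd (nat_lit 156) (nat_lit 0) (nat_lit 76) (XT.nd (nat_lit 78) (nat_lit 0) (nat_lit 0) (XT.lf (nat_lit 0) (nat_lit 4439175528) (nat_lit 912) (nat_lit 690392937) (nat_lit 988) (nat_lit 4329825586) (nat_lit 161) (nat_lit 5) (nat_lit 173) (nat_lit 5) (nat_lit 174) (nat_lit 5) (nat_lit 289) (nat_lit 283) (nat_lit 208)) (XT.lf (nat_lit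 76) (nat_lit 3357307459) (nat_lit 0) (nat_lit 2052252010) (nat_lit 988) (nat_lit 4174911920) (nat_lit 162) (nat_lit 5) (nat_lit 161) (nat_lit 5) (nat_lit 174) (nat_lit 5) (nat_lit 290) (nat_lit 283) (nat_lit 207))) (XT.nd (nat_lit 78) (nat_lit 0) (nat_lit 0) (XT.lf (nat_lit 0) (nat_lit 6399107988) (nat_lit 912) (nat_lit 2201627307) (nat_lit 988) (nat_lit 1112956072) (nat_lit 162) (nat_lit 5) (nat_lit 174) (nat_lit 5) (nat_lit 175) (nat_lit 5) (nat_lit 291) (nat_lit 283) (nat_lit 206)) (XT.nd (nat_lit 78) (nat_lit 0) (nat_lit 0) (XT.lf (nat_lit 76) (nat_lit 1944517471) (nat_lit 0) (nat_lit 5485915776) (nat_lit 988) (nat_lit 2416081223) (nat_lit 163) (nat_lit 5) (nat_lit 162) (nat_lit 5) (nat_lit 175) (nat_lit 5) (nat_lit 292) (nat_lit 283) (nat_lit 205)) (XT.lf (nat_lit 76) (nat_lit 6242568984) (nat_lit 0) (nat_lit 2246055304) (nat_lit 988) (nat_lit 1494906832) (nat_lit 163) (nat_lit 5) (nat_lit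 162) (nat_lit 5) (nat_lit 175) (nat_lit 5) (nat_lit 293) (nat_lit 283) (nat_lit 204))))) (XT.nd (nat_lit 234) (nat_lit 0) (nat_lit 76) (XT.nd (nat_lit 78) (nat_lit 988) (nat_lit 0) (XT.lf (nat_lit 76) (nat_lit 526666144) (nat_lit 0) (nat_lit 9041986194) (nat_lit 988) (nat_lit 556387306) (nat_lit 164) (nat_lit 5) (nat_lit 163) (nat_lit 5) (nat_lit 176) (nat_lit 5) (nat_lit 294) (nat_lit 283) (nat_lit 203)) (XT.nd (nat_lit 78) (nat_lit 0) (nat_lit 0) (XT.lf (nat_lit 0) (nat_lit 437454893) (nat_lit 988) (nat_lit 5315638722) (nat_lit 1064) (nat_lit 4516605575) (nat_lit 150) (nat_lit 5) (nat_lit 163) (nat_lit 5) (nat_lit 164) (nat_lit 5) (nat_lit 295) (nat_lit 283) (nat_lit 202)) (XT.lf (nat_lit 0) (nat_lit 1425448654) (nat_lit 988) (nat_lit 927825626) (nat_lit 1064) (nat_lit 8066070378) (nat_lit 150) (nat_lit 5) (nat_lit 163) (nat_lit 5) (nat_lit 164) (nat_lit 5) (nat_lit 296) (nat_lit 283) (nat_lit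 201)))) (XT.nd (nat_lit 78) (nat_lit 0) (nat_lit 0) (XT.lf (nat_lit 0) (nat_lit 2465804917) (nat_lit 988) (nat_lit 6939282208) (nat_lit 1064) (nat_lit 1167785418) (nat_lit 151) (nat_lit 5) (nat_lit 164) (nat_lit 5) (nat_lit 165) (nat_lit 5) (nat_lit 297) (nat_lit 283) (nat_lit 200)) (XT.nd (nat_lit 78) (nat_lit 0) (nat_lit 0) (XT.lf (nat_lit 0) (nat_lit 3546950696) (nat_lit 988) (nat_lit 2421280624) (nat_lit 1064) (nat_lit 4762560135) (nat_lit 151) (nat_lit 5) (nat_lit 164) (nat_lit 5) (nat_lit 165) (nat_lit 5) (nat_lit 298) (nat_lit 283) (nat_lit 199)) (XT.lf (nat_lit 76) (nat_lit 2258832937) (nat_lit 0) (nat_lit 2400903524) (nat_lit 1064) (nat_lit 6233805747) (nat_lit 152) (nat_lit 5) (nat_lit 151) (nat_lit 5) (nat_lit 165) (nat_lit 5) (nat_lit 299) (nat_lit 283) (nat_lit 198)))))) (XT.nd (nat_lit 390) (nat_lit 1064) (nat_lit 0) (XT.nd (nat_lit 156) (nat_lit 1064) (nat_lit 0) (XT.nd (nat_lit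 78) (nat_lit 988) (nat_lit 0) (XT.lf (nat_lit 0) (nat_lit 5820865483) (nat_lit 988) (nat_lit 3962049791) (nat_lit 76) (nat_lit 1277879811) (nat_lit 152) (nat_lit 5) (nat_lit 165) (nat_lit 5) (nat_lit 153) (nat_lit 5) (nat_lit 300) (nat_lit 283) (nat_lit 197)) (XT.lf (nat_lit 0) (nat_lit 825546577) (nat_lit 988) (nat_lit 6201655080) (nat_lit 1064) (nat_lit 4205619089) (nat_lit 139) (nat_lit 5) (nat_lit 152) (nat_lit 5) (nat_lit 153) (nat_lit 5) (nat_lit 301) (nat_lit 283) (nat_lit 196))) (XT.nd (nat_lit 78) (nat_lit 1064) (nat_lit 0) (XT.lf (nat_lit 0) (nat_lit 5820580374) (nat_lit 988) (nat_lit 2468276808) (nat_lit 1064) (nat_lit 3120640583) (nat_lit 139) (nat_lit 5) (nat_lit 152) (nat_lit 5) (nat_lit 153) (nat_lit 5) (nat_lit 302) (nat_lit 283) (nat_lit 195)) (XT.nd (nat_lit 78) (nat_lit 1064) (nat_lit 0) (XT.lf (nat_lit 0) (nat_lit 9581360799) (nat_lit 1064) (nat_lit 656852146) (nat_lit 76)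 (nat_lit 1353534786) (nat_lit 139) (nat_lit 5) (nat_lit 153) (nat_lit 5) (nat_lit 140) (nat_lit 5) (nat_lit 303) (nat_lit 283) (nat_lit 194)) (XT.lf (nat_lit 0) (nat_lit 4468848073) (nat_lit 1064) (nat_lit 6491537495) (nat_lit 1140) (nat_lit 817708009) (nat_lit 125) (nat_lit 5) (nat_lit 139) (nat_lit 5) (nat_lit 140) (nat_lit 5) (nat_lit 304) (nat_lit 283) (nat_lit 193))))) (XT.nd (nat_lit 234) (nat_lit 456) (nat_lit 0) (XT.nd (nat_lit 78) (nat_lit 532) (nat_lit 0) (XT.lf (nat_lit 0) (nat_lit 389946289) (nat_lit 1140) (nat_lit 2229430239) (nat_lit 76) (nat_lit 9350975787) (nat_lit 124) (nat_lit 5) (nat_lit 139) (nat_lit 5) (nat_lit 125) (nat_lit 5) (nat_lit 305) (nat_lit 283) (nat_lit 192)) (XT.nd (nat_lit 78) (nat_lit 0) (nat_lit 0) (XT.lf (nat_lit 0) (nat_lit 1641216847) (nat_lit 608) (nat_lit 9144347258) (nat_lit 76) (nat_lit 1381912781) (nat_lit 117) (nat_lit 5) (nat_lit 125) (nat_lit 5)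 (nat_lit 118) (nat_lit 5) (nat_lit 306) (nat_lit 283) (nat_lit 191)) (XT.lf (nat_lit 0) (nat_lit 2960183176) (nat_lit 608) (nat_lit 3934355456) (nat_lit 76) (nat_lit 5475125822) (nat_lit 117) (nat_lit 5) (nat_lit 125) (nat_lit 5) (nat_lit 118) (nat_lit 5) (nat_lit 307) (nat_lit 283) (nat_lit 190)))) (XT.nd (nat_lit 78) (nat_lit 0) (nat_lit 0) (XT.lf (nat_lit 0) (nat_lit 1443278543) (nat_lit 456) (nat_lit 2871340287) (nat_lit 532) (nat_lit 8263474224) (nat_lit 111) (nat_lit 5) (nat_lit 117) (nat_lit 5) (nat_lit 118) (nat_lit 5) (nat_lit 308) (nat_lit 283) (nat_lit 189)) (XT.nd (nat_lit 78) (nat_lit 0) (nat_lit 0) (XT.lf (nat_lit 0) (nat_lit 5744441972) (nat_lit 532) (nat_lit 5758561130) (nat_lit 76) (nat_lit 1288779668) (nat_lit 111) (nat_lit 5) (nat_lit 118) (nat_lit 5) (nat_lit 112) (nat_lit 5) (nat_lit 309) (nat_lit 283) (nat_lit 188)) (XT.lf (nat_lit 0) (nat_lit 7228500777) (nat_lit 532)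 (nat_lit 266191551) (nat_lit 76) (nat_lit 5516900026) (nat_lit 111) (nat_lit 5) (nat_lit 118) (nat_lit 5) (nat_lit 112) (nat_lit 5) (nat_lit 310) (nat_lit 283) (nat_lit 187))))))) (XT.nd (nat_lit 858) (nat_lit 1824) (nat_lit 0) (XT.nd (nat_lit 390) (nat_lit 760) (nat_lit 0) (XT.nd (nat_lit 156) (nat_lit 988) (nat_lit 0) (XT.nd (nat_lit 78) (nat_lit 0) (nat_lit 0) (XT.lf (nat_lit 0) (nat_lit 5481661419) (nat_lit 532) (nat_lit 3311522580) (nat_lit 608) (nat_lit 4443777114) (nat_lit 104) (nat_lit 5) (nat_lit 111) (nat_lit 5) (nat_lit 112) (nat_lit 5) (nat_lit 311) (nat_lit 283) (nat_lit 186)) (XT.lf (nat_lit 0) (nat_lit 10400847159) (nat_lit 608) (nat_lit 2087846730) (nat_lit 76) (nat_lit 980562435) (nat_lit 104) (nat_lit 5) (nat_lit 112) (nat_lit 5) (nat_lit 105) (nat_lit 5) (nat_lit 312) (nat_lit 283) (nat_lit 185))) (XT.nd (nat_lit 78) (nat_lit 532) (nat_lit 0) (XT.lf (nat_lit 0) (nat_lit 3774346651)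 (nat_lit 456) (nat_lit 8335675515) (nat_lit 532) (nat_lit 1596944979) (nat_lit 98) (nat_lit 5) (nat_lit 104) (nat_lit 5) (nat_lit 105) (nat_lit 5) (nat_lit 313) (nat_lit 283) (nat_lit 184)) (XT.nd (nat_lit 78) (nat_lit 532) (nat_lit 0) (XT.lf (nat_lit 0) (nat_lit 9839216033) (nat_lit 456) (nat_lit 4036858939) (nat_lit 532) (nat_lit 75610142) (nat_lit 98) (nat_lit 5) (nat_lit 104) (nat_lit 5) (nat_lit 105) (nat_lit 5) (nat_lit 314) (nat_lit 283) (nat_lit 183)) (XT.lf (nat_lit 0) (nat_lit 1469273492) (nat_lit 532) (nat_lit 12318397239) (nat_lit 76) (nat_lit 415474870) (nat_lit 91) (nat_lit 5) (nat_lit 98) (nat_lit 5) (nat_lit 92) (nat_lit 5) (nat_lit 315) (nat_lit 283) (nat_lit 182))))) (XT.nd (nat_lit 234) (nat_lit 380) (nat_lit 0) (XT.nd (nat_lit 78) (nat_lit 380) (nat_lit 0) (XT.lf (nat_lit 0) (nat_lit 3125956320) (nat_lit 532) (nat_lit 6372040972) (nat_lit 76) (nat_lit 4962161154) (nat_lit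 91) (nat_lit 5) (nat_lit 98) (nat_lit 5) (nat_lit 92) (nat_lit 5) (nat_lit 316) (nat_lit 283) (nat_lit 181)) (XT.nd (nat_lit 78) (nat_lit 380) (nat_lit 0) (XT.lf (nat_lit 0) (nat_lit 4817839080) (nat_lit 532) (nat_lit 263014538) (nat_lit 76) (nat_lit 9644502076) (nat_lit 91) (nat_lit 5) (nat_lit 98) (nat_lit 5) (nat_lit 92) (nat_lit 5) (nat_lit 317) (nat_lit 283) (nat_lit 180)) (XT.lf (nat_lit 0) (nat_lit 6133710836) (nat_lit 380) (nat_lit 471650262) (nat_lit 456) (nat_lit 8391839146) (nat_lit 86) (nat_lit 5) (nat_lit 91) (nat_lit 5) (nat_lit 92) (nat_lit 5) (nat_lit 318) (nat_lit 283) (nat_lit 179)))) (XT.nd (nat_lit 78) (nat_lit 380) (nat_lit 0) (XT.lf (nat_lit 0) (nat_lit 8476466961) (nat_lit 456) (nat_lit 2606070804) (nat_lit 76) (nat_lit 4193800382) (nat_lit 86) (nat_lit 5) (nat_lit 92) (nat_lit 5) (nat_lit 87) (nat_lit 5) (nat_lit 319) (nat_lit 283) (nat_lit 178)) (XT.nd (nat_lit 78)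 (nat_lit 0) (nat_lit 0) (XT.lf (nat_lit 0) (nat_lit 3895313427) (nat_lit 380) (nat_lit 6537083281) (nat_lit 456) (nat_lit 5130628451) (nat_lit 81) (nat_lit 5) (nat_lit 86) (nat_lit 5) (nat_lit 87) (nat_lit 5) (nat_lit 320) (nat_lit 283) (nat_lit 177)) (XT.lf (nat_lit 0) (nat_lit 10630210388) (nat_lit 380) (nat_lit 1829934185) (nat_lit 456) (nat_lit 3397808655) (nat_lit 81) (nat_lit 5) (nat_lit 86) (nat_lit 5) (nat_lit 87) (nat_lit 5) (nat_lit 321) (nat_lit 283) (nat_lit 176)))))) (XT.nd (nat_lit 468) (nat_lit 684) (nat_lit 0) (XT.nd (nat_lit 234) (nat_lit 684) (nat_lit 0) (XT.nd (nat_lit 78) (nat_lit 76) (nat_lit 0) (XT.lf (nat_lit 0) (nat_lit 1388590446) (nat_lit 380) (nat_lit 13189688624) (nat_lit 456) (nat_lit 1582597087) (nat_lit 76) (nat_lit 5) (nat_lit 81) (nat_lit 5) (nat_lit 82) (nat_lit 5) (nat_lit 322) (nat_lit 283) (nat_lit 175)) (XT.nd (nat_lit 78) (nat_lit 0) (nat_lit 0) (XT.lf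 (nat_lit 0) (nat_lit 340165587) (nat_lit 456) (nat_lit 8197181071) (nat_lit 76) (nat_lit 7933728145) (nat_lit 75) (nat_lit 5) (nat_lit 81) (nat_lit 5) (nat_lit 76) (nat_lit 5) (nat_lit 323) (nat_lit 283) (nat_lit 174)) (XT.lf (nat_lit 0) (nat_lit 2276439169) (nat_lit 456) (nat_lit 1455109072) (nat_lit 76) (nat_lit 13058962779) (nat_lit 75) (nat_lit 5) (nat_lit 81) (nat_lit 5) (nat_lit 76) (nat_lit 5) (nat_lit 324) (nat_lit 283) (nat_lit 173)))) (XT.nd (nat_lit 78) (nat_lit 304) (nat_lit 0) (XT.lf (nat_lit 0) (nat_lit 4324697187) (nat_lit 456) (nat_lit 11546534448) (nat_lit 76) (nat_lit 1246711694) (nat_lit 70) (nat_lit 5) (nat_lit 76) (nat_lit 5) (nat_lit 71) (nat_lit 5) (nat_lit 325) (nat_lit 283) (nat_lit 172)) (XT.nd (nat_lit 78) (nat_lit 304) (nat_lit 0) (XT.lf (nat_lit 0) (nat_lit 6474377740) (nat_lit 456) (nat_lit 4667711198) (nat_lit 76) (nat_lit 6311939446) (nat_lit 70) (nat_lit 5)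 (nat_lit 76) (nat_lit 5) (nat_lit 71) (nat_lit 5) (nat_lit 326) (nat_lit 283) (nat_lit 171)) (XT.lf (nat_lit 0) (nat_lit 2451317992) (nat_lit 304) (nat_lit 6249327821) (nat_lit 380) (nat_lit 9099215442) (nat_lit 66) (nat_lit 5) (nat_lit 70) (nat_lit 5) (nat_lit 71) (nat_lit 5) (nat_lit 327) (nat_lit 283) (nat_lit 170))))) (XT.nd (nat_lit 234) (nat_lit 380) (nat_lit 0) (XT.nd (nat_lit 78) (nat_lit 304) (nat_lit 0) (XT.lf (nat_lit 0) (nat_lit 9865745947) (nat_lit 304) (nat_lit 1163825032) (nat_lit 380) (nat_lit 7125449415) (nat_lit 66) (nat_lit 5) (nat_lit 70) (nat_lit 5) (nat_lit 71) (nat_lit 5) (nat_lit 328) (nat_lit 283) (nat_lit 169)) (XT.nd (nat_lit 78) (nat_lit 304) (nat_lit 0) (XT.lf (nat_lit 0) (nat_lit 13456566294) (nat_lit 380) (nat_lit 1071174250) (nat_lit 76) (nat_lit 3992274252) (nat_lit 66) (nat_lit 5) (nat_lit 71) (nat_lit 5) (nat_lit 67) (nat_lit 5) (nat_lit 329) (nat_lit 283)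 (nat_lit 168)) (XT.lf (nat_lit 0) (nat_lit 6464714668) (nat_lit 304) (nat_lit 9554680161) (nat_lit 380) (nat_lit 2874699284) (nat_lit 62) (nat_lit 5) (nat_lit 66) (nat_lit 5) (nat_lit 67) (nat_lit 5) (nat_lit 330) (nat_lit 283) (nat_lit 167)))) (XT.nd (nat_lit 78) (nat_lit 380) (nat_lit 0) (XT.lf (nat_lit 0) (nat_lit 14235388330) (nat_lit 304) (nat_lit 4424076808) (nat_lit 380) (nat_lit 619944998) (nat_lit 62) (nat_lit 5) (nat_lit 66) (nat_lit 5) (nat_lit 67) (nat_lit 5) (nat_lit 331) (nat_lit 283) (nat_lit 166)) (XT.nd (nat_lit 78) (nat_lit 0) (nat_lit 0) (XT.lf (nat_lit 0) (nat_lit 1692441055) (nat_lit 380) (nat_lit 17100173818) (nat_lit 76) (nat_lit 882507110) (nat_lit 57) (nat_lit 5) (nat_lit 62) (nat_lit 5) (nat_lit 58) (nat_lit 5) (nat_lit 332) (nat_lit 283) (nat_lit 165)) (XT.lf (nat_lit 0) (nat_lit 4146847926) (nat_lit 380) (nat_lit 9618999940) (nat_lit 76) (nat_lit 6314142802) (nat_lit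 57) (nat_lit 5) (nat_lit 62) (nat_lit 5) (nat_lit 58) (nat_lit 5) (nat_lit 333) (nat_lit 283) (nat_lit 164))))))))
noncomputable def xc176 : XT := (XT.nd (nat_lit 1716) (nat_lit 1064) (nat_lit 0) (XT.nd (nat_lit 858) (nat_lit 912) (nat_lit 0) (XT.nd (nat_lit 390) (nat_lit 608) (nat_lit 0) (XT.nd (nat_lit 156) (nat_lit 228) (nat_lit 0) (XT.nd (nat_lit 78) (nat_lit 304) (nat_lit 0) (XT.lf (nat_lit 0) (nat_lit 6665049860) (nat_lit 380) (nat_lit 1926266982) (nat_lit 76) (nat_lit 11906005929) (nat_lit 57) (nat_lit 5) (nat_lit 62) (nat_lit 5) (nat_lit 58) (nat_lit 5) (nat_lit 334) (nat_lit 283) (nat_lit 163)) (XT.lf (nat_lit 0) (nat_lit 6103855058) (nat_lit 304) (nat_lit 3204066156) (nat_lit 380) (nat_lit 11617801515) (nat_lit 53) (nat_lit 5) (nat_lit 57) (nat_lit 5) (nat_lit 58) (nat_lit 5) (nat_lit 335) (nat_lit 283) (nat_lit 162))) (XT.nd (nat_lit 78) (nat_lit 228) (nat_lit 0) (XT.lf (nat_lit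 0) (nat_lit 12062842336) (nat_lit 380) (nat_lit 6987408596) (nat_lit 76) (nat_lit 2315761812) (nat_lit 53) (nat_lit 5) (nat_lit 58) (nat_lit 5) (nat_lit 54) (nat_lit 5) (nat_lit 336) (nat_lit 283) (nat_lit 161)) (XT.nd (nat_lit 78) (nat_lit 0) (nat_lit 0) (XT.lf (nat_lit 0) (nat_lit 1058736570) (nat_lit 228) (nat_lit 13874429389) (nat_lit 304) (nat_lit 6885383210) (nat_lit 50) (nat_lit 5) (nat_lit 53) (nat_lit 5) (nat_lit 54) (nat_lit 5) (nat_lit 337) (nat_lit 283) (nat_lit 160)) (XT.lf (nat_lit 0) (nat_lit 9477337531) (nat_lit 228) (nat_lit 8473824562) (nat_lit 304) (nat_lit 4331672470) (nat_lit 50) (nat_lit 5) (nat_lit 53) (nat_lit 5) (nat_lit 54) (nat_lit 5) (nat_lit 338) (nat_lit 283) (nat_lit 159))))) (XT.nd (nat_lit 234) (nat_lit 228) (nat_lit 0) (XT.nd (nat_lit 78) (nat_lit 380) (nat_lit 0) (XT.lf (nat_lit 0) (nat_lit 18136687214) (nat_lit 228) (nat_lit 2914276601) (nat_lit 304) (nat_lit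 1710365919) (nat_lit 50) (nat_lit 5) (nat_lit 53) (nat_lit 5) (nat_lit 54) (nat_lit 5) (nat_lit 339) (nat_lit 283) (nat_lit 158)) (XT.nd (nat_lit 78) (nat_lit 0) (nat_lit 0) (XT.lf (nat_lit 0) (nat_lit 1026213715) (nat_lit 380) (nat_lit 19424811141) (nat_lit 76) (nat_lit 2801209292) (nat_lit 45) (nat_lit 5) (nat_lit 50) (nat_lit 5) (nat_lit 46) (nat_lit 5) (nat_lit 340) (nat_lit 283) (nat_lit 157)) (XT.lf (nat_lit 0) (nat_lit 3878057643) (nat_lit 380) (nat_lit 11186645531) (nat_lit 76) (nat_lit 8690645743) (nat_lit 45) (nat_lit 5) (nat_lit 50) (nat_lit 5) (nat_lit 46) (nat_lit 5) (nat_lit 341) (nat_lit 283) (nat_lit 156)))) (XT.nd (nat_lit 78) (nat_lit 228) (nat_lit 0) (XT.lf (nat_lit 0) (nat_lit 6807230815) (nat_lit 380) (nat_lit 2712772872) (nat_lit 76) (nat_lit 14753817271) (nat_lit 45) (nat_lit 5) (nat_lit 50) (nat_lit 5) (nat_lit 46) (nat_lit 5) (nat_lit 342) (nat_lit 283) (nat_lit 155))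 (XT.nd (nat_lit 78) (nat_lit 0) (nat_lit 0) (XT.lf (nat_lit 0) (nat_lit 6123706765) (nat_lit 228) (nat_lit 3751450754) (nat_lit 304) (nat_lit 14931179842) (nat_lit 42) (nat_lit 5) (nat_lit 45) (nat_lit 5) (nat_lit 46) (nat_lit 5) (nat_lit 343) (nat_lit 283) (nat_lit 154)) (XT.lf (nat_lit 0) (nat_lit 13075950370) (nat_lit 304) (nat_lit 10105659452) (nat_lit 76) (nat_lit 2172010650) (nat_lit 42) (nat_lit 5) (nat_lit 46) (nat_lit 5) (nat_lit 43) (nat_lit 5) (nat_lit 344) (nat_lit 283) (nat_lit 153)))))) (XT.nd (nat_lit 390) (nat_lit 380) (nat_lit 0) (XT.nd (nat_lit 156) (nat_lit 304) (nat_lit 0) (XT.nd (nat_lit 78) (nat_lit 228) (nat_lit 0) (XT.lf (nat_lit 0) (nat_lit 16402250171) (nat_lit 304) (nat_lit 1319413137) (nat_lit 76) (nat_lit 8194789876) (nat_lit 42) (nat_lit 5) (nat_lit 46) (nat_lit 5) (nat_lit 43) (nat_lit 5) (nat_lit 345) (nat_lit 283) (nat_lit 152)) (XT.lf (nat_lit 0) (nat_lit 7873486980)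 (nat_lit 228) (nat_lit 12023099948) (nat_lit 304) (nat_lit 6597551655) (nat_lit 39) (nat_lit 5) (nat_lit 42) (nat_lit 5) (nat_lit 43) (nat_lit 5) (nat_lit 346) (nat_lit 283) (nat_lit 151))) (XT.nd (nat_lit 78) (nat_lit 304) (nat_lit 0) (XT.lf (nat_lit 0) (nat_lit 17358750766) (nat_lit 228) (nat_lit 6143005663) (nat_lit 304) (nat_lit 3587232743) (nat_lit 39) (nat_lit 5) (nat_lit 42) (nat_lit 5) (nat_lit 43) (nat_lit 5) (nat_lit 347) (nat_lit 283) (nat_lit 150)) (XT.nd (nat_lit 78) (nat_lit 304) (nat_lit 0) (XT.lf (nat_lit 0) (nat_lit 27118407404) (nat_lit 228) (nat_lit 89565990) (nat_lit 304) (nat_lit 493939387) (nat_lit 39) (nat_lit 5) (nat_lit 42) (nat_lit 5) (nat_lit 43) (nat_lit 5) (nat_lit 348) (nat_lit 283) (nat_lit 149)) (XT.lf (nat_lit 0) (nat_lit 2779083590) (nat_lit 304) (nat_lit 19413336112) (nat_lit 76) (nat_lit 6135857563) (nat_lit 35) (nat_lit 5) (nat_lit 39) (nat_lit 5) (nat_lit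 36) (nat_lit 5) (nat_lit 349) (nat_lit 283) (nat_lit 148))))) (XT.nd (nat_lit 234) (nat_lit 152) (nat_lit 0) (XT.nd (nat_lit 78) (nat_lit 228) (nat_lit 0) (XT.lf (nat_lit 0) (nat_lit 6140303125) (nat_lit 304) (nat_lit 10278902326) (nat_lit 76) (nat_lit 12554095577) (nat_lit 35) (nat_lit 5) (nat_lit 39) (nat_lit 5) (nat_lit 36) (nat_lit 5) (nat_lit 350) (nat_lit 283) (nat_lit 147)) (XT.nd (nat_lit 78) (nat_lit 228) (nat_lit 0) (XT.lf (nat_lit 0) (nat_lit 9595656495) (nat_lit 304) (nat_lit 880254128) (nat_lit 76) (nat_lit 19161978647) (nat_lit 35) (nat_lit 5) (nat_lit 39) (nat_lit 5) (nat_lit 36) (nat_lit 5) (nat_lit 351) (nat_lit 283) (nat_lit 146)) (XT.lf (nat_lit 0) (nat_lit 8965775463) (nat_lit 228) (nat_lit 4268571997) (nat_lit 304) (nat_lit 17085689705) (nat_lit 32) (nat_lit 5) (nat_lit 35) (nat_lit 5) (nat_lit 36) (nat_lit 5) (nat_lit 352) (nat_lit 283) (nat_lit 145)))) (XT.nd (nat_lit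 78) (nat_lit 152) (nat_lit 0) (XT.lf (nat_lit 0) (nat_lit 17005164827) (nat_lit 304) (nat_lit 11927281477) (nat_lit 76) (nat_lit 2089526179) (nat_lit 32) (nat_lit 5) (nat_lit 36) (nat_lit 5) (nat_lit 33) (nat_lit 5) (nat_lit 353) (nat_lit 283) (nat_lit 144)) (XT.nd (nat_lit 78) (nat_lit 152) (nat_lit 0) (XT.lf (nat_lit 0) (nat_lit 20925119463) (nat_lit 304) (nat_lit 2269089161) (nat_lit 76) (nat_lit 8549688462) (nat_lit 32) (nat_lit 5) (nat_lit 36) (nat_lit 5) (nat_lit 33) (nat_lit 5) (nat_lit 354) (nat_lit 283) (nat_lit 143)) (XT.lf (nat_lit 0) (nat_lit 7822430359) (nat_lit 152) (nat_lit 17209368074) (nat_lit 228) (nat_lit 7453618494) (nat_lit 30) (nat_lit 5) (nat_lit 32) (nat_lit 5) (nat_lit 33) (nat_lit 5) (nat_lit 355) (nat_lit 283) (nat_lit 142))))))) (XT.nd (nat_lit 858) (nat_lit 456) (nat_lit 0) (XT.nd (nat_lit 390) (nat_lit 304) (nat_lit 0) (XT.nd (nat_lit 156) (nat_lit 304) (nat_lit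 0) (XT.nd (nat_lit 78) (nat_lit 0) (nat_lit 0) (XT.lf (nat_lit 0) (nat_lit 18254236059) (nat_lit 152) (nat_lit 11024377260) (nat_lit 228) (nat_lit 3970071919) (nat_lit 30) (nat_lit 5) (nat_lit 32) (nat_lit 5) (nat_lit 33) (nat_lit 5) (nat_lit 356) (nat_lit 283) (nat_lit 141)) (XT.lf (nat_lit 0) (nat_lit 28990283785) (nat_lit 152) (nat_lit 4656745175) (nat_lit 228) (nat_lit 388007373) (nat_lit 30) (nat_lit 5) (nat_lit 32) (nat_lit 5) (nat_lit 33) (nat_lit 5) (nat_lit 357) (nat_lit 283) (nat_lit 140))) (XT.nd (nat_lit 78) (nat_lit 0) (nat_lit 0) (XT.lf (nat_lit 0) (nat_lit 3301082896) (nat_lit 304) (nat_lit 29595885366) (nat_lit 76) (nat_lit 1945147974) (nat_lit 26) (nat_lit 5) (nat_lit 30) (nat_lit 5) (nat_lit 27) (nat_lit 5) (nat_lit 358) (nat_lit 283) (nat_lit 139)) (XT.nd (nat_lit 78) (nat_lit 0) (nat_lit 0) (XT.lf (nat_lit 0) (nat_lit 7184956281) (nat_lit 304) (nat_lit 19781624655) (nat_lit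 76) (nat_lit 8703964804) (nat_lit 26) (nat_lit 5) (nat_lit 30) (nat_lit 5) (nat_lit 27) (nat_lit 5) (nat_lit 359) (nat_lit 283) (nat_lit 138)) (XT.lf (nat_lit 0) (nat_lit 11179866350) (nat_lit 304) (nat_lit 9681332464) (nat_lit 76) (nat_lit 15662803140) (nat_lit 26) (nat_lit 5) (nat_lit 30) (nat_lit 5) (nat_lit 27) (nat_lit 5) (nat_lit 360) (nat_lit 283) (nat_lit 137))))) (XT.nd (nat_lit 234) (nat_lit 152) (nat_lit 0) (XT.nd (nat_lit 78) (nat_lit 0) (nat_lit 0) (XT.lf (nat_lit 0) (nat_lit 728023055) (nat_lit 152) (nat_lit 14568278948) (nat_lit 228) (nat_lit 22106718665) (nat_lit 24) (nat_lit 5) (nat_lit 26) (nat_lit 5) (nat_lit 27) (nat_lit 5) (nat_lit 361) (nat_lit 283) (nat_lit 136)) (XT.nd (nat_lit 78) (nat_lit 0) (nat_lit 0) (XT.lf (nat_lit 0) (nat_lit 11640045197) (nat_lit 152) (nat_lit 7988705442) (nat_lit 228) (nat_lit 18676892605) (nat_lit 24) (nat_lit 5) (nat_lit 26) (nat_lit 5) (nat_lit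 27) (nat_lit 5) (nat_lit 362) (nat_lit 283) (nat_lit 135)) (XT.lf (nat_lit 0) (nat_lit 22871591237) (nat_lit 152) (nat_lit 1214491630) (nat_lit 228) (nat_lit 15149422964) (nat_lit 24) (nat_lit 5) (nat_lit 26) (nat_lit 5) (nat_lit 27) (nat_lit 5) (nat_lit 363) (nat_lit 283) (nat_lit 134)))) (XT.nd (nat_lit 78) (nat_lit 152) (nat_lit 0) (XT.lf (nat_lit 0) (nat_lit 28727564796) (nat_lit 228) (nat_lit 5816317133) (nat_lit 76) (nat_lit 5647877859) (nat_lit 24) (nat_lit 5) (nat_lit 27) (nat_lit 5) (nat_lit 25) (nat_lit 5) (nat_lit 364) (nat_lit 283) (nat_lit 133)) (XT.nd (nat_lit 78) (nat_lit 0) (nat_lit 0) (XT.lf (nat_lit 0) (nat_lit 5128239927) (nat_lit 152) (nat_lit 28436549128) (nat_lit 228) (nat_lit 7610225517) (nat_lit 22) (nat_lit 5) (nat_lit 24) (nat_lit 5) (nat_lit 25) (nat_lit 5) (nat_lit 365) (nat_lit 283) (nat_lit 132)) (XT.lf (nat_lit 0) (nat_lit 16512922080) (nat_lit 152) (nat_lit 22088187725)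 (nat_lit 228) (nat_lit 3585045704) (nat_lit 22) (nat_lit 5) (nat_lit 24) (nat_lit 5) (nat_lit 25) (nat_lit 5) (nat_lit 366) (nat_lit 283) (nat_lit 131)))))) (XT.nd (nat_lit 390) (nat_lit 228) (nat_lit 0) (XT.nd (nat_lit 156) (nat_lit 152) (nat_lit 0) (XT.nd (nat_lit 78) (nat_lit 0) (nat_lit 0) (XT.lf (nat_lit 0) (nat_lit 545276128) (nat_lit 228) (nat_lit 15001201659) (nat_lit 76) (nat_lit 27681138641) (nat_lit 21) (nat_lit 5) (nat_lit 24) (nat_lit 5) (nat_lit 22) (nat_lit 5) (nat_lit 367) (nat_lit 283) (nat_lit 130)) (XT.lf (nat_lit 0) (nat_lit 4722919321) (nat_lit 228) (nat_lit 4051615185) (nat_lit 76) (nat_lit 35524865012) (nat_lit 21) (nat_lit 5) (nat_lit 24) (nat_lit 5) (nat_lit 22) (nat_lit 5) (nat_lit 368) (nat_lit 283) (nat_lit 129))) (XT.nd (nat_lit 78) (nat_lit 0) (nat_lit 0) (XT.lf (nat_lit 0) (nat_lit 7363238551) (nat_lit 152) (nat_lit 1729032797) (nat_lit 228) (nat_lit 36309080388)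 (nat_lit 19) (nat_lit 5) (nat_lit 21) (nat_lit 5) (nat_lit 22) (nat_lit 5) (nat_lit 369) (nat_lit 283) (nat_lit 128)) (XT.nd (nat_lit 78) (nat_lit 0) (nat_lit 0) (XT.lf (nat_lit 0) (nat_lit 13682797341) (nat_lit 228) (nat_lit 27392033986) (nat_lit 76) (nat_lit 5458835211) (nat_lit 19) (nat_lit 5) (nat_lit 22) (nat_lit 5) (nat_lit 20) (nat_lit 5) (nat_lit 370) (nat_lit 283) (nat_lit 127)) (XT.lf (nat_lit 0) (nat_lit 18423923327) (nat_lit 228) (nat_lit 16450438051) (nat_lit 76) (nat_lit 12825209499) (nat_lit 19) (nat_lit 5) (nat_lit 22) (nat_lit 5) (nat_lit 20) (nat_lit 5) (nat_lit 371) (nat_lit 283) (nat_lit 126))))) (XT.nd (nat_lit 234) (nat_lit 76) (nat_lit 0) (XT.nd (nat_lit 78) (nat_lit 152) (nat_lit 0) (XT.lf (nat_lit 0) (nat_lit 23303171517) (nat_lit 228) (nat_lit 5187144243) (nat_lit 76) (nat_lit 20410266361) (nat_lit 19) (nat_lit 5) (nat_lit 22) (nat_lit 5) (nat_lit 20) (nat_lit 5) (nat_lit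 372) (nat_lit 283) (nat_lit 125)) (XT.nd (nat_lit 78) (nat_lit 0) (nat_lit 0) (XT.lf (nat_lit 0) (nat_lit 6535214730) (nat_lit 152) (nat_lit 21852411084) (nat_lit 228) (nat_lit 21748239268) (nat_lit 17) (nat_lit 5) (nat_lit 19) (nat_lit 5) (nat_lit 20) (nat_lit 5) (nat_lit 373) (nat_lit 283) (nat_lit 124)) (XT.lf (nat_lit 0) (nat_lit 18709278962) (nat_lit 152) (nat_lit 14963778681) (nat_lit 228) (nat_lit 17733701631) (nat_lit 17) (nat_lit 5) (nat_lit 19) (nat_lit 5) (nat_lit 20) (nat_lit 5) (nat_lit 374) (nat_lit 283) (nat_lit 123)))) (XT.nd (nat_lit 78) (nat_lit 76) (nat_lit 0) (XT.lf (nat_lit 0) (nat_lit 31242451643) (nat_lit 152) (nat_lit 7870779343) (nat_lit 228) (nat_lit 13602669830) (nat_lit 17) (nat_lit 5) (nat_lit 19) (nat_lit 5) (nat_lit 20) (nat_lit 5) (nat_lit 375) (nat_lit 283) (nat_lit 122)) (XT.nd (nat_lit 78) (nat_lit 76) (nat_lit 0) (XT.lf (nat_lit 0) (nat_lit 44145684089) (nat_lit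 152) (nat_lit 567215305) (nat_lit 228) (nat_lit 9351534225) (nat_lit 17) (nat_lit 5) (nat_lit 19) (nat_lit 5) (nat_lit 20) (nat_lit 5) (nat_lit 376) (nat_lit 283) (nat_lit 121)) (XT.lf (nat_lit 0) (nat_lit 1947885899) (nat_lit 76) (nat_lit 48614633479) (nat_lit 152) (nat_lit 4888449727) (nat_lit 16) (nat_lit 5) (nat_lit 17) (nat_lit 5) (nat_lit 18) (nat_lit 4) (nat_lit 377) (nat_lit 283) (nat_lit 120))))))))
noncomputable def xc177 : XT := (XT.nd (nat_lit 34164) (nat_lit 0) (nat_lit 6004) (XT.nd (nat_lit 33306) (nat_lit 0) (nat_lit 11172) (XT.nd (nat_lit 390) (nat_lit 76) (nat_lit 0) (XT.nd (nat_lit 156) (nat_lit 152) (nat_lit 0) (XT.nd (nat_lit 78) (nat_lit 76) (nat_lit 0) (XT.lf (nat_lit 0) (nat_lit 14362319299) (nat_lit 76) (nat_lit 42327456463) (nat_lit 152) (nat_lit 186265841) (nat_lit 16) (nat_lit 5) (nat_lit 17) (nat_lit 5) (nat_lit 18) (nat_lit 4) (nat_lit 378) (nat_lit 283) (nat_lit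 119)) (XT.lf (nat_lit 0) (nat_lit 4562600580) (nat_lit 152) (nat_lit 31245150350) (nat_lit 76) (nat_lit 22534882701) (nat_lit 15) (nat_lit 5) (nat_lit 17) (nat_lit 5) (nat_lit 16) (nat_lit 5) (nat_lit 379) (nat_lit 283) (nat_lit 118))) (XT.nd (nat_lit 78) (nat_lit 152) (nat_lit 0) (XT.lf (nat_lit 0) (nat_lit 9446782967) (nat_lit 152) (nat_lit 19645903314) (nat_lit 76) (nat_lit 30760588925) (nat_lit 15) (nat_lit 5) (nat_lit 17) (nat_lit 5) (nat_lit 16) (nat_lit 5) (nat_lit 380) (nat_lit 283) (nat_lit 117)) (XT.nd (nat_lit 78) (nat_lit 152) (nat_lit 0) (XT.lf (nat_lit 0) (nat_lit 14474183770) (nat_lit 152) (nat_lit 7704055433) (nat_lit 76) (nat_lit 39231100821) (nat_lit 15) (nat_lit 5) (nat_lit 17) (nat_lit 5) (nat_lit 16) (nat_lit 5) (nat_lit 381) (nat_lit 283) (nat_lit 116)) (XT.lf (nat_lit 0) (nat_lit 4682194395) (nat_lit 152) (nat_lit 15012009583) (nat_lit 228) (nat_lit 43316633528) (nat_lit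 13) (nat_lit 5) (nat_lit 15) (nat_lit 5) (nat_lit 16) (nat_lit 5) (nat_lit 382) (nat_lit 283) (nat_lit 115))))) (XT.nd (nat_lit 234) (nat_lit 76) (nat_lit 0) (XT.nd (nat_lit 78) (nat_lit 0) (nat_lit 0) (XT.lf (nat_lit 0) (nat_lit 17592788512) (nat_lit 152) (nat_lit 7552665231) (nat_lit 228) (nat_lit 39512691810) (nat_lit 13) (nat_lit 5) (nat_lit 15) (nat_lit 5) (nat_lit 16) (nat_lit 5) (nat_lit 383) (nat_lit 283) (nat_lit 114)) (XT.nd (nat_lit 78) (nat_lit 0) (nat_lit 0) (XT.lf (nat_lit 0) (nat_lit 30758401712) (nat_lit 228) (nat_lit 35470522622) (nat_lit 76) (nat_lit 126008063) (nat_lit 13) (nat_lit 5) (nat_lit 16) (nat_lit 5) (nat_lit 14) (nat_lit 4) (nat_lit 384) (nat_lit 283) (nat_lit 113)) (XT.lf (nat_lit 0) (nat_lit 36611513734) (nat_lit 228) (nat_lit 23607569778) (nat_lit 76) (nat_lit 7881390316) (nat_lit 13) (nat_lit 5) (nat_lit 16) (nat_lit 5) (nat_lit 14) (nat_lit 4) (nat_lit 385)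 (nat_lit 283) (nat_lit 112)))) (XT.nd (nat_lit 78) (nat_lit 76) (nat_lit 0) (XT.lf (nat_lit 0) (nat_lit 42637303340) (nat_lit 228) (nat_lit 11393531983) (nat_lit 76) (nat_lit 15867637776) (nat_lit 13) (nat_lit 5) (nat_lit 16) (nat_lit 5) (nat_lit 14) (nat_lit 4) (nat_lit 386) (nat_lit 283) (nat_lit 111)) (XT.nd (nat_lit 78) (nat_lit 0) (nat_lit 0) (XT.lf (nat_lit 0) (nat_lit 1205792577) (nat_lit 76) (nat_lit 47646834022) (nat_lit 152) (nat_lit 22897526956) (nat_lit 12) (nat_lit 5) (nat_lit 13) (nat_lit 5) (nat_lit 14) (nat_lit 4) (nat_lit 387) (nat_lit 283) (nat_lit 110)) (XT.lf (nat_lit 0) (nat_lit 14412035111) (nat_lit 76) (nat_lit 40954633990) (nat_lit 152) (nat_lit 18287351426) (nat_lit 12) (nat_lit 5) (nat_lit 13) (nat_lit 5) (nat_lit 14) (nat_lit 4) (nat_lit 388) (nat_lit 283) (nat_lit 109)))))) (XT.nd (nat_lit 390) (nat_lit 0) (nat_lit 152) (XT.nd (nat_lit 156) (nat_lit 0) (nat_lit 76)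 (XT.nd (nat_lit 78) (nat_lit 0) (nat_lit 0) (XT.lf (nat_lit 0) (nat_lit 382485341) (nat_lit 988) (nat_lit 2057130426) (nat_lit 988) (nat_lit 2057130426) (nat_lit 159) (nat_lit 3) (nat_lit 172) (nat_lit 3) (nat_lit 172) (nat_lit 5) (nat_lit 284) (nat_lit 284) (nat_lit 212)) (XT.lf (nat_lit 0) (nat_lit 1572745741) (nat_lit 988) (nat_lit 480675616) (nat_lit 988) (nat_lit 7048433763) (nat_lit 159) (nat_lit 3) (nat_lit 172) (nat_lit 3) (nat_lit 172) (nat_lit 5) (nat_lit 285) (nat_lit 284) (nat_lit 211))) (XT.nd (nat_lit 78) (nat_lit 0) (nat_lit 0) (XT.lf (nat_lit 0) (nat_lit 2414197869) (nat_lit 912) (nat_lit 5911789284) (nat_lit 988) (nat_lit 887301715) (nat_lit 160) (nat_lit 5) (nat_lit 172) (nat_lit 5) (nat_lit 173) (nat_lit 5) (nat_lit 286) (nat_lit 284) (nat_lit 210)) (XT.nd (nat_lit 78) (nat_lit 0) (nat_lit 0) (XT.lf (nat_lit 0) (nat_lit 3275940027) (nat_lit 912) (nat_lit 2158353569) (nat_lit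 988) (nat_lit 3894021073) (nat_lit 160) (nat_lit 5) (nat_lit 172) (nat_lit 5) (nat_lit 173) (nat_lit 5) (nat_lit 287) (nat_lit 284) (nat_lit 209)) (XT.lf (nat_lit 76) (nat_lit 1724790625) (nat_lit 0) (nat_lit 2426016405) (nat_lit 988) (nat_lit 5296463544) (nat_lit 161) (nat_lit 5) (nat_lit 160) (nat_lit 5) (nat_lit 173) (nat_lit 5) (nat_lit 288) (nat_lit 284) (nat_lit 208))))) (XT.nd (nat_lit 234) (nat_lit 0) (nat_lit 76) (XT.nd (nat_lit 78) (nat_lit 0) (nat_lit 0) (XT.lf (nat_lit 0) (nat_lit 5051901931) (nat_lit 912) (nat_lit 3824608074) (nat_lit 988) (nat_lit 693380364) (nat_lit 161) (nat_lit 5) (nat_lit 173) (nat_lit 5) (nat_lit 174) (nat_lit 5) (nat_lit 289) (nat_lit 284) (nat_lit 207)) (XT.nd (nat_lit 78) (nat_lit 0) (nat_lit 0) (XT.lf (nat_lit 76) (nat_lit 152198787) (nat_lit 0) (nat_lit 5825650180) (nat_lit 988) (nat_lit 3718497124) (nat_lit 162) (nat_lit 5) (nat_lit 161) (nat_lit 5)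 (nat_lit 174) (nat_lit 5) (nat_lit 290) (nat_lit 284) (nat_lit 206)) (XT.lf (nat_lit 76) (nat_lit 4309925608) (nat_lit 0) (nat_lit 2633250538) (nat_lit 988) (nat_lit 2883160521) (nat_lit 162) (nat_lit 5) (nat_lit 161) (nat_lit 5) (nat_lit 174) (nat_lit 5) (nat_lit 291) (nat_lit 284) (nat_lit 205)))) (XT.nd (nat_lit 78) (nat_lit 0) (nat_lit 0) (XT.lf (nat_lit 0) (nat_lit 7917621814) (nat_lit 912) (nat_lit 1391403430) (nat_lit 988) (nat_lit 651883590) (nat_lit 162) (nat_lit 5) (nat_lit 174) (nat_lit 5) (nat_lit 175) (nat_lit 5) (nat_lit 292) (nat_lit 284) (nat_lit 204)) (XT.nd (nat_lit 78) (nat_lit 0) (nat_lit 0) (XT.lf (nat_lit 76) (nat_lit 2870534783) (nat_lit 0) (nat_lit 6079055632) (nat_lit 988) (nat_lit 1149163178) (nat_lit 163) (nat_lit 5) (nat_lit 162) (nat_lit 5) (nat_lit 175) (nat_lit 5) (nat_lit 293) (nat_lit 284) (nat_lit 203)) (XT.lf (nat_lit 76) (nat_lit 7272255556) (nat_lit 0) (nat_lit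 2729516947) (nat_lit 988) (nat_lit 239365220) (nat_lit 163) (nat_lit 5) (nat_lit 162) (nat_lit 5) (nat_lit 175) (nat_lit 5) (nat_lit 294) (nat_lit 284) (nat_lit 202))))))) (XT.nd (nat_lit 858) (nat_lit 2508) (nat_lit 0) (XT.nd (nat_lit 390) (nat_lit 1976) (nat_lit 0) (XT.nd (nat_lit 156) (nat_lit 0) (nat_lit 0) (XT.nd (nat_lit 78) (nat_lit 0) (nat_lit 0) (XT.lf (nat_lit 0) (nat_lit 680598534) (nat_lit 988) (nat_lit 8972581570) (nat_lit 1064) (nat_lit 734594426) (nat_lit 150) (nat_lit 5) (nat_lit 163) (nat_lit 5) (nat_lit 164) (nat_lit 5) (nat_lit 295) (nat_lit 284) (nat_lit 201)) (XT.lf (nat_lit 0) (nat_lit 1656884002) (nat_lit 988) (nat_lit 4593326962) (nat_lit 1064) (nat_lit 4287597098) (nat_lit 150) (nat_lit 5) (nat_lit 163) (nat_lit 5) (nat_lit 164) (nat_lit 5) (nat_lit 296) (nat_lit 284) (nat_lit 200))) (XT.nd (nat_lit 78) (nat_lit 0) (nat_lit 76) (XT.lf (nat_lit 0) (nat_lit 2639382465)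 (nat_lit 988) (nat_lit 99562413) (nat_lit 1064) (nat_lit 7954162544) (nat_lit 150) (nat_lit 5) (nat_lit 163) (nat_lit 5) (nat_lit 164) (nat_lit 5) (nat_lit 297) (nat_lit 284) (nat_lit 199)) (XT.nd (nat_lit 78) (nat_lit 0) (nat_lit 0) (XT.lf (nat_lit 0) (nat_lit 3682126541) (nat_lit 988) (nat_lit 6258964608) (nat_lit 1064) (nat_lit 911121937) (nat_lit 151) (nat_lit 5) (nat_lit 164) (nat_lit 5) (nat_lit 165) (nat_lit 5) (nat_lit 298) (nat_lit 284) (nat_lit 198)) (XT.lf (nat_lit 0) (nat_lit 4762434437) (nat_lit 988) (nat_lit 1631301502) (nat_lit 1064) (nat_lit 4622235926) (nat_lit 151) (nat_lit 5) (nat_lit 164) (nat_lit 5) (nat_lit 165) (nat_lit 5) (nat_lit 299) (nat_lit 284) (nat_lit 197))))) (XT.nd (nat_lit 234) (nat_lit 1140) (nat_lit 0) (XT.nd (nat_lit 78) (nat_lit 912) (nat_lit 0) (XT.lf (nat_lit 76) (nat_lit 3180758431) (nat_lit 0) (nat_lit 2703752896) (nat_lit 1064) (nat_lit 5299917687)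 (nat_lit 152) (nat_lit 5) (nat_lit 151) (nat_lit 5) (nat_lit 165) (nat_lit 5) (nat_lit 300) (nat_lit 284) (nat_lit 196)) (XT.nd (nat_lit 78) (nat_lit 988) (nat_lit 0) (XT.lf (nat_lit 0) (nat_lit 7046718600) (nat_lit 988) (nat_lit 3214601798) (nat_lit 76) (nat_lit 1096489902) (nat_lit 152) (nat_lit 5) (nat_lit 165) (nat_lit 5) (nat_lit 153) (nat_lit 5) (nat_lit 301) (nat_lit 284) (nat_lit 195)) (XT.lf (nat_lit 0) (nat_lit 1708129231) (nat_lit 988) (nat_lit 6558743217) (nat_lit 1064) (nat_lit 3268890752) (nat_lit 139) (nat_lit 5) (nat_lit 152) (nat_lit 5) (nat_lit 153) (nat_lit 5) (nat_lit 302) (nat_lit 284) (nat_lit 194)))) (XT.nd (nat_lit 78) (nat_lit 1140) (nat_lit 0) (XT.lf (nat_lit 0) (nat_lit 6828029102) (nat_lit 988) (nat_lit 2708381894) (nat_lit 1064) (nat_lit 2182321054) (nat_lit 139) (nat_lit 5) (nat_lit 152) (nat_lit 5) (nat_lit 153) (nat_lit 5) (nat_lit 303) (nat_lit 284) (nat_lit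 193)) (XT.nd (nat_lit 78) (nat_lit 76) (nat_lit 0) (XT.lf (nat_lit 0) (nat_lit 168950981) (nat_lit 1064) (nat_lit 10669719224) (nat_lit 1140) (nat_lit 1068739718) (nat_lit 125) (nat_lit 5) (nat_lit 139) (nat_lit 5) (nat_lit 140) (nat_lit 5) (nat_lit 304) (nat_lit 284) (nat_lit 192)) (XT.lf (nat_lit 0) (nat_lit 134492558) (nat_lit 1140) (nat_lit 6664537789) (nat_lit 76) (nat_lit 5301017716) (nat_lit 124) (nat_lit 5) (nat_lit 139) (nat_lit 5) (nat_lit 125) (nat_lit 5) (nat_lit 305) (nat_lit 284) (nat_lit 191)))))) (XT.nd (nat_lit 390) (nat_lit 1520) (nat_lit 0) (XT.nd (nat_lit 156) (nat_lit 456) (nat_lit 0) (XT.nd (nat_lit 78) (nat_lit 532) (nat_lit 0) (XT.lf (nat_lit 0) (nat_lit 1333971558) (nat_lit 1140) (nat_lit 1465352990) (nat_lit 76) (nat_lit 9499428430) (nat_lit 124) (nat_lit 5) (nat_lit 139) (nat_lit 5) (nat_lit 125) (nat_lit 5) (nat_lit 306) (nat_lit 284) (nat_lit 190)) (XT.lf (nat_lit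 0) (nat_lit 2602666759) (nat_lit 608) (nat_lit 8564943756) (nat_lit 76) (nat_lit 1334863985) (nat_lit 117) (nat_lit 5) (nat_lit 125) (nat_lit 5) (nat_lit 118) (nat_lit 5) (nat_lit 307) (nat_lit 284) (nat_lit 189))) (XT.nd (nat_lit 78) (nat_lit 456) (nat_lit 0) (XT.lf (nat_lit 0) (nat_lit 3934632756) (nat_lit 608) (nat_lit 3223518236) (nat_lit 76) (nat_lit 5553451267) (nat_lit 117) (nat_lit 5) (nat_lit 125) (nat_lit 5) (nat_lit 118) (nat_lit 5) (nat_lit 308) (nat_lit 284) (nat_lit 188)) (XT.nd (nat_lit 78) (nat_lit 0) (nat_lit 0) (XT.lf (nat_lit 0) (nat_lit 2307318628) (nat_lit 456) (nat_lit 3004476865) (nat_lit 532) (nat_lit 7615100631) (nat_lit 111) (nat_lit 5) (nat_lit 117) (nat_lit 5) (nat_lit 118) (nat_lit 5) (nat_lit 309) (nat_lit 284) (nat_lit 187)) (XT.lf (nat_lit 0) (nat_lit 6758800804) (nat_lit 532) (nat_lit 5106334266) (nat_lit 76) (nat_lit 1282705873) (nat_lit 111) (nat_lit 5) (nat_lit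 118) (nat_lit 5) (nat_lit 112) (nat_lit 5) (nat_lit 310) (nat_lit 284) (nat_lit 186))))) (XT.nd (nat_lit 234) (nat_lit 988) (nat_lit 0) (XT.nd (nat_lit 78) (nat_lit 0) (nat_lit 0) (XT.lf (nat_lit 0) (nat_lit 537261658) (nat_lit 532) (nat_lit 7730759186) (nat_lit 608) (nat_lit 5106875696) (nat_lit 104) (nat_lit 5) (nat_lit 111) (nat_lit 5) (nat_lit 112) (nat_lit 5) (nat_lit 311) (nat_lit 284) (nat_lit 185)) (XT.nd (nat_lit 78) (nat_lit 0) (nat_lit 0) (XT.lf (nat_lit 0) (nat_lit 6439213808) (nat_lit 532) (nat_lit 3419079358) (nat_lit 608) (nat_lit 3749442581) (nat_lit 104) (nat_lit 5) (nat_lit 111) (nat_lit 5) (nat_lit 112) (nat_lit 5) (nat_lit 312) (nat_lit 284) (nat_lit 184)) (XT.lf (nat_lit 0) (nat_lit 11490770357) (nat_lit 608) (nat_lit 1354835845) (nat_lit 76) (nat_lit 1002162926) (nat_lit 104) (nat_lit 5) (nat_lit 112) (nat_lit 5) (nat_lit 105) (nat_lit 5) (nat_lit 313) (nat_lit 284) (nat_lit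 183)))) (XT.nd (nat_lit 78) (nat_lit 532) (nat_lit 0) (XT.lf (nat_lit 0) (nat_lit 4675422884) (nat_lit 456) (nat_lit 8560713770) (nat_lit 532) (nat_lit 856992031) (nat_lit 98) (nat_lit 5) (nat_lit 104) (nat_lit 5) (nat_lit 105) (nat_lit 5) (nat_lit 314) (nat_lit 284) (nat_lit 182)) (XT.nd (nat_lit 78) (nat_lit 456) (nat_lit 0) (XT.lf (nat_lit 0) (nat_lit 673628898) (nat_lit 532) (nat_lit 3453230555) (nat_lit 76) (nat_lit 10218860152) (nat_lit 97) (nat_lit 5) (nat_lit 104) (nat_lit 5) (nat_lit 98) (nat_lit 5) (nat_lit 315) (nat_lit 284) (nat_lit 181)) (XT.lf (nat_lit 0) (nat_lit 2249308297) (nat_lit 532) (nat_lit 11890074610) (nat_lit 76) (nat_lit 465798858) (nat_lit 91) (nat_lit 5) (nat_lit 98) (nat_lit 5) (nat_lit 92) (nat_lit 5) (nat_lit 316) (nat_lit 284) (nat_lit 180))))))))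
noncomputable def xc178 : XT := (XT.nd (nat_lit 1716) (nat_lit 1824) (nat_lit 0) (XT.nd (nat_lit 858) (nat_lit 1520) (nat_lit 0) (XT.nd (nat_lit 390) (nat_lit 836) (nat_lit 0) (XT.nd (nat_lit 156) (nat_lit 380) (nat_lit 0) (XT.nd (nat_lit 78) (nat_lit 380) (nat_lit 0) (XT.lf (nat_lit 0) (nat_lit 3934255981) (nat_lit 532) (nat_lit 5788566719) (nat_lit 76) (nat_lit 5147783019) (nat_lit 91) (nat_lit 5) (nat_lit 98) (nat_lit 5) (nat_lit 92) (nat_lit 5) (nat_lit 317) (nat_lit 284) (nat_lit 179)) (XT.lf (nat_lit 0) (nat_lit 490744501) (nat_lit 380) (nat_lit 5170056769) (nat_lit 456) (nat_lit 9483496411) (nat_lit 86) (nat_lit 5) (nat_lit 91) (nat_lit 5) (nat_lit 92) (nat_lit 5) (nat_lit 318) (nat_lit 284) (nat_lit 178))) (XT.nd (nat_lit 78) (nat_lit 380) (nat_lit 0) (XT.lf (nat_lit 0) (nat_lit 7062422177) (nat_lit 380) (nat_lit 421762810) (nat_lit 456) (nat_lit 7940699843) (nat_lit 86) (nat_lit 5)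 (nat_lit 91) (nat_lit 5) (nat_lit 92) (nat_lit 5) (nat_lit 319) (nat_lit 284) (nat_lit 177)) (XT.nd (nat_lit 78) (nat_lit 380) (nat_lit 0) (XT.lf (nat_lit 0) (nat_lit 9392196523) (nat_lit 456) (nat_lit 1940256934) (nat_lit 76) (nat_lit 4380573003) (nat_lit 86) (nat_lit 5) (nat_lit 92) (nat_lit 5) (nat_lit 87) (nat_lit 5) (nat_lit 320) (nat_lit 284) (nat_lit 176)) (XT.lf (nat_lit 0) (nat_lit 4748874746) (nat_lit 380) (nat_lit 6645745932) (nat_lit 456) (nat_lit 4614110135) (nat_lit 81) (nat_lit 5) (nat_lit 86) (nat_lit 5) (nat_lit 87) (nat_lit 5) (nat_lit 321) (nat_lit 284) (nat_lit 175))))) (XT.nd (nat_lit 234) (nat_lit 380) (nat_lit 0) (XT.nd (nat_lit 78) (nat_lit 456) (nat_lit 0) (XT.lf (nat_lit 0) (nat_lit 11664361279) (nat_lit 380) (nat_lit 1799929446) (nat_lit 456) (nat_lit 2848833040) (nat_lit 81) (nat_lit 5) (nat_lit 86) (nat_lit 5) (nat_lit 87) (nat_lit 5) (nat_lit 322) (nat_lit 284)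 (nat_lit 174)) (XT.nd (nat_lit 78) (nat_lit 76) (nat_lit 0) (XT.lf (nat_lit 0) (nat_lit 2158038812) (nat_lit 380) (nat_lit 13477359309) (nat_lit 456) (nat_lit 990101680) (nat_lit 76) (nat_lit 5) (nat_lit 81) (nat_lit 5) (nat_lit 82) (nat_lit 5) (nat_lit 323) (nat_lit 284) (nat_lit 173)) (XT.lf (nat_lit 0) (nat_lit 959579424) (nat_lit 456) (nat_lit 7722862058) (nat_lit 76) (nat_lit 8262972172) (nat_lit 75) (nat_lit 5) (nat_lit 81) (nat_lit 5) (nat_lit 76) (nat_lit 5) (nat_lit 324) (nat_lit 284) (nat_lit 172)))) (XT.nd (nat_lit 78) (nat_lit 380) (nat_lit 0) (XT.lf (nat_lit 0) (nat_lit 2936197265) (nat_lit 456) (nat_lit 799505602) (nat_lit 76) (nat_lit 13539306598) (nat_lit 75) (nat_lit 5) (nat_lit 81) (nat_lit 5) (nat_lit 76) (nat_lit 5) (nat_lit 325) (nat_lit 284) (nat_lit 171)) (XT.nd (nat_lit 78) (nat_lit 0) (nat_lit 0) (XT.lf (nat_lit 0) (nat_lit 5036403555) (nat_lit 456) (nat_lit 11182744232)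 (nat_lit 76) (nat_lit 1393444840) (nat_lit 70) (nat_lit 5) (nat_lit 76) (nat_lit 5) (nat_lit 71) (nat_lit 5) (nat_lit 326) (nat_lit 284) (nat_lit 170)) (XT.lf (nat_lit 0) (nat_lit 7233624075) (nat_lit 456) (nat_lit 4118241322) (nat_lit 76) (nat_lit 6607445003) (nat_lit 70) (nat_lit 5) (nat_lit 76) (nat_lit 5) (nat_lit 71) (nat_lit 5) (nat_lit 327) (nat_lit 284) (nat_lit 169)))))) (XT.nd (nat_lit 390) (nat_lit 912) (nat_lit 0) (XT.nd (nat_lit 156) (nat_lit 304) (nat_lit 0) (XT.nd (nat_lit 78) (nat_lit 0) (nat_lit 0) (XT.lf (nat_lit 0) (nat_lit 3207598928) (nat_lit 304) (nat_lit 6309187442) (nat_lit 380) (nat_lit 8799069139) (nat_lit 66) (nat_lit 5) (nat_lit 70) (nat_lit 5) (nat_lit 71) (nat_lit 5) (nat_lit 328) (nat_lit 284) (nat_lit 168)) (XT.lf (nat_lit 0) (nat_lit 10824574051) (nat_lit 304) (nat_lit 1074836663) (nat_lit 380) (nat_lit 6782783027) (nat_lit 66) (nat_lit 5) (nat_lit 70) (nat_lit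 5) (nat_lit 71) (nat_lit 5) (nat_lit 329) (nat_lit 284) (nat_lit 167))) (XT.nd (nat_lit 78) (nat_lit 304) (nat_lit 0) (XT.lf (nat_lit 0) (nat_lit 14384674581) (nat_lit 380) (nat_lit 443948353) (nat_lit 76) (nat_lit 4229989396) (nat_lit 66) (nat_lit 5) (nat_lit 71) (nat_lit 5) (nat_lit 67) (nat_lit 5) (nat_lit 330) (nat_lit 284) (nat_lit 166)) (XT.nd (nat_lit 78) (nat_lit 0) (nat_lit 0) (XT.lf (nat_lit 0) (nat_lit 7311552907) (nat_lit 304) (nat_lit 9703836993) (nat_lit 380) (nat_lit 2428831076) (nat_lit 62) (nat_lit 5) (nat_lit 66) (nat_lit 5) (nat_lit 67) (nat_lit 5) (nat_lit 331) (nat_lit 284) (nat_lit 165)) (XT.lf (nat_lit 0) (nat_lit 15296330368) (nat_lit 304) (nat_lit 4423319915) (nat_lit 380) (nat_lit 121932487) (nat_lit 62) (nat_lit 5) (nat_lit 66) (nat_lit 5) (nat_lit 67) (nat_lit 5) (nat_lit 332) (nat_lit 284) (nat_lit 164))))) (XT.nd (nat_lit 234) (nat_lit 532) (nat_lit 0) (XT.nd (nat_lit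 78) (nat_lit 0) (nat_lit 0) (XT.lf (nat_lit 0) (nat_lit 2242485685) (nat_lit 380) (nat_lit 16959667548) (nat_lit 76) (nat_lit 1047115383) (nat_lit 57) (nat_lit 5) (nat_lit 62) (nat_lit 5) (nat_lit 58) (nat_lit 5) (nat_lit 333) (nat_lit 284) (nat_lit 163)) (XT.nd (nat_lit 78) (nat_lit 0) (nat_lit 0) (XT.lf (nat_lit 0) (nat_lit 4755982877) (nat_lit 380) (nat_lit 9273092768) (nat_lit 76) (nat_lit 6637676853) (nat_lit 57) (nat_lit 5) (nat_lit 62) (nat_lit 5) (nat_lit 58) (nat_lit 5) (nat_lit 334) (nat_lit 284) (nat_lit 162)) (XT.lf (nat_lit 0) (nat_lit 7335612534) (nat_lit 380) (nat_lit 1368057739) (nat_lit 76) (nat_lit 12393389764) (nat_lit 57) (nat_lit 5) (nat_lit 62) (nat_lit 5) (nat_lit 58) (nat_lit 5) (nat_lit 335) (nat_lit 284) (nat_lit 161)))) (XT.nd (nat_lit 78) (nat_lit 228) (nat_lit 0) (XT.lf (nat_lit 0) (nat_lit 6896928774) (nat_lit 304) (nat_lit 3152997423) (nat_lit 380) (nat_lit 11488652104)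 (nat_lit 53) (nat_lit 5) (nat_lit 57) (nat_lit 5) (nat_lit 58) (nat_lit 5) (nat_lit 336) (nat_lit 284) (nat_lit 160)) (XT.nd (nat_lit 78) (nat_lit 228) (nat_lit 0) (XT.lf (nat_lit 0) (nat_lit 12875389969) (nat_lit 380) (nat_lit 6591730576) (nat_lit 76) (nat_lit 2525349712) (nat_lit 53) (nat_lit 5) (nat_lit 58) (nat_lit 5) (nat_lit 54) (nat_lit 5) (nat_lit 337) (nat_lit 284) (nat_lit 159)) (XT.lf (nat_lit 0) (nat_lit 1689864629) (nat_lit 228) (nat_lit 14134594055) (nat_lit 304) (nat_lit 6634374241) (nat_lit 50) (nat_lit 5) (nat_lit 53) (nat_lit 5) (nat_lit 54) (nat_lit 5) (nat_lit 338) (nat_lit 284) (nat_lit 158))))))) (XT.nd (nat_lit 858) (nat_lit 988) (nat_lit 0) (XT.nd (nat_lit 390) (nat_lit 456) (nat_lit 0) (XT.nd (nat_lit 156) (nat_lit 380) (nat_lit 0) (XT.nd (nat_lit 78) (nat_lit 0) (nat_lit 0) (XT.lf (nat_lit 0) (nat_lit 10343566358) (nat_lit 228) (nat_lit 8576516759) (nat_lit 304) (nat_lit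 4017379474) (nat_lit 50) (nat_lit 5) (nat_lit 53) (nat_lit 5) (nat_lit 54) (nat_lit 5) (nat_lit 339) (nat_lit 284) (nat_lit 157)) (XT.lf (nat_lit 0) (nat_lit 19245747734) (nat_lit 228) (nat_lit 2854595638) (nat_lit 304) (nat_lit 1330372848) (nat_lit 50) (nat_lit 5) (nat_lit 53) (nat_lit 5) (nat_lit 54) (nat_lit 5) (nat_lit 340) (nat_lit 284) (nat_lit 156))) (XT.nd (nat_lit 78) (nat_lit 0) (nat_lit 0) (XT.lf (nat_lit 0) (nat_lit 1474503740) (nat_lit 380) (nat_lit 19427038788) (nat_lit 76) (nat_lit 3034868340) (nat_lit 45) (nat_lit 5) (nat_lit 50) (nat_lit 5) (nat_lit 46) (nat_lit 5) (nat_lit 341) (nat_lit 284) (nat_lit 155)) (XT.nd (nat_lit 78) (nat_lit 0) (nat_lit 0) (XT.lf (nat_lit 0) (nat_lit 4399742686) (nat_lit 380) (nat_lit 10958636463) (nat_lit 76) (nat_lit 9096629940) (nat_lit 45) (nat_lit 5) (nat_lit 50) (nat_lit 5) (nat_lit 46) (nat_lit 5) (nat_lit 342) (nat_lit 284) (nat_lit 154))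 (XT.lf (nat_lit 0) (nat_lit 7404984938) (nat_lit 380) (nat_lit 2246963404) (nat_lit 76) (nat_lit 15337465599) (nat_lit 45) (nat_lit 5) (nat_lit 50) (nat_lit 5) (nat_lit 46) (nat_lit 5) (nat_lit 343) (nat_lit 284) (nat_lit 153))))) (XT.nd (nat_lit 234) (nat_lit 228) (nat_lit 0) (XT.nd (nat_lit 78) (nat_lit 0) (nat_lit 0) (XT.lf (nat_lit 0) (nat_lit 6849245988) (nat_lit 228) (nat_lit 3709449587) (nat_lit 304) (nat_lit 14979421628) (nat_lit 42) (nat_lit 5) (nat_lit 45) (nat_lit 5) (nat_lit 46) (nat_lit 5) (nat_lit 344) (nat_lit 284) (nat_lit 152)) (XT.nd (nat_lit 78) (nat_lit 0) (nat_lit 0) (XT.lf (nat_lit 0) (nat_lit 13845674425) (nat_lit 304) (nat_lit 9872176110) (nat_lit 76) (nat_lit 2384286470) (nat_lit 42) (nat_lit 5) (nat_lit 46) (nat_lit 5) (nat_lit 43) (nat_lit 5) (nat_lit 345) (nat_lit 284) (nat_lit 151)) (XT.lf (nat_lit 0) (nat_lit 17260769660) (nat_lit 304) (nat_lit 837973079) (nat_lit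 76) (nat_lit 8583464155) (nat_lit 42) (nat_lit 5) (nat_lit 46) (nat_lit 5) (nat_lit 43) (nat_lit 5) (nat_lit 346) (nat_lit 284) (nat_lit 150)))) (XT.nd (nat_lit 78) (nat_lit 0) (nat_lit 0) (XT.lf (nat_lit 0) (nat_lit 8625605979) (nat_lit 228) (nat_lit 12228616468) (nat_lit 304) (nat_lit 6423193569) (nat_lit 39) (nat_lit 5) (nat_lit 42) (nat_lit 5) (nat_lit 43) (nat_lit 5) (nat_lit 347) (nat_lit 284) (nat_lit 149)) (XT.nd (nat_lit 78) (nat_lit 0) (nat_lit 0) (XT.lf (nat_lit 0) (nat_lit 18380401045) (nat_lit 228) (nat_lit 6176639056) (nat_lit 304) (nat_lit 3333408331) (nat_lit 39) (nat_lit 5) (nat_lit 42) (nat_lit 5) (nat_lit 43) (nat_lit 5) (nat_lit 348) (nat_lit 284) (nat_lit 148)) (XT.lf (nat_lit 0) (nat_lit 28364761907) (nat_lit 304) (nat_lit 104347082) (nat_lit 76) (nat_lit 52961702) (nat_lit 39) (nat_lit 5) (nat_lit 43) (nat_lit 5) (nat_lit 40) (nat_lit 5) (nat_lit 349) (nat_lit 284) (nat_lit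 147)))))) (XT.nd (nat_lit 390) (nat_lit 456) (nat_lit 0) (XT.nd (nat_lit 156) (nat_lit 228) (nat_lit 0) (XT.nd (nat_lit 78) (nat_lit 0) (nat_lit 0) (XT.lf (nat_lit 0) (nat_lit 3202645423) (nat_lit 304) (nat_lit 19497405864) (nat_lit 76) (nat_lit 6467224830) (nat_lit 35) (nat_lit 5) (nat_lit 39) (nat_lit 5) (nat_lit 36) (nat_lit 5) (nat_lit 350) (nat_lit 284) (nat_lit 146)) (XT.lf (nat_lit 0) (nat_lit 6654793116) (nat_lit 304) (nat_lit 10103453540) (nat_lit 76) (nat_lit 13073719940) (nat_lit 35) (nat_lit 5) (nat_lit 39) (nat_lit 5) (nat_lit 36) (nat_lit 5) (nat_lit 351) (nat_lit 284) (nat_lit 145))) (XT.nd (nat_lit 78) (nat_lit 228) (nat_lit 0) (XT.lf (nat_lit 0) (nat_lit 10204187255) (nat_lit 304) (nat_lit 436937621) (nat_lit 76) (nat_lit 19875674409) (nat_lit 35) (nat_lit 5) (nat_lit 39) (nat_lit 5) (nat_lit 36) (nat_lit 5) (nat_lit 352) (nat_lit 284) (nat_lit 144)) (XT.nd (nat_lit 78) (nat_lit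 0) (nat_lit 0) (XT.lf (nat_lit 0) (nat_lit 9699867720) (nat_lit 228) (nat_lit 4247302595) (nat_lit 304) (nat_lit 17272405036) (nat_lit 32) (nat_lit 5) (nat_lit 35) (nat_lit 5) (nat_lit 36) (nat_lit 5) (nat_lit 353) (nat_lit 284) (nat_lit 143)) (XT.lf (nat_lit 0) (nat_lit 17823307975) (nat_lit 304) (nat_lit 11825151859) (nat_lit 76) (nat_lit 2294360181) (nat_lit 32) (nat_lit 5) (nat_lit 36) (nat_lit 5) (nat_lit 33) (nat_lit 5) (nat_lit 354) (nat_lit 284) (nat_lit 142))))) (XT.nd (nat_lit 234) (nat_lit 304) (nat_lit 0) (XT.nd (nat_lit 78) (nat_lit 152) (nat_lit 0) (XT.lf (nat_lit 0) (nat_lit 21851890720) (nat_lit 304) (nat_lit 1890610319) (nat_lit 76) (nat_lit 8944187093) (nat_lit 32) (nat_lit 5) (nat_lit 36) (nat_lit 5) (nat_lit 33) (nat_lit 5) (nat_lit 355) (nat_lit 284) (nat_lit 141)) (XT.nd (nat_lit 78) (nat_lit 0) (nat_lit 0) (XT.lf (nat_lit 0) (nat_lit 8499276830) (nat_lit 152) (nat_lit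 17578034419) (nat_lit 228) (nat_lit 7373292258) (nat_lit 30) (nat_lit 5) (nat_lit 32) (nat_lit 5) (nat_lit 33) (nat_lit 5) (nat_lit 356) (nat_lit 284) (nat_lit 140)) (XT.lf (nat_lit 0) (nat_lit 19231157860) (nat_lit 152) (nat_lit 11211793338) (nat_lit 228) (nat_lit 3794091755) (nat_lit 30) (nat_lit 5) (nat_lit 32) (nat_lit 5) (nat_lit 33) (nat_lit 5) (nat_lit 357) (nat_lit 284) (nat_lit 139)))) (XT.nd (nat_lit 78) (nat_lit 304) (nat_lit 0) (XT.lf (nat_lit 0) (nat_lit 30276783288) (nat_lit 152) (nat_lit 4657306520) (nat_lit 228) (nat_lit 113159903) (nat_lit 30) (nat_lit 5) (nat_lit 32) (nat_lit 5) (nat_lit 33) (nat_lit 5) (nat_lit 358) (nat_lit 284) (nat_lit 138)) (XT.nd (nat_lit 78) (nat_lit 0) (nat_lit 0) (XT.lf (nat_lit 0) (nat_lit 3678221148) (nat_lit 304) (nat_lit 30057616564) (nat_lit 76) (nat_lit 2142719800) (nat_lit 26) (nat_lit 5) (nat_lit 30) (nat_lit 5) (nat_lit 27) (nat_lit 5) (nat_lit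 359) (nat_lit 284) (nat_lit 137)) (XT.lf (nat_lit 0) (nat_lit 7670510567) (nat_lit 304) (nat_lit 19961340033) (nat_lit 76) (nat_lit 9100246260) (nat_lit 26) (nat_lit 5) (nat_lit 30) (nat_lit 5) (nat_lit 27) (nat_lit 5) (nat_lit 360) (nat_lit 284) (nat_lit 136))))))))
noncomputable def xc179 : XT := (XT.nd (nat_lit 1716) (nat_lit 228) (nat_lit 0) (XT.nd (nat_lit 858) (nat_lit 304) (nat_lit 0) (XT.nd (nat_lit 390) (nat_lit 380) (nat_lit 0) (XT.nd (nat_lit 156) (nat_lit 0) (nat_lit 0) (XT.nd (nat_lit 78) (nat_lit 152) (nat_lit 0) (XT.lf (nat_lit 0) (nat_lit 11777403697) (nat_lit 304) (nat_lit 9570089563) (nat_lit 76) (nat_lit 16263912973) (nat_lit 26) (nat_lit 5) (nat_lit 30) (nat_lit 5) (nat_lit 27) (nat_lit 5) (nat_lit 361) (nat_lit 284) (nat_lit 135)) (XT.lf (nat_lit 0) (nat_lit 1147608555) (nat_lit 152) (nat_lit 14865912046) (nat_lit 228) (nat_lit 22503402414) (nat_lit 24) (nat_lit 5) (nat_lit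 26) (nat_lit 5) (nat_lit 27) (nat_lit 5) (nat_lit 362) (nat_lit 284) (nat_lit 134))) (XT.nd (nat_lit 78) (nat_lit 0) (nat_lit 0) (XT.lf (nat_lit 0) (nat_lit 12375406561) (nat_lit 152) (nat_lit 8093011974) (nat_lit 228) (nat_lit 18978444226) (nat_lit 24) (nat_lit 5) (nat_lit 26) (nat_lit 5) (nat_lit 27) (nat_lit 5) (nat_lit 363) (nat_lit 284) (nat_lit 133)) (XT.nd (nat_lit 78) (nat_lit 0) (nat_lit 0) (XT.lf (nat_lit 0) (nat_lit 23932651603) (nat_lit 152) (nat_lit 1119514115) (nat_lit 228) (nat_lit 15352687054) (nat_lit 24) (nat_lit 5) (nat_lit 26) (nat_lit 5) (nat_lit 27) (nat_lit 5) (nat_lit 364) (nat_lit 284) (nat_lit 132)) (XT.lf (nat_lit 0) (nat_lit 29827026284) (nat_lit 228) (nat_lit 5620546795) (nat_lit 76) (nat_lit 5942409280) (nat_lit 24) (nat_lit 5) (nat_lit 27) (nat_lit 5) (nat_lit 25) (nat_lit 5) (nat_lit 365) (nat_lit 284) (nat_lit 131))))) (XT.nd (nat_lit 234) (nat_lit 152) (nat_lit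 0) (XT.nd (nat_lit 78) (nat_lit 76) (nat_lit 0) (XT.lf (nat_lit 0) (nat_lit 5648716978) (nat_lit 152) (nat_lit 29157253168) (nat_lit 228) (nat_lit 7596878238) (nat_lit 22) (nat_lit 5) (nat_lit 24) (nat_lit 5) (nat_lit 25) (nat_lit 5) (nat_lit 366) (nat_lit 284) (nat_lit 130)) (XT.nd (nat_lit 78) (nat_lit 76) (nat_lit 0) (XT.lf (nat_lit 0) (nat_lit 17364261056) (nat_lit 152) (nat_lit 22622297013) (nat_lit 228) (nat_lit 3457981498) (nat_lit 22) (nat_lit 5) (nat_lit 24) (nat_lit 5) (nat_lit 25) (nat_lit 5) (nat_lit 367) (nat_lit 284) (nat_lit 129)) (XT.lf (nat_lit 0) (nat_lit 784971676) (nat_lit 228) (nat_lit 15100852610) (nat_lit 76) (nat_lit 28631564068) (nat_lit 21) (nat_lit 5) (nat_lit 24) (nat_lit 5) (nat_lit 22) (nat_lit 5) (nat_lit 368) (nat_lit 284) (nat_lit 128)))) (XT.nd (nat_lit 78) (nat_lit 152) (nat_lit 0) (XT.lf (nat_lit 0) (nat_lit 5081439196) (nat_lit 228) (nat_lit 3832983933)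 (nat_lit 76) (nat_lit 36707107338) (nat_lit 21) (nat_lit 5) (nat_lit 24) (nat_lit 5) (nat_lit 22) (nat_lit 5) (nat_lit 369) (nat_lit 284) (nat_lit 127)) (XT.nd (nat_lit 78) (nat_lit 0) (nat_lit 0) (XT.lf (nat_lit 0) (nat_lit 7920980320) (nat_lit 152) (nat_lit 1657813917) (nat_lit 228) (nat_lit 37177849421) (nat_lit 19) (nat_lit 5) (nat_lit 21) (nat_lit 5) (nat_lit 22) (nat_lit 5) (nat_lit 370) (nat_lit 284) (nat_lit 126)) (XT.lf (nat_lit 0) (nat_lit 14301958895) (nat_lit 228) (nat_lit 27881358085) (nat_lit 76) (nat_lit 5739773023) (nat_lit 19) (nat_lit 5) (nat_lit 22) (nat_lit 5) (nat_lit 20) (nat_lit 5) (nat_lit 371) (nat_lit 284) (nat_lit 125)))))) (XT.nd (nat_lit 390) (nat_lit 152) (nat_lit 0) (XT.nd (nat_lit 156) (nat_lit 152) (nat_lit 0) (XT.nd (nat_lit 78) (nat_lit 0) (nat_lit 0) (XT.lf (nat_lit 0) (nat_lit 19179240672) (nat_lit 228) (nat_lit 16621196901) (nat_lit 76) (nat_lit 13323725741)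 (nat_lit 19) (nat_lit 5) (nat_lit 22) (nat_lit 5) (nat_lit 20) (nat_lit 5) (nat_lit 372) (nat_lit 284) (nat_lit 124)) (XT.lf (nat_lit 0) (nat_lit 24198965347) (nat_lit 228) (nat_lit 5029404889) (nat_lit 76) (nat_lit 21133020912) (nat_lit 19) (nat_lit 5) (nat_lit 22) (nat_lit 5) (nat_lit 20) (nat_lit 5) (nat_lit 373) (nat_lit 284) (nat_lit 123))) (XT.nd (nat_lit 78) (nat_lit 0) (nat_lit 0) (XT.lf (nat_lit 0) (nat_lit 7041552758) (nat_lit 152) (nat_lit 22391654044) (nat_lit 228) (nat_lit 22200617146) (nat_lit 17) (nat_lit 5) (nat_lit 19) (nat_lit 5) (nat_lit 20) (nat_lit 5) (nat_lit 374) (nat_lit 284) (nat_lit 122)) (XT.nd (nat_lit 78) (nat_lit 0) (nat_lit 0) (XT.lf (nat_lit 0) (nat_lit 19571801589) (nat_lit 152) (nat_lit 15299750903) (nat_lit 228) (nat_lit 18071470641) (nat_lit 17) (nat_lit 5) (nat_lit 19) (nat_lit 5) (nat_lit 20) (nat_lit 5) (nat_lit 375) (nat_lit 284) (nat_lit 121)) (XT.lf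 (nat_lit 0) (nat_lit 32472195346) (nat_lit 152) (nat_lit 7997251133) (nat_lit 228) (nat_lit 13822165421) (nat_lit 17) (nat_lit 5) (nat_lit 19) (nat_lit 5) (nat_lit 20) (nat_lit 5) (nat_lit 376) (nat_lit 284) (nat_lit 120))))) (XT.nd (nat_lit 234) (nat_lit 76) (nat_lit 0) (XT.nd (nat_lit 78) (nat_lit 76) (nat_lit 0) (XT.lf (nat_lit 0) (nat_lit 45754006217) (nat_lit 152) (nat_lit 477773908) (nat_lit 228) (nat_lit 9448988500) (nat_lit 17) (nat_lit 5) (nat_lit 19) (nat_lit 5) (nat_lit 20) (nat_lit 5) (nat_lit 377) (nat_lit 284) (nat_lit 119)) (XT.nd (nat_lit 78) (nat_lit 0) (nat_lit 0) (XT.lf (nat_lit 0) (nat_lit 2292020056) (nat_lit 76) (nat_lit 49963438764) (nat_lit 152) (nat_lit 4853492210) (nat_lit 16) (nat_lit 5) (nat_lit 17) (nat_lit 5) (nat_lit 18) (nat_lit 4) (nat_lit 378) (nat_lit 284) (nat_lit 118)) (XT.lf (nat_lit 0) (nat_lit 15070565169) (nat_lit 76) (nat_lit 43490839653) (nat_lit 152)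 (nat_lit 15532449) (nat_lit 16) (nat_lit 5) (nat_lit 17) (nat_lit 5) (nat_lit 18) (nat_lit 4) (nat_lit 379) (nat_lit 284) (nat_lit 117)))) (XT.nd (nat_lit 78) (nat_lit 0) (nat_lit 0) (XT.lf (nat_lit 0) (nat_lit 4867323940) (nat_lit 152) (nat_lit 31909624314) (nat_lit 76) (nat_lit 23310686301) (nat_lit 15) (nat_lit 5) (nat_lit 17) (nat_lit 5) (nat_lit 16) (nat_lit 5) (nat_lit 380) (nat_lit 284) (nat_lit 116)) (XT.nd (nat_lit 78) (nat_lit 0) (nat_lit 0) (XT.lf (nat_lit 0) (nat_lit 9893143100) (nat_lit 152) (nat_lit 19970347844) (nat_lit 76) (nat_lit 31780258164) (nat_lit 15) (nat_lit 5) (nat_lit 17) (nat_lit 5) (nat_lit 16) (nat_lit 5) (nat_lit 381) (nat_lit 284) (nat_lit 115)) (XT.lf (nat_lit 0) (nat_lit 15066619616) (nat_lit 152) (nat_lit 7677961009) (nat_lit 76) (nat_lit 40502064497) (nat_lit 15) (nat_lit 5) (nat_lit 17) (nat_lit 5) (nat_lit 16) (nat_lit 5) (nat_lit 382) (nat_lit 284) (nat_lit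 114))))))) (XT.nd (nat_lit 33384) (nat_lit 0) (nat_lit 10412) (XT.nd (nat_lit 390) (nat_lit 76) (nat_lit 0) (XT.nd (nat_lit 156) (nat_lit 0) (nat_lit 0) (XT.nd (nat_lit 78) (nat_lit 0) (nat_lit 0) (XT.lf (nat_lit 0) (nat_lit 5077354587) (nat_lit 152) (nat_lit 15363726054) (nat_lit 228) (nat_lit 44455178347) (nat_lit 13) (nat_lit 5) (nat_lit 15) (nat_lit 5) (nat_lit 16) (nat_lit 5) (nat_lit 383) (nat_lit 284) (nat_lit 113)) (XT.lf (nat_lit 0) (nat_lit 18367848246) (nat_lit 152) (nat_lit 7683474492) (nat_lit 228) (nat_lit 40541806364) (nat_lit 13) (nat_lit 5) (nat_lit 15) (nat_lit 5) (nat_lit 16) (nat_lit 5) (nat_lit 384) (nat_lit 284) (nat_lit 112))) (XT.nd (nat_lit 78) (nat_lit 0) (nat_lit 0) (XT.lf (nat_lit 0) (nat_lit 31829140160) (nat_lit 228) (nat_lit 36290836077) (nat_lit 76) (nat_lit 220955164) (nat_lit 13) (nat_lit 5) (nat_lit 16) (nat_lit 5) (nat_lit 14) (nat_lit 4) (nat_lit 385) (nat_lit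 284) (nat_lit 111)) (XT.nd (nat_lit 78) (nat_lit 0) (nat_lit 0) (XT.lf (nat_lit 0) (nat_lit 37853535259) (nat_lit 228) (nat_lit 24079095683) (nat_lit 76) (nat_lit 8206343539) (nat_lit 13) (nat_lit 5) (nat_lit 16) (nat_lit 5) (nat_lit 14) (nat_lit 4) (nat_lit 386) (nat_lit 284) (nat_lit 110)) (XT.lf (nat_lit 0) (nat_lit 44055913812) (nat_lit 228) (nat_lit 11505530964) (nat_lit 76) (nat_lit 16429600418) (nat_lit 13) (nat_lit 5) (nat_lit 16) (nat_lit 5) (nat_lit 14) (nat_lit 4) (nat_lit 387) (nat_lit 284) (nat_lit 109))))) (XT.nd (nat_lit 32760) (nat_lit 0) (nat_lit 11248) (XT.nd (nat_lit 32604) (nat_lit 0) (nat_lit 11172) (XT.lf (nat_lit 0) (nat_lit 1469520324) (nat_lit 76) (nat_lit 48986300978) (nat_lit 152) (nat_lit 23442516774) (nat_lit 12) (nat_lit 5) (nat_lit 13) (nat_lit 5) (nat_lit 14) (nat_lit 4) (nat_lit 388) (nat_lit 284) (nat_lit 108)) (XT.nd (nat_lit 78) (nat_lit 0) (nat_lit 0) (XT.lf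 (nat_lit 0) (nat_lit 1182605872) (nat_lit 988) (nat_lit 1711379085) (nat_lit 988) (nat_lit 1711379085) (nat_lit 159) (nat_lit 3) (nat_lit 172) (nat_lit 3) (nat_lit 172) (nat_lit 5) (nat_lit 285) (nat_lit 285) (nat_lit 210)) (XT.lf (nat_lit 76) (nat_lit 301991729) (nat_lit 0) (nat_lit 2852190713) (nat_lit 988) (nat_lit 6169603309) (nat_lit 160) (nat_lit 5) (nat_lit 159) (nat_lit 3) (nat_lit 172) (nat_lit 5) (nat_lit 286) (nat_lit 285) (nat_lit 209)))) (XT.nd (nat_lit 78) (nat_lit 0) (nat_lit 0) (XT.lf (nat_lit 0) (nat_lit 3974070573) (nat_lit 912) (nat_lit 5249094738) (nat_lit 988) (nat_lit 216949895) (nat_lit 160) (nat_lit 5) (nat_lit 172) (nat_lit 5) (nat_lit 173) (nat_lit 5) (nat_lit 287) (nat_lit 285) (nat_lit 208)) (XT.nd (nat_lit 78) (nat_lit 0) (nat_lit 0) (XT.lf (nat_lit 0) (nat_lit 4818341304) (nat_lit 912) (nat_lit 1407523375) (nat_lit 988) (nat_lit 3334170956) (nat_lit 160) (nat_lit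 5) (nat_lit 172) (nat_lit 5) (nat_lit 173) (nat_lit 5) (nat_lit 288) (nat_lit 285) (nat_lit 207)) (XT.lf (nat_lit 76) (nat_lit 2584119254) (nat_lit 0) (nat_lit 3101036226) (nat_lit 988) (nat_lit 3998573648) (nat_lit 161) (nat_lit 5) (nat_lit 160) (nat_lit 5) (nat_lit 173) (nat_lit 5) (nat_lit 289) (nat_lit 285) (nat_lit 206)))))) (XT.nd (nat_lit 468) (nat_lit 0) (nat_lit 76) (XT.nd (nat_lit 234) (nat_lit 912) (nat_lit 0) (XT.nd (nat_lit 78) (nat_lit 0) (nat_lit 0) (XT.lf (nat_lit 0) (nat_lit 6566599908) (nat_lit 912) (nat_lit 3104071008) (nat_lit 988) (nat_lit 140892969) (nat_lit 161) (nat_lit 5) (nat_lit 173) (nat_lit 5) (nat_lit 174) (nat_lit 5) (nat_lit 290) (nat_lit 285) (nat_lit 205)) (XT.nd (nat_lit 78) (nat_lit 0) (nat_lit 0) (XT.lf (nat_lit 76) (nat_lit 983851085) (nat_lit 0) (nat_lit 6504721596) (nat_lit 988) (nat_lit 2454325089) (nat_lit 162) (nat_lit 5) (nat_lit 161) (nat_lit 5)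 (nat_lit 174) (nat_lit 5) (nat_lit 291) (nat_lit 285) (nat_lit 204)) (XT.lf (nat_lit 76) (nat_lit 5242219817) (nat_lit 0) (nat_lit 3201861560) (nat_lit 988) (nat_lit 1633998105) (nat_lit 162) (nat_lit 5) (nat_lit 161) (nat_lit 5) (nat_lit 174) (nat_lit 5) (nat_lit 292) (nat_lit 285) (nat_lit 203)))) (XT.nd (nat_lit 78) (nat_lit 988) (nat_lit 0) (XT.lf (nat_lit 0) (nat_lit 9405542199) (nat_lit 912) (nat_lit 607174474) (nat_lit 988) (nat_lit 205363028) (nat_lit 162) (nat_lit 5) (nat_lit 174) (nat_lit 5) (nat_lit 175) (nat_lit 5) (nat_lit 293) (nat_lit 285) (nat_lit 202)) (XT.nd (nat_lit 78) (nat_lit 0) (nat_lit 0) (XT.lf (nat_lit 0) (nat_lit 77336198) (nat_lit 988) (nat_lit 6587271307) (nat_lit 1064) (nat_lit 3696406987) (nat_lit 149) (nat_lit 5) (nat_lit 162) (nat_lit 5) (nat_lit 163) (nat_lit 5) (nat_lit 294) (nat_lit 285) (nat_lit 201)) (XT.lf (nat_lit 0) (nat_lit 960087380) (nat_lit 988)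 (nat_lit 2233815364) (nat_lit 1064) (nat_lit 7314692592) (nat_lit 149) (nat_lit 5) (nat_lit 162) (nat_lit 5) (nat_lit 163) (nat_lit 5) (nat_lit 295) (nat_lit 285) (nat_lit 200))))) (XT.nd (nat_lit 234) (nat_lit 0) (nat_lit 76) (XT.nd (nat_lit 78) (nat_lit 0) (nat_lit 0) (XT.lf (nat_lit 0) (nat_lit 1872186842) (nat_lit 988) (nat_lit 8385661035) (nat_lit 1064) (nat_lit 402742313) (nat_lit 150) (nat_lit 5) (nat_lit 163) (nat_lit 5) (nat_lit 164) (nat_lit 5) (nat_lit 296) (nat_lit 285) (nat_lit 199)) (XT.nd (nat_lit 78) (nat_lit 0) (nat_lit 0) (XT.lf (nat_lit 0) (nat_lit 2843649116) (nat_lit 988) (nat_lit 3899963681) (nat_lit 1064) (nat_lit 4072642540) (nat_lit 150) (nat_lit 5) (nat_lit 163) (nat_lit 5) (nat_lit 164) (nat_lit 5) (nat_lit 297) (nat_lit 285) (nat_lit 198)) (XT.lf (nat_lit 76) (nat_lit 718424214) (nat_lit 0) (nat_lit 3110986040) (nat_lit 1064) (nat_lit 7147693925) (nat_lit 151) (nat_lit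 5) (nat_lit 150) (nat_lit 5) (nat_lit 164) (nat_lit 5) (nat_lit 298) (nat_lit 285) (nat_lit 197)))) (XT.nd (nat_lit 78) (nat_lit 0) (nat_lit 0) (XT.lf (nat_lit 0) (nat_lit 4869362396) (nat_lit 988) (nat_lit 5609240789) (nat_lit 1064) (nat_lit 663503155) (nat_lit 151) (nat_lit 5) (nat_lit 164) (nat_lit 5) (nat_lit 165) (nat_lit 5) (nat_lit 299) (nat_lit 285) (nat_lit 196)) (XT.nd (nat_lit 78) (nat_lit 0) (nat_lit 0) (XT.lf (nat_lit 0) (nat_lit 5950717236) (nat_lit 988) (nat_lit 867140783) (nat_lit 1064) (nat_lit 4493958887) (nat_lit 151) (nat_lit 5) (nat_lit 164) (nat_lit 5) (nat_lit 165) (nat_lit 5) (nat_lit 300) (nat_lit 285) (nat_lit 195)) (XT.lf (nat_lit 76) (nat_lit 4081309382) (nat_lit 0) (nat_lit 3002437607) (nat_lit 1064) (nat_lit 4402357359) (nat_lit 152) (nat_lit 5) (nat_lit 151) (nat_lit 5) (nat_lit 165) (nat_lit 5) (nat_lit 301) (nat_lit 285) (nat_lit 194))))))))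
noncomputable def xc180 : XT := (XT.nd (nat_lit 1716) (nat_lit 2964) (nat_lit 0) (XT.nd (nat_lit 858) (nat_lit 1748) (nat_lit 0) (XT.nd (nat_lit 390) (nat_lit 1520) (nat_lit 0) (XT.nd (nat_lit 156) (nat_lit 1140) (nat_lit 0) (XT.nd (nat_lit 78) (nat_lit 988) (nat_lit 0) (XT.lf (nat_lit 0) (nat_lit 8249002571) (nat_lit 988) (nat_lit 2494460074) (nat_lit 76) (nat_lit 922271484) (nat_lit 152) (nat_lit 5) (nat_lit 165) (nat_lit 5) (nat_lit 153) (nat_lit 5) (nat_lit 302) (nat_lit 285) (nat_lit 193)) (XT.lf (nat_lit 0) (nat_lit 2567947201) (nat_lit 988) (nat_lit 6916725690) (nat_lit 1064) (nat_lit 2365075196) (nat_lit 139) (nat_lit 5) (nat_lit 152) (nat_lit 5) (nat_lit 153) (nat_lit 5) (nat_lit 303) (nat_lit 285) (nat_lit 192))) (XT.nd (nat_lit 78) (nat_lit 1140) (nat_lit 0) (XT.lf (nat_lit 0) (nat_lit 7817893367) (nat_lit 988) (nat_lit 2946157793) (nat_lit 1064) (nat_lit 1275089444) (nat_lit 139)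 (nat_lit 5) (nat_lit 152) (nat_lit 5) (nat_lit 153) (nat_lit 5) (nat_lit 304) (nat_lit 285) (nat_lit 191)) (XT.nd (nat_lit 78) (nat_lit 76) (nat_lit 0) (XT.lf (nat_lit 0) (nat_lit 983684434) (nat_lit 1064) (nat_lit 11100592198) (nat_lit 1140) (nat_lit 149919897) (nat_lit 125) (nat_lit 5) (nat_lit 139) (nat_lit 5) (nat_lit 140) (nat_lit 5) (nat_lit 305) (nat_lit 285) (nat_lit 190)) (XT.lf (nat_lit 0) (nat_lit 1043699063) (nat_lit 1140) (nat_lit 6057716490) (nat_lit 76) (nat_lit 5331818510) (nat_lit 124) (nat_lit 5) (nat_lit 139) (nat_lit 5) (nat_lit 125) (nat_lit 5) (nat_lit 306) (nat_lit 285) (nat_lit 189))))) (XT.nd (nat_lit 234) (nat_lit 988) (nat_lit 0) (XT.nd (nat_lit 78) (nat_lit 532) (nat_lit 0) (XT.lf (nat_lit 0) (nat_lit 2252798208) (nat_lit 1140) (nat_lit 726053935) (nat_lit 76) (nat_lit 9659916392) (nat_lit 124) (nat_lit 5) (nat_lit 139) (nat_lit 5) (nat_lit 125) (nat_lit 5) (nat_lit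 307) (nat_lit 285) (nat_lit 188)) (XT.nd (nat_lit 78) (nat_lit 0) (nat_lit 0) (XT.lf (nat_lit 0) (nat_lit 3540595388) (nat_lit 608) (nat_lit 8017165968) (nat_lit 76) (nat_lit 1291484341) (nat_lit 117) (nat_lit 5) (nat_lit 125) (nat_lit 5) (nat_lit 118) (nat_lit 5) (nat_lit 308) (nat_lit 285) (nat_lit 187)) (XT.lf (nat_lit 0) (nat_lit 4887476229) (nat_lit 608) (nat_lit 2538936306) (nat_lit 76) (nat_lit 5639059112) (nat_lit 117) (nat_lit 5) (nat_lit 125) (nat_lit 5) (nat_lit 118) (nat_lit 5) (nat_lit 309) (nat_lit 285) (nat_lit 186)))) (XT.nd (nat_lit 78) (nat_lit 532) (nat_lit 0) (XT.lf (nat_lit 0) (nat_lit 3150165982) (nat_lit 456) (nat_lit 3138909756) (nat_lit 532) (nat_lit 6998725843) (nat_lit 111) (nat_lit 5) (nat_lit 117) (nat_lit 5) (nat_lit 118) (nat_lit 5) (nat_lit 310) (nat_lit 285) (nat_lit 185)) (XT.nd (nat_lit 78) (nat_lit 532) (nat_lit 0) (XT.lf (nat_lit 0) (nat_lit 7755254688)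 (nat_lit 532) (nat_lit 4481898036) (nat_lit 76) (nat_lit 1279017961) (nat_lit 111) (nat_lit 5) (nat_lit 118) (nat_lit 5) (nat_lit 112) (nat_lit 5) (nat_lit 311) (nat_lit 285) (nat_lit 184)) (XT.lf (nat_lit 0) (nat_lit 1323381979) (nat_lit 532) (nat_lit 7970653904) (nat_lit 608) (nat_lit 4456540368) (nat_lit 104) (nat_lit 5) (nat_lit 111) (nat_lit 5) (nat_lit 112) (nat_lit 5) (nat_lit 312) (nat_lit 285) (nat_lit 183)))))) (XT.nd (nat_lit 390) (nat_lit 760) (nat_lit 0) (XT.nd (nat_lit 156) (nat_lit 988) (nat_lit 0) (XT.nd (nat_lit 78) (nat_lit 0) (nat_lit 0) (XT.lf (nat_lit 0) (nat_lit 7379965437) (nat_lit 532) (nat_lit 3529391489) (nat_lit 608) (nat_lit 3081788384) (nat_lit 104) (nat_lit 5) (nat_lit 111) (nat_lit 5) (nat_lit 112) (nat_lit 5) (nat_lit 313) (nat_lit 285) (nat_lit 182)) (XT.lf (nat_lit 0) (nat_lit 12568736736) (nat_lit 608) (nat_lit 645507984) (nat_lit 76) (nat_lit 1024860125)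 (nat_lit 104) (nat_lit 5) (nat_lit 112) (nat_lit 5) (nat_lit 105) (nat_lit 5) (nat_lit 314) (nat_lit 285) (nat_lit 181))) (XT.nd (nat_lit 78) (nat_lit 532) (nat_lit 0) (XT.lf (nat_lit 0) (nat_lit 5558305831) (nat_lit 456) (nat_lit 8793940111) (nat_lit 532) (nat_lit 140066957) (nat_lit 98) (nat_lit 5) (nat_lit 104) (nat_lit 5) (nat_lit 105) (nat_lit 5) (nat_lit 315) (nat_lit 285) (nat_lit 180)) (XT.nd (nat_lit 78) (nat_lit 456) (nat_lit 0) (XT.lf (nat_lit 0) (nat_lit 1400773061) (nat_lit 532) (nat_lit 2819845678) (nat_lit 76) (nat_lit 10532342543) (nat_lit 97) (nat_lit 5) (nat_lit 104) (nat_lit 5) (nat_lit 98) (nat_lit 5) (nat_lit 316) (nat_lit 285) (nat_lit 179)) (XT.lf (nat_lit 0) (nat_lit 3010497227) (nat_lit 532) (nat_lit 11494703565) (nat_lit 76) (nat_lit 515459261) (nat_lit 91) (nat_lit 5) (nat_lit 98) (nat_lit 5) (nat_lit 92) (nat_lit 5) (nat_lit 317) (nat_lit 285) (nat_lit 178))))) (XT.nd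 (nat_lit 234) (nat_lit 380) (nat_lit 0) (XT.nd (nat_lit 78) (nat_lit 380) (nat_lit 0) (XT.lf (nat_lit 0) (nat_lit 4725788204) (nat_lit 532) (nat_lit 5232055485) (nat_lit 76) (nat_lit 5336863537) (nat_lit 91) (nat_lit 5) (nat_lit 98) (nat_lit 5) (nat_lit 92) (nat_lit 5) (nat_lit 318) (nat_lit 285) (nat_lit 177)) (XT.nd (nat_lit 78) (nat_lit 0) (nat_lit 0) (XT.lf (nat_lit 0) (nat_lit 1228476560) (nat_lit 380) (nat_lit 5262986666) (nat_lit 456) (nat_lit 9085579481) (nat_lit 86) (nat_lit 5) (nat_lit 91) (nat_lit 5) (nat_lit 92) (nat_lit 5) (nat_lit 319) (nat_lit 285) (nat_lit 176)) (XT.lf (nat_lit 0) (nat_lit 7976246031) (nat_lit 380) (nat_lit 374054718) (nat_lit 456) (nat_lit 7516375380) (nat_lit 86) (nat_lit 5) (nat_lit 91) (nat_lit 5) (nat_lit 92) (nat_lit 5) (nat_lit 320) (nat_lit 285) (nat_lit 175)))) (XT.nd (nat_lit 78) (nat_lit 380) (nat_lit 0) (XT.lf (nat_lit 0) (nat_lit 10297428864) (nat_lit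 456) (nat_lit 1297177061) (nat_lit 76) (nat_lit 4569449529) (nat_lit 86) (nat_lit 5) (nat_lit 92) (nat_lit 5) (nat_lit 87) (nat_lit 5) (nat_lit 321) (nat_lit 285) (nat_lit 174)) (XT.nd (nat_lit 78) (nat_lit 0) (nat_lit 0) (XT.lf (nat_lit 0) (nat_lit 5585753200) (nat_lit 380) (nat_lit 6762688442) (nat_lit 456) (nat_lit 4120582104) (nat_lit 81) (nat_lit 5) (nat_lit 86) (nat_lit 5) (nat_lit 87) (nat_lit 5) (nat_lit 322) (nat_lit 285) (nat_lit 173)) (XT.lf (nat_lit 0) (nat_lit 12688478731) (nat_lit 380) (nat_lit 1773898331) (nat_lit 456) (nat_lit 2320753047) (nat_lit 81) (nat_lit 5) (nat_lit 86) (nat_lit 5) (nat_lit 87) (nat_lit 5) (nat_lit 323) (nat_lit 285) (nat_lit 172))))))) (XT.nd (nat_lit 858) (nat_lit 1140) (nat_lit 0) (XT.nd (nat_lit 390) (nat_lit 988) (nat_lit 0) (XT.nd (nat_lit 156) (nat_lit 380) (nat_lit 0) (XT.nd (nat_lit 78) (nat_lit 76) (nat_lit 0) (XT.lf (nat_lit 0) (nat_lit 2908792469)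 (nat_lit 380) (nat_lit 13779860902) (nat_lit 456) (nat_lit 416568497) (nat_lit 76) (nat_lit 5) (nat_lit 81) (nat_lit 5) (nat_lit 82) (nat_lit 5) (nat_lit 324) (nat_lit 285) (nat_lit 171)) (XT.lf (nat_lit 0) (nat_lit 1562604594) (nat_lit 456) (nat_lit 7275657879) (nat_lit 76) (nat_lit 8596856420) (nat_lit 75) (nat_lit 5) (nat_lit 81) (nat_lit 5) (nat_lit 76) (nat_lit 5) (nat_lit 325) (nat_lit 285) (nat_lit 170))) (XT.nd (nat_lit 78) (nat_lit 380) (nat_lit 0) (XT.lf (nat_lit 0) (nat_lit 3581795598) (nat_lit 456) (nat_lit 164374225) (nat_lit 76) (nat_lit 14028976167) (nat_lit 75) (nat_lit 5) (nat_lit 81) (nat_lit 5) (nat_lit 76) (nat_lit 5) (nat_lit 326) (nat_lit 285) (nat_lit 169)) (XT.nd (nat_lit 78) (nat_lit 0) (nat_lit 0) (XT.lf (nat_lit 0) (nat_lit 5736053917) (nat_lit 456) (nat_lit 10848807907) (nat_lit 76) (nat_lit 1538303888) (nat_lit 70) (nat_lit 5) (nat_lit 76) (nat_lit 5) (nat_lit 71)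 (nat_lit 5) (nat_lit 327) (nat_lit 285) (nat_lit 168)) (XT.lf (nat_lit 0) (nat_lit 7983213627) (nat_lit 456) (nat_lit 3591867539) (nat_lit 76) (nat_lit 6905722434) (nat_lit 70) (nat_lit 5) (nat_lit 76) (nat_lit 5) (nat_lit 71) (nat_lit 5) (nat_lit 328) (nat_lit 285) (nat_lit 167))))) (XT.nd (nat_lit 234) (nat_lit 380) (nat_lit 0) (XT.nd (nat_lit 78) (nat_lit 304) (nat_lit 0) (XT.lf (nat_lit 0) (nat_lit 3947376144) (nat_lit 304) (nat_lit 6378168773) (nat_lit 380) (nat_lit 8522818039) (nat_lit 66) (nat_lit 5) (nat_lit 70) (nat_lit 5) (nat_lit 71) (nat_lit 5) (nat_lit 329) (nat_lit 285) (nat_lit 166)) (XT.nd (nat_lit 78) (nat_lit 304) (nat_lit 0) (XT.lf (nat_lit 0) (nat_lit 11774116367) (nat_lit 304) (nat_lit 990291189) (nat_lit 380) (nat_lit 6461777999) (nat_lit 66) (nat_lit 5) (nat_lit 70) (nat_lit 5) (nat_lit 71) (nat_lit 5) (nat_lit 330) (nat_lit 285) (nat_lit 165)) (XT.lf (nat_lit 0) (nat_lit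 167513077) (nat_lit 304) (nat_lit 15144619924) (nat_lit 380) (nat_lit 4302162520) (nat_lit 62) (nat_lit 5) (nat_lit 66) (nat_lit 5) (nat_lit 67) (nat_lit 5) (nat_lit 331) (nat_lit 285) (nat_lit 164)))) (XT.nd (nat_lit 78) (nat_lit 380) (nat_lit 0) (XT.lf (nat_lit 0) (nat_lit 8146317346) (nat_lit 304) (nat_lit 9865360650) (nat_lit 380) (nat_lit 2000132066) (nat_lit 62) (nat_lit 5) (nat_lit 66) (nat_lit 5) (nat_lit 67) (nat_lit 5) (nat_lit 332) (nat_lit 285) (nat_lit 163)) (XT.nd (nat_lit 78) (nat_lit 304) (nat_lit 0) (XT.lf (nat_lit 0) (nat_lit 354313291) (nat_lit 380) (nat_lit 4072311407) (nat_lit 76) (nat_lit 15994822177) (nat_lit 61) (nat_lit 5) (nat_lit 66) (nat_lit 5) (nat_lit 62) (nat_lit 5) (nat_lit 333) (nat_lit 285) (nat_lit 162)) (XT.lf (nat_lit 0) (nat_lit 2780371434) (nat_lit 380) (nat_lit 16852460321) (nat_lit 76) (nat_lit 1208732502) (nat_lit 57) (nat_lit 5) (nat_lit 62) (nat_lit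 5) (nat_lit 58) (nat_lit 5) (nat_lit 334) (nat_lit 285) (nat_lit 161)))))) (XT.nd (nat_lit 390) (nat_lit 608) (nat_lit 0) (XT.nd (nat_lit 156) (nat_lit 532) (nat_lit 0) (XT.nd (nat_lit 78) (nat_lit 0) (nat_lit 0) (XT.lf (nat_lit 0) (nat_lit 5355566420) (nat_lit 380) (nat_lit 8953229966) (nat_lit 76) (nat_lit 6963218476) (nat_lit 57) (nat_lit 5) (nat_lit 62) (nat_lit 5) (nat_lit 58) (nat_lit 5) (nat_lit 335) (nat_lit 285) (nat_lit 160)) (XT.lf (nat_lit 0) (nat_lit 7999277081) (nat_lit 380) (nat_lit 828462980) (nat_lit 76) (nat_lit 12887920891) (nat_lit 57) (nat_lit 5) (nat_lit 62) (nat_lit 5) (nat_lit 58) (nat_lit 5) (nat_lit 336) (nat_lit 285) (nat_lit 159))) (XT.nd (nat_lit 78) (nat_lit 228) (nat_lit 0) (XT.lf (nat_lit 0) (nat_lit 7678780613) (nat_lit 304) (nat_lit 3108845978) (nat_lit 380) (nat_lit 11383049196) (nat_lit 53) (nat_lit 5) (nat_lit 57) (nat_lit 5) (nat_lit 58) (nat_lit 5) (nat_lit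 337) (nat_lit 285) (nat_lit 158)) (XT.nd (nat_lit 78) (nat_lit 228) (nat_lit 0) (XT.lf (nat_lit 0) (nat_lit 13686444167) (nat_lit 380) (nat_lit 6218928927) (nat_lit 76) (nat_lit 2733182072) (nat_lit 53) (nat_lit 5) (nat_lit 58) (nat_lit 5) (nat_lit 54) (nat_lit 5) (nat_lit 338) (nat_lit 285) (nat_lit 157)) (XT.lf (nat_lit 0) (nat_lit 2305520471) (nat_lit 228) (nat_lit 14411522616) (nat_lit 304) (nat_lit 6402101419) (nat_lit 50) (nat_lit 5) (nat_lit 53) (nat_lit 5) (nat_lit 54) (nat_lit 5) (nat_lit 339) (nat_lit 285) (nat_lit 156))))) (XT.nd (nat_lit 234) (nat_lit 228) (nat_lit 0) (XT.nd (nat_lit 78) (nat_lit 380) (nat_lit 0) (XT.lf (nat_lit 0) (nat_lit 11202378110) (nat_lit 228) (nat_lit 8690987737) (nat_lit 304) (nat_lit 3719159064) (nat_lit 50) (nat_lit 5) (nat_lit 53) (nat_lit 5) (nat_lit 54) (nat_lit 5) (nat_lit 340) (nat_lit 285) (nat_lit 155)) (XT.nd (nat_lit 78) (nat_lit 380) (nat_lit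 0) (XT.lf (nat_lit 0) (nat_lit 20355649060) (nat_lit 228) (nat_lit 2801568919) (nat_lit 304) (nat_lit 963738602) (nat_lit 50) (nat_lit 5) (nat_lit 53) (nat_lit 5) (nat_lit 54) (nat_lit 5) (nat_lit 341) (nat_lit 285) (nat_lit 154)) (XT.lf (nat_lit 0) (nat_lit 1912276050) (nat_lit 380) (nat_lit 19462657297) (nat_lit 76) (nat_lit 3266948201) (nat_lit 45) (nat_lit 5) (nat_lit 50) (nat_lit 5) (nat_lit 46) (nat_lit 5) (nat_lit 342) (nat_lit 285) (nat_lit 153)))) (XT.nd (nat_lit 78) (nat_lit 228) (nat_lit 0) (XT.lf (nat_lit 0) (nat_lit 4913809916) (nat_lit 380) (nat_lit 10756140552) (nat_lit 76) (nat_lit 9506454868) (nat_lit 45) (nat_lit 5) (nat_lit 50) (nat_lit 5) (nat_lit 46) (nat_lit 5) (nat_lit 343) (nat_lit 285) (nat_lit 152)) (XT.nd (nat_lit 78) (nat_lit 228) (nat_lit 0) (XT.lf (nat_lit 0) (nat_lit 7998081039) (nat_lit 380) (nat_lit 1798590748) (nat_lit 76) (nat_lit 15930527460) (nat_lit 45)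 (nat_lit 5) (nat_lit 50) (nat_lit 5) (nat_lit 46) (nat_lit 5) (nat_lit 344) (nat_lit 285) (nat_lit 151)) (XT.lf (nat_lit 0) (nat_lit 7565448244) (nat_lit 228) (nat_lit 3675059883) (nat_lit 304) (nat_lit 15052054716) (nat_lit 42) (nat_lit 5) (nat_lit 45) (nat_lit 5) (nat_lit 46) (nat_lit 5) (nat_lit 345) (nat_lit 285) (nat_lit 150))))))))
noncomputable def xc181 : XT := (XT.nd (nat_lit 1716) (nat_lit 684) (nat_lit 0) (XT.nd (nat_lit 858) (nat_lit 760) (nat_lit 0) (XT.nd (nat_lit 390) (nat_lit 228) (nat_lit 0) (XT.nd (nat_lit 156) (nat_lit 532) (nat_lit 0) (XT.nd (nat_lit 78) (nat_lit 0) (nat_lit 0) (XT.lf (nat_lit 0) (nat_lit 14616823283) (nat_lit 304) (nat_lit 9662494352) (nat_lit 76) (nat_lit 2594485533) (nat_lit 42) (nat_lit 5) (nat_lit 46) (nat_lit 5) (nat_lit 43) (nat_lit 5) (nat_lit 346) (nat_lit 285) (nat_lit 149)) (XT.lf (nat_lit 0) (nat_lit 18124008891) (nat_lit 304) (nat_lit 371998639)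 (nat_lit 76) (nat_lit 8975599603) (nat_lit 42) (nat_lit 5) (nat_lit 46) (nat_lit 5) (nat_lit 43) (nat_lit 5) (nat_lit 347) (nat_lit 285) (nat_lit 148))) (XT.nd (nat_lit 78) (nat_lit 304) (nat_lit 0) (XT.lf (nat_lit 0) (nat_lit 9370672951) (nat_lit 228) (nat_lit 12449206247) (nat_lit 304) (nat_lit 6264975401) (nat_lit 39) (nat_lit 5) (nat_lit 42) (nat_lit 5) (nat_lit 43) (nat_lit 5) (nat_lit 348) (nat_lit 285) (nat_lit 147)) (XT.nd (nat_lit 78) (nat_lit 304) (nat_lit 0) (XT.lf (nat_lit 0) (nat_lit 19403947827) (nat_lit 228) (nat_lit 6219929768) (nat_lit 304) (nat_lit 3092717402) (nat_lit 39) (nat_lit 5) (nat_lit 42) (nat_lit 5) (nat_lit 43) (nat_lit 5) (nat_lit 349) (nat_lit 285) (nat_lit 146)) (XT.lf (nat_lit 0) (nat_lit 170350466) (nat_lit 304) (nat_lit 29001997132) (nat_lit 76) (nat_lit 194930401) (nat_lit 35) (nat_lit 5) (nat_lit 39) (nat_lit 5) (nat_lit 36) (nat_lit 5) (nat_lit 350) (nat_lit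 285) (nat_lit 145))))) (XT.nd (nat_lit 234) (nat_lit 228) (nat_lit 0) (XT.nd (nat_lit 78) (nat_lit 0) (nat_lit 0) (XT.lf (nat_lit 0) (nat_lit 3619385851) (nat_lit 304) (nat_lit 19612603908) (nat_lit 76) (nat_lit 6800077977) (nat_lit 35) (nat_lit 5) (nat_lit 39) (nat_lit 5) (nat_lit 36) (nat_lit 5) (nat_lit 351) (nat_lit 285) (nat_lit 144)) (XT.nd (nat_lit 78) (nat_lit 0) (nat_lit 0) (XT.lf (nat_lit 0) (nat_lit 7165758332) (nat_lit 304) (nat_lit 9950514300) (nat_lit 76) (nat_lit 13600724162) (nat_lit 35) (nat_lit 5) (nat_lit 39) (nat_lit 5) (nat_lit 36) (nat_lit 5) (nat_lit 352) (nat_lit 285) (nat_lit 143)) (XT.lf (nat_lit 0) (nat_lit 10812566682) (nat_lit 304) (nat_lit 7285705) (nat_lit 76) (nat_lit 20602811267) (nat_lit 35) (nat_lit 5) (nat_lit 39) (nat_lit 5) (nat_lit 36) (nat_lit 5) (nat_lit 353) (nat_lit 285) (nat_lit 142)))) (XT.nd (nat_lit 78) (nat_lit 0) (nat_lit 0) (XT.lf (nat_lit 0)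 (nat_lit 10429283012) (nat_lit 228) (nat_lit 4233967067) (nat_lit 304) (nat_lit 17483427257) (nat_lit 32) (nat_lit 5) (nat_lit 35) (nat_lit 5) (nat_lit 36) (nat_lit 5) (nat_lit 354) (nat_lit 285) (nat_lit 141)) (XT.nd (nat_lit 78) (nat_lit 0) (nat_lit 0) (XT.lf (nat_lit 0) (nat_lit 18648315635) (nat_lit 304) (nat_lit 11746361253) (nat_lit 76) (nat_lit 2497179313) (nat_lit 32) (nat_lit 5) (nat_lit 36) (nat_lit 5) (nat_lit 33) (nat_lit 5) (nat_lit 355) (nat_lit 285) (nat_lit 140)) (XT.lf (nat_lit 0) (nat_lit 22789300277) (nat_lit 304) (nat_lit 1526410996) (nat_lit 76) (nat_lit 9342598460) (nat_lit 32) (nat_lit 5) (nat_lit 36) (nat_lit 5) (nat_lit 33) (nat_lit 5) (nat_lit 356) (nat_lit 285) (nat_lit 139)))))) (XT.nd (nat_lit 390) (nat_lit 304) (nat_lit 0) (XT.nd (nat_lit 156) (nat_lit 304) (nat_lit 0) (XT.nd (nat_lit 78) (nat_lit 0) (nat_lit 0) (XT.lf (nat_lit 0) (nat_lit 9171046125) (nat_lit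 152) (nat_lit 17966234441) (nat_lit 228) (nat_lit 7308003335) (nat_lit 30) (nat_lit 5) (nat_lit 32) (nat_lit 5) (nat_lit 33) (nat_lit 5) (nat_lit 357) (nat_lit 285) (nat_lit 138)) (XT.lf (nat_lit 0) (nat_lit 20212744042) (nat_lit 152) (nat_lit 11413058779) (nat_lit 228) (nat_lit 3629771118) (nat_lit 30) (nat_lit 5) (nat_lit 32) (nat_lit 5) (nat_lit 33) (nat_lit 5) (nat_lit 358) (nat_lit 285) (nat_lit 137))) (XT.nd (nat_lit 78) (nat_lit 228) (nat_lit 0) (XT.lf (nat_lit 0) (nat_lit 150492332) (nat_lit 228) (nat_lit 4513859960) (nat_lit 76) (nat_lit 31425940259) (nat_lit 29) (nat_lit 5) (nat_lit 32) (nat_lit 5) (nat_lit 30) (nat_lit 5) (nat_lit 359) (nat_lit 285) (nat_lit 136)) (XT.nd (nat_lit 78) (nat_lit 0) (nat_lit 0) (XT.lf (nat_lit 0) (nat_lit 4050709139) (nat_lit 304) (nat_lit 30557662186) (nat_lit 76) (nat_lit 2338227133) (nat_lit 26) (nat_lit 5) (nat_lit 30) (nat_lit 5) (nat_lit 27) (nat_lit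 5) (nat_lit 360) (nat_lit 285) (nat_lit 135)) (XT.lf (nat_lit 0) (nat_lit 8155132055) (nat_lit 304) (nat_lit 20170196859) (nat_lit 76) (nat_lit 9500657278) (nat_lit 26) (nat_lit 5) (nat_lit 30) (nat_lit 5) (nat_lit 27) (nat_lit 5) (nat_lit 361) (nat_lit 285) (nat_lit 134))))) (XT.nd (nat_lit 234) (nat_lit 152) (nat_lit 0) (XT.nd (nat_lit 78) (nat_lit 152) (nat_lit 0) (XT.lf (nat_lit 0) (nat_lit 12377819178) (nat_lit 304) (nat_lit 9478567614) (nat_lit 76) (nat_lit 16875523207) (nat_lit 26) (nat_lit 5) (nat_lit 30) (nat_lit 5) (nat_lit 27) (nat_lit 5) (nat_lit 362) (nat_lit 285) (nat_lit 133)) (XT.nd (nat_lit 78) (nat_lit 0) (nat_lit 0) (XT.lf (nat_lit 0) (nat_lit 1556949441) (nat_lit 152) (nat_lit 15180477144) (nat_lit 228) (nat_lit 22927285887) (nat_lit 24) (nat_lit 5) (nat_lit 26) (nat_lit 5) (nat_lit 27) (nat_lit 5) (nat_lit 363) (nat_lit 285) (nat_lit 132)) (XT.lf (nat_lit 0) (nat_lit 13110661601)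 (nat_lit 152) (nat_lit 8208217611) (nat_lit 228) (nat_lit 19303896001) (nat_lit 24) (nat_lit 5) (nat_lit 26) (nat_lit 5) (nat_lit 27) (nat_lit 5) (nat_lit 364) (nat_lit 285) (nat_lit 131)))) (XT.nd (nat_lit 78) (nat_lit 152) (nat_lit 0) (XT.lf (nat_lit 0) (nat_lit 25004022262) (nat_lit 152) (nat_lit 1029230877) (nat_lit 228) (nat_lit 15576470041) (nat_lit 24) (nat_lit 5) (nat_lit 26) (nat_lit 5) (nat_lit 27) (nat_lit 5) (nat_lit 365) (nat_lit 285) (nat_lit 130)) (XT.nd (nat_lit 78) (nat_lit 152) (nat_lit 0) (XT.lf (nat_lit 0) (nat_lit 30945830422) (nat_lit 228) (nat_lit 5440157777) (nat_lit 76) (nat_lit 6238595673) (nat_lit 24) (nat_lit 5) (nat_lit 27) (nat_lit 5) (nat_lit 25) (nat_lit 5) (nat_lit 366) (nat_lit 285) (nat_lit 129)) (XT.lf (nat_lit 0) (nat_lit 6163762287) (nat_lit 152) (nat_lit 29907178197) (nat_lit 228) (nat_lit 7597002471) (nat_lit 22) (nat_lit 5) (nat_lit 24) (nat_lit 5) (nat_lit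 25) (nat_lit 5) (nat_lit 367) (nat_lit 285) (nat_lit 128))))))) (XT.nd (nat_lit 858) (nat_lit 304) (nat_lit 0) (XT.nd (nat_lit 390) (nat_lit 152) (nat_lit 0) (XT.nd (nat_lit 156) (nat_lit 152) (nat_lit 0) (XT.nd (nat_lit 78) (nat_lit 76) (nat_lit 0) (XT.lf (nat_lit 0) (nat_lit 18220707140) (nat_lit 152) (nat_lit 23179808093) (nat_lit 228) (nat_lit 3340573260) (nat_lit 22) (nat_lit 5) (nat_lit 24) (nat_lit 5) (nat_lit 25) (nat_lit 5) (nat_lit 368) (nat_lit 285) (nat_lit 127)) (XT.lf (nat_lit 0) (nat_lit 1019037618) (nat_lit 228) (nat_lit 15223606628) (nat_lit 76) (nat_lit 29603614267) (nat_lit 21) (nat_lit 5) (nat_lit 24) (nat_lit 5) (nat_lit 22) (nat_lit 5) (nat_lit 369) (nat_lit 285) (nat_lit 126))) (XT.nd (nat_lit 78) (nat_lit 152) (nat_lit 0) (XT.lf (nat_lit 0) (nat_lit 5438267606) (nat_lit 228) (nat_lit 3627321450) (nat_lit 76) (nat_lit 37918129566) (nat_lit 21) (nat_lit 5) (nat_lit 24)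 (nat_lit 5) (nat_lit 22) (nat_lit 5) (nat_lit 370) (nat_lit 285) (nat_lit 125)) (XT.nd (nat_lit 78) (nat_lit 0) (nat_lit 0) (XT.lf (nat_lit 0) (nat_lit 8476118084) (nat_lit 152) (nat_lit 1591524332) (nat_lit 228) (nat_lit 38085339322) (nat_lit 19) (nat_lit 5) (nat_lit 21) (nat_lit 5) (nat_lit 22) (nat_lit 5) (nat_lit 371) (nat_lit 285) (nat_lit 124)) (XT.lf (nat_lit 0) (nat_lit 14927716347) (nat_lit 228) (nat_lit 28404445147) (nat_lit 76) (nat_lit 6022412773) (nat_lit 19) (nat_lit 5) (nat_lit 22) (nat_lit 5) (nat_lit 20) (nat_lit 5) (nat_lit 372) (nat_lit 285) (nat_lit 123))))) (XT.nd (nat_lit 234) (nat_lit 0) (nat_lit 0) (XT.nd (nat_lit 78) (nat_lit 152) (nat_lit 0) (XT.lf (nat_lit 0) (nat_lit 19945587488) (nat_lit 228) (nat_lit 16815605934) (nat_lit 76) (nat_lit 13830667182) (nat_lit 19) (nat_lit 5) (nat_lit 22) (nat_lit 5) (nat_lit 20) (nat_lit 5) (nat_lit 373) (nat_lit 285) (nat_lit 122))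 (XT.nd (nat_lit 78) (nat_lit 152) (nat_lit 0) (XT.lf (nat_lit 0) (nat_lit 25110341683) (nat_lit 228) (nat_lit 4884921138) (nat_lit 76) (nat_lit 21871118014) (nat_lit 19) (nat_lit 5) (nat_lit 22) (nat_lit 5) (nat_lit 20) (nat_lit 5) (nat_lit 374) (nat_lit 285) (nat_lit 121)) (XT.lf (nat_lit 0) (nat_lit 7545269494) (nat_lit 152) (nat_lit 22953752074) (nat_lit 228) (nat_lit 22678051157) (nat_lit 17) (nat_lit 5) (nat_lit 19) (nat_lit 5) (nat_lit 20) (nat_lit 5) (nat_lit 375) (nat_lit 285) (nat_lit 120)))) (XT.nd (nat_lit 78) (nat_lit 0) (nat_lit 0) (XT.lf (nat_lit 0) (nat_lit 20442907242) (nat_lit 152) (nat_lit 15652285574) (nat_lit 228) (nat_lit 18430523009) (nat_lit 17) (nat_lit 5) (nat_lit 19) (nat_lit 5) (nat_lit 20) (nat_lit 5) (nat_lit 376) (nat_lit 285) (nat_lit 119)) (XT.nd (nat_lit 78) (nat_lit 0) (nat_lit 0) (XT.lf (nat_lit 0) (nat_lit 33722042377) (nat_lit 152) (nat_lit 8133811525) (nat_lit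 228) (nat_lit 14059071401) (nat_lit 17) (nat_lit 5) (nat_lit 19) (nat_lit 5) (nat_lit 20) (nat_lit 5) (nat_lit 377) (nat_lit 285) (nat_lit 118)) (XT.lf (nat_lit 0) (nat_lit 47394278026) (nat_lit 152) (nat_lit 391760387) (nat_lit 228) (nat_lit 9559876620) (nat_lit 17) (nat_lit 5) (nat_lit 19) (nat_lit 5) (nat_lit 20) (nat_lit 5) (nat_lit 378) (nat_lit 285) (nat_lit 117)))))) (XT.nd (nat_lit 390) (nat_lit 152) (nat_lit 0) (XT.nd (nat_lit 156) (nat_lit 0) (nat_lit 0) (XT.nd (nat_lit 78) (nat_lit 76) (nat_lit 0) (XT.lf (nat_lit 0) (nat_lit 2630078027) (nat_lit 76) (nat_lit 51359001633) (nat_lit 152) (nat_lit 4827911182) (nat_lit 16) (nat_lit 5) (nat_lit 17) (nat_lit 5) (nat_lit 18) (nat_lit 4) (nat_lit 379) (nat_lit 285) (nat_lit 116)) (XT.lf (nat_lit 0) (nat_lit 147270407) (nat_lit 152) (nat_lit 44546476910) (nat_lit 76) (nat_lit 15635378331) (nat_lit 15) (nat_lit 5) (nat_lit 17) (nat_lit 5) (nat_lit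 16) (nat_lit 5) (nat_lit 380) (nat_lit 285) (nat_lit 115))) (XT.nd (nat_lit 78) (nat_lit 0) (nat_lit 0) (XT.lf (nat_lit 0) (nat_lit 5171553991) (nat_lit 152) (nat_lit 32609696957) (nat_lit 76) (nat_lit 24104037542) (nat_lit 15) (nat_lit 5) (nat_lit 17) (nat_lit 5) (nat_lit 16) (nat_lit 5) (nat_lit 381) (nat_lit 285) (nat_lit 114)) (XT.nd (nat_lit 78) (nat_lit 0) (nat_lit 0) (XT.lf (nat_lit 0) (nat_lit 10343539658) (nat_lit 152) (nat_lit 20319733924) (nat_lit 76) (nat_lit 32824957804) (nat_lit 15) (nat_lit 5) (nat_lit 17) (nat_lit 5) (nat_lit 16) (nat_lit 5) (nat_lit 382) (nat_lit 285) (nat_lit 113)) (XT.lf (nat_lit 0) (nat_lit 15667746618) (nat_lit 152) (nat_lit 7665849009) (nat_lit 76) (nat_lit 41805759340) (nat_lit 15) (nat_lit 5) (nat_lit 17) (nat_lit 5) (nat_lit 16) (nat_lit 5) (nat_lit 383) (nat_lit 285) (nat_lit 112))))) (XT.nd (nat_lit 234) (nat_lit 0) (nat_lit 0) (XT.nd (nat_lit 78)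 (nat_lit 0) (nat_lit 0) (XT.lf (nat_lit 0) (nat_lit 5469749087) (nat_lit 152) (nat_lit 15731656577) (nat_lit 228) (nat_lit 45637118939) (nat_lit 13) (nat_lit 5) (nat_lit 15) (nat_lit 5) (nat_lit 16) (nat_lit 5) (nat_lit 384) (nat_lit 285) (nat_lit 111)) (XT.nd (nat_lit 78) (nat_lit 0) (nat_lit 0) (XT.lf (nat_lit 0) (nat_lit 19151965112) (nat_lit 152) (nat_lit 7823705661) (nat_lit 228) (nat_lit 41610764673) (nat_lit 13) (nat_lit 5) (nat_lit 15) (nat_lit 5) (nat_lit 16) (nat_lit 5) (nat_lit 385) (nat_lit 285) (nat_lit 110)) (XT.lf (nat_lit 0) (nat_lit 32923505737) (nat_lit 228) (nat_lit 37149754181) (nat_lit 76) (nat_lit 313517327) (nat_lit 13) (nat_lit 5) (nat_lit 16) (nat_lit 5) (nat_lit 14) (nat_lit 4) (nat_lit 386) (nat_lit 285) (nat_lit 109)))) (XT.nd (nat_lit 78) (nat_lit 0) (nat_lit 0) (XT.lf (nat_lit 0) (nat_lit 39124569833) (nat_lit 228) (nat_lit 24578354982) (nat_lit 76) (nat_lit 8535964436)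 (nat_lit 13) (nat_lit 5) (nat_lit 16) (nat_lit 5) (nat_lit 14) (nat_lit 4) (nat_lit 387) (nat_lit 285) (nat_lit 108)) (XT.nd (nat_lit 32682) (nat_lit 0) (nat_lit 11096) (XT.lf (nat_lit 0) (nat_lit 45509075223) (nat_lit 228) (nat_lit 11634081775) (nat_lit 76) (nat_lit 17003489004) (nat_lit 13) (nat_lit 5) (nat_lit 16) (nat_lit 5) (nat_lit 14) (nat_lit 4) (nat_lit 388) (nat_lit 285) (nat_lit 107)) (XT.lf (nat_lit 0) (nat_lit 1961458514) (nat_lit 988) (nat_lit 1378645376) (nat_lit 988) (nat_lit 1378645376) (nat_lit 159) (nat_lit 3) (nat_lit 172) (nat_lit 3) (nat_lit 172) (nat_lit 5) (nat_lit 286) (nat_lit 286) (nat_lit 208))))))))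
noncomputable def xc182 : XT := (XT.nd (nat_lit 1716) (nat_lit 4408) (nat_lit 0) (XT.nd (nat_lit 858) (nat_lit 1824) (nat_lit 0) (XT.nd (nat_lit 390) (nat_lit 836) (nat_lit 0) (XT.nd (nat_lit 156) (nat_lit 0) (nat_lit 76) (XT.nd (nat_lit 78) (nat_lit 0) (nat_lit 0) (XT.lf (nat_lit 76) (nat_lit 1071670759) (nat_lit 0) (nat_lit 3627894259) (nat_lit 988) (nat_lit 4855606810) (nat_lit 160) (nat_lit 5) (nat_lit 159) (nat_lit 3) (nat_lit 172) (nat_lit 5) (nat_lit 287) (nat_lit 286) (nat_lit 207)) (XT.lf (nat_lit 76) (nat_lit 5057472893) (nat_lit 0) (nat_lit 442131070) (nat_lit 988) (nat_lit 4176860524) (nat_lit 160) (nat_lit 5) (nat_lit 159) (nat_lit 3) (nat_lit 172) (nat_lit 5) (nat_lit 288) (nat_lit 286) (nat_lit 206))) (XT.nd (nat_lit 78) (nat_lit 0) (nat_lit 0) (XT.lf (nat_lit 0) (nat_lit 6324116047) (nat_lit 912) (nat_lit 680985950) (nat_lit 988) (nat_lit 2796369004) (nat_lit 160) (nat_lit 5)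 (nat_lit 172) (nat_lit 5) (nat_lit 173) (nat_lit 5) (nat_lit 289) (nat_lit 286) (nat_lit 205)) (XT.nd (nat_lit 78) (nat_lit 0) (nat_lit 0) (XT.lf (nat_lit 76) (nat_lit 3422869065) (nat_lit 0) (nat_lit 3761735640) (nat_lit 988) (nat_lit 2745372404) (nat_lit 161) (nat_lit 5) (nat_lit 160) (nat_lit 5) (nat_lit 173) (nat_lit 5) (nat_lit 290) (nat_lit 286) (nat_lit 204)) (XT.lf (nat_lit 76) (nat_lit 7649237684) (nat_lit 0) (nat_lit 403126371) (nat_lit 988) (nat_lit 2010614776) (nat_lit 161) (nat_lit 5) (nat_lit 160) (nat_lit 5) (nat_lit 173) (nat_lit 5) (nat_lit 291) (nat_lit 286) (nat_lit 203))))) (XT.nd (nat_lit 234) (nat_lit 0) (nat_lit 76) (XT.nd (nat_lit 78) (nat_lit 988) (nat_lit 0) (XT.lf (nat_lit 76) (nat_lit 1792974813) (nat_lit 0) (nat_lit 7175216162) (nat_lit 988) (nat_lit 1231200249) (nat_lit 162) (nat_lit 5) (nat_lit 161) (nat_lit 5) (nat_lit 174) (nat_lit 5) (nat_lit 292) (nat_lit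 286) (nat_lit 202)) (XT.nd (nat_lit 78) (nat_lit 988) (nat_lit 0) (XT.lf (nat_lit 76) (nat_lit 6156387572) (nat_lit 0) (nat_lit 3759425094) (nat_lit 988) (nat_lit 424033006) (nat_lit 162) (nat_lit 5) (nat_lit 161) (nat_lit 5) (nat_lit 174) (nat_lit 5) (nat_lit 293) (nat_lit 286) (nat_lit 201)) (XT.lf (nat_lit 76) (nat_lit 150180285) (nat_lit 0) (nat_lit 227050409) (nat_lit 1064) (nat_lit 10107905413) (nat_lit 149) (nat_lit 5) (nat_lit 148) (nat_lit 5) (nat_lit 162) (nat_lit 5) (nat_lit 294) (nat_lit 286) (nat_lit 200)))) (XT.nd (nat_lit 78) (nat_lit 0) (nat_lit 0) (XT.lf (nat_lit 0) (nat_lit 1246474298) (nat_lit 988) (nat_lit 5987060984) (nat_lit 1064) (nat_lit 3399622639) (nat_lit 149) (nat_lit 5) (nat_lit 162) (nat_lit 5) (nat_lit 163) (nat_lit 5) (nat_lit 295) (nat_lit 286) (nat_lit 199)) (XT.nd (nat_lit 78) (nat_lit 0) (nat_lit 76) (XT.lf (nat_lit 0) (nat_lit 2121723025) (nat_lit 988) (nat_lit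 1526239086) (nat_lit 1064) (nat_lit 7138330887) (nat_lit 149) (nat_lit 5) (nat_lit 162) (nat_lit 5) (nat_lit 163) (nat_lit 5) (nat_lit 296) (nat_lit 286) (nat_lit 198)) (XT.lf (nat_lit 0) (nat_lit 3032292830) (nat_lit 988) (nat_lit 7830276410) (nat_lit 1064) (nat_lit 81249368) (nat_lit 150) (nat_lit 5) (nat_lit 163) (nat_lit 5) (nat_lit 164) (nat_lit 5) (nat_lit 297) (nat_lit 286) (nat_lit 197)))))) (XT.nd (nat_lit 390) (nat_lit 1976) (nat_lit 0) (XT.nd (nat_lit 156) (nat_lit 0) (nat_lit 76) (XT.nd (nat_lit 78) (nat_lit 0) (nat_lit 0) (XT.lf (nat_lit 0) (nat_lit 4000745369) (nat_lit 988) (nat_lit 3233511663) (nat_lit 1064) (nat_lit 3870962385) (nat_lit 150) (nat_lit 5) (nat_lit 163) (nat_lit 5) (nat_lit 164) (nat_lit 5) (nat_lit 298) (nat_lit 286) (nat_lit 196)) (XT.lf (nat_lit 76) (nat_lit 1515746977) (nat_lit 0) (nat_lit 3476572449) (nat_lit 1064) (nat_lit 6279385249) (nat_lit 151) (nat_lit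 5) (nat_lit 150) (nat_lit 5) (nat_lit 164) (nat_lit 5) (nat_lit 299) (nat_lit 286) (nat_lit 195))) (XT.nd (nat_lit 78) (nat_lit 0) (nat_lit 0) (XT.lf (nat_lit 0) (nat_lit 6030404206) (nat_lit 988) (nat_lit 4988100765) (nat_lit 1064) (nat_lit 424239204) (nat_lit 151) (nat_lit 5) (nat_lit 164) (nat_lit 5) (nat_lit 165) (nat_lit 5) (nat_lit 300) (nat_lit 286) (nat_lit 194)) (XT.nd (nat_lit 78) (nat_lit 0) (nat_lit 0) (XT.lf (nat_lit 0) (nat_lit 7114637722) (nat_lit 988) (nat_lit 126730494) (nat_lit 1064) (nat_lit 4377157221) (nat_lit 151) (nat_lit 5) (nat_lit 164) (nat_lit 5) (nat_lit 165) (nat_lit 5) (nat_lit 301) (nat_lit 286) (nat_lit 193)) (XT.lf (nat_lit 76) (nat_lit 4962659209) (nat_lit 0) (nat_lit 3297593329) (nat_lit 1064) (nat_lit 3538520965) (nat_lit 152) (nat_lit 5) (nat_lit 151) (nat_lit 5) (nat_lit 165) (nat_lit 5) (nat_lit 302) (nat_lit 286) (nat_lit 192))))) (XT.nd (nat_lit 234)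 (nat_lit 1140) (nat_lit 0) (XT.nd (nat_lit 78) (nat_lit 988) (nat_lit 0) (XT.lf (nat_lit 0) (nat_lit 9430474358) (nat_lit 988) (nat_lit 1799589118) (nat_lit 76) (nat_lit 754715654) (nat_lit 152) (nat_lit 5) (nat_lit 165) (nat_lit 5) (nat_lit 153) (nat_lit 5) (nat_lit 303) (nat_lit 286) (nat_lit 191)) (XT.nd (nat_lit 78) (nat_lit 0) (nat_lit 0) (XT.lf (nat_lit 0) (nat_lit 3407144250) (nat_lit 988) (nat_lit 7276192938) (nat_lit 1064) (nat_lit 1491657314) (nat_lit 139) (nat_lit 5) (nat_lit 152) (nat_lit 5) (nat_lit 153) (nat_lit 5) (nat_lit 304) (nat_lit 286) (nat_lit 190)) (XT.lf (nat_lit 0) (nat_lit 8792390006) (nat_lit 988) (nat_lit 3182081826) (nat_lit 1064) (nat_lit 396477916) (nat_lit 139) (nat_lit 5) (nat_lit 152) (nat_lit 5) (nat_lit 153) (nat_lit 5) (nat_lit 305) (nat_lit 286) (nat_lit 189)))) (XT.nd (nat_lit 78) (nat_lit 0) (nat_lit 0) (XT.lf (nat_lit 0) (nat_lit 727403250) (nat_lit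 1140) (nat_lit 10803283459) (nat_lit 76) (nat_lit 1041633214) (nat_lit 124) (nat_lit 5) (nat_lit 139) (nat_lit 5) (nat_lit 125) (nat_lit 5) (nat_lit 306) (nat_lit 286) (nat_lit 188)) (XT.nd (nat_lit 78) (nat_lit 0) (nat_lit 0) (XT.lf (nat_lit 0) (nat_lit 1928221203) (nat_lit 1140) (nat_lit 5479001728) (nat_lit 76) (nat_lit 5370904239) (nat_lit 124) (nat_lit 5) (nat_lit 139) (nat_lit 5) (nat_lit 125) (nat_lit 5) (nat_lit 307) (nat_lit 286) (nat_lit 187)) (XT.lf (nat_lit 0) (nat_lit 3148742511) (nat_lit 1140) (nat_lit 9538217) (nat_lit 76) (nat_lit 9832365508) (nat_lit 124) (nat_lit 5) (nat_lit 139) (nat_lit 5) (nat_lit 125) (nat_lit 5) (nat_lit 308) (nat_lit 286) (nat_lit 186))))))) (XT.nd (nat_lit 858) (nat_lit 1900) (nat_lit 0) (XT.nd (nat_lit 390) (nat_lit 988) (nat_lit 0) (XT.nd (nat_lit 156) (nat_lit 988) (nat_lit 0) (XT.nd (nat_lit 78) (nat_lit 0) (nat_lit 0) (XT.lf (nat_lit 0) (nat_lit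 4457303047) (nat_lit 608) (nat_lit 7499149416) (nat_lit 76) (nat_lit 1251592276) (nat_lit 117) (nat_lit 5) (nat_lit 125) (nat_lit 5) (nat_lit 118) (nat_lit 5) (nat_lit 309) (nat_lit 286) (nat_lit 185)) (XT.lf (nat_lit 0) (nat_lit 5820983815) (nat_lit 608) (nat_lit 1878666016) (nat_lit 76) (nat_lit 5731884677) (nat_lit 117) (nat_lit 5) (nat_lit 125) (nat_lit 5) (nat_lit 118) (nat_lit 5) (nat_lit 310) (nat_lit 286) (nat_lit 184))) (XT.nd (nat_lit 78) (nat_lit 532) (nat_lit 0) (XT.lf (nat_lit 0) (nat_lit 3973889357) (nat_lit 456) (nat_lit 3274832714) (nat_lit 532) (nat_lit 6412356384) (nat_lit 111) (nat_lit 5) (nat_lit 117) (nat_lit 5) (nat_lit 118) (nat_lit 5) (nat_lit 311) (nat_lit 286) (nat_lit 183)) (XT.nd (nat_lit 78) (nat_lit 532) (nat_lit 0) (XT.lf (nat_lit 0) (nat_lit 8736041143) (nat_lit 532) (nat_lit 3883367647) (nat_lit 76) (nat_lit 1277640090) (nat_lit 111) (nat_lit 5) (nat_lit 118)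 (nat_lit 5) (nat_lit 112) (nat_lit 5) (nat_lit 312) (nat_lit 286) (nat_lit 182)) (XT.lf (nat_lit 0) (nat_lit 2088884618) (nat_lit 532) (nat_lit 8217287841) (nat_lit 608) (nat_lit 3832821555) (nat_lit 104) (nat_lit 5) (nat_lit 111) (nat_lit 5) (nat_lit 112) (nat_lit 5) (nat_lit 313) (nat_lit 286) (nat_lit 181))))) (XT.nd (nat_lit 234) (nat_lit 456) (nat_lit 0) (XT.nd (nat_lit 78) (nat_lit 532) (nat_lit 0) (XT.lf (nat_lit 0) (nat_lit 8306025740) (nat_lit 532) (nat_lit 3642568691) (nat_lit 608) (nat_lit 2438887643) (nat_lit 104) (nat_lit 5) (nat_lit 111) (nat_lit 5) (nat_lit 112) (nat_lit 5) (nat_lit 314) (nat_lit 286) (nat_lit 180)) (XT.nd (nat_lit 78) (nat_lit 76) (nat_lit 0) (XT.lf (nat_lit 0) (nat_lit 42885038) (nat_lit 456) (nat_lit 13594478142) (nat_lit 532) (nat_lit 1006188374) (nat_lit 98) (nat_lit 5) (nat_lit 104) (nat_lit 5) (nat_lit 105) (nat_lit 5) (nat_lit 315) (nat_lit 286) (nat_lit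 179)) (XT.lf (nat_lit 0) (nat_lit 544891189) (nat_lit 532) (nat_lit 8485124175) (nat_lit 76) (nat_lit 5874652303) (nat_lit 97) (nat_lit 5) (nat_lit 104) (nat_lit 5) (nat_lit 98) (nat_lit 5) (nat_lit 316) (nat_lit 286) (nat_lit 178)))) (XT.nd (nat_lit 78) (nat_lit 456) (nat_lit 0) (XT.lf (nat_lit 0) (nat_lit 2109150571) (nat_lit 532) (nat_lit 2209765025) (nat_lit 76) (nat_lit 10854832366) (nat_lit 97) (nat_lit 5) (nat_lit 104) (nat_lit 5) (nat_lit 98) (nat_lit 5) (nat_lit 317) (nat_lit 286) (nat_lit 177)) (XT.nd (nat_lit 78) (nat_lit 0) (nat_lit 0) (XT.lf (nat_lit 0) (nat_lit 3754700051) (nat_lit 532) (nat_lit 11130643472) (nat_lit 76) (nat_lit 564560929) (nat_lit 91) (nat_lit 5) (nat_lit 98) (nat_lit 5) (nat_lit 92) (nat_lit 5) (nat_lit 318) (nat_lit 286) (nat_lit 176)) (XT.lf (nat_lit 0) (nat_lit 5502404479) (nat_lit 532) (nat_lit 4700763557) (nat_lit 76) (nat_lit 5529627588) (nat_lit 91)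 (nat_lit 5) (nat_lit 98) (nat_lit 5) (nat_lit 92) (nat_lit 5) (nat_lit 319) (nat_lit 286) (nat_lit 175)))))) (XT.nd (nat_lit 390) (nat_lit 1140) (nat_lit 0) (XT.nd (nat_lit 156) (nat_lit 380) (nat_lit 0) (XT.nd (nat_lit 78) (nat_lit 0) (nat_lit 0) (XT.lf (nat_lit 0) (nat_lit 1946836865) (nat_lit 380) (nat_lit 5362273377) (nat_lit 456) (nat_lit 8714898847) (nat_lit 86) (nat_lit 5) (nat_lit 91) (nat_lit 5) (nat_lit 92) (nat_lit 5) (nat_lit 320) (nat_lit 286) (nat_lit 174)) (XT.lf (nat_lit 0) (nat_lit 8877189731) (nat_lit 380) (nat_lit 328380351) (nat_lit 456) (nat_lit 7117354003) (nat_lit 86) (nat_lit 5) (nat_lit 91) (nat_lit 5) (nat_lit 92) (nat_lit 5) (nat_lit 321) (nat_lit 286) (nat_lit 173))) (XT.nd (nat_lit 78) (nat_lit 380) (nat_lit 0) (XT.lf (nat_lit 0) (nat_lit 11194028651) (nat_lit 456) (nat_lit 675061569) (nat_lit 76) (nat_lit 4760693950) (nat_lit 86) (nat_lit 5) (nat_lit 92) (nat_lit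 5) (nat_lit 87) (nat_lit 5) (nat_lit 322) (nat_lit 286) (nat_lit 172)) (XT.nd (nat_lit 78) (nat_lit 0) (nat_lit 0) (XT.lf (nat_lit 0) (nat_lit 6407875907) (nat_lit 380) (nat_lit 6887871038) (nat_lit 456) (nat_lit 3648524825) (nat_lit 81) (nat_lit 5) (nat_lit 86) (nat_lit 5) (nat_lit 87) (nat_lit 5) (nat_lit 323) (nat_lit 286) (nat_lit 171)) (XT.lf (nat_lit 0) (nat_lit 13704618637) (nat_lit 380) (nat_lit 1751680275) (nat_lit 456) (nat_lit 1812050646) (nat_lit 81) (nat_lit 5) (nat_lit 86) (nat_lit 5) (nat_lit 87) (nat_lit 5) (nat_lit 324) (nat_lit 286) (nat_lit 170))))) (XT.nd (nat_lit 234) (nat_lit 304) (nat_lit 0) (XT.nd (nat_lit 78) (nat_lit 380) (nat_lit 0) (XT.lf (nat_lit 0) (nat_lit 136819476) (nat_lit 456) (nat_lit 13959081297) (nat_lit 76) (nat_lit 3504487726) (nat_lit 75) (nat_lit 5) (nat_lit 81) (nat_lit 5) (nat_lit 76) (nat_lit 5) (nat_lit 325) (nat_lit 286) (nat_lit 169)) (XT.nd (nat_lit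 78) (nat_lit 380) (nat_lit 0) (XT.lf (nat_lit 0) (nat_lit 2150756921) (nat_lit 456) (nat_lit 6854008639) (nat_lit 76) (nat_lit 8935820726) (nat_lit 75) (nat_lit 5) (nat_lit 81) (nat_lit 5) (nat_lit 76) (nat_lit 5) (nat_lit 326) (nat_lit 286) (nat_lit 168)) (XT.lf (nat_lit 0) (nat_lit 460970298) (nat_lit 380) (nat_lit 3758219219) (nat_lit 456) (nat_lit 14072003965) (nat_lit 70) (nat_lit 5) (nat_lit 75) (nat_lit 5) (nat_lit 76) (nat_lit 5) (nat_lit 327) (nat_lit 286) (nat_lit 167)))) (XT.nd (nat_lit 78) (nat_lit 304) (nat_lit 0) (XT.lf (nat_lit 0) (nat_lit 6425204301) (nat_lit 456) (nat_lit 10543280860) (nat_lit 76) (nat_lit 1681592888) (nat_lit 70) (nat_lit 5) (nat_lit 76) (nat_lit 5) (nat_lit 71) (nat_lit 5) (nat_lit 328) (nat_lit 286) (nat_lit 166)) (XT.nd (nat_lit 78) (nat_lit 304) (nat_lit 0) (XT.lf (nat_lit 0) (nat_lit 8724718548) (nat_lit 456) (nat_lit 3087010669) (nat_lit 76) (nat_lit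 7207204674) (nat_lit 70) (nat_lit 5) (nat_lit 76) (nat_lit 5) (nat_lit 71) (nat_lit 5) (nat_lit 329) (nat_lit 286) (nat_lit 165)) (XT.lf (nat_lit 0) (nat_lit 4672404316) (nat_lit 304) (nat_lit 6456124930) (nat_lit 380) (nat_lit 8269290426) (nat_lit 66) (nat_lit 5) (nat_lit 70) (nat_lit 5) (nat_lit 71) (nat_lit 5) (nat_lit 330) (nat_lit 286) (nat_lit 164))))))))
noncomputable def xc183 : XT := (XT.nd (nat_lit 1716) (nat_lit 1216) (nat_lit 0) (XT.nd (nat_lit 858) (nat_lit 1140) (nat_lit 0) (XT.nd (nat_lit 390) (nat_lit 532) (nat_lit 0) (XT.nd (nat_lit 156) (nat_lit 380) (nat_lit 0) (XT.nd (nat_lit 78) (nat_lit 304) (nat_lit 0) (XT.lf (nat_lit 0) (nat_lit 12716278584) (nat_lit 304) (nat_lit 909913607) (nat_lit 380) (nat_lit 6161250607) (nat_lit 66) (nat_lit 5) (nat_lit 70) (nat_lit 5) (nat_lit 71) (nat_lit 5) (nat_lit 331) (nat_lit 286) (nat_lit 163)) (XT.lf (nat_lit 0) (nat_lit 770031529) (nat_lit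 304) (nat_lit 15473141577) (nat_lit 380) (nat_lit 3944272112) (nat_lit 62) (nat_lit 5) (nat_lit 66) (nat_lit 5) (nat_lit 67) (nat_lit 5) (nat_lit 332) (nat_lit 286) (nat_lit 162))) (XT.nd (nat_lit 78) (nat_lit 380) (nat_lit 0) (XT.lf (nat_lit 0) (nat_lit 8970797216) (nat_lit 304) (nat_lit 10039169095) (nat_lit 380) (nat_lit 1587363908) (nat_lit 62) (nat_lit 5) (nat_lit 66) (nat_lit 5) (nat_lit 67) (nat_lit 5) (nat_lit 333) (nat_lit 286) (nat_lit 161)) (XT.nd (nat_lit 78) (nat_lit 304) (nat_lit 0) (XT.lf (nat_lit 0) (nat_lit 814987965) (nat_lit 380) (nat_lit 3621296362) (nat_lit 76) (nat_lit 16583271507) (nat_lit 61) (nat_lit 5) (nat_lit 66) (nat_lit 5) (nat_lit 62) (nat_lit 5) (nat_lit 334) (nat_lit 286) (nat_lit 160)) (XT.lf (nat_lit 0) (nat_lit 3307378748) (nat_lit 380) (nat_lit 16777397640) (nat_lit 76) (nat_lit 1367723912) (nat_lit 57) (nat_lit 5) (nat_lit 62) (nat_lit 5) (nat_lit 58) (nat_lit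 5) (nat_lit 335) (nat_lit 286) (nat_lit 159))))) (XT.nd (nat_lit 234) (nat_lit 228) (nat_lit 0) (XT.nd (nat_lit 78) (nat_lit 304) (nat_lit 0) (XT.lf (nat_lit 0) (nat_lit 5946909307) (nat_lit 380) (nat_lit 8658102117) (nat_lit 76) (nat_lit 7291269821) (nat_lit 57) (nat_lit 5) (nat_lit 62) (nat_lit 5) (nat_lit 58) (nat_lit 5) (nat_lit 336) (nat_lit 286) (nat_lit 158)) (XT.nd (nat_lit 78) (nat_lit 304) (nat_lit 0) (XT.lf (nat_lit 0) (nat_lit 8657387329) (nat_lit 380) (nat_lit 306011289) (nat_lit 76) (nat_lit 13390242781) (nat_lit 57) (nat_lit 5) (nat_lit 62) (nat_lit 5) (nat_lit 58) (nat_lit 5) (nat_lit 337) (nat_lit 286) (nat_lit 157)) (XT.lf (nat_lit 0) (nat_lit 8451083871) (nat_lit 304) (nat_lit 3071334311) (nat_lit 380) (nat_lit 11300125108) (nat_lit 53) (nat_lit 5) (nat_lit 57) (nat_lit 5) (nat_lit 58) (nat_lit 5) (nat_lit 338) (nat_lit 286) (nat_lit 156)))) (XT.nd (nat_lit 78) (nat_lit 228)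 (nat_lit 0) (XT.lf (nat_lit 0) (nat_lit 14497445164) (nat_lit 380) (nat_lit 5867695337) (nat_lit 76) (nat_lit 2939667937) (nat_lit 53) (nat_lit 5) (nat_lit 58) (nat_lit 5) (nat_lit 54) (nat_lit 5) (nat_lit 339) (nat_lit 286) (nat_lit 155)) (XT.nd (nat_lit 78) (nat_lit 0) (nat_lit 0) (XT.lf (nat_lit 0) (nat_lit 2907214980) (nat_lit 228) (nat_lit 14705203706) (nat_lit 304) (nat_lit 6187619030) (nat_lit 50) (nat_lit 5) (nat_lit 53) (nat_lit 5) (nat_lit 54) (nat_lit 5) (nat_lit 340) (nat_lit 286) (nat_lit 154)) (XT.lf (nat_lit 0) (nat_lit 12055467797) (nat_lit 228) (nat_lit 8817091555) (nat_lit 304) (nat_lit 3436029533) (nat_lit 50) (nat_lit 5) (nat_lit 53) (nat_lit 5) (nat_lit 54) (nat_lit 5) (nat_lit 341) (nat_lit 286) (nat_lit 153)))))) (XT.nd (nat_lit 390) (nat_lit 532) (nat_lit 0) (XT.nd (nat_lit 156) (nat_lit 228) (nat_lit 0) (XT.nd (nat_lit 78) (nat_lit 380) (nat_lit 0) (XT.lf (nat_lit 0)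 (nat_lit 21468278089) (nat_lit 228) (nat_lit 2754911314) (nat_lit 304) (nat_lit 609442699) (nat_lit 50) (nat_lit 5) (nat_lit 53) (nat_lit 5) (nat_lit 54) (nat_lit 5) (nat_lit 342) (nat_lit 286) (nat_lit 152)) (XT.lf (nat_lit 0) (nat_lit 2340590885) (nat_lit 380) (nat_lit 19530755458) (nat_lit 76) (nat_lit 3497894540) (nat_lit 45) (nat_lit 5) (nat_lit 50) (nat_lit 5) (nat_lit 46) (nat_lit 5) (nat_lit 343) (nat_lit 286) (nat_lit 151))) (XT.nd (nat_lit 78) (nat_lit 228) (nat_lit 0) (XT.lf (nat_lit 0) (nat_lit 5421366498) (nat_lit 380) (nat_lit 10578065974) (nat_lit 76) (nat_lit 9920714429) (nat_lit 45) (nat_lit 5) (nat_lit 50) (nat_lit 5) (nat_lit 46) (nat_lit 5) (nat_lit 344) (nat_lit 286) (nat_lit 150)) (XT.nd (nat_lit 78) (nat_lit 228) (nat_lit 0) (XT.lf (nat_lit 0) (nat_lit 8587676173) (nat_lit 380) (nat_lit 1366374884) (nat_lit 76) (nat_lit 16533749998) (nat_lit 45) (nat_lit 5) (nat_lit 50)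 (nat_lit 5) (nat_lit 46) (nat_lit 5) (nat_lit 345) (nat_lit 286) (nat_lit 149)) (XT.lf (nat_lit 0) (nat_lit 8273818870) (nat_lit 228) (nat_lit 3648000725) (nat_lit 304) (nat_lit 15148493763) (nat_lit 42) (nat_lit 5) (nat_lit 45) (nat_lit 5) (nat_lit 46) (nat_lit 5) (nat_lit 346) (nat_lit 286) (nat_lit 148))))) (XT.nd (nat_lit 234) (nat_lit 304) (nat_lit 0) (XT.nd (nat_lit 78) (nat_lit 228) (nat_lit 0) (XT.lf (nat_lit 0) (nat_lit 15390683459) (nat_lit 304) (nat_lit 9475559830) (nat_lit 76) (nat_lit 2803030316) (nat_lit 42) (nat_lit 5) (nat_lit 46) (nat_lit 5) (nat_lit 43) (nat_lit 5) (nat_lit 347) (nat_lit 286) (nat_lit 147)) (XT.nd (nat_lit 78) (nat_lit 0) (nat_lit 0) (XT.lf (nat_lit 0) (nat_lit 81350544) (nat_lit 228) (nat_lit 18912748446) (nat_lit 304) (nat_lit 9291202161) (nat_lit 39) (nat_lit 5) (nat_lit 42) (nat_lit 5) (nat_lit 43) (nat_lit 5) (nat_lit 348) (nat_lit 286) (nat_lit 146))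 (XT.lf (nat_lit 0) (nat_lit 10110176393) (nat_lit 228) (nat_lit 12684810143) (nat_lit 304) (nat_lit 6122154587) (nat_lit 39) (nat_lit 5) (nat_lit 42) (nat_lit 5) (nat_lit 43) (nat_lit 5) (nat_lit 349) (nat_lit 286) (nat_lit 145)))) (XT.nd (nat_lit 78) (nat_lit 304) (nat_lit 0) (XT.lf (nat_lit 0) (nat_lit 20431098546) (nat_lit 228) (nat_lit 6272671066) (nat_lit 304) (nat_lit 2864362927) (nat_lit 39) (nat_lit 5) (nat_lit 42) (nat_lit 5) (nat_lit 43) (nat_lit 5) (nat_lit 350) (nat_lit 286) (nat_lit 144)) (XT.nd (nat_lit 78) (nat_lit 0) (nat_lit 0) (XT.lf (nat_lit 0) (nat_lit 486782403) (nat_lit 304) (nat_lit 29416014199) (nat_lit 76) (nat_lit 335570937) (nat_lit 35) (nat_lit 5) (nat_lit 39) (nat_lit 5) (nat_lit 36) (nat_lit 5) (nat_lit 351) (nat_lit 286) (nat_lit 143)) (XT.lf (nat_lit 0) (nat_lit 4030221235) (nat_lit 304) (nat_lit 19758221981) (nat_lit 76) (nat_lit 7134946942) (nat_lit 35) (nat_lit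 5) (nat_lit 39) (nat_lit 5) (nat_lit 36) (nat_lit 5) (nat_lit 352) (nat_lit 286) (nat_lit 142))))))) (XT.nd (nat_lit 858) (nat_lit 532) (nat_lit 0) (XT.nd (nat_lit 390) (nat_lit 456) (nat_lit 0) (XT.nd (nat_lit 156) (nat_lit 0) (nat_lit 0) (XT.nd (nat_lit 78) (nat_lit 228) (nat_lit 0) (XT.lf (nat_lit 0) (nat_lit 7674181382) (nat_lit 304) (nat_lit 9819165608) (nat_lit 76) (nat_lit 14135800862) (nat_lit 35) (nat_lit 5) (nat_lit 39) (nat_lit 5) (nat_lit 36) (nat_lit 5) (nat_lit 353) (nat_lit 286) (nat_lit 141)) (XT.lf (nat_lit 0) (nat_lit 417996140) (nat_lit 228) (nat_lit 11007868779) (nat_lit 304) (nat_lit 20930271844) (nat_lit 32) (nat_lit 5) (nat_lit 35) (nat_lit 5) (nat_lit 36) (nat_lit 5) (nat_lit 354) (nat_lit 286) (nat_lit 140))) (XT.nd (nat_lit 78) (nat_lit 0) (nat_lit 0) (XT.lf (nat_lit 0) (nat_lit 11155413703) (nat_lit 228) (nat_lit 4228311363) (nat_lit 304) (nat_lit 17718411807) (nat_lit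 32) (nat_lit 5) (nat_lit 35) (nat_lit 5) (nat_lit 36) (nat_lit 5) (nat_lit 355) (nat_lit 286) (nat_lit 139)) (XT.nd (nat_lit 78) (nat_lit 0) (nat_lit 0) (XT.lf (nat_lit 0) (nat_lit 19481408634) (nat_lit 304) (nat_lit 11690094194) (nat_lit 76) (nat_lit 2698391542) (nat_lit 32) (nat_lit 5) (nat_lit 36) (nat_lit 5) (nat_lit 33) (nat_lit 5) (nat_lit 356) (nat_lit 286) (nat_lit 138)) (XT.lf (nat_lit 0) (nat_lit 23738652615) (nat_lit 304) (nat_lit 1175448086) (nat_lit 76) (nat_lit 9745494714) (nat_lit 32) (nat_lit 5) (nat_lit 36) (nat_lit 5) (nat_lit 33) (nat_lit 5) (nat_lit 357) (nat_lit 286) (nat_lit 137))))) (XT.nd (nat_lit 234) (nat_lit 228) (nat_lit 0) (XT.nd (nat_lit 78) (nat_lit 76) (nat_lit 0) (XT.lf (nat_lit 0) (nat_lit 9839042990) (nat_lit 152) (nat_lit 18374067728) (nat_lit 228) (nat_lit 7257201310) (nat_lit 30) (nat_lit 5) (nat_lit 32) (nat_lit 5) (nat_lit 33) (nat_lit 5) (nat_lit 358)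 (nat_lit 286) (nat_lit 136)) (XT.nd (nat_lit 78) (nat_lit 76) (nat_lit 0) (XT.lf (nat_lit 0) (nat_lit 21200549161) (nat_lit 152) (nat_lit 11628116808) (nat_lit 228) (nat_lit 3476487431) (nat_lit 30) (nat_lit 5) (nat_lit 32) (nat_lit 5) (nat_lit 33) (nat_lit 5) (nat_lit 359) (nat_lit 286) (nat_lit 135)) (XT.lf (nat_lit 0) (nat_lit 404580700) (nat_lit 228) (nat_lit 4273556971) (nat_lit 76) (nat_lit 32486938060) (nat_lit 29) (nat_lit 5) (nat_lit 32) (nat_lit 5) (nat_lit 30) (nat_lit 5) (nat_lit 360) (nat_lit 286) (nat_lit 134)))) (XT.nd (nat_lit 78) (nat_lit 0) (nat_lit 0) (XT.lf (nat_lit 0) (nat_lit 4419323783) (nat_lit 304) (nat_lit 31095767416) (nat_lit 76) (nat_lit 2532066792) (nat_lit 26) (nat_lit 5) (nat_lit 30) (nat_lit 5) (nat_lit 27) (nat_lit 5) (nat_lit 361) (nat_lit 286) (nat_lit 133)) (XT.nd (nat_lit 78) (nat_lit 0) (nat_lit 0) (XT.lf (nat_lit 0) (nat_lit 8639682493) (nat_lit 304)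 (nat_lit 20407706032) (nat_lit 76) (nat_lit 9905767137) (nat_lit 26) (nat_lit 5) (nat_lit 30) (nat_lit 5) (nat_lit 27) (nat_lit 5) (nat_lit 362) (nat_lit 286) (nat_lit 132)) (XT.lf (nat_lit 0) (nat_lit 12982062953) (nat_lit 304) (nat_lit 9406034610) (nat_lit 76) (nat_lit 17498381273) (nat_lit 26) (nat_lit 5) (nat_lit 30) (nat_lit 5) (nat_lit 27) (nat_lit 5) (nat_lit 363) (nat_lit 286) (nat_lit 131)))))) (XT.nd (nat_lit 468) (nat_lit 228) (nat_lit 0) (XT.nd (nat_lit 234) (nat_lit 152) (nat_lit 0) (XT.nd (nat_lit 78) (nat_lit 0) (nat_lit 0) (XT.lf (nat_lit 0) (nat_lit 1957049035) (nat_lit 152) (nat_lit 15512022796) (nat_lit 228) (nat_lit 23378306840) (nat_lit 24) (nat_lit 5) (nat_lit 26) (nat_lit 5) (nat_lit 27) (nat_lit 5) (nat_lit 364) (nat_lit 286) (nat_lit 130)) (XT.nd (nat_lit 78) (nat_lit 0) (nat_lit 0) (XT.lf (nat_lit 0) (nat_lit 13847079615) (nat_lit 152) (nat_lit 8334203303) (nat_lit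 228) (nat_lit 19653112275) (nat_lit 24) (nat_lit 5) (nat_lit 26) (nat_lit 5) (nat_lit 27) (nat_lit 5) (nat_lit 365) (nat_lit 286) (nat_lit 129)) (XT.lf (nat_lit 0) (nat_lit 26087247945) (nat_lit 152) (nat_lit 943349709) (nat_lit 228) (nat_lit 15820559671) (nat_lit 24) (nat_lit 5) (nat_lit 26) (nat_lit 5) (nat_lit 27) (nat_lit 5) (nat_lit 366) (nat_lit 286) (nat_lit 128)))) (XT.nd (nat_lit 78) (nat_lit 152) (nat_lit 0) (XT.lf (nat_lit 0) (nat_lit 32085340549) (nat_lit 228) (nat_lit 5274391428) (nat_lit 76) (nat_lit 6536898906) (nat_lit 24) (nat_lit 5) (nat_lit 27) (nat_lit 5) (nat_lit 25) (nat_lit 5) (nat_lit 367) (nat_lit 286) (nat_lit 127)) (XT.nd (nat_lit 78) (nat_lit 0) (nat_lit 0) (XT.lf (nat_lit 0) (nat_lit 6674421032) (nat_lit 152) (nat_lit 30686764581) (nat_lit 228) (nat_lit 7610206056) (nat_lit 22) (nat_lit 5) (nat_lit 24) (nat_lit 5) (nat_lit 25) (nat_lit 5) (nat_lit 368) (nat_lit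 286) (nat_lit 126)) (XT.lf (nat_lit 0) (nat_lit 19083586486) (nat_lit 152) (nat_lit 23760999460) (nat_lit 228) (nat_lit 3232337556) (nat_lit 22) (nat_lit 5) (nat_lit 24) (nat_lit 5) (nat_lit 25) (nat_lit 5) (nat_lit 369) (nat_lit 286) (nat_lit 125))))) (XT.nd (nat_lit 234) (nat_lit 0) (nat_lit 0) (XT.nd (nat_lit 78) (nat_lit 152) (nat_lit 0) (XT.lf (nat_lit 0) (nat_lit 1248041014) (nat_lit 228) (nat_lit 15369002205) (nat_lit 76) (nat_lit 30598333382) (nat_lit 21) (nat_lit 5) (nat_lit 24) (nat_lit 5) (nat_lit 22) (nat_lit 5) (nat_lit 370) (nat_lit 286) (nat_lit 124)) (XT.nd (nat_lit 78) (nat_lit 152) (nat_lit 0) (XT.lf (nat_lit 0) (nat_lit 5794068321) (nat_lit 228) (nat_lit 3433895829) (nat_lit 76) (nat_lit 39159178974) (nat_lit 21) (nat_lit 5) (nat_lit 24) (nat_lit 5) (nat_lit 22) (nat_lit 5) (nat_lit 371) (nat_lit 286) (nat_lit 123)) (XT.lf (nat_lit 0) (nat_lit 9029683701) (nat_lit 152) (nat_lit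 1529906312) (nat_lit 228) (nat_lit 39031985105) (nat_lit 19) (nat_lit 5) (nat_lit 21) (nat_lit 5) (nat_lit 22) (nat_lit 5) (nat_lit 372) (nat_lit 286) (nat_lit 122)))) (XT.nd (nat_lit 78) (nat_lit 0) (nat_lit 0) (XT.lf (nat_lit 0) (nat_lit 15560955212) (nat_lit 228) (nat_lit 28961212604) (nat_lit 76) (nat_lit 6307191631) (nat_lit 19) (nat_lit 5) (nat_lit 22) (nat_lit 5) (nat_lit 20) (nat_lit 5) (nat_lit 373) (nat_lit 286) (nat_lit 121)) (XT.nd (nat_lit 78) (nat_lit 0) (nat_lit 0) (XT.lf (nat_lit 0) (nat_lit 20723962274) (nat_lit 228) (nat_lit 17033311104) (nat_lit 76) (nat_lit 14346661446) (nat_lit 19) (nat_lit 5) (nat_lit 22) (nat_lit 5) (nat_lit 20) (nat_lit 5) (nat_lit 374) (nat_lit 286) (nat_lit 120)) (XT.lf (nat_lit 0) (nat_lit 26038416167) (nat_lit 228) (nat_lit 4753058085) (nat_lit 76) (nat_lit 22625381892) (nat_lit 19) (nat_lit 5) (nat_lit 22) (nat_lit 5) (nat_lit 20) (nat_lit 5) (nat_lit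 375) (nat_lit 286) (nat_lit 119))))))))
noncomputable def xc184 : XT := (XT.nd (nat_lit 34476) (nat_lit 0) (nat_lit 6384) (XT.nd (nat_lit 858) (nat_lit 0) (nat_lit 0) (XT.nd (nat_lit 390) (nat_lit 228) (nat_lit 0) (XT.nd (nat_lit 156) (nat_lit 76) (nat_lit 0) (XT.nd (nat_lit 78) (nat_lit 0) (nat_lit 0) (XT.lf (nat_lit 0) (nat_lit 8047308749) (nat_lit 152) (nat_lit 23539007495) (nat_lit 228) (nat_lit 23180633710) (nat_lit 17) (nat_lit 5) (nat_lit 19) (nat_lit 5) (nat_lit 20) (nat_lit 5) (nat_lit 376) (nat_lit 286) (nat_lit 118)) (XT.lf (nat_lit 0) (nat_lit 21323846081) (nat_lit 152) (nat_lit 16021507403) (nat_lit 228) (nat_lit 18810857163) (nat_lit 17) (nat_lit 5) (nat_lit 19) (nat_lit 5) (nat_lit 20) (nat_lit 5) (nat_lit 377) (nat_lit 286) (nat_lit 117))) (XT.nd (nat_lit 78) (nat_lit 76) (nat_lit 0) (XT.lf (nat_lit 0) (nat_lit 34993559591) (nat_lit 152) (nat_lit 8280401853) (nat_lit 228) (nat_lit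 14313288654) (nat_lit 17) (nat_lit 5) (nat_lit 19) (nat_lit 5) (nat_lit 20) (nat_lit 5) (nat_lit 378) (nat_lit 286) (nat_lit 116)) (XT.nd (nat_lit 78) (nat_lit 76) (nat_lit 0) (XT.lf (nat_lit 0) (nat_lit 49068393690) (nat_lit 152) (nat_lit 308926773) (nat_lit 228) (nat_lit 9683998269) (nat_lit 17) (nat_lit 5) (nat_lit 19) (nat_lit 5) (nat_lit 20) (nat_lit 5) (nat_lit 379) (nat_lit 286) (nat_lit 115)) (XT.lf (nat_lit 0) (nat_lit 2962818968) (nat_lit 76) (nat_lit 52802363543) (nat_lit 152) (nat_lit 4811389488) (nat_lit 16) (nat_lit 5) (nat_lit 17) (nat_lit 5) (nat_lit 18) (nat_lit 4) (nat_lit 380) (nat_lit 286) (nat_lit 114))))) (XT.nd (nat_lit 234) (nat_lit 152) (nat_lit 0) (XT.nd (nat_lit 78) (nat_lit 0) (nat_lit 0) (XT.lf (nat_lit 0) (nat_lit 305290784) (nat_lit 152) (nat_lit 45633146862) (nat_lit 76) (nat_lit 16195731576) (nat_lit 15) (nat_lit 5) (nat_lit 17) (nat_lit 5) (nat_lit 16) (nat_lit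 5) (nat_lit 381) (nat_lit 286) (nat_lit 113)) (XT.nd (nat_lit 78) (nat_lit 0) (nat_lit 0) (XT.lf (nat_lit 0) (nat_lit 5475829024) (nat_lit 152) (nat_lit 33345537035) (nat_lit 76) (nat_lit 24915791576) (nat_lit 15) (nat_lit 5) (nat_lit 17) (nat_lit 5) (nat_lit 16) (nat_lit 5) (nat_lit 382) (nat_lit 286) (nat_lit 112)) (XT.lf (nat_lit 0) (nat_lit 10798630714) (nat_lit 152) (nat_lit 20693936786) (nat_lit 76) (nat_lit 33895757905) (nat_lit 15) (nat_lit 5) (nat_lit 17) (nat_lit 5) (nat_lit 16) (nat_lit 5) (nat_lit 383) (nat_lit 286) (nat_lit 111)))) (XT.nd (nat_lit 78) (nat_lit 152) (nat_lit 0) (XT.lf (nat_lit 0) (nat_lit 16278346848) (nat_lit 152) (nat_lit 7667291318) (nat_lit 76) (nat_lit 43143477137) (nat_lit 15) (nat_lit 5) (nat_lit 17) (nat_lit 5) (nat_lit 16) (nat_lit 5) (nat_lit 384) (nat_lit 286) (nat_lit 110)) (XT.nd (nat_lit 78) (nat_lit 0) (nat_lit 0) (XT.lf (nat_lit 0) (nat_lit 5860134200)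 (nat_lit 152) (nat_lit 16115962521) (nat_lit 228) (nat_lit 46863226797) (nat_lit 13) (nat_lit 5) (nat_lit 15) (nat_lit 5) (nat_lit 16) (nat_lit 5) (nat_lit 385) (nat_lit 286) (nat_lit 109)) (XT.lf (nat_lit 0) (nat_lit 19946225658) (nat_lit 152) (nat_lit 7973325808) (nat_lit 228) (nat_lit 42720247117) (nat_lit 13) (nat_lit 5) (nat_lit 15) (nat_lit 5) (nat_lit 16) (nat_lit 5) (nat_lit 386) (nat_lit 286) (nat_lit 108)))))) (XT.nd (nat_lit 33150) (nat_lit 0) (nat_lit 10260) (XT.nd (nat_lit 32916) (nat_lit 0) (nat_lit 11096) (XT.nd (nat_lit 32838) (nat_lit 0) (nat_lit 11096) (XT.lf (nat_lit 0) (nat_lit 34042694905) (nat_lit 228) (nat_lit 38047631688) (nat_lit 76) (nat_lit 403923421) (nat_lit 13) (nat_lit 5) (nat_lit 16) (nat_lit 5) (nat_lit 14) (nat_lit 4) (nat_lit 387) (nat_lit 286) (nat_lit 107)) (XT.lf (nat_lit 0) (nat_lit 2721004000) (nat_lit 988) (nat_lit 1057977137) (nat_lit 988) (nat_lit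 1057977137) (nat_lit 159) (nat_lit 3) (nat_lit 172) (nat_lit 3) (nat_lit 172) (nat_lit 5) (nat_lit 287) (nat_lit 287) (nat_lit 206))) (XT.nd (nat_lit 78) (nat_lit 0) (nat_lit 0) (XT.lf (nat_lit 76) (nat_lit 1820777503) (nat_lit 0) (nat_lit 4387252176) (nat_lit 988) (nat_lit 3588244005) (nat_lit 160) (nat_lit 5) (nat_lit 159) (nat_lit 3) (nat_lit 172) (nat_lit 5) (nat_lit 288) (nat_lit 287) (nat_lit 205)) (XT.nd (nat_lit 78) (nat_lit 0) (nat_lit 76) (XT.lf (nat_lit 76) (nat_lit 5905271469) (nat_lit 0) (nat_lit 1086968875) (nat_lit 988) (nat_lit 2930291573) (nat_lit 160) (nat_lit 5) (nat_lit 159) (nat_lit 3) (nat_lit 172) (nat_lit 5) (nat_lit 289) (nat_lit 287) (nat_lit 204)) (XT.lf (nat_lit 76) (nat_lit 23679521) (nat_lit 0) (nat_lit 7773472277) (nat_lit 988) (nat_lit 2255594978) (nat_lit 161) (nat_lit 5) (nat_lit 160) (nat_lit 5) (nat_lit 173) (nat_lit 5) (nat_lit 290) (nat_lit 287) (nat_lit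 203))))) (XT.nd (nat_lit 234) (nat_lit 912) (nat_lit 0) (XT.nd (nat_lit 78) (nat_lit 0) (nat_lit 0) (XT.lf (nat_lit 76) (nat_lit 4243083870) (nat_lit 0) (nat_lit 4409669552) (nat_lit 988) (nat_lit 1533400036) (nat_lit 161) (nat_lit 5) (nat_lit 160) (nat_lit 5) (nat_lit 173) (nat_lit 5) (nat_lit 291) (nat_lit 287) (nat_lit 202)) (XT.nd (nat_lit 78) (nat_lit 0) (nat_lit 76) (XT.lf (nat_lit 76) (nat_lit 8575344652) (nat_lit 0) (nat_lit 934717098) (nat_lit 988) (nat_lit 814298714) (nat_lit 161) (nat_lit 5) (nat_lit 160) (nat_lit 5) (nat_lit 173) (nat_lit 5) (nat_lit 292) (nat_lit 287) (nat_lit 201)) (XT.lf (nat_lit 76) (nat_lit 2581619553) (nat_lit 0) (nat_lit 7838538362) (nat_lit 988) (nat_lit 45820681) (nat_lit 162) (nat_lit 5) (nat_lit 161) (nat_lit 5) (nat_lit 174) (nat_lit 5) (nat_lit 293) (nat_lit 287) (nat_lit 200)))) (XT.nd (nat_lit 78) (nat_lit 0) (nat_lit 0) (XT.lf (nat_lit 0) (nat_lit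 735325729) (nat_lit 988) (nat_lit 3564472027) (nat_lit 1064) (nat_lit 6311780059) (nat_lit 148) (nat_lit 5) (nat_lit 161) (nat_lit 5) (nat_lit 162) (nat_lit 5) (nat_lit 294) (nat_lit 287) (nat_lit 199)) (XT.nd (nat_lit 78) (nat_lit 0) (nat_lit 76) (XT.lf (nat_lit 76) (nat_lit 887719404) (nat_lit 0) (nat_lit 637541650) (nat_lit 1064) (nat_lit 9236752524) (nat_lit 149) (nat_lit 5) (nat_lit 148) (nat_lit 5) (nat_lit 162) (nat_lit 5) (nat_lit 295) (nat_lit 287) (nat_lit 198)) (XT.lf (nat_lit 0) (nat_lit 2383706413) (nat_lit 988) (nat_lit 5414642970) (nat_lit 1064) (nat_lit 3117337062) (nat_lit 149) (nat_lit 5) (nat_lit 162) (nat_lit 5) (nat_lit 163) (nat_lit 5) (nat_lit 296) (nat_lit 287) (nat_lit 197))))))) (XT.nd (nat_lit 858) (nat_lit 2052) (nat_lit 0) (XT.nd (nat_lit 390) (nat_lit 1900) (nat_lit 0) (XT.nd (nat_lit 156) (nat_lit 0) (nat_lit 76) (XT.nd (nat_lit 78) (nat_lit 0) (nat_lit 0) (XT.lf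 (nat_lit 0) (nat_lit 3253178489) (nat_lit 988) (nat_lit 841900196) (nat_lit 1064) (nat_lit 6979399012) (nat_lit 149) (nat_lit 5) (nat_lit 162) (nat_lit 5) (nat_lit 163) (nat_lit 5) (nat_lit 297) (nat_lit 287) (nat_lit 196)) (XT.lf (nat_lit 76) (nat_lit 3930761501) (nat_lit 0) (nat_lit 235331957) (nat_lit 1064) (nat_lit 7071482930) (nat_lit 150) (nat_lit 5) (nat_lit 149) (nat_lit 5) (nat_lit 163) (nat_lit 5) (nat_lit 298) (nat_lit 287) (nat_lit 195))) (XT.nd (nat_lit 78) (nat_lit 0) (nat_lit 0) (XT.lf (nat_lit 0) (nat_lit 5131029564) (nat_lit 988) (nat_lit 2592039373) (nat_lit 1064) (nat_lit 3681822681) (nat_lit 150) (nat_lit 5) (nat_lit 163) (nat_lit 5) (nat_lit 164) (nat_lit 5) (nat_lit 299) (nat_lit 287) (nat_lit 194)) (XT.nd (nat_lit 78) (nat_lit 0) (nat_lit 76) (XT.lf (nat_lit 76) (nat_lit 2292457050) (nat_lit 0) (nat_lit 3837497795) (nat_lit 1064) (nat_lit 5447180989) (nat_lit 151) (nat_lit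 5) (nat_lit 150) (nat_lit 5) (nat_lit 164) (nat_lit 5) (nat_lit 300) (nat_lit 287) (nat_lit 193)) (XT.lf (nat_lit 0) (nat_lit 7168014359) (nat_lit 988) (nat_lit 4393642320) (nat_lit 1064) (nat_lit 192674698) (nat_lit 151) (nat_lit 5) (nat_lit 164) (nat_lit 5) (nat_lit 165) (nat_lit 5) (nat_lit 301) (nat_lit 287) (nat_lit 192))))) (XT.nd (nat_lit 234) (nat_lit 2052) (nat_lit 0) (XT.nd (nat_lit 78) (nat_lit 0) (nat_lit 0) (XT.lf (nat_lit 76) (nat_lit 603676094) (nat_lit 0) (nat_lit 7659036699) (nat_lit 1064) (nat_lit 3673422357) (nat_lit 152) (nat_lit 5) (nat_lit 151) (nat_lit 5) (nat_lit 165) (nat_lit 5) (nat_lit 302) (nat_lit 287) (nat_lit 191)) (XT.nd (nat_lit 78) (nat_lit 0) (nat_lit 76) (XT.lf (nat_lit 76) (nat_lit 5826884962) (nat_lit 0) (nat_lit 3589831143) (nat_lit 1064) (nat_lit 2705938621) (nat_lit 152) (nat_lit 5) (nat_lit 151) (nat_lit 5) (nat_lit 165) (nat_lit 5) (nat_lit 303) (nat_lit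 287) (nat_lit 190)) (XT.lf (nat_lit 0) (nat_lit 10593774779) (nat_lit 988) (nat_lit 1128056236) (nat_lit 76) (nat_lit 593339804) (nat_lit 152) (nat_lit 5) (nat_lit 165) (nat_lit 5) (nat_lit 153) (nat_lit 5) (nat_lit 304) (nat_lit 287) (nat_lit 189)))) (XT.nd (nat_lit 78) (nat_lit 1140) (nat_lit 0) (XT.lf (nat_lit 0) (nat_lit 4227766188) (nat_lit 988) (nat_lit 7637720765) (nat_lit 1064) (nat_lit 646247606) (nat_lit 139) (nat_lit 5) (nat_lit 152) (nat_lit 5) (nat_lit 153) (nat_lit 5) (nat_lit 305) (nat_lit 287) (nat_lit 188)) (XT.nd (nat_lit 78) (nat_lit 1064) (nat_lit 0) (XT.lf (nat_lit 0) (nat_lit 446964726) (nat_lit 1064) (nat_lit 2965136027) (nat_lit 76) (nat_lit 9302166629) (nat_lit 138) (nat_lit 5) (nat_lit 152) (nat_lit 5) (nat_lit 139) (nat_lit 5) (nat_lit 306) (nat_lit 287) (nat_lit 187)) (XT.lf (nat_lit 0) (nat_lit 1577585705) (nat_lit 1140) (nat_lit 10389084626) (nat_lit 76) (nat_lit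 955533836) (nat_lit 124) (nat_lit 5) (nat_lit 139) (nat_lit 5) (nat_lit 125) (nat_lit 5) (nat_lit 307) (nat_lit 287) (nat_lit 186)))))) (XT.nd (nat_lit 390) (nat_lit 1064) (nat_lit 0) (XT.nd (nat_lit 156) (nat_lit 456) (nat_lit 0) (XT.nd (nat_lit 78) (nat_lit 532) (nat_lit 0) (XT.lf (nat_lit 0) (nat_lit 2790301196) (nat_lit 1140) (nat_lit 4926578250) (nat_lit 76) (nat_lit 5418100904) (nat_lit 124) (nat_lit 5) (nat_lit 139) (nat_lit 5) (nat_lit 125) (nat_lit 5) (nat_lit 308) (nat_lit 287) (nat_lit 185)) (XT.lf (nat_lit 0) (nat_lit 699746254) (nat_lit 532) (nat_lit 3330994005) (nat_lit 608) (nat_lit 9323704510) (nat_lit 117) (nat_lit 5) (nat_lit 124) (nat_lit 5) (nat_lit 125) (nat_lit 5) (nat_lit 309) (nat_lit 287) (nat_lit 184))) (XT.nd (nat_lit 78) (nat_lit 456) (nat_lit 0) (XT.lf (nat_lit 0) (nat_lit 5354986506) (nat_lit 608) (nat_lit 7009135181) (nat_lit 76) (nat_lit 1215017512) (nat_lit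 117) (nat_lit 5) (nat_lit 125) (nat_lit 5) (nat_lit 118) (nat_lit 5) (nat_lit 310) (nat_lit 287) (nat_lit 183)) (XT.nd (nat_lit 78) (nat_lit 456) (nat_lit 0) (XT.lf (nat_lit 0) (nat_lit 6737326307) (nat_lit 608) (nat_lit 1240862193) (nat_lit 76) (nat_lit 5831877593) (nat_lit 117) (nat_lit 5) (nat_lit 125) (nat_lit 5) (nat_lit 118) (nat_lit 5) (nat_lit 311) (nat_lit 287) (nat_lit 182)) (XT.lf (nat_lit 0) (nat_lit 4780464314) (nat_lit 456) (nat_lit 3412436415) (nat_lit 532) (nat_lit 5854108512) (nat_lit 111) (nat_lit 5) (nat_lit 117) (nat_lit 5) (nat_lit 118) (nat_lit 5) (nat_lit 312) (nat_lit 287) (nat_lit 181))))) (XT.nd (nat_lit 234) (nat_lit 532) (nat_lit 0) (XT.nd (nat_lit 78) (nat_lit 532) (nat_lit 0) (XT.lf (nat_lit 0) (nat_lit 9703305538) (nat_lit 532) (nat_lit 3308957817) (nat_lit 76) (nat_lit 1278502604) (nat_lit 111) (nat_lit 5) (nat_lit 118) (nat_lit 5) (nat_lit 112) (nat_lit 5) (nat_lit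 313) (nat_lit 287) (nat_lit 180)) (XT.nd (nat_lit 78) (nat_lit 0) (nat_lit 0) (XT.lf (nat_lit 0) (nat_lit 2835688380) (nat_lit 532) (nat_lit 8470889445) (nat_lit 608) (nat_lit 3233869898) (nat_lit 104) (nat_lit 5) (nat_lit 111) (nat_lit 5) (nat_lit 112) (nat_lit 5) (nat_lit 314) (nat_lit 287) (nat_lit 179)) (XT.lf (nat_lit 0) (nat_lit 9219417408) (nat_lit 532) (nat_lit 3758722420) (nat_lit 608) (nat_lit 1818912231) (nat_lit 104) (nat_lit 5) (nat_lit 111) (nat_lit 5) (nat_lit 112) (nat_lit 5) (nat_lit 315) (nat_lit 287) (nat_lit 178)))) (XT.nd (nat_lit 78) (nat_lit 76) (nat_lit 0) (XT.lf (nat_lit 0) (nat_lit 723774325) (nat_lit 456) (nat_lit 13980719654) (nat_lit 532) (nat_lit 356757950) (nat_lit 98) (nat_lit 5) (nat_lit 104) (nat_lit 5) (nat_lit 105) (nat_lit 5) (nat_lit 316) (nat_lit 287) (nat_lit 177)) (XT.nd (nat_lit 78) (nat_lit 0) (nat_lit 0) (XT.lf (nat_lit 0) (nat_lit 1208183865) (nat_lit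 532) (nat_lit 8065235160) (nat_lit 76) (nat_lit 6057221528) (nat_lit 97) (nat_lit 5) (nat_lit 104) (nat_lit 5) (nat_lit 98) (nat_lit 5) (nat_lit 317) (nat_lit 287) (nat_lit 176)) (XT.lf (nat_lit 0) (nat_lit 2800527943) (nat_lit 532) (nat_lit 1621259199) (nat_lit 76) (nat_lit 11186622635) (nat_lit 97) (nat_lit 5) (nat_lit 104) (nat_lit 5) (nat_lit 98) (nat_lit 5) (nat_lit 318) (nat_lit 287) (nat_lit 175))))))))
noncomputable def xc185 : XT := (XT.nd (nat_lit 1716) (nat_lit 2052) (nat_lit 0) (XT.nd (nat_lit 858) (nat_lit 1292) (nat_lit 0) (XT.nd (nat_lit 390) (nat_lit 1216) (nat_lit 0) (XT.nd (nat_lit 156) (nat_lit 380) (nat_lit 0) (XT.nd (nat_lit 78) (nat_lit 0) (nat_lit 0) (XT.lf (nat_lit 0) (nat_lit 4483693118) (nat_lit 532) (nat_lit 10796355404) (nat_lit 76) (nat_lit 613204694) (nat_lit 91) (nat_lit 5) (nat_lit 98) (nat_lit 5) (nat_lit 92) (nat_lit 5) (nat_lit 319) (nat_lit 287) (nat_lit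 174)) (XT.lf (nat_lit 0) (nat_lit 6265876678) (nat_lit 532) (nat_lit 4193041443) (nat_lit 76) (nat_lit 5726299851) (nat_lit 91) (nat_lit 5) (nat_lit 98) (nat_lit 5) (nat_lit 92) (nat_lit 5) (nat_lit 320) (nat_lit 287) (nat_lit 173))) (XT.nd (nat_lit 78) (nat_lit 0) (nat_lit 0) (XT.lf (nat_lit 0) (nat_lit 2647626746) (nat_lit 380) (nat_lit 5467902735) (nat_lit 456) (nat_lit 8370022862) (nat_lit 86) (nat_lit 5) (nat_lit 91) (nat_lit 5) (nat_lit 92) (nat_lit 5) (nat_lit 321) (nat_lit 287) (nat_lit 172)) (XT.nd (nat_lit 78) (nat_lit 0) (nat_lit 0) (XT.lf (nat_lit 0) (nat_lit 9767179962) (nat_lit 380) (nat_lit 284601816) (nat_lit 456) (nat_lit 6742211564) (nat_lit 86) (nat_lit 5) (nat_lit 91) (nat_lit 5) (nat_lit 92) (nat_lit 5) (nat_lit 322) (nat_lit 287) (nat_lit 171)) (XT.lf (nat_lit 0) (nat_lit 12083791373) (nat_lit 456) (nat_lit 72228484) (nat_lit 76) (nat_lit 4954566644) (nat_lit 86) (nat_lit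 5) (nat_lit 92) (nat_lit 5) (nat_lit 87) (nat_lit 5) (nat_lit 323) (nat_lit 287) (nat_lit 170))))) (XT.nd (nat_lit 234) (nat_lit 380) (nat_lit 0) (XT.nd (nat_lit 78) (nat_lit 456) (nat_lit 0) (XT.lf (nat_lit 0) (nat_lit 7217088440) (nat_lit 380) (nat_lit 7021269299) (nat_lit 456) (nat_lit 3196499995) (nat_lit 81) (nat_lit 5) (nat_lit 86) (nat_lit 5) (nat_lit 87) (nat_lit 5) (nat_lit 324) (nat_lit 287) (nat_lit 169)) (XT.nd (nat_lit 78) (nat_lit 456) (nat_lit 0) (XT.lf (nat_lit 0) (nat_lit 14714763270) (nat_lit 380) (nat_lit 1733125955) (nat_lit 456) (nat_lit 1321285393) (nat_lit 81) (nat_lit 5) (nat_lit 86) (nat_lit 5) (nat_lit 87) (nat_lit 5) (nat_lit 325) (nat_lit 287) (nat_lit 168)) (XT.lf (nat_lit 0) (nat_lit 666432982) (nat_lit 456) (nat_lit 13756573176) (nat_lit 76) (nat_lit 3688320041) (nat_lit 75) (nat_lit 5) (nat_lit 81) (nat_lit 5) (nat_lit 76) (nat_lit 5) (nat_lit 326) (nat_lit 287)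 (nat_lit 167)))) (XT.nd (nat_lit 78) (nat_lit 380) (nat_lit 0) (XT.lf (nat_lit 0) (nat_lit 2725482466) (nat_lit 456) (nat_lit 6456443889) (nat_lit 76) (nat_lit 9280300865) (nat_lit 75) (nat_lit 5) (nat_lit 81) (nat_lit 5) (nat_lit 76) (nat_lit 5) (nat_lit 327) (nat_lit 287) (nat_lit 166)) (XT.nd (nat_lit 78) (nat_lit 0) (nat_lit 0) (XT.lf (nat_lit 0) (nat_lit 1072070837) (nat_lit 380) (nat_lit 3774778263) (nat_lit 456) (nat_lit 13976814106) (nat_lit 70) (nat_lit 5) (nat_lit 75) (nat_lit 5) (nat_lit 76) (nat_lit 5) (nat_lit 328) (nat_lit 287) (nat_lit 165)) (XT.lf (nat_lit 0) (nat_lit 7105347335) (nat_lit 456) (nat_lit 10264809483) (nat_lit 76) (nat_lit 1823604332) (nat_lit 70) (nat_lit 5) (nat_lit 76) (nat_lit 5) (nat_lit 71) (nat_lit 5) (nat_lit 329) (nat_lit 287) (nat_lit 164)))))) (XT.nd (nat_lit 390) (nat_lit 684) (nat_lit 0) (XT.nd (nat_lit 156) (nat_lit 304) (nat_lit 0) (XT.nd (nat_lit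 78) (nat_lit 304) (nat_lit 0) (XT.lf (nat_lit 0) (nat_lit 9459651274) (nat_lit 456) (nat_lit 2602174578) (nat_lit 76) (nat_lit 7512317568) (nat_lit 70) (nat_lit 5) (nat_lit 76) (nat_lit 5) (nat_lit 71) (nat_lit 5) (nat_lit 330) (nat_lit 287) (nat_lit 163)) (XT.lf (nat_lit 0) (nat_lit 5384361617) (nat_lit 304) (nat_lit 6542928758) (nat_lit 380) (nat_lit 8037387845) (nat_lit 66) (nat_lit 5) (nat_lit 70) (nat_lit 5) (nat_lit 71) (nat_lit 5) (nat_lit 331) (nat_lit 287) (nat_lit 162))) (XT.nd (nat_lit 78) (nat_lit 304) (nat_lit 0) (XT.lf (nat_lit 0) (nat_lit 13652898176) (nat_lit 304) (nat_lit 833444103) (nat_lit 380) (nat_lit 5880086869) (nat_lit 66) (nat_lit 5) (nat_lit 70) (nat_lit 5) (nat_lit 71) (nat_lit 5) (nat_lit 332) (nat_lit 287) (nat_lit 161)) (XT.nd (nat_lit 78) (nat_lit 0) (nat_lit 0) (XT.lf (nat_lit 0) (nat_lit 1356326989) (nat_lit 304) (nat_lit 15818741287) (nat_lit 380) (nat_lit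 3603598218) (nat_lit 62) (nat_lit 5) (nat_lit 66) (nat_lit 5) (nat_lit 67) (nat_lit 5) (nat_lit 333) (nat_lit 287) (nat_lit 160)) (XT.lf (nat_lit 0) (nat_lit 9786711923) (nat_lit 304) (nat_lit 10225203841) (nat_lit 380) (nat_lit 1189351759) (nat_lit 62) (nat_lit 5) (nat_lit 66) (nat_lit 5) (nat_lit 67) (nat_lit 5) (nat_lit 334) (nat_lit 287) (nat_lit 159))))) (XT.nd (nat_lit 234) (nat_lit 304) (nat_lit 0) (XT.nd (nat_lit 78) (nat_lit 304) (nat_lit 0) (XT.lf (nat_lit 0) (nat_lit 1263648439) (nat_lit 380) (nat_lit 3189653994) (nat_lit 76) (nat_lit 17183139965) (nat_lit 61) (nat_lit 5) (nat_lit 66) (nat_lit 5) (nat_lit 62) (nat_lit 5) (nat_lit 335) (nat_lit 287) (nat_lit 158)) (XT.nd (nat_lit 78) (nat_lit 0) (nat_lit 0) (XT.lf (nat_lit 0) (nat_lit 3824732047) (nat_lit 380) (nat_lit 16733413989) (nat_lit 76) (nat_lit 1524439892) (nat_lit 57) (nat_lit 5) (nat_lit 62) (nat_lit 5) (nat_lit 58) (nat_lit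 5) (nat_lit 336) (nat_lit 287) (nat_lit 157)) (XT.lf (nat_lit 0) (nat_lit 6531269922) (nat_lit 380) (nat_lit 8386480539) (nat_lit 76) (nat_lit 7622322734) (nat_lit 57) (nat_lit 5) (nat_lit 62) (nat_lit 5) (nat_lit 58) (nat_lit 5) (nat_lit 337) (nat_lit 287) (nat_lit 156)))) (XT.nd (nat_lit 78) (nat_lit 0) (nat_lit 0) (XT.lf (nat_lit 0) (nat_lit 204690624) (nat_lit 304) (nat_lit 9108515389) (nat_lit 380) (nat_lit 13698270565) (nat_lit 53) (nat_lit 5) (nat_lit 57) (nat_lit 5) (nat_lit 58) (nat_lit 5) (nat_lit 338) (nat_lit 287) (nat_lit 155)) (XT.nd (nat_lit 78) (nat_lit 0) (nat_lit 0) (XT.lf (nat_lit 0) (nat_lit 9215446663) (nat_lit 304) (nat_lit 3040204431) (nat_lit 380) (nat_lit 11239076486) (nat_lit 53) (nat_lit 5) (nat_lit 57) (nat_lit 5) (nat_lit 58) (nat_lit 5) (nat_lit 339) (nat_lit 287) (nat_lit 154)) (XT.lf (nat_lit 0) (nat_lit 15309791153) (nat_lit 380) (nat_lit 5536796743) (nat_lit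 76) (nat_lit 3145202120) (nat_lit 53) (nat_lit 5) (nat_lit 58) (nat_lit 5) (nat_lit 54) (nat_lit 5) (nat_lit 340) (nat_lit 287) (nat_lit 153))))))) (XT.nd (nat_lit 858) (nat_lit 988) (nat_lit 0) (XT.nd (nat_lit 390) (nat_lit 456) (nat_lit 0) (XT.nd (nat_lit 156) (nat_lit 380) (nat_lit 0) (XT.nd (nat_lit 78) (nat_lit 0) (nat_lit 0) (XT.lf (nat_lit 0) (nat_lit 3496390986) (nat_lit 228) (nat_lit 15015655144) (nat_lit 304) (nat_lit 5990039540) (nat_lit 50) (nat_lit 5) (nat_lit 53) (nat_lit 5) (nat_lit 54) (nat_lit 5) (nat_lit 341) (nat_lit 287) (nat_lit 152)) (XT.lf (nat_lit 0) (nat_lit 12904471207) (nat_lit 228) (nat_lit 8954706561) (nat_lit 304) (nat_lit 3167063758) (nat_lit 50) (nat_lit 5) (nat_lit 53) (nat_lit 5) (nat_lit 54) (nat_lit 5) (nat_lit 342) (nat_lit 287) (nat_lit 151))) (XT.nd (nat_lit 78) (nat_lit 380) (nat_lit 0) (XT.lf (nat_lit 0) (nat_lit 22585471457) (nat_lit 228) (nat_lit 2714356963)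 (nat_lit 304) (nat_lit 266515630) (nat_lit 50) (nat_lit 5) (nat_lit 53) (nat_lit 5) (nat_lit 54) (nat_lit 5) (nat_lit 343) (nat_lit 287) (nat_lit 150)) (XT.nd (nat_lit 78) (nat_lit 0) (nat_lit 0) (XT.lf (nat_lit 0) (nat_lit 2760461315) (nat_lit 380) (nat_lit 19630504535) (nat_lit 76) (nat_lit 3728138090) (nat_lit 45) (nat_lit 5) (nat_lit 50) (nat_lit 5) (nat_lit 46) (nat_lit 5) (nat_lit 344) (nat_lit 287) (nat_lit 149)) (XT.lf (nat_lit 0) (nat_lit 5923476137) (nat_lit 380) (nat_lit 10423394763) (nat_lit 76) (nat_lit 10339992866) (nat_lit 45) (nat_lit 5) (nat_lit 50) (nat_lit 5) (nat_lit 46) (nat_lit 5) (nat_lit 345) (nat_lit 287) (nat_lit 148))))) (XT.nd (nat_lit 234) (nat_lit 228) (nat_lit 0) (XT.nd (nat_lit 78) (nat_lit 228) (nat_lit 0) (XT.lf (nat_lit 0) (nat_lit 9174887666) (nat_lit 380) (nat_lit 949100896) (nat_lit 76) (nat_lit 17147876094) (nat_lit 45) (nat_lit 5) (nat_lit 50) (nat_lit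 5) (nat_lit 46) (nat_lit 5) (nat_lit 346) (nat_lit 287) (nat_lit 147)) (XT.nd (nat_lit 78) (nat_lit 0) (nat_lit 0) (XT.lf (nat_lit 0) (nat_lit 8975805874) (nat_lit 228) (nat_lit 3628012003) (nat_lit 304) (nat_lit 15268211471) (nat_lit 42) (nat_lit 5) (nat_lit 45) (nat_lit 5) (nat_lit 46) (nat_lit 5) (nat_lit 347) (nat_lit 287) (nat_lit 146)) (XT.lf (nat_lit 0) (nat_lit 16168508663) (nat_lit 304) (nat_lit 9310388081) (nat_lit 76) (nat_lit 3010328141) (nat_lit 42) (nat_lit 5) (nat_lit 46) (nat_lit 5) (nat_lit 43) (nat_lit 5) (nat_lit 348) (nat_lit 287) (nat_lit 145)))) (XT.nd (nat_lit 78) (nat_lit 0) (nat_lit 0) (XT.lf (nat_lit 0) (nat_lit 528823345) (nat_lit 228) (nat_lit 19346274305) (nat_lit 304) (nat_lit 9248802229) (nat_lit 39) (nat_lit 5) (nat_lit 42) (nat_lit 5) (nat_lit 43) (nat_lit 5) (nat_lit 349) (nat_lit 287) (nat_lit 144)) (XT.nd (nat_lit 78) (nat_lit 0) (nat_lit 0) (XT.lf (nat_lit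 0) (nat_lit 10845551863) (nat_lit 228) (nat_lit 12935396589) (nat_lit 304) (nat_lit 5994036703) (nat_lit 39) (nat_lit 5) (nat_lit 42) (nat_lit 5) (nat_lit 43) (nat_lit 5) (nat_lit 350) (nat_lit 287) (nat_lit 143)) (XT.lf (nat_lit 0) (nat_lit 21463517113) (nat_lit 228) (nat_lit 6334678520) (nat_lit 304) (nat_lit 2647592338) (nat_lit 39) (nat_lit 5) (nat_lit 42) (nat_lit 5) (nat_lit 43) (nat_lit 5) (nat_lit 351) (nat_lit 287) (nat_lit 142)))))) (XT.nd (nat_lit 390) (nat_lit 456) (nat_lit 0) (XT.nd (nat_lit 156) (nat_lit 228) (nat_lit 0) (XT.nd (nat_lit 78) (nat_lit 0) (nat_lit 0) (XT.lf (nat_lit 0) (nat_lit 794836174) (nat_lit 304) (nat_lit 29868630504) (nat_lit 76) (nat_lit 472693041) (nat_lit 35) (nat_lit 5) (nat_lit 39) (nat_lit 5) (nat_lit 36) (nat_lit 5) (nat_lit 352) (nat_lit 287) (nat_lit 141)) (XT.lf (nat_lit 0) (nat_lit 4436031076) (nat_lit 304) (nat_lit 19933624833) (nat_lit 76) (nat_lit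 7472349696) (nat_lit 35) (nat_lit 5) (nat_lit 39) (nat_lit 5) (nat_lit 36) (nat_lit 5) (nat_lit 353) (nat_lit 287) (nat_lit 140))) (XT.nd (nat_lit 78) (nat_lit 228) (nat_lit 0) (XT.lf (nat_lit 0) (nat_lit 8181011876) (nat_lit 304) (nat_lit 9708552414) (nat_lit 76) (nat_lit 14679636389) (nat_lit 35) (nat_lit 5) (nat_lit 39) (nat_lit 5) (nat_lit 36) (nat_lit 5) (nat_lit 354) (nat_lit 287) (nat_lit 139)) (XT.nd (nat_lit 78) (nat_lit 0) (nat_lit 0) (XT.lf (nat_lit 0) (nat_lit 831751754) (nat_lit 228) (nat_lit 11209294439) (nat_lit 304) (nat_lit 21277094302) (nat_lit 32) (nat_lit 5) (nat_lit 35) (nat_lit 5) (nat_lit 36) (nat_lit 5) (nat_lit 355) (nat_lit 287) (nat_lit 138)) (XT.lf (nat_lit 0) (nat_lit 11879605948) (nat_lit 228) (nat_lit 4230102059) (nat_lit 304) (nat_lit 17977065426) (nat_lit 32) (nat_lit 5) (nat_lit 35) (nat_lit 5) (nat_lit 36) (nat_lit 5) (nat_lit 356) (nat_lit 287) (nat_lit 137)))))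 (XT.nd (nat_lit 234) (nat_lit 304) (nat_lit 0) (XT.nd (nat_lit 78) (nat_lit 152) (nat_lit 0) (XT.lf (nat_lit 0) (nat_lit 20323786164) (nat_lit 304) (nat_lit 11655597759) (nat_lit 76) (nat_lit 2898390181) (nat_lit 32) (nat_lit 5) (nat_lit 36) (nat_lit 5) (nat_lit 33) (nat_lit 5) (nat_lit 357) (nat_lit 287) (nat_lit 136)) (XT.nd (nat_lit 78) (nat_lit 152) (nat_lit 0) (XT.lf (nat_lit 0) (nat_lit 24701234788) (nat_lit 304) (nat_lit 836731664) (nat_lit 76) (nat_lit 10153439063) (nat_lit 32) (nat_lit 5) (nat_lit 36) (nat_lit 5) (nat_lit 33) (nat_lit 5) (nat_lit 358) (nat_lit 287) (nat_lit 135)) (XT.lf (nat_lit 0) (nat_lit 10504527676) (nat_lit 152) (nat_lit 18801664774) (nat_lit 228) (nat_lit 7220376747) (nat_lit 30) (nat_lit 5) (nat_lit 32) (nat_lit 5) (nat_lit 33) (nat_lit 5) (nat_lit 359) (nat_lit 287) (nat_lit 134)))) (XT.nd (nat_lit 78) (nat_lit 304) (nat_lit 0) (XT.lf (nat_lit 0) (nat_lit 22196093205)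 (nat_lit 152) (nat_lit 11856936054) (nat_lit 228) (nat_lit 3333655256) (nat_lit 30) (nat_lit 5) (nat_lit 32) (nat_lit 5) (nat_lit 33) (nat_lit 5) (nat_lit 360) (nat_lit 287) (nat_lit 133)) (XT.nd (nat_lit 78) (nat_lit 228) (nat_lit 0) (XT.lf (nat_lit 0) (nat_lit 651965174) (nat_lit 228) (nat_lit 4047612688) (nat_lit 76) (nat_lit 33572979507) (nat_lit 29) (nat_lit 5) (nat_lit 32) (nat_lit 5) (nat_lit 30) (nat_lit 5) (nat_lit 361) (nat_lit 287) (nat_lit 132)) (XT.lf (nat_lit 0) (nat_lit 4784812697) (nat_lit 304) (nat_lit 31671750406) (nat_lit 76) (nat_lit 2724621165) (nat_lit 26) (nat_lit 5) (nat_lit 30) (nat_lit 5) (nat_lit 27) (nat_lit 5) (nat_lit 362) (nat_lit 287) (nat_lit 131))))))))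
noncomputable def xc186 : XT := (XT.nd (nat_lit 1716) (nat_lit 152) (nat_lit 0) (XT.nd (nat_lit 858) (nat_lit 304) (nat_lit 0) (XT.nd (nat_lit 390) (nat_lit 380) (nat_lit 0) (XT.nd (nat_lit 156) (nat_lit 152) (nat_lit 0) (XT.nd (nat_lit 78) (nat_lit 0) (nat_lit 0) (XT.lf (nat_lit 0) (nat_lit 9124998404) (nat_lit 304) (nat_lit 20673442036) (nat_lit 76) (nat_lit 10316136626) (nat_lit 26) (nat_lit 5) (nat_lit 30) (nat_lit 5) (nat_lit 27) (nat_lit 5) (nat_lit 363) (nat_lit 287) (nat_lit 130)) (XT.lf (nat_lit 0) (nat_lit 13591064101) (nat_lit 304) (nat_lit 9351812564) (nat_lit 76) (nat_lit 18133232201) (nat_lit 26) (nat_lit 5) (nat_lit 30) (nat_lit 5) (nat_lit 27) (nat_lit 5) (nat_lit 364) (nat_lit 287) (nat_lit 129))) (XT.nd (nat_lit 78) (nat_lit 0) (nat_lit 0) (XT.lf (nat_lit 0) (nat_lit 2348865521) (nat_lit 152) (nat_lit 15860625386) (nat_lit 228) (nat_lit 23856451574) (nat_lit 24) (nat_lit 5)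 (nat_lit 26) (nat_lit 5) (nat_lit 27) (nat_lit 5) (nat_lit 365) (nat_lit 287) (nat_lit 128)) (XT.nd (nat_lit 78) (nat_lit 0) (nat_lit 0) (XT.lf (nat_lit 0) (nat_lit 14585894931) (nat_lit 152) (nat_lit 8470872029) (nat_lit 228) (nat_lit 20026002273) (nat_lit 24) (nat_lit 5) (nat_lit 26) (nat_lit 5) (nat_lit 27) (nat_lit 5) (nat_lit 366) (nat_lit 287) (nat_lit 127)) (XT.lf (nat_lit 0) (nat_lit 27183848808) (nat_lit 152) (nat_lit 861594498) (nat_lit 228) (nat_lit 16084784840) (nat_lit 24) (nat_lit 5) (nat_lit 26) (nat_lit 5) (nat_lit 27) (nat_lit 5) (nat_lit 367) (nat_lit 287) (nat_lit 126))))) (XT.nd (nat_lit 234) (nat_lit 228) (nat_lit 0) (XT.nd (nat_lit 78) (nat_lit 152) (nat_lit 0) (XT.lf (nat_lit 0) (nat_lit 33246915955) (nat_lit 228) (nat_lit 5122536374) (nat_lit 76) (nat_lit 6837771037) (nat_lit 24) (nat_lit 5) (nat_lit 27) (nat_lit 5) (nat_lit 25) (nat_lit 5) (nat_lit 368) (nat_lit 287)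 (nat_lit 125)) (XT.nd (nat_lit 78) (nat_lit 0) (nat_lit 0) (XT.lf (nat_lit 0) (nat_lit 7181700393) (nat_lit 152) (nat_lit 31496490940) (nat_lit 228) (nat_lit 7636130780) (nat_lit 22) (nat_lit 5) (nat_lit 24) (nat_lit 5) (nat_lit 25) (nat_lit 5) (nat_lit 369) (nat_lit 287) (nat_lit 124)) (XT.lf (nat_lit 0) (nat_lit 19954197703) (nat_lit 152) (nat_lit 24366182280) (nat_lit 228) (nat_lit 3132820830) (nat_lit 22) (nat_lit 5) (nat_lit 24) (nat_lit 5) (nat_lit 25) (nat_lit 5) (nat_lit 370) (nat_lit 287) (nat_lit 123)))) (XT.nd (nat_lit 78) (nat_lit 152) (nat_lit 0) (XT.lf (nat_lit 0) (nat_lit 1472523687) (nat_lit 228) (nat_lit 15536630267) (nat_lit 76) (nat_lit 31616774180) (nat_lit 21) (nat_lit 5) (nat_lit 24) (nat_lit 5) (nat_lit 22) (nat_lit 5) (nat_lit 371) (nat_lit 287) (nat_lit 122)) (XT.nd (nat_lit 78) (nat_lit 152) (nat_lit 0) (XT.lf (nat_lit 0) (nat_lit 6149484004) (nat_lit 228) (nat_lit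 3252017554) (nat_lit 76) (nat_lit 40431518224) (nat_lit 21) (nat_lit 5) (nat_lit 24) (nat_lit 5) (nat_lit 22) (nat_lit 5) (nat_lit 372) (nat_lit 287) (nat_lit 121)) (XT.lf (nat_lit 0) (nat_lit 9582676272) (nat_lit 152) (nat_lit 1472717677) (nat_lit 228) (nat_lit 40018276551) (nat_lit 19) (nat_lit 5) (nat_lit 21) (nat_lit 5) (nat_lit 22) (nat_lit 5) (nat_lit 373) (nat_lit 287) (nat_lit 120)))))) (XT.nd (nat_lit 390) (nat_lit 152) (nat_lit 0) (XT.nd (nat_lit 156) (nat_lit 152) (nat_lit 0) (XT.nd (nat_lit 78) (nat_lit 0) (nat_lit 0) (XT.lf (nat_lit 0) (nat_lit 16202548102) (nat_lit 228) (nat_lit 29551638295) (nat_lit 76) (nat_lit 6594537718) (nat_lit 19) (nat_lit 5) (nat_lit 22) (nat_lit 5) (nat_lit 20) (nat_lit 5) (nat_lit 374) (nat_lit 287) (nat_lit 119)) (XT.lf (nat_lit 0) (nat_lit 21515355155) (nat_lit 228) (nat_lit 17274008800) (nat_lit 76) (nat_lit 14872333461) (nat_lit 19) (nat_lit 5) (nat_lit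 22) (nat_lit 5) (nat_lit 20) (nat_lit 5) (nat_lit 375) (nat_lit 287) (nat_lit 118))) (XT.nd (nat_lit 78) (nat_lit 152) (nat_lit 0) (XT.lf (nat_lit 0) (nat_lit 26984300704) (nat_lit 228) (nat_lit 4633221053) (nat_lit 76) (nat_lit 23396640604) (nat_lit 19) (nat_lit 5) (nat_lit 22) (nat_lit 5) (nat_lit 20) (nat_lit 5) (nat_lit 376) (nat_lit 287) (nat_lit 117)) (XT.nd (nat_lit 78) (nat_lit 0) (nat_lit 0) (XT.lf (nat_lit 0) (nat_lit 8548583955) (nat_lit 152) (nat_lit 24147753702) (nat_lit 228) (nat_lit 23708497832) (nat_lit 17) (nat_lit 5) (nat_lit 19) (nat_lit 5) (nat_lit 20) (nat_lit 5) (nat_lit 377) (nat_lit 287) (nat_lit 116)) (XT.lf (nat_lit 0) (nat_lit 22215848787) (nat_lit 152) (nat_lit 16407566199) (nat_lit 228) (nat_lit 19212508229) (nat_lit 17) (nat_lit 5) (nat_lit 19) (nat_lit 5) (nat_lit 20) (nat_lit 5) (nat_lit 378) (nat_lit 287) (nat_lit 115))))) (XT.nd (nat_lit 234) (nat_lit 76) (nat_lit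 0) (XT.nd (nat_lit 78) (nat_lit 76) (nat_lit 0) (XT.lf (nat_lit 0) (nat_lit 36288305528) (nat_lit 152) (nat_lit 8436982427) (nat_lit 228) (nat_lit 14584750761) (nat_lit 17) (nat_lit 5) (nat_lit 19) (nat_lit 5) (nat_lit 20) (nat_lit 5) (nat_lit 379) (nat_lit 287) (nat_lit 114)) (XT.nd (nat_lit 78) (nat_lit 76) (nat_lit 0) (XT.lf (nat_lit 0) (nat_lit 50778250500) (nat_lit 152) (nat_lit 229037798) (nat_lit 228) (nat_lit 9821181757) (nat_lit 17) (nat_lit 5) (nat_lit 19) (nat_lit 5) (nat_lit 20) (nat_lit 5) (nat_lit 380) (nat_lit 287) (nat_lit 113)) (XT.lf (nat_lit 0) (nat_lit 3290970762) (nat_lit 76) (nat_lit 54294617935) (nat_lit 152) (nat_lit 4803634812) (nat_lit 16) (nat_lit 5) (nat_lit 17) (nat_lit 5) (nat_lit 18) (nat_lit 4) (nat_lit 381) (nat_lit 287) (nat_lit 112)))) (XT.nd (nat_lit 78) (nat_lit 0) (nat_lit 0) (XT.lf (nat_lit 0) (nat_lit 459234374) (nat_lit 152) (nat_lit 46766752111) (nat_lit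 76) (nat_lit 16767654891) (nat_lit 15) (nat_lit 5) (nat_lit 17) (nat_lit 5) (nat_lit 16) (nat_lit 5) (nat_lit 382) (nat_lit 287) (nat_lit 111)) (XT.nd (nat_lit 78) (nat_lit 0) (nat_lit 0) (XT.lf (nat_lit 0) (nat_lit 5780671726) (nat_lit 152) (nat_lit 34117369985) (nat_lit 76) (nat_lit 25746810339) (nat_lit 15) (nat_lit 5) (nat_lit 17) (nat_lit 5) (nat_lit 16) (nat_lit 5) (nat_lit 383) (nat_lit 287) (nat_lit 110)) (XT.lf (nat_lit 0) (nat_lit 11259063259) (nat_lit 152) (nat_lit 21092878034) (nat_lit 76) (nat_lit 34993742308) (nat_lit 15) (nat_lit 5) (nat_lit 17) (nat_lit 5) (nat_lit 16) (nat_lit 5) (nat_lit 384) (nat_lit 287) (nat_lit 109))))))) (XT.nd (nat_lit 33696) (nat_lit 0) (nat_lit 9500) (XT.nd (nat_lit 33228) (nat_lit 0) (nat_lit 10184) (XT.nd (nat_lit 156) (nat_lit 0) (nat_lit 0) (XT.nd (nat_lit 78) (nat_lit 152) (nat_lit 0) (XT.lf (nat_lit 0) (nat_lit 16899195917) (nat_lit 152) (nat_lit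 7681895634) (nat_lit 76) (nat_lit 44516530641) (nat_lit 15) (nat_lit 5) (nat_lit 17) (nat_lit 5) (nat_lit 16) (nat_lit 5) (nat_lit 385) (nat_lit 287) (nat_lit 108)) (XT.lf (nat_lit 0) (nat_lit 6249240742) (nat_lit 152) (nat_lit 16516828753) (nat_lit 228) (nat_lit 48134327003) (nat_lit 13) (nat_lit 5) (nat_lit 15) (nat_lit 5) (nat_lit 16) (nat_lit 5) (nat_lit 386) (nat_lit 287) (nat_lit 107))) (XT.nd (nat_lit 32916) (nat_lit 0) (nat_lit 11096) (XT.lf (nat_lit 0) (nat_lit 20751702250) (nat_lit 152) (nat_lit 8132319132) (nat_lit 228) (nat_lit 43870984048) (nat_lit 13) (nat_lit 5) (nat_lit 15) (nat_lit 5) (nat_lit 16) (nat_lit 5) (nat_lit 387) (nat_lit 287) (nat_lit 106)) (XT.nd (nat_lit 78) (nat_lit 0) (nat_lit 0) (XT.lf (nat_lit 0) (nat_lit 3463112705) (nat_lit 988) (nat_lit 748470716) (nat_lit 988) (nat_lit 748470716) (nat_lit 159) (nat_lit 3) (nat_lit 172) (nat_lit 3) (nat_lit 172) (nat_lit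 5) (nat_lit 288) (nat_lit 288) (nat_lit 204)) (XT.lf (nat_lit 76) (nat_lit 2551201205) (nat_lit 0) (nat_lit 5132048259) (nat_lit 988) (nat_lit 2363974076) (nat_lit 160) (nat_lit 5) (nat_lit 159) (nat_lit 3) (nat_lit 172) (nat_lit 5) (nat_lit 289) (nat_lit 288) (nat_lit 203))))) (XT.nd (nat_lit 234) (nat_lit 912) (nat_lit 0) (XT.nd (nat_lit 78) (nat_lit 0) (nat_lit 76) (XT.lf (nat_lit 76) (nat_lit 6738546484) (nat_lit 0) (nat_lit 1714896891) (nat_lit 988) (nat_lit 1725076778) (nat_lit 160) (nat_lit 5) (nat_lit 159) (nat_lit 3) (nat_lit 172) (nat_lit 5) (nat_lit 290) (nat_lit 288) (nat_lit 202)) (XT.nd (nat_lit 78) (nat_lit 0) (nat_lit 0) (XT.lf (nat_lit 76) (nat_lit 721019745) (nat_lit 0) (nat_lit 8526173381) (nat_lit 988) (nat_lit 1066628322) (nat_lit 161) (nat_lit 5) (nat_lit 160) (nat_lit 5) (nat_lit 173) (nat_lit 5) (nat_lit 291) (nat_lit 288) (nat_lit 201)) (XT.lf (nat_lit 76) (nat_lit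 5046716034) (nat_lit 0) (nat_lit 5046325595) (nat_lit 988) (nat_lit 359368536) (nat_lit 161) (nat_lit 5) (nat_lit 160) (nat_lit 5) (nat_lit 173) (nat_lit 5) (nat_lit 292) (nat_lit 288) (nat_lit 200)))) (XT.nd (nat_lit 78) (nat_lit 0) (nat_lit 76) (XT.lf (nat_lit 0) (nat_lit 339023633) (nat_lit 988) (nat_lit 1109987189) (nat_lit 1064) (nat_lit 9146798320) (nat_lit 147) (nat_lit 5) (nat_lit 160) (nat_lit 5) (nat_lit 161) (nat_lit 5) (nat_lit 293) (nat_lit 288) (nat_lit 199)) (XT.nd (nat_lit 78) (nat_lit 0) (nat_lit 0) (XT.lf (nat_lit 0) (nat_lit 1083392719) (nat_lit 988) (nat_lit 7401706562) (nat_lit 1064) (nat_lit 2257407062) (nat_lit 148) (nat_lit 5) (nat_lit 161) (nat_lit 5) (nat_lit 162) (nat_lit 5) (nat_lit 294) (nat_lit 288) (nat_lit 198)) (XT.lf (nat_lit 0) (nat_lit 1854149648) (nat_lit 988) (nat_lit 2973610476) (nat_lit 1064) (nat_lit 6065791025) (nat_lit 148) (nat_lit 5) (nat_lit 161)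 (nat_lit 5) (nat_lit 162) (nat_lit 5) (nat_lit 295) (nat_lit 288) (nat_lit 197)))))) (XT.nd (nat_lit 390) (nat_lit 760) (nat_lit 0) (XT.nd (nat_lit 156) (nat_lit 0) (nat_lit 76) (XT.nd (nat_lit 78) (nat_lit 0) (nat_lit 76) (XT.lf (nat_lit 76) (nat_lit 1605305563) (nat_lit 0) (nat_lit 1037174760) (nat_lit 1064) (nat_lit 8406879841) (nat_lit 149) (nat_lit 5) (nat_lit 148) (nat_lit 5) (nat_lit 162) (nat_lit 5) (nat_lit 296) (nat_lit 288) (nat_lit 196)) (XT.lf (nat_lit 0) (nat_lit 3491920298) (nat_lit 988) (nat_lit 4868222005) (nat_lit 1064) (nat_lit 2848641833) (nat_lit 149) (nat_lit 5) (nat_lit 162) (nat_lit 5) (nat_lit 163) (nat_lit 5) (nat_lit 297) (nat_lit 288) (nat_lit 195))) (XT.nd (nat_lit 78) (nat_lit 0) (nat_lit 0) (XT.lf (nat_lit 0) (nat_lit 4357281311) (nat_lit 988) (nat_lit 178943363) (nat_lit 1064) (nat_lit 6837115602) (nat_lit 149) (nat_lit 5) (nat_lit 162) (nat_lit 5) (nat_lit 163)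 (nat_lit 5) (nat_lit 298) (nat_lit 288) (nat_lit 194)) (XT.nd (nat_lit 78) (nat_lit 0) (nat_lit 76) (XT.lf (nat_lit 76) (nat_lit 4730150991) (nat_lit 0) (nat_lit 544667662) (nat_lit 1064) (nat_lit 6267288749) (nat_lit 150) (nat_lit 5) (nat_lit 149) (nat_lit 5) (nat_lit 163) (nat_lit 5) (nat_lit 299) (nat_lit 288) (nat_lit 193)) (XT.lf (nat_lit 0) (nat_lit 6237229122) (nat_lit 988) (nat_lit 1973714552) (nat_lit 1064) (nat_lit 3504532451) (nat_lit 150) (nat_lit 5) (nat_lit 163) (nat_lit 5) (nat_lit 164) (nat_lit 5) (nat_lit 300) (nat_lit 288) (nat_lit 192))))) (XT.nd (nat_lit 234) (nat_lit 912) (nat_lit 0) (XT.nd (nat_lit 78) (nat_lit 0) (nat_lit 0) (XT.lf (nat_lit 76) (nat_lit 3050492391) (nat_lit 0) (nat_lit 4194519394) (nat_lit 1064) (nat_lit 4648596403) (nat_lit 151) (nat_lit 5) (nat_lit 150) (nat_lit 5) (nat_lit 164) (nat_lit 5) (nat_lit 301) (nat_lit 288) (nat_lit 191)) (XT.nd (nat_lit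 78) (nat_lit 0) (nat_lit 76) (XT.lf (nat_lit 76) (nat_lit 8252699784) (nat_lit 0) (nat_lit 32446549) (nat_lit 1064) (nat_lit 3791929937) (nat_lit 151) (nat_lit 5) (nat_lit 150) (nat_lit 5) (nat_lit 164) (nat_lit 5) (nat_lit 302) (nat_lit 288) (nat_lit 190)) (XT.lf (nat_lit 76) (nat_lit 1316297034) (nat_lit 0) (nat_lit 8076487425) (nat_lit 1064) (nat_lit 2872228938) (nat_lit 152) (nat_lit 5) (nat_lit 151) (nat_lit 5) (nat_lit 165) (nat_lit 5) (nat_lit 303) (nat_lit 288) (nat_lit 189)))) (XT.nd (nat_lit 78) (nat_lit 988) (nat_lit 0) (XT.lf (nat_lit 76) (nat_lit 6675973701) (nat_lit 0) (nat_lit 3879739306) (nat_lit 1064) (nat_lit 1902266206) (nat_lit 152) (nat_lit 5) (nat_lit 151) (nat_lit 5) (nat_lit 165) (nat_lit 5) (nat_lit 304) (nat_lit 288) (nat_lit 188)) (XT.nd (nat_lit 78) (nat_lit 1064) (nat_lit 0) (XT.lf (nat_lit 0) (nat_lit 11741436444) (nat_lit 988) (nat_lit 478025215) (nat_lit 76)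 (nat_lit 437686025) (nat_lit 152) (nat_lit 5) (nat_lit 165) (nat_lit 5) (nat_lit 153) (nat_lit 5) (nat_lit 305) (nat_lit 288) (nat_lit 187)) (XT.lf (nat_lit 0) (nat_lit 170041443) (nat_lit 1064) (nat_lit 7830113219) (nat_lit 76) (nat_lit 4860008719) (nat_lit 138) (nat_lit 5) (nat_lit 152) (nat_lit 5) (nat_lit 139) (nat_lit 5) (nat_lit 306) (nat_lit 288) (nat_lit 186))))))))
noncomputable def xc187 : XT := (XT.nd (nat_lit 1716) (nat_lit 2736) (nat_lit 0) (XT.nd (nat_lit 858) (nat_lit 1672) (nat_lit 0) (XT.nd (nat_lit 390) (nat_lit 1520) (nat_lit 0) (XT.nd (nat_lit 156) (nat_lit 532) (nat_lit 0) (XT.nd (nat_lit 78) (nat_lit 1064) (nat_lit 0) (XT.lf (nat_lit 0) (nat_lit 1259099435) (nat_lit 1064) (nat_lit 2378385533) (nat_lit 76) (nat_lit 9431885028) (nat_lit 138) (nat_lit 5) (nat_lit 152) (nat_lit 5) (nat_lit 139) (nat_lit 5) (nat_lit 307) (nat_lit 288) (nat_lit 185)) (XT.lf (nat_lit 0) (nat_lit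 2405722360) (nat_lit 1140) (nat_lit 10004841116) (nat_lit 76) (nat_lit 873587752) (nat_lit 124) (nat_lit 5) (nat_lit 139) (nat_lit 5) (nat_lit 125) (nat_lit 5) (nat_lit 308) (nat_lit 288) (nat_lit 184))) (XT.nd (nat_lit 78) (nat_lit 532) (nat_lit 0) (XT.lf (nat_lit 0) (nat_lit 3632077304) (nat_lit 1140) (nat_lit 4398728948) (nat_lit 76) (nat_lit 5473253545) (nat_lit 124) (nat_lit 5) (nat_lit 139) (nat_lit 5) (nat_lit 125) (nat_lit 5) (nat_lit 309) (nat_lit 288) (nat_lit 183)) (XT.nd (nat_lit 78) (nat_lit 0) (nat_lit 0) (XT.lf (nat_lit 0) (nat_lit 1389761304) (nat_lit 532) (nat_lit 3504319667) (nat_lit 608) (nat_lit 8836561526) (nat_lit 117) (nat_lit 5) (nat_lit 124) (nat_lit 5) (nat_lit 125) (nat_lit 5) (nat_lit 310) (nat_lit 288) (nat_lit 182)) (XT.lf (nat_lit 0) (nat_lit 6235745788) (nat_lit 608) (nat_lit 6545463796) (nat_lit 76) (nat_lit 1181600441) (nat_lit 117) (nat_lit 5) (nat_lit 125)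 (nat_lit 5) (nat_lit 118) (nat_lit 5) (nat_lit 311) (nat_lit 288) (nat_lit 181))))) (XT.nd (nat_lit 234) (nat_lit 1064) (nat_lit 0) (XT.nd (nat_lit 78) (nat_lit 456) (nat_lit 0) (XT.lf (nat_lit 0) (nat_lit 7638581715) (nat_lit 608) (nat_lit 623772097) (nat_lit 76) (nat_lit 5939001304) (nat_lit 117) (nat_lit 5) (nat_lit 125) (nat_lit 5) (nat_lit 118) (nat_lit 5) (nat_lit 312) (nat_lit 288) (nat_lit 180)) (XT.nd (nat_lit 78) (nat_lit 0) (nat_lit 0) (XT.lf (nat_lit 0) (nat_lit 5571779342) (nat_lit 456) (nat_lit 3551908876) (nat_lit 532) (nat_lit 5322201779) (nat_lit 111) (nat_lit 5) (nat_lit 117) (nat_lit 5) (nat_lit 118) (nat_lit 5) (nat_lit 313) (nat_lit 288) (nat_lit 179)) (XT.lf (nat_lit 0) (nat_lit 10659107467) (nat_lit 532) (nat_lit 2756976803) (nat_lit 76) (nat_lit 1281541735) (nat_lit 111) (nat_lit 5) (nat_lit 118) (nat_lit 5) (nat_lit 112) (nat_lit 5) (nat_lit 314) (nat_lit 288) (nat_lit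 178)))) (XT.nd (nat_lit 78) (nat_lit 532) (nat_lit 0) (XT.lf (nat_lit 0) (nat_lit 3565623979) (nat_lit 532) (nat_lit 8731692504) (nat_lit 608) (nat_lit 2657932557) (nat_lit 104) (nat_lit 5) (nat_lit 111) (nat_lit 5) (nat_lit 112) (nat_lit 5) (nat_lit 315) (nat_lit 288) (nat_lit 177)) (XT.nd (nat_lit 78) (nat_lit 532) (nat_lit 0) (XT.lf (nat_lit 0) (nat_lit 10122082404) (nat_lit 532) (nat_lit 3877966011) (nat_lit 608) (nat_lit 1220126744) (nat_lit 104) (nat_lit 5) (nat_lit 111) (nat_lit 5) (nat_lit 112) (nat_lit 5) (nat_lit 316) (nat_lit 288) (nat_lit 176)) (XT.lf (nat_lit 0) (nat_lit 267812647) (nat_lit 532) (nat_lit 14109270898) (nat_lit 76) (nat_lit 1115561285) (nat_lit 97) (nat_lit 5) (nat_lit 104) (nat_lit 5) (nat_lit 98) (nat_lit 5) (nat_lit 317) (nat_lit 288) (nat_lit 175)))))) (XT.nd (nat_lit 390) (nat_lit 836) (nat_lit 0) (XT.nd (nat_lit 156) (nat_lit 836) (nat_lit 0) (XT.nd (nat_lit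 78) (nat_lit 0) (nat_lit 0) (XT.lf (nat_lit 0) (nat_lit 1854237977) (nat_lit 532) (nat_lit 7671465246) (nat_lit 76) (nat_lit 6244904483) (nat_lit 97) (nat_lit 5) (nat_lit 104) (nat_lit 5) (nat_lit 98) (nat_lit 5) (nat_lit 318) (nat_lit 288) (nat_lit 174)) (XT.lf (nat_lit 0) (nat_lit 3476590962) (nat_lit 532) (nat_lit 1052686326) (nat_lit 76) (nat_lit 11528013846) (nat_lit 97) (nat_lit 5) (nat_lit 104) (nat_lit 5) (nat_lit 98) (nat_lit 5) (nat_lit 319) (nat_lit 288) (nat_lit 173))) (XT.nd (nat_lit 78) (nat_lit 380) (nat_lit 0) (XT.lf (nat_lit 0) (nat_lit 5199174848) (nat_lit 532) (nat_lit 10490396532) (nat_lit 76) (nat_lit 661487665) (nat_lit 91) (nat_lit 5) (nat_lit 98) (nat_lit 5) (nat_lit 92) (nat_lit 5) (nat_lit 320) (nat_lit 288) (nat_lit 172)) (XT.nd (nat_lit 78) (nat_lit 380) (nat_lit 0) (XT.lf (nat_lit 0) (nat_lit 7017902431) (nat_lit 532) (nat_lit 3707328283) (nat_lit 76) (nat_lit 5927105186)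 (nat_lit 91) (nat_lit 5) (nat_lit 98) (nat_lit 5) (nat_lit 92) (nat_lit 5) (nat_lit 321) (nat_lit 288) (nat_lit 171)) (XT.lf (nat_lit 0) (nat_lit 3332564810) (nat_lit 380) (nat_lit 5579871909) (nat_lit 456) (nat_lit 8049606016) (nat_lit 86) (nat_lit 5) (nat_lit 91) (nat_lit 5) (nat_lit 92) (nat_lit 5) (nat_lit 322) (nat_lit 288) (nat_lit 170))))) (XT.nd (nat_lit 234) (nat_lit 456) (nat_lit 0) (XT.nd (nat_lit 78) (nat_lit 380) (nat_lit 0) (XT.lf (nat_lit 0) (nat_lit 10648068430) (nat_lit 380) (nat_lit 242588504) (nat_lit 456) (nat_lit 6389606520) (nat_lit 86) (nat_lit 5) (nat_lit 91) (nat_lit 5) (nat_lit 92) (nat_lit 5) (nat_lit 323) (nat_lit 288) (nat_lit 169)) (XT.nd (nat_lit 78) (nat_lit 0) (nat_lit 0) (XT.lf (nat_lit 0) (nat_lit 523130122) (nat_lit 380) (nat_lit 12450346971) (nat_lit 456) (nat_lit 4633223457) (nat_lit 81) (nat_lit 5) (nat_lit 86) (nat_lit 5) (nat_lit 87) (nat_lit 5) (nat_lit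 324) (nat_lit 288) (nat_lit 168)) (XT.lf (nat_lit 0) (nat_lit 8015160389) (nat_lit 380) (nat_lit 7162873661) (nat_lit 456) (nat_lit 2763145701) (nat_lit 81) (nat_lit 5) (nat_lit 86) (nat_lit 5) (nat_lit 87) (nat_lit 5) (nat_lit 325) (nat_lit 288) (nat_lit 167)))) (XT.nd (nat_lit 78) (nat_lit 456) (nat_lit 0) (XT.lf (nat_lit 0) (nat_lit 15720826843) (nat_lit 380) (nat_lit 1718096707) (nat_lit 456) (nat_lit 847089689) (nat_lit 81) (nat_lit 5) (nat_lit 86) (nat_lit 5) (nat_lit 87) (nat_lit 5) (nat_lit 326) (nat_lit 288) (nat_lit 166)) (XT.nd (nat_lit 78) (nat_lit 0) (nat_lit 0) (XT.lf (nat_lit 0) (nat_lit 1181768532) (nat_lit 456) (nat_lit 13583653858) (nat_lit 76) (nat_lit 3873149756) (nat_lit 75) (nat_lit 5) (nat_lit 81) (nat_lit 5) (nat_lit 76) (nat_lit 5) (nat_lit 327) (nat_lit 288) (nat_lit 165)) (XT.lf (nat_lit 0) (nat_lit 3288162047) (nat_lit 456) (nat_lit 6081577484) (nat_lit 76) (nat_lit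 9630729418) (nat_lit 75) (nat_lit 5) (nat_lit 81) (nat_lit 5) (nat_lit 76) (nat_lit 5) (nat_lit 328) (nat_lit 288) (nat_lit 164))))))) (XT.nd (nat_lit 858) (nat_lit 1064) (nat_lit 0) (XT.nd (nat_lit 390) (nat_lit 988) (nat_lit 0) (XT.nd (nat_lit 156) (nat_lit 304) (nat_lit 0) (XT.nd (nat_lit 78) (nat_lit 0) (nat_lit 0) (XT.lf (nat_lit 0) (nat_lit 1667218569) (nat_lit 380) (nat_lit 3797355637) (nat_lit 456) (nat_lit 13908466556) (nat_lit 70) (nat_lit 5) (nat_lit 75) (nat_lit 5) (nat_lit 76) (nat_lit 5) (nat_lit 329) (nat_lit 288) (nat_lit 163)) (XT.lf (nat_lit 0) (nat_lit 7777916657) (nat_lit 456) (nat_lit 10012126185) (nat_lit 76) (nat_lit 1964619991) (nat_lit 70) (nat_lit 5) (nat_lit 76) (nat_lit 5) (nat_lit 71) (nat_lit 5) (nat_lit 330) (nat_lit 288) (nat_lit 162))) (XT.nd (nat_lit 78) (nat_lit 304) (nat_lit 0) (XT.lf (nat_lit 0) (nat_lit 10189468872) (nat_lit 456) (nat_lit 2135941191) (nat_lit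 76) (nat_lit 7821480812) (nat_lit 70) (nat_lit 5) (nat_lit 76) (nat_lit 5) (nat_lit 71) (nat_lit 5) (nat_lit 331) (nat_lit 288) (nat_lit 161)) (XT.nd (nat_lit 78) (nat_lit 0) (nat_lit 0) (XT.lf (nat_lit 0) (nat_lit 6084854828) (nat_lit 304) (nat_lit 6638472045) (nat_lit 380) (nat_lit 7826081076) (nat_lit 66) (nat_lit 5) (nat_lit 70) (nat_lit 5) (nat_lit 71) (nat_lit 5) (nat_lit 332) (nat_lit 288) (nat_lit 160)) (XT.lf (nat_lit 0) (nat_lit 14585749551) (nat_lit 304) (nat_lit 760637159) (nat_lit 380) (nat_lit 5617238597) (nat_lit 66) (nat_lit 5) (nat_lit 70) (nat_lit 5) (nat_lit 71) (nat_lit 5) (nat_lit 333) (nat_lit 288) (nat_lit 159))))) (XT.nd (nat_lit 234) (nat_lit 608) (nat_lit 0) (XT.nd (nat_lit 78) (nat_lit 76) (nat_lit 0) (XT.lf (nat_lit 0) (nat_lit 1927881644) (nat_lit 304) (nat_lit 16181516799) (nat_lit 380) (nat_lit 3279052702) (nat_lit 62) (nat_lit 5) (nat_lit 66) (nat_lit 5) (nat_lit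 67) (nat_lit 5) (nat_lit 334) (nat_lit 288) (nat_lit 158)) (XT.nd (nat_lit 78) (nat_lit 76) (nat_lit 0) (XT.lf (nat_lit 0) (nat_lit 10595716043) (nat_lit 304) (nat_lit 10423429154) (nat_lit 380) (nat_lit 804980407) (nat_lit 62) (nat_lit 5) (nat_lit 66) (nat_lit 5) (nat_lit 67) (nat_lit 5) (nat_lit 335) (nat_lit 288) (nat_lit 157)) (XT.lf (nat_lit 0) (nat_lit 1701417290) (nat_lit 380) (nat_lit 2776076710) (nat_lit 76) (nat_lit 17795128002) (nat_lit 61) (nat_lit 5) (nat_lit 66) (nat_lit 5) (nat_lit 62) (nat_lit 5) (nat_lit 336) (nat_lit 288) (nat_lit 156)))) (XT.nd (nat_lit 78) (nat_lit 304) (nat_lit 0) (XT.lf (nat_lit 0) (nat_lit 4333603461) (nat_lit 380) (nat_lit 16719528407) (nat_lit 76) (nat_lit 1679216602) (nat_lit 57) (nat_lit 5) (nat_lit 62) (nat_lit 5) (nat_lit 58) (nat_lit 5) (nat_lit 337) (nat_lit 288) (nat_lit 155)) (XT.nd (nat_lit 78) (nat_lit 304) (nat_lit 0) (XT.lf (nat_lit 0) (nat_lit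 7109857974) (nat_lit 380) (nat_lit 8137212818) (nat_lit 76) (nat_lit 7956859905) (nat_lit 57) (nat_lit 5) (nat_lit 62) (nat_lit 5) (nat_lit 58) (nat_lit 5) (nat_lit 338) (nat_lit 288) (nat_lit 154)) (XT.lf (nat_lit 0) (nat_lit 706783067) (nat_lit 304) (nat_lit 9262091327) (nat_lit 380) (nat_lit 13720818318) (nat_lit 53) (nat_lit 5) (nat_lit 57) (nat_lit 5) (nat_lit 58) (nat_lit 5) (nat_lit 339) (nat_lit 288) (nat_lit 153)))))) (XT.nd (nat_lit 468) (nat_lit 456) (nat_lit 0) (XT.nd (nat_lit 234) (nat_lit 380) (nat_lit 0) (XT.nd (nat_lit 78) (nat_lit 228) (nat_lit 0) (XT.lf (nat_lit 0) (nat_lit 9973416592) (nat_lit 304) (nat_lit 3015216852) (nat_lit 380) (nat_lit 11199161050) (nat_lit 53) (nat_lit 5) (nat_lit 57) (nat_lit 5) (nat_lit 58) (nat_lit 5) (nat_lit 340) (nat_lit 288) (nat_lit 152)) (XT.nd (nat_lit 78) (nat_lit 228) (nat_lit 0) (XT.lf (nat_lit 0) (nat_lit 16124841918) (nat_lit 380) (nat_lit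 5225071016) (nat_lit 76) (nat_lit 3350166294) (nat_lit 53) (nat_lit 5) (nat_lit 58) (nat_lit 5) (nat_lit 54) (nat_lit 5) (nat_lit 341) (nat_lit 288) (nat_lit 151)) (XT.lf (nat_lit 0) (nat_lit 4074427741) (nat_lit 228) (nat_lit 15342923108) (nat_lit 304) (nat_lit 5808530376) (nat_lit 50) (nat_lit 5) (nat_lit 53) (nat_lit 5) (nat_lit 54) (nat_lit 5) (nat_lit 342) (nat_lit 288) (nat_lit 150)))) (XT.nd (nat_lit 78) (nat_lit 380) (nat_lit 0) (XT.lf (nat_lit 0) (nat_lit 13750969445) (nat_lit 228) (nat_lit 9103734466) (nat_lit 304) (nat_lit 2911386010) (nat_lit 50) (nat_lit 5) (nat_lit 53) (nat_lit 5) (nat_lit 54) (nat_lit 5) (nat_lit 343) (nat_lit 288) (nat_lit 149)) (XT.nd (nat_lit 78) (nat_lit 304) (nat_lit 0) (XT.lf (nat_lit 0) (nat_lit 64677098) (nat_lit 304) (nat_lit 2614328052) (nat_lit 76) (nat_lit 23643689956) (nat_lit 49) (nat_lit 5) (nat_lit 53) (nat_lit 5) (nat_lit 50) (nat_lit 5) (nat_lit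 344) (nat_lit 288) (nat_lit 148)) (XT.lf (nat_lit 0) (nat_lit 3172856362) (nat_lit 380) (nat_lit 19761154437) (nat_lit 76) (nat_lit 3958095828) (nat_lit 45) (nat_lit 5) (nat_lit 50) (nat_lit 5) (nat_lit 46) (nat_lit 5) (nat_lit 345) (nat_lit 288) (nat_lit 147))))) (XT.nd (nat_lit 234) (nat_lit 228) (nat_lit 0) (XT.nd (nat_lit 78) (nat_lit 228) (nat_lit 0) (XT.lf (nat_lit 0) (nat_lit 6421162176) (nat_lit 380) (nat_lit 10291178903) (nat_lit 76) (nat_lit 10764866046) (nat_lit 45) (nat_lit 5) (nat_lit 50) (nat_lit 5) (nat_lit 46) (nat_lit 5) (nat_lit 346) (nat_lit 288) (nat_lit 146)) (XT.nd (nat_lit 78) (nat_lit 228) (nat_lit 0) (XT.lf (nat_lit 0) (nat_lit 9760796194) (nat_lit 380) (nat_lit 545614989) (nat_lit 76) (nat_lit 17773645769) (nat_lit 45) (nat_lit 5) (nat_lit 50) (nat_lit 5) (nat_lit 46) (nat_lit 5) (nat_lit 347) (nat_lit 288) (nat_lit 145)) (XT.lf (nat_lit 0) (nat_lit 9672804093) (nat_lit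 228) (nat_lit 3614853359) (nat_lit 304) (nat_lit 15410735989) (nat_lit 42) (nat_lit 5) (nat_lit 45) (nat_lit 5) (nat_lit 46) (nat_lit 5) (nat_lit 348) (nat_lit 288) (nat_lit 144)))) (XT.nd (nat_lit 78) (nat_lit 228) (nat_lit 0) (XT.lf (nat_lit 0) (nat_lit 16951522921) (nat_lit 304) (nat_lit 9166060790) (nat_lit 76) (nat_lit 3216772320) (nat_lit 42) (nat_lit 5) (nat_lit 46) (nat_lit 5) (nat_lit 43) (nat_lit 5) (nat_lit 349) (nat_lit 288) (nat_lit 143)) (XT.nd (nat_lit 78) (nat_lit 0) (nat_lit 0) (XT.lf (nat_lit 0) (nat_lit 964173656) (nat_lit 228) (nat_lit 19800489856) (nat_lit 304) (nat_lit 9223564819) (nat_lit 39) (nat_lit 5) (nat_lit 42) (nat_lit 5) (nat_lit 43) (nat_lit 5) (nat_lit 350) (nat_lit 288) (nat_lit 142)) (XT.lf (nat_lit 0) (nat_lit 11578186002) (nat_lit 228) (nat_lit 13200960741) (nat_lit 304) (nat_lit 5879972875) (nat_lit 39) (nat_lit 5) (nat_lit 42) (nat_lit 5) (nat_lit 43)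 (nat_lit 5) (nat_lit 351) (nat_lit 288) (nat_lit 141))))))))
noncomputable def xc188 : XT := (XT.nd (nat_lit 1716) (nat_lit 456) (nat_lit 0) (XT.nd (nat_lit 858) (nat_lit 608) (nat_lit 0) (XT.nd (nat_lit 390) (nat_lit 228) (nat_lit 0) (XT.nd (nat_lit 156) (nat_lit 228) (nat_lit 0) (XT.nd (nat_lit 78) (nat_lit 304) (nat_lit 0) (XT.lf (nat_lit 0) (nat_lit 22502828047) (nat_lit 228) (nat_lit 6405789026) (nat_lit 304) (nat_lit 2441694934) (nat_lit 39) (nat_lit 5) (nat_lit 42) (nat_lit 5) (nat_lit 43) (nat_lit 5) (nat_lit 352) (nat_lit 288) (nat_lit 140)) (XT.lf (nat_lit 0) (nat_lit 1095286312) (nat_lit 304) (nat_lit 30359501257) (nat_lit 76) (nat_lit 606635333) (nat_lit 35) (nat_lit 5) (nat_lit 39) (nat_lit 5) (nat_lit 36) (nat_lit 5) (nat_lit 353) (nat_lit 288) (nat_lit 139))) (XT.nd (nat_lit 78) (nat_lit 228) (nat_lit 0) (XT.lf (nat_lit 0) (nat_lit 4837660603) (nat_lit 304) (nat_lit 20138247013)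 (nat_lit 76) (nat_lit 7812793488) (nat_lit 35) (nat_lit 5) (nat_lit 39) (nat_lit 5) (nat_lit 36) (nat_lit 5) (nat_lit 354) (nat_lit 288) (nat_lit 138)) (XT.nd (nat_lit 78) (nat_lit 228) (nat_lit 0) (XT.lf (nat_lit 0) (nat_lit 8687169022) (nat_lit 304) (nat_lit 9617880283) (nat_lit 76) (nat_lit 15232912181) (nat_lit 35) (nat_lit 5) (nat_lit 39) (nat_lit 5) (nat_lit 36) (nat_lit 5) (nat_lit 355) (nat_lit 288) (nat_lit 137)) (XT.lf (nat_lit 0) (nat_lit 1234888611) (nat_lit 228) (nat_lit 11424157112) (nat_lit 304) (nat_lit 21650456904) (nat_lit 32) (nat_lit 5) (nat_lit 35) (nat_lit 5) (nat_lit 36) (nat_lit 5) (nat_lit 356) (nat_lit 288) (nat_lit 136))))) (XT.nd (nat_lit 234) (nat_lit 228) (nat_lit 0) (XT.nd (nat_lit 78) (nat_lit 0) (nat_lit 0) (XT.lf (nat_lit 0) (nat_lit 12603163355) (nat_lit 228) (nat_lit 4239125354) (nat_lit 304) (nat_lit 18259144158) (nat_lit 32) (nat_lit 5) (nat_lit 35) (nat_lit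 5) (nat_lit 36) (nat_lit 5) (nat_lit 357) (nat_lit 288) (nat_lit 135)) (XT.nd (nat_lit 78) (nat_lit 0) (nat_lit 0) (XT.lf (nat_lit 0) (nat_lit 21176628481) (nat_lit 304) (nat_lit 11642178444) (nat_lit 76) (nat_lit 3097555001) (nat_lit 32) (nat_lit 5) (nat_lit 36) (nat_lit 5) (nat_lit 33) (nat_lit 5) (nat_lit 358) (nat_lit 288) (nat_lit 134)) (XT.lf (nat_lit 0) (nat_lit 25678319144) (nat_lit 304) (nat_lit 509321723) (nat_lit 76) (nat_lit 10566987007) (nat_lit 32) (nat_lit 5) (nat_lit 36) (nat_lit 5) (nat_lit 33) (nat_lit 5) (nat_lit 359) (nat_lit 288) (nat_lit 133)))) (XT.nd (nat_lit 78) (nat_lit 76) (nat_lit 0) (XT.lf (nat_lit 0) (nat_lit 11168719398) (nat_lit 152) (nat_lit 19249186312) (nat_lit 228) (nat_lit 7197059119) (nat_lit 30) (nat_lit 5) (nat_lit 32) (nat_lit 5) (nat_lit 33) (nat_lit 5) (nat_lit 360) (nat_lit 288) (nat_lit 132)) (XT.nd (nat_lit 78) (nat_lit 76) (nat_lit 0) (XT.lf (nat_lit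 0) (nat_lit 23200865216) (nat_lit 152) (nat_lit 12099509762) (nat_lit 228) (nat_lit 3200724204) (nat_lit 30) (nat_lit 5) (nat_lit 32) (nat_lit 5) (nat_lit 33) (nat_lit 5) (nat_lit 361) (nat_lit 288) (nat_lit 131)) (XT.lf (nat_lit 0) (nat_lit 893267039) (nat_lit 228) (nat_lit 3835219792) (nat_lit 76) (nat_lit 34685205469) (nat_lit 29) (nat_lit 5) (nat_lit 32) (nat_lit 5) (nat_lit 30) (nat_lit 5) (nat_lit 362) (nat_lit 288) (nat_lit 130)))))) (XT.nd (nat_lit 390) (nat_lit 228) (nat_lit 0) (XT.nd (nat_lit 156) (nat_lit 152) (nat_lit 0) (XT.nd (nat_lit 78) (nat_lit 0) (nat_lit 0) (XT.lf (nat_lit 0) (nat_lit 5147896337) (nat_lit 304) (nat_lit 32285499834) (nat_lit 76) (nat_lit 2916259290) (nat_lit 26) (nat_lit 5) (nat_lit 30) (nat_lit 5) (nat_lit 27) (nat_lit 5) (nat_lit 363) (nat_lit 288) (nat_lit 129)) (XT.lf (nat_lit 0) (nat_lit 9611893268) (nat_lit 304) (nat_lit 20967040361) (nat_lit 76) (nat_lit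 10732319259) (nat_lit 26) (nat_lit 5) (nat_lit 30) (nat_lit 5) (nat_lit 27) (nat_lit 5) (nat_lit 364) (nat_lit 288) (nat_lit 128))) (XT.nd (nat_lit 78) (nat_lit 152) (nat_lit 0) (XT.lf (nat_lit 0) (nat_lit 14205732832) (nat_lit 304) (nat_lit 9315274770) (nat_lit 76) (nat_lit 18780819978) (nat_lit 26) (nat_lit 5) (nat_lit 30) (nat_lit 5) (nat_lit 27) (nat_lit 5) (nat_lit 365) (nat_lit 288) (nat_lit 127)) (XT.nd (nat_lit 78) (nat_lit 0) (nat_lit 0) (XT.lf (nat_lit 0) (nat_lit 2733314911) (nat_lit 152) (nat_lit 16226388445) (nat_lit 228) (nat_lit 24361753500) (nat_lit 24) (nat_lit 5) (nat_lit 26) (nat_lit 5) (nat_lit 27) (nat_lit 5) (nat_lit 366) (nat_lit 288) (nat_lit 126)) (XT.lf (nat_lit 0) (nat_lit 15328310055) (nat_lit 152) (nat_lit 8618147994) (nat_lit 228) (nat_lit 20422518631) (nat_lit 24) (nat_lit 5) (nat_lit 26) (nat_lit 5) (nat_lit 27) (nat_lit 5) (nat_lit 367) (nat_lit 288) (nat_lit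 125))))) (XT.nd (nat_lit 234) (nat_lit 76) (nat_lit 0) (XT.nd (nat_lit 78) (nat_lit 152) (nat_lit 0) (XT.lf (nat_lit 0) (nat_lit 28295323763) (nat_lit 152) (nat_lit 783704279) (nat_lit 228) (nat_lit 16369014103) (nat_lit 24) (nat_lit 5) (nat_lit 26) (nat_lit 5) (nat_lit 27) (nat_lit 5) (nat_lit 368) (nat_lit 288) (nat_lit 124)) (XT.nd (nat_lit 78) (nat_lit 152) (nat_lit 0) (XT.lf (nat_lit 0) (nat_lit 34431914338) (nat_lit 228) (nat_lit 4983925919) (nat_lit 76) (nat_lit 7141655383) (nat_lit 24) (nat_lit 5) (nat_lit 27) (nat_lit 5) (nat_lit 25) (nat_lit 5) (nat_lit 369) (nat_lit 288) (nat_lit 123)) (XT.lf (nat_lit 0) (nat_lit 7686572397) (nat_lit 152) (nat_lit 32336873859) (nat_lit 228) (nat_lit 7674450769) (nat_lit 22) (nat_lit 5) (nat_lit 24) (nat_lit 5) (nat_lit 25) (nat_lit 5) (nat_lit 370) (nat_lit 288) (nat_lit 122)))) (XT.nd (nat_lit 78) (nat_lit 76) (nat_lit 0) (XT.lf (nat_lit 0) (nat_lit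 20833814888) (nat_lit 152) (nat_lit 24995699972) (nat_lit 228) (nat_lit 3041597752) (nat_lit 22) (nat_lit 5) (nat_lit 24) (nat_lit 5) (nat_lit 25) (nat_lit 5) (nat_lit 371) (nat_lit 288) (nat_lit 121)) (XT.nd (nat_lit 78) (nat_lit 0) (nat_lit 0) (XT.lf (nat_lit 0) (nat_lit 1693003896) (nat_lit 228) (nat_lit 15726131942) (nat_lit 76) (nat_lit 32659999620) (nat_lit 21) (nat_lit 5) (nat_lit 24) (nat_lit 5) (nat_lit 22) (nat_lit 5) (nat_lit 372) (nat_lit 288) (nat_lit 120)) (XT.lf (nat_lit 0) (nat_lit 6505137941) (nat_lit 228) (nat_lit 3081037079) (nat_lit 76) (nat_lit 41736427086) (nat_lit 21) (nat_lit 5) (nat_lit 24) (nat_lit 5) (nat_lit 22) (nat_lit 5) (nat_lit 373) (nat_lit 288) (nat_lit 119))))))) (XT.nd (nat_lit 858) (nat_lit 0) (nat_lit 0) (XT.nd (nat_lit 390) (nat_lit 152) (nat_lit 0) (XT.nd (nat_lit 156) (nat_lit 152) (nat_lit 0) (XT.nd (nat_lit 78) (nat_lit 0) (nat_lit 0) (XT.lf (nat_lit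 0) (nat_lit 10136064808) (nat_lit 152) (nat_lit 1419730932) (nat_lit 228) (nat_lit 41044757444) (nat_lit 19) (nat_lit 5) (nat_lit 21) (nat_lit 5) (nat_lit 22) (nat_lit 5) (nat_lit 374) (nat_lit 288) (nat_lit 118)) (XT.lf (nat_lit 0) (nat_lit 16853356597) (nat_lit 228) (nat_lit 30175758669) (nat_lit 76) (nat_lit 6884871104) (nat_lit 19) (nat_lit 5) (nat_lit 22) (nat_lit 5) (nat_lit 20) (nat_lit 5) (nat_lit 375) (nat_lit 288) (nat_lit 117))) (XT.nd (nat_lit 78) (nat_lit 152) (nat_lit 0) (XT.lf (nat_lit 0) (nat_lit 22320749840) (nat_lit 228) (nat_lit 17537443846) (nat_lit 76) (nat_lit 15408306625) (nat_lit 19) (nat_lit 5) (nat_lit 22) (nat_lit 5) (nat_lit 20) (nat_lit 5) (nat_lit 376) (nat_lit 288) (nat_lit 116)) (XT.nd (nat_lit 78) (nat_lit 152) (nat_lit 0) (XT.lf (nat_lit 0) (nat_lit 27949105483) (nat_lit 228) (nat_lit 4524853396) (nat_lit 76) (nat_lit 24185727356) (nat_lit 19) (nat_lit 5) (nat_lit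 22) (nat_lit 5) (nat_lit 20) (nat_lit 5) (nat_lit 377) (nat_lit 288) (nat_lit 115)) (XT.lf (nat_lit 0) (nat_lit 9049980623) (nat_lit 152) (nat_lit 24780354831) (nat_lit 228) (nat_lit 24261816214) (nat_lit 17) (nat_lit 5) (nat_lit 19) (nat_lit 5) (nat_lit 20) (nat_lit 5) (nat_lit 378) (nat_lit 288) (nat_lit 114))))) (XT.nd (nat_lit 234) (nat_lit 152) (nat_lit 0) (XT.nd (nat_lit 78) (nat_lit 0) (nat_lit 0) (XT.lf (nat_lit 0) (nat_lit 23120129250) (nat_lit 152) (nat_lit 16810636407) (nat_lit 228) (nat_lit 19635547016) (nat_lit 17) (nat_lit 5) (nat_lit 19) (nat_lit 5) (nat_lit 20) (nat_lit 5) (nat_lit 379) (nat_lit 288) (nat_lit 113)) (XT.nd (nat_lit 78) (nat_lit 0) (nat_lit 0) (XT.lf (nat_lit 0) (nat_lit 37607833334) (nat_lit 152) (nat_lit 8603531921) (nat_lit 228) (nat_lit 14873422935) (nat_lit 17) (nat_lit 5) (nat_lit 19) (nat_lit 5) (nat_lit 20) (nat_lit 5) (nat_lit 380) (nat_lit 288) (nat_lit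 112)) (XT.lf (nat_lit 0) (nat_lit 52525752035) (nat_lit 152) (nat_lit 151870118) (nat_lit 228) (nat_lit 9971282891) (nat_lit 17) (nat_lit 5) (nat_lit 19) (nat_lit 5) (nat_lit 20) (nat_lit 5) (nat_lit 381) (nat_lit 288) (nat_lit 111)))) (XT.nd (nat_lit 78) (nat_lit 76) (nat_lit 0) (XT.lf (nat_lit 0) (nat_lit 3615232192) (nat_lit 76) (nat_lit 55836910604) (nat_lit 152) (nat_lit 4804378449) (nat_lit 16) (nat_lit 5) (nat_lit 17) (nat_lit 5) (nat_lit 18) (nat_lit 4) (nat_lit 382) (nat_lit 288) (nat_lit 110)) (XT.nd (nat_lit 78) (nat_lit 0) (nat_lit 0) (XT.lf (nat_lit 0) (nat_lit 609485029) (nat_lit 152) (nat_lit 47947877819) (nat_lit 76) (nat_lit 17351796204) (nat_lit 15) (nat_lit 5) (nat_lit 17) (nat_lit 5) (nat_lit 16) (nat_lit 5) (nat_lit 383) (nat_lit 288) (nat_lit 109)) (XT.lf (nat_lit 0) (nat_lit 6086590541) (nat_lit 152) (nat_lit 34925476661) (nat_lit 76) (nat_lit 26597963840) (nat_lit 15)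 (nat_lit 5) (nat_lit 17) (nat_lit 5) (nat_lit 16) (nat_lit 5) (nat_lit 384) (nat_lit 288) (nat_lit 108)))))) (XT.nd (nat_lit 33384) (nat_lit 0) (nat_lit 10032) (XT.nd (nat_lit 33150) (nat_lit 0) (nat_lit 10944) (XT.nd (nat_lit 78) (nat_lit 0) (nat_lit 0) (XT.lf (nat_lit 0) (nat_lit 11725474636) (nat_lit 152) (nat_lit 21516524158) (nat_lit 76) (nat_lit 36120010103) (nat_lit 15) (nat_lit 5) (nat_lit 17) (nat_lit 5) (nat_lit 16) (nat_lit 5) (nat_lit 385) (nat_lit 288) (nat_lit 107)) (XT.lf (nat_lit 0) (nat_lit 17531064492) (nat_lit 152) (nat_lit 7709303749) (nat_lit 76) (nat_lit 45926255226) (nat_lit 15) (nat_lit 5) (nat_lit 17) (nat_lit 5) (nat_lit 16) (nat_lit 5) (nat_lit 386) (nat_lit 288) (nat_lit 106))) (XT.nd (nat_lit 78) (nat_lit 0) (nat_lit 0) (XT.lf (nat_lit 0) (nat_lit 4189570498) (nat_lit 988) (nat_lit 449268003) (nat_lit 988) (nat_lit 449268003) (nat_lit 159) (nat_lit 3) (nat_lit 172)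 (nat_lit 3) (nat_lit 172) (nat_lit 5) (nat_lit 289) (nat_lit 289) (nat_lit 202)) (XT.nd (nat_lit 78) (nat_lit 0) (nat_lit 0) (XT.lf (nat_lit 76) (nat_lit 3264743913) (nat_lit 0) (nat_lit 5863989270) (nat_lit 988) (nat_lit 1179433548) (nat_lit 160) (nat_lit 5) (nat_lit 159) (nat_lit 3) (nat_lit 172) (nat_lit 5) (nat_lit 290) (nat_lit 289) (nat_lit 201)) (XT.lf (nat_lit 76) (nat_lit 7559155958) (nat_lit 0) (nat_lit 2327489005) (nat_lit 988) (nat_lit 557936120) (nat_lit 160) (nat_lit 5) (nat_lit 159) (nat_lit 3) (nat_lit 172) (nat_lit 5) (nat_lit 291) (nat_lit 289) (nat_lit 200))))) (XT.nd (nat_lit 234) (nat_lit 0) (nat_lit 76) (XT.nd (nat_lit 78) (nat_lit 0) (nat_lit 0) (XT.lf (nat_lit 0) (nat_lit 84195712) (nat_lit 988) (nat_lit 9186588344) (nat_lit 1064) (nat_lit 1314244849) (nat_lit 147) (nat_lit 5) (nat_lit 160) (nat_lit 5) (nat_lit 161) (nat_lit 5) (nat_lit 292) (nat_lit 289) (nat_lit 199))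 (XT.nd (nat_lit 78) (nat_lit 0) (nat_lit 0) (XT.lf (nat_lit 0) (nat_lit 764631330) (nat_lit 988) (nat_lit 4900776043) (nat_lit 1064) (nat_lit 5063279894) (nat_lit 147) (nat_lit 5) (nat_lit 160) (nat_lit 5) (nat_lit 161) (nat_lit 5) (nat_lit 293) (nat_lit 289) (nat_lit 198)) (XT.lf (nat_lit 0) (nat_lit 1443910819) (nat_lit 988) (nat_lit 499082136) (nat_lit 1064) (nat_lit 8934377890) (nat_lit 147) (nat_lit 5) (nat_lit 160) (nat_lit 5) (nat_lit 161) (nat_lit 5) (nat_lit 294) (nat_lit 289) (nat_lit 197)))) (XT.nd (nat_lit 78) (nat_lit 0) (nat_lit 0) (XT.lf (nat_lit 0) (nat_lit 2180714060) (nat_lit 988) (nat_lit 6946286195) (nat_lit 1064) (nat_lit 1902466715) (nat_lit 148) (nat_lit 5) (nat_lit 161) (nat_lit 5) (nat_lit 162) (nat_lit 5) (nat_lit 295) (nat_lit 289) (nat_lit 196)) (XT.nd (nat_lit 78) (nat_lit 0) (nat_lit 0) (XT.lf (nat_lit 0) (nat_lit 2943579535) (nat_lit 988) (nat_lit 2405079408)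 (nat_lit 1064) (nat_lit 5837412756) (nat_lit 148) (nat_lit 5) (nat_lit 161) (nat_lit 5) (nat_lit 162) (nat_lit 5) (nat_lit 296) (nat_lit 289) (nat_lit 195)) (XT.lf (nat_lit 76) (nat_lit 2304755688) (nat_lit 0) (nat_lit 1426954214) (nat_lit 1064) (nat_lit 7615655886) (nat_lit 149) (nat_lit 5) (nat_lit 148) (nat_lit 5) (nat_lit 162) (nat_lit 5) (nat_lit 297) (nat_lit 289) (nat_lit 194))))))))
noncomputable def xc189 : XT := (XT.nd (nat_lit 1716) (nat_lit 3344) (nat_lit 0) (XT.nd (nat_lit 858) (nat_lit 3116) (nat_lit 0) (XT.nd (nat_lit 390) (nat_lit 836) (nat_lit 0) (XT.nd (nat_lit 156) (nat_lit 0) (nat_lit 0) (XT.nd (nat_lit 78) (nat_lit 0) (nat_lit 0) (XT.lf (nat_lit 0) (nat_lit 4573869623) (nat_lit 988) (nat_lit 4346099889) (nat_lit 1064) (nat_lit 2592678389) (nat_lit 149) (nat_lit 5) (nat_lit 162) (nat_lit 5) (nat_lit 163) (nat_lit 5) (nat_lit 298) (nat_lit 289) (nat_lit 193)) (XT.lf (nat_lit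 76) (nat_lit 473638273) (nat_lit 0) (nat_lit 4967644200) (nat_lit 1064) (nat_lit 6241665349) (nat_lit 150) (nat_lit 5) (nat_lit 149) (nat_lit 5) (nat_lit 163) (nat_lit 5) (nat_lit 299) (nat_lit 289) (nat_lit 192))) (XT.nd (nat_lit 78) (nat_lit 0) (nat_lit 76) (XT.lf (nat_lit 76) (nat_lit 5514403192) (nat_lit 0) (nat_lit 845931573) (nat_lit 1064) (nat_lit 5497310739) (nat_lit 150) (nat_lit 5) (nat_lit 149) (nat_lit 5) (nat_lit 163) (nat_lit 5) (nat_lit 300) (nat_lit 289) (nat_lit 191)) (XT.nd (nat_lit 78) (nat_lit 0) (nat_lit 0) (XT.lf (nat_lit 0) (nat_lit 7321950550) (nat_lit 988) (nat_lit 1376798170) (nat_lit 1064) (nat_lit 3338441249) (nat_lit 150) (nat_lit 5) (nat_lit 163) (nat_lit 5) (nat_lit 164) (nat_lit 5) (nat_lit 301) (nat_lit 289) (nat_lit 190)) (XT.lf (nat_lit 76) (nat_lit 3791702356) (nat_lit 0) (nat_lit 4548365783) (nat_lit 1064) (nat_lit 3881277015) (nat_lit 151) (nat_lit 5) (nat_lit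 150) (nat_lit 5) (nat_lit 164) (nat_lit 5) (nat_lit 302) (nat_lit 289) (nat_lit 189))))) (XT.nd (nat_lit 234) (nat_lit 912) (nat_lit 0) (XT.nd (nat_lit 78) (nat_lit 0) (nat_lit 76) (XT.lf (nat_lit 76) (nat_lit 9131052810) (nat_lit 0) (nat_lit 254789661) (nat_lit 1064) (nat_lit 3025321544) (nat_lit 151) (nat_lit 5) (nat_lit 150) (nat_lit 5) (nat_lit 164) (nat_lit 5) (nat_lit 303) (nat_lit 289) (nat_lit 188)) (XT.nd (nat_lit 78) (nat_lit 0) (nat_lit 0) (XT.lf (nat_lit 76) (nat_lit 2010428848) (nat_lit 0) (nat_lit 8495688095) (nat_lit 1064) (nat_lit 2099317579) (nat_lit 152) (nat_lit 5) (nat_lit 151) (nat_lit 5) (nat_lit 165) (nat_lit 5) (nat_lit 304) (nat_lit 289) (nat_lit 187)) (XT.lf (nat_lit 76) (nat_lit 7511828547) (nat_lit 0) (nat_lit 4167884929) (nat_lit 1064) (nat_lit 1125277662) (nat_lit 152) (nat_lit 5) (nat_lit 151) (nat_lit 5) (nat_lit 165) (nat_lit 5) (nat_lit 305) (nat_lit 289) (nat_lit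 186)))) (XT.nd (nat_lit 78) (nat_lit 76) (nat_lit 0) (XT.lf (nat_lit 0) (nat_lit 155279712) (nat_lit 988) (nat_lit 12722104196) (nat_lit 1064) (nat_lit 133532532) (nat_lit 139) (nat_lit 5) (nat_lit 152) (nat_lit 5) (nat_lit 153) (nat_lit 5) (nat_lit 306) (nat_lit 289) (nat_lit 185)) (XT.nd (nat_lit 78) (nat_lit 0) (nat_lit 0) (XT.lf (nat_lit 0) (nat_lit 950604596) (nat_lit 1064) (nat_lit 7408992756) (nat_lit 76) (nat_lit 4860812282) (nat_lit 138) (nat_lit 5) (nat_lit 152) (nat_lit 5) (nat_lit 139) (nat_lit 5) (nat_lit 307) (nat_lit 289) (nat_lit 184)) (XT.lf (nat_lit 0) (nat_lit 2049748059) (nat_lit 1064) (nat_lit 1812820731) (nat_lit 76) (nat_lit 9574068085) (nat_lit 138) (nat_lit 5) (nat_lit 152) (nat_lit 5) (nat_lit 139) (nat_lit 5) (nat_lit 308) (nat_lit 289) (nat_lit 183)))))) (XT.nd (nat_lit 390) (nat_lit 1520) (nat_lit 0) (XT.nd (nat_lit 156) (nat_lit 532) (nat_lit 0) (XT.nd (nat_lit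 78) (nat_lit 0) (nat_lit 0) (XT.lf (nat_lit 0) (nat_lit 3213881479) (nat_lit 1140) (nat_lit 9649018729) (nat_lit 76) (nat_lit 795532873) (nat_lit 124) (nat_lit 5) (nat_lit 139) (nat_lit 5) (nat_lit 125) (nat_lit 5) (nat_lit 309) (nat_lit 289) (nat_lit 182)) (XT.lf (nat_lit 0) (nat_lit 4455590544) (nat_lit 1140) (nat_lit 3893829048) (nat_lit 76) (nat_lit 5536225412) (nat_lit 124) (nat_lit 5) (nat_lit 139) (nat_lit 5) (nat_lit 125) (nat_lit 5) (nat_lit 310) (nat_lit 289) (nat_lit 181))) (XT.nd (nat_lit 78) (nat_lit 0) (nat_lit 0) (XT.lf (nat_lit 0) (nat_lit 2062072168) (nat_lit 532) (nat_lit 3678631876) (nat_lit 608) (nat_lit 8378824816) (nat_lit 117) (nat_lit 5) (nat_lit 124) (nat_lit 5) (nat_lit 125) (nat_lit 5) (nat_lit 311) (nat_lit 289) (nat_lit 180)) (XT.nd (nat_lit 78) (nat_lit 0) (nat_lit 0) (XT.lf (nat_lit 0) (nat_lit 7101590607) (nat_lit 608) (nat_lit 6106569494) (nat_lit 76) (nat_lit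 1151191544) (nat_lit 117) (nat_lit 5) (nat_lit 125) (nat_lit 5) (nat_lit 118) (nat_lit 5) (nat_lit 312) (nat_lit 289) (nat_lit 179)) (XT.lf (nat_lit 0) (nat_lit 8526741541) (nat_lit 608) (nat_lit 25729712) (nat_lit 76) (nat_lit 6053232595) (nat_lit 117) (nat_lit 5) (nat_lit 125) (nat_lit 5) (nat_lit 118) (nat_lit 5) (nat_lit 313) (nat_lit 289) (nat_lit 178))))) (XT.nd (nat_lit 234) (nat_lit 532) (nat_lit 0) (XT.nd (nat_lit 78) (nat_lit 532) (nat_lit 0) (XT.lf (nat_lit 0) (nat_lit 6349641648) (nat_lit 456) (nat_lit 3693435854) (nat_lit 532) (nat_lit 4814952961) (nat_lit 111) (nat_lit 5) (nat_lit 117) (nat_lit 5) (nat_lit 118) (nat_lit 5) (nat_lit 314) (nat_lit 289) (nat_lit 177)) (XT.nd (nat_lit 78) (nat_lit 532) (nat_lit 0) (XT.lf (nat_lit 0) (nat_lit 11605426796) (nat_lit 532) (nat_lit 2225820757) (nat_lit 76) (nat_lit 1286699320) (nat_lit 111) (nat_lit 5) (nat_lit 118) (nat_lit 5) (nat_lit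 112) (nat_lit 5) (nat_lit 315) (nat_lit 289) (nat_lit 176)) (XT.lf (nat_lit 0) (nat_lit 4280439760) (nat_lit 532) (nat_lit 8999936405) (nat_lit 608) (nat_lit 2103347375) (nat_lit 104) (nat_lit 5) (nat_lit 111) (nat_lit 5) (nat_lit 112) (nat_lit 5) (nat_lit 316) (nat_lit 289) (nat_lit 175)))) (XT.nd (nat_lit 78) (nat_lit 532) (nat_lit 0) (XT.lf (nat_lit 0) (nat_lit 11015887655) (nat_lit 532) (nat_lit 4000414822) (nat_lit 608) (nat_lit 640882820) (nat_lit 104) (nat_lit 5) (nat_lit 111) (nat_lit 5) (nat_lit 112) (nat_lit 5) (nat_lit 317) (nat_lit 289) (nat_lit 174)) (XT.nd (nat_lit 78) (nat_lit 0) (nat_lit 0) (XT.lf (nat_lit 0) (nat_lit 867894207) (nat_lit 532) (nat_lit 13915338375) (nat_lit 76) (nat_lit 1154820656) (nat_lit 97) (nat_lit 5) (nat_lit 104) (nat_lit 5) (nat_lit 98) (nat_lit 5) (nat_lit 318) (nat_lit 289) (nat_lit 173)) (XT.lf (nat_lit 0) (nat_lit 2484668205) (nat_lit 532) (nat_lit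 7302375563) (nat_lit 76) (nat_lit 6437875435) (nat_lit 97) (nat_lit 5) (nat_lit 104) (nat_lit 5) (nat_lit 98) (nat_lit 5) (nat_lit 319) (nat_lit 289) (nat_lit 172))))))) (XT.nd (nat_lit 858) (nat_lit 1292) (nat_lit 0) (XT.nd (nat_lit 390) (nat_lit 1216) (nat_lit 0) (XT.nd (nat_lit 156) (nat_lit 380) (nat_lit 0) (XT.nd (nat_lit 78) (nat_lit 456) (nat_lit 0) (XT.lf (nat_lit 0) (nat_lit 4138949942) (nat_lit 532) (nat_lit 502486682) (nat_lit 76) (nat_lit 11879314279) (nat_lit 97) (nat_lit 5) (nat_lit 104) (nat_lit 5) (nat_lit 98) (nat_lit 5) (nat_lit 320) (nat_lit 289) (nat_lit 171)) (XT.lf (nat_lit 0) (nat_lit 5902770922) (nat_lit 532) (nat_lit 10211414833) (nat_lit 76) (nat_lit 709503498) (nat_lit 91) (nat_lit 5) (nat_lit 98) (nat_lit 5) (nat_lit 92) (nat_lit 5) (nat_lit 321) (nat_lit 289) (nat_lit 170))) (XT.nd (nat_lit 78) (nat_lit 380) (nat_lit 0) (XT.lf (nat_lit 0) (nat_lit 7760110210) (nat_lit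 532) (nat_lit 3242146583) (nat_lit 76) (nat_lit 6132269024) (nat_lit 91) (nat_lit 5) (nat_lit 98) (nat_lit 5) (nat_lit 92) (nat_lit 5) (nat_lit 322) (nat_lit 289) (nat_lit 169)) (XT.nd (nat_lit 78) (nat_lit 0) (nat_lit 0) (XT.lf (nat_lit 0) (nat_lit 4003292307) (nat_lit 380) (nat_lit 5698189069) (nat_lit 456) (nat_lit 7752384108) (nat_lit 86) (nat_lit 5) (nat_lit 91) (nat_lit 5) (nat_lit 92) (nat_lit 5) (nat_lit 323) (nat_lit 289) (nat_lit 168)) (XT.lf (nat_lit 0) (nat_lit 11521637233) (nat_lit 380) (nat_lit 202216647) (nat_lit 456) (nat_lit 6058275213) (nat_lit 86) (nat_lit 5) (nat_lit 91) (nat_lit 5) (nat_lit 92) (nat_lit 5) (nat_lit 324) (nat_lit 289) (nat_lit 167))))) (XT.nd (nat_lit 234) (nat_lit 836) (nat_lit 0) (XT.nd (nat_lit 78) (nat_lit 0) (nat_lit 0) (XT.lf (nat_lit 0) (nat_lit 1103444701) (nat_lit 380) (nat_lit 12756834354) (nat_lit 456) (nat_lit 4258385895) (nat_lit 81) (nat_lit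 5) (nat_lit 86) (nat_lit 5) (nat_lit 87) (nat_lit 5) (nat_lit 325) (nat_lit 289) (nat_lit 166)) (XT.nd (nat_lit 78) (nat_lit 0) (nat_lit 0) (XT.lf (nat_lit 0) (nat_lit 8803790613) (nat_lit 380) (nat_lit 7312688972) (nat_lit 456) (nat_lit 2347171854) (nat_lit 81) (nat_lit 5) (nat_lit 86) (nat_lit 5) (nat_lit 87) (nat_lit 5) (nat_lit 326) (nat_lit 289) (nat_lit 165)) (XT.lf (nat_lit 0) (nat_lit 16724660787) (nat_lit 380) (nat_lit 1706463978) (nat_lit 456) (nat_lit 388164303) (nat_lit 81) (nat_lit 5) (nat_lit 86) (nat_lit 5) (nat_lit 87) (nat_lit 5) (nat_lit 327) (nat_lit 289) (nat_lit 164)))) (XT.nd (nat_lit 78) (nat_lit 380) (nat_lit 0) (XT.lf (nat_lit 0) (nat_lit 1684129458) (nat_lit 456) (nat_lit 13439163744) (nat_lit 76) (nat_lit 4059266120) (nat_lit 75) (nat_lit 5) (nat_lit 81) (nat_lit 5) (nat_lit 76) (nat_lit 5) (nat_lit 328) (nat_lit 289) (nat_lit 163)) (XT.nd (nat_lit 78) (nat_lit 380)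 (nat_lit 0) (XT.lf (nat_lit 0) (nat_lit 3840115520) (nat_lit 456) (nat_lit 5728102741) (nat_lit 76) (nat_lit 9987536613) (nat_lit 75) (nat_lit 5) (nat_lit 81) (nat_lit 5) (nat_lit 76) (nat_lit 5) (nat_lit 329) (nat_lit 289) (nat_lit 162)) (XT.lf (nat_lit 0) (nat_lit 2247903056) (nat_lit 380) (nat_lit 3825814930) (nat_lit 456) (nat_lit 13866061798) (nat_lit 70) (nat_lit 5) (nat_lit 75) (nat_lit 5) (nat_lit 76) (nat_lit 5) (nat_lit 330) (nat_lit 289) (nat_lit 161)))))) (XT.nd (nat_lit 468) (nat_lit 684) (nat_lit 0) (XT.nd (nat_lit 234) (nat_lit 304) (nat_lit 0) (XT.nd (nat_lit 78) (nat_lit 304) (nat_lit 0) (XT.lf (nat_lit 0) (nat_lit 8444291109) (nat_lit 456) (nat_lit 9784044704) (nat_lit 76) (nat_lit 2104911714) (nat_lit 70) (nat_lit 5) (nat_lit 76) (nat_lit 5) (nat_lit 71) (nat_lit 5) (nat_lit 331) (nat_lit 289) (nat_lit 160)) (XT.nd (nat_lit 78) (nat_lit 304) (nat_lit 0) (XT.lf (nat_lit 0)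 (nat_lit 10915577164) (nat_lit 456) (nat_lit 1686965771) (nat_lit 76) (nat_lit 8135108852) (nat_lit 70) (nat_lit 5) (nat_lit 76) (nat_lit 5) (nat_lit 71) (nat_lit 5) (nat_lit 332) (nat_lit 289) (nat_lit 159)) (XT.lf (nat_lit 0) (nat_lit 6775424192) (nat_lit 304) (nat_lit 6742664782) (nat_lit 380) (nat_lit 7634406346) (nat_lit 66) (nat_lit 5) (nat_lit 70) (nat_lit 5) (nat_lit 71) (nat_lit 5) (nat_lit 333) (nat_lit 289) (nat_lit 158)))) (XT.nd (nat_lit 78) (nat_lit 304) (nat_lit 0) (XT.lf (nat_lit 0) (nat_lit 15516548949) (nat_lit 304) (nat_lit 691260716) (nat_lit 380) (nat_lit 5371719675) (nat_lit 66) (nat_lit 5) (nat_lit 70) (nat_lit 5) (nat_lit 71) (nat_lit 5) (nat_lit 334) (nat_lit 289) (nat_lit 157)) (XT.nd (nat_lit 78) (nat_lit 0) (nat_lit 0) (XT.lf (nat_lit 0) (nat_lit 2486109124) (nat_lit 304) (nat_lit 16561592593) (nat_lit 380) (nat_lit 2969606899) (nat_lit 62) (nat_lit 5) (nat_lit 66)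 (nat_lit 5) (nat_lit 67) (nat_lit 5) (nat_lit 335) (nat_lit 289) (nat_lit 156)) (XT.lf (nat_lit 0) (nat_lit 11399404060) (nat_lit 304) (nat_lit 10633831339) (nat_lit 380) (nat_lit 433190612) (nat_lit 62) (nat_lit 5) (nat_lit 66) (nat_lit 5) (nat_lit 67) (nat_lit 5) (nat_lit 336) (nat_lit 289) (nat_lit 155))))) (XT.nd (nat_lit 234) (nat_lit 304) (nat_lit 0) (XT.nd (nat_lit 78) (nat_lit 304) (nat_lit 0) (XT.lf (nat_lit 0) (nat_lit 2129365641) (nat_lit 380) (nat_lit 2379326110) (nat_lit 76) (nat_lit 18419936538) (nat_lit 61) (nat_lit 5) (nat_lit 66) (nat_lit 5) (nat_lit 62) (nat_lit 5) (nat_lit 337) (nat_lit 289) (nat_lit 154)) (XT.nd (nat_lit 78) (nat_lit 0) (nat_lit 0) (XT.lf (nat_lit 0) (nat_lit 4835116374) (nat_lit 380) (nat_lit 16734840340) (nat_lit 76) (nat_lit 1832377069) (nat_lit 57) (nat_lit 5) (nat_lit 62) (nat_lit 5) (nat_lit 58) (nat_lit 5) (nat_lit 338) (nat_lit 289) (nat_lit 153))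 (XT.lf (nat_lit 0) (nat_lit 7683837994) (nat_lit 380) (nat_lit 7909218601) (nat_lit 76) (nat_lit 8295355964) (nat_lit 57) (nat_lit 5) (nat_lit 62) (nat_lit 5) (nat_lit 58) (nat_lit 5) (nat_lit 339) (nat_lit 289) (nat_lit 152)))) (XT.nd (nat_lit 78) (nat_lit 0) (nat_lit 0) (XT.lf (nat_lit 0) (nat_lit 1195468625) (nat_lit 304) (nat_lit 9427144638) (nat_lit 380) (nat_lit 13766338274) (nat_lit 53) (nat_lit 5) (nat_lit 57) (nat_lit 5) (nat_lit 58) (nat_lit 5) (nat_lit 340) (nat_lit 289) (nat_lit 151)) (XT.nd (nat_lit 78) (nat_lit 0) (nat_lit 0) (XT.lf (nat_lit 0) (nat_lit 10726485173) (nat_lit 304) (nat_lit 2996149641) (nat_lit 380) (nat_lit 11179694528) (nat_lit 53) (nat_lit 5) (nat_lit 57) (nat_lit 5) (nat_lit 58) (nat_lit 5) (nat_lit 341) (nat_lit 289) (nat_lit 150)) (XT.lf (nat_lit 0) (nat_lit 16943922298) (nat_lit 380) (nat_lit 4931422893) (nat_lit 76) (nat_lit 3554930035) (nat_lit 53) (nat_lit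 5) (nat_lit 58) (nat_lit 5) (nat_lit 54) (nat_lit 5) (nat_lit 342) (nat_lit 289) (nat_lit 149))))))))
noncomputable def xc190 : XT := (XT.nd (nat_lit 1716) (nat_lit 836) (nat_lit 0) (XT.nd (nat_lit 858) (nat_lit 988) (nat_lit 0) (XT.nd (nat_lit 390) (nat_lit 456) (nat_lit 0) (XT.nd (nat_lit 156) (nat_lit 380) (nat_lit 0) (XT.nd (nat_lit 78) (nat_lit 0) (nat_lit 0) (XT.lf (nat_lit 0) (nat_lit 4642645138) (nat_lit 228) (nat_lit 15687081392) (nat_lit 304) (nat_lit 5642310888) (nat_lit 50) (nat_lit 5) (nat_lit 53) (nat_lit 5) (nat_lit 54) (nat_lit 5) (nat_lit 343) (nat_lit 289) (nat_lit 148)) (XT.lf (nat_lit 0) (nat_lit 14596493252) (nat_lit 228) (nat_lit 9264099501) (nat_lit 304) (nat_lit 2668168951) (nat_lit 50) (nat_lit 5) (nat_lit 53) (nat_lit 5) (nat_lit 54) (nat_lit 5) (nat_lit 344) (nat_lit 289) (nat_lit 147))) (XT.nd (nat_lit 78) (nat_lit 304) (nat_lit 0) (XT.lf (nat_lit 0) (nat_lit 381285615)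 (nat_lit 304) (nat_lit 2265449052) (nat_lit 76) (nat_lit 24455538146) (nat_lit 49) (nat_lit 5) (nat_lit 53) (nat_lit 5) (nat_lit 50) (nat_lit 5) (nat_lit 345) (nat_lit 289) (nat_lit 146)) (XT.nd (nat_lit 78) (nat_lit 0) (nat_lit 0) (XT.lf (nat_lit 0) (nat_lit 3578703951) (nat_lit 380) (nat_lit 19922030136) (nat_lit 76) (nat_lit 4188172096) (nat_lit 45) (nat_lit 5) (nat_lit 50) (nat_lit 5) (nat_lit 46) (nat_lit 5) (nat_lit 346) (nat_lit 289) (nat_lit 145)) (XT.lf (nat_lit 0) (nat_lit 6915410535) (nat_lit 380) (nat_lit 10180536663) (nat_lit 76) (nat_lit 11195902700) (nat_lit 45) (nat_lit 5) (nat_lit 50) (nat_lit 5) (nat_lit 46) (nat_lit 5) (nat_lit 347) (nat_lit 289) (nat_lit 144))))) (XT.nd (nat_lit 234) (nat_lit 228) (nat_lit 0) (XT.nd (nat_lit 78) (nat_lit 228) (nat_lit 0) (XT.lf (nat_lit 0) (nat_lit 10346448714) (nat_lit 380) (nat_lit 154820714) (nat_lit 76) (nat_lit 18411797542) (nat_lit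 45) (nat_lit 5) (nat_lit 50) (nat_lit 5) (nat_lit 46) (nat_lit 5) (nat_lit 348) (nat_lit 289) (nat_lit 143)) (XT.nd (nat_lit 78) (nat_lit 0) (nat_lit 0) (XT.lf (nat_lit 0) (nat_lit 10366159149) (nat_lit 228) (nat_lit 3608303197) (nat_lit 304) (nat_lit 15575648487) (nat_lit 42) (nat_lit 5) (nat_lit 45) (nat_lit 5) (nat_lit 46) (nat_lit 5) (nat_lit 349) (nat_lit 289) (nat_lit 142)) (XT.lf (nat_lit 0) (nat_lit 17740923541) (nat_lit 304) (nat_lit 9041722288) (nat_lit 76) (nat_lit 3422743238) (nat_lit 42) (nat_lit 5) (nat_lit 46) (nat_lit 5) (nat_lit 43) (nat_lit 5) (nat_lit 350) (nat_lit 289) (nat_lit 141)))) (XT.nd (nat_lit 78) (nat_lit 0) (nat_lit 0) (XT.lf (nat_lit 0) (nat_lit 1388504286) (nat_lit 228) (nat_lit 20275574702) (nat_lit 304) (nat_lit 9214946589) (nat_lit 39) (nat_lit 5) (nat_lit 42) (nat_lit 5) (nat_lit 43) (nat_lit 5) (nat_lit 351) (nat_lit 289) (nat_lit 140)) (XT.nd (nat_lit 78)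 (nat_lit 0) (nat_lit 0) (XT.lf (nat_lit 0) (nat_lit 12309420340) (nat_lit 228) (nat_lit 13481523689) (nat_lit 304) (nat_lit 5779357329) (nat_lit 39) (nat_lit 5) (nat_lit 42) (nat_lit 5) (nat_lit 43) (nat_lit 5) (nat_lit 352) (nat_lit 289) (nat_lit 139)) (XT.lf (nat_lit 0) (nat_lit 23550620420) (nat_lit 228) (nat_lit 6485859906) (nat_lit 304) (nat_lit 2245999440) (nat_lit 39) (nat_lit 5) (nat_lit 42) (nat_lit 5) (nat_lit 43) (nat_lit 5) (nat_lit 353) (nat_lit 289) (nat_lit 138)))))) (XT.nd (nat_lit 390) (nat_lit 456) (nat_lit 0) (XT.nd (nat_lit 156) (nat_lit 228) (nat_lit 0) (XT.nd (nat_lit 78) (nat_lit 0) (nat_lit 0) (XT.lf (nat_lit 0) (nat_lit 1388871692) (nat_lit 304) (nat_lit 30888357591) (nat_lit 76) (nat_lit 737721093) (nat_lit 35) (nat_lit 5) (nat_lit 39) (nat_lit 5) (nat_lit 36) (nat_lit 5) (nat_lit 354) (nat_lit 289) (nat_lit 137)) (XT.lf (nat_lit 0) (nat_lit 5235923227) (nat_lit 304)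 (nat_lit 20371589857) (nat_lit 76) (nat_lit 8156776031) (nat_lit 35) (nat_lit 5) (nat_lit 39) (nat_lit 5) (nat_lit 36) (nat_lit 5) (nat_lit 355) (nat_lit 289) (nat_lit 136))) (XT.nd (nat_lit 78) (nat_lit 228) (nat_lit 0) (XT.lf (nat_lit 0) (nat_lit 9193544099) (nat_lit 304) (nat_lit 9546412257) (nat_lit 76) (nat_lit 15796306088) (nat_lit 35) (nat_lit 5) (nat_lit 39) (nat_lit 5) (nat_lit 36) (nat_lit 5) (nat_lit 356) (nat_lit 289) (nat_lit 135)) (XT.nd (nat_lit 78) (nat_lit 0) (nat_lit 0) (XT.lf (nat_lit 0) (nat_lit 1628410249) (nat_lit 228) (nat_lit 11652435450) (nat_lit 304) (nat_lit 22050229610) (nat_lit 32) (nat_lit 5) (nat_lit 35) (nat_lit 5) (nat_lit 36) (nat_lit 5) (nat_lit 357) (nat_lit 289) (nat_lit 134)) (XT.lf (nat_lit 0) (nat_lit 13327350468) (nat_lit 228) (nat_lit 4255186129) (nat_lit 304) (nat_lit 18564451492) (nat_lit 32) (nat_lit 5) (nat_lit 35) (nat_lit 5) (nat_lit 36) (nat_lit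 5) (nat_lit 358) (nat_lit 289) (nat_lit 133))))) (XT.nd (nat_lit 234) (nat_lit 304) (nat_lit 0) (XT.nd (nat_lit 78) (nat_lit 152) (nat_lit 0) (XT.lf (nat_lit 0) (nat_lit 22041099483) (nat_lit 304) (nat_lit 11649199243) (nat_lit 76) (nat_lit 3296253274) (nat_lit 32) (nat_lit 5) (nat_lit 36) (nat_lit 5) (nat_lit 33) (nat_lit 5) (nat_lit 359) (nat_lit 289) (nat_lit 132)) (XT.nd (nat_lit 78) (nat_lit 152) (nat_lit 0) (XT.lf (nat_lit 0) (nat_lit 26671165949) (nat_lit 304) (nat_lit 192325108) (nat_lit 76) (nat_lit 10986687513) (nat_lit 32) (nat_lit 5) (nat_lit 36) (nat_lit 5) (nat_lit 33) (nat_lit 5) (nat_lit 360) (nat_lit 289) (nat_lit 131)) (XT.lf (nat_lit 0) (nat_lit 11832799636) (nat_lit 152) (nat_lit 19716822704) (nat_lit 228) (nat_lit 7186814864) (nat_lit 30) (nat_lit 5) (nat_lit 32) (nat_lit 5) (nat_lit 33) (nat_lit 5) (nat_lit 361) (nat_lit 289) (nat_lit 130)))) (XT.nd (nat_lit 78) (nat_lit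 304) (nat_lit 0) (XT.lf (nat_lit 0) (nat_lit 24216326761) (nat_lit 152) (nat_lit 12355855057) (nat_lit 228) (nat_lit 3077176970) (nat_lit 30) (nat_lit 5) (nat_lit 32) (nat_lit 5) (nat_lit 33) (nat_lit 5) (nat_lit 362) (nat_lit 289) (nat_lit 129)) (XT.nd (nat_lit 78) (nat_lit 228) (nat_lit 0) (XT.lf (nat_lit 0) (nat_lit 1129079010) (nat_lit 228) (nat_lit 3635617816) (nat_lit 76) (nat_lit 35824768682) (nat_lit 29) (nat_lit 5) (nat_lit 32) (nat_lit 5) (nat_lit 30) (nat_lit 5) (nat_lit 363) (nat_lit 289) (nat_lit 128)) (XT.lf (nat_lit 0) (nat_lit 5509270034) (nat_lit 304) (nat_lit 32936972658) (nat_lit 76) (nat_lit 3107337879) (nat_lit 26) (nat_lit 5) (nat_lit 30) (nat_lit 5) (nat_lit 27) (nat_lit 5) (nat_lit 364) (nat_lit 289) (nat_lit 127))))))) (XT.nd (nat_lit 858) (nat_lit 304) (nat_lit 0) (XT.nd (nat_lit 390) (nat_lit 380) (nat_lit 0) (XT.nd (nat_lit 156) (nat_lit 152) (nat_lit 0) (XT.nd (nat_lit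 78) (nat_lit 0) (nat_lit 0) (XT.lf (nat_lit 0) (nat_lit 10101159588) (nat_lit 304) (nat_lit 21288195094) (nat_lit 76) (nat_lit 11154862439) (nat_lit 26) (nat_lit 5) (nat_lit 30) (nat_lit 5) (nat_lit 27) (nat_lit 5) (nat_lit 365) (nat_lit 289) (nat_lit 126)) (XT.lf (nat_lit 0) (nat_lit 14826962605) (nat_lit 304) (nat_lit 9295843229) (nat_lit 76) (nat_lit 19441888851) (nat_lit 26) (nat_lit 5) (nat_lit 30) (nat_lit 5) (nat_lit 27) (nat_lit 5) (nat_lit 366) (nat_lit 289) (nat_lit 125))) (XT.nd (nat_lit 78) (nat_lit 0) (nat_lit 0) (XT.lf (nat_lit 0) (nat_lit 3111273850) (nat_lit 152) (nat_lit 16609442044) (nat_lit 228) (nat_lit 24894291823) (nat_lit 24) (nat_lit 5) (nat_lit 26) (nat_lit 5) (nat_lit 27) (nat_lit 5) (nat_lit 367) (nat_lit 289) (nat_lit 124)) (XT.nd (nat_lit 78) (nat_lit 0) (nat_lit 0) (XT.lf (nat_lit 0) (nat_lit 16075498668) (nat_lit 152) (nat_lit 8775975876) (nat_lit 228) (nat_lit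 20842656053) (nat_lit 24) (nat_lit 5) (nat_lit 26) (nat_lit 5) (nat_lit 27) (nat_lit 5) (nat_lit 368) (nat_lit 289) (nat_lit 123)) (XT.lf (nat_lit 0) (nat_lit 29423153682) (nat_lit 152) (nat_lit 709432342) (nat_lit 228) (nat_lit 16673154296) (nat_lit 24) (nat_lit 5) (nat_lit 26) (nat_lit 5) (nat_lit 27) (nat_lit 5) (nat_lit 369) (nat_lit 289) (nat_lit 122))))) (XT.nd (nat_lit 234) (nat_lit 228) (nat_lit 0) (XT.nd (nat_lit 78) (nat_lit 152) (nat_lit 0) (XT.lf (nat_lit 0) (nat_lit 35641694186) (nat_lit 228) (nat_lit 4857935594) (nat_lit 76) (nat_lit 7448987535) (nat_lit 24) (nat_lit 5) (nat_lit 27) (nat_lit 5) (nat_lit 25) (nat_lit 5) (nat_lit 370) (nat_lit 289) (nat_lit 121)) (XT.nd (nat_lit 78) (nat_lit 0) (nat_lit 0) (XT.lf (nat_lit 0) (nat_lit 8189976612) (nat_lit 152) (nat_lit 33208467670) (nat_lit 228) (nat_lit 7724870988) (nat_lit 22) (nat_lit 5) (nat_lit 24) (nat_lit 5) (nat_lit 25) (nat_lit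 5) (nat_lit 371) (nat_lit 289) (nat_lit 120)) (XT.lf (nat_lit 0) (nat_lit 21723690541) (nat_lit 152) (nat_lit 25649927860) (nat_lit 228) (nat_lit 2958269661) (nat_lit 22) (nat_lit 5) (nat_lit 24) (nat_lit 5) (nat_lit 25) (nat_lit 5) (nat_lit 372) (nat_lit 289) (nat_lit 119)))) (XT.nd (nat_lit 78) (nat_lit 152) (nat_lit 0) (XT.lf (nat_lit 0) (nat_lit 1909977913) (nat_lit 228) (nat_lit 15937196480) (nat_lit 76) (nat_lit 33729084381) (nat_lit 21) (nat_lit 5) (nat_lit 24) (nat_lit 5) (nat_lit 22) (nat_lit 5) (nat_lit 373) (nat_lit 289) (nat_lit 118)) (XT.nd (nat_lit 78) (nat_lit 152) (nat_lit 0) (XT.lf (nat_lit 0) (nat_lit 6861635671) (nat_lit 228) (nat_lit 2920342540) (nat_lit 76) (nat_lit 43075204143) (nat_lit 21) (nat_lit 5) (nat_lit 24) (nat_lit 5) (nat_lit 22) (nat_lit 5) (nat_lit 374) (nat_lit 289) (nat_lit 117)) (XT.lf (nat_lit 0) (nat_lit 10690790779) (nat_lit 152) (nat_lit 1370732441)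 (nat_lit 228) (nat_lit 42112024945) (nat_lit 19) (nat_lit 5) (nat_lit 21) (nat_lit 5) (nat_lit 22) (nat_lit 5) (nat_lit 375) (nat_lit 289) (nat_lit 116)))))) (XT.nd (nat_lit 390) (nat_lit 152) (nat_lit 0) (XT.nd (nat_lit 156) (nat_lit 152) (nat_lit 0) (XT.nd (nat_lit 78) (nat_lit 0) (nat_lit 0) (XT.lf (nat_lit 0) (nat_lit 17514233053) (nat_lit 228) (nat_lit 30833667140) (nat_lit 76) (nat_lit 7178604771) (nat_lit 19) (nat_lit 5) (nat_lit 22) (nat_lit 5) (nat_lit 20) (nat_lit 5) (nat_lit 376) (nat_lit 289) (nat_lit 115)) (XT.lf (nat_lit 0) (nat_lit 23141125498) (nat_lit 228) (nat_lit 17823407657) (nat_lit 76) (nat_lit 15955203915) (nat_lit 19) (nat_lit 5) (nat_lit 22) (nat_lit 5) (nat_lit 20) (nat_lit 5) (nat_lit 377) (nat_lit 289) (nat_lit 114))) (XT.nd (nat_lit 78) (nat_lit 152) (nat_lit 0) (XT.lf (nat_lit 0) (nat_lit 28933940941) (nat_lit 228) (nat_lit 4427434430) (nat_lit 76) (nat_lit 24993481790)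 (nat_lit 19) (nat_lit 5) (nat_lit 22) (nat_lit 5) (nat_lit 20) (nat_lit 5) (nat_lit 378) (nat_lit 289) (nat_lit 113)) (XT.nd (nat_lit 78) (nat_lit 0) (nat_lit 0) (XT.lf (nat_lit 0) (nat_lit 9552358682) (nat_lit 152) (nat_lit 25437205498) (nat_lit 228) (nat_lit 24840800352) (nat_lit 17) (nat_lit 5) (nat_lit 19) (nat_lit 5) (nat_lit 20) (nat_lit 5) (nat_lit 379) (nat_lit 289) (nat_lit 112)) (XT.lf (nat_lit 0) (nat_lit 24037887147) (nat_lit 152) (nat_lit 17230916685) (nat_lit 228) (nat_lit 20080079108) (nat_lit 17) (nat_lit 5) (nat_lit 19) (nat_lit 5) (nat_lit 20) (nat_lit 5) (nat_lit 380) (nat_lit 289) (nat_lit 111))))) (XT.nd (nat_lit 234) (nat_lit 76) (nat_lit 0) (XT.nd (nat_lit 78) (nat_lit 76) (nat_lit 0) (XT.lf (nat_lit 0) (nat_lit 38953693596) (nat_lit 152) (nat_lit 8780046797) (nat_lit 228) (nat_lit 15179301041) (nat_lit 17) (nat_lit 5) (nat_lit 19) (nat_lit 5) (nat_lit 20) (nat_lit 5)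 (nat_lit 381) (nat_lit 289) (nat_lit 110)) (XT.nd (nat_lit 78) (nat_lit 76) (nat_lit 0) (XT.lf (nat_lit 0) (nat_lit 54312811257) (nat_lit 152) (nat_lit 77211579) (nat_lit 228) (nat_lit 10134183920) (nat_lit 17) (nat_lit 5) (nat_lit 19) (nat_lit 5) (nat_lit 20) (nat_lit 5) (nat_lit 382) (nat_lit 289) (nat_lit 109)) (XT.lf (nat_lit 0) (nat_lit 3936274989) (nat_lit 76) (nat_lit 57430440139) (nat_lit 152) (nat_lit 4813374156) (nat_lit 16) (nat_lit 5) (nat_lit 17) (nat_lit 5) (nat_lit 18) (nat_lit 4) (nat_lit 383) (nat_lit 289) (nat_lit 108)))) (XT.nd (nat_lit 78) (nat_lit 0) (nat_lit 0) (XT.lf (nat_lit 0) (nat_lit 756409059) (nat_lit 152) (nat_lit 49177173937) (nat_lit 76) (nat_lit 17948805615) (nat_lit 15) (nat_lit 5) (nat_lit 17) (nat_lit 5) (nat_lit 16) (nat_lit 5) (nat_lit 384) (nat_lit 289) (nat_lit 107)) (XT.nd (nat_lit 78) (nat_lit 0) (nat_lit 0) (XT.lf (nat_lit 0) (nat_lit 6394080956) (nat_lit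 152) (nat_lit 35770192207) (nat_lit 76) (nat_lit 27470131420) (nat_lit 15) (nat_lit 5) (nat_lit 17) (nat_lit 5) (nat_lit 16) (nat_lit 5) (nat_lit 385) (nat_lit 289) (nat_lit 106)) (XT.lf (nat_lit 0) (nat_lit 12198493922) (nat_lit 152) (nat_lit 21964885170) (nat_lit 76) (nat_lit 37275677071) (nat_lit 15) (nat_lit 5) (nat_lit 17) (nat_lit 5) (nat_lit 16) (nat_lit 5) (nat_lit 386) (nat_lit 289) (nat_lit 105))))))))
noncomputable def xc191 : XT := (XT.nd (nat_lit 1716) (nat_lit 4408) (nat_lit 0) (XT.nd (nat_lit 858) (nat_lit 1672) (nat_lit 0) (XT.nd (nat_lit 390) (nat_lit 0) (nat_lit 76) (XT.nd (nat_lit 156) (nat_lit 988) (nat_lit 0) (XT.nd (nat_lit 78) (nat_lit 0) (nat_lit 0) (XT.lf (nat_lit 0) (nat_lit 4902084281) (nat_lit 988) (nat_lit 159553627) (nat_lit 988) (nat_lit 159553627) (nat_lit 159) (nat_lit 3) (nat_lit 172) (nat_lit 3) (nat_lit 172) (nat_lit 5) (nat_lit 290) (nat_lit 290) (nat_lit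 200)) (XT.lf (nat_lit 76) (nat_lit 3963126112) (nat_lit 0) (nat_lit 6584710119) (nat_lit 988) (nat_lit 31425330) (nat_lit 160) (nat_lit 5) (nat_lit 159) (nat_lit 3) (nat_lit 172) (nat_lit 5) (nat_lit 291) (nat_lit 290) (nat_lit 199))) (XT.nd (nat_lit 78) (nat_lit 0) (nat_lit 76) (XT.lf (nat_lit 0) (nat_lit 563043642) (nat_lit 988) (nat_lit 2357517572) (nat_lit 1064) (nat_lit 7800152699) (nat_lit 146) (nat_lit 5) (nat_lit 159) (nat_lit 3) (nat_lit 160) (nat_lit 5) (nat_lit 292) (nat_lit 290) (nat_lit 198)) (XT.nd (nat_lit 78) (nat_lit 0) (nat_lit 0) (XT.lf (nat_lit 0) (nat_lit 1181438061) (nat_lit 988) (nat_lit 8817981325) (nat_lit 1064) (nat_lit 866847815) (nat_lit 147) (nat_lit 5) (nat_lit 160) (nat_lit 5) (nat_lit 161) (nat_lit 5) (nat_lit 293) (nat_lit 290) (nat_lit 197)) (XT.lf (nat_lit 0) (nat_lit 1850401802) (nat_lit 988) (nat_lit 4422357897) (nat_lit 1064) (nat_lit 4742533262) (nat_lit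 147) (nat_lit 5) (nat_lit 160) (nat_lit 5) (nat_lit 161) (nat_lit 5) (nat_lit 294) (nat_lit 290) (nat_lit 196))))) (XT.nd (nat_lit 234) (nat_lit 0) (nat_lit 76) (XT.nd (nat_lit 78) (nat_lit 0) (nat_lit 76) (XT.lf (nat_lit 76) (nat_lit 95024352) (nat_lit 0) (nat_lit 2424992497) (nat_lit 1064) (nat_lit 8649419638) (nat_lit 148) (nat_lit 5) (nat_lit 147) (nat_lit 5) (nat_lit 161) (nat_lit 5) (nat_lit 295) (nat_lit 290) (nat_lit 195)) (XT.nd (nat_lit 78) (nat_lit 0) (nat_lit 0) (XT.lf (nat_lit 0) (nat_lit 3249830043) (nat_lit 988) (nat_lit 6516092856) (nat_lit 1064) (nat_lit 1561140717) (nat_lit 148) (nat_lit 5) (nat_lit 161) (nat_lit 5) (nat_lit 162) (nat_lit 5) (nat_lit 296) (nat_lit 290) (nat_lit 194)) (XT.lf (nat_lit 0) (nat_lit 4006347660) (nat_lit 988) (nat_lit 1857249338) (nat_lit 1064) (nat_lit 5625739022) (nat_lit 148) (nat_lit 5) (nat_lit 161) (nat_lit 5) (nat_lit 162) (nat_lit 5) (nat_lit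 297) (nat_lit 290) (nat_lit 193)))) (XT.nd (nat_lit 78) (nat_lit 0) (nat_lit 76) (XT.lf (nat_lit 76) (nat_lit 2987802551) (nat_lit 0) (nat_lit 1807838258) (nat_lit 1064) (nat_lit 6860592384) (nat_lit 149) (nat_lit 5) (nat_lit 148) (nat_lit 5) (nat_lit 162) (nat_lit 5) (nat_lit 298) (nat_lit 290) (nat_lit 192)) (XT.nd (nat_lit 78) (nat_lit 0) (nat_lit 0) (XT.lf (nat_lit 0) (nat_lit 5632182627) (nat_lit 988) (nat_lit 3846669731) (nat_lit 1064) (nat_lit 2348635101) (nat_lit 149) (nat_lit 5) (nat_lit 162) (nat_lit 5) (nat_lit 163) (nat_lit 5) (nat_lit 299) (nat_lit 290) (nat_lit 191)) (XT.lf (nat_lit 76) (nat_lit 1111485938) (nat_lit 0) (nat_lit 5393298654) (nat_lit 1064) (nat_lit 5498821453) (nat_lit 150) (nat_lit 5) (nat_lit 149) (nat_lit 5) (nat_lit 163) (nat_lit 5) (nat_lit 300) (nat_lit 290) (nat_lit 190)))))) (XT.nd (nat_lit 390) (nat_lit 1900) (nat_lit 0) (XT.nd (nat_lit 156) (nat_lit 0)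 (nat_lit 76) (XT.nd (nat_lit 78) (nat_lit 0) (nat_lit 76) (XT.lf (nat_lit 76) (nat_lit 6285309576) (nat_lit 0) (nat_lit 1139877606) (nat_lit 1064) (nat_lit 4759226317) (nat_lit 150) (nat_lit 5) (nat_lit 149) (nat_lit 5) (nat_lit 163) (nat_lit 5) (nat_lit 301) (nat_lit 290) (nat_lit 189)) (XT.lf (nat_lit 0) (nat_lit 8387687447) (nat_lit 988) (nat_lit 799638717) (nat_lit 1064) (nat_lit 3182936861) (nat_lit 150) (nat_lit 5) (nat_lit 163) (nat_lit 5) (nat_lit 164) (nat_lit 5) (nat_lit 302) (nat_lit 290) (nat_lit 188))) (XT.nd (nat_lit 78) (nat_lit 0) (nat_lit 0) (XT.lf (nat_lit 76) (nat_lit 4517853457) (nat_lit 0) (nat_lit 4899738811) (nat_lit 1064) (nat_lit 3142990771) (nat_lit 151) (nat_lit 5) (nat_lit 150) (nat_lit 5) (nat_lit 164) (nat_lit 5) (nat_lit 303) (nat_lit 290) (nat_lit 187)) (XT.nd (nat_lit 78) (nat_lit 0) (nat_lit 76) (XT.lf (nat_lit 76) (nat_lit 9999547531) (nat_lit 0) (nat_lit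 471095539) (nat_lit 1064) (nat_lit 2286251526) (nat_lit 151) (nat_lit 5) (nat_lit 150) (nat_lit 5) (nat_lit 164) (nat_lit 5) (nat_lit 304) (nat_lit 290) (nat_lit 186)) (XT.lf (nat_lit 76) (nat_lit 2687805437) (nat_lit 0) (nat_lit 8917309654) (nat_lit 1064) (nat_lit 1352533485) (nat_lit 152) (nat_lit 5) (nat_lit 151) (nat_lit 5) (nat_lit 165) (nat_lit 5) (nat_lit 305) (nat_lit 290) (nat_lit 185))))) (XT.nd (nat_lit 234) (nat_lit 1064) (nat_lit 0) (XT.nd (nat_lit 78) (nat_lit 988) (nat_lit 0) (XT.lf (nat_lit 76) (nat_lit 8336274396) (nat_lit 0) (nat_lit 4454815571) (nat_lit 1064) (nat_lit 372857719) (nat_lit 152) (nat_lit 5) (nat_lit 151) (nat_lit 5) (nat_lit 165) (nat_lit 5) (nat_lit 306) (nat_lit 290) (nat_lit 184)) (XT.nd (nat_lit 78) (nat_lit 0) (nat_lit 0) (XT.lf (nat_lit 0) (nat_lit 618021004) (nat_lit 1064) (nat_lit 12603067358) (nat_lit 76) (nat_lit 155381013) (nat_lit 138) (nat_lit 5)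 (nat_lit 152) (nat_lit 5) (nat_lit 139) (nat_lit 5) (nat_lit 307) (nat_lit 290) (nat_lit 183)) (XT.lf (nat_lit 0) (nat_lit 1710069958) (nat_lit 1064) (nat_lit 7012897132) (nat_lit 76) (nat_lit 4869963355) (nat_lit 138) (nat_lit 5) (nat_lit 152) (nat_lit 5) (nat_lit 139) (nat_lit 5) (nat_lit 308) (nat_lit 290) (nat_lit 182)))) (XT.nd (nat_lit 78) (nat_lit 1064) (nat_lit 0) (XT.lf (nat_lit 0) (nat_lit 2820898000) (nat_lit 1064) (nat_lit 1266850589) (nat_lit 76) (nat_lit 9728597608) (nat_lit 138) (nat_lit 5) (nat_lit 152) (nat_lit 5) (nat_lit 139) (nat_lit 5) (nat_lit 309) (nat_lit 290) (nat_lit 181)) (XT.nd (nat_lit 78) (nat_lit 0) (nat_lit 0) (XT.lf (nat_lit 0) (nat_lit 4004036682) (nat_lit 1140) (nat_lit 9320176895) (nat_lit 76) (nat_lit 721121443) (nat_lit 124) (nat_lit 5) (nat_lit 139) (nat_lit 5) (nat_lit 125) (nat_lit 5) (nat_lit 310) (nat_lit 290) (nat_lit 180)) (XT.lf (nat_lit 0) (nat_lit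 5262791035) (nat_lit 1140) (nat_lit 3410340623) (nat_lit 76) (nat_lit 5606897206) (nat_lit 124) (nat_lit 5) (nat_lit 139) (nat_lit 5) (nat_lit 125) (nat_lit 5) (nat_lit 311) (nat_lit 290) (nat_lit 179))))))) (XT.nd (nat_lit 858) (nat_lit 1900) (nat_lit 0) (XT.nd (nat_lit 390) (nat_lit 1520) (nat_lit 0) (XT.nd (nat_lit 156) (nat_lit 456) (nat_lit 0) (XT.nd (nat_lit 78) (nat_lit 0) (nat_lit 0) (XT.lf (nat_lit 0) (nat_lit 2718352304) (nat_lit 532) (nat_lit 3854202087) (nat_lit 608) (nat_lit 7948849608) (nat_lit 117) (nat_lit 5) (nat_lit 124) (nat_lit 5) (nat_lit 125) (nat_lit 5) (nat_lit 312) (nat_lit 290) (nat_lit 178)) (XT.lf (nat_lit 0) (nat_lit 7954446456) (nat_lit 608) (nat_lit 5690974784) (nat_lit 76) (nat_lit 1123650837) (nat_lit 117) (nat_lit 5) (nat_lit 125) (nat_lit 5) (nat_lit 118) (nat_lit 5) (nat_lit 313) (nat_lit 290) (nat_lit 177))) (XT.nd (nat_lit 78) (nat_lit 0) (nat_lit 0) (XT.lf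 (nat_lit 0) (nat_lit 565892249) (nat_lit 456) (nat_lit 8843264182) (nat_lit 532) (nat_lit 5614108624) (nat_lit 111) (nat_lit 5) (nat_lit 117) (nat_lit 5) (nat_lit 118) (nat_lit 5) (nat_lit 314) (nat_lit 290) (nat_lit 176)) (XT.nd (nat_lit 78) (nat_lit 0) (nat_lit 0) (XT.lf (nat_lit 0) (nat_lit 7115782633) (nat_lit 456) (nat_lit 3837201238) (nat_lit 532) (nat_lit 4330770320) (nat_lit 111) (nat_lit 5) (nat_lit 117) (nat_lit 5) (nat_lit 118) (nat_lit 5) (nat_lit 315) (nat_lit 290) (nat_lit 175)) (XT.lf (nat_lit 0) (nat_lit 12544169395) (nat_lit 532) (nat_lit 1713968413) (nat_lit 76) (nat_lit 1293922538) (nat_lit 111) (nat_lit 5) (nat_lit 118) (nat_lit 5) (nat_lit 112) (nat_lit 5) (nat_lit 316) (nat_lit 290) (nat_lit 174))))) (XT.nd (nat_lit 234) (nat_lit 456) (nat_lit 0) (XT.nd (nat_lit 78) (nat_lit 532) (nat_lit 0) (XT.lf (nat_lit 0) (nat_lit 4981807106) (nat_lit 532) (nat_lit 9275866371) (nat_lit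 608) (nat_lit 1568537382) (nat_lit 104) (nat_lit 5) (nat_lit 111) (nat_lit 5) (nat_lit 112) (nat_lit 5) (nat_lit 317) (nat_lit 290) (nat_lit 173)) (XT.nd (nat_lit 78) (nat_lit 532) (nat_lit 0) (XT.lf (nat_lit 0) (nat_lit 11902630453) (nat_lit 532) (nat_lit 4126186367) (nat_lit 608) (nat_lit 79613757) (nat_lit 104) (nat_lit 5) (nat_lit 111) (nat_lit 5) (nat_lit 112) (nat_lit 5) (nat_lit 318) (nat_lit 290) (nat_lit 172)) (XT.lf (nat_lit 0) (nat_lit 1451992285) (nat_lit 532) (nat_lit 13751018294) (nat_lit 76) (nat_lit 1194925293) (nat_lit 97) (nat_lit 5) (nat_lit 104) (nat_lit 5) (nat_lit 98) (nat_lit 5) (nat_lit 319) (nat_lit 290) (nat_lit 171)))) (XT.nd (nat_lit 78) (nat_lit 456) (nat_lit 0) (XT.lf (nat_lit 0) (nat_lit 3101015291) (nat_lit 532) (nat_lit 6956611653) (nat_lit 76) (nat_lit 6636312686) (nat_lit 97) (nat_lit 5) (nat_lit 104) (nat_lit 5) (nat_lit 98) (nat_lit 5) (nat_lit 320) (nat_lit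 290) (nat_lit 170)) (XT.nd (nat_lit 78) (nat_lit 0) (nat_lit 0) (XT.lf (nat_lit 0) (nat_lit 31435809) (nat_lit 456) (nat_lit 4758011063) (nat_lit 532) (nat_lit 12209706668) (nat_lit 91) (nat_lit 5) (nat_lit 97) (nat_lit 5) (nat_lit 98) (nat_lit 5) (nat_lit 321) (nat_lit 290) (nat_lit 169)) (XT.lf (nat_lit 0) (nat_lit 6596039201) (nat_lit 532) (nat_lit 9958144124) (nat_lit 76) (nat_lit 757342664) (nat_lit 91) (nat_lit 5) (nat_lit 98) (nat_lit 5) (nat_lit 92) (nat_lit 5) (nat_lit 322) (nat_lit 290) (nat_lit 168)))))) (XT.nd (nat_lit 468) (nat_lit 1064) (nat_lit 0) (XT.nd (nat_lit 234) (nat_lit 456) (nat_lit 0) (XT.nd (nat_lit 78) (nat_lit 380) (nat_lit 0) (XT.lf (nat_lit 0) (nat_lit 8494064150) (nat_lit 532) (nat_lit 2796097240) (nat_lit 76) (nat_lit 6342017736) (nat_lit 91) (nat_lit 5) (nat_lit 98) (nat_lit 5) (nat_lit 92) (nat_lit 5) (nat_lit 323) (nat_lit 290) (nat_lit 167)) (XT.nd (nat_lit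 78) (nat_lit 0) (nat_lit 0) (XT.lf (nat_lit 0) (nat_lit 4661378213) (nat_lit 380) (nat_lit 5822873079) (nat_lit 456) (nat_lit 7477169706) (nat_lit 86) (nat_lit 5) (nat_lit 91) (nat_lit 5) (nat_lit 92) (nat_lit 5) (nat_lit 324) (nat_lit 290) (nat_lit 166)) (XT.lf (nat_lit 0) (nat_lit 12389603958) (nat_lit 380) (nat_lit 163368911) (nat_lit 456) (nat_lit 5747027425) (nat_lit 86) (nat_lit 5) (nat_lit 91) (nat_lit 5) (nat_lit 92) (nat_lit 5) (nat_lit 325) (nat_lit 290) (nat_lit 165)))) (XT.nd (nat_lit 78) (nat_lit 76) (nat_lit 0) (XT.lf (nat_lit 0) (nat_lit 1668757180) (nat_lit 380) (nat_lit 13076363754) (nat_lit 456) (nat_lit 3901799395) (nat_lit 81) (nat_lit 5) (nat_lit 86) (nat_lit 5) (nat_lit 87) (nat_lit 5) (nat_lit 326) (nat_lit 290) (nat_lit 164)) (XT.nd (nat_lit 78) (nat_lit 76) (nat_lit 0) (XT.lf (nat_lit 0) (nat_lit 9584612233) (nat_lit 380) (nat_lit 7470734078) (nat_lit 456) (nat_lit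 1947355867) (nat_lit 81) (nat_lit 5) (nat_lit 86) (nat_lit 5) (nat_lit 87) (nat_lit 5) (nat_lit 327) (nat_lit 290) (nat_lit 163)) (XT.lf (nat_lit 0) (nat_lit 55618930) (nat_lit 456) (nat_lit 1641928234) (nat_lit 76) (nat_lit 17671878194) (nat_lit 80) (nat_lit 5) (nat_lit 86) (nat_lit 5) (nat_lit 81) (nat_lit 5) (nat_lit 328) (nat_lit 290) (nat_lit 162))))) (XT.nd (nat_lit 234) (nat_lit 304) (nat_lit 0) (XT.nd (nat_lit 78) (nat_lit 380) (nat_lit 0) (XT.lf (nat_lit 0) (nat_lit 2174758791) (nat_lit 456) (nat_lit 13322025969) (nat_lit 76) (nat_lit 4246952174) (nat_lit 75) (nat_lit 5) (nat_lit 81) (nat_lit 5) (nat_lit 76) (nat_lit 5) (nat_lit 329) (nat_lit 290) (nat_lit 161)) (XT.nd (nat_lit 78) (nat_lit 380) (nat_lit 0) (XT.lf (nat_lit 0) (nat_lit 4382605829) (nat_lit 456) (nat_lit 5394787875) (nat_lit 76) (nat_lit 10351151129) (nat_lit 75) (nat_lit 5) (nat_lit 81) (nat_lit 5) (nat_lit 76) (nat_lit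 5) (nat_lit 330) (nat_lit 290) (nat_lit 160)) (XT.lf (nat_lit 0) (nat_lit 2815545567) (nat_lit 380) (nat_lit 3860033834) (nat_lit 456) (nat_lit 13848771190) (nat_lit 70) (nat_lit 5) (nat_lit 75) (nat_lit 5) (nat_lit 76) (nat_lit 5) (nat_lit 331) (nat_lit 290) (nat_lit 159)))) (XT.nd (nat_lit 78) (nat_lit 304) (nat_lit 0) (XT.lf (nat_lit 0) (nat_lit 9105798702) (nat_lit 456) (nat_lit 9579455699) (nat_lit 76) (nat_lit 2244742187) (nat_lit 70) (nat_lit 5) (nat_lit 76) (nat_lit 5) (nat_lit 71) (nat_lit 5) (nat_lit 332) (nat_lit 290) (nat_lit 158)) (XT.nd (nat_lit 78) (nat_lit 304) (nat_lit 0) (XT.lf (nat_lit 0) (nat_lit 11639334634) (nat_lit 456) (nat_lit 1253972466) (nat_lit 76) (nat_lit 8453611750) (nat_lit 70) (nat_lit 5) (nat_lit 76) (nat_lit 5) (nat_lit 71) (nat_lit 5) (nat_lit 333) (nat_lit 290) (nat_lit 157)) (XT.lf (nat_lit 0) (nat_lit 7457547997) (nat_lit 304) (nat_lit 6855434475) (nat_lit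 380) (nat_lit 7461461759) (nat_lit 66) (nat_lit 5) (nat_lit 70) (nat_lit 5) (nat_lit 71) (nat_lit 5) (nat_lit 334) (nat_lit 290) (nat_lit 156))))))))
noncomputable def xc192 : XT := (XT.nd (nat_lit 1716) (nat_lit 1216) (nat_lit 0) (XT.nd (nat_lit 858) (nat_lit 1140) (nat_lit 0) (XT.nd (nat_lit 390) (nat_lit 532) (nat_lit 0) (XT.nd (nat_lit 156) (nat_lit 380) (nat_lit 0) (XT.nd (nat_lit 78) (nat_lit 304) (nat_lit 0) (XT.lf (nat_lit 0) (nat_lit 16446959087) (nat_lit 304) (nat_lit 625095381) (nat_lit 380) (nat_lit 5142602550) (nat_lit 66) (nat_lit 5) (nat_lit 70) (nat_lit 5) (nat_lit 71) (nat_lit 5) (nat_lit 335) (nat_lit 290) (nat_lit 155)) (XT.lf (nat_lit 0) (nat_lit 3032358937) (nat_lit 304) (nat_lit 16959119313) (nat_lit 380) (nat_lit 2674288109) (nat_lit 62) (nat_lit 5) (nat_lit 66) (nat_lit 5) (nat_lit 67) (nat_lit 5) (nat_lit 336) (nat_lit 290) (nat_lit 154))) (XT.nd (nat_lit 78) (nat_lit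 380) (nat_lit 0) (XT.lf (nat_lit 0) (nat_lit 12199314860) (nat_lit 304) (nat_lit 10856418067) (nat_lit 380) (nat_lit 72975653) (nat_lit 62) (nat_lit 5) (nat_lit 66) (nat_lit 5) (nat_lit 67) (nat_lit 5) (nat_lit 337) (nat_lit 290) (nat_lit 153)) (XT.nd (nat_lit 78) (nat_lit 304) (nat_lit 0) (XT.lf (nat_lit 0) (nat_lit 2548516506) (nat_lit 380) (nat_lit 1998228846) (nat_lit 76) (nat_lit 19058268160) (nat_lit 61) (nat_lit 5) (nat_lit 66) (nat_lit 5) (nat_lit 62) (nat_lit 5) (nat_lit 338) (nat_lit 290) (nat_lit 152)) (XT.lf (nat_lit 0) (nat_lit 5330348779) (nat_lit 380) (nat_lit 16778525743) (nat_lit 76) (nat_lit 1984232130) (nat_lit 57) (nat_lit 5) (nat_lit 62) (nat_lit 5) (nat_lit 58) (nat_lit 5) (nat_lit 339) (nat_lit 290) (nat_lit 151))))) (XT.nd (nat_lit 234) (nat_lit 228) (nat_lit 0) (XT.nd (nat_lit 78) (nat_lit 304) (nat_lit 0) (XT.lf (nat_lit 0) (nat_lit 8254332662) (nat_lit 380) (nat_lit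 7701485637) (nat_lit 76) (nat_lit 8638278535) (nat_lit 57) (nat_lit 5) (nat_lit 62) (nat_lit 5) (nat_lit 58) (nat_lit 5) (nat_lit 340) (nat_lit 290) (nat_lit 150)) (XT.nd (nat_lit 78) (nat_lit 0) (nat_lit 0) (XT.lf (nat_lit 0) (nat_lit 1671979367) (nat_lit 304) (nat_lit 9603625271) (nat_lit 380) (nat_lit 13834239730) (nat_lit 53) (nat_lit 5) (nat_lit 57) (nat_lit 5) (nat_lit 58) (nat_lit 5) (nat_lit 341) (nat_lit 290) (nat_lit 149)) (XT.lf (nat_lit 0) (nat_lit 11476092042) (nat_lit 304) (nat_lit 2982797522) (nat_lit 380) (nat_lit 11180047798) (nat_lit 53) (nat_lit 5) (nat_lit 57) (nat_lit 5) (nat_lit 58) (nat_lit 5) (nat_lit 342) (nat_lit 290) (nat_lit 148)))) (XT.nd (nat_lit 78) (nat_lit 228) (nat_lit 0) (XT.lf (nat_lit 0) (nat_lit 17768325481) (nat_lit 380) (nat_lit 4654820143) (nat_lit 76) (nat_lit 3759851810) (nat_lit 53) (nat_lit 5) (nat_lit 58) (nat_lit 5) (nat_lit 54) (nat_lit 5) (nat_lit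 343) (nat_lit 290) (nat_lit 147)) (XT.nd (nat_lit 78) (nat_lit 0) (nat_lit 0) (XT.lf (nat_lit 0) (nat_lit 5202307719) (nat_lit 228) (nat_lit 16048230728) (nat_lit 304) (nat_lit 5490649497) (nat_lit 50) (nat_lit 5) (nat_lit 53) (nat_lit 5) (nat_lit 54) (nat_lit 5) (nat_lit 344) (nat_lit 290) (nat_lit 146)) (XT.lf (nat_lit 0) (nat_lit 15442527104) (nat_lit 228) (nat_lit 9435747626) (nat_lit 304) (nat_lit 2436630798) (nat_lit 50) (nat_lit 5) (nat_lit 53) (nat_lit 5) (nat_lit 54) (nat_lit 5) (nat_lit 345) (nat_lit 290) (nat_lit 145)))))) (XT.nd (nat_lit 390) (nat_lit 532) (nat_lit 0) (XT.nd (nat_lit 156) (nat_lit 228) (nat_lit 0) (XT.nd (nat_lit 78) (nat_lit 304) (nat_lit 0) (XT.lf (nat_lit 0) (nat_lit 689329145) (nat_lit 304) (nat_lit 1930632957) (nat_lit 76) (nat_lit 25285855709) (nat_lit 49) (nat_lit 5) (nat_lit 53) (nat_lit 5) (nat_lit 50) (nat_lit 5) (nat_lit 346) (nat_lit 290) (nat_lit 144))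 (XT.lf (nat_lit 0) (nat_lit 3978893704) (nat_lit 380) (nat_lit 20112528315) (nat_lit 76) (nat_lit 4418759659) (nat_lit 45) (nat_lit 5) (nat_lit 50) (nat_lit 5) (nat_lit 46) (nat_lit 5) (nat_lit 347) (nat_lit 290) (nat_lit 143))) (XT.nd (nat_lit 78) (nat_lit 228) (nat_lit 0) (XT.lf (nat_lit 0) (nat_lit 7407172496) (nat_lit 380) (nat_lit 10090649147) (nat_lit 76) (nat_lit 11633665606) (nat_lit 45) (nat_lit 5) (nat_lit 50) (nat_lit 5) (nat_lit 46) (nat_lit 5) (nat_lit 348) (nat_lit 290) (nat_lit 142)) (XT.nd (nat_lit 78) (nat_lit 0) (nat_lit 0) (XT.lf (nat_lit 0) (nat_lit 228789082) (nat_lit 228) (nat_lit 10706271427) (nat_lit 304) (nat_lit 18836479924) (nat_lit 42) (nat_lit 5) (nat_lit 45) (nat_lit 5) (nat_lit 46) (nat_lit 5) (nat_lit 349) (nat_lit 290) (nat_lit 141)) (XT.lf (nat_lit 0) (nat_lit 11057171196) (nat_lit 228) (nat_lit 3608157757) (nat_lit 304) (nat_lit 15762580886) (nat_lit 42) (nat_lit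 5) (nat_lit 45) (nat_lit 5) (nat_lit 46) (nat_lit 5) (nat_lit 350) (nat_lit 290) (nat_lit 140))))) (XT.nd (nat_lit 234) (nat_lit 304) (nat_lit 0) (XT.nd (nat_lit 78) (nat_lit 228) (nat_lit 0) (XT.lf (nat_lit 0) (nat_lit 18537883957) (nat_lit 304) (nat_lit 8936576251) (nat_lit 76) (nat_lit 3628609387) (nat_lit 42) (nat_lit 5) (nat_lit 46) (nat_lit 5) (nat_lit 43) (nat_lit 5) (nat_lit 351) (nat_lit 290) (nat_lit 139)) (XT.nd (nat_lit 78) (nat_lit 0) (nat_lit 0) (XT.lf (nat_lit 0) (nat_lit 1802866946) (nat_lit 228) (nat_lit 20771739153) (nat_lit 304) (nat_lit 9222448645) (nat_lit 39) (nat_lit 5) (nat_lit 42) (nat_lit 5) (nat_lit 43) (nat_lit 5) (nat_lit 352) (nat_lit 290) (nat_lit 138)) (XT.lf (nat_lit 0) (nat_lit 13040554923) (nat_lit 228) (nat_lit 13777131739) (nat_lit 304) (nat_lit 5691625096) (nat_lit 39) (nat_lit 5) (nat_lit 42) (nat_lit 5) (nat_lit 43) (nat_lit 5) (nat_lit 353) (nat_lit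 290) (nat_lit 137)))) (XT.nd (nat_lit 78) (nat_lit 304) (nat_lit 0) (XT.lf (nat_lit 0) (nat_lit 24608451628) (nat_lit 228) (nat_lit 6574768072) (nat_lit 304) (nat_lit 2059871702) (nat_lit 39) (nat_lit 5) (nat_lit 42) (nat_lit 5) (nat_lit 43) (nat_lit 5) (nat_lit 354) (nat_lit 290) (nat_lit 136)) (XT.nd (nat_lit 78) (nat_lit 0) (nat_lit 0) (XT.lf (nat_lit 0) (nat_lit 1676297849) (nat_lit 304) (nat_lit 31455003885) (nat_lit 76) (nat_lit 866259268) (nat_lit 35) (nat_lit 5) (nat_lit 39) (nat_lit 5) (nat_lit 36) (nat_lit 5) (nat_lit 355) (nat_lit 290) (nat_lit 135)) (XT.lf (nat_lit 0) (nat_lit 5631602872) (nat_lit 304) (nat_lit 20633218684) (nat_lit 76) (nat_lit 8504786634) (nat_lit 35) (nat_lit 5) (nat_lit 39) (nat_lit 5) (nat_lit 36) (nat_lit 5) (nat_lit 356) (nat_lit 290) (nat_lit 134))))))) (XT.nd (nat_lit 858) (nat_lit 532) (nat_lit 0) (XT.nd (nat_lit 390) (nat_lit 304) (nat_lit 0) (XT.nd (nat_lit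 156) (nat_lit 152) (nat_lit 0) (XT.nd (nat_lit 78) (nat_lit 228) (nat_lit 0) (XT.lf (nat_lit 0) (nat_lit 9701002799) (nat_lit 304) (nat_lit 9493465918) (nat_lit 76) (nat_lit 16370493642) (nat_lit 35) (nat_lit 5) (nat_lit 39) (nat_lit 5) (nat_lit 36) (nat_lit 5) (nat_lit 357) (nat_lit 290) (nat_lit 133)) (XT.lf (nat_lit 0) (nat_lit 2013274413) (nat_lit 228) (nat_lit 11894131828) (nat_lit 304) (nat_lit 22476331653) (nat_lit 32) (nat_lit 5) (nat_lit 35) (nat_lit 5) (nat_lit 36) (nat_lit 5) (nat_lit 358) (nat_lit 290) (nat_lit 132))) (XT.nd (nat_lit 78) (nat_lit 152) (nat_lit 0) (XT.lf (nat_lit 0) (nat_lit 14053396086) (nat_lit 228) (nat_lit 4278107067) (nat_lit 304) (nat_lit 18892836643) (nat_lit 32) (nat_lit 5) (nat_lit 35) (nat_lit 5) (nat_lit 36) (nat_lit 5) (nat_lit 359) (nat_lit 290) (nat_lit 131)) (XT.nd (nat_lit 78) (nat_lit 152) (nat_lit 0) (XT.lf (nat_lit 0) (nat_lit 22918349197) (nat_lit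 304) (nat_lit 11676076904) (nat_lit 76) (nat_lit 3494840771) (nat_lit 32) (nat_lit 5) (nat_lit 36) (nat_lit 5) (nat_lit 33) (nat_lit 5) (nat_lit 360) (nat_lit 290) (nat_lit 130)) (XT.lf (nat_lit 0) (nat_lit 117398250) (nat_lit 152) (nat_lit 27564756161) (nat_lit 228) (nat_lit 11296814410) (nat_lit 30) (nat_lit 5) (nat_lit 32) (nat_lit 5) (nat_lit 33) (nat_lit 5) (nat_lit 361) (nat_lit 290) (nat_lit 129))))) (XT.nd (nat_lit 234) (nat_lit 228) (nat_lit 0) (XT.nd (nat_lit 78) (nat_lit 76) (nat_lit 0) (XT.lf (nat_lit 0) (nat_lit 12497915265) (nat_lit 152) (nat_lit 20204793406) (nat_lit 228) (nat_lit 7189245562) (nat_lit 30) (nat_lit 5) (nat_lit 32) (nat_lit 5) (nat_lit 33) (nat_lit 5) (nat_lit 362) (nat_lit 290) (nat_lit 128)) (XT.nd (nat_lit 78) (nat_lit 76) (nat_lit 0) (XT.lf (nat_lit 0) (nat_lit 25243915243) (nat_lit 152) (nat_lit 12626012283) (nat_lit 228) (nat_lit 2962527476) (nat_lit 30)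 (nat_lit 5) (nat_lit 32) (nat_lit 5) (nat_lit 33) (nat_lit 5) (nat_lit 363) (nat_lit 290) (nat_lit 127)) (XT.lf (nat_lit 0) (nat_lit 1359967084) (nat_lit 228) (nat_lit 3448090470) (nat_lit 76) (nat_lit 36992835381) (nat_lit 29) (nat_lit 5) (nat_lit 32) (nat_lit 5) (nat_lit 30) (nat_lit 5) (nat_lit 364) (nat_lit 290) (nat_lit 126)))) (XT.nd (nat_lit 78) (nat_lit 0) (nat_lit 0) (XT.lf (nat_lit 0) (nat_lit 5869605924) (nat_lit 304) (nat_lit 33626192054) (nat_lit 76) (nat_lit 3298202289) (nat_lit 26) (nat_lit 5) (nat_lit 30) (nat_lit 5) (nat_lit 27) (nat_lit 5) (nat_lit 365) (nat_lit 290) (nat_lit 125)) (XT.nd (nat_lit 78) (nat_lit 0) (nat_lit 0) (XT.lf (nat_lit 0) (nat_lit 10593570869) (nat_lit 304) (nat_lit 21636656692) (nat_lit 76) (nat_lit 11584308578) (nat_lit 26) (nat_lit 5) (nat_lit 30) (nat_lit 5) (nat_lit 27) (nat_lit 5) (nat_lit 366) (nat_lit 290) (nat_lit 124)) (XT.lf (nat_lit 0) (nat_lit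 15455632156) (nat_lit 304) (nat_lit 9292986239) (nat_lit 76) (nat_lit 20117184609) (nat_lit 26) (nat_lit 5) (nat_lit 30) (nat_lit 5) (nat_lit 27) (nat_lit 5) (nat_lit 367) (nat_lit 290) (nat_lit 123)))))) (XT.nd (nat_lit 390) (nat_lit 228) (nat_lit 0) (XT.nd (nat_lit 156) (nat_lit 152) (nat_lit 0) (XT.nd (nat_lit 78) (nat_lit 0) (nat_lit 0) (XT.lf (nat_lit 0) (nat_lit 3483582271) (nat_lit 152) (nat_lit 17009942240) (nat_lit 228) (nat_lit 25454190347) (nat_lit 24) (nat_lit 5) (nat_lit 26) (nat_lit 5) (nat_lit 27) (nat_lit 5) (nat_lit 368) (nat_lit 290) (nat_lit 122)) (XT.lf (nat_lit 0) (nat_lit 16828608489) (nat_lit 152) (nat_lit 8944320137) (nat_lit 228) (nat_lit 21286450073) (nat_lit 24) (nat_lit 5) (nat_lit 26) (nat_lit 5) (nat_lit 27) (nat_lit 5) (nat_lit 369) (nat_lit 290) (nat_lit 121))) (XT.nd (nat_lit 78) (nat_lit 152) (nat_lit 0) (XT.lf (nat_lit 0) (nat_lit 30568804467) (nat_lit 152)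 (nat_lit 638545394) (nat_lit 228) (nat_lit 16997149254) (nat_lit 24) (nat_lit 5) (nat_lit 26) (nat_lit 5) (nat_lit 27) (nat_lit 5) (nat_lit 370) (nat_lit 290) (nat_lit 120)) (XT.nd (nat_lit 78) (nat_lit 152) (nat_lit 0) (XT.lf (nat_lit 0) (nat_lit 36877617100) (nat_lit 228) (nat_lit 4743980851) (nat_lit 76) (nat_lit 7760196337) (nat_lit 24) (nat_lit 5) (nat_lit 27) (nat_lit 5) (nat_lit 25) (nat_lit 5) (nat_lit 371) (nat_lit 290) (nat_lit 119)) (XT.lf (nat_lit 0) (nat_lit 8692822713) (nat_lit 152) (nat_lit 34111864311) (nat_lit 228) (nat_lit 7787125833) (nat_lit 22) (nat_lit 5) (nat_lit 24) (nat_lit 5) (nat_lit 25) (nat_lit 5) (nat_lit 372) (nat_lit 290) (nat_lit 118))))) (XT.nd (nat_lit 234) (nat_lit 152) (nat_lit 0) (XT.nd (nat_lit 78) (nat_lit 76) (nat_lit 0) (XT.lf (nat_lit 0) (nat_lit 22625058348) (nat_lit 152) (nat_lit 26329272891) (nat_lit 228) (nat_lit 2882463105) (nat_lit 22) (nat_lit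 5) (nat_lit 24) (nat_lit 5) (nat_lit 25) (nat_lit 5) (nat_lit 373) (nat_lit 290) (nat_lit 117)) (XT.nd (nat_lit 78) (nat_lit 0) (nat_lit 0) (XT.lf (nat_lit 0) (nat_lit 2123921514) (nat_lit 228) (nat_lit 16169559316) (nat_lit 76) (nat_lit 34825116373) (nat_lit 21) (nat_lit 5) (nat_lit 24) (nat_lit 5) (nat_lit 22) (nat_lit 5) (nat_lit 374) (nat_lit 290) (nat_lit 116)) (XT.lf (nat_lit 0) (nat_lit 7219566550) (nat_lit 228) (nat_lit 2769357614) (nat_lit 76) (nat_lit 44449168481) (nat_lit 21) (nat_lit 5) (nat_lit 24) (nat_lit 5) (nat_lit 22) (nat_lit 5) (nat_lit 375) (nat_lit 290) (nat_lit 115)))) (XT.nd (nat_lit 78) (nat_lit 0) (nat_lit 0) (XT.lf (nat_lit 0) (nat_lit 11247770536) (nat_lit 152) (nat_lit 1325521660) (nat_lit 228) (nat_lit 43220729060) (nat_lit 19) (nat_lit 5) (nat_lit 21) (nat_lit 5) (nat_lit 22) (nat_lit 5) (nat_lit 376) (nat_lit 290) (nat_lit 114)) (XT.nd (nat_lit 78) (nat_lit 0)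 (nat_lit 0) (XT.lf (nat_lit 0) (nat_lit 18186022338) (nat_lit 228) (nat_lit 31525512587) (nat_lit 76) (nat_lit 7476145527) (nat_lit 19) (nat_lit 5) (nat_lit 22) (nat_lit 5) (nat_lit 20) (nat_lit 5) (nat_lit 377) (nat_lit 290) (nat_lit 113)) (XT.lf (nat_lit 0) (nat_lit 23977458578) (nat_lit 228) (nat_lit 18131736521) (nat_lit 76) (nat_lit 16513648977) (nat_lit 19) (nat_lit 5) (nat_lit 22) (nat_lit 5) (nat_lit 20) (nat_lit 5) (nat_lit 378) (nat_lit 290) (nat_lit 112))))))))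
noncomputable def xc193 : XT := (XT.nd (nat_lit 34944) (nat_lit 0) (nat_lit 5016) (XT.nd (nat_lit 34086) (nat_lit 0) (nat_lit 10032) (XT.nd (nat_lit 390) (nat_lit 152) (nat_lit 0) (XT.nd (nat_lit 156) (nat_lit 0) (nat_lit 0) (XT.nd (nat_lit 78) (nat_lit 152) (nat_lit 0) (XT.lf (nat_lit 0) (nat_lit 29939919669) (nat_lit 228) (nat_lit 4340477496) (nat_lit 76) (nat_lit 25820751238) (nat_lit 19) (nat_lit 5) (nat_lit 22) (nat_lit 5) (nat_lit 20) (nat_lit 5) (nat_lit 379) (nat_lit 290) (nat_lit 111)) (XT.lf (nat_lit 0) (nat_lit 10056554704) (nat_lit 152) (nat_lit 26118730581) (nat_lit 228) (nat_lit 25445699781) (nat_lit 17) (nat_lit 5) (nat_lit 19) (nat_lit 5) (nat_lit 20) (nat_lit 5) (nat_lit 380) (nat_lit 290) (nat_lit 110))) (XT.nd (nat_lit 78) (nat_lit 0) (nat_lit 0) (XT.lf (nat_lit 0) (nat_lit 24970310423) (nat_lit 152) (nat_lit 17668629543) (nat_lit 228) (nat_lit 20546244023) (nat_lit 17) (nat_lit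 5) (nat_lit 19) (nat_lit 5) (nat_lit 20) (nat_lit 5) (nat_lit 381) (nat_lit 290) (nat_lit 109)) (XT.nd (nat_lit 78) (nat_lit 0) (nat_lit 0) (XT.lf (nat_lit 0) (nat_lit 40327437085) (nat_lit 152) (nat_lit 8966540781) (nat_lit 228) (nat_lit 15502410696) (nat_lit 17) (nat_lit 5) (nat_lit 19) (nat_lit 5) (nat_lit 20) (nat_lit 5) (nat_lit 382) (nat_lit 290) (nat_lit 108)) (XT.lf (nat_lit 0) (nat_lit 56141353538) (nat_lit 152) (nat_lit 4860528) (nat_lit 228) (nat_lit 10309792567) (nat_lit 17) (nat_lit 5) (nat_lit 19) (nat_lit 5) (nat_lit 20) (nat_lit 5) (nat_lit 383) (nat_lit 290) (nat_lit 107))))) (XT.nd (nat_lit 33462) (nat_lit 0) (nat_lit 9956) (XT.nd (nat_lit 78) (nat_lit 76) (nat_lit 0) (XT.lf (nat_lit 0) (nat_lit 4254745773) (nat_lit 76) (nat_lit 59076458459) (nat_lit 152) (nat_lit 4830397073) (nat_lit 16) (nat_lit 5) (nat_lit 17) (nat_lit 5) (nat_lit 18) (nat_lit 4) (nat_lit 384) (nat_lit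 290) (nat_lit 106)) (XT.nd (nat_lit 33306) (nat_lit 0) (nat_lit 9956) (XT.lf (nat_lit 0) (nat_lit 900356377) (nat_lit 152) (nat_lit 50455354443) (nat_lit 76) (nat_lit 18559336448) (nat_lit 15) (nat_lit 5) (nat_lit 17) (nat_lit 5) (nat_lit 16) (nat_lit 5) (nat_lit 385) (nat_lit 290) (nat_lit 105)) (XT.lf (nat_lit 0) (nat_lit 120257030) (nat_lit 0) (nat_lit 120257030) (nat_lit 988) (nat_lit 5118736978) (nat_lit 146) (nat_lit 5) (nat_lit 146) (nat_lit 3) (nat_lit 159) (nat_lit 3) (nat_lit 291) (nat_lit 291) (nat_lit 198)))) (XT.nd (nat_lit 78) (nat_lit 0) (nat_lit 0) (XT.lf (nat_lit 0) (nat_lit 1061956617) (nat_lit 988) (nat_lit 6223098481) (nat_lit 1064) (nat_lit 3575311776) (nat_lit 146) (nat_lit 5) (nat_lit 159) (nat_lit 3) (nat_lit 160) (nat_lit 5) (nat_lit 292) (nat_lit 291) (nat_lit 197)) (XT.nd (nat_lit 78) (nat_lit 0) (nat_lit 76) (XT.lf (nat_lit 0) (nat_lit 1641772903) (nat_lit 988) (nat_lit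 1854252914) (nat_lit 1064) (nat_lit 7511084398) (nat_lit 146) (nat_lit 5) (nat_lit 159) (nat_lit 3) (nat_lit 160) (nat_lit 5) (nat_lit 293) (nat_lit 291) (nat_lit 196)) (XT.lf (nat_lit 0) (nat_lit 2248756476) (nat_lit 988) (nat_lit 8475296079) (nat_lit 1064) (nat_lit 433974581) (nat_lit 147) (nat_lit 5) (nat_lit 160) (nat_lit 5) (nat_lit 161) (nat_lit 5) (nat_lit 294) (nat_lit 291) (nat_lit 195)))))) (XT.nd (nat_lit 390) (nat_lit 0) (nat_lit 152) (XT.nd (nat_lit 156) (nat_lit 0) (nat_lit 76) (XT.nd (nat_lit 78) (nat_lit 0) (nat_lit 0) (XT.lf (nat_lit 0) (nat_lit 2907734509) (nat_lit 988) (nat_lit 3965490104) (nat_lit 1064) (nat_lit 4439295990) (nat_lit 147) (nat_lit 5) (nat_lit 160) (nat_lit 5) (nat_lit 161) (nat_lit 5) (nat_lit 295) (nat_lit 291) (nat_lit 194)) (XT.lf (nat_lit 76) (nat_lit 681633823) (nat_lit 0) (nat_lit 2892236389) (nat_lit 1064) (nat_lit 7898217777) (nat_lit 148) (nat_lit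 5) (nat_lit 147) (nat_lit 5) (nat_lit 161) (nat_lit 5) (nat_lit 296) (nat_lit 291) (nat_lit 193))) (XT.nd (nat_lit 78) (nat_lit 0) (nat_lit 0) (XT.lf (nat_lit 0) (nat_lit 4293403331) (nat_lit 988) (nat_lit 6109650931) (nat_lit 1064) (nat_lit 1232444728) (nat_lit 148) (nat_lit 5) (nat_lit 161) (nat_lit 5) (nat_lit 162) (nat_lit 5) (nat_lit 297) (nat_lit 291) (nat_lit 192)) (XT.nd (nat_lit 78) (nat_lit 0) (nat_lit 0) (XT.lf (nat_lit 0) (nat_lit 5045060795) (nat_lit 988) (nat_lit 1328573896) (nat_lit 1064) (nat_lit 5429918757) (nat_lit 148) (nat_lit 5) (nat_lit 161) (nat_lit 5) (nat_lit 162) (nat_lit 5) (nat_lit 298) (nat_lit 291) (nat_lit 191)) (XT.lf (nat_lit 76) (nat_lit 3656100208) (nat_lit 0) (nat_lit 2180741911) (nat_lit 1064) (nat_lit 6139335804) (nat_lit 149) (nat_lit 5) (nat_lit 148) (nat_lit 5) (nat_lit 162) (nat_lit 5) (nat_lit 299) (nat_lit 291) (nat_lit 190))))) (XT.nd (nat_lit 234)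 (nat_lit 0) (nat_lit 76) (XT.nd (nat_lit 78) (nat_lit 0) (nat_lit 0) (XT.lf (nat_lit 0) (nat_lit 6669370289) (nat_lit 988) (nat_lit 3368410519) (nat_lit 1064) (nat_lit 2115744509) (nat_lit 149) (nat_lit 5) (nat_lit 162) (nat_lit 5) (nat_lit 163) (nat_lit 5) (nat_lit 300) (nat_lit 291) (nat_lit 189)) (XT.nd (nat_lit 78) (nat_lit 0) (nat_lit 0) (XT.lf (nat_lit 76) (nat_lit 1732669630) (nat_lit 0) (nat_lit 5815843328) (nat_lit 1064) (nat_lit 4787083432) (nat_lit 150) (nat_lit 5) (nat_lit 149) (nat_lit 5) (nat_lit 163) (nat_lit 5) (nat_lit 301) (nat_lit 291) (nat_lit 188)) (XT.lf (nat_lit 76) (nat_lit 7044586449) (nat_lit 0) (nat_lit 1427225113) (nat_lit 1064) (nat_lit 4050835472) (nat_lit 150) (nat_lit 5) (nat_lit 149) (nat_lit 5) (nat_lit 163) (nat_lit 5) (nat_lit 302) (nat_lit 291) (nat_lit 187)))) (XT.nd (nat_lit 78) (nat_lit 0) (nat_lit 0) (XT.lf (nat_lit 0) (nat_lit 9436828091) (nat_lit 988)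 (nat_lit 240666811) (nat_lit 1064) (nat_lit 3037443134) (nat_lit 150) (nat_lit 5) (nat_lit 163) (nat_lit 5) (nat_lit 164) (nat_lit 5) (nat_lit 303) (nat_lit 291) (nat_lit 186)) (XT.nd (nat_lit 78) (nat_lit 0) (nat_lit 0) (XT.lf (nat_lit 76) (nat_lit 5230634825) (nat_lit 0) (nat_lit 5249315624) (nat_lit 1064) (nat_lit 2431620626) (nat_lit 151) (nat_lit 5) (nat_lit 150) (nat_lit 5) (nat_lit 164) (nat_lit 5) (nat_lit 304) (nat_lit 291) (nat_lit 185)) (XT.lf (nat_lit 76) (nat_lit 10859966737) (nat_lit 0) (nat_lit 681912530) (nat_lit 1064) (nat_lit 1572645025) (nat_lit 151) (nat_lit 5) (nat_lit 150) (nat_lit 5) (nat_lit 164) (nat_lit 5) (nat_lit 305) (nat_lit 291) (nat_lit 184))))))) (XT.nd (nat_lit 858) (nat_lit 2280) (nat_lit 0) (XT.nd (nat_lit 390) (nat_lit 1976) (nat_lit 0) (XT.nd (nat_lit 156) (nat_lit 0) (nat_lit 76) (XT.nd (nat_lit 78) (nat_lit 1064) (nat_lit 0) (XT.lf (nat_lit 76) (nat_lit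 3350081341) (nat_lit 0) (nat_lit 9342007675) (nat_lit 1064) (nat_lit 629829613) (nat_lit 152) (nat_lit 5) (nat_lit 151) (nat_lit 5) (nat_lit 165) (nat_lit 5) (nat_lit 306) (nat_lit 291) (nat_lit 183)) (XT.lf (nat_lit 0) (nat_lit 350038520) (nat_lit 1064) (nat_lit 4387487524) (nat_lit 1140) (nat_lit 8797490124) (nat_lit 137) (nat_lit 5) (nat_lit 151) (nat_lit 5) (nat_lit 152) (nat_lit 5) (nat_lit 307) (nat_lit 291) (nat_lit 182))) (XT.nd (nat_lit 78) (nat_lit 0) (nat_lit 0) (XT.lf (nat_lit 0) (nat_lit 1346219133) (nat_lit 1064) (nat_lit 12380804616) (nat_lit 76) (nat_lit 27349924) (nat_lit 138) (nat_lit 5) (nat_lit 152) (nat_lit 5) (nat_lit 139) (nat_lit 5) (nat_lit 308) (nat_lit 291) (nat_lit 181)) (XT.nd (nat_lit 78) (nat_lit 0) (nat_lit 0) (XT.lf (nat_lit 0) (nat_lit 2450359920) (nat_lit 1064) (nat_lit 6640415344) (nat_lit 76) (nat_lit 4887234567) (nat_lit 138) (nat_lit 5) (nat_lit 152) (nat_lit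 5) (nat_lit 139) (nat_lit 5) (nat_lit 309) (nat_lit 291) (nat_lit 180)) (XT.lf (nat_lit 0) (nat_lit 3574445195) (nat_lit 1064) (nat_lit 738964163) (nat_lit 76) (nat_lit 9895380111) (nat_lit 138) (nat_lit 5) (nat_lit 152) (nat_lit 5) (nat_lit 139) (nat_lit 5) (nat_lit 310) (nat_lit 291) (nat_lit 179))))) (XT.nd (nat_lit 234) (nat_lit 456) (nat_lit 0) (XT.nd (nat_lit 78) (nat_lit 532) (nat_lit 0) (XT.lf (nat_lit 0) (nat_lit 4778073098) (nat_lit 1140) (nat_lit 9016963467) (nat_lit 76) (nat_lit 650119195) (nat_lit 124) (nat_lit 5) (nat_lit 139) (nat_lit 5) (nat_lit 125) (nat_lit 5) (nat_lit 311) (nat_lit 291) (nat_lit 178)) (XT.nd (nat_lit 78) (nat_lit 532) (nat_lit 0) (XT.lf (nat_lit 0) (nat_lit 6055544004) (nat_lit 1140) (nat_lit 2946807410) (nat_lit 76) (nat_lit 5685166364) (nat_lit 124) (nat_lit 5) (nat_lit 139) (nat_lit 5) (nat_lit 125) (nat_lit 5) (nat_lit 312) (nat_lit 291) (nat_lit 177))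 (XT.lf (nat_lit 0) (nat_lit 3360198820) (nat_lit 532) (nat_lit 4031296011) (nat_lit 608) (nat_lit 7545086845) (nat_lit 117) (nat_lit 5) (nat_lit 124) (nat_lit 5) (nat_lit 125) (nat_lit 5) (nat_lit 313) (nat_lit 291) (nat_lit 176)))) (XT.nd (nat_lit 78) (nat_lit 456) (nat_lit 0) (XT.lf (nat_lit 0) (nat_lit 8796160376) (nat_lit 608) (nat_lit 5297285332) (nat_lit 76) (nat_lit 1098847350) (nat_lit 117) (nat_lit 5) (nat_lit 125) (nat_lit 5) (nat_lit 118) (nat_lit 5) (nat_lit 314) (nat_lit 291) (nat_lit 175)) (XT.nd (nat_lit 78) (nat_lit 0) (nat_lit 0) (XT.lf (nat_lit 0) (nat_lit 1141754196) (nat_lit 456) (nat_lit 9140564348) (nat_lit 532) (nat_lit 5172210300) (nat_lit 111) (nat_lit 5) (nat_lit 117) (nat_lit 5) (nat_lit 118) (nat_lit 5) (nat_lit 315) (nat_lit 291) (nat_lit 174)) (XT.lf (nat_lit 0) (nat_lit 7871863082) (nat_lit 456) (nat_lit 3983387411) (nat_lit 532) (nat_lit 3868148204) (nat_lit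 111) (nat_lit 5) (nat_lit 117) (nat_lit 5) (nat_lit 118) (nat_lit 5) (nat_lit 316) (nat_lit 291) (nat_lit 173)))))) (XT.nd (nat_lit 390) (nat_lit 1216) (nat_lit 0) (XT.nd (nat_lit 156) (nat_lit 532) (nat_lit 0) (XT.nd (nat_lit 78) (nat_lit 532) (nat_lit 0) (XT.lf (nat_lit 0) (nat_lit 13477172575) (nat_lit 532) (nat_lit 1219976053) (nat_lit 76) (nat_lit 1303163665) (nat_lit 111) (nat_lit 5) (nat_lit 118) (nat_lit 5) (nat_lit 112) (nat_lit 5) (nat_lit 317) (nat_lit 291) (nat_lit 172)) (XT.lf (nat_lit 0) (nat_lit 5671325561) (nat_lit 532) (nat_lit 9559733722) (nat_lit 608) (nat_lit 1052005593) (nat_lit 104) (nat_lit 5) (nat_lit 111) (nat_lit 5) (nat_lit 112) (nat_lit 5) (nat_lit 318) (nat_lit 291) (nat_lit 171))) (XT.nd (nat_lit 78) (nat_lit 456) (nat_lit 0) (XT.lf (nat_lit 0) (nat_lit 456093404) (nat_lit 608) (nat_lit 3794701409) (nat_lit 76) (nat_lit 12323344527) (nat_lit 103) (nat_lit 5) (nat_lit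 111) (nat_lit 5) (nat_lit 104) (nat_lit 5) (nat_lit 319) (nat_lit 291) (nat_lit 170)) (XT.nd (nat_lit 78) (nat_lit 0) (nat_lit 0) (XT.lf (nat_lit 0) (nat_lit 2021578305) (nat_lit 532) (nat_lit 13615165175) (nat_lit 76) (nat_lit 1235919642) (nat_lit 97) (nat_lit 5) (nat_lit 104) (nat_lit 5) (nat_lit 98) (nat_lit 5) (nat_lit 320) (nat_lit 291) (nat_lit 169)) (XT.lf (nat_lit 0) (nat_lit 3704750849) (nat_lit 532) (nat_lit 6632898675) (nat_lit 76) (nat_lit 6840398756) (nat_lit 97) (nat_lit 5) (nat_lit 104) (nat_lit 5) (nat_lit 98) (nat_lit 5) (nat_lit 321) (nat_lit 291) (nat_lit 168))))) (XT.nd (nat_lit 234) (nat_lit 760) (nat_lit 0) (XT.nd (nat_lit 78) (nat_lit 0) (nat_lit 0) (XT.lf (nat_lit 0) (nat_lit 559570493) (nat_lit 456) (nat_lit 4874457668) (nat_lit 532) (nat_lit 12058725102) (nat_lit 91) (nat_lit 5) (nat_lit 97) (nat_lit 5) (nat_lit 98) (nat_lit 5) (nat_lit 322) (nat_lit 291) (nat_lit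 167)) (XT.nd (nat_lit 78) (nat_lit 0) (nat_lit 0) (XT.lf (nat_lit 0) (nat_lit 7280474390) (nat_lit 532) (nat_lit 9729399379) (nat_lit 76) (nat_lit 805092693) (nat_lit 91) (nat_lit 5) (nat_lit 98) (nat_lit 5) (nat_lit 92) (nat_lit 5) (nat_lit 323) (nat_lit 291) (nat_lit 166)) (XT.lf (nat_lit 0) (nat_lit 9221268611) (nat_lit 532) (nat_lit 2367854847) (nat_lit 76) (nat_lit 6556578996) (nat_lit 91) (nat_lit 5) (nat_lit 98) (nat_lit 5) (nat_lit 92) (nat_lit 5) (nat_lit 324) (nat_lit 291) (nat_lit 165)))) (XT.nd (nat_lit 78) (nat_lit 380) (nat_lit 0) (XT.lf (nat_lit 0) (nat_lit 5308324033) (nat_lit 380) (nat_lit 5953953218) (nat_lit 456) (nat_lit 7222847861) (nat_lit 86) (nat_lit 5) (nat_lit 91) (nat_lit 5) (nat_lit 92) (nat_lit 5) (nat_lit 325) (nat_lit 291) (nat_lit 164)) (XT.nd (nat_lit 78) (nat_lit 380) (nat_lit 0) (XT.lf (nat_lit 0) (nat_lit 13253626517) (nat_lit 380) (nat_lit 125934005) (nat_lit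 456) (nat_lit 5454742193) (nat_lit 86) (nat_lit 5) (nat_lit 91) (nat_lit 5) (nat_lit 92) (nat_lit 5) (nat_lit 326) (nat_lit 291) (nat_lit 163)) (XT.lf (nat_lit 0) (nat_lit 2220478052) (nat_lit 380) (nat_lit 13409105576) (nat_lit 456) (nat_lit 3562318288) (nat_lit 81) (nat_lit 5) (nat_lit 86) (nat_lit 5) (nat_lit 87) (nat_lit 5) (nat_lit 327) (nat_lit 291) (nat_lit 162))))))))
noncomputable def xc194 : XT := (XT.nd (nat_lit 1716) (nat_lit 1596) (nat_lit 0) (XT.nd (nat_lit 858) (nat_lit 1216) (nat_lit 0) (XT.nd (nat_lit 390) (nat_lit 684) (nat_lit 0) (XT.nd (nat_lit 156) (nat_lit 760) (nat_lit 0) (XT.nd (nat_lit 78) (nat_lit 76) (nat_lit 0) (XT.lf (nat_lit 0) (nat_lit 10359197354) (nat_lit 380) (nat_lit 7637041449) (nat_lit 456) (nat_lit 1562538592) (nat_lit 81) (nat_lit 5) (nat_lit 86) (nat_lit 5) (nat_lit 87) (nat_lit 5) (nat_lit 328) (nat_lit 291) (nat_lit 161)) (XT.lf (nat_lit 0) (nat_lit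 479218355) (nat_lit 456) (nat_lit 1208863821) (nat_lit 76) (nat_lit 18248703936) (nat_lit 80) (nat_lit 5) (nat_lit 86) (nat_lit 5) (nat_lit 81) (nat_lit 5) (nat_lit 329) (nat_lit 291) (nat_lit 160))) (XT.nd (nat_lit 78) (nat_lit 380) (nat_lit 0) (XT.lf (nat_lit 0) (nat_lit 2654843150) (nat_lit 456) (nat_lit 13231242138) (nat_lit 76) (nat_lit 4436485417) (nat_lit 75) (nat_lit 5) (nat_lit 81) (nat_lit 5) (nat_lit 76) (nat_lit 5) (nat_lit 330) (nat_lit 291) (nat_lit 159)) (XT.nd (nat_lit 78) (nat_lit 380) (nat_lit 0) (XT.lf (nat_lit 0) (nat_lit 4916842835) (nat_lit 456) (nat_lit 5080471695) (nat_lit 76) (nat_lit 10722000884) (nat_lit 75) (nat_lit 5) (nat_lit 81) (nat_lit 5) (nat_lit 76) (nat_lit 5) (nat_lit 331) (nat_lit 291) (nat_lit 158)) (XT.lf (nat_lit 0) (nat_lit 3371503517) (nat_lit 380) (nat_lit 3899903523) (nat_lit 456) (nat_lit 13855833475) (nat_lit 70) (nat_lit 5) (nat_lit 75) (nat_lit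 5) (nat_lit 76) (nat_lit 5) (nat_lit 332) (nat_lit 291) (nat_lit 157))))) (XT.nd (nat_lit 234) (nat_lit 380) (nat_lit 0) (XT.nd (nat_lit 78) (nat_lit 304) (nat_lit 0) (XT.lf (nat_lit 0) (nat_lit 9763720386) (nat_lit 456) (nat_lit 9397322595) (nat_lit 76) (nat_lit 2384365649) (nat_lit 70) (nat_lit 5) (nat_lit 76) (nat_lit 5) (nat_lit 71) (nat_lit 5) (nat_lit 333) (nat_lit 291) (nat_lit 156)) (XT.nd (nat_lit 78) (nat_lit 304) (nat_lit 0) (XT.lf (nat_lit 0) (nat_lit 12362056151) (nat_lit 456) (nat_lit 835750111) (nat_lit 76) (nat_lit 8777396021) (nat_lit 70) (nat_lit 5) (nat_lit 76) (nat_lit 5) (nat_lit 71) (nat_lit 5) (nat_lit 334) (nat_lit 291) (nat_lit 155)) (XT.lf (nat_lit 0) (nat_lit 8132646931) (nat_lit 304) (nat_lit 6976725514) (nat_lit 380) (nat_lit 7306403946) (nat_lit 66) (nat_lit 5) (nat_lit 70) (nat_lit 5) (nat_lit 71) (nat_lit 5) (nat_lit 335) (nat_lit 291) (nat_lit 154)))) (XT.nd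 (nat_lit 78) (nat_lit 380) (nat_lit 0) (XT.lf (nat_lit 0) (nat_lit 17378593582) (nat_lit 304) (nat_lit 561933684) (nat_lit 380) (nat_lit 4929014932) (nat_lit 66) (nat_lit 5) (nat_lit 70) (nat_lit 5) (nat_lit 71) (nat_lit 5) (nat_lit 336) (nat_lit 291) (nat_lit 153)) (XT.nd (nat_lit 78) (nat_lit 76) (nat_lit 0) (XT.lf (nat_lit 0) (nat_lit 3567920656) (nat_lit 304) (nat_lit 17374273269) (nat_lit 380) (nat_lit 2392176288) (nat_lit 62) (nat_lit 5) (nat_lit 66) (nat_lit 5) (nat_lit 67) (nat_lit 5) (nat_lit 337) (nat_lit 291) (nat_lit 152)) (XT.lf (nat_lit 0) (nat_lit 271224044) (nat_lit 380) (nat_lit 10817254896) (nat_lit 76) (nat_lit 12722973130) (nat_lit 61) (nat_lit 5) (nat_lit 66) (nat_lit 5) (nat_lit 62) (nat_lit 5) (nat_lit 338) (nat_lit 291) (nat_lit 151)))))) (XT.nd (nat_lit 390) (nat_lit 608) (nat_lit 0) (XT.nd (nat_lit 156) (nat_lit 304) (nat_lit 0) (XT.nd (nat_lit 78) (nat_lit 304) (nat_lit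 0) (XT.lf (nat_lit 0) (nat_lit 2959847952) (nat_lit 380) (nat_lit 1631672696) (nat_lit 76) (nat_lit 19710828275) (nat_lit 61) (nat_lit 5) (nat_lit 66) (nat_lit 5) (nat_lit 62) (nat_lit 5) (nat_lit 339) (nat_lit 291) (nat_lit 150)) (XT.lf (nat_lit 0) (nat_lit 5820336454) (nat_lit 380) (nat_lit 16849833436) (nat_lit 76) (nat_lit 2135081320) (nat_lit 57) (nat_lit 5) (nat_lit 62) (nat_lit 5) (nat_lit 58) (nat_lit 5) (nat_lit 340) (nat_lit 291) (nat_lit 149))) (XT.nd (nat_lit 78) (nat_lit 304) (nat_lit 0) (XT.lf (nat_lit 0) (nat_lit 8822425954) (nat_lit 380) (nat_lit 7513066052) (nat_lit 76) (nat_lit 8986089246) (nat_lit 57) (nat_lit 5) (nat_lit 62) (nat_lit 5) (nat_lit 58) (nat_lit 5) (nat_lit 341) (nat_lit 291) (nat_lit 148)) (XT.nd (nat_lit 78) (nat_lit 0) (nat_lit 0) (XT.lf (nat_lit 0) (nat_lit 2137490509) (nat_lit 304) (nat_lit 9791504313) (nat_lit 380) (nat_lit 13923987732) (nat_lit 53) (nat_lit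 5) (nat_lit 57) (nat_lit 5) (nat_lit 58) (nat_lit 5) (nat_lit 342) (nat_lit 291) (nat_lit 147)) (XT.lf (nat_lit 0) (nat_lit 12223628940) (nat_lit 304) (nat_lit 2974971043) (nat_lit 380) (nat_lit 11199644194) (nat_lit 53) (nat_lit 5) (nat_lit 57) (nat_lit 5) (nat_lit 58) (nat_lit 5) (nat_lit 343) (nat_lit 291) (nat_lit 146))))) (XT.nd (nat_lit 234) (nat_lit 380) (nat_lit 0) (XT.nd (nat_lit 78) (nat_lit 228) (nat_lit 0) (XT.lf (nat_lit 0) (nat_lit 18599316157) (nat_lit 380) (nat_lit 4394289955) (nat_lit 76) (nat_lit 3965279916) (nat_lit 53) (nat_lit 5) (nat_lit 58) (nat_lit 5) (nat_lit 54) (nat_lit 5) (nat_lit 344) (nat_lit 291) (nat_lit 145)) (XT.nd (nat_lit 78) (nat_lit 0) (nat_lit 0) (XT.lf (nat_lit 0) (nat_lit 5754628460) (nat_lit 228) (nat_lit 16426498174) (nat_lit 304) (nat_lit 5352861000) (nat_lit 50) (nat_lit 5) (nat_lit 53) (nat_lit 5) (nat_lit 54) (nat_lit 5) (nat_lit 345) (nat_lit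 291) (nat_lit 144)) (XT.lf (nat_lit 0) (nat_lit 16290513121) (nat_lit 228) (nat_lit 9618645806) (nat_lit 304) (nat_lit 2216032652) (nat_lit 50) (nat_lit 5) (nat_lit 53) (nat_lit 5) (nat_lit 54) (nat_lit 5) (nat_lit 346) (nat_lit 291) (nat_lit 143)))) (XT.nd (nat_lit 78) (nat_lit 304) (nat_lit 0) (XT.lf (nat_lit 0) (nat_lit 989587643) (nat_lit 304) (nat_lit 1608893575) (nat_lit 76) (nat_lit 26135534613) (nat_lit 49) (nat_lit 5) (nat_lit 53) (nat_lit 5) (nat_lit 50) (nat_lit 5) (nat_lit 347) (nat_lit 291) (nat_lit 142)) (XT.nd (nat_lit 78) (nat_lit 0) (nat_lit 0) (XT.lf (nat_lit 0) (nat_lit 4374279588) (nat_lit 380) (nat_lit 20332114246) (nat_lit 76) (nat_lit 4650240725) (nat_lit 45) (nat_lit 5) (nat_lit 50) (nat_lit 5) (nat_lit 46) (nat_lit 5) (nat_lit 348) (nat_lit 291) (nat_lit 141)) (XT.lf (nat_lit 0) (nat_lit 7897367353) (nat_lit 380) (nat_lit 10020757050) (nat_lit 76) (nat_lit 12078712736)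 (nat_lit 45) (nat_lit 5) (nat_lit 50) (nat_lit 5) (nat_lit 46) (nat_lit 5) (nat_lit 349) (nat_lit 291) (nat_lit 140))))))) (XT.nd (nat_lit 858) (nat_lit 608) (nat_lit 0) (XT.nd (nat_lit 390) (nat_lit 532) (nat_lit 0) (XT.nd (nat_lit 156) (nat_lit 228) (nat_lit 0) (XT.nd (nat_lit 78) (nat_lit 0) (nat_lit 0) (XT.lf (nat_lit 0) (nat_lit 604611271) (nat_lit 228) (nat_lit 10922222157) (nat_lit 304) (nat_lit 19129402423) (nat_lit 42) (nat_lit 5) (nat_lit 45) (nat_lit 5) (nat_lit 46) (nat_lit 5) (nat_lit 350) (nat_lit 291) (nat_lit 139)) (XT.lf (nat_lit 0) (nat_lit 11747098485) (nat_lit 228) (nat_lit 3614230244) (nat_lit 304) (nat_lit 15971213750) (nat_lit 42) (nat_lit 5) (nat_lit 45) (nat_lit 5) (nat_lit 46) (nat_lit 5) (nat_lit 351) (nat_lit 291) (nat_lit 138))) (XT.nd (nat_lit 78) (nat_lit 228) (nat_lit 0) (XT.lf (nat_lit 0) (nat_lit 19343556446) (nat_lit 304) (nat_lit 8849882602) (nat_lit 76)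 (nat_lit 3834728346) (nat_lit 42) (nat_lit 5) (nat_lit 46) (nat_lit 5) (nat_lit 43) (nat_lit 5) (nat_lit 352) (nat_lit 291) (nat_lit 137)) (XT.nd (nat_lit 78) (nat_lit 0) (nat_lit 0) (XT.lf (nat_lit 0) (nat_lit 2208265549) (nat_lit 228) (nat_lit 21289223696) (nat_lit 304) (nat_lit 9245614383) (nat_lit 39) (nat_lit 5) (nat_lit 42) (nat_lit 5) (nat_lit 43) (nat_lit 5) (nat_lit 353) (nat_lit 291) (nat_lit 136)) (XT.lf (nat_lit 0) (nat_lit 13772851760) (nat_lit 228) (nat_lit 14087855758) (nat_lit 304) (nat_lit 5616249847) (nat_lit 39) (nat_lit 5) (nat_lit 42) (nat_lit 5) (nat_lit 43) (nat_lit 5) (nat_lit 354) (nat_lit 291) (nat_lit 135))))) (XT.nd (nat_lit 234) (nat_lit 228) (nat_lit 0) (XT.nd (nat_lit 78) (nat_lit 304) (nat_lit 0) (XT.lf (nat_lit 0) (nat_lit 25677850991) (nat_lit 228) (nat_lit 6672409237) (nat_lit 304) (nat_lit 1882712512) (nat_lit 39) (nat_lit 5) (nat_lit 42) (nat_lit 5) (nat_lit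 43) (nat_lit 5) (nat_lit 355) (nat_lit 291) (nat_lit 134)) (XT.nd (nat_lit 78) (nat_lit 0) (nat_lit 0) (XT.lf (nat_lit 0) (nat_lit 1958239160) (nat_lit 304) (nat_lit 32059315294) (nat_lit 76) (nat_lit 992545418) (nat_lit 35) (nat_lit 5) (nat_lit 39) (nat_lit 5) (nat_lit 36) (nat_lit 5) (nat_lit 356) (nat_lit 291) (nat_lit 133)) (XT.lf (nat_lit 0) (nat_lit 6025456178) (nat_lit 304) (nat_lit 20922760190) (nat_lit 76) (nat_lit 8857307293) (nat_lit 35) (nat_lit 5) (nat_lit 39) (nat_lit 5) (nat_lit 36) (nat_lit 5) (nat_lit 357) (nat_lit 291) (nat_lit 132)))) (XT.nd (nat_lit 78) (nat_lit 228) (nat_lit 0) (XT.lf (nat_lit 0) (nat_lit 10210387465) (nat_lit 304) (nat_lit 9458410619) (nat_lit 76) (nat_lit 16956149286) (nat_lit 35) (nat_lit 5) (nat_lit 39) (nat_lit 5) (nat_lit 36) (nat_lit 5) (nat_lit 358) (nat_lit 291) (nat_lit 131)) (XT.nd (nat_lit 78) (nat_lit 0) (nat_lit 0) (XT.lf (nat_lit 0) (nat_lit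 2390396047) (nat_lit 228) (nat_lit 12149271661) (nat_lit 304) (nat_lit 22928729958) (nat_lit 32) (nat_lit 5) (nat_lit 35) (nat_lit 5) (nat_lit 36) (nat_lit 5) (nat_lit 359) (nat_lit 291) (nat_lit 130)) (XT.lf (nat_lit 0) (nat_lit 14782496416) (nat_lit 228) (nat_lit 4307727830) (nat_lit 304) (nat_lit 19244192961) (nat_lit 32) (nat_lit 5) (nat_lit 35) (nat_lit 5) (nat_lit 36) (nat_lit 5) (nat_lit 360) (nat_lit 291) (nat_lit 129)))))) (XT.nd (nat_lit 390) (nat_lit 380) (nat_lit 0) (XT.nd (nat_lit 156) (nat_lit 76) (nat_lit 0) (XT.nd (nat_lit 78) (nat_lit 152) (nat_lit 0) (XT.lf (nat_lit 0) (nat_lit 23809516158) (nat_lit 304) (nat_lit 11722279357) (nat_lit 76) (nat_lit 3693662711) (nat_lit 32) (nat_lit 5) (nat_lit 36) (nat_lit 5) (nat_lit 33) (nat_lit 5) (nat_lit 361) (nat_lit 291) (nat_lit 128)) (XT.lf (nat_lit 0) (nat_lit 422018876) (nat_lit 152) (nat_lit 28291180420) (nat_lit 228) (nat_lit 11428754039)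 (nat_lit 30) (nat_lit 5) (nat_lit 32) (nat_lit 5) (nat_lit 33) (nat_lit 5) (nat_lit 362) (nat_lit 291) (nat_lit 127))) (XT.nd (nat_lit 78) (nat_lit 76) (nat_lit 0) (XT.lf (nat_lit 0) (nat_lit 13165181537) (nat_lit 152) (nat_lit 20713346503) (nat_lit 228) (nat_lit 7203986227) (nat_lit 30) (nat_lit 5) (nat_lit 32) (nat_lit 5) (nat_lit 33) (nat_lit 5) (nat_lit 363) (nat_lit 291) (nat_lit 126)) (XT.nd (nat_lit 78) (nat_lit 76) (nat_lit 0) (XT.lf (nat_lit 0) (nat_lit 26285047083) (nat_lit 152) (nat_lit 12910044394) (nat_lit 228) (nat_lit 2856319124) (nat_lit 30) (nat_lit 5) (nat_lit 32) (nat_lit 5) (nat_lit 33) (nat_lit 5) (nat_lit 364) (nat_lit 291) (nat_lit 125)) (XT.lf (nat_lit 0) (nat_lit 1586472292) (nat_lit 228) (nat_lit 3271963120) (nat_lit 76) (nat_lit 38190586922) (nat_lit 29) (nat_lit 5) (nat_lit 32) (nat_lit 5) (nat_lit 30) (nat_lit 5) (nat_lit 365) (nat_lit 291) (nat_lit 124))))) (XT.nd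 (nat_lit 234) (nat_lit 152) (nat_lit 0) (XT.nd (nat_lit 78) (nat_lit 0) (nat_lit 0) (XT.lf (nat_lit 0) (nat_lit 6229554774) (nat_lit 304) (nat_lit 34353245529) (nat_lit 76) (nat_lit 3489187451) (nat_lit 26) (nat_lit 5) (nat_lit 30) (nat_lit 5) (nat_lit 27) (nat_lit 5) (nat_lit 366) (nat_lit 291) (nat_lit 123)) (XT.nd (nat_lit 78) (nat_lit 0) (nat_lit 0) (XT.lf (nat_lit 0) (nat_lit 11089883503) (nat_lit 304) (nat_lit 22012229900) (nat_lit 76) (nat_lit 12021196178) (nat_lit 26) (nat_lit 5) (nat_lit 30) (nat_lit 5) (nat_lit 27) (nat_lit 5) (nat_lit 367) (nat_lit 291) (nat_lit 122)) (XT.lf (nat_lit 0) (nat_lit 16092607439) (nat_lit 304) (nat_lit 9306216125) (nat_lit 76) (nat_lit 20807455820) (nat_lit 26) (nat_lit 5) (nat_lit 30) (nat_lit 5) (nat_lit 27) (nat_lit 5) (nat_lit 368) (nat_lit 291) (nat_lit 121)))) (XT.nd (nat_lit 78) (nat_lit 0) (nat_lit 0) (XT.lf (nat_lit 0) (nat_lit 3851045914) (nat_lit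 152) (nat_lit 17428070590) (nat_lit 228) (nat_lit 26041616386) (nat_lit 24) (nat_lit 5) (nat_lit 26) (nat_lit 5) (nat_lit 27) (nat_lit 5) (nat_lit 369) (nat_lit 291) (nat_lit 120)) (XT.nd (nat_lit 78) (nat_lit 0) (nat_lit 0) (XT.lf (nat_lit 0) (nat_lit 17588764000) (nat_lit 152) (nat_lit 9123164384) (nat_lit 228) (nat_lit 21753975934) (nat_lit 24) (nat_lit 5) (nat_lit 26) (nat_lit 5) (nat_lit 27) (nat_lit 5) (nat_lit 370) (nat_lit 291) (nat_lit 119)) (XT.lf (nat_lit 0) (nat_lit 31733730016) (nat_lit 152) (nat_lit 570822768) (nat_lit 228) (nat_lit 17340978642) (nat_lit 24) (nat_lit 5) (nat_lit 26) (nat_lit 5) (nat_lit 27) (nat_lit 5) (nat_lit 371) (nat_lit 291) (nat_lit 118))))))))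
noncomputable def xc195 : XT := (XT.nd (nat_lit 35022) (nat_lit 0) (nat_lit 6156) (XT.nd (nat_lit 858) (nat_lit 76) (nat_lit 0) (XT.nd (nat_lit 390) (nat_lit 304) (nat_lit 0) (XT.nd (nat_lit 156) (nat_lit 76) (nat_lit 0) (XT.nd (nat_lit 78) (nat_lit 152) (nat_lit 0) (XT.lf (nat_lit 0) (nat_lit 38141050041) (nat_lit 228) (nat_lit 4641514895) (nat_lit 76) (nat_lit 8075704815) (nat_lit 24) (nat_lit 5) (nat_lit 27) (nat_lit 5) (nat_lit 25) (nat_lit 5) (nat_lit 372) (nat_lit 291) (nat_lit 117)) (XT.lf (nat_lit 0) (nat_lit 9195992919) (nat_lit 152) (nat_lit 35047693246) (nat_lit 228) (nat_lit 7860977816) (nat_lit 22) (nat_lit 5) (nat_lit 24) (nat_lit 5) (nat_lit 25) (nat_lit 5) (nat_lit 373) (nat_lit 291) (nat_lit 116))) (XT.nd (nat_lit 78) (nat_lit 76) (nat_lit 0) (XT.lf (nat_lit 0) (nat_lit 23539135850) (nat_lit 152) (nat_lit 27034173413) (nat_lit 228) (nat_lit 2813828463) (nat_lit 22) (nat_lit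 5) (nat_lit 24) (nat_lit 5) (nat_lit 25) (nat_lit 5) (nat_lit 374) (nat_lit 291) (nat_lit 115)) (XT.nd (nat_lit 78) (nat_lit 0) (nat_lit 0) (XT.lf (nat_lit 0) (nat_lit 2335291401) (nat_lit 228) (nat_lit 16423000268) (nat_lit 76) (nat_lit 35949198227) (nat_lit 21) (nat_lit 5) (nat_lit 24) (nat_lit 5) (nat_lit 22) (nat_lit 5) (nat_lit 375) (nat_lit 291) (nat_lit 114)) (XT.lf (nat_lit 0) (nat_lit 7579505238) (nat_lit 228) (nat_lit 2627539481) (nat_lit 76) (nat_lit 45859661364) (nat_lit 21) (nat_lit 5) (nat_lit 24) (nat_lit 5) (nat_lit 22) (nat_lit 5) (nat_lit 376) (nat_lit 291) (nat_lit 113))))) (XT.nd (nat_lit 234) (nat_lit 152) (nat_lit 0) (XT.nd (nat_lit 78) (nat_lit 0) (nat_lit 0) (XT.lf (nat_lit 0) (nat_lit 11807897623) (nat_lit 152) (nat_lit 1283910409) (nat_lit 228) (nat_lit 44371572222) (nat_lit 19) (nat_lit 5) (nat_lit 21) (nat_lit 5) (nat_lit 22) (nat_lit 5) (nat_lit 377) (nat_lit 291)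 (nat_lit 112)) (XT.nd (nat_lit 78) (nat_lit 0) (nat_lit 0) (XT.lf (nat_lit 0) (nat_lit 18869563508) (nat_lit 228) (nat_lit 32251497998) (nat_lit 76) (nat_lit 7777894888) (nat_lit 19) (nat_lit 5) (nat_lit 22) (nat_lit 5) (nat_lit 20) (nat_lit 5) (nat_lit 378) (nat_lit 291) (nat_lit 111)) (XT.lf (nat_lit 0) (nat_lit 24830724568) (nat_lit 228) (nat_lit 18462310007) (nat_lit 76) (nat_lit 17084267179) (nat_lit 19) (nat_lit 5) (nat_lit 22) (nat_lit 5) (nat_lit 20) (nat_lit 5) (nat_lit 379) (nat_lit 291) (nat_lit 110)))) (XT.nd (nat_lit 78) (nat_lit 152) (nat_lit 0) (XT.lf (nat_lit 0) (nat_lit 30968158262) (nat_lit 228) (nat_lit 4263528123) (nat_lit 76) (nat_lit 26668391962) (nat_lit 19) (nat_lit 5) (nat_lit 22) (nat_lit 5) (nat_lit 20) (nat_lit 5) (nat_lit 380) (nat_lit 291) (nat_lit 109)) (XT.nd (nat_lit 78) (nat_lit 0) (nat_lit 0) (XT.lf (nat_lit 0) (nat_lit 10563384026) (nat_lit 152) (nat_lit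 26825385079) (nat_lit 228) (nat_lit 26076801397) (nat_lit 17) (nat_lit 5) (nat_lit 19) (nat_lit 5) (nat_lit 20) (nat_lit 5) (nat_lit 381) (nat_lit 291) (nat_lit 108)) (XT.lf (nat_lit 0) (nat_lit 25918577679) (nat_lit 152) (nat_lit 18124021032) (nat_lit 228) (nat_lit 21034214473) (nat_lit 17) (nat_lit 5) (nat_lit 19) (nat_lit 5) (nat_lit 20) (nat_lit 5) (nat_lit 382) (nat_lit 291) (nat_lit 107)))))) (XT.nd (nat_lit 33696) (nat_lit 0) (nat_lit 9880) (XT.nd (nat_lit 156) (nat_lit 76) (nat_lit 0) (XT.nd (nat_lit 78) (nat_lit 0) (nat_lit 0) (XT.lf (nat_lit 0) (nat_lit 41730617424) (nat_lit 152) (nat_lit 9163044386) (nat_lit 228) (nat_lit 15842806444) (nat_lit 17) (nat_lit 5) (nat_lit 19) (nat_lit 5) (nat_lit 20) (nat_lit 5) (nat_lit 383) (nat_lit 291) (nat_lit 106)) (XT.lf (nat_lit 0) (nat_lit 57948573190) (nat_lit 228) (nat_lit 10433294711) (nat_lit 76) (nat_lit 64099140) (nat_lit 17) (nat_lit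 5) (nat_lit 20) (nat_lit 5) (nat_lit 18) (nat_lit 4) (nat_lit 384) (nat_lit 291) (nat_lit 105))) (XT.nd (nat_lit 33384) (nat_lit 0) (nat_lit 9880) (XT.lf (nat_lit 0) (nat_lit 4571267903) (nat_lit 76) (nat_lit 60776271409) (nat_lit 152) (nat_lit 4855242714) (nat_lit 16) (nat_lit 5) (nat_lit 17) (nat_lit 5) (nat_lit 18) (nat_lit 4) (nat_lit 385) (nat_lit 291) (nat_lit 104)) (XT.nd (nat_lit 78) (nat_lit 0) (nat_lit 0) (XT.lf (nat_lit 0) (nat_lit 390606270) (nat_lit 0) (nat_lit 390606270) (nat_lit 988) (nat_lit 4721126549) (nat_lit 146) (nat_lit 5) (nat_lit 146) (nat_lit 3) (nat_lit 159) (nat_lit 3) (nat_lit 292) (nat_lit 292) (nat_lit 196)) (XT.lf (nat_lit 0) (nat_lit 2124725948) (nat_lit 988) (nat_lit 5852519412) (nat_lit 1064) (nat_lit 3174733379) (nat_lit 146) (nat_lit 5) (nat_lit 159) (nat_lit 3) (nat_lit 160) (nat_lit 5) (nat_lit 293) (nat_lit 292) (nat_lit 195))))) (XT.nd (nat_lit 234) (nat_lit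 0) (nat_lit 76) (XT.nd (nat_lit 78) (nat_lit 0) (nat_lit 76) (XT.lf (nat_lit 0) (nat_lit 2691910199) (nat_lit 988) (nat_lit 1368839701) (nat_lit 1064) (nat_lit 7243370570) (nat_lit 146) (nat_lit 5) (nat_lit 159) (nat_lit 3) (nat_lit 160) (nat_lit 5) (nat_lit 294) (nat_lit 292) (nat_lit 194)) (XT.nd (nat_lit 78) (nat_lit 0) (nat_lit 0) (XT.lf (nat_lit 0) (nat_lit 3288860581) (nat_lit 988) (nat_lit 8157187457) (nat_lit 1064) (nat_lit 14456662) (nat_lit 147) (nat_lit 5) (nat_lit 160) (nat_lit 5) (nat_lit 161) (nat_lit 5) (nat_lit 295) (nat_lit 292) (nat_lit 193)) (XT.lf (nat_lit 0) (nat_lit 3939278595) (nat_lit 988) (nat_lit 3528758201) (nat_lit 1064) (nat_lit 4152535883) (nat_lit 147) (nat_lit 5) (nat_lit 160) (nat_lit 5) (nat_lit 161) (nat_lit 5) (nat_lit 296) (nat_lit 292) (nat_lit 192)))) (XT.nd (nat_lit 78) (nat_lit 0) (nat_lit 76) (XT.lf (nat_lit 76) (nat_lit 1252331439) (nat_lit 0) (nat_lit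 3350852021) (nat_lit 1064) (nat_lit 7182497283) (nat_lit 148) (nat_lit 5) (nat_lit 147) (nat_lit 5) (nat_lit 161) (nat_lit 5) (nat_lit 297) (nat_lit 292) (nat_lit 191)) (XT.nd (nat_lit 78) (nat_lit 0) (nat_lit 0) (XT.lf (nat_lit 0) (nat_lit 5313975049) (nat_lit 988) (nat_lit 5725568690) (nat_lit 1064) (nat_lit 915444831) (nat_lit 148) (nat_lit 5) (nat_lit 161) (nat_lit 5) (nat_lit 162) (nat_lit 5) (nat_lit 298) (nat_lit 292) (nat_lit 190)) (XT.lf (nat_lit 0) (nat_lit 6062208364) (nat_lit 988) (nat_lit 817584735) (nat_lit 1064) (nat_lit 5249152980) (nat_lit 148) (nat_lit 5) (nat_lit 161) (nat_lit 5) (nat_lit 162) (nat_lit 5) (nat_lit 299) (nat_lit 292) (nat_lit 189))))))) (XT.nd (nat_lit 858) (nat_lit 3040) (nat_lit 0) (XT.nd (nat_lit 390) (nat_lit 836) (nat_lit 0) (XT.nd (nat_lit 156) (nat_lit 0) (nat_lit 76) (XT.nd (nat_lit 78) (nat_lit 0) (nat_lit 76) (XT.lf (nat_lit 76) (nat_lit 4311229137)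 (nat_lit 0) (nat_lit 2546539798) (nat_lit 1064) (nat_lit 5449659387) (nat_lit 149) (nat_lit 5) (nat_lit 148) (nat_lit 5) (nat_lit 162) (nat_lit 5) (nat_lit 300) (nat_lit 292) (nat_lit 188)) (XT.lf (nat_lit 0) (nat_lit 7687834077) (nat_lit 988) (nat_lit 2909882004) (nat_lit 1064) (nat_lit 1893280709) (nat_lit 149) (nat_lit 5) (nat_lit 162) (nat_lit 5) (nat_lit 163) (nat_lit 5) (nat_lit 301) (nat_lit 292) (nat_lit 187))) (XT.nd (nat_lit 78) (nat_lit 0) (nat_lit 0) (XT.lf (nat_lit 76) (nat_lit 2338744463) (nat_lit 0) (nat_lit 6236096471) (nat_lit 1064) (nat_lit 4104319591) (nat_lit 150) (nat_lit 5) (nat_lit 149) (nat_lit 5) (nat_lit 163) (nat_lit 5) (nat_lit 302) (nat_lit 292) (nat_lit 186)) (XT.nd (nat_lit 78) (nat_lit 0) (nat_lit 76) (XT.lf (nat_lit 76) (nat_lit 7793880105) (nat_lit 0) (nat_lit 1708661132) (nat_lit 1064) (nat_lit 3370053405) (nat_lit 150) (nat_lit 5) (nat_lit 149) (nat_lit 5)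 (nat_lit 163) (nat_lit 5) (nat_lit 303) (nat_lit 292) (nat_lit 185)) (XT.lf (nat_lit 76) (nat_lit 307612531) (nat_lit 0) (nat_lit 10167007045) (nat_lit 1064) (nat_lit 2596762367) (nat_lit 151) (nat_lit 5) (nat_lit 150) (nat_lit 5) (nat_lit 164) (nat_lit 5) (nat_lit 304) (nat_lit 292) (nat_lit 184))))) (XT.nd (nat_lit 234) (nat_lit 0) (nat_lit 0) (XT.nd (nat_lit 78) (nat_lit 988) (nat_lit 0) (XT.lf (nat_lit 76) (nat_lit 5931663365) (nat_lit 0) (nat_lit 5597750554) (nat_lit 1064) (nat_lit 1745157549) (nat_lit 151) (nat_lit 5) (nat_lit 150) (nat_lit 5) (nat_lit 164) (nat_lit 5) (nat_lit 305) (nat_lit 292) (nat_lit 183)) (XT.nd (nat_lit 78) (nat_lit 988) (nat_lit 0) (XT.lf (nat_lit 76) (nat_lit 11714027385) (nat_lit 0) (nat_lit 887763558) (nat_lit 1064) (nat_lit 882531467) (nat_lit 151) (nat_lit 5) (nat_lit 150) (nat_lit 5) (nat_lit 164) (nat_lit 5) (nat_lit 306) (nat_lit 292) (nat_lit 182)) (XT.lf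 (nat_lit 0) (nat_lit 69359596) (nat_lit 1064) (nat_lit 9700363943) (nat_lit 1140) (nat_lit 3928776914) (nat_lit 137) (nat_lit 5) (nat_lit 151) (nat_lit 5) (nat_lit 152) (nat_lit 5) (nat_lit 307) (nat_lit 292) (nat_lit 181)))) (XT.nd (nat_lit 78) (nat_lit 0) (nat_lit 0) (XT.lf (nat_lit 0) (nat_lit 1045418459) (nat_lit 1064) (nat_lit 3971158240) (nat_lit 1140) (nat_lit 8901904700) (nat_lit 137) (nat_lit 5) (nat_lit 151) (nat_lit 5) (nat_lit 152) (nat_lit 5) (nat_lit 308) (nat_lit 292) (nat_lit 180)) (XT.nd (nat_lit 78) (nat_lit 0) (nat_lit 76) (XT.lf (nat_lit 76) (nat_lit 1957642408) (nat_lit 0) (nat_lit 98833603) (nat_lit 1140) (nat_lit 12088453256) (nat_lit 138) (nat_lit 5) (nat_lit 137) (nat_lit 5) (nat_lit 152) (nat_lit 5) (nat_lit 309) (nat_lit 292) (nat_lit 179)) (XT.lf (nat_lit 0) (nat_lit 3173307859) (nat_lit 1064) (nat_lit 6290218150) (nat_lit 76) (nat_lit 4912419152) (nat_lit 138) (nat_lit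 5) (nat_lit 152) (nat_lit 5) (nat_lit 139) (nat_lit 5) (nat_lit 310) (nat_lit 292) (nat_lit 178)))))) (XT.nd (nat_lit 468) (nat_lit 1064) (nat_lit 0) (XT.nd (nat_lit 234) (nat_lit 988) (nat_lit 0) (XT.nd (nat_lit 78) (nat_lit 1064) (nat_lit 0) (XT.lf (nat_lit 0) (nat_lit 4312200047) (nat_lit 1064) (nat_lit 227725657) (nat_lit 76) (nat_lit 10074345929) (nat_lit 138) (nat_lit 5) (nat_lit 152) (nat_lit 5) (nat_lit 139) (nat_lit 5) (nat_lit 311) (nat_lit 292) (nat_lit 177)) (XT.nd (nat_lit 78) (nat_lit 0) (nat_lit 0) (XT.lf (nat_lit 0) (nat_lit 5537793192) (nat_lit 1140) (nat_lit 8738109816) (nat_lit 76) (nat_lit 582304559) (nat_lit 124) (nat_lit 5) (nat_lit 139) (nat_lit 5) (nat_lit 125) (nat_lit 5) (nat_lit 312) (nat_lit 292) (nat_lit 176)) (XT.lf (nat_lit 0) (nat_lit 6835635471) (nat_lit 1140) (nat_lit 2501849928) (nat_lit 76) (nat_lit 5770946392) (nat_lit 124) (nat_lit 5) (nat_lit 139) (nat_lit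 5) (nat_lit 125) (nat_lit 5) (nat_lit 313) (nat_lit 292) (nat_lit 175)))) (XT.nd (nat_lit 78) (nat_lit 456) (nat_lit 0) (XT.lf (nat_lit 0) (nat_lit 3989137453) (nat_lit 532) (nat_lit 4210174246) (nat_lit 608) (nat_lit 7166077727) (nat_lit 117) (nat_lit 5) (nat_lit 124) (nat_lit 5) (nat_lit 125) (nat_lit 5) (nat_lit 314) (nat_lit 292) (nat_lit 174)) (XT.nd (nat_lit 78) (nat_lit 456) (nat_lit 0) (XT.lf (nat_lit 0) (nat_lit 9628506424) (nat_lit 608) (nat_lit 4924185137) (nat_lit 76) (nat_lit 1076658645) (nat_lit 117) (nat_lit 5) (nat_lit 125) (nat_lit 5) (nat_lit 118) (nat_lit 5) (nat_lit 315) (nat_lit 292) (nat_lit 173)) (XT.lf (nat_lit 0) (nat_lit 1702809706) (nat_lit 456) (nat_lit 9444946459) (nat_lit 532) (nat_lit 4752089982) (nat_lit 111) (nat_lit 5) (nat_lit 117) (nat_lit 5) (nat_lit 118) (nat_lit 5) (nat_lit 316) (nat_lit 292) (nat_lit 172))))) (XT.nd (nat_lit 234) (nat_lit 532) (nat_lit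 0) (XT.nd (nat_lit 78) (nat_lit 532) (nat_lit 0) (XT.lf (nat_lit 0) (nat_lit 8619478086) (nat_lit 456) (nat_lit 4132175617) (nat_lit 532) (nat_lit 3425661944) (nat_lit 111) (nat_lit 5) (nat_lit 117) (nat_lit 5) (nat_lit 118) (nat_lit 5) (nat_lit 317) (nat_lit 292) (nat_lit 171)) (XT.nd (nat_lit 78) (nat_lit 532) (nat_lit 0) (XT.lf (nat_lit 0) (nat_lit 14406210251) (nat_lit 532) (nat_lit 742472769) (nat_lit 76) (nat_lit 1314379840) (nat_lit 111) (nat_lit 5) (nat_lit 118) (nat_lit 5) (nat_lit 112) (nat_lit 5) (nat_lit 318) (nat_lit 292) (nat_lit 170)) (XT.lf (nat_lit 0) (nat_lit 6350527672) (nat_lit 532) (nat_lit 9851796127) (nat_lit 608) (nat_lit 552330103) (nat_lit 104) (nat_lit 5) (nat_lit 111) (nat_lit 5) (nat_lit 112) (nat_lit 5) (nat_lit 319) (nat_lit 292) (nat_lit 169)))) (XT.nd (nat_lit 78) (nat_lit 456) (nat_lit 0) (XT.lf (nat_lit 0) (nat_lit 975474593) (nat_lit 608) (nat_lit 3402854390)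 (nat_lit 76) (nat_lit 12676475201) (nat_lit 103) (nat_lit 5) (nat_lit 111) (nat_lit 5) (nat_lit 104) (nat_lit 5) (nat_lit 320) (nat_lit 292) (nat_lit 168)) (XT.nd (nat_lit 78) (nat_lit 0) (nat_lit 0) (XT.lf (nat_lit 0) (nat_lit 2578055848) (nat_lit 532) (nat_lit 13506715929) (nat_lit 76) (nat_lit 1277848386) (nat_lit 97) (nat_lit 5) (nat_lit 104) (nat_lit 5) (nat_lit 98) (nat_lit 5) (nat_lit 321) (nat_lit 292) (nat_lit 167)) (XT.lf (nat_lit 0) (nat_lit 4297281912) (nat_lit 532) (nat_lit 6330036895) (nat_lit 76) (nat_lit 7050320578) (nat_lit 97) (nat_lit 5) (nat_lit 104) (nat_lit 5) (nat_lit 98) (nat_lit 5) (nat_lit 322) (nat_lit 292) (nat_lit 166))))))))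
noncomputable def xc196 : XT := (XT.nd (nat_lit 1716) (nat_lit 1824) (nat_lit 0) (XT.nd (nat_lit 858) (nat_lit 1292) (nat_lit 0) (XT.nd (nat_lit 390) (nat_lit 1216) (nat_lit 0) (XT.nd (nat_lit 156) (nat_lit 380) (nat_lit 0) (XT.nd (nat_lit 78) (nat_lit 0) (nat_lit 0) (XT.lf (nat_lit 0) (nat_lit 1073286261) (nat_lit 456) (nat_lit 4995907038) (nat_lit 532) (nat_lit 11932907663) (nat_lit 91) (nat_lit 5) (nat_lit 97) (nat_lit 5) (nat_lit 98) (nat_lit 5) (nat_lit 323) (nat_lit 292) (nat_lit 165)) (XT.lf (nat_lit 0) (nat_lit 7957512444) (nat_lit 532) (nat_lit 9524072321) (nat_lit 76) (nat_lit 852838413) (nat_lit 91) (nat_lit 5) (nat_lit 98) (nat_lit 5) (nat_lit 92) (nat_lit 5) (nat_lit 324) (nat_lit 292) (nat_lit 164))) (XT.nd (nat_lit 78) (nat_lit 380) (nat_lit 0) (XT.lf (nat_lit 0) (nat_lit 9943172516) (nat_lit 532) (nat_lit 1956163270) (nat_lit 76) (nat_lit 6776182132) (nat_lit 91) (nat_lit 5)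 (nat_lit 98) (nat_lit 5) (nat_lit 92) (nat_lit 5) (nat_lit 325) (nat_lit 292) (nat_lit 163)) (XT.nd (nat_lit 78) (nat_lit 0) (nat_lit 0) (XT.lf (nat_lit 0) (nat_lit 5945568356) (nat_lit 380) (nat_lit 6091468927) (nat_lit 456) (nat_lit 6988372079) (nat_lit 86) (nat_lit 5) (nat_lit 91) (nat_lit 5) (nat_lit 92) (nat_lit 5) (nat_lit 326) (nat_lit 292) (nat_lit 162)) (XT.lf (nat_lit 0) (nat_lit 14115307742) (nat_lit 380) (nat_lit 89806309) (nat_lit 456) (nat_lit 5180363859) (nat_lit 86) (nat_lit 5) (nat_lit 91) (nat_lit 5) (nat_lit 92) (nat_lit 5) (nat_lit 327) (nat_lit 292) (nat_lit 161))))) (XT.nd (nat_lit 234) (nat_lit 760) (nat_lit 0) (XT.nd (nat_lit 78) (nat_lit 76) (nat_lit 0) (XT.lf (nat_lit 0) (nat_lit 2759953320) (nat_lit 380) (nat_lit 13755248014) (nat_lit 456) (nat_lit 3238859729) (nat_lit 81) (nat_lit 5) (nat_lit 86) (nat_lit 5) (nat_lit 87) (nat_lit 5) (nat_lit 328) (nat_lit 292) (nat_lit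 160)) (XT.nd (nat_lit 78) (nat_lit 76) (nat_lit 0) (XT.lf (nat_lit 0) (nat_lit 11129061553) (nat_lit 380) (nat_lit 7811656839) (nat_lit 456) (nat_lit 1191620470) (nat_lit 81) (nat_lit 5) (nat_lit 86) (nat_lit 5) (nat_lit 87) (nat_lit 5) (nat_lit 329) (nat_lit 292) (nat_lit 159)) (XT.lf (nat_lit 0) (nat_lit 891305205) (nat_lit 456) (nat_lit 790494746) (nat_lit 76) (nat_lit 18840155435) (nat_lit 80) (nat_lit 5) (nat_lit 86) (nat_lit 5) (nat_lit 81) (nat_lit 5) (nat_lit 330) (nat_lit 292) (nat_lit 158)))) (XT.nd (nat_lit 78) (nat_lit 380) (nat_lit 0) (XT.lf (nat_lit 0) (nat_lit 3125516436) (nat_lit 456) (nat_lit 13165888319) (nat_lit 76) (nat_lit 4628138446) (nat_lit 75) (nat_lit 5) (nat_lit 81) (nat_lit 5) (nat_lit 76) (nat_lit 5) (nat_lit 331) (nat_lit 292) (nat_lit 157)) (XT.nd (nat_lit 78) (nat_lit 380) (nat_lit 0) (XT.lf (nat_lit 0) (nat_lit 5443986946) (nat_lit 456) (nat_lit 4784059551)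 (nat_lit 76) (nat_lit 11100513791) (nat_lit 75) (nat_lit 5) (nat_lit 81) (nat_lit 5) (nat_lit 76) (nat_lit 5) (nat_lit 332) (nat_lit 292) (nat_lit 156)) (XT.lf (nat_lit 0) (nat_lit 3917074659) (nat_lit 380) (nat_lit 3945328071) (nat_lit 456) (nat_lit 13886551509) (nat_lit 70) (nat_lit 5) (nat_lit 75) (nat_lit 5) (nat_lit 76) (nat_lit 5) (nat_lit 333) (nat_lit 292) (nat_lit 155)))))) (XT.nd (nat_lit 390) (nat_lit 684) (nat_lit 0) (XT.nd (nat_lit 156) (nat_lit 608) (nat_lit 0) (XT.nd (nat_lit 78) (nat_lit 0) (nat_lit 0) (XT.lf (nat_lit 0) (nat_lit 10419293628) (nat_lit 456) (nat_lit 9236677682) (nat_lit 76) (nat_lit 2524028578) (nat_lit 70) (nat_lit 5) (nat_lit 76) (nat_lit 5) (nat_lit 71) (nat_lit 5) (nat_lit 334) (nat_lit 292) (nat_lit 154)) (XT.lf (nat_lit 0) (nat_lit 13085016506) (nat_lit 456) (nat_lit 431148254) (nat_lit 76) (nat_lit 9106865436) (nat_lit 70) (nat_lit 5) (nat_lit 76) (nat_lit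 5) (nat_lit 71) (nat_lit 5) (nat_lit 335) (nat_lit 292) (nat_lit 153))) (XT.nd (nat_lit 78) (nat_lit 304) (nat_lit 0) (XT.lf (nat_lit 0) (nat_lit 8802088205) (nat_lit 304) (nat_lit 7106498581) (nat_lit 380) (nat_lit 7168444905) (nat_lit 66) (nat_lit 5) (nat_lit 70) (nat_lit 5) (nat_lit 71) (nat_lit 5) (nat_lit 336) (nat_lit 292) (nat_lit 152)) (XT.nd (nat_lit 78) (nat_lit 304) (nat_lit 0) (XT.lf (nat_lit 0) (nat_lit 18313021163) (nat_lit 304) (nat_lit 501579366) (nat_lit 380) (nat_lit 4730136681) (nat_lit 66) (nat_lit 5) (nat_lit 70) (nat_lit 5) (nat_lit 71) (nat_lit 5) (nat_lit 337) (nat_lit 292) (nat_lit 151)) (XT.lf (nat_lit 0) (nat_lit 4094027886) (nat_lit 304) (nat_lit 17807255993) (nat_lit 380) (nat_lit 2122400939) (nat_lit 62) (nat_lit 5) (nat_lit 66) (nat_lit 5) (nat_lit 67) (nat_lit 5) (nat_lit 338) (nat_lit 292) (nat_lit 150))))) (XT.nd (nat_lit 234) (nat_lit 304) (nat_lit 0) (XT.nd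 (nat_lit 78) (nat_lit 304) (nat_lit 0) (XT.lf (nat_lit 0) (nat_lit 604483047) (nat_lit 380) (nat_lit 10727691946) (nat_lit 76) (nat_lit 13183120644) (nat_lit 61) (nat_lit 5) (nat_lit 66) (nat_lit 5) (nat_lit 62) (nat_lit 5) (nat_lit 339) (nat_lit 292) (nat_lit 149)) (XT.nd (nat_lit 78) (nat_lit 304) (nat_lit 0) (XT.lf (nat_lit 0) (nat_lit 3364296091) (nat_lit 380) (nat_lit 1278602880) (nat_lit 76) (nat_lit 20378326249) (nat_lit 61) (nat_lit 5) (nat_lit 66) (nat_lit 5) (nat_lit 62) (nat_lit 5) (nat_lit 340) (nat_lit 292) (nat_lit 148)) (XT.lf (nat_lit 0) (nat_lit 6306075977) (nat_lit 380) (nat_lit 16948081686) (nat_lit 76) (nat_lit 2285213716) (nat_lit 57) (nat_lit 5) (nat_lit 62) (nat_lit 5) (nat_lit 58) (nat_lit 5) (nat_lit 341) (nat_lit 292) (nat_lit 147)))) (XT.nd (nat_lit 78) (nat_lit 304) (nat_lit 0) (XT.lf (nat_lit 0) (nat_lit 9389166140) (nat_lit 380) (nat_lit 7343072837) (nat_lit 76)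 (nat_lit 9339244696) (nat_lit 57) (nat_lit 5) (nat_lit 62) (nat_lit 5) (nat_lit 58) (nat_lit 5) (nat_lit 342) (nat_lit 292) (nat_lit 146)) (XT.nd (nat_lit 78) (nat_lit 0) (nat_lit 0) (XT.lf (nat_lit 0) (nat_lit 2593124095) (nat_lit 304) (nat_lit 9990773322) (nat_lit 380) (nat_lit 14035100531) (nat_lit 53) (nat_lit 5) (nat_lit 57) (nat_lit 5) (nat_lit 58) (nat_lit 5) (nat_lit 343) (nat_lit 292) (nat_lit 145)) (XT.lf (nat_lit 0) (nat_lit 12970443508) (nat_lit 304) (nat_lit 2972495785) (nat_lit 380) (nat_lit 11237956982) (nat_lit 53) (nat_lit 5) (nat_lit 57) (nat_lit 5) (nat_lit 58) (nat_lit 5) (nat_lit 344) (nat_lit 292) (nat_lit 144))))))) (XT.nd (nat_lit 858) (nat_lit 760) (nat_lit 0) (XT.nd (nat_lit 390) (nat_lit 456) (nat_lit 0) (XT.nd (nat_lit 156) (nat_lit 380) (nat_lit 0) (XT.nd (nat_lit 78) (nat_lit 228) (nat_lit 0) (XT.lf (nat_lit 0) (nat_lit 19438133527) (nat_lit 380) (nat_lit 4148915532)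 (nat_lit 76) (nat_lit 4171553377) (nat_lit 53) (nat_lit 5) (nat_lit 58) (nat_lit 5) (nat_lit 54) (nat_lit 5) (nat_lit 345) (nat_lit 292) (nat_lit 143)) (XT.lf (nat_lit 0) (nat_lit 6300772366) (nat_lit 228) (nat_lit 16822036567) (nat_lit 304) (nat_lit 5228304044) (nat_lit 50) (nat_lit 5) (nat_lit 53) (nat_lit 5) (nat_lit 54) (nat_lit 5) (nat_lit 346) (nat_lit 292) (nat_lit 142))) (XT.nd (nat_lit 78) (nat_lit 380) (nat_lit 0) (XT.lf (nat_lit 0) (nat_lit 17141854779) (nat_lit 228) (nat_lit 9812781343) (nat_lit 304) (nat_lit 2005675975) (nat_lit 50) (nat_lit 5) (nat_lit 53) (nat_lit 5) (nat_lit 54) (nat_lit 5) (nat_lit 347) (nat_lit 292) (nat_lit 141)) (XT.nd (nat_lit 78) (nat_lit 304) (nat_lit 0) (XT.lf (nat_lit 0) (nat_lit 1282804939) (nat_lit 304) (nat_lit 1299295954) (nat_lit 76) (nat_lit 27005474186) (nat_lit 49) (nat_lit 5) (nat_lit 53) (nat_lit 5) (nat_lit 50) (nat_lit 5) (nat_lit 348) (nat_lit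 292) (nat_lit 140)) (XT.lf (nat_lit 0) (nat_lit 4765682424) (nat_lit 380) (nat_lit 20580318866) (nat_lit 76) (nat_lit 4882987910) (nat_lit 45) (nat_lit 5) (nat_lit 50) (nat_lit 5) (nat_lit 46) (nat_lit 5) (nat_lit 349) (nat_lit 292) (nat_lit 139))))) (XT.nd (nat_lit 234) (nat_lit 228) (nat_lit 0) (XT.nd (nat_lit 78) (nat_lit 228) (nat_lit 0) (XT.lf (nat_lit 0) (nat_lit 8386884926) (nat_lit 380) (nat_lit 9970157618) (nat_lit 76) (nat_lit 12531598355) (nat_lit 45) (nat_lit 5) (nat_lit 50) (nat_lit 5) (nat_lit 46) (nat_lit 5) (nat_lit 350) (nat_lit 292) (nat_lit 138)) (XT.nd (nat_lit 78) (nat_lit 0) (nat_lit 0) (XT.lf (nat_lit 0) (nat_lit 970528398) (nat_lit 228) (nat_lit 11150692466) (nat_lit 304) (nat_lit 19446736377) (nat_lit 42) (nat_lit 5) (nat_lit 45) (nat_lit 5) (nat_lit 46) (nat_lit 5) (nat_lit 351) (nat_lit 292) (nat_lit 137)) (XT.lf (nat_lit 0) (nat_lit 12437160749) (nat_lit 228) (nat_lit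 3626350011) (nat_lit 304) (nat_lit 16201274320) (nat_lit 42) (nat_lit 5) (nat_lit 45) (nat_lit 5) (nat_lit 46) (nat_lit 5) (nat_lit 352) (nat_lit 292) (nat_lit 136)))) (XT.nd (nat_lit 78) (nat_lit 228) (nat_lit 0) (XT.lf (nat_lit 0) (nat_lit 20159074723) (nat_lit 304) (nat_lit 8780954594) (nat_lit 76) (nat_lit 4041447712) (nat_lit 42) (nat_lit 5) (nat_lit 46) (nat_lit 5) (nat_lit 43) (nat_lit 5) (nat_lit 353) (nat_lit 292) (nat_lit 135)) (XT.nd (nat_lit 78) (nat_lit 0) (nat_lit 0) (XT.lf (nat_lit 0) (nat_lit 2605659330) (nat_lit 228) (nat_lit 21828298530) (nat_lit 304) (nat_lit 9284027473) (nat_lit 39) (nat_lit 5) (nat_lit 42) (nat_lit 5) (nat_lit 43) (nat_lit 5) (nat_lit 354) (nat_lit 292) (nat_lit 134)) (XT.lf (nat_lit 0) (nat_lit 14507538104) (nat_lit 228) (nat_lit 14413790579) (nat_lit 304) (nat_lit 5552741865) (nat_lit 39) (nat_lit 5) (nat_lit 42) (nat_lit 5) (nat_lit 43) (nat_lit 5) (nat_lit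 355) (nat_lit 292) (nat_lit 133)))))) (XT.nd (nat_lit 390) (nat_lit 228) (nat_lit 0) (XT.nd (nat_lit 156) (nat_lit 228) (nat_lit 0) (XT.nd (nat_lit 78) (nat_lit 304) (nat_lit 0) (XT.lf (nat_lit 0) (nat_lit 26760323211) (nat_lit 228) (nat_lit 6778697192) (nat_lit 304) (nat_lit 1713955560) (nat_lit 39) (nat_lit 5) (nat_lit 42) (nat_lit 5) (nat_lit 43) (nat_lit 5) (nat_lit 356) (nat_lit 292) (nat_lit 132)) (XT.lf (nat_lit 0) (nat_lit 2235340918) (nat_lit 304) (nat_lit 32701235477) (nat_lit 76) (nat_lit 1116862615) (nat_lit 35) (nat_lit 5) (nat_lit 39) (nat_lit 5) (nat_lit 36) (nat_lit 5) (nat_lit 357) (nat_lit 292) (nat_lit 131))) (XT.nd (nat_lit 78) (nat_lit 228) (nat_lit 0) (XT.lf (nat_lit 0) (nat_lit 6418214603) (nat_lit 304) (nat_lit 21239900008) (nat_lit 76) (nat_lit 9214813729) (nat_lit 35) (nat_lit 5) (nat_lit 39) (nat_lit 5) (nat_lit 36) (nat_lit 5) (nat_lit 358) (nat_lit 292) (nat_lit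 130)) (XT.nd (nat_lit 78) (nat_lit 228) (nat_lit 0) (XT.lf (nat_lit 0) (nat_lit 10722519225) (nat_lit 304) (nat_lit 9440664892) (nat_lit 76) (nat_lit 17553947568) (nat_lit 35) (nat_lit 5) (nat_lit 39) (nat_lit 5) (nat_lit 36) (nat_lit 5) (nat_lit 359) (nat_lit 292) (nat_lit 129)) (XT.lf (nat_lit 0) (nat_lit 2760650111) (nat_lit 228) (nat_lit 12417902773) (nat_lit 304) (nat_lit 23407437700) (nat_lit 32) (nat_lit 5) (nat_lit 35) (nat_lit 5) (nat_lit 36) (nat_lit 5) (nat_lit 360) (nat_lit 292) (nat_lit 128))))) (XT.nd (nat_lit 234) (nat_lit 76) (nat_lit 0) (XT.nd (nat_lit 78) (nat_lit 152) (nat_lit 0) (XT.lf (nat_lit 0) (nat_lit 15515818088) (nat_lit 228) (nat_lit 4343904288) (nat_lit 304) (nat_lit 19618456462) (nat_lit 32) (nat_lit 5) (nat_lit 35) (nat_lit 5) (nat_lit 36) (nat_lit 5) (nat_lit 361) (nat_lit 292) (nat_lit 127)) (XT.nd (nat_lit 78) (nat_lit 152) (nat_lit 0) (XT.lf (nat_lit 0) (nat_lit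 24715729709) (nat_lit 304) (nat_lit 11787323311) (nat_lit 76) (nat_lit 3893054661) (nat_lit 32) (nat_lit 5) (nat_lit 36) (nat_lit 5) (nat_lit 33) (nat_lit 5) (nat_lit 362) (nat_lit 292) (nat_lit 126)) (XT.lf (nat_lit 0) (nat_lit 718493825) (nat_lit 152) (nat_lit 29045167575) (nat_lit 228) (nat_lit 11576532483) (nat_lit 30) (nat_lit 5) (nat_lit 32) (nat_lit 5) (nat_lit 33) (nat_lit 5) (nat_lit 363) (nat_lit 292) (nat_lit 125)))) (XT.nd (nat_lit 78) (nat_lit 76) (nat_lit 0) (XT.lf (nat_lit 0) (nat_lit 13835684927) (nat_lit 152) (nat_lit 21242758299) (nat_lit 228) (nat_lit 7230703700) (nat_lit 30) (nat_lit 5) (nat_lit 32) (nat_lit 5) (nat_lit 33) (nat_lit 5) (nat_lit 364) (nat_lit 292) (nat_lit 124)) (XT.nd (nat_lit 78) (nat_lit 76) (nat_lit 0) (XT.lf (nat_lit 0) (nat_lit 27341120772) (nat_lit 152) (nat_lit 13208036406) (nat_lit 228) (nat_lit 2758123151) (nat_lit 30) (nat_lit 5) (nat_lit 32) (nat_lit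 5) (nat_lit 33) (nat_lit 5) (nat_lit 365) (nat_lit 292) (nat_lit 123)) (XT.lf (nat_lit 0) (nat_lit 1809112362) (nat_lit 228) (nat_lit 3106600416) (nat_lit 76) (nat_lit 39419221374) (nat_lit 29) (nat_lit 5) (nat_lit 32) (nat_lit 5) (nat_lit 30) (nat_lit 5) (nat_lit 366) (nat_lit 292) (nat_lit 122))))))))
noncomputable def xc197 : XT := (XT.nd (nat_lit 35178) (nat_lit 0) (nat_lit 7144) (XT.nd (nat_lit 858) (nat_lit 304) (nat_lit 0) (XT.nd (nat_lit 390) (nat_lit 228) (nat_lit 0) (XT.nd (nat_lit 156) (nat_lit 152) (nat_lit 0) (XT.nd (nat_lit 78) (nat_lit 0) (nat_lit 0) (XT.lf (nat_lit 0) (nat_lit 6589747736) (nat_lit 304) (nat_lit 35118283193) (nat_lit 76) (nat_lit 3680618747) (nat_lit 26) (nat_lit 5) (nat_lit 30) (nat_lit 5) (nat_lit 27) (nat_lit 5) (nat_lit 367) (nat_lit 292) (nat_lit 121)) (XT.lf (nat_lit 0) (nat_lit 11590838570) (nat_lit 304) (nat_lit 22414771844) (nat_lit 76) (nat_lit 12466060872)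 (nat_lit 26) (nat_lit 5) (nat_lit 30) (nat_lit 5) (nat_lit 27) (nat_lit 5) (nat_lit 368) (nat_lit 292) (nat_lit 120))) (XT.nd (nat_lit 78) (nat_lit 152) (nat_lit 0) (XT.lf (nat_lit 0) (nat_lit 16738743489) (nat_lit 304) (nat_lit 9335087121) (nat_lit 76) (nat_lit 21513455037) (nat_lit 26) (nat_lit 5) (nat_lit 30) (nat_lit 5) (nat_lit 27) (nat_lit 5) (nat_lit 369) (nat_lit 292) (nat_lit 119)) (XT.nd (nat_lit 78) (nat_lit 0) (nat_lit 0) (XT.lf (nat_lit 0) (nat_lit 4214438706) (nat_lit 152) (nat_lit 17864033720) (nat_lit 228) (nat_lit 26656779789) (nat_lit 24) (nat_lit 5) (nat_lit 26) (nat_lit 5) (nat_lit 27) (nat_lit 5) (nat_lit 370) (nat_lit 292) (nat_lit 118)) (XT.lf (nat_lit 0) (nat_lit 18357069071) (nat_lit 152) (nat_lit 9312510784) (nat_lit 228) (nat_lit 22245347553) (nat_lit 24) (nat_lit 5) (nat_lit 26) (nat_lit 5) (nat_lit 27) (nat_lit 5) (nat_lit 371) (nat_lit 292) (nat_lit 117))))) (XT.nd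 (nat_lit 234) (nat_lit 76) (nat_lit 0) (XT.nd (nat_lit 78) (nat_lit 152) (nat_lit 0) (XT.lf (nat_lit 0) (nat_lit 32919375072) (nat_lit 152) (nat_lit 506055673) (nat_lit 228) (nat_lit 17704656876) (nat_lit 24) (nat_lit 5) (nat_lit 26) (nat_lit 5) (nat_lit 27) (nat_lit 5) (nat_lit 372) (nat_lit 292) (nat_lit 116)) (XT.nd (nat_lit 78) (nat_lit 152) (nat_lit 0) (XT.lf (nat_lit 0) (nat_lit 39433367534) (nat_lit 228) (nat_lit 4550026644) (nat_lit 76) (nat_lit 8395931080) (nat_lit 24) (nat_lit 5) (nat_lit 27) (nat_lit 5) (nat_lit 25) (nat_lit 5) (nat_lit 373) (nat_lit 292) (nat_lit 115)) (XT.lf (nat_lit 0) (nat_lit 9700344310) (nat_lit 152) (nat_lit 36016621456) (nat_lit 228) (nat_lit 7946216339) (nat_lit 22) (nat_lit 5) (nat_lit 24) (nat_lit 5) (nat_lit 25) (nat_lit 5) (nat_lit 374) (nat_lit 292) (nat_lit 114)))) (XT.nd (nat_lit 78) (nat_lit 76) (nat_lit 0) (XT.lf (nat_lit 0) (nat_lit 24467127016)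 (nat_lit 152) (nat_lit 27765099016) (nat_lit 228) (nat_lit 2752038646) (nat_lit 22) (nat_lit 5) (nat_lit 24) (nat_lit 5) (nat_lit 25) (nat_lit 5) (nat_lit 375) (nat_lit 292) (nat_lit 113)) (XT.nd (nat_lit 78) (nat_lit 0) (nat_lit 0) (XT.lf (nat_lit 0) (nat_lit 2544526543) (nat_lit 228) (nat_lit 16697341866) (nat_lit 76) (nat_lit 37102448765) (nat_lit 21) (nat_lit 5) (nat_lit 24) (nat_lit 5) (nat_lit 22) (nat_lit 5) (nat_lit 376) (nat_lit 292) (nat_lit 112)) (XT.lf (nat_lit 0) (nat_lit 7942013113) (nat_lit 228) (nat_lit 2494376918) (nat_lit 76) (nat_lit 47308047895) (nat_lit 21) (nat_lit 5) (nat_lit 24) (nat_lit 5) (nat_lit 22) (nat_lit 5) (nat_lit 377) (nat_lit 292) (nat_lit 111)))))) (XT.nd (nat_lit 390) (nat_lit 0) (nat_lit 0) (XT.nd (nat_lit 156) (nat_lit 152) (nat_lit 0) (XT.nd (nat_lit 78) (nat_lit 0) (nat_lit 0) (XT.lf (nat_lit 0) (nat_lit 12372044978) (nat_lit 152) (nat_lit 1245722188)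 (nat_lit 228) (nat_lit 45565308974) (nat_lit 19) (nat_lit 5) (nat_lit 21) (nat_lit 5) (nat_lit 22) (nat_lit 5) (nat_lit 378) (nat_lit 292) (nat_lit 110)) (XT.lf (nat_lit 0) (nat_lit 19565691416) (nat_lit 228) (nat_lit 33011879240) (nat_lit 76) (nat_lit 8084249922) (nat_lit 19) (nat_lit 5) (nat_lit 22) (nat_lit 5) (nat_lit 20) (nat_lit 5) (nat_lit 379) (nat_lit 292) (nat_lit 109))) (XT.nd (nat_lit 78) (nat_lit 152) (nat_lit 0) (XT.lf (nat_lit 0) (nat_lit 25701899706) (nat_lit 228) (nat_lit 18815049504) (nat_lit 76) (nat_lit 17667686638) (nat_lit 19) (nat_lit 5) (nat_lit 22) (nat_lit 5) (nat_lit 20) (nat_lit 5) (nat_lit 380) (nat_lit 292) (nat_lit 108)) (XT.nd (nat_lit 78) (nat_lit 152) (nat_lit 0) (XT.lf (nat_lit 0) (nat_lit 32019779127) (nat_lit 228) (nat_lit 4196162313) (nat_lit 76) (nat_lit 27537270365) (nat_lit 19) (nat_lit 5) (nat_lit 22) (nat_lit 5) (nat_lit 20) (nat_lit 5) (nat_lit 381)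 (nat_lit 292) (nat_lit 107)) (XT.lf (nat_lit 0) (nat_lit 11073642773) (nat_lit 152) (nat_lit 27557654012) (nat_lit 228) (nat_lit 26734428866) (nat_lit 17) (nat_lit 5) (nat_lit 19) (nat_lit 5) (nat_lit 20) (nat_lit 5) (nat_lit 382) (nat_lit 292) (nat_lit 106))))) (XT.nd (nat_lit 33696) (nat_lit 0) (nat_lit 9804) (XT.nd (nat_lit 78) (nat_lit 0) (nat_lit 0) (XT.lf (nat_lit 0) (nat_lit 26883860472) (nat_lit 152) (nat_lit 18597360479) (nat_lit 228) (nat_lit 21544195690) (nat_lit 17) (nat_lit 5) (nat_lit 19) (nat_lit 5) (nat_lit 20) (nat_lit 5) (nat_lit 383) (nat_lit 292) (nat_lit 105)) (XT.nd (nat_lit 33540) (nat_lit 0) (nat_lit 9804) (XT.lf (nat_lit 0) (nat_lit 43164793677) (nat_lit 152) (nat_lit 9369604471) (nat_lit 228) (nat_lit 16200571009) (nat_lit 17) (nat_lit 5) (nat_lit 19) (nat_lit 5) (nat_lit 20) (nat_lit 5) (nat_lit 384) (nat_lit 292) (nat_lit 104)) (XT.lf (nat_lit 0) (nat_lit 653753933)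 (nat_lit 0) (nat_lit 653753933) (nat_lit 988) (nat_lit 4343227365) (nat_lit 146) (nat_lit 5) (nat_lit 146) (nat_lit 3) (nat_lit 159) (nat_lit 3) (nat_lit 293) (nat_lit 293) (nat_lit 194)))) (XT.nd (nat_lit 78) (nat_lit 0) (nat_lit 0) (XT.lf (nat_lit 0) (nat_lit 3160199872) (nat_lit 988) (nat_lit 5502812664) (nat_lit 1064) (nat_lit 2791289594) (nat_lit 146) (nat_lit 5) (nat_lit 159) (nat_lit 3) (nat_lit 160) (nat_lit 5) (nat_lit 294) (nat_lit 293) (nat_lit 193)) (XT.nd (nat_lit 78) (nat_lit 0) (nat_lit 0) (XT.lf (nat_lit 0) (nat_lit 3716096772) (nat_lit 988) (nat_lit 899922047) (nat_lit 1064) (nat_lit 6995928206) (nat_lit 146) (nat_lit 5) (nat_lit 159) (nat_lit 3) (nat_lit 160) (nat_lit 5) (nat_lit 295) (nat_lit 293) (nat_lit 192)) (XT.lf (nat_lit 76) (nat_lit 3907550138) (nat_lit 0) (nat_lit 400635226) (nat_lit 1064) (nat_lit 7465607736) (nat_lit 147) (nat_lit 5) (nat_lit 146) (nat_lit 5) (nat_lit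 160) (nat_lit 5) (nat_lit 296) (nat_lit 293) (nat_lit 191))))))) (XT.nd (nat_lit 858) (nat_lit 2736) (nat_lit 0) (XT.nd (nat_lit 390) (nat_lit 0) (nat_lit 152) (XT.nd (nat_lit 156) (nat_lit 0) (nat_lit 76) (XT.nd (nat_lit 78) (nat_lit 0) (nat_lit 0) (XT.lf (nat_lit 0) (nat_lit 4947561628) (nat_lit 988) (nat_lit 3110823599) (nat_lit 1064) (nat_lit 3881279189) (nat_lit 147) (nat_lit 5) (nat_lit 160) (nat_lit 5) (nat_lit 161) (nat_lit 5) (nat_lit 297) (nat_lit 293) (nat_lit 190)) (XT.lf (nat_lit 76) (nat_lit 1808563462) (nat_lit 0) (nat_lit 3801880496) (nat_lit 1064) (nat_lit 6499992158) (nat_lit 148) (nat_lit 5) (nat_lit 147) (nat_lit 5) (nat_lit 161) (nat_lit 5) (nat_lit 298) (nat_lit 293) (nat_lit 189))) (XT.nd (nat_lit 78) (nat_lit 0) (nat_lit 0) (XT.lf (nat_lit 0) (nat_lit 6313972694) (nat_lit 988) (nat_lit 5362533441) (nat_lit 1064) (nat_lit 609254448) (nat_lit 148) (nat_lit 5) (nat_lit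 161) (nat_lit 5) (nat_lit 162) (nat_lit 5) (nat_lit 299) (nat_lit 293) (nat_lit 188)) (XT.nd (nat_lit 78) (nat_lit 0) (nat_lit 0) (XT.lf (nat_lit 0) (nat_lit 7060170143) (nat_lit 988) (nat_lit 322886734) (nat_lit 1064) (nat_lit 5082691912) (nat_lit 148) (nat_lit 5) (nat_lit 161) (nat_lit 5) (nat_lit 162) (nat_lit 5) (nat_lit 300) (nat_lit 293) (nat_lit 187)) (XT.lf (nat_lit 76) (nat_lit 4954701108) (nat_lit 0) (nat_lit 2906068832) (nat_lit 1064) (nat_lit 4789455615) (nat_lit 149) (nat_lit 5) (nat_lit 148) (nat_lit 5) (nat_lit 162) (nat_lit 5) (nat_lit 301) (nat_lit 293) (nat_lit 186))))) (XT.nd (nat_lit 234) (nat_lit 0) (nat_lit 76) (XT.nd (nat_lit 78) (nat_lit 0) (nat_lit 0) (XT.lf (nat_lit 0) (nat_lit 8689873264) (nat_lit 988) (nat_lit 2469719862) (nat_lit 1064) (nat_lit 1680556899) (nat_lit 149) (nat_lit 5) (nat_lit 162) (nat_lit 5) (nat_lit 163) (nat_lit 5) (nat_lit 302) (nat_lit 293) (nat_lit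 185)) (XT.nd (nat_lit 78) (nat_lit 0) (nat_lit 0) (XT.lf (nat_lit 76) (nat_lit 2931194236) (nat_lit 0) (nat_lit 6654848555) (nat_lit 1064) (nat_lit 3448510216) (nat_lit 150) (nat_lit 5) (nat_lit 149) (nat_lit 5) (nat_lit 163) (nat_lit 5) (nat_lit 303) (nat_lit 293) (nat_lit 184)) (XT.lf (nat_lit 76) (nat_lit 8534771692) (nat_lit 0) (nat_lit 1984842509) (nat_lit 1064) (nat_lit 2714903588) (nat_lit 150) (nat_lit 5) (nat_lit 149) (nat_lit 5) (nat_lit 163) (nat_lit 5) (nat_lit 304) (nat_lit 293) (nat_lit 183)))) (XT.nd (nat_lit 78) (nat_lit 0) (nat_lit 0) (XT.lf (nat_lit 76) (nat_lit 845102553) (nat_lit 0) (nat_lit 10657410908) (nat_lit 1064) (nat_lit 1937372329) (nat_lit 151) (nat_lit 5) (nat_lit 150) (nat_lit 5) (nat_lit 164) (nat_lit 5) (nat_lit 305) (nat_lit 293) (nat_lit 182)) (XT.nd (nat_lit 78) (nat_lit 0) (nat_lit 0) (XT.lf (nat_lit 76) (nat_lit 6622488650) (nat_lit 0) (nat_lit 5945676908)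 (nat_lit 1064) (nat_lit 1081693917) (nat_lit 151) (nat_lit 5) (nat_lit 150) (nat_lit 5) (nat_lit 164) (nat_lit 5) (nat_lit 306) (nat_lit 293) (nat_lit 181)) (XT.lf (nat_lit 76) (nat_lit 12563385473) (nat_lit 0) (nat_lit 1089147763) (nat_lit 1064) (nat_lit 214038131) (nat_lit 151) (nat_lit 5) (nat_lit 150) (nat_lit 5) (nat_lit 164) (nat_lit 5) (nat_lit 307) (nat_lit 293) (nat_lit 180)))))) (XT.nd (nat_lit 390) (nat_lit 988) (nat_lit 0) (XT.nd (nat_lit 156) (nat_lit 988) (nat_lit 0) (XT.nd (nat_lit 78) (nat_lit 0) (nat_lit 0) (XT.lf (nat_lit 0) (nat_lit 736371241) (nat_lit 1064) (nat_lit 9459380774) (nat_lit 1140) (nat_lit 3891776020) (nat_lit 137) (nat_lit 5) (nat_lit 151) (nat_lit 5) (nat_lit 152) (nat_lit 5) (nat_lit 308) (nat_lit 293) (nat_lit 179)) (XT.lf (nat_lit 0) (nat_lit 1722344951) (nat_lit 1064) (nat_lit 3573793873) (nat_lit 1140) (nat_lit 9018608247) (nat_lit 137) (nat_lit 5) (nat_lit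 151) (nat_lit 5) (nat_lit 152) (nat_lit 5) (nat_lit 309) (nat_lit 293) (nat_lit 178))) (XT.nd (nat_lit 78) (nat_lit 988) (nat_lit 0) (XT.lf (nat_lit 76) (nat_lit 2527807078) (nat_lit 0) (nat_lit 222040549) (nat_lit 1140) (nat_lit 11798613324) (nat_lit 138) (nat_lit 5) (nat_lit 137) (nat_lit 5) (nat_lit 152) (nat_lit 5) (nat_lit 310) (nat_lit 293) (nat_lit 177)) (XT.nd (nat_lit 78) (nat_lit 1064) (nat_lit 0) (XT.lf (nat_lit 0) (nat_lit 3880663887) (nat_lit 1064) (nat_lit 5961053402) (nat_lit 76) (nat_lit 4945329994) (nat_lit 138) (nat_lit 5) (nat_lit 152) (nat_lit 5) (nat_lit 139) (nat_lit 5) (nat_lit 311) (nat_lit 293) (nat_lit 176)) (XT.lf (nat_lit 0) (nat_lit 273568543) (nat_lit 1064) (nat_lit 4764954197) (nat_lit 1140) (nat_lit 9994509576) (nat_lit 124) (nat_lit 5) (nat_lit 138) (nat_lit 5) (nat_lit 139) (nat_lit 5) (nat_lit 312) (nat_lit 293) (nat_lit 175))))) (XT.nd (nat_lit 234) (nat_lit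 456) (nat_lit 0) (XT.nd (nat_lit 78) (nat_lit 532) (nat_lit 0) (XT.lf (nat_lit 0) (nat_lit 6284922276) (nat_lit 1140) (nat_lit 8482426213) (nat_lit 76) (nat_lit 517467907) (nat_lit 124) (nat_lit 5) (nat_lit 139) (nat_lit 5) (nat_lit 125) (nat_lit 5) (nat_lit 313) (nat_lit 293) (nat_lit 174)) (XT.nd (nat_lit 78) (nat_lit 532) (nat_lit 0) (XT.lf (nat_lit 0) (nat_lit 7604777631) (nat_lit 1140) (nat_lit 2074160865) (nat_lit 76) (nat_lit 5864166251) (nat_lit 124) (nat_lit 5) (nat_lit 139) (nat_lit 5) (nat_lit 125) (nat_lit 5) (nat_lit 314) (nat_lit 293) (nat_lit 173)) (XT.lf (nat_lit 0) (nat_lit 4606627269) (nat_lit 532) (nat_lit 4391092872) (nat_lit 608) (nat_lit 6810448575) (nat_lit 117) (nat_lit 5) (nat_lit 124) (nat_lit 5) (nat_lit 125) (nat_lit 5) (nat_lit 315) (nat_lit 293) (nat_lit 172)))) (XT.nd (nat_lit 78) (nat_lit 456) (nat_lit 0) (XT.lf (nat_lit 0) (nat_lit 10453190853) (nat_lit 608)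 (nat_lit 4570431990) (nat_lit 76) (nat_lit 1056970352) (nat_lit 117) (nat_lit 5) (nat_lit 125) (nat_lit 5) (nat_lit 118) (nat_lit 5) (nat_lit 316) (nat_lit 293) (nat_lit 171)) (XT.nd (nat_lit 78) (nat_lit 0) (nat_lit 0) (XT.lf (nat_lit 0) (nat_lit 2250456241) (nat_lit 456) (nat_lit 9756728429) (nat_lit 532) (nat_lit 4352389860) (nat_lit 111) (nat_lit 5) (nat_lit 117) (nat_lit 5) (nat_lit 118) (nat_lit 5) (nat_lit 317) (nat_lit 293) (nat_lit 170)) (XT.lf (nat_lit 0) (nat_lit 9360161693) (nat_lit 456) (nat_lit 4283746300) (nat_lit 532) (nat_lit 3001963044) (nat_lit 111) (nat_lit 5) (nat_lit 117) (nat_lit 5) (nat_lit 118) (nat_lit 5) (nat_lit 318) (nat_lit 293) (nat_lit 169))))))))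
noncomputable def xc198 : XT := (XT.nd (nat_lit 1716) (nat_lit 2204) (nat_lit 0) (XT.nd (nat_lit 858) (nat_lit 1520) (nat_lit 0) (XT.nd (nat_lit 390) (nat_lit 1216) (nat_lit 0) (XT.nd (nat_lit 156) (nat_lit 532) (nat_lit 0) (XT.nd (nat_lit 78) (nat_lit 532) (nat_lit 0) (XT.lf (nat_lit 0) (nat_lit 15332997840) (nat_lit 532) (nat_lit 280155977) (nat_lit 76) (nat_lit 1327532853) (nat_lit 111) (nat_lit 5) (nat_lit 118) (nat_lit 5) (nat_lit 112) (nat_lit 5) (nat_lit 319) (nat_lit 293) (nat_lit 168)) (XT.lf (nat_lit 0) (nat_lit 7020883586) (nat_lit 532) (nat_lit 10152317862) (nat_lit 608) (nat_lit 68159447) (nat_lit 104) (nat_lit 5) (nat_lit 111) (nat_lit 5) (nat_lit 112) (nat_lit 5) (nat_lit 320) (nat_lit 293) (nat_lit 167))) (XT.nd (nat_lit 78) (nat_lit 456) (nat_lit 0) (XT.lf (nat_lit 0) (nat_lit 1481408060) (nat_lit 608) (nat_lit 3028280524) (nat_lit 76) (nat_lit 13041150961) (nat_lit 103) (nat_lit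 5) (nat_lit 111) (nat_lit 5) (nat_lit 104) (nat_lit 5) (nat_lit 321) (nat_lit 293) (nat_lit 166)) (XT.nd (nat_lit 78) (nat_lit 0) (nat_lit 0) (XT.lf (nat_lit 0) (nat_lit 3122765036) (nat_lit 532) (nat_lit 13424685621) (nat_lit 76) (nat_lit 1320756516) (nat_lit 97) (nat_lit 5) (nat_lit 104) (nat_lit 5) (nat_lit 98) (nat_lit 5) (nat_lit 322) (nat_lit 293) (nat_lit 165)) (XT.lf (nat_lit 0) (nat_lit 4879955235) (nat_lit 532) (nat_lit 6046897434) (nat_lit 76) (nat_lit 7266269689) (nat_lit 97) (nat_lit 5) (nat_lit 104) (nat_lit 5) (nat_lit 98) (nat_lit 5) (nat_lit 323) (nat_lit 293) (nat_lit 164))))) (XT.nd (nat_lit 234) (nat_lit 760) (nat_lit 0) (XT.nd (nat_lit 78) (nat_lit 0) (nat_lit 0) (XT.lf (nat_lit 0) (nat_lit 1573887765) (nat_lit 456) (nat_lit 5122422613) (nat_lit 532) (nat_lit 11831304740) (nat_lit 91) (nat_lit 5) (nat_lit 97) (nat_lit 5) (nat_lit 98) (nat_lit 5) (nat_lit 324) (nat_lit 293)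 (nat_lit 163)) (XT.nd (nat_lit 78) (nat_lit 0) (nat_lit 0) (XT.lf (nat_lit 0) (nat_lit 8628534755) (nat_lit 532) (nat_lit 9341127285) (nat_lit 76) (nat_lit 900662174) (nat_lit 91) (nat_lit 5) (nat_lit 98) (nat_lit 5) (nat_lit 92) (nat_lit 5) (nat_lit 325) (nat_lit 293) (nat_lit 162)) (XT.lf (nat_lit 0) (nat_lit 10661173456) (nat_lit 532) (nat_lit 1559831463) (nat_lit 76) (nat_lit 7001058478) (nat_lit 91) (nat_lit 5) (nat_lit 98) (nat_lit 5) (nat_lit 92) (nat_lit 5) (nat_lit 326) (nat_lit 293) (nat_lit 161)))) (XT.nd (nat_lit 78) (nat_lit 380) (nat_lit 0) (XT.lf (nat_lit 0) (nat_lit 6574491164) (nat_lit 380) (nat_lit 6235469581) (nat_lit 456) (nat_lit 6772760523) (nat_lit 86) (nat_lit 5) (nat_lit 91) (nat_lit 5) (nat_lit 92) (nat_lit 5) (nat_lit 327) (nat_lit 293) (nat_lit 160)) (XT.nd (nat_lit 78) (nat_lit 380) (nat_lit 0) (XT.lf (nat_lit 0) (nat_lit 14976199748) (nat_lit 380) (nat_lit 54885533)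 (nat_lit 456) (nat_lit 4922898350) (nat_lit 86) (nat_lit 5) (nat_lit 91) (nat_lit 5) (nat_lit 92) (nat_lit 5) (nat_lit 328) (nat_lit 293) (nat_lit 159)) (XT.lf (nat_lit 0) (nat_lit 3288468695) (nat_lit 380) (nat_lit 14114996859) (nat_lit 456) (nat_lit 2930400007) (nat_lit 81) (nat_lit 5) (nat_lit 86) (nat_lit 5) (nat_lit 87) (nat_lit 5) (nat_lit 329) (nat_lit 293) (nat_lit 158)))))) (XT.nd (nat_lit 390) (nat_lit 684) (nat_lit 0) (XT.nd (nat_lit 156) (nat_lit 760) (nat_lit 0) (XT.nd (nat_lit 78) (nat_lit 76) (nat_lit 0) (XT.lf (nat_lit 0) (nat_lit 11895668132) (nat_lit 380) (nat_lit 7994638975) (nat_lit 456) (nat_lit 833557906) (nat_lit 81) (nat_lit 5) (nat_lit 86) (nat_lit 5) (nat_lit 87) (nat_lit 5) (nat_lit 330) (nat_lit 293) (nat_lit 157)) (XT.lf (nat_lit 0) (nat_lit 1292924462) (nat_lit 456) (nat_lit 385672508) (nat_lit 76) (nat_lit 19446825252) (nat_lit 80) (nat_lit 5) (nat_lit 86) (nat_lit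 5) (nat_lit 81) (nat_lit 5) (nat_lit 331) (nat_lit 293) (nat_lit 156))) (XT.nd (nat_lit 78) (nat_lit 380) (nat_lit 0) (XT.lf (nat_lit 0) (nat_lit 3587863313) (nat_lit 456) (nat_lit 13125111284) (nat_lit 76) (nat_lit 4822179570) (nat_lit 75) (nat_lit 5) (nat_lit 81) (nat_lit 5) (nat_lit 76) (nat_lit 5) (nat_lit 332) (nat_lit 293) (nat_lit 155)) (XT.nd (nat_lit 78) (nat_lit 380) (nat_lit 0) (XT.lf (nat_lit 0) (nat_lit 5965152559) (nat_lit 456) (nat_lit 4504519509) (nat_lit 76) (nat_lit 11487118497) (nat_lit 75) (nat_lit 5) (nat_lit 81) (nat_lit 5) (nat_lit 76) (nat_lit 5) (nat_lit 333) (nat_lit 293) (nat_lit 154)) (XT.lf (nat_lit 0) (nat_lit 4453501063) (nat_lit 380) (nat_lit 3996223914) (nat_lit 456) (nat_lit 13940289188) (nat_lit 70) (nat_lit 5) (nat_lit 75) (nat_lit 5) (nat_lit 76) (nat_lit 5) (nat_lit 334) (nat_lit 293) (nat_lit 153))))) (XT.nd (nat_lit 234) (nat_lit 380) (nat_lit 0) (XT.nd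 (nat_lit 78) (nat_lit 304) (nat_lit 0) (XT.lf (nat_lit 0) (nat_lit 11073715805) (nat_lit 456) (nat_lit 9096618440) (nat_lit 76) (nat_lit 2663970342) (nat_lit 70) (nat_lit 5) (nat_lit 76) (nat_lit 5) (nat_lit 71) (nat_lit 5) (nat_lit 335) (nat_lit 293) (nat_lit 152)) (XT.nd (nat_lit 78) (nat_lit 304) (nat_lit 0) (XT.lf (nat_lit 0) (nat_lit 13809453767) (nat_lit 456) (nat_lit 39073408) (nat_lit 76) (nat_lit 9442421794) (nat_lit 70) (nat_lit 5) (nat_lit 76) (nat_lit 5) (nat_lit 71) (nat_lit 5) (nat_lit 336) (nat_lit 293) (nat_lit 151)) (XT.lf (nat_lit 0) (nat_lit 9467189466) (nat_lit 304) (nat_lit 7244730113) (nat_lit 380) (nat_lit 7046849030) (nat_lit 66) (nat_lit 5) (nat_lit 70) (nat_lit 5) (nat_lit 71) (nat_lit 5) (nat_lit 337) (nat_lit 293) (nat_lit 150)))) (XT.nd (nat_lit 78) (nat_lit 380) (nat_lit 0) (XT.lf (nat_lit 0) (nat_lit 19251769676) (nat_lit 304) (nat_lit 443846723) (nat_lit 380)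 (nat_lit 4545196876) (nat_lit 66) (nat_lit 5) (nat_lit 70) (nat_lit 5) (nat_lit 71) (nat_lit 5) (nat_lit 338) (nat_lit 293) (nat_lit 149)) (XT.nd (nat_lit 78) (nat_lit 76) (nat_lit 0) (XT.lf (nat_lit 0) (nat_lit 4611862024) (nat_lit 304) (nat_lit 18258293851) (nat_lit 380) (nat_lit 1864138158) (nat_lit 62) (nat_lit 5) (nat_lit 66) (nat_lit 5) (nat_lit 67) (nat_lit 5) (nat_lit 339) (nat_lit 293) (nat_lit 148)) (XT.lf (nat_lit 0) (nat_lit 929076472) (nat_lit 380) (nat_lit 10659212028) (nat_lit 76) (nat_lit 13652568755) (nat_lit 61) (nat_lit 5) (nat_lit 66) (nat_lit 5) (nat_lit 62) (nat_lit 5) (nat_lit 340) (nat_lit 293) (nat_lit 147))))))) (XT.nd (nat_lit 858) (nat_lit 988) (nat_lit 0) (XT.nd (nat_lit 390) (nat_lit 608) (nat_lit 0) (XT.nd (nat_lit 156) (nat_lit 304) (nat_lit 0) (XT.nd (nat_lit 78) (nat_lit 304) (nat_lit 0) (XT.lf (nat_lit 0) (nat_lit 3762757919) (nat_lit 380) (nat_lit 938018563)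 (nat_lit 76) (nat_lit 21061476514) (nat_lit 61) (nat_lit 5) (nat_lit 66) (nat_lit 5) (nat_lit 62) (nat_lit 5) (nat_lit 341) (nat_lit 293) (nat_lit 146)) (XT.lf (nat_lit 0) (nat_lit 6788527584) (nat_lit 380) (nat_lit 17072655014) (nat_lit 76) (nat_lit 2434908742) (nat_lit 57) (nat_lit 5) (nat_lit 62) (nat_lit 5) (nat_lit 58) (nat_lit 5) (nat_lit 342) (nat_lit 293) (nat_lit 145))) (XT.nd (nat_lit 78) (nat_lit 304) (nat_lit 0) (XT.lf (nat_lit 0) (nat_lit 9955568626) (nat_lit 380) (nat_lit 7190676553) (nat_lit 76) (nat_lit 9698197391) (nat_lit 57) (nat_lit 5) (nat_lit 62) (nat_lit 5) (nat_lit 58) (nat_lit 5) (nat_lit 343) (nat_lit 293) (nat_lit 144)) (XT.nd (nat_lit 78) (nat_lit 0) (nat_lit 0) (XT.lf (nat_lit 0) (nat_lit 3039952478) (nat_lit 304) (nat_lit 10201443716) (nat_lit 380) (nat_lit 14167147200) (nat_lit 53) (nat_lit 5) (nat_lit 57) (nat_lit 5) (nat_lit 58) (nat_lit 5) (nat_lit 344) (nat_lit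 293) (nat_lit 143)) (XT.lf (nat_lit 0) (nat_lit 13717842891) (nat_lit 304) (nat_lit 2975211625) (nat_lit 380) (nat_lit 11294507006) (nat_lit 53) (nat_lit 5) (nat_lit 57) (nat_lit 5) (nat_lit 58) (nat_lit 5) (nat_lit 345) (nat_lit 293) (nat_lit 142))))) (XT.nd (nat_lit 234) (nat_lit 380) (nat_lit 0) (XT.nd (nat_lit 78) (nat_lit 228) (nat_lit 0) (XT.lf (nat_lit 0) (nat_lit 20285994175) (nat_lit 380) (nat_lit 3917832879) (nat_lit 76) (nat_lit 4379002800) (nat_lit 53) (nat_lit 5) (nat_lit 58) (nat_lit 5) (nat_lit 54) (nat_lit 5) (nat_lit 346) (nat_lit 293) (nat_lit 141)) (XT.nd (nat_lit 78) (nat_lit 0) (nat_lit 0) (XT.lf (nat_lit 0) (nat_lit 6841859871) (nat_lit 228) (nat_lit 17235024036) (nat_lit 304) (nat_lit 5116378741) (nat_lit 50) (nat_lit 5) (nat_lit 53) (nat_lit 5) (nat_lit 54) (nat_lit 5) (nat_lit 347) (nat_lit 293) (nat_lit 140)) (XT.lf (nat_lit 0) (nat_lit 17997920455) (nat_lit 228) (nat_lit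 10018161261) (nat_lit 304) (nat_lit 1804900212) (nat_lit 50) (nat_lit 5) (nat_lit 53) (nat_lit 5) (nat_lit 54) (nat_lit 5) (nat_lit 348) (nat_lit 293) (nat_lit 139)))) (XT.nd (nat_lit 78) (nat_lit 304) (nat_lit 0) (XT.lf (nat_lit 0) (nat_lit 1569691073) (nat_lit 304) (nat_lit 1000953287) (nat_lit 76) (nat_lit 27896582454) (nat_lit 49) (nat_lit 5) (nat_lit 53) (nat_lit 5) (nat_lit 50) (nat_lit 5) (nat_lit 349) (nat_lit 293) (nat_lit 138)) (XT.nd (nat_lit 78) (nat_lit 0) (nat_lit 0) (XT.lf (nat_lit 0) (nat_lit 5153892268) (nat_lit 380) (nat_lit 20856736060) (nat_lit 76) (nat_lit 5117365156) (nat_lit 45) (nat_lit 5) (nat_lit 50) (nat_lit 5) (nat_lit 46) (nat_lit 5) (nat_lit 350) (nat_lit 293) (nat_lit 137)) (XT.lf (nat_lit 0) (nat_lit 8876587951) (nat_lit 380) (nat_lit 9938201792) (nat_lit 76) (nat_lit 12992874080) (nat_lit 45) (nat_lit 5) (nat_lit 50) (nat_lit 5) (nat_lit 46) (nat_lit 5) (nat_lit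 351) (nat_lit 293) (nat_lit 136)))))) (XT.nd (nat_lit 390) (nat_lit 532) (nat_lit 0) (XT.nd (nat_lit 156) (nat_lit 228) (nat_lit 0) (XT.nd (nat_lit 78) (nat_lit 0) (nat_lit 0) (XT.lf (nat_lit 0) (nat_lit 1327459113) (nat_lit 228) (nat_lit 11391711162) (nat_lit 304) (nat_lit 19788317262) (nat_lit 42) (nat_lit 5) (nat_lit 45) (nat_lit 5) (nat_lit 46) (nat_lit 5) (nat_lit 352) (nat_lit 293) (nat_lit 135)) (XT.lf (nat_lit 0) (nat_lit 13128542429) (nat_lit 228) (nat_lit 3644361794) (nat_lit 304) (nat_lit 16452534679) (nat_lit 42) (nat_lit 5) (nat_lit 45) (nat_lit 5) (nat_lit 46) (nat_lit 5) (nat_lit 353) (nat_lit 293) (nat_lit 134))) (XT.nd (nat_lit 78) (nat_lit 228) (nat_lit 0) (XT.lf (nat_lit 0) (nat_lit 20985556442) (nat_lit 304) (nat_lit 8729156079) (nat_lit 76) (nat_lit 4249105995) (nat_lit 42) (nat_lit 5) (nat_lit 46) (nat_lit 5) (nat_lit 43) (nat_lit 5) (nat_lit 354) (nat_lit 293) (nat_lit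 133)) (XT.nd (nat_lit 78) (nat_lit 0) (nat_lit 0) (XT.lf (nat_lit 0) (nat_lit 2995965801) (nat_lit 228) (nat_lit 22389263164) (nat_lit 304) (nat_lit 9337309970) (nat_lit 39) (nat_lit 5) (nat_lit 42) (nat_lit 5) (nat_lit 43) (nat_lit 5) (nat_lit 355) (nat_lit 293) (nat_lit 132)) (XT.lf (nat_lit 0) (nat_lit 15245809577) (nat_lit 228) (nat_lit 14755054469) (nat_lit 304) (nat_lit 5500646134) (nat_lit 39) (nat_lit 5) (nat_lit 42) (nat_lit 5) (nat_lit 43) (nat_lit 5) (nat_lit 356) (nat_lit 293) (nat_lit 131))))) (XT.nd (nat_lit 234) (nat_lit 228) (nat_lit 0) (XT.nd (nat_lit 78) (nat_lit 304) (nat_lit 0) (XT.lf (nat_lit 0) (nat_lit 27857351675) (nat_lit 228) (nat_lit 6893563130) (nat_lit 304) (nat_lit 1553065501) (nat_lit 39) (nat_lit 5) (nat_lit 42) (nat_lit 5) (nat_lit 43) (nat_lit 5) (nat_lit 357) (nat_lit 293) (nat_lit 130)) (XT.nd (nat_lit 78) (nat_lit 0) (nat_lit 0) (XT.lf (nat_lit 0) (nat_lit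 2508221281) (nat_lit 304) (nat_lit 33380774495) (nat_lit 76) (nat_lit 1239482297) (nat_lit 35) (nat_lit 5) (nat_lit 39) (nat_lit 5) (nat_lit 36) (nat_lit 5) (nat_lit 358) (nat_lit 293) (nat_lit 129)) (XT.lf (nat_lit 0) (nat_lit 6810586416) (nat_lit 304) (nat_lit 21584380459) (nat_lit 76) (nat_lit 9577776397) (nat_lit 35) (nat_lit 5) (nat_lit 39) (nat_lit 5) (nat_lit 36) (nat_lit 5) (nat_lit 359) (nat_lit 293) (nat_lit 128)))) (XT.nd (nat_lit 78) (nat_lit 228) (nat_lit 0) (XT.lf (nat_lit 0) (nat_lit 11238200020) (nat_lit 304) (nat_lit 9439694014) (nat_lit 76) (nat_lit 18164564302) (nat_lit 35) (nat_lit 5) (nat_lit 39) (nat_lit 5) (nat_lit 36) (nat_lit 5) (nat_lit 360) (nat_lit 293) (nat_lit 127)) (XT.nd (nat_lit 78) (nat_lit 0) (nat_lit 0) (XT.lf (nat_lit 0) (nat_lit 3124874254) (nat_lit 228) (nat_lit 12700094831) (nat_lit 304) (nat_lit 23912512979) (nat_lit 32) (nat_lit 5) (nat_lit 35) (nat_lit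 5) (nat_lit 36) (nat_lit 5) (nat_lit 361) (nat_lit 293) (nat_lit 126)) (XT.lf (nat_lit 0) (nat_lit 16254501019) (nat_lit 228) (nat_lit 4386507800) (nat_lit 304) (nat_lit 20015604474) (nat_lit 32) (nat_lit 5) (nat_lit 35) (nat_lit 5) (nat_lit 36) (nat_lit 5) (nat_lit 362) (nat_lit 293) (nat_lit 125))))))))
noncomputable def xc199 : XT := (XT.nd (nat_lit 35256) (nat_lit 0) (nat_lit 7600) (XT.nd (nat_lit 858) (nat_lit 532) (nat_lit 0) (XT.nd (nat_lit 390) (nat_lit 380) (nat_lit 0) (XT.nd (nat_lit 156) (nat_lit 76) (nat_lit 0) (XT.nd (nat_lit 78) (nat_lit 152) (nat_lit 0) (XT.lf (nat_lit 0) (nat_lit 25638112210) (nat_lit 304) (nat_lit 11870771999) (nat_lit 76) (nat_lit 4093343396) (nat_lit 32) (nat_lit 5) (nat_lit 36) (nat_lit 5) (nat_lit 33) (nat_lit 5) (nat_lit 363) (nat_lit 293) (nat_lit 124)) (XT.lf (nat_lit 0) (nat_lit 1007570916) (nat_lit 152) (nat_lit 29827213283) (nat_lit 228) (nat_lit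 11739942911) (nat_lit 30) (nat_lit 5) (nat_lit 32) (nat_lit 5) (nat_lit 33) (nat_lit 5) (nat_lit 364) (nat_lit 293) (nat_lit 123))) (XT.nd (nat_lit 78) (nat_lit 76) (nat_lit 0) (XT.lf (nat_lit 0) (nat_lit 14510485840) (nat_lit 152) (nat_lit 21793332971) (nat_lit 228) (nat_lit 7269095154) (nat_lit 30) (nat_lit 5) (nat_lit 32) (nat_lit 5) (nat_lit 33) (nat_lit 5) (nat_lit 365) (nat_lit 293) (nat_lit 122)) (XT.nd (nat_lit 78) (nat_lit 76) (nat_lit 0) (XT.lf (nat_lit 0) (nat_lit 28413519798) (nat_lit 152) (nat_lit 13520094899) (nat_lit 228) (nat_lit 2667537081) (nat_lit 30) (nat_lit 5) (nat_lit 32) (nat_lit 5) (nat_lit 33) (nat_lit 5) (nat_lit 366) (nat_lit 293) (nat_lit 121)) (XT.lf (nat_lit 0) (nat_lit 2028383282) (nat_lit 228) (nat_lit 2951404048) (nat_lit 76) (nat_lit 40679955094) (nat_lit 29) (nat_lit 5) (nat_lit 32) (nat_lit 5) (nat_lit 30) (nat_lit 5) (nat_lit 367) (nat_lit 293) (nat_lit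 120))))) (XT.nd (nat_lit 234) (nat_lit 152) (nat_lit 0) (XT.nd (nat_lit 78) (nat_lit 0) (nat_lit 0) (XT.lf (nat_lit 0) (nat_lit 6950797995) (nat_lit 304) (nat_lit 35921516201) (nat_lit 76) (nat_lit 3872812852) (nat_lit 26) (nat_lit 5) (nat_lit 30) (nat_lit 5) (nat_lit 27) (nat_lit 5) (nat_lit 368) (nat_lit 293) (nat_lit 119)) (XT.nd (nat_lit 78) (nat_lit 0) (nat_lit 0) (XT.lf (nat_lit 0) (nat_lit 12097163558) (nat_lit 304) (nat_lit 22844190254) (nat_lit 76) (nat_lit 12919436429) (nat_lit 26) (nat_lit 5) (nat_lit 30) (nat_lit 5) (nat_lit 27) (nat_lit 5) (nat_lit 369) (nat_lit 293) (nat_lit 118)) (XT.lf (nat_lit 0) (nat_lit 17394886213) (nat_lit 304) (nat_lit 9379193379) (nat_lit 76) (nat_lit 22235939980) (nat_lit 26) (nat_lit 5) (nat_lit 30) (nat_lit 5) (nat_lit 27) (nat_lit 5) (nat_lit 370) (nat_lit 293) (nat_lit 117)))) (XT.nd (nat_lit 78) (nat_lit 0) (nat_lit 0) (XT.lf (nat_lit 0) (nat_lit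 4574505023) (nat_lit 152) (nat_lit 18318062953) (nat_lit 228) (nat_lit 27299932057) (nat_lit 24) (nat_lit 5) (nat_lit 26) (nat_lit 5) (nat_lit 27) (nat_lit 5) (nat_lit 371) (nat_lit 293) (nat_lit 116)) (XT.nd (nat_lit 78) (nat_lit 0) (nat_lit 0) (XT.lf (nat_lit 0) (nat_lit 19134609449) (nat_lit 152) (nat_lit 9512379527) (nat_lit 228) (nat_lit 22760716595) (nat_lit 24) (nat_lit 5) (nat_lit 26) (nat_lit 5) (nat_lit 27) (nat_lit 5) (nat_lit 372) (nat_lit 293) (nat_lit 115)) (XT.lf (nat_lit 0) (nat_lit 34127177981) (nat_lit 152) (nat_lit 444046489) (nat_lit 228) (nat_lit 18088232132) (nat_lit 24) (nat_lit 5) (nat_lit 26) (nat_lit 5) (nat_lit 27) (nat_lit 5) (nat_lit 373) (nat_lit 293) (nat_lit 114)))))) (XT.nd (nat_lit 390) (nat_lit 304) (nat_lit 0) (XT.nd (nat_lit 156) (nat_lit 76) (nat_lit 0) (XT.nd (nat_lit 78) (nat_lit 152) (nat_lit 0) (XT.lf (nat_lit 0) (nat_lit 40755953810) (nat_lit 228)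 (nat_lit 4469038802) (nat_lit 76) (nat_lit 8721289191) (nat_lit 24) (nat_lit 5) (nat_lit 27) (nat_lit 5) (nat_lit 25) (nat_lit 5) (nat_lit 374) (nat_lit 293) (nat_lit 113)) (XT.lf (nat_lit 0) (nat_lit 10206711038) (nat_lit 152) (nat_lit 37019353498) (nat_lit 228) (nat_lit 8042656547) (nat_lit 22) (nat_lit 5) (nat_lit 24) (nat_lit 5) (nat_lit 25) (nat_lit 5) (nat_lit 375) (nat_lit 293) (nat_lit 112))) (XT.nd (nat_lit 78) (nat_lit 76) (nat_lit 0) (XT.lf (nat_lit 0) (nat_lit 25410224709) (nat_lit 152) (nat_lit 28522550432) (nat_lit 228) (nat_lit 2696787880) (nat_lit 22) (nat_lit 5) (nat_lit 24) (nat_lit 5) (nat_lit 25) (nat_lit 5) (nat_lit 376) (nat_lit 293) (nat_lit 111)) (XT.nd (nat_lit 78) (nat_lit 0) (nat_lit 0) (XT.lf (nat_lit 0) (nat_lit 2752049444) (nat_lit 228) (nat_lit 16992447805) (nat_lit 76) (nat_lit 38286004451) (nat_lit 21) (nat_lit 5) (nat_lit 24) (nat_lit 5) (nat_lit 22) (nat_lit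 5) (nat_lit 377) (nat_lit 293) (nat_lit 110)) (XT.lf (nat_lit 0) (nat_lit 8307639628) (nat_lit 228) (nat_lit 2369388499) (nat_lit 76) (nat_lit 48795718675) (nat_lit 21) (nat_lit 5) (nat_lit 24) (nat_lit 5) (nat_lit 22) (nat_lit 5) (nat_lit 378) (nat_lit 293) (nat_lit 109))))) (XT.nd (nat_lit 234) (nat_lit 152) (nat_lit 0) (XT.nd (nat_lit 78) (nat_lit 0) (nat_lit 0) (XT.lf (nat_lit 0) (nat_lit 12941067037) (nat_lit 152) (nat_lit 1210791531) (nat_lit 228) (nat_lit 46802745747) (nat_lit 19) (nat_lit 5) (nat_lit 21) (nat_lit 5) (nat_lit 22) (nat_lit 5) (nat_lit 379) (nat_lit 293) (nat_lit 108)) (XT.nd (nat_lit 78) (nat_lit 0) (nat_lit 0) (XT.lf (nat_lit 0) (nat_lit 20275238276) (nat_lit 228) (nat_lit 33806963963) (nat_lit 76) (nat_lit 8395604064) (nat_lit 19) (nat_lit 5) (nat_lit 22) (nat_lit 5) (nat_lit 20) (nat_lit 5) (nat_lit 380) (nat_lit 293) (nat_lit 107)) (XT.lf (nat_lit 0) (nat_lit 26591962636)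 (nat_lit 228) (nat_lit 19189916859) (nat_lit 76) (nat_lit 18264539222) (nat_lit 19) (nat_lit 5) (nat_lit 22) (nat_lit 5) (nat_lit 20) (nat_lit 5) (nat_lit 381) (nat_lit 293) (nat_lit 106)))) (XT.nd (nat_lit 78) (nat_lit 152) (nat_lit 0) (XT.lf (nat_lit 0) (nat_lit 33095912247) (nat_lit 228) (nat_lit 4137984920) (nat_lit 76) (nat_lit 28428264190) (nat_lit 19) (nat_lit 5) (nat_lit 22) (nat_lit 5) (nat_lit 20) (nat_lit 5) (nat_lit 382) (nat_lit 293) (nat_lit 105)) (XT.nd (nat_lit 78) (nat_lit 0) (nat_lit 0) (XT.lf (nat_lit 0) (nat_lit 11588109787) (nat_lit 152) (nat_lit 28316052386) (nat_lit 228) (nat_lit 27418942104) (nat_lit 17) (nat_lit 5) (nat_lit 19) (nat_lit 5) (nat_lit 20) (nat_lit 5) (nat_lit 383) (nat_lit 293) (nat_lit 104)) (XT.lf (nat_lit 0) (nat_lit 27867325539) (nat_lit 152) (nat_lit 19088940277) (nat_lit 228) (nat_lit 22076424835) (nat_lit 17) (nat_lit 5) (nat_lit 19) (nat_lit 5)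 (nat_lit 20) (nat_lit 5) (nat_lit 384) (nat_lit 293) (nat_lit 103))))))) (XT.nd (nat_lit 858) (nat_lit 2204) (nat_lit 0) (XT.nd (nat_lit 390) (nat_lit 0) (nat_lit 76) (XT.nd (nat_lit 156) (nat_lit 0) (nat_lit 0) (XT.nd (nat_lit 78) (nat_lit 0) (nat_lit 0) (XT.lf (nat_lit 0) (nat_lit 910362945) (nat_lit 0) (nat_lit 910362945) (nat_lit 988) (nat_lit 3983814524) (nat_lit 146) (nat_lit 5) (nat_lit 146) (nat_lit 3) (nat_lit 159) (nat_lit 3) (nat_lit 294) (nat_lit 294) (nat_lit 192)) (XT.lf (nat_lit 0) (nat_lit 4170956613) (nat_lit 988) (nat_lit 5172768068) (nat_lit 1064) (nat_lit 2423821019) (nat_lit 146) (nat_lit 5) (nat_lit 159) (nat_lit 3) (nat_lit 160) (nat_lit 5) (nat_lit 295) (nat_lit 294) (nat_lit 191))) (XT.nd (nat_lit 78) (nat_lit 0) (nat_lit 0) (XT.lf (nat_lit 0) (nat_lit 4716852243) (nat_lit 988) (nat_lit 446211965) (nat_lit 1064) (nat_lit 6767740748) (nat_lit 146) (nat_lit 5) (nat_lit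 159) (nat_lit 3) (nat_lit 160) (nat_lit 5) (nat_lit 296) (nat_lit 294) (nat_lit 190)) (XT.nd (nat_lit 78) (nat_lit 0) (nat_lit 76) (XT.lf (nat_lit 76) (nat_lit 4500771565) (nat_lit 0) (nat_lit 804606340) (nat_lit 1064) (nat_lit 6792850480) (nat_lit 147) (nat_lit 5) (nat_lit 146) (nat_lit 5) (nat_lit 160) (nat_lit 5) (nat_lit 297) (nat_lit 294) (nat_lit 189)) (XT.lf (nat_lit 0) (nat_lit 5934997502) (nat_lit 988) (nat_lit 2710419069) (nat_lit 1064) (nat_lit 3624607215) (nat_lit 147) (nat_lit 5) (nat_lit 160) (nat_lit 5) (nat_lit 161) (nat_lit 5) (nat_lit 298) (nat_lit 294) (nat_lit 188))))) (XT.nd (nat_lit 234) (nat_lit 0) (nat_lit 76) (XT.nd (nat_lit 78) (nat_lit 0) (nat_lit 76) (XT.lf (nat_lit 76) (nat_lit 2351709121) (nat_lit 0) (nat_lit 4246319523) (nat_lit 1064) (nat_lit 5848559607) (nat_lit 148) (nat_lit 5) (nat_lit 147) (nat_lit 5) (nat_lit 161) (nat_lit 5) (nat_lit 299) (nat_lit 294)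 (nat_lit 187)) (XT.nd (nat_lit 78) (nat_lit 0) (nat_lit 0) (XT.lf (nat_lit 0) (nat_lit 7295717629) (nat_lit 988) (nat_lit 5019306976) (nat_lit 1064) (nat_lit 313031443) (nat_lit 148) (nat_lit 5) (nat_lit 161) (nat_lit 5) (nat_lit 162) (nat_lit 5) (nat_lit 300) (nat_lit 294) (nat_lit 186)) (XT.lf (nat_lit 76) (nat_lit 159968089) (nat_lit 0) (nat_lit 7882793175) (nat_lit 1064) (nat_lit 4771401865) (nat_lit 149) (nat_lit 5) (nat_lit 148) (nat_lit 5) (nat_lit 162) (nat_lit 5) (nat_lit 301) (nat_lit 294) (nat_lit 185)))) (XT.nd (nat_lit 78) (nat_lit 0) (nat_lit 76) (XT.lf (nat_lit 76) (nat_lit 5587963779) (nat_lit 0) (nat_lit 3260130753) (nat_lit 1064) (nat_lit 4156729109) (nat_lit 149) (nat_lit 5) (nat_lit 148) (nat_lit 5) (nat_lit 162) (nat_lit 5) (nat_lit 302) (nat_lit 294) (nat_lit 184)) (XT.nd (nat_lit 78) (nat_lit 0) (nat_lit 0) (XT.lf (nat_lit 0) (nat_lit 9677691872) (nat_lit 988) (nat_lit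 2046631138) (nat_lit 1064) (nat_lit 1476923053) (nat_lit 149) (nat_lit 5) (nat_lit 162) (nat_lit 5) (nat_lit 163) (nat_lit 5) (nat_lit 303) (nat_lit 294) (nat_lit 183)) (XT.lf (nat_lit 76) (nat_lit 3511436066) (nat_lit 0) (nat_lit 7072864442) (nat_lit 1064) (nat_lit 2817740844) (nat_lit 150) (nat_lit 5) (nat_lit 149) (nat_lit 5) (nat_lit 163) (nat_lit 5) (nat_lit 304) (nat_lit 294) (nat_lit 182)))))) (XT.nd (nat_lit 468) (nat_lit 1444) (nat_lit 0) (XT.nd (nat_lit 234) (nat_lit 988) (nat_lit 0) (XT.nd (nat_lit 78) (nat_lit 0) (nat_lit 76) (XT.lf (nat_lit 76) (nat_lit 9268781836) (nat_lit 0) (nat_lit 2256397911) (nat_lit 1064) (nat_lit 2083511201) (nat_lit 150) (nat_lit 5) (nat_lit 149) (nat_lit 5) (nat_lit 163) (nat_lit 5) (nat_lit 305) (nat_lit 294) (nat_lit 181)) (XT.nd (nat_lit 78) (nat_lit 0) (nat_lit 0) (XT.lf (nat_lit 76) (nat_lit 1368392896) (nat_lit 0) (nat_lit 11151884533) (nat_lit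 1064) (nat_lit 1300524220) (nat_lit 151) (nat_lit 5) (nat_lit 150) (nat_lit 5) (nat_lit 164) (nat_lit 5) (nat_lit 306) (nat_lit 294) (nat_lit 180)) (XT.lf (nat_lit 76) (nat_lit 7304597549) (nat_lit 0) (nat_lit 6293708669) (nat_lit 1064) (nat_lit 439417278) (nat_lit 151) (nat_lit 5) (nat_lit 150) (nat_lit 5) (nat_lit 164) (nat_lit 5) (nat_lit 307) (nat_lit 294) (nat_lit 179)))) (XT.nd (nat_lit 78) (nat_lit 0) (nat_lit 76) (XT.lf (nat_lit 0) (nat_lit 426135002) (nat_lit 1064) (nat_lit 856103924) (nat_lit 1140) (nat_lit 12979202538) (nat_lit 136) (nat_lit 5) (nat_lit 150) (nat_lit 5) (nat_lit 151) (nat_lit 5) (nat_lit 308) (nat_lit 294) (nat_lit 178)) (XT.nd (nat_lit 78) (nat_lit 0) (nat_lit 0) (XT.lf (nat_lit 0) (nat_lit 1385223483) (nat_lit 1064) (nat_lit 9241706746) (nat_lit 1140) (nat_lit 3862554938) (nat_lit 137) (nat_lit 5) (nat_lit 151) (nat_lit 5) (nat_lit 152) (nat_lit 5) (nat_lit 309)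 (nat_lit 294) (nat_lit 177)) (XT.lf (nat_lit 0) (nat_lit 2382521227) (nat_lit 1064) (nat_lit 3194157737) (nat_lit 1140) (nat_lit 9147443812) (nat_lit 137) (nat_lit 5) (nat_lit 151) (nat_lit 5) (nat_lit 152) (nat_lit 5) (nat_lit 310) (nat_lit 294) (nat_lit 176))))) (XT.nd (nat_lit 234) (nat_lit 532) (nat_lit 0) (XT.nd (nat_lit 78) (nat_lit 988) (nat_lit 0) (XT.lf (nat_lit 76) (nat_lit 3085718204) (nat_lit 0) (nat_lit 342041324) (nat_lit 1140) (nat_lit 11537533991) (nat_lit 138) (nat_lit 5) (nat_lit 137) (nat_lit 5) (nat_lit 152) (nat_lit 5) (nat_lit 311) (nat_lit 294) (nat_lit 175)) (XT.nd (nat_lit 78) (nat_lit 1064) (nat_lit 0) (XT.lf (nat_lit 0) (nat_lit 4574100292) (nat_lit 1064) (nat_lit 5651741643) (nat_lit 76) (nat_lit 4985798732) (nat_lit 138) (nat_lit 5) (nat_lit 152) (nat_lit 5) (nat_lit 139) (nat_lit 5) (nat_lit 312) (nat_lit 294) (nat_lit 174)) (XT.lf (nat_lit 0) (nat_lit 765133241)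 (nat_lit 1064) (nat_lit 4989401693) (nat_lit 1140) (nat_lit 9710884850) (nat_lit 124) (nat_lit 5) (nat_lit 138) (nat_lit 5) (nat_lit 139) (nat_lit 5) (nat_lit 313) (nat_lit 294) (nat_lit 173)))) (XT.nd (nat_lit 78) (nat_lit 532) (nat_lit 0) (XT.lf (nat_lit 0) (nat_lit 7021113726) (nat_lit 1140) (nat_lit 8248797484) (nat_lit 76) (nat_lit 455410843) (nat_lit 124) (nat_lit 5) (nat_lit 139) (nat_lit 5) (nat_lit 125) (nat_lit 5) (nat_lit 314) (nat_lit 294) (nat_lit 172)) (XT.nd (nat_lit 78) (nat_lit 532) (nat_lit 0) (XT.lf (nat_lit 0) (nat_lit 8364613952) (nat_lit 1140) (nat_lit 1662500725) (nat_lit 76) (nat_lit 5964769781) (nat_lit 124) (nat_lit 5) (nat_lit 139) (nat_lit 5) (nat_lit 125) (nat_lit 5) (nat_lit 315) (nat_lit 294) (nat_lit 171)) (XT.lf (nat_lit 0) (nat_lit 5214065122) (nat_lit 532) (nat_lit 4574304024) (nat_lit 608) (nat_lit 6476905983) (nat_lit 117) (nat_lit 5) (nat_lit 124) (nat_lit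 5) (nat_lit 125) (nat_lit 5) (nat_lit 316) (nat_lit 294) (nat_lit 170))))))))
noncomputable def xc200 : XT := (XT.nd (nat_lit 1716) (nat_lit 2356) (nat_lit 0) (XT.nd (nat_lit 858) (nat_lit 1900) (nat_lit 0) (XT.nd (nat_lit 390) (nat_lit 912) (nat_lit 0) (XT.nd (nat_lit 156) (nat_lit 608) (nat_lit 0) (XT.nd (nat_lit 78) (nat_lit 456) (nat_lit 0) (XT.lf (nat_lit 0) (nat_lit 11271857025) (nat_lit 608) (nat_lit 4234853178) (nat_lit 76) (nat_lit 1039675736) (nat_lit 117) (nat_lit 5) (nat_lit 125) (nat_lit 5) (nat_lit 118) (nat_lit 5) (nat_lit 317) (nat_lit 294) (nat_lit 169)) (XT.lf (nat_lit 0) (nat_lit 2786027467) (nat_lit 456) (nat_lit 10076231655) (nat_lit 532) (nat_lit 3971826839) (nat_lit 111) (nat_lit 5) (nat_lit 117) (nat_lit 5) (nat_lit 118) (nat_lit 5) (nat_lit 318) (nat_lit 294) (nat_lit 168))) (XT.nd (nat_lit 78) (nat_lit 608) (nat_lit 0) (XT.lf (nat_lit 0) (nat_lit 10095391340) (nat_lit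 456) (nat_lit 4438279439) (nat_lit 532) (nat_lit 2595774637) (nat_lit 111) (nat_lit 5) (nat_lit 117) (nat_lit 5) (nat_lit 118) (nat_lit 5) (nat_lit 319) (nat_lit 294) (nat_lit 167)) (XT.nd (nat_lit 78) (nat_lit 76) (nat_lit 0) (XT.lf (nat_lit 0) (nat_lit 171560579) (nat_lit 532) (nat_lit 16089285485) (nat_lit 608) (nat_lit 1172677510) (nat_lit 104) (nat_lit 5) (nat_lit 111) (nat_lit 5) (nat_lit 112) (nat_lit 5) (nat_lit 320) (nat_lit 294) (nat_lit 166)) (XT.lf (nat_lit 0) (nat_lit 393951366) (nat_lit 608) (nat_lit 10063640571) (nat_lit 76) (nat_lit 7285875890) (nat_lit 103) (nat_lit 5) (nat_lit 111) (nat_lit 5) (nat_lit 104) (nat_lit 5) (nat_lit 321) (nat_lit 294) (nat_lit 165))))) (XT.nd (nat_lit 234) (nat_lit 456) (nat_lit 0) (XT.nd (nat_lit 78) (nat_lit 456) (nat_lit 0) (XT.lf (nat_lit 0) (nat_lit 1975156768) (nat_lit 608) (nat_lit 2669831647) (nat_lit 76) (nat_lit 13417663560) (nat_lit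 103) (nat_lit 5) (nat_lit 111) (nat_lit 5) (nat_lit 104) (nat_lit 5) (nat_lit 322) (nat_lit 294) (nat_lit 164)) (XT.nd (nat_lit 78) (nat_lit 0) (nat_lit 0) (XT.lf (nat_lit 0) (nat_lit 3656986691) (nat_lit 532) (nat_lit 13368163501) (nat_lit 76) (nat_lit 1364689400) (nat_lit 97) (nat_lit 5) (nat_lit 104) (nat_lit 5) (nat_lit 98) (nat_lit 5) (nat_lit 323) (nat_lit 294) (nat_lit 163)) (XT.lf (nat_lit 0) (nat_lit 5454061373) (nat_lit 532) (nat_lit 5782418252) (nat_lit 76) (nat_lit 7488442428) (nat_lit 97) (nat_lit 5) (nat_lit 104) (nat_lit 5) (nat_lit 98) (nat_lit 5) (nat_lit 324) (nat_lit 294) (nat_lit 162)))) (XT.nd (nat_lit 78) (nat_lit 0) (nat_lit 0) (XT.lf (nat_lit 0) (nat_lit 2062619071) (nat_lit 456) (nat_lit 5254074709) (nat_lit 532) (nat_lit 11753036084) (nat_lit 91) (nat_lit 5) (nat_lit 97) (nat_lit 5) (nat_lit 98) (nat_lit 5) (nat_lit 325) (nat_lit 294) (nat_lit 161)) (XT.nd (nat_lit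 78) (nat_lit 0) (nat_lit 0) (XT.lf (nat_lit 0) (nat_lit 9294872124) (nat_lit 532) (nat_lit 9179597312) (nat_lit 76) (nat_lit 948644060) (nat_lit 91) (nat_lit 5) (nat_lit 98) (nat_lit 5) (nat_lit 92) (nat_lit 5) (nat_lit 326) (nat_lit 294) (nat_lit 160)) (XT.lf (nat_lit 0) (nat_lit 11376621598) (nat_lit 532) (nat_lit 1177729522) (nat_lit 76) (nat_lit 7231441709) (nat_lit 91) (nat_lit 5) (nat_lit 98) (nat_lit 5) (nat_lit 92) (nat_lit 5) (nat_lit 327) (nat_lit 294) (nat_lit 159)))))) (XT.nd (nat_lit 390) (nat_lit 684) (nat_lit 0) (XT.nd (nat_lit 156) (nat_lit 836) (nat_lit 0) (XT.nd (nat_lit 78) (nat_lit 0) (nat_lit 0) (XT.lf (nat_lit 0) (nat_lit 7196417912) (nat_lit 380) (nat_lit 6386014285) (nat_lit 456) (nat_lit 6575092440) (nat_lit 86) (nat_lit 5) (nat_lit 91) (nat_lit 5) (nat_lit 92) (nat_lit 5) (nat_lit 328) (nat_lit 294) (nat_lit 158)) (XT.lf (nat_lit 0) (nat_lit 15837808084) (nat_lit 380)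 (nat_lit 21076387) (nat_lit 456) (nat_lit 4681409670) (nat_lit 86) (nat_lit 5) (nat_lit 91) (nat_lit 5) (nat_lit 92) (nat_lit 5) (nat_lit 329) (nat_lit 294) (nat_lit 157))) (XT.nd (nat_lit 78) (nat_lit 456) (nat_lit 0) (XT.lf (nat_lit 0) (nat_lit 3807253564) (nat_lit 380) (nat_lit 14488575339) (nat_lit 456) (nat_lit 2635971057) (nat_lit 81) (nat_lit 5) (nat_lit 86) (nat_lit 5) (nat_lit 87) (nat_lit 5) (nat_lit 330) (nat_lit 294) (nat_lit 156)) (XT.nd (nat_lit 78) (nat_lit 456) (nat_lit 0) (XT.lf (nat_lit 0) (nat_lit 12660432165) (nat_lit 380) (nat_lit 8186059285) (nat_lit 456) (nat_lit 487359837) (nat_lit 81) (nat_lit 5) (nat_lit 86) (nat_lit 5) (nat_lit 87) (nat_lit 5) (nat_lit 331) (nat_lit 294) (nat_lit 155)) (XT.lf (nat_lit 0) (nat_lit 6827851) (nat_lit 380) (nat_lit 1678310427) (nat_lit 456) (nat_lit 20062552675) (nat_lit 75) (nat_lit 5) (nat_lit 80) (nat_lit 5) (nat_lit 81) (nat_lit 5)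 (nat_lit 332) (nat_lit 294) (nat_lit 154))))) (XT.nd (nat_lit 234) (nat_lit 304) (nat_lit 0) (XT.nd (nat_lit 78) (nat_lit 380) (nat_lit 0) (XT.lf (nat_lit 0) (nat_lit 4042922518) (nat_lit 456) (nat_lit 13108124983) (nat_lit 76) (nat_lit 5018873397) (nat_lit 75) (nat_lit 5) (nat_lit 81) (nat_lit 5) (nat_lit 76) (nat_lit 5) (nat_lit 333) (nat_lit 294) (nat_lit 153)) (XT.nd (nat_lit 78) (nat_lit 380) (nat_lit 0) (XT.lf (nat_lit 0) (nat_lit 6481411316) (nat_lit 456) (nat_lit 4240878744) (nat_lit 76) (nat_lit 11882245100) (nat_lit 75) (nat_lit 5) (nat_lit 81) (nat_lit 5) (nat_lit 76) (nat_lit 5) (nat_lit 334) (nat_lit 294) (nat_lit 152)) (XT.lf (nat_lit 0) (nat_lit 4981972873) (nat_lit 380) (nat_lit 4052519341) (nat_lit 456) (nat_lit 14016468581) (nat_lit 70) (nat_lit 5) (nat_lit 75) (nat_lit 5) (nat_lit 76) (nat_lit 5) (nat_lit 335) (nat_lit 294) (nat_lit 151)))) (XT.nd (nat_lit 78) (nat_lit 304)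 (nat_lit 0) (XT.lf (nat_lit 0) (nat_lit 11728147440) (nat_lit 456) (nat_lit 8976304086) (nat_lit 76) (nat_lit 2804423817) (nat_lit 70) (nat_lit 5) (nat_lit 76) (nat_lit 5) (nat_lit 71) (nat_lit 5) (nat_lit 336) (nat_lit 294) (nat_lit 150)) (XT.nd (nat_lit 78) (nat_lit 0) (nat_lit 0) (XT.lf (nat_lit 0) (nat_lit 348311301) (nat_lit 304) (nat_lit 14191609367) (nat_lit 380) (nat_lit 9439502555) (nat_lit 66) (nat_lit 5) (nat_lit 70) (nat_lit 5) (nat_lit 71) (nat_lit 5) (nat_lit 337) (nat_lit 294) (nat_lit 149)) (XT.lf (nat_lit 0) (nat_lit 10129222508) (nat_lit 304) (nat_lit 7391411798) (nat_lit 380) (nat_lit 6940930321) (nat_lit 66) (nat_lit 5) (nat_lit 70) (nat_lit 5) (nat_lit 71) (nat_lit 5) (nat_lit 338) (nat_lit 294) (nat_lit 148))))))) (XT.nd (nat_lit 858) (nat_lit 1140) (nat_lit 0) (XT.nd (nat_lit 390) (nat_lit 532) (nat_lit 0) (XT.nd (nat_lit 156) (nat_lit 380) (nat_lit 0) (XT.nd (nat_lit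 78) (nat_lit 304) (nat_lit 0) (XT.lf (nat_lit 0) (nat_lit 20196329910) (nat_lit 304) (nat_lit 388559971) (nat_lit 380) (nat_lit 4373471054) (nat_lit 66) (nat_lit 5) (nat_lit 70) (nat_lit 5) (nat_lit 71) (nat_lit 5) (nat_lit 339) (nat_lit 294) (nat_lit 147)) (XT.lf (nat_lit 0) (nat_lit 5122555806) (nat_lit 304) (nat_lit 18727637706) (nat_lit 380) (nat_lit 1616607869) (nat_lit 62) (nat_lit 5) (nat_lit 66) (nat_lit 5) (nat_lit 67) (nat_lit 5) (nat_lit 340) (nat_lit 294) (nat_lit 146))) (XT.nd (nat_lit 78) (nat_lit 304) (nat_lit 0) (XT.lf (nat_lit 0) (nat_lit 1245815702) (nat_lit 380) (nat_lit 10611083142) (nat_lit 76) (nat_lit 14131855020) (nat_lit 61) (nat_lit 5) (nat_lit 66) (nat_lit 5) (nat_lit 62) (nat_lit 5) (nat_lit 341) (nat_lit 294) (nat_lit 145)) (XT.nd (nat_lit 78) (nat_lit 304) (nat_lit 0) (XT.lf (nat_lit 0) (nat_lit 4156093993) (nat_lit 380) (nat_lit 608969559) (nat_lit 76) (nat_lit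 21760999646) (nat_lit 61) (nat_lit 5) (nat_lit 66) (nat_lit 5) (nat_lit 62) (nat_lit 5) (nat_lit 342) (nat_lit 294) (nat_lit 144)) (XT.lf (nat_lit 0) (nat_lit 7268617880) (nat_lit 380) (nat_lit 17223001200) (nat_lit 76) (nat_lit 2584436930) (nat_lit 57) (nat_lit 5) (nat_lit 62) (nat_lit 5) (nat_lit 58) (nat_lit 5) (nat_lit 343) (nat_lit 294) (nat_lit 143))))) (XT.nd (nat_lit 234) (nat_lit 228) (nat_lit 0) (XT.nd (nat_lit 78) (nat_lit 304) (nat_lit 0) (XT.lf (nat_lit 0) (nat_lit 10522618664) (nat_lit 380) (nat_lit 7055102224) (nat_lit 76) (nat_lit 10063396639) (nat_lit 57) (nat_lit 5) (nat_lit 62) (nat_lit 5) (nat_lit 58) (nat_lit 5) (nat_lit 344) (nat_lit 294) (nat_lit 142)) (XT.nd (nat_lit 78) (nat_lit 0) (nat_lit 0) (XT.lf (nat_lit 0) (nat_lit 3479001614) (nat_lit 304) (nat_lit 10423546218) (nat_lit 380) (nat_lit 14319745416) (nat_lit 53) (nat_lit 5) (nat_lit 57) (nat_lit 5) (nat_lit 58)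 (nat_lit 5) (nat_lit 345) (nat_lit 294) (nat_lit 141)) (XT.lf (nat_lit 0) (nat_lit 14467097169) (nat_lit 304) (nat_lit 2982972042) (nat_lit 380) (nat_lit 11368860468) (nat_lit 53) (nat_lit 5) (nat_lit 57) (nat_lit 5) (nat_lit 58) (nat_lit 5) (nat_lit 346) (nat_lit 294) (nat_lit 140)))) (XT.nd (nat_lit 78) (nat_lit 228) (nat_lit 0) (XT.lf (nat_lit 0) (nat_lit 21144094823) (nat_lit 380) (nat_lit 3700227777) (nat_lit 76) (nat_lit 4587951188) (nat_lit 53) (nat_lit 5) (nat_lit 58) (nat_lit 5) (nat_lit 54) (nat_lit 5) (nat_lit 347) (nat_lit 294) (nat_lit 139)) (XT.nd (nat_lit 78) (nat_lit 0) (nat_lit 0) (XT.lf (nat_lit 0) (nat_lit 7378970069) (nat_lit 228) (nat_lit 17665663570) (nat_lit 304) (nat_lit 5016524431) (nat_lit 50) (nat_lit 5) (nat_lit 53) (nat_lit 5) (nat_lit 54) (nat_lit 5) (nat_lit 348) (nat_lit 294) (nat_lit 138)) (XT.lf (nat_lit 0) (nat_lit 18860046808) (nat_lit 228) (nat_lit 10234811743)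 (nat_lit 304) (nat_lit 1613080546) (nat_lit 50) (nat_lit 5) (nat_lit 53) (nat_lit 5) (nat_lit 54) (nat_lit 5) (nat_lit 349) (nat_lit 294) (nat_lit 137)))))) (XT.nd (nat_lit 390) (nat_lit 532) (nat_lit 0) (XT.nd (nat_lit 156) (nat_lit 228) (nat_lit 0) (XT.nd (nat_lit 78) (nat_lit 304) (nat_lit 0) (XT.lf (nat_lit 0) (nat_lit 1850924500) (nat_lit 304) (nat_lit 713023977) (nat_lit 76) (nat_lit 28809777451) (nat_lit 49) (nat_lit 5) (nat_lit 53) (nat_lit 5) (nat_lit 50) (nat_lit 5) (nat_lit 350) (nat_lit 294) (nat_lit 136)) (XT.lf (nat_lit 0) (nat_lit 5539670664) (nat_lit 380) (nat_lit 21161020127) (nat_lit 76) (nat_lit 5353728610) (nat_lit 45) (nat_lit 5) (nat_lit 50) (nat_lit 5) (nat_lit 46) (nat_lit 5) (nat_lit 351) (nat_lit 294) (nat_lit 135))) (XT.nd (nat_lit 78) (nat_lit 228) (nat_lit 0) (XT.lf (nat_lit 0) (nat_lit 9367314355) (nat_lit 380) (nat_lit 9924291521) (nat_lit 76) (nat_lit 13463089914)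 (nat_lit 45) (nat_lit 5) (nat_lit 50) (nat_lit 5) (nat_lit 46) (nat_lit 5) (nat_lit 352) (nat_lit 294) (nat_lit 134)) (XT.nd (nat_lit 78) (nat_lit 0) (nat_lit 0) (XT.lf (nat_lit 0) (nat_lit 1676279836) (nat_lit 228) (nat_lit 11645327820) (nat_lit 304) (nat_lit 20154027099) (nat_lit 42) (nat_lit 5) (nat_lit 45) (nat_lit 5) (nat_lit 46) (nat_lit 5) (nat_lit 353) (nat_lit 294) (nat_lit 133)) (XT.lf (nat_lit 0) (nat_lit 13822395740) (nat_lit 228) (nat_lit 3668125001) (nat_lit 304) (nat_lit 16724810059) (nat_lit 42) (nat_lit 5) (nat_lit 45) (nat_lit 5) (nat_lit 46) (nat_lit 5) (nat_lit 354) (nat_lit 294) (nat_lit 132))))) (XT.nd (nat_lit 234) (nat_lit 304) (nat_lit 0) (XT.nd (nat_lit 78) (nat_lit 228) (nat_lit 0) (XT.lf (nat_lit 0) (nat_lit 21824105581) (nat_lit 304) (nat_lit 8693898937) (nat_lit 76) (nat_lit 4458033461) (nat_lit 42) (nat_lit 5) (nat_lit 46) (nat_lit 5) (nat_lit 43) (nat_lit 5)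 (nat_lit 355) (nat_lit 294) (nat_lit 131)) (XT.nd (nat_lit 78) (nat_lit 0) (nat_lit 0) (XT.lf (nat_lit 0) (nat_lit 3380063542) (nat_lit 228) (nat_lit 22972446081) (nat_lit 304) (nat_lit 9405120544) (nat_lit 39) (nat_lit 5) (nat_lit 42) (nat_lit 5) (nat_lit 43) (nat_lit 5) (nat_lit 356) (nat_lit 294) (nat_lit 130)) (XT.lf (nat_lit 0) (nat_lit 15988833153) (nat_lit 228) (nat_lit 15111788649) (nat_lit 304) (nat_lit 5459540541) (nat_lit 39) (nat_lit 5) (nat_lit 42) (nat_lit 5) (nat_lit 43) (nat_lit 5) (nat_lit 357) (nat_lit 294) (nat_lit 129)))) (XT.nd (nat_lit 78) (nat_lit 304) (nat_lit 0) (XT.lf (nat_lit 0) (nat_lit 28970401631) (nat_lit 228) (nat_lit 7016955020) (nat_lit 304) (nat_lit 1399536130) (nat_lit 39) (nat_lit 5) (nat_lit 42) (nat_lit 5) (nat_lit 43) (nat_lit 5) (nat_lit 358) (nat_lit 294) (nat_lit 128)) (XT.nd (nat_lit 78) (nat_lit 0) (nat_lit 0) (XT.lf (nat_lit 0) (nat_lit 2777473138)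 (nat_lit 304) (nat_lit 34098006905) (nat_lit 76) (nat_lit 1360665073) (nat_lit 35) (nat_lit 5) (nat_lit 39) (nat_lit 5) (nat_lit 36) (nat_lit 5) (nat_lit 359) (nat_lit 294) (nat_lit 127)) (XT.lf (nat_lit 0) (nat_lit 7203258589) (nat_lit 304) (nat_lit 21955998451) (nat_lit 76) (nat_lit 9946661443) (nat_lit 35) (nat_lit 5) (nat_lit 39) (nat_lit 5) (nat_lit 36) (nat_lit 5) (nat_lit 360) (nat_lit 294) (nat_lit 126))))))))
noncomputable def xc201 : XT := (XT.nd (nat_lit 1716) (nat_lit 0) (nat_lit 0) (XT.nd (nat_lit 858) (nat_lit 532) (nat_lit 0) (XT.nd (nat_lit 390) (nat_lit 304) (nat_lit 0) (XT.nd (nat_lit 156) (nat_lit 152) (nat_lit 0) (XT.nd (nat_lit 78) (nat_lit 228) (nat_lit 0) (XT.lf (nat_lit 0) (nat_lit 11758214546) (nat_lit 304) (nat_lit 9455007726) (nat_lit 76) (nat_lit 18788677692) (nat_lit 35) (nat_lit 5) (nat_lit 39) (nat_lit 5) (nat_lit 36) (nat_lit 5) (nat_lit 361) (nat_lit 294) (nat_lit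 125)) (XT.lf (nat_lit 0) (nat_lit 3483871344) (nat_lit 228) (nat_lit 12995938824) (nat_lit 304) (nat_lit 24444057609) (nat_lit 32) (nat_lit 5) (nat_lit 35) (nat_lit 5) (nat_lit 36) (nat_lit 5) (nat_lit 362) (nat_lit 294) (nat_lit 124))) (XT.nd (nat_lit 78) (nat_lit 152) (nat_lit 0) (XT.lf (nat_lit 0) (nat_lit 16999661159) (nat_lit 228) (nat_lit 4435424537) (nat_lit 304) (nat_lit 20435654396) (nat_lit 32) (nat_lit 5) (nat_lit 35) (nat_lit 5) (nat_lit 36) (nat_lit 5) (nat_lit 363) (nat_lit 294) (nat_lit 123)) (XT.nd (nat_lit 78) (nat_lit 152) (nat_lit 0) (XT.lf (nat_lit 0) (nat_lit 26577781178) (nat_lit 304) (nat_lit 11972233069) (nat_lit 76) (nat_lit 4294847719) (nat_lit 32) (nat_lit 5) (nat_lit 36) (nat_lit 5) (nat_lit 33) (nat_lit 5) (nat_lit 364) (nat_lit 294) (nat_lit 122)) (XT.lf (nat_lit 0) (nat_lit 1289963447) (nat_lit 152) (nat_lit 30637847082) (nat_lit 228) (nat_lit 11918811434) (nat_lit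 30) (nat_lit 5) (nat_lit 32) (nat_lit 5) (nat_lit 33) (nat_lit 5) (nat_lit 365) (nat_lit 294) (nat_lit 121))))) (XT.nd (nat_lit 234) (nat_lit 228) (nat_lit 0) (XT.nd (nat_lit 78) (nat_lit 76) (nat_lit 0) (XT.lf (nat_lit 0) (nat_lit 15190621195) (nat_lit 152) (nat_lit 22365402281) (nat_lit 228) (nat_lit 7318886684) (nat_lit 30) (nat_lit 5) (nat_lit 32) (nat_lit 5) (nat_lit 33) (nat_lit 5) (nat_lit 366) (nat_lit 294) (nat_lit 120)) (XT.nd (nat_lit 78) (nat_lit 76) (nat_lit 0) (XT.lf (nat_lit 0) (nat_lit 29503615469) (nat_lit 152) (nat_lit 13846347572) (nat_lit 228) (nat_lit 2584183266) (nat_lit 30) (nat_lit 5) (nat_lit 32) (nat_lit 5) (nat_lit 33) (nat_lit 5) (nat_lit 367) (nat_lit 294) (nat_lit 119)) (XT.lf (nat_lit 0) (nat_lit 2244760796) (nat_lit 228) (nat_lit 2805810642) (nat_lit 76) (nat_lit 41974024289) (nat_lit 29) (nat_lit 5) (nat_lit 32) (nat_lit 5) (nat_lit 30) (nat_lit 5) (nat_lit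 368) (nat_lit 294) (nat_lit 118)))) (XT.nd (nat_lit 78) (nat_lit 0) (nat_lit 0) (XT.lf (nat_lit 0) (nat_lit 7313302354) (nat_lit 304) (nat_lit 36763215332) (nat_lit 76) (nat_lit 4066078529) (nat_lit 26) (nat_lit 5) (nat_lit 30) (nat_lit 5) (nat_lit 27) (nat_lit 5) (nat_lit 369) (nat_lit 294) (nat_lit 117)) (XT.nd (nat_lit 78) (nat_lit 0) (nat_lit 0) (XT.lf (nat_lit 0) (nat_lit 12609574018) (nat_lit 304) (nat_lit 23300441830) (nat_lit 76) (nat_lit 13381855727) (nat_lit 26) (nat_lit 5) (nat_lit 30) (nat_lit 5) (nat_lit 27) (nat_lit 5) (nat_lit 370) (nat_lit 294) (nat_lit 116)) (XT.lf (nat_lit 0) (nat_lit 18061874112) (nat_lit 304) (nat_lit 9438167111) (nat_lit 76) (nat_lit 22975674689) (nat_lit 26) (nat_lit 5) (nat_lit 30) (nat_lit 5) (nat_lit 27) (nat_lit 5) (nat_lit 371) (nat_lit 294) (nat_lit 115)))))) (XT.nd (nat_lit 390) (nat_lit 228) (nat_lit 0) (XT.nd (nat_lit 156) (nat_lit 152) (nat_lit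 0) (XT.nd (nat_lit 78) (nat_lit 0) (nat_lit 0) (XT.lf (nat_lit 0) (nat_lit 4931961830) (nat_lit 152) (nat_lit 18790413987) (nat_lit 228) (nat_lit 27971365569) (nat_lit 24) (nat_lit 5) (nat_lit 26) (nat_lit 5) (nat_lit 27) (nat_lit 5) (nat_lit 372) (nat_lit 294) (nat_lit 114)) (XT.lf (nat_lit 0) (nat_lit 19922455166) (nat_lit 152) (nat_lit 9722808335) (nat_lit 228) (nat_lit 23300271637) (nat_lit 24) (nat_lit 5) (nat_lit 26) (nat_lit 5) (nat_lit 27) (nat_lit 5) (nat_lit 373) (nat_lit 294) (nat_lit 113))) (XT.nd (nat_lit 78) (nat_lit 152) (nat_lit 0) (XT.lf (nat_lit 0) (nat_lit 35358573353) (nat_lit 152) (nat_lit 384608099) (nat_lit 228) (nat_lit 18491785449) (nat_lit 24) (nat_lit 5) (nat_lit 26) (nat_lit 5) (nat_lit 27) (nat_lit 5) (nat_lit 374) (nat_lit 294) (nat_lit 112)) (XT.nd (nat_lit 78) (nat_lit 152) (nat_lit 0) (XT.lf (nat_lit 0) (nat_lit 42110204910) (nat_lit 228) (nat_lit 4398106064)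 (nat_lit 76) (nat_lit 9052189982) (nat_lit 24) (nat_lit 5) (nat_lit 27) (nat_lit 5) (nat_lit 25) (nat_lit 5) (nat_lit 375) (nat_lit 294) (nat_lit 111)) (XT.lf (nat_lit 0) (nat_lit 10715906430) (nat_lit 152) (nat_lit 38056631623) (nat_lit 228) (nat_lit 8150138258) (nat_lit 22) (nat_lit 5) (nat_lit 24) (nat_lit 5) (nat_lit 25) (nat_lit 5) (nat_lit 376) (nat_lit 294) (nat_lit 110))))) (XT.nd (nat_lit 234) (nat_lit 152) (nat_lit 0) (XT.nd (nat_lit 78) (nat_lit 76) (nat_lit 0) (XT.lf (nat_lit 0) (nat_lit 26369613063) (nat_lit 152) (nat_lit 29307059488) (nat_lit 228) (nat_lit 2647790560) (nat_lit 22) (nat_lit 5) (nat_lit 24) (nat_lit 5) (nat_lit 25) (nat_lit 5) (nat_lit 377) (nat_lit 294) (nat_lit 109)) (XT.nd (nat_lit 78) (nat_lit 0) (nat_lit 0) (XT.lf (nat_lit 0) (nat_lit 2958267356) (nat_lit 228) (nat_lit 17308221505) (nat_lit 76) (nat_lit 39501020840) (nat_lit 21) (nat_lit 5) (nat_lit 24) (nat_lit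 5) (nat_lit 22) (nat_lit 5) (nat_lit 378) (nat_lit 294) (nat_lit 108)) (XT.lf (nat_lit 0) (nat_lit 8676923602) (nat_lit 228) (nat_lit 2252120898) (nat_lit 76) (nat_lit 50324091454) (nat_lit 21) (nat_lit 5) (nat_lit 24) (nat_lit 5) (nat_lit 22) (nat_lit 5) (nat_lit 379) (nat_lit 294) (nat_lit 107)))) (XT.nd (nat_lit 78) (nat_lit 0) (nat_lit 0) (XT.lf (nat_lit 0) (nat_lit 13515801743) (nat_lit 152) (nat_lit 1178963403) (nat_lit 228) (nat_lit 48084740745) (nat_lit 19) (nat_lit 5) (nat_lit 21) (nat_lit 5) (nat_lit 22) (nat_lit 5) (nat_lit 380) (nat_lit 294) (nat_lit 106)) (XT.nd (nat_lit 78) (nat_lit 0) (nat_lit 0) (XT.lf (nat_lit 0) (nat_lit 20999035171) (nat_lit 228) (nat_lit 34637110619) (nat_lit 76) (nat_lit 8712347899) (nat_lit 19) (nat_lit 5) (nat_lit 22) (nat_lit 5) (nat_lit 20) (nat_lit 5) (nat_lit 381) (nat_lit 294) (nat_lit 105)) (XT.lf (nat_lit 0) (nat_lit 27501896026) (nat_lit 228)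 (nat_lit 19586913139) (nat_lit 76) (nat_lit 18875461529) (nat_lit 19) (nat_lit 5) (nat_lit 22) (nat_lit 5) (nat_lit 20) (nat_lit 5) (nat_lit 382) (nat_lit 294) (nat_lit 104))))))) (XT.nd (nat_lit 34554) (nat_lit 0) (nat_lit 7980) (XT.nd (nat_lit 34086) (nat_lit 0) (nat_lit 9728) (XT.nd (nat_lit 33852) (nat_lit 0) (nat_lit 9652) (XT.nd (nat_lit 33774) (nat_lit 0) (nat_lit 9652) (XT.lf (nat_lit 0) (nat_lit 34197696907) (nat_lit 228) (nat_lit 4088628132) (nat_lit 76) (nat_lit 29342263698) (nat_lit 19) (nat_lit 5) (nat_lit 22) (nat_lit 5) (nat_lit 20) (nat_lit 5) (nat_lit 383) (nat_lit 294) (nat_lit 103)) (XT.lf (nat_lit 0) (nat_lit 1161065664) (nat_lit 0) (nat_lit 1161065664) (nat_lit 988) (nat_lit 3641730635) (nat_lit 146) (nat_lit 5) (nat_lit 146) (nat_lit 3) (nat_lit 159) (nat_lit 3) (nat_lit 295) (nat_lit 295) (nat_lit 190))) (XT.nd (nat_lit 78) (nat_lit 0) (nat_lit 0) (XT.lf (nat_lit 0) (nat_lit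 5159456736) (nat_lit 988) (nat_lit 4861244563) (nat_lit 1064) (nat_lit 2071229529) (nat_lit 146) (nat_lit 5) (nat_lit 159) (nat_lit 3) (nat_lit 160) (nat_lit 5) (nat_lit 296) (nat_lit 295) (nat_lit 189)) (XT.nd (nat_lit 78) (nat_lit 0) (nat_lit 0) (XT.lf (nat_lit 0) (nat_lit 5696582495) (nat_lit 988) (nat_lit 6485172) (nat_lit 1064) (nat_lit 6557854407) (nat_lit 146) (nat_lit 5) (nat_lit 159) (nat_lit 3) (nat_lit 160) (nat_lit 5) (nat_lit 297) (nat_lit 295) (nat_lit 188)) (XT.lf (nat_lit 76) (nat_lit 5084465579) (nat_lit 0) (nat_lit 1198196936) (nat_lit 1064) (nat_lit 6151386217) (nat_lit 147) (nat_lit 5) (nat_lit 146) (nat_lit 5) (nat_lit 160) (nat_lit 5) (nat_lit 298) (nat_lit 295) (nat_lit 187))))) (XT.nd (nat_lit 234) (nat_lit 0) (nat_lit 76) (XT.nd (nat_lit 78) (nat_lit 0) (nat_lit 0) (XT.lf (nat_lit 0) (nat_lit 6903893903) (nat_lit 988) (nat_lit 2326344482) (nat_lit 1064) (nat_lit 3381653142)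 (nat_lit 147) (nat_lit 5) (nat_lit 160) (nat_lit 5) (nat_lit 161) (nat_lit 5) (nat_lit 299) (nat_lit 295) (nat_lit 186)) (XT.nd (nat_lit 78) (nat_lit 0) (nat_lit 76) (XT.lf (nat_lit 76) (nat_lit 2883084935) (nat_lit 0) (nat_lit 4685126408) (nat_lit 1064) (nat_lit 5226172758) (nat_lit 148) (nat_lit 5) (nat_lit 147) (nat_lit 5) (nat_lit 161) (nat_lit 5) (nat_lit 300) (nat_lit 295) (nat_lit 185)) (XT.lf (nat_lit 0) (nat_lit 8261432173) (nat_lit 988) (nat_lit 4694721261) (nat_lit 1064) (nat_lit 25975371) (nat_lit 148) (nat_lit 5) (nat_lit 161) (nat_lit 5) (nat_lit 162) (nat_lit 5) (nat_lit 301) (nat_lit 295) (nat_lit 184)))) (XT.nd (nat_lit 78) (nat_lit 0) (nat_lit 0) (XT.lf (nat_lit 76) (nat_lit 635273577) (nat_lit 0) (nat_lit 8378383627) (nat_lit 1064) (nat_lit 4160747636) (nat_lit 149) (nat_lit 5) (nat_lit 148) (nat_lit 5) (nat_lit 162) (nat_lit 5) (nat_lit 302) (nat_lit 295) (nat_lit 183))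 (XT.nd (nat_lit 78) (nat_lit 0) (nat_lit 76) (XT.lf (nat_lit 76) (nat_lit 6212405066) (nat_lit 0) (nat_lit 3609494537) (nat_lit 1064) (nat_lit 3549589929) (nat_lit 149) (nat_lit 5) (nat_lit 148) (nat_lit 5) (nat_lit 162) (nat_lit 5) (nat_lit 303) (nat_lit 295) (nat_lit 182)) (XT.lf (nat_lit 0) (nat_lit 10653405237) (nat_lit 988) (nat_lit 1639389936) (nat_lit 1064) (nat_lit 1281763733) (nat_lit 149) (nat_lit 5) (nat_lit 162) (nat_lit 5) (nat_lit 163) (nat_lit 5) (nat_lit 304) (nat_lit 295) (nat_lit 181)))))) (XT.nd (nat_lit 390) (nat_lit 912) (nat_lit 0) (XT.nd (nat_lit 156) (nat_lit 988) (nat_lit 0) (XT.nd (nat_lit 78) (nat_lit 0) (nat_lit 0) (XT.lf (nat_lit 76) (nat_lit 4080824773) (nat_lit 0) (nat_lit 7490885450) (nat_lit 1064) (nat_lit 2210195890) (nat_lit 150) (nat_lit 5) (nat_lit 149) (nat_lit 5) (nat_lit 163) (nat_lit 5) (nat_lit 305) (nat_lit 295) (nat_lit 180)) (XT.lf (nat_lit 76) (nat_lit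 9997375024) (nat_lit 0) (nat_lit 2523929727) (nat_lit 1064) (nat_lit 1474096946) (nat_lit 150) (nat_lit 5) (nat_lit 149) (nat_lit 5) (nat_lit 163) (nat_lit 5) (nat_lit 306) (nat_lit 295) (nat_lit 179))) (XT.nd (nat_lit 78) (nat_lit 1064) (nat_lit 0) (XT.lf (nat_lit 76) (nat_lit 1878798313) (nat_lit 0) (nat_lit 11651160928) (nat_lit 1064) (nat_lit 684464746) (nat_lit 151) (nat_lit 5) (nat_lit 150) (nat_lit 5) (nat_lit 164) (nat_lit 5) (nat_lit 307) (nat_lit 295) (nat_lit 178)) (XT.nd (nat_lit 78) (nat_lit 0) (nat_lit 0) (XT.lf (nat_lit 0) (nat_lit 179816834) (nat_lit 1064) (nat_lit 6460809490) (nat_lit 1140) (nat_lit 7797785980) (nat_lit 136) (nat_lit 5) (nat_lit 150) (nat_lit 5) (nat_lit 151) (nat_lit 5) (nat_lit 308) (nat_lit 295) (nat_lit 177)) (XT.lf (nat_lit 0) (nat_lit 1044341168) (nat_lit 1064) (nat_lit 425515613) (nat_lit 1140) (nat_lit 13199453733) (nat_lit 136) (nat_lit 5) (nat_lit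 150) (nat_lit 5) (nat_lit 151) (nat_lit 5) (nat_lit 309) (nat_lit 295) (nat_lit 176))))) (XT.nd (nat_lit 234) (nat_lit 988) (nat_lit 0) (XT.nd (nat_lit 78) (nat_lit 0) (nat_lit 0) (XT.lf (nat_lit 0) (nat_lit 2017562642) (nat_lit 1064) (nat_lit 9046288092) (nat_lit 1140) (nat_lit 3840836749) (nat_lit 137) (nat_lit 5) (nat_lit 151) (nat_lit 5) (nat_lit 152) (nat_lit 5) (nat_lit 310) (nat_lit 295) (nat_lit 175)) (XT.nd (nat_lit 78) (nat_lit 0) (nat_lit 0) (XT.lf (nat_lit 0) (nat_lit 3027572062) (nat_lit 1064) (nat_lit 2831079696) (nat_lit 1140) (nat_lit 9288279906) (nat_lit 137) (nat_lit 5) (nat_lit 151) (nat_lit 5) (nat_lit 152) (nat_lit 5) (nat_lit 311) (nat_lit 295) (nat_lit 174)) (XT.lf (nat_lit 76) (nat_lit 3632693476) (nat_lit 0) (nat_lit 459135969) (nat_lit 1140) (nat_lit 11303927960) (nat_lit 138) (nat_lit 5) (nat_lit 137) (nat_lit 5) (nat_lit 152) (nat_lit 5) (nat_lit 312) (nat_lit 295)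 (nat_lit 173)))) (XT.nd (nat_lit 78) (nat_lit 1064) (nat_lit 0) (XT.lf (nat_lit 0) (nat_lit 5255216683) (nat_lit 1064) (nat_lit 5361171956) (nat_lit 76) (nat_lit 5033674927) (nat_lit 138) (nat_lit 5) (nat_lit 152) (nat_lit 5) (nat_lit 139) (nat_lit 5) (nat_lit 313) (nat_lit 295) (nat_lit 172)) (XT.nd (nat_lit 78) (nat_lit 0) (nat_lit 0) (XT.lf (nat_lit 0) (nat_lit 1243698175) (nat_lit 1064) (nat_lit 5215904245) (nat_lit 1140) (nat_lit 9452244374) (nat_lit 124) (nat_lit 5) (nat_lit 138) (nat_lit 5) (nat_lit 139) (nat_lit 5) (nat_lit 314) (nat_lit 295) (nat_lit 171)) (XT.lf (nat_lit 0) (nat_lit 7747953927) (nat_lit 1140) (nat_lit 8036178918) (nat_lit 76) (nat_lit 395945541) (nat_lit 124) (nat_lit 5) (nat_lit 139) (nat_lit 5) (nat_lit 125) (nat_lit 5) (nat_lit 315) (nat_lit 295) (nat_lit 170))))))))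
noncomputable def xc202 : XT := (XT.nd (nat_lit 1716) (nat_lit 2356) (nat_lit 0) (XT.nd (nat_lit 858) (nat_lit 1596) (nat_lit 0) (XT.nd (nat_lit 390) (nat_lit 1520) (nat_lit 0) (XT.nd (nat_lit 156) (nat_lit 456) (nat_lit 0) (XT.nd (nat_lit 78) (nat_lit 532) (nat_lit 0) (XT.lf (nat_lit 0) (nat_lit 9116724010) (nat_lit 1140) (nat_lit 1265693717) (nat_lit 76) (nat_lit 6072715178) (nat_lit 124) (nat_lit 5) (nat_lit 139) (nat_lit 5) (nat_lit 125) (nat_lit 5) (nat_lit 316) (nat_lit 295) (nat_lit 169)) (XT.lf (nat_lit 0) (nat_lit 5812789870) (nat_lit 532) (nat_lit 4760056442) (nat_lit 608) (nat_lit 6164232250) (nat_lit 117) (nat_lit 5) (nat_lit 124) (nat_lit 5) (nat_lit 125) (nat_lit 5) (nat_lit 317) (nat_lit 295) (nat_lit 168))) (XT.nd (nat_lit 78) (nat_lit 456) (nat_lit 0) (XT.lf (nat_lit 0) (nat_lit 12086090072) (nat_lit 608) (nat_lit 3916341442) (nat_lit 76) (nat_lit 1024675297) (nat_lit 117)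 (nat_lit 5) (nat_lit 125) (nat_lit 5) (nat_lit 118) (nat_lit 5) (nat_lit 318) (nat_lit 295) (nat_lit 167)) (XT.nd (nat_lit 78) (nat_lit 0) (nat_lit 0) (XT.lf (nat_lit 0) (nat_lit 3310797413) (nat_lit 456) (nat_lit 10403781469) (nat_lit 532) (nat_lit 3609188151) (nat_lit 111) (nat_lit 5) (nat_lit 117) (nat_lit 5) (nat_lit 118) (nat_lit 5) (nat_lit 319) (nat_lit 295) (nat_lit 166)) (XT.lf (nat_lit 0) (nat_lit 10826592033) (nat_lit 456) (nat_lit 4595954875) (nat_lit 532) (nat_lit 2205887203) (nat_lit 111) (nat_lit 5) (nat_lit 117) (nat_lit 5) (nat_lit 118) (nat_lit 5) (nat_lit 320) (nat_lit 295) (nat_lit 165))))) (XT.nd (nat_lit 234) (nat_lit 912) (nat_lit 0) (XT.nd (nat_lit 78) (nat_lit 76) (nat_lit 0) (XT.lf (nat_lit 0) (nat_lit 615829046) (nat_lit 532) (nat_lit 16576510337) (nat_lit 608) (nat_lit 749609290) (nat_lit 104) (nat_lit 5) (nat_lit 111) (nat_lit 5) (nat_lit 112) (nat_lit 5) (nat_lit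 321) (nat_lit 295) (nat_lit 164)) (XT.nd (nat_lit 78) (nat_lit 0) (nat_lit 0) (XT.lf (nat_lit 0) (nat_lit 841989777) (nat_lit 608) (nat_lit 9929338824) (nat_lit 76) (nat_lit 7490159031) (nat_lit 103) (nat_lit 5) (nat_lit 111) (nat_lit 5) (nat_lit 104) (nat_lit 5) (nat_lit 322) (nat_lit 295) (nat_lit 163)) (XT.lf (nat_lit 0) (nat_lit 2457925908) (nat_lit 608) (nat_lit 2326420806) (nat_lit 76) (nat_lit 13806316635) (nat_lit 103) (nat_lit 5) (nat_lit 111) (nat_lit 5) (nat_lit 104) (nat_lit 5) (nat_lit 323) (nat_lit 295) (nat_lit 162)))) (XT.nd (nat_lit 78) (nat_lit 456) (nat_lit 0) (XT.lf (nat_lit 0) (nat_lit 4181946273) (nat_lit 532) (nat_lit 13336309275) (nat_lit 76) (nat_lit 1409692848) (nat_lit 97) (nat_lit 5) (nat_lit 104) (nat_lit 5) (nat_lit 98) (nat_lit 5) (nat_lit 324) (nat_lit 295) (nat_lit 161)) (XT.nd (nat_lit 78) (nat_lit 456) (nat_lit 0) (XT.lf (nat_lit 0) (nat_lit 6020838535) (nat_lit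 532) (nat_lit 5535600381) (nat_lit 76) (nat_lit 7717040134) (nat_lit 97) (nat_lit 5) (nat_lit 104) (nat_lit 5) (nat_lit 98) (nat_lit 5) (nat_lit 325) (nat_lit 295) (nat_lit 160)) (XT.lf (nat_lit 0) (nat_lit 2540667567) (nat_lit 456) (nat_lit 5390940440) (nat_lit 532) (nat_lit 11697287269) (nat_lit 91) (nat_lit 5) (nat_lit 97) (nat_lit 5) (nat_lit 98) (nat_lit 5) (nat_lit 326) (nat_lit 295) (nat_lit 159)))))) (XT.nd (nat_lit 390) (nat_lit 836) (nat_lit 0) (XT.nd (nat_lit 156) (nat_lit 760) (nat_lit 0) (XT.nd (nat_lit 78) (nat_lit 0) (nat_lit 0) (XT.lf (nat_lit 0) (nat_lit 9957808518) (nat_lit 532) (nat_lit 9038580489) (nat_lit 76) (nat_lit 996862097) (nat_lit 91) (nat_lit 5) (nat_lit 98) (nat_lit 5) (nat_lit 92) (nat_lit 5) (nat_lit 327) (nat_lit 295) (nat_lit 158)) (XT.lf (nat_lit 0) (nat_lit 12090823382) (nat_lit 532) (nat_lit 808784959) (nat_lit 76) (nat_lit 7467568179) (nat_lit 91) (nat_lit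 5) (nat_lit 98) (nat_lit 5) (nat_lit 92) (nat_lit 5) (nat_lit 328) (nat_lit 295) (nat_lit 157))) (XT.nd (nat_lit 78) (nat_lit 380) (nat_lit 0) (XT.lf (nat_lit 0) (nat_lit 7812623403) (nat_lit 380) (nat_lit 6543171693) (nat_lit 456) (nat_lit 6394504796) (nat_lit 86) (nat_lit 5) (nat_lit 91) (nat_lit 5) (nat_lit 92) (nat_lit 5) (nat_lit 329) (nat_lit 295) (nat_lit 156)) (XT.nd (nat_lit 78) (nat_lit 380) (nat_lit 0) (XT.lf (nat_lit 0) (nat_lit 16689996531) (nat_lit 456) (nat_lit 4443417455) (nat_lit 76) (nat_lit 11483191) (nat_lit 86) (nat_lit 5) (nat_lit 92) (nat_lit 5) (nat_lit 87) (nat_lit 5) (nat_lit 330) (nat_lit 295) (nat_lit 155)) (XT.lf (nat_lit 0) (nat_lit 4317484752) (nat_lit 380) (nat_lit 14876223997) (nat_lit 456) (nat_lit 2354657173) (nat_lit 81) (nat_lit 5) (nat_lit 86) (nat_lit 5) (nat_lit 87) (nat_lit 5) (nat_lit 331) (nat_lit 295) (nat_lit 154))))) (XT.nd (nat_lit 234) (nat_lit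 380) (nat_lit 0) (XT.nd (nat_lit 78) (nat_lit 456) (nat_lit 0) (XT.lf (nat_lit 0) (nat_lit 13424724335) (nat_lit 380) (nat_lit 8386001644) (nat_lit 456) (nat_lit 152084501) (nat_lit 81) (nat_lit 5) (nat_lit 86) (nat_lit 5) (nat_lit 87) (nat_lit 5) (nat_lit 332) (nat_lit 295) (nat_lit 153)) (XT.nd (nat_lit 78) (nat_lit 0) (nat_lit 0) (XT.lf (nat_lit 0) (nat_lit 395359997) (nat_lit 380) (nat_lit 1677141383) (nat_lit 456) (nat_lit 20316676036) (nat_lit 75) (nat_lit 5) (nat_lit 80) (nat_lit 5) (nat_lit 81) (nat_lit 5) (nat_lit 333) (nat_lit 295) (nat_lit 152)) (XT.lf (nat_lit 0) (nat_lit 4491689980) (nat_lit 456) (nat_lit 13114207228) (nat_lit 76) (nat_lit 5218481393) (nat_lit 75) (nat_lit 5) (nat_lit 81) (nat_lit 5) (nat_lit 76) (nat_lit 5) (nat_lit 334) (nat_lit 295) (nat_lit 151)))) (XT.nd (nat_lit 78) (nat_lit 380) (nat_lit 0) (XT.lf (nat_lit 0) (nat_lit 6993795195) (nat_lit 456) (nat_lit 3992220151)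 (nat_lit 76) (nat_lit 12286325845) (nat_lit 75) (nat_lit 5) (nat_lit 81) (nat_lit 5) (nat_lit 76) (nat_lit 5) (nat_lit 335) (nat_lit 295) (nat_lit 150)) (XT.nd (nat_lit 78) (nat_lit 0) (nat_lit 0) (XT.lf (nat_lit 0) (nat_lit 5503631868) (nat_lit 380) (nat_lit 4114154032) (nat_lit 456) (nat_lit 14114567236) (nat_lit 70) (nat_lit 5) (nat_lit 75) (nat_lit 5) (nat_lit 76) (nat_lit 5) (nat_lit 336) (nat_lit 295) (nat_lit 149)) (XT.lf (nat_lit 0) (nat_lit 12383715269) (nat_lit 456) (nat_lit 8874952331) (nat_lit 76) (nat_lit 2945615975) (nat_lit 70) (nat_lit 5) (nat_lit 76) (nat_lit 5) (nat_lit 71) (nat_lit 5) (nat_lit 337) (nat_lit 295) (nat_lit 148))))))) (XT.nd (nat_lit 858) (nat_lit 1064) (nat_lit 0) (XT.nd (nat_lit 390) (nat_lit 608) (nat_lit 0) (XT.nd (nat_lit 156) (nat_lit 380) (nat_lit 0) (XT.nd (nat_lit 78) (nat_lit 0) (nat_lit 0) (XT.lf (nat_lit 0) (nat_lit 725767783) (nat_lit 304) (nat_lit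 14548755495) (nat_lit 380) (nat_lit 9414605903) (nat_lit 66) (nat_lit 5) (nat_lit 70) (nat_lit 5) (nat_lit 71) (nat_lit 5) (nat_lit 338) (nat_lit 295) (nat_lit 147)) (XT.lf (nat_lit 0) (nat_lit 10789416798) (nat_lit 304) (nat_lit 7546550120) (nat_lit 380) (nat_lit 6850049757) (nat_lit 66) (nat_lit 5) (nat_lit 70) (nat_lit 5) (nat_lit 71) (nat_lit 5) (nat_lit 339) (nat_lit 295) (nat_lit 146))) (XT.nd (nat_lit 78) (nat_lit 380) (nat_lit 0) (XT.lf (nat_lit 0) (nat_lit 21148159239) (nat_lit 304) (nat_lit 335552661) (nat_lit 380) (nat_lit 4214278610) (nat_lit 66) (nat_lit 5) (nat_lit 70) (nat_lit 5) (nat_lit 71) (nat_lit 5) (nat_lit 340) (nat_lit 295) (nat_lit 145)) (XT.nd (nat_lit 78) (nat_lit 76) (nat_lit 0) (XT.lf (nat_lit 0) (nat_lit 5627196682) (nat_lit 304) (nat_lit 19215562642) (nat_lit 380) (nat_lit 1379071198) (nat_lit 62) (nat_lit 5) (nat_lit 66) (nat_lit 5) (nat_lit 67) (nat_lit 5) (nat_lit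 341) (nat_lit 295) (nat_lit 144)) (XT.lf (nat_lit 0) (nat_lit 1555474966) (nat_lit 380) (nat_lit 10582629655) (nat_lit 76) (nat_lit 14621518278) (nat_lit 61) (nat_lit 5) (nat_lit 66) (nat_lit 5) (nat_lit 62) (nat_lit 5) (nat_lit 342) (nat_lit 295) (nat_lit 143))))) (XT.nd (nat_lit 234) (nat_lit 304) (nat_lit 0) (XT.nd (nat_lit 78) (nat_lit 304) (nat_lit 0) (XT.lf (nat_lit 0) (nat_lit 4545130980) (nat_lit 380) (nat_lit 290553228) (nat_lit 76) (nat_lit 22477623430) (nat_lit 61) (nat_lit 5) (nat_lit 66) (nat_lit 5) (nat_lit 62) (nat_lit 5) (nat_lit 343) (nat_lit 295) (nat_lit 142)) (XT.nd (nat_lit 78) (nat_lit 0) (nat_lit 0) (XT.lf (nat_lit 0) (nat_lit 7747242415) (nat_lit 380) (nat_lit 17398628493) (nat_lit 76) (nat_lit 2734060646) (nat_lit 57) (nat_lit 5) (nat_lit 62) (nat_lit 5) (nat_lit 58) (nat_lit 5) (nat_lit 344) (nat_lit 295) (nat_lit 141)) (XT.lf (nat_lit 0) (nat_lit 11091273922) (nat_lit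 380) (nat_lit 6935626414) (nat_lit 76) (nat_lit 10435289420) (nat_lit 57) (nat_lit 5) (nat_lit 62) (nat_lit 5) (nat_lit 58) (nat_lit 5) (nat_lit 345) (nat_lit 295) (nat_lit 140)))) (XT.nd (nat_lit 78) (nat_lit 0) (nat_lit 0) (XT.lf (nat_lit 0) (nat_lit 3911254178) (nat_lit 304) (nat_lit 10657130341) (nat_lit 380) (nat_lit 14492559382) (nat_lit 53) (nat_lit 5) (nat_lit 57) (nat_lit 5) (nat_lit 58) (nat_lit 5) (nat_lit 346) (nat_lit 295) (nat_lit 139)) (XT.nd (nat_lit 78) (nat_lit 0) (nat_lit 0) (XT.lf (nat_lit 0) (nat_lit 15219442624) (nat_lit 304) (nat_lit 2995643472) (nat_lit 380) (nat_lit 11460626868) (nat_lit 53) (nat_lit 5) (nat_lit 57) (nat_lit 5) (nat_lit 58) (nat_lit 5) (nat_lit 347) (nat_lit 295) (nat_lit 138)) (XT.lf (nat_lit 0) (nat_lit 22013614976) (nat_lit 380) (nat_lit 3495332934) (nat_lit 76) (nat_lit 4798714715) (nat_lit 53) (nat_lit 5) (nat_lit 58) (nat_lit 5) (nat_lit 54) (nat_lit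 5) (nat_lit 348) (nat_lit 295) (nat_lit 137)))))) (XT.nd (nat_lit 390) (nat_lit 456) (nat_lit 0) (XT.nd (nat_lit 156) (nat_lit 380) (nat_lit 0) (XT.nd (nat_lit 78) (nat_lit 0) (nat_lit 0) (XT.lf (nat_lit 0) (nat_lit 7913143771) (nat_lit 228) (nat_lit 18114182646) (nat_lit 304) (nat_lit 4928217570) (nat_lit 50) (nat_lit 5) (nat_lit 53) (nat_lit 5) (nat_lit 54) (nat_lit 5) (nat_lit 349) (nat_lit 295) (nat_lit 136)) (XT.lf (nat_lit 0) (nat_lit 19729541999) (nat_lit 228) (nat_lit 10462777618) (nat_lit 304) (nat_lit 1429625784) (nat_lit 50) (nat_lit 5) (nat_lit 53) (nat_lit 5) (nat_lit 54) (nat_lit 5) (nat_lit 350) (nat_lit 295) (nat_lit 135))) (XT.nd (nat_lit 78) (nat_lit 304) (nat_lit 0) (XT.lf (nat_lit 0) (nat_lit 2127154182) (nat_lit 304) (nat_lit 434708872) (nat_lit 76) (nat_lit 29745988508) (nat_lit 49) (nat_lit 5) (nat_lit 53) (nat_lit 5) (nat_lit 50) (nat_lit 5) (nat_lit 351) (nat_lit 295)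 (nat_lit 134)) (XT.nd (nat_lit 78) (nat_lit 0) (nat_lit 0) (XT.lf (nat_lit 0) (nat_lit 5923752789) (nat_lit 380) (nat_lit 21492883425) (nat_lit 76) (nat_lit 5592427470) (nat_lit 45) (nat_lit 5) (nat_lit 50) (nat_lit 5) (nat_lit 46) (nat_lit 5) (nat_lit 352) (nat_lit 295) (nat_lit 133)) (XT.lf (nat_lit 0) (nat_lit 9859879421) (nat_lit 380) (nat_lit 9927877251) (nat_lit 76) (nat_lit 13942795234) (nat_lit 45) (nat_lit 5) (nat_lit 50) (nat_lit 5) (nat_lit 46) (nat_lit 5) (nat_lit 353) (nat_lit 295) (nat_lit 132))))) (XT.nd (nat_lit 234) (nat_lit 228) (nat_lit 0) (XT.nd (nat_lit 78) (nat_lit 0) (nat_lit 0) (XT.lf (nat_lit 0) (nat_lit 2017827492) (nat_lit 228) (nat_lit 11911612269) (nat_lit 304) (nat_lit 20543792902) (nat_lit 42) (nat_lit 5) (nat_lit 45) (nat_lit 5) (nat_lit 46) (nat_lit 5) (nat_lit 354) (nat_lit 295) (nat_lit 131)) (XT.nd (nat_lit 78) (nat_lit 0) (nat_lit 0) (XT.lf (nat_lit 0) (nat_lit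 14519843593) (nat_lit 228) (nat_lit 3697513036) (nat_lit 304) (nat_lit 17017957263) (nat_lit 42) (nat_lit 5) (nat_lit 45) (nat_lit 5) (nat_lit 46) (nat_lit 5) (nat_lit 355) (nat_lit 295) (nat_lit 130)) (XT.lf (nat_lit 0) (nat_lit 22675814747) (nat_lit 304) (nat_lit 8674640663) (nat_lit 76) (nat_lit 4668552941) (nat_lit 42) (nat_lit 5) (nat_lit 46) (nat_lit 5) (nat_lit 43) (nat_lit 5) (nat_lit 356) (nat_lit 295) (nat_lit 129)))) (XT.nd (nat_lit 78) (nat_lit 0) (nat_lit 0) (XT.lf (nat_lit 0) (nat_lit 3758794855) (nat_lit 228) (nat_lit 23578204459) (nat_lit 304) (nat_lit 9487152824) (nat_lit 39) (nat_lit 5) (nat_lit 42) (nat_lit 5) (nat_lit 43) (nat_lit 5) (nat_lit 357) (nat_lit 295) (nat_lit 128)) (XT.nd (nat_lit 78) (nat_lit 0) (nat_lit 0) (XT.lf (nat_lit 0) (nat_lit 16737749999) (nat_lit 228) (nat_lit 15484156868) (nat_lit 304) (nat_lit 5429034198) (nat_lit 39) (nat_lit 5) (nat_lit 42) (nat_lit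 5) (nat_lit 43) (nat_lit 5) (nat_lit 358) (nat_lit 295) (nat_lit 127)) (XT.lf (nat_lit 0) (nat_lit 30100923244) (nat_lit 228) (nat_lit 7148837029) (nat_lit 304) (nat_lit 1252888660) (nat_lit 39) (nat_lit 5) (nat_lit 42) (nat_lit 5) (nat_lit 43) (nat_lit 5) (nat_lit 359) (nat_lit 295) (nat_lit 126))))))))
noncomputable def xc203 : XT := (XT.nd (nat_lit 1716) (nat_lit 0) (nat_lit 0) (XT.nd (nat_lit 858) (nat_lit 532) (nat_lit 0) (XT.nd (nat_lit 390) (nat_lit 456) (nat_lit 0) (XT.nd (nat_lit 156) (nat_lit 228) (nat_lit 0) (XT.nd (nat_lit 78) (nat_lit 0) (nat_lit 0) (XT.lf (nat_lit 0) (nat_lit 3043665857) (nat_lit 304) (nat_lit 34853070004) (nat_lit 76) (nat_lit 1480661485) (nat_lit 35) (nat_lit 5) (nat_lit 39) (nat_lit 5) (nat_lit 36) (nat_lit 5) (nat_lit 360) (nat_lit 295) (nat_lit 125)) (XT.lf (nat_lit 0) (nat_lit 7596898604) (nat_lit 304) (nat_lit 22354603542) (nat_lit 76) (nat_lit 10321931637)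 (nat_lit 35) (nat_lit 5) (nat_lit 39) (nat_lit 5) (nat_lit 36) (nat_lit 5) (nat_lit 361) (nat_lit 295) (nat_lit 124))) (XT.nd (nat_lit 78) (nat_lit 228) (nat_lit 0) (XT.lf (nat_lit 0) (nat_lit 12283332106) (nat_lit 304) (nat_lit 9486158091) (nat_lit 76) (nat_lit 19426969430) (nat_lit 35) (nat_lit 5) (nat_lit 39) (nat_lit 5) (nat_lit 36) (nat_lit 5) (nat_lit 362) (nat_lit 295) (nat_lit 123)) (XT.nd (nat_lit 78) (nat_lit 0) (nat_lit 0) (XT.lf (nat_lit 0) (nat_lit 3838411862) (nat_lit 228) (nat_lit 13305546604) (nat_lit 304) (nat_lit 25002216024) (nat_lit 32) (nat_lit 5) (nat_lit 35) (nat_lit 5) (nat_lit 36) (nat_lit 5) (nat_lit 363) (nat_lit 295) (nat_lit 122)) (XT.lf (nat_lit 0) (nat_lit 17752393108) (nat_lit 228) (nat_lit 4490554861) (nat_lit 304) (nat_lit 20878662559) (nat_lit 32) (nat_lit 5) (nat_lit 35) (nat_lit 5) (nat_lit 36) (nat_lit 5) (nat_lit 364) (nat_lit 295) (nat_lit 121))))) (XT.nd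 (nat_lit 234) (nat_lit 304) (nat_lit 0) (XT.nd (nat_lit 78) (nat_lit 152) (nat_lit 0) (XT.lf (nat_lit 0) (nat_lit 27535851347) (nat_lit 304) (nat_lit 12091356616) (nat_lit 76) (nat_lit 4497879239) (nat_lit 32) (nat_lit 5) (nat_lit 36) (nat_lit 5) (nat_lit 33) (nat_lit 5) (nat_lit 365) (nat_lit 295) (nat_lit 120)) (XT.nd (nat_lit 78) (nat_lit 0) (nat_lit 0) (XT.lf (nat_lit 0) (nat_lit 1566352428) (nat_lit 152) (nat_lit 31477632321) (nat_lit 228) (nat_lit 12112995850) (nat_lit 30) (nat_lit 5) (nat_lit 32) (nat_lit 5) (nat_lit 33) (nat_lit 5) (nat_lit 366) (nat_lit 295) (nat_lit 119)) (XT.lf (nat_lit 0) (nat_lit 15877106897) (nat_lit 152) (nat_lit 22959325346) (nat_lit 228) (nat_lit 7379831996) (nat_lit 30) (nat_lit 5) (nat_lit 32) (nat_lit 5) (nat_lit 33) (nat_lit 5) (nat_lit 367) (nat_lit 295) (nat_lit 118)))) (XT.nd (nat_lit 78) (nat_lit 304) (nat_lit 0) (XT.lf (nat_lit 0) (nat_lit 30612769628)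 (nat_lit 152) (nat_lit 14186942850) (nat_lit 228) (nat_lit 2507707514) (nat_lit 30) (nat_lit 5) (nat_lit 32) (nat_lit 5) (nat_lit 33) (nat_lit 5) (nat_lit 368) (nat_lit 295) (nat_lit 117)) (XT.nd (nat_lit 78) (nat_lit 228) (nat_lit 0) (XT.lf (nat_lit 0) (nat_lit 2458701806) (nat_lit 228) (nat_lit 2669289772) (nat_lit 76) (nat_lit 43302686569) (nat_lit 29) (nat_lit 5) (nat_lit 32) (nat_lit 5) (nat_lit 30) (nat_lit 5) (nat_lit 369) (nat_lit 295) (nat_lit 116)) (XT.lf (nat_lit 0) (nat_lit 7677842738) (nat_lit 304) (nat_lit 37643709723) (nat_lit 76) (nat_lit 4260717395) (nat_lit 26) (nat_lit 5) (nat_lit 30) (nat_lit 5) (nat_lit 27) (nat_lit 5) (nat_lit 370) (nat_lit 295) (nat_lit 115)))))) (XT.nd (nat_lit 390) (nat_lit 380) (nat_lit 0) (XT.nd (nat_lit 156) (nat_lit 152) (nat_lit 0) (XT.nd (nat_lit 78) (nat_lit 0) (nat_lit 0) (XT.lf (nat_lit 0) (nat_lit 13128775135) (nat_lit 304) (nat_lit 23783530746)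 (nat_lit 76) (nat_lit 13853851700) (nat_lit 26) (nat_lit 5) (nat_lit 30) (nat_lit 5) (nat_lit 27) (nat_lit 5) (nat_lit 371) (nat_lit 295) (nat_lit 114)) (XT.lf (nat_lit 0) (nat_lit 18740539944) (nat_lit 304) (nat_lit 9511676844) (nat_lit 76) (nat_lit 23733430659) (nat_lit 26) (nat_lit 5) (nat_lit 30) (nat_lit 5) (nat_lit 27) (nat_lit 5) (nat_lit 372) (nat_lit 295) (nat_lit 113))) (XT.nd (nat_lit 78) (nat_lit 0) (nat_lit 0) (XT.lf (nat_lit 0) (nat_lit 5287500718) (nat_lit 152) (nat_lit 19281366622) (nat_lit 228) (nat_lit 28671412888) (nat_lit 24) (nat_lit 5) (nat_lit 26) (nat_lit 5) (nat_lit 27) (nat_lit 5) (nat_lit 373) (nat_lit 295) (nat_lit 112)) (XT.nd (nat_lit 78) (nat_lit 0) (nat_lit 0) (XT.lf (nat_lit 0) (nat_lit 20721662834) (nat_lit 152) (nat_lit 9943852018) (nat_lit 228) (nat_lit 23864237410) (nat_lit 24) (nat_lit 5) (nat_lit 26) (nat_lit 5) (nat_lit 27) (nat_lit 5) (nat_lit 374) (nat_lit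 295) (nat_lit 111)) (XT.lf (nat_lit 0) (nat_lit 36614994643) (nat_lit 152) (nat_lit 327563267) (nat_lit 228) (nat_lit 18915429909) (nat_lit 24) (nat_lit 5) (nat_lit 26) (nat_lit 5) (nat_lit 27) (nat_lit 5) (nat_lit 375) (nat_lit 295) (nat_lit 110))))) (XT.nd (nat_lit 234) (nat_lit 228) (nat_lit 0) (XT.nd (nat_lit 78) (nat_lit 152) (nat_lit 0) (XT.lf (nat_lit 0) (nat_lit 43497530744) (nat_lit 228) (nat_lit 4336813406) (nat_lit 76) (nat_lit 9389041868) (nat_lit 24) (nat_lit 5) (nat_lit 27) (nat_lit 5) (nat_lit 25) (nat_lit 5) (nat_lit 376) (nat_lit 295) (nat_lit 109)) (XT.nd (nat_lit 78) (nat_lit 0) (nat_lit 0) (XT.lf (nat_lit 0) (nat_lit 11228724994) (nat_lit 152) (nat_lit 39129235953) (nat_lit 228) (nat_lit 8268524972) (nat_lit 22) (nat_lit 5) (nat_lit 24) (nat_lit 5) (nat_lit 25) (nat_lit 5) (nat_lit 377) (nat_lit 295) (nat_lit 108)) (XT.lf (nat_lit 0) (nat_lit 27346469776) (nat_lit 152) (nat_lit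 30119189119) (nat_lit 228) (nat_lit 2604780166) (nat_lit 22) (nat_lit 5) (nat_lit 24) (nat_lit 5) (nat_lit 25) (nat_lit 5) (nat_lit 378) (nat_lit 295) (nat_lit 107)))) (XT.nd (nat_lit 78) (nat_lit 152) (nat_lit 0) (XT.lf (nat_lit 0) (nat_lit 3163573420) (nat_lit 228) (nat_lit 17644604794) (nat_lit 76) (nat_lit 40748674007) (nat_lit 21) (nat_lit 5) (nat_lit 24) (nat_lit 5) (nat_lit 22) (nat_lit 5) (nat_lit 379) (nat_lit 295) (nat_lit 106)) (XT.nd (nat_lit 78) (nat_lit 152) (nat_lit 0) (XT.lf (nat_lit 0) (nat_lit 9050394459) (nat_lit 228) (nat_lit 2142147287) (nat_lit 76) (nat_lit 51894612782) (nat_lit 21) (nat_lit 5) (nat_lit 24) (nat_lit 5) (nat_lit 22) (nat_lit 5) (nat_lit 380) (nat_lit 295) (nat_lit 105)) (XT.lf (nat_lit 0) (nat_lit 14097072472) (nat_lit 152) (nat_lit 1150092628) (nat_lit 228) (nat_lit 49412203908) (nat_lit 19) (nat_lit 5) (nat_lit 21) (nat_lit 5) (nat_lit 22) (nat_lit 5)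 (nat_lit 381) (nat_lit 295) (nat_lit 104))))))) (XT.nd (nat_lit 34632) (nat_lit 0) (nat_lit 7980) (XT.nd (nat_lit 34164) (nat_lit 0) (nat_lit 9652) (XT.nd (nat_lit 33930) (nat_lit 0) (nat_lit 9652) (XT.nd (nat_lit 78) (nat_lit 0) (nat_lit 0) (XT.lf (nat_lit 0) (nat_lit 21737913518) (nat_lit 228) (nat_lit 35502727602) (nat_lit 76) (nat_lit 9034869918) (nat_lit 19) (nat_lit 5) (nat_lit 22) (nat_lit 5) (nat_lit 20) (nat_lit 5) (nat_lit 382) (nat_lit 295) (nat_lit 103)) (XT.lf (nat_lit 0) (nat_lit 28432688142) (nat_lit 228) (nat_lit 20006077489) (nat_lit 76) (nat_lit 19501095843) (nat_lit 19) (nat_lit 5) (nat_lit 22) (nat_lit 5) (nat_lit 20) (nat_lit 5) (nat_lit 383) (nat_lit 295) (nat_lit 102))) (XT.nd (nat_lit 78) (nat_lit 0) (nat_lit 0) (XT.lf (nat_lit 0) (nat_lit 1406465861) (nat_lit 0) (nat_lit 1406465861) (nat_lit 988) (nat_lit 3315881862) (nat_lit 146) (nat_lit 5) (nat_lit 146) (nat_lit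 3) (nat_lit 159) (nat_lit 3) (nat_lit 296) (nat_lit 296) (nat_lit 188)) (XT.nd (nat_lit 78) (nat_lit 0) (nat_lit 0) (XT.lf (nat_lit 0) (nat_lit 6128050811) (nat_lit 988) (nat_lit 4567166218) (nat_lit 1064) (nat_lit 1732474605) (nat_lit 146) (nat_lit 5) (nat_lit 159) (nat_lit 3) (nat_lit 160) (nat_lit 5) (nat_lit 297) (nat_lit 296) (nat_lit 187)) (XT.lf (nat_lit 76) (nat_lit 428790115) (nat_lit 0) (nat_lit 6232918805) (nat_lit 1064) (nat_lit 5940706367) (nat_lit 147) (nat_lit 5) (nat_lit 146) (nat_lit 5) (nat_lit 160) (nat_lit 5) (nat_lit 298) (nat_lit 296) (nat_lit 186))))) (XT.nd (nat_lit 234) (nat_lit 0) (nat_lit 76) (XT.nd (nat_lit 78) (nat_lit 0) (nat_lit 76) (XT.lf (nat_lit 76) (nat_lit 5659914869) (nat_lit 0) (nat_lit 1582387170) (nat_lit 1064) (nat_lit 5539198821) (nat_lit 147) (nat_lit 5) (nat_lit 146) (nat_lit 5) (nat_lit 160) (nat_lit 5) (nat_lit 299) (nat_lit 296) (nat_lit 185))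 (XT.nd (nat_lit 78) (nat_lit 0) (nat_lit 0) (XT.lf (nat_lit 0) (nat_lit 7856459372) (nat_lit 988) (nat_lit 1957462784) (nat_lit 1064) (nat_lit 3151599023) (nat_lit 147) (nat_lit 5) (nat_lit 160) (nat_lit 5) (nat_lit 161) (nat_lit 5) (nat_lit 300) (nat_lit 296) (nat_lit 184)) (XT.lf (nat_lit 76) (nat_lit 3403948809) (nat_lit 0) (nat_lit 5119220872) (nat_lit 1064) (nat_lit 4630913791) (nat_lit 148) (nat_lit 5) (nat_lit 147) (nat_lit 5) (nat_lit 161) (nat_lit 5) (nat_lit 301) (nat_lit 296) (nat_lit 183)))) (XT.nd (nat_lit 78) (nat_lit 0) (nat_lit 76) (XT.lf (nat_lit 76) (nat_lit 8958019675) (nat_lit 0) (nat_lit 257703841) (nat_lit 1064) (nat_lit 4132447750) (nat_lit 148) (nat_lit 5) (nat_lit 147) (nat_lit 5) (nat_lit 161) (nat_lit 5) (nat_lit 302) (nat_lit 296) (nat_lit 182)) (XT.nd (nat_lit 78) (nat_lit 0) (nat_lit 0) (XT.lf (nat_lit 76) (nat_lit 1097829234) (nat_lit 0) (nat_lit 8873968010) (nat_lit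 1064) (nat_lit 3575044770) (nat_lit 149) (nat_lit 5) (nat_lit 148) (nat_lit 5) (nat_lit 162) (nat_lit 5) (nat_lit 303) (nat_lit 296) (nat_lit 181)) (XT.lf (nat_lit 76) (nat_lit 6829357267) (nat_lit 0) (nat_lit 3954898669) (nat_lit 1064) (nat_lit 2966247243) (nat_lit 149) (nat_lit 5) (nat_lit 148) (nat_lit 5) (nat_lit 162) (nat_lit 5) (nat_lit 304) (nat_lit 296) (nat_lit 180)))))) (XT.nd (nat_lit 468) (nat_lit 912) (nat_lit 0) (XT.nd (nat_lit 234) (nat_lit 988) (nat_lit 0) (XT.nd (nat_lit 78) (nat_lit 0) (nat_lit 0) (XT.lf (nat_lit 0) (nat_lit 11619046238) (nat_lit 988) (nat_lit 1246833359) (nat_lit 1064) (nat_lit 1094496019) (nat_lit 149) (nat_lit 5) (nat_lit 162) (nat_lit 5) (nat_lit 163) (nat_lit 5) (nat_lit 305) (nat_lit 296) (nat_lit 179)) (XT.nd (nat_lit 78) (nat_lit 0) (nat_lit 0) (XT.lf (nat_lit 76) (nat_lit 4640657024) (nat_lit 0) (nat_lit 7909631312) (nat_lit 1064) (nat_lit 1624152650)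 (nat_lit 150) (nat_lit 5) (nat_lit 149) (nat_lit 5) (nat_lit 163) (nat_lit 5) (nat_lit 306) (nat_lit 296) (nat_lit 178)) (XT.lf (nat_lit 76) (nat_lit 10721963758) (nat_lit 0) (nat_lit 2788015870) (nat_lit 1064) (nat_lit 884971197) (nat_lit 150) (nat_lit 5) (nat_lit 149) (nat_lit 5) (nat_lit 163) (nat_lit 5) (nat_lit 307) (nat_lit 296) (nat_lit 177)))) (XT.nd (nat_lit 78) (nat_lit 1064) (nat_lit 0) (XT.lf (nat_lit 76) (nat_lit 2377573075) (nat_lit 0) (nat_lit 12155960020) (nat_lit 1064) (nat_lit 87527485) (nat_lit 151) (nat_lit 5) (nat_lit 150) (nat_lit 5) (nat_lit 164) (nat_lit 5) (nat_lit 308) (nat_lit 296) (nat_lit 176)) (XT.nd (nat_lit 78) (nat_lit 0) (nat_lit 0) (XT.lf (nat_lit 0) (nat_lit 772999802) (nat_lit 1064) (nat_lit 6211651805) (nat_lit 1140) (nat_lit 7867520646) (nat_lit 136) (nat_lit 5) (nat_lit 150) (nat_lit 5) (nat_lit 151) (nat_lit 5) (nat_lit 309) (nat_lit 296) (nat_lit 175))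 (XT.lf (nat_lit 0) (nat_lit 1646339814) (nat_lit 1064) (nat_lit 8201500) (nat_lit 1140) (nat_lit 13436020924) (nat_lit 136) (nat_lit 5) (nat_lit 150) (nat_lit 5) (nat_lit 151) (nat_lit 5) (nat_lit 310) (nat_lit 296) (nat_lit 174))))) (XT.nd (nat_lit 234) (nat_lit 988) (nat_lit 0) (XT.nd (nat_lit 78) (nat_lit 0) (nat_lit 0) (XT.lf (nat_lit 0) (nat_lit 2634958646) (nat_lit 1064) (nat_lit 8872140062) (nat_lit 1140) (nat_lit 3826365521) (nat_lit 137) (nat_lit 5) (nat_lit 151) (nat_lit 5) (nat_lit 152) (nat_lit 5) (nat_lit 311) (nat_lit 296) (nat_lit 173)) (XT.nd (nat_lit 78) (nat_lit 0) (nat_lit 0) (XT.lf (nat_lit 0) (nat_lit 3659048860) (nat_lit 1064) (nat_lit 2483452210) (nat_lit 1140) (nat_lit 9441009536) (nat_lit 137) (nat_lit 5) (nat_lit 151) (nat_lit 5) (nat_lit 152) (nat_lit 5) (nat_lit 312) (nat_lit 296) (nat_lit 172)) (XT.lf (nat_lit 76) (nat_lit 4169993374) (nat_lit 0) (nat_lit 573610778)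 (nat_lit 1140) (nat_lit 11096592740) (nat_lit 138) (nat_lit 5) (nat_lit 137) (nat_lit 5) (nat_lit 152) (nat_lit 5) (nat_lit 313) (nat_lit 296) (nat_lit 171)))) (XT.nd (nat_lit 78) (nat_lit 1064) (nat_lit 0) (XT.lf (nat_lit 0) (nat_lit 5925544860) (nat_lit 1064) (nat_lit 5088298060) (nat_lit 76) (nat_lit 5088825276) (nat_lit 138) (nat_lit 5) (nat_lit 152) (nat_lit 5) (nat_lit 139) (nat_lit 5) (nat_lit 314) (nat_lit 296) (nat_lit 170)) (XT.nd (nat_lit 78) (nat_lit 0) (nat_lit 0) (XT.lf (nat_lit 0) (nat_lit 1710466125) (nat_lit 1064) (nat_lit 5444792063) (nat_lit 1140) (nat_lit 9217415041) (nat_lit 124) (nat_lit 5) (nat_lit 138) (nat_lit 5) (nat_lit 139) (nat_lit 5) (nat_lit 315) (nat_lit 296) (nat_lit 169)) (XT.lf (nat_lit 0) (nat_lit 8466966952) (nat_lit 1140) (nat_lit 7843592411) (nat_lit 76) (nat_lit 338894104) (nat_lit 124) (nat_lit 5) (nat_lit 139) (nat_lit 5) (nat_lit 125) (nat_lit 5) (nat_lit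 316) (nat_lit 296) (nat_lit 168))))))))
noncomputable def xc204 : XT := (XT.nd (nat_lit 1716) (nat_lit 2356) (nat_lit 0) (XT.nd (nat_lit 858) (nat_lit 1596) (nat_lit 0) (XT.nd (nat_lit 390) (nat_lit 1520) (nat_lit 0) (XT.nd (nat_lit 156) (nat_lit 456) (nat_lit 0) (XT.nd (nat_lit 78) (nat_lit 532) (nat_lit 0) (XT.lf (nat_lit 0) (nat_lit 9862628067) (nat_lit 1140) (nat_lit 882623874) (nat_lit 76) (nat_lit 6187974495) (nat_lit 124) (nat_lit 5) (nat_lit 139) (nat_lit 5) (nat_lit 125) (nat_lit 5) (nat_lit 317) (nat_lit 296) (nat_lit 167)) (XT.lf (nat_lit 0) (nat_lit 6404086371) (nat_lit 532) (nat_lit 4948595997) (nat_lit 608) (nat_lit 5871281083) (nat_lit 117) (nat_lit 5) (nat_lit 124) (nat_lit 5) (nat_lit 125) (nat_lit 5) (nat_lit 318) (nat_lit 296) (nat_lit 166))) (XT.nd (nat_lit 78) (nat_lit 456) (nat_lit 0) (XT.lf (nat_lit 0) (nat_lit 12897421324) (nat_lit 608) (nat_lit 3613851168) (nat_lit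 76) (nat_lit 1011876380) (nat_lit 117) (nat_lit 5) (nat_lit 125) (nat_lit 5) (nat_lit 118) (nat_lit 5) (nat_lit 319) (nat_lit 296) (nat_lit 165)) (XT.nd (nat_lit 78) (nat_lit 0) (nat_lit 0) (XT.lf (nat_lit 0) (nat_lit 3825984397) (nat_lit 456) (nat_lit 10739707586) (nat_lit 532) (nat_lit 3263327220) (nat_lit 111) (nat_lit 5) (nat_lit 117) (nat_lit 5) (nat_lit 118) (nat_lit 5) (nat_lit 320) (nat_lit 296) (nat_lit 164)) (XT.lf (nat_lit 0) (nat_lit 11555140339) (nat_lit 456) (nat_lit 4756952621) (nat_lit 532) (nat_lit 1831154523) (nat_lit 111) (nat_lit 5) (nat_lit 117) (nat_lit 5) (nat_lit 118) (nat_lit 5) (nat_lit 321) (nat_lit 296) (nat_lit 163))))) (XT.nd (nat_lit 234) (nat_lit 912) (nat_lit 0) (XT.nd (nat_lit 78) (nat_lit 76) (nat_lit 0) (XT.lf (nat_lit 0) (nat_lit 1048218189) (nat_lit 532) (nat_lit 17078090959) (nat_lit 608) (nat_lit 340154364) (nat_lit 104) (nat_lit 5) (nat_lit 111) (nat_lit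 5) (nat_lit 112) (nat_lit 5) (nat_lit 322) (nat_lit 296) (nat_lit 162)) (XT.nd (nat_lit 78) (nat_lit 0) (nat_lit 0) (XT.lf (nat_lit 0) (nat_lit 1278428535) (nat_lit 608) (nat_lit 9816048319) (nat_lit 76) (nat_lit 7701391150) (nat_lit 103) (nat_lit 5) (nat_lit 111) (nat_lit 5) (nat_lit 104) (nat_lit 5) (nat_lit 323) (nat_lit 296) (nat_lit 161)) (XT.lf (nat_lit 0) (nat_lit 2930866661) (nat_lit 608) (nat_lit 1997018605) (nat_lit 76) (nat_lit 14207425890) (nat_lit 103) (nat_lit 5) (nat_lit 111) (nat_lit 5) (nat_lit 104) (nat_lit 5) (nat_lit 324) (nat_lit 296) (nat_lit 160)))) (XT.nd (nat_lit 78) (nat_lit 456) (nat_lit 0) (XT.lf (nat_lit 0) (nat_lit 4698817595) (nat_lit 532) (nat_lit 13328349603) (nat_lit 76) (nat_lit 1455813179) (nat_lit 97) (nat_lit 5) (nat_lit 104) (nat_lit 5) (nat_lit 98) (nat_lit 5) (nat_lit 325) (nat_lit 296) (nat_lit 159)) (XT.nd (nat_lit 78) (nat_lit 456) (nat_lit 0) (XT.lf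 (nat_lit 0) (nat_lit 6581476248) (nat_lit 532) (nat_lit 5305504363) (nat_lit 76) (nat_lit 7952269344) (nat_lit 97) (nat_lit 5) (nat_lit 104) (nat_lit 5) (nat_lit 98) (nat_lit 5) (nat_lit 326) (nat_lit 296) (nat_lit 158)) (XT.lf (nat_lit 0) (nat_lit 3009167662) (nat_lit 456) (nat_lit 5533103650) (nat_lit 532) (nat_lit 11663306370) (nat_lit 91) (nat_lit 5) (nat_lit 97) (nat_lit 5) (nat_lit 98) (nat_lit 5) (nat_lit 327) (nat_lit 296) (nat_lit 157)))))) (XT.nd (nat_lit 390) (nat_lit 836) (nat_lit 0) (XT.nd (nat_lit 156) (nat_lit 760) (nat_lit 0) (XT.nd (nat_lit 78) (nat_lit 0) (nat_lit 0) (XT.lf (nat_lit 0) (nat_lit 10618584654) (nat_lit 532) (nat_lit 8917236497) (nat_lit 76) (nat_lit 1045392444) (nat_lit 91) (nat_lit 5) (nat_lit 98) (nat_lit 5) (nat_lit 92) (nat_lit 5) (nat_lit 328) (nat_lit 296) (nat_lit 156)) (XT.lf (nat_lit 0) (nat_lit 12805045055) (nat_lit 532) (nat_lit 451979181) (nat_lit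 76) (nat_lit 7709677248) (nat_lit 91) (nat_lit 5) (nat_lit 98) (nat_lit 5) (nat_lit 92) (nat_lit 5) (nat_lit 329) (nat_lit 296) (nat_lit 155))) (XT.nd (nat_lit 78) (nat_lit 380) (nat_lit 0) (XT.lf (nat_lit 0) (nat_lit 8424335459) (nat_lit 380) (nat_lit 6707019845) (nat_lit 456) (nat_lit 6230189109) (nat_lit 86) (nat_lit 5) (nat_lit 91) (nat_lit 5) (nat_lit 92) (nat_lit 5) (nat_lit 330) (nat_lit 296) (nat_lit 154)) (XT.nd (nat_lit 78) (nat_lit 380) (nat_lit 0) (XT.lf (nat_lit 0) (nat_lit 17525840363) (nat_lit 456) (nat_lit 4199743348) (nat_lit 76) (nat_lit 42714911) (nat_lit 86) (nat_lit 5) (nat_lit 92) (nat_lit 5) (nat_lit 87) (nat_lit 5) (nat_lit 331) (nat_lit 296) (nat_lit 153)) (XT.lf (nat_lit 0) (nat_lit 4820290077) (nat_lit 380) (nat_lit 15278200601) (nat_lit 456) (nat_lit 2085591906) (nat_lit 81) (nat_lit 5) (nat_lit 86) (nat_lit 5) (nat_lit 87) (nat_lit 5) (nat_lit 332) (nat_lit 296)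 (nat_lit 152))))) (XT.nd (nat_lit 234) (nat_lit 380) (nat_lit 0) (XT.nd (nat_lit 78) (nat_lit 380) (nat_lit 0) (XT.lf (nat_lit 0) (nat_lit 169784580) (nat_lit 456) (nat_lit 8423063092) (nat_lit 76) (nat_lit 14018375520) (nat_lit 80) (nat_lit 5) (nat_lit 86) (nat_lit 5) (nat_lit 81) (nat_lit 5) (nat_lit 333) (nat_lit 296) (nat_lit 151)) (XT.nd (nat_lit 78) (nat_lit 0) (nat_lit 0) (XT.lf (nat_lit 0) (nat_lit 773256531) (nat_lit 380) (nat_lit 1678894633) (nat_lit 456) (nat_lit 20598385556) (nat_lit 75) (nat_lit 5) (nat_lit 80) (nat_lit 5) (nat_lit 81) (nat_lit 5) (nat_lit 334) (nat_lit 296) (nat_lit 150)) (XT.lf (nat_lit 0) (nat_lit 4935121786) (nat_lit 456) (nat_lit 13142696594) (nat_lit 76) (nat_lit 5421262429) (nat_lit 75) (nat_lit 5) (nat_lit 81) (nat_lit 5) (nat_lit 76) (nat_lit 5) (nat_lit 335) (nat_lit 296) (nat_lit 149)))) (XT.nd (nat_lit 78) (nat_lit 380) (nat_lit 0) (XT.lf (nat_lit 0)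 (nat_lit 7503299446) (nat_lit 456) (nat_lit 3757679134) (nat_lit 76) (nat_lit 12699795809) (nat_lit 75) (nat_lit 5) (nat_lit 81) (nat_lit 5) (nat_lit 76) (nat_lit 5) (nat_lit 336) (nat_lit 296) (nat_lit 148)) (XT.nd (nat_lit 78) (nat_lit 0) (nat_lit 0) (XT.lf (nat_lit 0) (nat_lit 6019574841) (nat_lit 380) (nat_lit 4181078615) (nat_lit 456) (nat_lit 14234115666) (nat_lit 70) (nat_lit 5) (nat_lit 75) (nat_lit 5) (nat_lit 76) (nat_lit 5) (nat_lit 337) (nat_lit 296) (nat_lit 147)) (XT.lf (nat_lit 0) (nat_lit 13041515167) (nat_lit 456) (nat_lit 8791836326) (nat_lit 76) (nat_lit 3087768453) (nat_lit 70) (nat_lit 5) (nat_lit 76) (nat_lit 5) (nat_lit 71) (nat_lit 5) (nat_lit 338) (nat_lit 296) (nat_lit 146))))))) (XT.nd (nat_lit 858) (nat_lit 1064) (nat_lit 0) (XT.nd (nat_lit 390) (nat_lit 608) (nat_lit 0) (XT.nd (nat_lit 156) (nat_lit 380) (nat_lit 0) (XT.nd (nat_lit 78) (nat_lit 0) (nat_lit 0) (XT.lf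 (nat_lit 0) (nat_lit 1093480249) (nat_lit 304) (nat_lit 14920554050) (nat_lit 380) (nat_lit 9406647504) (nat_lit 66) (nat_lit 5) (nat_lit 70) (nat_lit 5) (nat_lit 71) (nat_lit 5) (nat_lit 339) (nat_lit 296) (nat_lit 145)) (XT.lf (nat_lit 0) (nat_lit 11448962828) (nat_lit 304) (nat_lit 7710165935) (nat_lit 380) (nat_lit 6773612826) (nat_lit 66) (nat_lit 5) (nat_lit 70) (nat_lit 5) (nat_lit 71) (nat_lit 5) (nat_lit 340) (nat_lit 296) (nat_lit 144))) (XT.nd (nat_lit 78) (nat_lit 380) (nat_lit 0) (XT.lf (nat_lit 0) (nat_lit 22108685110) (nat_lit 304) (nat_lit 284667116) (nat_lit 380) (nat_lit 4066980343) (nat_lit 66) (nat_lit 5) (nat_lit 70) (nat_lit 5) (nat_lit 71) (nat_lit 5) (nat_lit 341) (nat_lit 296) (nat_lit 143)) (XT.nd (nat_lit 78) (nat_lit 76) (nat_lit 0) (XT.lf (nat_lit 0) (nat_lit 6126830003) (nat_lit 304) (nat_lit 19722367729) (nat_lit 380) (nat_lit 1150828000) (nat_lit 62) (nat_lit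 5) (nat_lit 66) (nat_lit 5) (nat_lit 67) (nat_lit 5) (nat_lit 342) (nat_lit 296) (nat_lit 142)) (XT.lf (nat_lit 0) (nat_lit 1858793747) (nat_lit 380) (nat_lit 10573229498) (nat_lit 76) (nat_lit 15122099549) (nat_lit 61) (nat_lit 5) (nat_lit 66) (nat_lit 5) (nat_lit 62) (nat_lit 5) (nat_lit 343) (nat_lit 296) (nat_lit 141))))) (XT.nd (nat_lit 234) (nat_lit 304) (nat_lit 0) (XT.nd (nat_lit 78) (nat_lit 0) (nat_lit 0) (XT.lf (nat_lit 0) (nat_lit 18448468) (nat_lit 304) (nat_lit 4912392936) (nat_lit 380) (nat_lit 23193812771) (nat_lit 57) (nat_lit 5) (nat_lit 61) (nat_lit 5) (nat_lit 62) (nat_lit 5) (nat_lit 344) (nat_lit 296) (nat_lit 140)) (XT.nd (nat_lit 78) (nat_lit 0) (nat_lit 0) (XT.lf (nat_lit 0) (nat_lit 8225268132) (nat_lit 380) (nat_lit 17599103001) (nat_lit 76) (nat_lit 2884034778) (nat_lit 57) (nat_lit 5) (nat_lit 62) (nat_lit 5) (nat_lit 58) (nat_lit 5) (nat_lit 345) (nat_lit 296)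 (nat_lit 139)) (XT.lf (nat_lit 0) (nat_lit 11662466940) (nat_lit 380) (nat_lit 6831574481) (nat_lit 76) (nat_lit 10814321221) (nat_lit 57) (nat_lit 5) (nat_lit 62) (nat_lit 5) (nat_lit 58) (nat_lit 5) (nat_lit 346) (nat_lit 296) (nat_lit 138)))) (XT.nd (nat_lit 78) (nat_lit 0) (nat_lit 0) (XT.lf (nat_lit 0) (nat_lit 4337652521) (nat_lit 304) (nat_lit 10902263929) (nat_lit 380) (nat_lit 14685297898) (nat_lit 53) (nat_lit 5) (nat_lit 57) (nat_lit 5) (nat_lit 58) (nat_lit 5) (nat_lit 347) (nat_lit 296) (nat_lit 137)) (XT.nd (nat_lit 78) (nat_lit 0) (nat_lit 0) (XT.lf (nat_lit 0) (nat_lit 15976084852) (nat_lit 304) (nat_lit 3013104696) (nat_lit 380) (nat_lit 11569457067) (nat_lit 53) (nat_lit 5) (nat_lit 57) (nat_lit 5) (nat_lit 58) (nat_lit 5) (nat_lit 348) (nat_lit 296) (nat_lit 136)) (XT.lf (nat_lit 0) (nat_lit 22895719445) (nat_lit 380) (nat_lit 3302425294) (nat_lit 76) (nat_lit 5011603474)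 (nat_lit 53) (nat_lit 5) (nat_lit 58) (nat_lit 5) (nat_lit 54) (nat_lit 5) (nat_lit 349) (nat_lit 296) (nat_lit 135)))))) (XT.nd (nat_lit 390) (nat_lit 456) (nat_lit 0) (XT.nd (nat_lit 156) (nat_lit 380) (nat_lit 0) (XT.nd (nat_lit 78) (nat_lit 0) (nat_lit 0) (XT.lf (nat_lit 0) (nat_lit 8445386422) (nat_lit 228) (nat_lit 18580832905) (nat_lit 304) (nat_lit 4850969748) (nat_lit 50) (nat_lit 5) (nat_lit 53) (nat_lit 5) (nat_lit 54) (nat_lit 5) (nat_lit 350) (nat_lit 296) (nat_lit 134)) (XT.lf (nat_lit 0) (nat_lit 20607688780) (nat_lit 228) (nat_lit 10702121898) (nat_lit 304) (nat_lit 1253976355) (nat_lit 50) (nat_lit 5) (nat_lit 53) (nat_lit 5) (nat_lit 54) (nat_lit 5) (nat_lit 351) (nat_lit 296) (nat_lit 133))) (XT.nd (nat_lit 78) (nat_lit 304) (nat_lit 0) (XT.lf (nat_lit 0) (nat_lit 2399001560) (nat_lit 304) (nat_lit 165248654) (nat_lit 76) (nat_lit 30706157524) (nat_lit 49) (nat_lit 5) (nat_lit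 53) (nat_lit 5) (nat_lit 50) (nat_lit 5) (nat_lit 352) (nat_lit 296) (nat_lit 132)) (XT.nd (nat_lit 78) (nat_lit 0) (nat_lit 0) (XT.lf (nat_lit 0) (nat_lit 6306849485) (nat_lit 380) (nat_lit 21852094185) (nat_lit 76) (nat_lit 5833804782) (nat_lit 45) (nat_lit 5) (nat_lit 50) (nat_lit 5) (nat_lit 46) (nat_lit 5) (nat_lit 353) (nat_lit 296) (nat_lit 131)) (XT.lf (nat_lit 0) (nat_lit 10355077855) (nat_lit 380) (nat_lit 9948455565) (nat_lit 76) (nat_lit 14432539759) (nat_lit 45) (nat_lit 5) (nat_lit 50) (nat_lit 5) (nat_lit 46) (nat_lit 5) (nat_lit 354) (nat_lit 296) (nat_lit 130))))) (XT.nd (nat_lit 234) (nat_lit 228) (nat_lit 0) (XT.nd (nat_lit 78) (nat_lit 0) (nat_lit 0) (XT.lf (nat_lit 0) (nat_lit 2352902104) (nat_lit 228) (nat_lit 12190654118) (nat_lit 304) (nat_lit 20957585236) (nat_lit 42) (nat_lit 5) (nat_lit 45) (nat_lit 5) (nat_lit 46) (nat_lit 5) (nat_lit 355) (nat_lit 296) (nat_lit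 129)) (XT.nd (nat_lit 78) (nat_lit 0) (nat_lit 0) (XT.lf (nat_lit 0) (nat_lit 15221982383) (nat_lit 228) (nat_lit 3732412681) (nat_lit 304) (nat_lit 17331873211) (nat_lit 42) (nat_lit 5) (nat_lit 45) (nat_lit 5) (nat_lit 46) (nat_lit 5) (nat_lit 356) (nat_lit 296) (nat_lit 128)) (XT.lf (nat_lit 0) (nat_lit 23541767386) (nat_lit 304) (nat_lit 8670882105) (nat_lit 76) (nat_lit 4880980607) (nat_lit 42) (nat_lit 5) (nat_lit 46) (nat_lit 5) (nat_lit 43) (nat_lit 5) (nat_lit 357) (nat_lit 296) (nat_lit 127)))) (XT.nd (nat_lit 78) (nat_lit 0) (nat_lit 0) (XT.lf (nat_lit 0) (nat_lit 4132968264) (nat_lit 228) (nat_lit 24206923951) (nat_lit 304) (nat_lit 9583133856) (nat_lit 39) (nat_lit 5) (nat_lit 42) (nat_lit 5) (nat_lit 43) (nat_lit 5) (nat_lit 358) (nat_lit 296) (nat_lit 126)) (XT.nd (nat_lit 78) (nat_lit 0) (nat_lit 0) (XT.lf (nat_lit 0) (nat_lit 17493678192) (nat_lit 228) (nat_lit 15872345029)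 (nat_lit 304) (nat_lit 5408765852) (nat_lit 39) (nat_lit 5) (nat_lit 42) (nat_lit 5) (nat_lit 43) (nat_lit 5) (nat_lit 359) (nat_lit 296) (nat_lit 125)) (XT.lf (nat_lit 0) (nat_lit 31250354527) (nat_lit 228) (nat_lit 7289188990) (nat_lit 304) (nat_lit 1112670105) (nat_lit 39) (nat_lit 5) (nat_lit 42) (nat_lit 5) (nat_lit 43) (nat_lit 5) (nat_lit 360) (nat_lit 296) (nat_lit 124))))))))
noncomputable def xc205 : XT := (XT.nd (nat_lit 35646) (nat_lit 0) (nat_lit 7448) (XT.nd (nat_lit 858) (nat_lit 532) (nat_lit 0) (XT.nd (nat_lit 390) (nat_lit 456) (nat_lit 0) (XT.nd (nat_lit 156) (nat_lit 228) (nat_lit 0) (XT.nd (nat_lit 78) (nat_lit 0) (nat_lit 0) (XT.lf (nat_lit 0) (nat_lit 3307346957) (nat_lit 304) (nat_lit 35646162237) (nat_lit 76) (nat_lit 1599712737) (nat_lit 35) (nat_lit 5) (nat_lit 39) (nat_lit 5) (nat_lit 36) (nat_lit 5) (nat_lit 361) (nat_lit 296) (nat_lit 123)) (XT.lf (nat_lit 0) (nat_lit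 7992156168) (nat_lit 304) (nat_lit 22780096146) (nat_lit 76) (nat_lit 10704047263) (nat_lit 35) (nat_lit 5) (nat_lit 39) (nat_lit 5) (nat_lit 36) (nat_lit 5) (nat_lit 362) (nat_lit 296) (nat_lit 122))) (XT.nd (nat_lit 78) (nat_lit 228) (nat_lit 0) (XT.lf (nat_lit 0) (nat_lit 12814308385) (nat_lit 304) (nat_lit 9532737492) (nat_lit 76) (nat_lit 20080125773) (nat_lit 35) (nat_lit 5) (nat_lit 39) (nat_lit 5) (nat_lit 36) (nat_lit 5) (nat_lit 363) (nat_lit 296) (nat_lit 121)) (XT.nd (nat_lit 78) (nat_lit 0) (nat_lit 0) (XT.lf (nat_lit 0) (nat_lit 4189236174) (nat_lit 228) (nat_lit 13629050465) (nat_lit 304) (nat_lit 25587174282) (nat_lit 32) (nat_lit 5) (nat_lit 35) (nat_lit 5) (nat_lit 36) (nat_lit 5) (nat_lit 364) (nat_lit 296) (nat_lit 120)) (XT.lf (nat_lit 0) (nat_lit 18513772625) (nat_lit 228) (nat_lit 4551812733) (nat_lit 304) (nat_lit 21344723190) (nat_lit 32) (nat_lit 5) (nat_lit 35) (nat_lit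 5) (nat_lit 36) (nat_lit 5) (nat_lit 365) (nat_lit 296) (nat_lit 119))))) (XT.nd (nat_lit 234) (nat_lit 304) (nat_lit 0) (XT.nd (nat_lit 78) (nat_lit 152) (nat_lit 0) (XT.lf (nat_lit 0) (nat_lit 28513436675) (nat_lit 304) (nat_lit 12227833346) (nat_lit 76) (nat_lit 4702743119) (nat_lit 32) (nat_lit 5) (nat_lit 36) (nat_lit 5) (nat_lit 33) (nat_lit 5) (nat_lit 366) (nat_lit 296) (nat_lit 118)) (XT.nd (nat_lit 78) (nat_lit 0) (nat_lit 0) (XT.lf (nat_lit 0) (nat_lit 1837388695) (nat_lit 152) (nat_lit 32347166142) (nat_lit 228) (nat_lit 12322384475) (nat_lit 30) (nat_lit 5) (nat_lit 32) (nat_lit 5) (nat_lit 33) (nat_lit 5) (nat_lit 367) (nat_lit 296) (nat_lit 117)) (XT.lf (nat_lit 0) (nat_lit 16570940196) (nat_lit 152) (nat_lit 23575488457) (nat_lit 228) (nat_lit 7451711179) (nat_lit 30) (nat_lit 5) (nat_lit 32) (nat_lit 5) (nat_lit 33) (nat_lit 5) (nat_lit 368) (nat_lit 296) (nat_lit 116)))) (XT.nd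 (nat_lit 78) (nat_lit 304) (nat_lit 0) (XT.lf (nat_lit 0) (nat_lit 31742337272) (nat_lit 152) (nat_lit 14542049534) (nat_lit 228) (nat_lit 2437777790) (nat_lit 30) (nat_lit 5) (nat_lit 32) (nat_lit 5) (nat_lit 33) (nat_lit 5) (nat_lit 369) (nat_lit 296) (nat_lit 115)) (XT.nd (nat_lit 78) (nat_lit 228) (nat_lit 0) (XT.lf (nat_lit 0) (nat_lit 2670645711) (nat_lit 228) (nat_lit 2541342082) (nat_lit 76) (nat_lit 44667222489) (nat_lit 29) (nat_lit 5) (nat_lit 32) (nat_lit 5) (nat_lit 30) (nat_lit 5) (nat_lit 370) (nat_lit 296) (nat_lit 114)) (XT.lf (nat_lit 0) (nat_lit 8044987628) (nat_lit 304) (nat_lit 38563385734) (nat_lit 76) (nat_lit 4457024646) (nat_lit 26) (nat_lit 5) (nat_lit 30) (nat_lit 5) (nat_lit 27) (nat_lit 5) (nat_lit 371) (nat_lit 296) (nat_lit 113)))))) (XT.nd (nat_lit 390) (nat_lit 380) (nat_lit 0) (XT.nd (nat_lit 156) (nat_lit 152) (nat_lit 0) (XT.nd (nat_lit 78) (nat_lit 0) (nat_lit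 0) (XT.lf (nat_lit 0) (nat_lit 13655463251) (nat_lit 304) (nat_lit 24293507270) (nat_lit 76) (nat_lit 14335958250) (nat_lit 26) (nat_lit 5) (nat_lit 30) (nat_lit 5) (nat_lit 27) (nat_lit 5) (nat_lit 372) (nat_lit 296) (nat_lit 112)) (XT.lf (nat_lit 0) (nat_lit 19431712319) (nat_lit 304) (nat_lit 9599425792) (nat_lit 76) (nat_lit 24509987947) (nat_lit 26) (nat_lit 5) (nat_lit 30) (nat_lit 5) (nat_lit 27) (nat_lit 5) (nat_lit 373) (nat_lit 296) (nat_lit 111))) (XT.nd (nat_lit 78) (nat_lit 0) (nat_lit 0) (XT.lf (nat_lit 0) (nat_lit 5641789829) (nat_lit 152) (nat_lit 19791224546) (nat_lit 228) (nat_lit 29400446172) (nat_lit 24) (nat_lit 5) (nat_lit 26) (nat_lit 5) (nat_lit 27) (nat_lit 5) (nat_lit 374) (nat_lit 296) (nat_lit 110)) (XT.nd (nat_lit 78) (nat_lit 0) (nat_lit 0) (XT.lf (nat_lit 0) (nat_lit 21533277854) (nat_lit 152) (nat_lit 10175582069) (nat_lit 228) (nat_lit 24452874141) (nat_lit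 24) (nat_lit 5) (nat_lit 26) (nat_lit 5) (nat_lit 27) (nat_lit 5) (nat_lit 375) (nat_lit 296) (nat_lit 109)) (XT.lf (nat_lit 0) (nat_lit 37897876653) (nat_lit 152) (nat_lit 272744039) (nat_lit 228) (nat_lit 19359309903) (nat_lit 24) (nat_lit 5) (nat_lit 26) (nat_lit 5) (nat_lit 27) (nat_lit 5) (nat_lit 376) (nat_lit 296) (nat_lit 108))))) (XT.nd (nat_lit 234) (nat_lit 228) (nat_lit 0) (XT.nd (nat_lit 78) (nat_lit 152) (nat_lit 0) (XT.lf (nat_lit 0) (nat_lit 44919357115) (nat_lit 228) (nat_lit 4284774495) (nat_lit 76) (nat_lit 9732251616) (nat_lit 24) (nat_lit 5) (nat_lit 27) (nat_lit 5) (nat_lit 25) (nat_lit 5) (nat_lit 377) (nat_lit 296) (nat_lit 107)) (XT.nd (nat_lit 78) (nat_lit 0) (nat_lit 0) (XT.lf (nat_lit 0) (nat_lit 11745944337) (nat_lit 152) (nat_lit 40237984727) (nat_lit 228) (nat_lit 8397702944) (nat_lit 22) (nat_lit 5) (nat_lit 24) (nat_lit 5) (nat_lit 25) (nat_lit 5) (nat_lit 378)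 (nat_lit 296) (nat_lit 106)) (XT.lf (nat_lit 0) (nat_lit 28341968329) (nat_lit 152) (nat_lit 30959533429) (nat_lit 228) (nat_lit 2567508254) (nat_lit 22) (nat_lit 5) (nat_lit 24) (nat_lit 5) (nat_lit 25) (nat_lit 5) (nat_lit 379) (nat_lit 296) (nat_lit 105)))) (XT.nd (nat_lit 78) (nat_lit 152) (nat_lit 0) (XT.lf (nat_lit 0) (nat_lit 3368347757) (nat_lit 228) (nat_lit 18001576687) (nat_lit 76) (nat_lit 42030161980) (nat_lit 21) (nat_lit 5) (nat_lit 24) (nat_lit 5) (nat_lit 22) (nat_lit 5) (nat_lit 380) (nat_lit 296) (nat_lit 104)) (XT.nd (nat_lit 78) (nat_lit 152) (nat_lit 0) (XT.lf (nat_lit 0) (nat_lit 9428573414) (nat_lit 228) (nat_lit 2039065831) (nat_lit 76) (nat_lit 53508759663) (nat_lit 21) (nat_lit 5) (nat_lit 24) (nat_lit 5) (nat_lit 22) (nat_lit 5) (nat_lit 381) (nat_lit 296) (nat_lit 103)) (XT.lf (nat_lit 0) (nat_lit 14685689875) (nat_lit 152) (nat_lit 1124043350) (nat_lit 228) (nat_lit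 50786096975) (nat_lit 19) (nat_lit 5) (nat_lit 21) (nat_lit 5) (nat_lit 22) (nat_lit 5) (nat_lit 382) (nat_lit 296) (nat_lit 102))))))) (XT.nd (nat_lit 858) (nat_lit 2204) (nat_lit 0) (XT.nd (nat_lit 390) (nat_lit 0) (nat_lit 76) (XT.nd (nat_lit 156) (nat_lit 0) (nat_lit 0) (XT.nd (nat_lit 78) (nat_lit 0) (nat_lit 0) (XT.lf (nat_lit 0) (nat_lit 1647140585) (nat_lit 0) (nat_lit 1647140585) (nat_lit 988) (nat_lit 3005234186) (nat_lit 146) (nat_lit 5) (nat_lit 146) (nat_lit 3) (nat_lit 159) (nat_lit 3) (nat_lit 297) (nat_lit 297) (nat_lit 186)) (XT.lf (nat_lit 0) (nat_lit 7078986664) (nat_lit 988) (nat_lit 4289518482) (nat_lit 1064) (nat_lit 1406569864) (nat_lit 146) (nat_lit 5) (nat_lit 159) (nat_lit 3) (nat_lit 160) (nat_lit 5) (nat_lit 298) (nat_lit 297) (nat_lit 185))) (XT.nd (nat_lit 78) (nat_lit 0) (nat_lit 0) (XT.lf (nat_lit 76) (nat_lit 852251220) (nat_lit 0) (nat_lit 6758007657) (nat_lit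 1064) (nat_lit 5345404275) (nat_lit 147) (nat_lit 5) (nat_lit 146) (nat_lit 5) (nat_lit 160) (nat_lit 5) (nat_lit 299) (nat_lit 297) (nat_lit 184)) (XT.nd (nat_lit 78) (nat_lit 0) (nat_lit 76) (XT.lf (nat_lit 76) (nat_lit 6228350569) (nat_lit 0) (nat_lit 1958112462) (nat_lit 1064) (nat_lit 4954381306) (nat_lit 147) (nat_lit 5) (nat_lit 146) (nat_lit 5) (nat_lit 160) (nat_lit 5) (nat_lit 300) (nat_lit 297) (nat_lit 183)) (XT.lf (nat_lit 0) (nat_lit 8794810003) (nat_lit 988) (nat_lit 1602696204) (nat_lit 1064) (nat_lit 2933672949) (nat_lit 147) (nat_lit 5) (nat_lit 160) (nat_lit 5) (nat_lit 161) (nat_lit 5) (nat_lit 301) (nat_lit 297) (nat_lit 182))))) (XT.nd (nat_lit 234) (nat_lit 0) (nat_lit 76) (XT.nd (nat_lit 78) (nat_lit 0) (nat_lit 0) (XT.lf (nat_lit 76) (nat_lit 3915503909) (nat_lit 0) (nat_lit 5549487735) (nat_lit 1064) (nat_lit 4060967467) (nat_lit 148) (nat_lit 5) (nat_lit 147) (nat_lit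 5) (nat_lit 161) (nat_lit 5) (nat_lit 302) (nat_lit 297) (nat_lit 181)) (XT.nd (nat_lit 78) (nat_lit 0) (nat_lit 76) (XT.lf (nat_lit 76) (nat_lit 9624271562) (nat_lit 0) (nat_lit 534066254) (nat_lit 1064) (nat_lit 3568194252) (nat_lit 148) (nat_lit 5) (nat_lit 147) (nat_lit 5) (nat_lit 161) (nat_lit 5) (nat_lit 303) (nat_lit 297) (nat_lit 180)) (XT.lf (nat_lit 76) (nat_lit 1548802994) (nat_lit 0) (nat_lit 9370399959) (nat_lit 1064) (nat_lit 3012557876) (nat_lit 149) (nat_lit 5) (nat_lit 148) (nat_lit 5) (nat_lit 162) (nat_lit 5) (nat_lit 304) (nat_lit 297) (nat_lit 179)))) (XT.nd (nat_lit 78) (nat_lit 0) (nat_lit 76) (XT.lf (nat_lit 76) (nat_lit 7440100978) (nat_lit 0) (nat_lit 4297053307) (nat_lit 1064) (nat_lit 2405003363) (nat_lit 149) (nat_lit 5) (nat_lit 148) (nat_lit 5) (nat_lit 162) (nat_lit 5) (nat_lit 305) (nat_lit 297) (nat_lit 178)) (XT.nd (nat_lit 78) (nat_lit 0) (nat_lit 0) (XT.lf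 (nat_lit 0) (nat_lit 12576571196) (nat_lit 988) (nat_lit 867857669) (nat_lit 1064) (nat_lit 914567562) (nat_lit 149) (nat_lit 5) (nat_lit 162) (nat_lit 5) (nat_lit 163) (nat_lit 5) (nat_lit 306) (nat_lit 297) (nat_lit 177)) (XT.lf (nat_lit 76) (nat_lit 5192175262) (nat_lit 0) (nat_lit 8329802049) (nat_lit 1064) (nat_lit 1057975619) (nat_lit 150) (nat_lit 5) (nat_lit 149) (nat_lit 5) (nat_lit 163) (nat_lit 5) (nat_lit 307) (nat_lit 297) (nat_lit 176)))))) (XT.nd (nat_lit 468) (nat_lit 1444) (nat_lit 0) (XT.nd (nat_lit 234) (nat_lit 0) (nat_lit 0) (XT.nd (nat_lit 78) (nat_lit 988) (nat_lit 0) (XT.lf (nat_lit 76) (nat_lit 11443912503) (nat_lit 0) (nat_lit 3049211489) (nat_lit 1064) (nat_lit 314528479) (nat_lit 150) (nat_lit 5) (nat_lit 149) (nat_lit 5) (nat_lit 163) (nat_lit 5) (nat_lit 308) (nat_lit 297) (nat_lit 175)) (XT.nd (nat_lit 78) (nat_lit 0) (nat_lit 0) (XT.lf (nat_lit 0) (nat_lit 482274316)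 (nat_lit 1064) (nat_lit 12179845940) (nat_lit 1140) (nat_lit 2378770547) (nat_lit 136) (nat_lit 5) (nat_lit 150) (nat_lit 5) (nat_lit 151) (nat_lit 5) (nat_lit 309) (nat_lit 297) (nat_lit 174)) (XT.lf (nat_lit 0) (nat_lit 1350236797) (nat_lit 1064) (nat_lit 5980448368) (nat_lit 1140) (nat_lit 7948773041) (nat_lit 136) (nat_lit 5) (nat_lit 150) (nat_lit 5) (nat_lit 151) (nat_lit 5) (nat_lit 310) (nat_lit 297) (nat_lit 173)))) (XT.nd (nat_lit 78) (nat_lit 0) (nat_lit 76) (XT.lf (nat_lit 76) (nat_lit 404843666) (nat_lit 0) (nat_lit 1832687656) (nat_lit 1140) (nat_lit 13287884224) (nat_lit 137) (nat_lit 5) (nat_lit 136) (nat_lit 5) (nat_lit 151) (nat_lit 5) (nat_lit 311) (nat_lit 297) (nat_lit 172)) (XT.nd (nat_lit 78) (nat_lit 0) (nat_lit 0) (XT.lf (nat_lit 0) (nat_lit 3238909964) (nat_lit 1064) (nat_lit 8718343218) (nat_lit 1140) (nat_lit 3818905255) (nat_lit 137) (nat_lit 5) (nat_lit 151) (nat_lit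 5) (nat_lit 152) (nat_lit 5) (nat_lit 312) (nat_lit 297) (nat_lit 171)) (XT.lf (nat_lit 0) (nat_lit 4278434460) (nat_lit 1064) (nat_lit 2150226606) (nat_lit 1140) (nat_lit 9605549307) (nat_lit 137) (nat_lit 5) (nat_lit 151) (nat_lit 5) (nat_lit 152) (nat_lit 5) (nat_lit 313) (nat_lit 297) (nat_lit 170))))) (XT.nd (nat_lit 234) (nat_lit 532) (nat_lit 0) (XT.nd (nat_lit 78) (nat_lit 988) (nat_lit 0) (XT.lf (nat_lit 76) (nat_lit 4698825001) (nat_lit 0) (nat_lit 685739198) (nat_lit 1140) (nat_lit 10914406104) (nat_lit 138) (nat_lit 5) (nat_lit 137) (nat_lit 5) (nat_lit 152) (nat_lit 5) (nat_lit 314) (nat_lit 297) (nat_lit 169)) (XT.nd (nat_lit 78) (nat_lit 1064) (nat_lit 0) (XT.lf (nat_lit 0) (nat_lit 6586553430) (nat_lit 1064) (nat_lit 4832134622) (nat_lit 76) (nat_lit 5151132885) (nat_lit 138) (nat_lit 5) (nat_lit 152) (nat_lit 5) (nat_lit 139) (nat_lit 5) (nat_lit 315) (nat_lit 297) (nat_lit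 168)) (XT.lf (nat_lit 0) (nat_lit 2166584525) (nat_lit 1064) (nat_lit 5676389845) (nat_lit 1140) (nat_lit 9005298916) (nat_lit 124) (nat_lit 5) (nat_lit 138) (nat_lit 5) (nat_lit 139) (nat_lit 5) (nat_lit 316) (nat_lit 297) (nat_lit 167)))) (XT.nd (nat_lit 78) (nat_lit 532) (nat_lit 0) (XT.lf (nat_lit 0) (nat_lit 9179619006) (nat_lit 1140) (nat_lit 7670122849) (nat_lit 76) (nat_lit 284087977) (nat_lit 124) (nat_lit 5) (nat_lit 139) (nat_lit 5) (nat_lit 125) (nat_lit 5) (nat_lit 317) (nat_lit 297) (nat_lit 166)) (XT.nd (nat_lit 78) (nat_lit 532) (nat_lit 0) (XT.lf (nat_lit 0) (nat_lit 10603791420) (nat_lit 1140) (nat_lit 512231391) (nat_lit 76) (nat_lit 6310533195) (nat_lit 124) (nat_lit 5) (nat_lit 139) (nat_lit 5) (nat_lit 125) (nat_lit 5) (nat_lit 318) (nat_lit 297) (nat_lit 165)) (XT.lf (nat_lit 0) (nat_lit 6989189267) (nat_lit 532) (nat_lit 5140166198) (nat_lit 608) (nat_lit 5596973541)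 (nat_lit 117) (nat_lit 5) (nat_lit 124) (nat_lit 5) (nat_lit 125) (nat_lit 5) (nat_lit 319) (nat_lit 297) (nat_lit 164))))))))
noncomputable def xc206 : XT := (XT.nd (nat_lit 1716) (nat_lit 2356) (nat_lit 0) (XT.nd (nat_lit 858) (nat_lit 1900) (nat_lit 0) (XT.nd (nat_lit 390) (nat_lit 912) (nat_lit 0) (XT.nd (nat_lit 156) (nat_lit 608) (nat_lit 0) (XT.nd (nat_lit 78) (nat_lit 456) (nat_lit 0) (XT.lf (nat_lit 0) (nat_lit 13707332511) (nat_lit 608) (nat_lit 3326394786) (nat_lit 76) (nat_lit 1001192822) (nat_lit 117) (nat_lit 5) (nat_lit 125) (nat_lit 5) (nat_lit 118) (nat_lit 5) (nat_lit 320) (nat_lit 297) (nat_lit 163)) (XT.lf (nat_lit 0) (nat_lit 4332754749) (nat_lit 456) (nat_lit 11084344541) (nat_lit 532) (nat_lit 2933159758) (nat_lit 111) (nat_lit 5) (nat_lit 117) (nat_lit 5) (nat_lit 118) (nat_lit 5) (nat_lit 321) (nat_lit 297) (nat_lit 162))) (XT.nd (nat_lit 78) (nat_lit 608) (nat_lit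 0) (XT.lf (nat_lit 0) (nat_lit 12282368161) (nat_lit 456) (nat_lit 4921453168) (nat_lit 532) (nat_lit 1470489859) (nat_lit 111) (nat_lit 5) (nat_lit 117) (nat_lit 5) (nat_lit 118) (nat_lit 5) (nat_lit 322) (nat_lit 297) (nat_lit 161)) (XT.nd (nat_lit 78) (nat_lit 0) (nat_lit 0) (XT.lf (nat_lit 0) (nat_lit 55680746) (nat_lit 608) (nat_lit 17538229993) (nat_lit 76) (nat_lit 1413575621) (nat_lit 103) (nat_lit 5) (nat_lit 111) (nat_lit 5) (nat_lit 104) (nat_lit 5) (nat_lit 323) (nat_lit 297) (nat_lit 160)) (XT.lf (nat_lit 0) (nat_lit 1704357096) (nat_lit 608) (nat_lit 9722961977) (nat_lit 76) (nat_lit 7919733618) (nat_lit 103) (nat_lit 5) (nat_lit 111) (nat_lit 5) (nat_lit 104) (nat_lit 5) (nat_lit 324) (nat_lit 297) (nat_lit 159))))) (XT.nd (nat_lit 234) (nat_lit 456) (nat_lit 0) (XT.nd (nat_lit 78) (nat_lit 456) (nat_lit 0) (XT.lf (nat_lit 0) (nat_lit 3395079753) (nat_lit 608) (nat_lit 1680649754)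 (nat_lit 76) (nat_lit 14621319282) (nat_lit 103) (nat_lit 5) (nat_lit 111) (nat_lit 5) (nat_lit 104) (nat_lit 5) (nat_lit 325) (nat_lit 297) (nat_lit 158)) (XT.nd (nat_lit 78) (nat_lit 0) (nat_lit 0) (XT.lf (nat_lit 0) (nat_lit 5208726352) (nat_lit 532) (nat_lit 13343574821) (nat_lit 76) (nat_lit 1503097290) (nat_lit 97) (nat_lit 5) (nat_lit 104) (nat_lit 5) (nat_lit 98) (nat_lit 5) (nat_lit 326) (nat_lit 297) (nat_lit 157)) (XT.lf (nat_lit 0) (nat_lit 7137118817) (nat_lit 532) (nat_lit 5091246901) (nat_lit 76) (nat_lit 8194342002) (nat_lit 97) (nat_lit 5) (nat_lit 104) (nat_lit 5) (nat_lit 98) (nat_lit 5) (nat_lit 327) (nat_lit 297) (nat_lit 156)))) (XT.nd (nat_lit 78) (nat_lit 0) (nat_lit 0) (XT.lf (nat_lit 0) (nat_lit 3469204280) (nat_lit 456) (nat_lit 5680654869) (nat_lit 532) (nat_lit 11650400850) (nat_lit 91) (nat_lit 5) (nat_lit 97) (nat_lit 5) (nat_lit 98) (nat_lit 5) (nat_lit 328)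 (nat_lit 297) (nat_lit 155)) (XT.nd (nat_lit 78) (nat_lit 0) (nat_lit 0) (XT.lf (nat_lit 0) (nat_lit 11278401389) (nat_lit 532) (nat_lit 8814783372) (nat_lit 76) (nat_lit 1094309580) (nat_lit 91) (nat_lit 5) (nat_lit 98) (nat_lit 5) (nat_lit 92) (nat_lit 5) (nat_lit 329) (nat_lit 297) (nat_lit 154)) (XT.lf (nat_lit 0) (nat_lit 13520516013) (nat_lit 532) (nat_lit 106344168) (nat_lit 76) (nat_lit 7958011606) (nat_lit 91) (nat_lit 5) (nat_lit 98) (nat_lit 5) (nat_lit 92) (nat_lit 5) (nat_lit 330) (nat_lit 297) (nat_lit 153)))))) (XT.nd (nat_lit 390) (nat_lit 684) (nat_lit 0) (XT.nd (nat_lit 156) (nat_lit 836) (nat_lit 0) (XT.nd (nat_lit 78) (nat_lit 0) (nat_lit 0) (XT.lf (nat_lit 0) (nat_lit 9032738398) (nat_lit 380) (nat_lit 6877646032) (nat_lit 456) (nat_lit 6081388465) (nat_lit 86) (nat_lit 5) (nat_lit 91) (nat_lit 5) (nat_lit 92) (nat_lit 5) (nat_lit 331) (nat_lit 297) (nat_lit 152)) (XT.lf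 (nat_lit 0) (nat_lit 18367520878) (nat_lit 456) (nat_lit 3970399018) (nat_lit 76) (nat_lit 73110530) (nat_lit 86) (nat_lit 5) (nat_lit 92) (nat_lit 5) (nat_lit 87) (nat_lit 5) (nat_lit 332) (nat_lit 297) (nat_lit 151))) (XT.nd (nat_lit 78) (nat_lit 456) (nat_lit 0) (XT.lf (nat_lit 0) (nat_lit 5316751717) (nat_lit 380) (nat_lit 15694780085) (nat_lit 456) (nat_lit 1827955137) (nat_lit 81) (nat_lit 5) (nat_lit 86) (nat_lit 5) (nat_lit 87) (nat_lit 5) (nat_lit 333) (nat_lit 297) (nat_lit 150)) (XT.nd (nat_lit 78) (nat_lit 380) (nat_lit 0) (XT.lf (nat_lit 0) (nat_lit 479689945) (nat_lit 456) (nat_lit 8327315122) (nat_lit 76) (nat_lit 14472641750) (nat_lit 80) (nat_lit 5) (nat_lit 86) (nat_lit 5) (nat_lit 81) (nat_lit 5) (nat_lit 334) (nat_lit 297) (nat_lit 149)) (XT.lf (nat_lit 0) (nat_lit 1141478013) (nat_lit 380) (nat_lit 1683488079) (nat_lit 456) (nat_lit 20907362892) (nat_lit 75) (nat_lit 5)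 (nat_lit 80) (nat_lit 5) (nat_lit 81) (nat_lit 5) (nat_lit 335) (nat_lit 297) (nat_lit 148))))) (XT.nd (nat_lit 234) (nat_lit 304) (nat_lit 0) (XT.nd (nat_lit 78) (nat_lit 380) (nat_lit 0) (XT.lf (nat_lit 0) (nat_lit 5374136989) (nat_lit 456) (nat_lit 13192989510) (nat_lit 76) (nat_lit 5627473300) (nat_lit 75) (nat_lit 5) (nat_lit 81) (nat_lit 5) (nat_lit 76) (nat_lit 5) (nat_lit 336) (nat_lit 297) (nat_lit 147)) (XT.nd (nat_lit 78) (nat_lit 380) (nat_lit 0) (XT.lf (nat_lit 0) (nat_lit 8010885370) (nat_lit 456) (nat_lit 3536440593) (nat_lit 76) (nat_lit 13123093566) (nat_lit 75) (nat_lit 5) (nat_lit 81) (nat_lit 5) (nat_lit 76) (nat_lit 5) (nat_lit 337) (nat_lit 297) (nat_lit 146)) (XT.lf (nat_lit 0) (nat_lit 6530856796) (nat_lit 380) (nat_lit 4253254269) (nat_lit 456) (nat_lit 14374694997) (nat_lit 70) (nat_lit 5) (nat_lit 75) (nat_lit 5) (nat_lit 76) (nat_lit 5) (nat_lit 338) (nat_lit 297)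 (nat_lit 145)))) (XT.nd (nat_lit 78) (nat_lit 304) (nat_lit 0) (XT.lf (nat_lit 0) (nat_lit 13702614934) (nat_lit 456) (nat_lit 8726281797) (nat_lit 76) (nat_lit 3231098083) (nat_lit 70) (nat_lit 5) (nat_lit 76) (nat_lit 5) (nat_lit 71) (nat_lit 5) (nat_lit 339) (nat_lit 297) (nat_lit 144)) (XT.nd (nat_lit 78) (nat_lit 0) (nat_lit 0) (XT.lf (nat_lit 0) (nat_lit 1452365750) (nat_lit 304) (nat_lit 15307218547) (nat_lit 380) (nat_lit 9415120304) (nat_lit 66) (nat_lit 5) (nat_lit 70) (nat_lit 5) (nat_lit 71) (nat_lit 5) (nat_lit 340) (nat_lit 297) (nat_lit 143)) (XT.lf (nat_lit 0) (nat_lit 12109015299) (nat_lit 304) (nat_lit 7882294093) (nat_lit 380) (nat_lit 6711067206) (nat_lit 66) (nat_lit 5) (nat_lit 70) (nat_lit 5) (nat_lit 71) (nat_lit 5) (nat_lit 341) (nat_lit 297) (nat_lit 142))))))) (XT.nd (nat_lit 858) (nat_lit 1140) (nat_lit 0) (XT.nd (nat_lit 390) (nat_lit 532) (nat_lit 0) (XT.nd (nat_lit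 156) (nat_lit 380) (nat_lit 0) (XT.nd (nat_lit 78) (nat_lit 304) (nat_lit 0) (XT.lf (nat_lit 0) (nat_lit 23079308368) (nat_lit 304) (nat_lit 235753906) (nat_lit 380) (nat_lit 3930976157) (nat_lit 66) (nat_lit 5) (nat_lit 70) (nat_lit 5) (nat_lit 71) (nat_lit 5) (nat_lit 342) (nat_lit 297) (nat_lit 141)) (XT.lf (nat_lit 0) (nat_lit 6622462050) (nat_lit 304) (nat_lit 20248375841) (nat_lit 380) (nat_lit 931214529) (nat_lit 62) (nat_lit 5) (nat_lit 66) (nat_lit 5) (nat_lit 67) (nat_lit 5) (nat_lit 343) (nat_lit 297) (nat_lit 140))) (XT.nd (nat_lit 78) (nat_lit 304) (nat_lit 0) (XT.lf (nat_lit 0) (nat_lit 2156479071) (nat_lit 380) (nat_lit 10582311531) (nat_lit 76) (nat_lit 15634142894) (nat_lit 61) (nat_lit 5) (nat_lit 66) (nat_lit 5) (nat_lit 62) (nat_lit 5) (nat_lit 344) (nat_lit 297) (nat_lit 139)) (XT.nd (nat_lit 78) (nat_lit 0) (nat_lit 0) (XT.lf (nat_lit 0) (nat_lit 324096041) (nat_lit 304)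 (nat_lit 4992478611) (nat_lit 380) (nat_lit 23644145747) (nat_lit 57) (nat_lit 5) (nat_lit 61) (nat_lit 5) (nat_lit 62) (nat_lit 5) (nat_lit 345) (nat_lit 297) (nat_lit 138)) (XT.lf (nat_lit 0) (nat_lit 8703535691) (nat_lit 380) (nat_lit 17824046261) (nat_lit 76) (nat_lit 3034607393) (nat_lit 57) (nat_lit 5) (nat_lit 62) (nat_lit 5) (nat_lit 58) (nat_lit 5) (nat_lit 346) (nat_lit 297) (nat_lit 137))))) (XT.nd (nat_lit 234) (nat_lit 228) (nat_lit 0) (XT.nd (nat_lit 78) (nat_lit 304) (nat_lit 0) (XT.lf (nat_lit 0) (nat_lit 12237107468) (nat_lit 380) (nat_lit 6742317997) (nat_lit 76) (nat_lit 11200936850) (nat_lit 57) (nat_lit 5) (nat_lit 62) (nat_lit 5) (nat_lit 58) (nat_lit 5) (nat_lit 347) (nat_lit 297) (nat_lit 136)) (XT.nd (nat_lit 78) (nat_lit 0) (nat_lit 0) (XT.lf (nat_lit 0) (nat_lit 4759101465) (nat_lit 304) (nat_lit 11159032741) (nat_lit 380) (nat_lit 14897712556) (nat_lit 53) (nat_lit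 5) (nat_lit 57) (nat_lit 5) (nat_lit 58) (nat_lit 5) (nat_lit 348) (nat_lit 297) (nat_lit 135)) (XT.lf (nat_lit 0) (nat_lit 16738201736) (nat_lit 304) (nat_lit 3035246277) (nat_lit 380) (nat_lit 11695041479) (nat_lit 53) (nat_lit 5) (nat_lit 57) (nat_lit 5) (nat_lit 58) (nat_lit 5) (nat_lit 349) (nat_lit 297) (nat_lit 134)))) (XT.nd (nat_lit 78) (nat_lit 228) (nat_lit 0) (XT.lf (nat_lit 0) (nat_lit 23791560790) (nat_lit 380) (nat_lit 3120823506) (nat_lit 76) (nat_lit 5226922186) (nat_lit 53) (nat_lit 5) (nat_lit 58) (nat_lit 5) (nat_lit 54) (nat_lit 5) (nat_lit 350) (nat_lit 297) (nat_lit 133)) (XT.nd (nat_lit 78) (nat_lit 0) (nat_lit 0) (XT.lf (nat_lit 0) (nat_lit 8976670851) (nat_lit 228) (nat_lit 19065889884) (nat_lit 304) (nat_lit 4784325829) (nat_lit 50) (nat_lit 5) (nat_lit 53) (nat_lit 5) (nat_lit 54) (nat_lit 5) (nat_lit 351) (nat_lit 297) (nat_lit 132)) (XT.lf (nat_lit 0) (nat_lit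 21495747440) (nat_lit 228) (nat_lit 10952925352) (nat_lit 304) (nat_lit 1085602430) (nat_lit 50) (nat_lit 5) (nat_lit 53) (nat_lit 5) (nat_lit 54) (nat_lit 5) (nat_lit 352) (nat_lit 297) (nat_lit 131)))))) (XT.nd (nat_lit 390) (nat_lit 532) (nat_lit 0) (XT.nd (nat_lit 156) (nat_lit 228) (nat_lit 0) (XT.nd (nat_lit 78) (nat_lit 0) (nat_lit 0) (XT.lf (nat_lit 0) (nat_lit 97990781) (nat_lit 304) (nat_lit 2570013594) (nat_lit 380) (nat_lit 31594191390) (nat_lit 45) (nat_lit 5) (nat_lit 49) (nat_lit 5) (nat_lit 50) (nat_lit 5) (nat_lit 353) (nat_lit 297) (nat_lit 130)) (XT.lf (nat_lit 0) (nat_lit 6689649194) (nat_lit 380) (nat_lit 22238474483) (nat_lit 76) (nat_lit 6078198215) (nat_lit 45) (nat_lit 5) (nat_lit 50) (nat_lit 5) (nat_lit 46) (nat_lit 5) (nat_lit 354) (nat_lit 297) (nat_lit 129))) (XT.nd (nat_lit 78) (nat_lit 228) (nat_lit 0) (XT.lf (nat_lit 0) (nat_lit 10853685748) (nat_lit 380) (nat_lit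 9985566973) (nat_lit 76) (nat_lit 14932874485) (nat_lit 45) (nat_lit 5) (nat_lit 50) (nat_lit 5) (nat_lit 46) (nat_lit 5) (nat_lit 355) (nat_lit 297) (nat_lit 128)) (XT.nd (nat_lit 78) (nat_lit 0) (nat_lit 0) (XT.lf (nat_lit 0) (nat_lit 2682269247) (nat_lit 228) (nat_lit 12482562338) (nat_lit 304) (nat_lit 21395416899) (nat_lit 42) (nat_lit 5) (nat_lit 45) (nat_lit 5) (nat_lit 46) (nat_lit 5) (nat_lit 356) (nat_lit 297) (nat_lit 127)) (XT.lf (nat_lit 0) (nat_lit 15929884652) (nat_lit 228) (nat_lit 3772723504) (nat_lit 304) (nat_lit 17666493588) (nat_lit 42) (nat_lit 5) (nat_lit 45) (nat_lit 5) (nat_lit 46) (nat_lit 5) (nat_lit 357) (nat_lit 297) (nat_lit 126))))) (XT.nd (nat_lit 234) (nat_lit 304) (nat_lit 0) (XT.nd (nat_lit 78) (nat_lit 228) (nat_lit 0) (XT.lf (nat_lit 0) (nat_lit 24423039917) (nat_lit 304) (nat_lit 8682165343) (nat_lit 76) (nat_lit 5095626708) (nat_lit 42) (nat_lit 5) (nat_lit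 46) (nat_lit 5) (nat_lit 43) (nat_lit 5) (nat_lit 358) (nat_lit 297) (nat_lit 125)) (XT.nd (nat_lit 78) (nat_lit 0) (nat_lit 0) (XT.lf (nat_lit 0) (nat_lit 4503360898) (nat_lit 228) (nat_lit 24859018519) (nat_lit 304) (nat_lit 9692822656) (nat_lit 39) (nat_lit 5) (nat_lit 42) (nat_lit 5) (nat_lit 43) (nat_lit 5) (nat_lit 359) (nat_lit 297) (nat_lit 124)) (XT.lf (nat_lit 0) (nat_lit 18257715320) (nat_lit 228) (nat_lit 16276560864) (nat_lit 304) (nat_lit 5398402405) (nat_lit 39) (nat_lit 5) (nat_lit 42) (nat_lit 5) (nat_lit 43) (nat_lit 5) (nat_lit 360) (nat_lit 297) (nat_lit 123)))) (XT.nd (nat_lit 78) (nat_lit 304) (nat_lit 0) (XT.lf (nat_lit 0) (nat_lit 32420124175) (nat_lit 228) (nat_lit 7438005907) (nat_lit 304) (nat_lit 978451739) (nat_lit 39) (nat_lit 5) (nat_lit 42) (nat_lit 5) (nat_lit 43) (nat_lit 5) (nat_lit 361) (nat_lit 297) (nat_lit 122)) (XT.nd (nat_lit 78) (nat_lit 0) (nat_lit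 0) (XT.lf (nat_lit 0) (nat_lit 3569043681) (nat_lit 304) (nat_lit 36477541763) (nat_lit 76) (nat_lit 1718051379) (nat_lit 35) (nat_lit 5) (nat_lit 39) (nat_lit 5) (nat_lit 36) (nat_lit 5) (nat_lit 362) (nat_lit 297) (nat_lit 121)) (XT.lf (nat_lit 0) (nat_lit 8389664849) (nat_lit 304) (nat_lit 23232425884) (nat_lit 76) (nat_lit 11093466991) (nat_lit 35) (nat_lit 5) (nat_lit 39) (nat_lit 5) (nat_lit 36) (nat_lit 5) (nat_lit 363) (nat_lit 297) (nat_lit 120))))))))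
noncomputable def xc207 : XT := (XT.nd (nat_lit 35724) (nat_lit 0) (nat_lit 6840) (XT.nd (nat_lit 858) (nat_lit 380) (nat_lit 0) (XT.nd (nat_lit 390) (nat_lit 304) (nat_lit 0) (XT.nd (nat_lit 156) (nat_lit 152) (nat_lit 0) (XT.nd (nat_lit 78) (nat_lit 228) (nat_lit 0) (XT.lf (nat_lit 0) (nat_lit 13351887148) (nat_lit 304) (nat_lit 9594376755) (nat_lit 76) (nat_lit 20748838585) (nat_lit 35) (nat_lit 5) (nat_lit 39) (nat_lit 5) (nat_lit 36) (nat_lit 5) (nat_lit 364) (nat_lit 297) (nat_lit 119)) (XT.lf (nat_lit 0) (nat_lit 4537056681) (nat_lit 228) (nat_lit 13966602782) (nat_lit 304) (nat_lit 26199159176) (nat_lit 32) (nat_lit 5) (nat_lit 35) (nat_lit 5) (nat_lit 36) (nat_lit 5) (nat_lit 365) (nat_lit 297) (nat_lit 118))) (XT.nd (nat_lit 78) (nat_lit 152) (nat_lit 0) (XT.lf (nat_lit 0) (nat_lit 19284859029) (nat_lit 228) (nat_lit 4619125176) (nat_lit 304) (nat_lit 21833967473) (nat_lit 32) (nat_lit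 5) (nat_lit 35) (nat_lit 5) (nat_lit 36) (nat_lit 5) (nat_lit 366) (nat_lit 297) (nat_lit 117)) (XT.nd (nat_lit 78) (nat_lit 152) (nat_lit 0) (XT.lf (nat_lit 0) (nat_lit 29511652281) (nat_lit 304) (nat_lit 12381392855) (nat_lit 76) (nat_lit 4909738791) (nat_lit 32) (nat_lit 5) (nat_lit 36) (nat_lit 5) (nat_lit 33) (nat_lit 5) (nat_lit 367) (nat_lit 297) (nat_lit 116)) (XT.lf (nat_lit 0) (nat_lit 2103694911) (nat_lit 152) (nat_lit 33247079524) (nat_lit 228) (nat_lit 12546895060) (nat_lit 30) (nat_lit 5) (nat_lit 32) (nat_lit 5) (nat_lit 33) (nat_lit 5) (nat_lit 368) (nat_lit 297) (nat_lit 115))))) (XT.nd (nat_lit 234) (nat_lit 228) (nat_lit 0) (XT.nd (nat_lit 78) (nat_lit 76) (nat_lit 0) (XT.lf (nat_lit 0) (nat_lit 17273101950) (nat_lit 152) (nat_lit 24214304954) (nat_lit 228) (nat_lit 7534329554) (nat_lit 30) (nat_lit 5) (nat_lit 32) (nat_lit 5) (nat_lit 33) (nat_lit 5) (nat_lit 369) (nat_lit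 297) (nat_lit 114)) (XT.nd (nat_lit 78) (nat_lit 76) (nat_lit 0) (XT.lf (nat_lit 0) (nat_lit 32893669088) (nat_lit 152) (nat_lit 14911856499) (nat_lit 228) (nat_lit 2374083007) (nat_lit 30) (nat_lit 5) (nat_lit 32) (nat_lit 5) (nat_lit 33) (nat_lit 5) (nat_lit 370) (nat_lit 297) (nat_lit 113)) (XT.lf (nat_lit 0) (nat_lit 2881015672) (nat_lit 228) (nat_lit 2421497526) (nat_lit 76) (nat_lit 46068937083) (nat_lit 29) (nat_lit 5) (nat_lit 32) (nat_lit 5) (nat_lit 30) (nat_lit 5) (nat_lit 371) (nat_lit 297) (nat_lit 112)))) (XT.nd (nat_lit 78) (nat_lit 0) (nat_lit 0) (XT.lf (nat_lit 0) (nat_lit 8415293434) (nat_lit 304) (nat_lit 39522685948) (nat_lit 76) (nat_lit 4655289754) (nat_lit 26) (nat_lit 5) (nat_lit 30) (nat_lit 5) (nat_lit 27) (nat_lit 5) (nat_lit 372) (nat_lit 297) (nat_lit 111)) (XT.nd (nat_lit 78) (nat_lit 0) (nat_lit 0) (XT.lf (nat_lit 0) (nat_lit 14190327320) (nat_lit 304) (nat_lit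 24830466510) (nat_lit 76) (nat_lit 14828711141) (nat_lit 26) (nat_lit 5) (nat_lit 30) (nat_lit 5) (nat_lit 27) (nat_lit 5) (nat_lit 373) (nat_lit 297) (nat_lit 110)) (XT.lf (nat_lit 0) (nat_lit 20136217254) (nat_lit 304) (nat_lit 9701150334) (nat_lit 76) (nat_lit 25306136269) (nat_lit 26) (nat_lit 5) (nat_lit 30) (nat_lit 5) (nat_lit 27) (nat_lit 5) (nat_lit 374) (nat_lit 297) (nat_lit 109)))))) (XT.nd (nat_lit 390) (nat_lit 76) (nat_lit 0) (XT.nd (nat_lit 156) (nat_lit 152) (nat_lit 0) (XT.nd (nat_lit 78) (nat_lit 0) (nat_lit 0) (XT.lf (nat_lit 0) (nat_lit 5995475694) (nat_lit 152) (nat_lit 20320315157) (nat_lit 228) (nat_lit 30158876653) (nat_lit 24) (nat_lit 5) (nat_lit 26) (nat_lit 5) (nat_lit 27) (nat_lit 5) (nat_lit 375) (nat_lit 297) (nat_lit 108)) (XT.lf (nat_lit 0) (nat_lit 22358336549) (nat_lit 152) (nat_lit 10418086302) (nat_lit 228) (nat_lit 25066476963) (nat_lit 24) (nat_lit 5)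 (nat_lit 26) (nat_lit 5) (nat_lit 27) (nat_lit 5) (nat_lit 376) (nat_lit 297) (nat_lit 107))) (XT.nd (nat_lit 78) (nat_lit 152) (nat_lit 0) (XT.lf (nat_lit 0) (nat_lit 39208657962) (nat_lit 152) (nat_lit 219991187) (nat_lit 228) (nat_lit 19823600460) (nat_lit 24) (nat_lit 5) (nat_lit 26) (nat_lit 5) (nat_lit 27) (nat_lit 5) (nat_lit 377) (nat_lit 297) (nat_lit 106)) (XT.nd (nat_lit 78) (nat_lit 152) (nat_lit 0) (XT.lf (nat_lit 0) (nat_lit 46377127714) (nat_lit 228) (nat_lit 4241630189) (nat_lit 76) (nat_lit 10082225096) (nat_lit 24) (nat_lit 5) (nat_lit 27) (nat_lit 5) (nat_lit 25) (nat_lit 5) (nat_lit 378) (nat_lit 297) (nat_lit 105)) (XT.lf (nat_lit 0) (nat_lit 12268326997) (nat_lit 152) (nat_lit 41383734596) (nat_lit 228) (nat_lit 8537580326) (nat_lit 22) (nat_lit 5) (nat_lit 24) (nat_lit 5) (nat_lit 25) (nat_lit 5) (nat_lit 379) (nat_lit 297) (nat_lit 104))))) (XT.nd (nat_lit 34242) (nat_lit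 0) (nat_lit 9500) (XT.nd (nat_lit 78) (nat_lit 76) (nat_lit 0) (XT.lf (nat_lit 0) (nat_lit 29357280127) (nat_lit 152) (nat_lit 31828717808) (nat_lit 228) (nat_lit 2535743495) (nat_lit 22) (nat_lit 5) (nat_lit 24) (nat_lit 5) (nat_lit 25) (nat_lit 5) (nat_lit 380) (nat_lit 297) (nat_lit 103)) (XT.nd (nat_lit 78) (nat_lit 0) (nat_lit 0) (XT.lf (nat_lit 0) (nat_lit 3572958502) (nat_lit 228) (nat_lit 18379152265) (nat_lit 76) (nat_lit 43346706157) (nat_lit 21) (nat_lit 5) (nat_lit 24) (nat_lit 5) (nat_lit 22) (nat_lit 5) (nat_lit 381) (nat_lit 297) (nat_lit 102)) (XT.lf (nat_lit 0) (nat_lit 9811974608) (nat_lit 228) (nat_lit 1942498269) (nat_lit 76) (nat_lit 55168041208) (nat_lit 21) (nat_lit 5) (nat_lit 24) (nat_lit 5) (nat_lit 22) (nat_lit 5) (nat_lit 382) (nat_lit 297) (nat_lit 101)))) (XT.nd (nat_lit 78) (nat_lit 0) (nat_lit 0) (XT.lf (nat_lit 0) (nat_lit 1883641945) (nat_lit 0) (nat_lit 1883641945)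 (nat_lit 988) (nat_lit 2708809882) (nat_lit 146) (nat_lit 5) (nat_lit 146) (nat_lit 3) (nat_lit 159) (nat_lit 3) (nat_lit 298) (nat_lit 298) (nat_lit 184)) (XT.nd (nat_lit 78) (nat_lit 0) (nat_lit 0) (XT.lf (nat_lit 0) (nat_lit 8014416240) (nat_lit 988) (nat_lit 4027344651) (nat_lit 1064) (nat_lit 1092579779) (nat_lit 146) (nat_lit 5) (nat_lit 159) (nat_lit 3) (nat_lit 160) (nat_lit 5) (nat_lit 299) (nat_lit 298) (nat_lit 183)) (XT.lf (nat_lit 76) (nat_lit 1264846188) (nat_lit 0) (nat_lit 7279440777) (nat_lit 1064) (nat_lit 4776646520) (nat_lit 147) (nat_lit 5) (nat_lit 146) (nat_lit 5) (nat_lit 160) (nat_lit 5) (nat_lit 300) (nat_lit 298) (nat_lit 182))))))) (XT.nd (nat_lit 858) (nat_lit 1824) (nat_lit 0) (XT.nd (nat_lit 390) (nat_lit 836) (nat_lit 0) (XT.nd (nat_lit 156) (nat_lit 0) (nat_lit 76) (XT.nd (nat_lit 78) (nat_lit 0) (nat_lit 76) (XT.lf (nat_lit 76) (nat_lit 6790955873) (nat_lit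 0) (nat_lit 2326266409) (nat_lit 1064) (nat_lit 4395129364) (nat_lit 147) (nat_lit 5) (nat_lit 146) (nat_lit 5) (nat_lit 160) (nat_lit 5) (nat_lit 301) (nat_lit 298) (nat_lit 181)) (XT.lf (nat_lit 0) (nat_lit 9720975776) (nat_lit 988) (nat_lit 1261022670) (nat_lit 1064) (nat_lit 2727146382) (nat_lit 147) (nat_lit 5) (nat_lit 160) (nat_lit 5) (nat_lit 161) (nat_lit 5) (nat_lit 302) (nat_lit 298) (nat_lit 180))) (XT.nd (nat_lit 78) (nat_lit 0) (nat_lit 0) (XT.lf (nat_lit 76) (nat_lit 4418902324) (nat_lit 0) (nat_lit 5976779452) (nat_lit 1064) (nat_lit 3514615005) (nat_lit 148) (nat_lit 5) (nat_lit 147) (nat_lit 5) (nat_lit 161) (nat_lit 5) (nat_lit 303) (nat_lit 298) (nat_lit 179)) (XT.nd (nat_lit 78) (nat_lit 0) (nat_lit 76) (XT.lf (nat_lit 76) (nat_lit 10287692231) (nat_lit 0) (nat_lit 803299004) (nat_lit 1064) (nat_lit 3026520190) (nat_lit 148) (nat_lit 5) (nat_lit 147) (nat_lit 5) (nat_lit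 161) (nat_lit 5) (nat_lit 304) (nat_lit 298) (nat_lit 178)) (XT.lf (nat_lit 76) (nat_lit 1989308824) (nat_lit 0) (nat_lit 9868509704) (nat_lit 1064) (nat_lit 2471642091) (nat_lit 149) (nat_lit 5) (nat_lit 148) (nat_lit 5) (nat_lit 162) (nat_lit 5) (nat_lit 305) (nat_lit 298) (nat_lit 177))))) (XT.nd (nat_lit 234) (nat_lit 988) (nat_lit 0) (XT.nd (nat_lit 78) (nat_lit 0) (nat_lit 76) (XT.lf (nat_lit 76) (nat_lit 8045868804) (nat_lit 0) (nat_lit 4636642330) (nat_lit 1064) (nat_lit 1864248103) (nat_lit 149) (nat_lit 5) (nat_lit 148) (nat_lit 5) (nat_lit 162) (nat_lit 5) (nat_lit 306) (nat_lit 298) (nat_lit 176)) (XT.nd (nat_lit 78) (nat_lit 0) (nat_lit 0) (XT.lf (nat_lit 0) (nat_lit 13527865477) (nat_lit 988) (nat_lit 501414663) (nat_lit 1064) (nat_lit 741454736) (nat_lit 149) (nat_lit 5) (nat_lit 162) (nat_lit 5) (nat_lit 163) (nat_lit 5) (nat_lit 307) (nat_lit 298) (nat_lit 175)) (XT.lf (nat_lit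 76) (nat_lit 5736571425) (nat_lit 0) (nat_lit 8752079745) (nat_lit 1064) (nat_lit 510111146) (nat_lit 150) (nat_lit 5) (nat_lit 149) (nat_lit 5) (nat_lit 163) (nat_lit 5) (nat_lit 308) (nat_lit 298) (nat_lit 174)))) (XT.nd (nat_lit 78) (nat_lit 0) (nat_lit 76) (XT.lf (nat_lit 0) (nat_lit 234098721) (nat_lit 1064) (nat_lit 3071587926) (nat_lit 1140) (nat_lit 11928078777) (nat_lit 135) (nat_lit 5) (nat_lit 149) (nat_lit 5) (nat_lit 150) (nat_lit 5) (nat_lit 309) (nat_lit 298) (nat_lit 173)) (XT.nd (nat_lit 78) (nat_lit 0) (nat_lit 0) (XT.lf (nat_lit 0) (nat_lit 1034652254) (nat_lit 1064) (nat_lit 12139850064) (nat_lit 1140) (nat_lit 2299868398) (nat_lit 136) (nat_lit 5) (nat_lit 150) (nat_lit 5) (nat_lit 151) (nat_lit 5) (nat_lit 310) (nat_lit 298) (nat_lit 172)) (XT.lf (nat_lit 0) (nat_lit 1912986336) (nat_lit 1064) (nat_lit 5766278077) (nat_lit 1140) (nat_lit 8041347625) (nat_lit 136) (nat_lit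 5) (nat_lit 150) (nat_lit 5) (nat_lit 151) (nat_lit 5) (nat_lit 311) (nat_lit 298) (nat_lit 171)))))) (XT.nd (nat_lit 468) (nat_lit 988) (nat_lit 0) (XT.nd (nat_lit 234) (nat_lit 912) (nat_lit 0) (XT.nd (nat_lit 78) (nat_lit 0) (nat_lit 76) (XT.lf (nat_lit 76) (nat_lit 806714054) (nat_lit 0) (nat_lit 2008720974) (nat_lit 1140) (nat_lit 13158902524) (nat_lit 137) (nat_lit 5) (nat_lit 136) (nat_lit 5) (nat_lit 151) (nat_lit 5) (nat_lit 312) (nat_lit 298) (nat_lit 170)) (XT.nd (nat_lit 78) (nat_lit 0) (nat_lit 0) (XT.lf (nat_lit 0) (nat_lit 3830848267) (nat_lit 1064) (nat_lit 8584039952) (nat_lit 1140) (nat_lit 3818238903) (nat_lit 137) (nat_lit 5) (nat_lit 151) (nat_lit 5) (nat_lit 152) (nat_lit 5) (nat_lit 313) (nat_lit 298) (nat_lit 169)) (XT.lf (nat_lit 0) (nat_lit 4887147692) (nat_lit 1064) (nat_lit 1830409557) (nat_lit 1140) (nat_lit 9781838592) (nat_lit 137) (nat_lit 5) (nat_lit 151) (nat_lit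 5) (nat_lit 152) (nat_lit 5) (nat_lit 314) (nat_lit 298) (nat_lit 168)))) (XT.nd (nat_lit 78) (nat_lit 988) (nat_lit 0) (XT.lf (nat_lit 76) (nat_lit 5220345718) (nat_lit 0) (nat_lit 795782668) (nat_lit 1140) (nat_lit 10756321821) (nat_lit 138) (nat_lit 5) (nat_lit 137) (nat_lit 5) (nat_lit 152) (nat_lit 5) (nat_lit 315) (nat_lit 298) (nat_lit 167)) (XT.nd (nat_lit 78) (nat_lit 1064) (nat_lit 0) (XT.lf (nat_lit 0) (nat_lit 7239652178) (nat_lit 1064) (nat_lit 4591753783) (nat_lit 76) (nat_lit 5220496593) (nat_lit 138) (nat_lit 5) (nat_lit 152) (nat_lit 5) (nat_lit 139) (nat_lit 5) (nat_lit 316) (nat_lit 298) (nat_lit 166)) (XT.lf (nat_lit 0) (nat_lit 2613149047) (nat_lit 1064) (nat_lit 5911017501) (nat_lit 1140) (nat_lit 8814869162) (nat_lit 124) (nat_lit 5) (nat_lit 138) (nat_lit 5) (nat_lit 139) (nat_lit 5) (nat_lit 317) (nat_lit 298) (nat_lit 165))))) (XT.nd (nat_lit 234) (nat_lit 456) (nat_lit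 0) (XT.nd (nat_lit 78) (nat_lit 532) (nat_lit 0) (XT.lf (nat_lit 0) (nat_lit 9887322635) (nat_lit 1140) (nat_lit 7514914691) (nat_lit 76) (nat_lit 231367380) (nat_lit 124) (nat_lit 5) (nat_lit 139) (nat_lit 5) (nat_lit 125) (nat_lit 5) (nat_lit 318) (nat_lit 298) (nat_lit 164)) (XT.nd (nat_lit 78) (nat_lit 532) (nat_lit 0) (XT.lf (nat_lit 0) (nat_lit 11341628520) (nat_lit 1140) (nat_lit 153509165) (nat_lit 76) (nat_lit 6440389738) (nat_lit 124) (nat_lit 5) (nat_lit 139) (nat_lit 5) (nat_lit 125) (nat_lit 5) (nat_lit 319) (nat_lit 298) (nat_lit 163)) (XT.lf (nat_lit 0) (nat_lit 7569286572) (nat_lit 532) (nat_lit 5335008682) (nat_lit 608) (nat_lit 5340294215) (nat_lit 117) (nat_lit 5) (nat_lit 124) (nat_lit 5) (nat_lit 125) (nat_lit 5) (nat_lit 320) (nat_lit 298) (nat_lit 162)))) (XT.nd (nat_lit 78) (nat_lit 456) (nat_lit 0) (XT.lf (nat_lit 0) (nat_lit 14517259760) (nat_lit 608) (nat_lit 3053039379)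 (nat_lit 76) (nat_lit 992544613) (nat_lit 117) (nat_lit 5) (nat_lit 125) (nat_lit 5) (nat_lit 118) (nat_lit 5) (nat_lit 321) (nat_lit 298) (nat_lit 161)) (XT.nd (nat_lit 78) (nat_lit 0) (nat_lit 0) (XT.lf (nat_lit 0) (nat_lit 4832226335) (nat_lit 456) (nat_lit 11438032128) (nat_lit 532) (nat_lit 2617660086) (nat_lit 111) (nat_lit 5) (nat_lit 117) (nat_lit 5) (nat_lit 118) (nat_lit 5) (nat_lit 322) (nat_lit 298) (nat_lit 160)) (XT.lf (nat_lit 0) (nat_lit 13009566336) (nat_lit 456) (nat_lit 5089637783) (nat_lit 532) (nat_lit 1122862355) (nat_lit 111) (nat_lit 5) (nat_lit 117) (nat_lit 5) (nat_lit 118) (nat_lit 5) (nat_lit 323) (nat_lit 298) (nat_lit 159))))))))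
noncomputable def xc208 : XT := (XT.nd (nat_lit 1716) (nat_lit 2204) (nat_lit 0) (XT.nd (nat_lit 858) (nat_lit 1520) (nat_lit 0) (XT.nd (nat_lit 390) (nat_lit 1216) (nat_lit 0) (XT.nd (nat_lit 156) (nat_lit 456) (nat_lit 0) (XT.nd (nat_lit 78) (nat_lit 0) (nat_lit 0) (XT.lf (nat_lit 0) (nat_lit 433638260) (nat_lit 608) (nat_lit 17688097483) (nat_lit 76) (nat_lit 1443653504) (nat_lit 103) (nat_lit 5) (nat_lit 111) (nat_lit 5) (nat_lit 104) (nat_lit 5) (nat_lit 324) (nat_lit 298) (nat_lit 158)) (XT.lf (nat_lit 0) (nat_lit 2120815083) (nat_lit 608) (nat_lit 9649331021) (nat_lit 76) (nat_lit 8145355351) (nat_lit 103) (nat_lit 5) (nat_lit 111) (nat_lit 5) (nat_lit 104) (nat_lit 5) (nat_lit 325) (nat_lit 298) (nat_lit 157))) (XT.nd (nat_lit 78) (nat_lit 456) (nat_lit 0) (XT.lf (nat_lit 0) (nat_lit 3851618819) (nat_lit 608) (nat_lit 1376389814) (nat_lit 76) (nat_lit 15048337233) (nat_lit 103) (nat_lit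 5) (nat_lit 111) (nat_lit 5) (nat_lit 104) (nat_lit 5) (nat_lit 326) (nat_lit 298) (nat_lit 156)) (XT.nd (nat_lit 78) (nat_lit 0) (nat_lit 0) (XT.lf (nat_lit 0) (nat_lit 5712753465) (nat_lit 532) (nat_lit 13381335858) (nat_lit 76) (nat_lit 1551592711) (nat_lit 97) (nat_lit 5) (nat_lit 104) (nat_lit 5) (nat_lit 98) (nat_lit 5) (nat_lit 327) (nat_lit 298) (nat_lit 155)) (XT.lf (nat_lit 0) (nat_lit 7688868616) (nat_lit 532) (nat_lit 4891997699) (nat_lit 76) (nat_lit 8443475662) (nat_lit 97) (nat_lit 5) (nat_lit 104) (nat_lit 5) (nat_lit 98) (nat_lit 5) (nat_lit 328) (nat_lit 298) (nat_lit 154))))) (XT.nd (nat_lit 234) (nat_lit 380) (nat_lit 0) (XT.nd (nat_lit 78) (nat_lit 380) (nat_lit 0) (XT.lf (nat_lit 0) (nat_lit 3921816168) (nat_lit 456) (nat_lit 5833691264) (nat_lit 532) (nat_lit 11657934640) (nat_lit 91) (nat_lit 5) (nat_lit 97) (nat_lit 5) (nat_lit 98) (nat_lit 5) (nat_lit 329) (nat_lit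 298) (nat_lit 153)) (XT.nd (nat_lit 78) (nat_lit 380) (nat_lit 0) (XT.lf (nat_lit 0) (nat_lit 11938422952) (nat_lit 532) (nat_lit 8730494457) (nat_lit 76) (nat_lit 1143686481) (nat_lit 91) (nat_lit 5) (nat_lit 98) (nat_lit 5) (nat_lit 92) (nat_lit 5) (nat_lit 330) (nat_lit 298) (nat_lit 152)) (XT.lf (nat_lit 0) (nat_lit 233599026) (nat_lit 380) (nat_lit 14007078470) (nat_lit 456) (nat_lit 7981464069) (nat_lit 86) (nat_lit 5) (nat_lit 91) (nat_lit 5) (nat_lit 92) (nat_lit 5) (nat_lit 331) (nat_lit 298) (nat_lit 151)))) (XT.nd (nat_lit 78) (nat_lit 380) (nat_lit 0) (XT.lf (nat_lit 0) (nat_lit 9638976346) (nat_lit 380) (nat_lit 7055146674) (nat_lit 456) (nat_lit 5947394718) (nat_lit 86) (nat_lit 5) (nat_lit 91) (nat_lit 5) (nat_lit 92) (nat_lit 5) (nat_lit 332) (nat_lit 298) (nat_lit 150)) (XT.nd (nat_lit 78) (nat_lit 380) (nat_lit 0) (XT.lf (nat_lit 0) (nat_lit 19216317551) (nat_lit 456) (nat_lit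 3754572134) (nat_lit 76) (nat_lit 102746744) (nat_lit 86) (nat_lit 5) (nat_lit 92) (nat_lit 5) (nat_lit 87) (nat_lit 5) (nat_lit 333) (nat_lit 298) (nat_lit 149)) (XT.lf (nat_lit 0) (nat_lit 5807909408) (nat_lit 380) (nat_lit 16126254524) (nat_lit 456) (nat_lit 1580970314) (nat_lit 81) (nat_lit 5) (nat_lit 86) (nat_lit 5) (nat_lit 87) (nat_lit 5) (nat_lit 334) (nat_lit 298) (nat_lit 148)))))) (XT.nd (nat_lit 390) (nat_lit 684) (nat_lit 0) (XT.nd (nat_lit 156) (nat_lit 380) (nat_lit 0) (XT.nd (nat_lit 78) (nat_lit 380) (nat_lit 0) (XT.lf (nat_lit 0) (nat_lit 781395025) (nat_lit 456) (nat_lit 8248696586) (nat_lit 76) (nat_lit 14938600590) (nat_lit 80) (nat_lit 5) (nat_lit 86) (nat_lit 5) (nat_lit 81) (nat_lit 5) (nat_lit 335) (nat_lit 298) (nat_lit 147)) (XT.lf (nat_lit 0) (nat_lit 1500940363) (nat_lit 380) (nat_lit 1690846909) (nat_lit 456) (nat_lit 21243345932) (nat_lit 75) (nat_lit 5) (nat_lit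 80) (nat_lit 5) (nat_lit 81) (nat_lit 5) (nat_lit 336) (nat_lit 298) (nat_lit 146))) (XT.nd (nat_lit 78) (nat_lit 380) (nat_lit 0) (XT.lf (nat_lit 0) (nat_lit 5809620264) (nat_lit 456) (nat_lit 13264537531) (nat_lit 76) (nat_lit 5837369230) (nat_lit 75) (nat_lit 5) (nat_lit 81) (nat_lit 5) (nat_lit 76) (nat_lit 5) (nat_lit 337) (nat_lit 298) (nat_lit 145)) (XT.nd (nat_lit 78) (nat_lit 380) (nat_lit 0) (XT.lf (nat_lit 0) (nat_lit 8517482966) (nat_lit 456) (nat_lit 3327736078) (nat_lit 76) (nat_lit 13556661839) (nat_lit 75) (nat_lit 5) (nat_lit 81) (nat_lit 5) (nat_lit 76) (nat_lit 5) (nat_lit 338) (nat_lit 298) (nat_lit 144)) (XT.lf (nat_lit 0) (nat_lit 7038493981) (nat_lit 380) (nat_lit 4330652345) (nat_lit 456) (nat_lit 14535934773) (nat_lit 70) (nat_lit 5) (nat_lit 75) (nat_lit 5) (nat_lit 76) (nat_lit 5) (nat_lit 339) (nat_lit 298) (nat_lit 143))))) (XT.nd (nat_lit 234) (nat_lit 380) (nat_lit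 0) (XT.nd (nat_lit 78) (nat_lit 304) (nat_lit 0) (XT.lf (nat_lit 0) (nat_lit 14368056952) (nat_lit 456) (nat_lit 8677664351) (nat_lit 76) (nat_lit 3375817412) (nat_lit 70) (nat_lit 5) (nat_lit 76) (nat_lit 5) (nat_lit 71) (nat_lit 5) (nat_lit 340) (nat_lit 298) (nat_lit 142)) (XT.nd (nat_lit 78) (nat_lit 0) (nat_lit 0) (XT.lf (nat_lit 0) (nat_lit 1803299427) (nat_lit 304) (nat_lit 15708981880) (nat_lit 380) (nat_lit 9439560317) (nat_lit 66) (nat_lit 5) (nat_lit 70) (nat_lit 5) (nat_lit 71) (nat_lit 5) (nat_lit 341) (nat_lit 298) (nat_lit 141)) (XT.lf (nat_lit 0) (nat_lit 12770696151) (nat_lit 304) (nat_lit 8062983087) (nat_lit 380) (nat_lit 6661900585) (nat_lit 66) (nat_lit 5) (nat_lit 70) (nat_lit 5) (nat_lit 71) (nat_lit 5) (nat_lit 342) (nat_lit 298) (nat_lit 140)))) (XT.nd (nat_lit 78) (nat_lit 380) (nat_lit 0) (XT.lf (nat_lit 0) (nat_lit 24061406447) (nat_lit 304) (nat_lit 188671349) (nat_lit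 380) (nat_lit 3805702880) (nat_lit 66) (nat_lit 5) (nat_lit 70) (nat_lit 5) (nat_lit 71) (nat_lit 5) (nat_lit 343) (nat_lit 298) (nat_lit 139)) (XT.nd (nat_lit 78) (nat_lit 76) (nat_lit 0) (XT.lf (nat_lit 0) (nat_lit 7115062905) (nat_lit 304) (nat_lit 20793933517) (nat_lit 380) (nat_lit 719601233) (nat_lit 62) (nat_lit 5) (nat_lit 66) (nat_lit 5) (nat_lit 67) (nat_lit 5) (nat_lit 344) (nat_lit 298) (nat_lit 138)) (XT.lf (nat_lit 0) (nat_lit 2449207670) (nat_lit 380) (nat_lit 10609353078) (nat_lit 76) (nat_lit 16158196269) (nat_lit 61) (nat_lit 5) (nat_lit 66) (nat_lit 5) (nat_lit 62) (nat_lit 5) (nat_lit 345) (nat_lit 298) (nat_lit 137))))))) (XT.nd (nat_lit 858) (nat_lit 988) (nat_lit 0) (XT.nd (nat_lit 390) (nat_lit 608) (nat_lit 0) (XT.nd (nat_lit 156) (nat_lit 304) (nat_lit 0) (XT.nd (nat_lit 78) (nat_lit 0) (nat_lit 0) (XT.lf (nat_lit 0) (nat_lit 621399390) (nat_lit 304) (nat_lit 5078829354)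 (nat_lit 380) (nat_lit 24122080350) (nat_lit 57) (nat_lit 5) (nat_lit 61) (nat_lit 5) (nat_lit 62) (nat_lit 5) (nat_lit 346) (nat_lit 298) (nat_lit 136)) (XT.lf (nat_lit 0) (nat_lit 9182861684) (nat_lit 380) (nat_lit 18073132970) (nat_lit 76) (nat_lit 3186020364) (nat_lit 57) (nat_lit 5) (nat_lit 62) (nat_lit 5) (nat_lit 58) (nat_lit 5) (nat_lit 347) (nat_lit 298) (nat_lit 135))) (XT.nd (nat_lit 78) (nat_lit 304) (nat_lit 0) (XT.lf (nat_lit 0) (nat_lit 12816084694) (nat_lit 380) (nat_lit 6667272315) (nat_lit 76) (nat_lit 11595581217) (nat_lit 57) (nat_lit 5) (nat_lit 62) (nat_lit 5) (nat_lit 58) (nat_lit 5) (nat_lit 348) (nat_lit 298) (nat_lit 134)) (XT.nd (nat_lit 78) (nat_lit 0) (nat_lit 0) (XT.lf (nat_lit 0) (nat_lit 5176470954) (nat_lit 304) (nat_lit 11427540073) (nat_lit 380) (nat_lit 15129596068) (nat_lit 53) (nat_lit 5) (nat_lit 57) (nat_lit 5) (nat_lit 58) (nat_lit 5) (nat_lit 349)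 (nat_lit 298) (nat_lit 133)) (XT.lf (nat_lit 0) (nat_lit 17506946278) (nat_lit 304) (nat_lit 3061970025) (nat_lit 380) (nat_lit 11837108389) (nat_lit 53) (nat_lit 5) (nat_lit 57) (nat_lit 5) (nat_lit 58) (nat_lit 5) (nat_lit 350) (nat_lit 298) (nat_lit 132))))) (XT.nd (nat_lit 234) (nat_lit 380) (nat_lit 0) (XT.nd (nat_lit 78) (nat_lit 228) (nat_lit 0) (XT.lf (nat_lit 0) (nat_lit 24702281656) (nat_lit 380) (nat_lit 2949885530) (nat_lit 76) (nat_lit 5444970881) (nat_lit 53) (nat_lit 5) (nat_lit 58) (nat_lit 5) (nat_lit 54) (nat_lit 5) (nat_lit 351) (nat_lit 298) (nat_lit 131)) (XT.nd (nat_lit 78) (nat_lit 0) (nat_lit 0) (XT.lf (nat_lit 0) (nat_lit 9507939905) (nat_lit 228) (nat_lit 19569652792) (nat_lit 304) (nat_lit 4727862190) (nat_lit 50) (nat_lit 5) (nat_lit 53) (nat_lit 5) (nat_lit 54) (nat_lit 5) (nat_lit 352) (nat_lit 298) (nat_lit 130)) (XT.lf (nat_lit 0) (nat_lit 22394958629) (nat_lit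 228) (nat_lit 11215286133) (nat_lit 304) (nat_lit 924002140) (nat_lit 50) (nat_lit 5) (nat_lit 53) (nat_lit 5) (nat_lit 54) (nat_lit 5) (nat_lit 353) (nat_lit 298) (nat_lit 129)))) (XT.nd (nat_lit 78) (nat_lit 0) (nat_lit 0) (XT.lf (nat_lit 0) (nat_lit 356924785) (nat_lit 304) (nat_lit 2578414902) (nat_lit 380) (nat_lit 32348713594) (nat_lit 45) (nat_lit 5) (nat_lit 49) (nat_lit 5) (nat_lit 50) (nat_lit 5) (nat_lit 354) (nat_lit 298) (nat_lit 128)) (XT.nd (nat_lit 78) (nat_lit 0) (nat_lit 0) (XT.lf (nat_lit 0) (nat_lit 7072819794) (nat_lit 380) (nat_lit 22651898369) (nat_lit 76) (nat_lit 6325940795) (nat_lit 45) (nat_lit 5) (nat_lit 50) (nat_lit 5) (nat_lit 46) (nat_lit 5) (nat_lit 355) (nat_lit 298) (nat_lit 127)) (XT.lf (nat_lit 0) (nat_lit 11356462460) (nat_lit 380) (nat_lit 10038793837) (nat_lit 76) (nat_lit 15444352598) (nat_lit 45) (nat_lit 5) (nat_lit 50) (nat_lit 5) (nat_lit 46) (nat_lit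 5) (nat_lit 356) (nat_lit 298) (nat_lit 126)))))) (XT.nd (nat_lit 390) (nat_lit 532) (nat_lit 0) (XT.nd (nat_lit 156) (nat_lit 228) (nat_lit 0) (XT.nd (nat_lit 78) (nat_lit 0) (nat_lit 0) (XT.lf (nat_lit 0) (nat_lit 3006662370) (nat_lit 228) (nat_lit 12787464880) (nat_lit 304) (nat_lit 21857341718) (nat_lit 42) (nat_lit 5) (nat_lit 45) (nat_lit 5) (nat_lit 46) (nat_lit 5) (nat_lit 357) (nat_lit 298) (nat_lit 125)) (XT.lf (nat_lit 0) (nat_lit 16644601623) (nat_lit 228) (nat_lit 3818357318) (nat_lit 304) (nat_lit 18021791611) (nat_lit 42) (nat_lit 5) (nat_lit 45) (nat_lit 5) (nat_lit 46) (nat_lit 5) (nat_lit 358) (nat_lit 298) (nat_lit 124))) (XT.nd (nat_lit 78) (nat_lit 228) (nat_lit 0) (XT.lf (nat_lit 0) (nat_lit 25320703787) (nat_lit 304) (nat_lit 8708071698) (nat_lit 76) (nat_lit 5312796274) (nat_lit 42) (nat_lit 5) (nat_lit 46) (nat_lit 5) (nat_lit 43) (nat_lit 5) (nat_lit 359) (nat_lit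 298) (nat_lit 123)) (XT.nd (nat_lit 78) (nat_lit 0) (nat_lit 0) (XT.lf (nat_lit 0) (nat_lit 4870720736) (nat_lit 228) (nat_lit 25534930322) (nat_lit 304) (nat_lit 9816008867) (nat_lit 39) (nat_lit 5) (nat_lit 42) (nat_lit 5) (nat_lit 43) (nat_lit 5) (nat_lit 360) (nat_lit 298) (nat_lit 122)) (XT.lf (nat_lit 0) (nat_lit 19030940965) (nat_lit 228) (nat_lit 16697033659) (nat_lit 304) (nat_lit 5397637518) (nat_lit 39) (nat_lit 5) (nat_lit 42) (nat_lit 5) (nat_lit 43) (nat_lit 5) (nat_lit 361) (nat_lit 298) (nat_lit 121))))) (XT.nd (nat_lit 234) (nat_lit 228) (nat_lit 0) (XT.nd (nat_lit 78) (nat_lit 304) (nat_lit 0) (XT.lf (nat_lit 0) (nat_lit 33611654295) (nat_lit 228) (nat_lit 7595297509) (nat_lit 304) (nat_lit 849827661) (nat_lit 39) (nat_lit 5) (nat_lit 42) (nat_lit 5) (nat_lit 43) (nat_lit 5) (nat_lit 362) (nat_lit 298) (nat_lit 120)) (XT.nd (nat_lit 78) (nat_lit 0) (nat_lit 0) (XT.lf (nat_lit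 0) (nat_lit 3829264503) (nat_lit 304) (nat_lit 37347525154) (nat_lit 76) (nat_lit 1835901960) (nat_lit 35) (nat_lit 5) (nat_lit 39) (nat_lit 5) (nat_lit 36) (nat_lit 5) (nat_lit 363) (nat_lit 298) (nat_lit 119)) (XT.lf (nat_lit 0) (nat_lit 8790043640) (nat_lit 304) (nat_lit 23711590057) (nat_lit 76) (nat_lit 11490648709) (nat_lit 35) (nat_lit 5) (nat_lit 39) (nat_lit 5) (nat_lit 36) (nat_lit 5) (nat_lit 364) (nat_lit 298) (nat_lit 118)))) (XT.nd (nat_lit 78) (nat_lit 228) (nat_lit 0) (XT.lf (nat_lit 0) (nat_lit 13896801864) (nat_lit 304) (nat_lit 9670743395) (nat_lit 76) (nat_lit 21433806372) (nat_lit 35) (nat_lit 5) (nat_lit 39) (nat_lit 5) (nat_lit 36) (nat_lit 5) (nat_lit 365) (nat_lit 298) (nat_lit 117)) (XT.nd (nat_lit 78) (nat_lit 0) (nat_lit 0) (XT.lf (nat_lit 0) (nat_lit 4882559861) (nat_lit 228) (nat_lit 14318375681) (nat_lit 304) (nat_lit 26838437434) (nat_lit 32) (nat_lit 5) (nat_lit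 35) (nat_lit 5) (nat_lit 36) (nat_lit 5) (nat_lit 366) (nat_lit 298) (nat_lit 116)) (XT.lf (nat_lit 0) (nat_lit 20066697499) (nat_lit 228) (nat_lit 4692431762) (nat_lit 304) (nat_lit 22346562694) (nat_lit 32) (nat_lit 5) (nat_lit 35) (nat_lit 5) (nat_lit 36) (nat_lit 5) (nat_lit 367) (nat_lit 298) (nat_lit 115))))))))
noncomputable def xc209 : XT := (XT.nd (nat_lit 35880) (nat_lit 0) (nat_lit 5700) (XT.nd (nat_lit 858) (nat_lit 152) (nat_lit 0) (XT.nd (nat_lit 390) (nat_lit 380) (nat_lit 0) (XT.nd (nat_lit 156) (nat_lit 76) (nat_lit 0) (XT.nd (nat_lit 78) (nat_lit 152) (nat_lit 0) (XT.lf (nat_lit 0) (nat_lit 30531616333) (nat_lit 304) (nat_lit 12551802035) (nat_lit 76) (nat_lit 5119160635) (nat_lit 32) (nat_lit 5) (nat_lit 36) (nat_lit 5) (nat_lit 33) (nat_lit 5) (nat_lit 368) (nat_lit 298) (nat_lit 114)) (XT.lf (nat_lit 0) (nat_lit 2365867456) (nat_lit 152) (nat_lit 34178037389) (nat_lit 228)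 (nat_lit 12786473795) (nat_lit 30) (nat_lit 5) (nat_lit 32) (nat_lit 5) (nat_lit 33) (nat_lit 5) (nat_lit 369) (nat_lit 298) (nat_lit 113))) (XT.nd (nat_lit 78) (nat_lit 76) (nat_lit 0) (XT.lf (nat_lit 0) (nat_lit 17984558793) (nat_lit 152) (nat_lit 24876215150) (nat_lit 228) (nat_lit 7627516609) (nat_lit 30) (nat_lit 5) (nat_lit 32) (nat_lit 5) (nat_lit 33) (nat_lit 5) (nat_lit 370) (nat_lit 298) (nat_lit 112)) (XT.nd (nat_lit 78) (nat_lit 76) (nat_lit 0) (XT.lf (nat_lit 0) (nat_lit 34068113903) (nat_lit 152) (nat_lit 15296572434) (nat_lit 228) (nat_lit 2316331875) (nat_lit 30) (nat_lit 5) (nat_lit 32) (nat_lit 5) (nat_lit 33) (nat_lit 5) (nat_lit 371) (nat_lit 298) (nat_lit 111)) (XT.lf (nat_lit 0) (nat_lit 3090219815) (nat_lit 228) (nat_lit 2309313705) (nat_lit 76) (nat_lit 47509161401) (nat_lit 29) (nat_lit 5) (nat_lit 32) (nat_lit 5) (nat_lit 30) (nat_lit 5) (nat_lit 372) (nat_lit 298)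 (nat_lit 110))))) (XT.nd (nat_lit 234) (nat_lit 152) (nat_lit 0) (XT.nd (nat_lit 78) (nat_lit 0) (nat_lit 0) (XT.lf (nat_lit 0) (nat_lit 8789305802) (nat_lit 304) (nat_lit 40522108295) (nat_lit 76) (nat_lit 4855797129) (nat_lit 26) (nat_lit 5) (nat_lit 30) (nat_lit 5) (nat_lit 27) (nat_lit 5) (nat_lit 373) (nat_lit 298) (nat_lit 109)) (XT.nd (nat_lit 78) (nat_lit 0) (nat_lit 0) (XT.lf (nat_lit 0) (nat_lit 14734050310) (nat_lit 304) (nat_lit 25394547271) (nat_lit 76) (nat_lit 15332648867) (nat_lit 26) (nat_lit 5) (nat_lit 30) (nat_lit 5) (nat_lit 27) (nat_lit 5) (nat_lit 374) (nat_lit 298) (nat_lit 108)) (XT.lf (nat_lit 0) (nat_lit 20854879664) (nat_lit 304) (nat_lit 9816618597) (nat_lit 76) (nat_lit 26122676077) (nat_lit 26) (nat_lit 5) (nat_lit 30) (nat_lit 5) (nat_lit 27) (nat_lit 5) (nat_lit 375) (nat_lit 298) (nat_lit 107)))) (XT.nd (nat_lit 78) (nat_lit 0) (nat_lit 0) (XT.lf (nat_lit 0)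 (nat_lit 6349184975) (nat_lit 152) (nat_lit 20868989438) (nat_lit 228) (nat_lit 30947154213) (nat_lit 24) (nat_lit 5) (nat_lit 26) (nat_lit 5) (nat_lit 27) (nat_lit 5) (nat_lit 376) (nat_lit 298) (nat_lit 106)) (XT.nd (nat_lit 78) (nat_lit 0) (nat_lit 0) (XT.lf (nat_lit 0) (nat_lit 23197868208) (nat_lit 152) (nat_lit 10671468528) (nat_lit 228) (nat_lit 25705375408) (nat_lit 24) (nat_lit 5) (nat_lit 26) (nat_lit 5) (nat_lit 27) (nat_lit 5) (nat_lit 377) (nat_lit 298) (nat_lit 105)) (XT.lf (nat_lit 0) (nat_lit 40548783296) (nat_lit 152) (nat_lit 169153677) (nat_lit 228) (nat_lit 20308506664) (nat_lit 24) (nat_lit 5) (nat_lit 26) (nat_lit 5) (nat_lit 27) (nat_lit 5) (nat_lit 378) (nat_lit 298) (nat_lit 104)))))) (XT.nd (nat_lit 34554) (nat_lit 0) (nat_lit 9424) (XT.nd (nat_lit 156) (nat_lit 0) (nat_lit 0) (XT.nd (nat_lit 78) (nat_lit 152) (nat_lit 0) (XT.lf (nat_lit 0) (nat_lit 47872306080) (nat_lit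 228) (nat_lit 4207047121) (nat_lit 76) (nat_lit 10439368002) (nat_lit 24) (nat_lit 5) (nat_lit 27) (nat_lit 5) (nat_lit 25) (nat_lit 5) (nat_lit 379) (nat_lit 298) (nat_lit 103)) (XT.lf (nat_lit 0) (nat_lit 12796622193) (nat_lit 152) (nat_lit 42567380979) (nat_lit 228) (nat_lit 8688086371) (nat_lit 22) (nat_lit 5) (nat_lit 24) (nat_lit 5) (nat_lit 25) (nat_lit 5) (nat_lit 380) (nat_lit 298) (nat_lit 102))) (XT.nd (nat_lit 34242) (nat_lit 0) (nat_lit 9424) (XT.lf (nat_lit 0) (nat_lit 30393576575) (nat_lit 152) (nat_lit 32727399095) (nat_lit 228) (nat_lit 2509270785) (nat_lit 22) (nat_lit 5) (nat_lit 24) (nat_lit 5) (nat_lit 25) (nat_lit 5) (nat_lit 381) (nat_lit 298) (nat_lit 101)) (XT.nd (nat_lit 78) (nat_lit 0) (nat_lit 0) (XT.lf (nat_lit 0) (nat_lit 2116498778) (nat_lit 0) (nat_lit 2116498778) (nat_lit 988) (nat_lit 2425684199) (nat_lit 146) (nat_lit 5) (nat_lit 146) (nat_lit 3) (nat_lit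 159) (nat_lit 3) (nat_lit 299) (nat_lit 299) (nat_lit 182)) (XT.lf (nat_lit 0) (nat_lit 8936402103) (nat_lit 988) (nat_lit 3779742533) (nat_lit 1064) (nat_lit 789616594) (nat_lit 146) (nat_lit 5) (nat_lit 159) (nat_lit 3) (nat_lit 160) (nat_lit 5) (nat_lit 300) (nat_lit 299) (nat_lit 181))))) (XT.nd (nat_lit 234) (nat_lit 0) (nat_lit 76) (XT.nd (nat_lit 78) (nat_lit 0) (nat_lit 0) (XT.lf (nat_lit 76) (nat_lit 1667602046) (nat_lit 0) (nat_lit 7798222615) (nat_lit 1064) (nat_lit 4232680497) (nat_lit 147) (nat_lit 5) (nat_lit 146) (nat_lit 5) (nat_lit 160) (nat_lit 5) (nat_lit 301) (nat_lit 299) (nat_lit 180)) (XT.nd (nat_lit 78) (nat_lit 0) (nat_lit 76) (XT.lf (nat_lit 76) (nat_lit 7348869475) (nat_lit 0) (nat_lit 2687703542) (nat_lit 1064) (nat_lit 3859735266) (nat_lit 147) (nat_lit 5) (nat_lit 146) (nat_lit 5) (nat_lit 160) (nat_lit 5) (nat_lit 302) (nat_lit 299) (nat_lit 179)) (XT.lf (nat_lit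 0) (nat_lit 10636906560) (nat_lit 988) (nat_lit 931472429) (nat_lit 1064) (nat_lit 2531331632) (nat_lit 147) (nat_lit 5) (nat_lit 160) (nat_lit 5) (nat_lit 161) (nat_lit 5) (nat_lit 303) (nat_lit 299) (nat_lit 178)))) (XT.nd (nat_lit 78) (nat_lit 0) (nat_lit 0) (XT.lf (nat_lit 76) (nat_lit 4915248541) (nat_lit 0) (nat_lit 6401918527) (nat_lit 1064) (nat_lit 2990228320) (nat_lit 148) (nat_lit 5) (nat_lit 147) (nat_lit 5) (nat_lit 161) (nat_lit 5) (nat_lit 304) (nat_lit 299) (nat_lit 177)) (XT.nd (nat_lit 78) (nat_lit 0) (nat_lit 76) (XT.lf (nat_lit 76) (nat_lit 10949506636) (nat_lit 0) (nat_lit 1066073402) (nat_lit 1064) (nat_lit 2505835082) (nat_lit 148) (nat_lit 5) (nat_lit 147) (nat_lit 5) (nat_lit 161) (nat_lit 5) (nat_lit 305) (nat_lit 299) (nat_lit 176)) (XT.lf (nat_lit 76) (nat_lit 2420410221) (nat_lit 0) (nat_lit 10369106182) (nat_lit 1064) (nat_lit 1950737605) (nat_lit 149) (nat_lit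 5) (nat_lit 148) (nat_lit 5) (nat_lit 162) (nat_lit 5) (nat_lit 306) (nat_lit 299) (nat_lit 175))))))) (XT.nd (nat_lit 858) (nat_lit 2888) (nat_lit 0) (XT.nd (nat_lit 390) (nat_lit 0) (nat_lit 76) (XT.nd (nat_lit 156) (nat_lit 988) (nat_lit 0) (XT.nd (nat_lit 78) (nat_lit 0) (nat_lit 76) (XT.lf (nat_lit 76) (nat_lit 8647848880) (nat_lit 0) (nat_lit 4974325277) (nat_lit 1064) (nat_lit 1342453460) (nat_lit 149) (nat_lit 5) (nat_lit 148) (nat_lit 5) (nat_lit 162) (nat_lit 5) (nat_lit 307) (nat_lit 299) (nat_lit 174)) (XT.lf (nat_lit 0) (nat_lit 14474748802) (nat_lit 988) (nat_lit 146508252) (nat_lit 1064) (nat_lit 574660908) (nat_lit 149) (nat_lit 5) (nat_lit 162) (nat_lit 5) (nat_lit 163) (nat_lit 5) (nat_lit 308) (nat_lit 299) (nat_lit 173))) (XT.nd (nat_lit 78) (nat_lit 0) (nat_lit 0) (XT.lf (nat_lit 0) (nat_lit 20509456) (nat_lit 1064) (nat_lit 9156413685) (nat_lit 1140) (nat_lit 6254273908)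 (nat_lit 135) (nat_lit 5) (nat_lit 149) (nat_lit 5) (nat_lit 150) (nat_lit 5) (nat_lit 309) (nat_lit 299) (nat_lit 172)) (XT.nd (nat_lit 78) (nat_lit 0) (nat_lit 76) (XT.lf (nat_lit 0) (nat_lit 761190817) (nat_lit 1064) (nat_lit 2796170196) (nat_lit 1140) (nat_lit 12116252659) (nat_lit 135) (nat_lit 5) (nat_lit 149) (nat_lit 5) (nat_lit 150) (nat_lit 5) (nat_lit 310) (nat_lit 299) (nat_lit 171)) (XT.lf (nat_lit 0) (nat_lit 1572723313) (nat_lit 1064) (nat_lit 12121925429) (nat_lit 1140) (nat_lit 2227225025) (nat_lit 136) (nat_lit 5) (nat_lit 150) (nat_lit 5) (nat_lit 151) (nat_lit 5) (nat_lit 311) (nat_lit 299) (nat_lit 170))))) (XT.nd (nat_lit 234) (nat_lit 0) (nat_lit 76) (XT.nd (nat_lit 78) (nat_lit 0) (nat_lit 0) (XT.lf (nat_lit 0) (nat_lit 2462639510) (nat_lit 1064) (nat_lit 5568275994) (nat_lit 1140) (nat_lit 8145074048) (nat_lit 136) (nat_lit 5) (nat_lit 150) (nat_lit 5) (nat_lit 151)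 (nat_lit 5) (nat_lit 312) (nat_lit 299) (nat_lit 169)) (XT.nd (nat_lit 78) (nat_lit 0) (nat_lit 76) (XT.lf (nat_lit 76) (nat_lit 1198268740) (nat_lit 0) (nat_lit 2183086373) (nat_lit 1140) (nat_lit 13056338818) (nat_lit 137) (nat_lit 5) (nat_lit 136) (nat_lit 5) (nat_lit 151) (nat_lit 5) (nat_lit 313) (nat_lit 299) (nat_lit 168)) (XT.lf (nat_lit 0) (nat_lit 4412142840) (nat_lit 1064) (nat_lit 8468431201) (nat_lit 1140) (nat_lit 3824167435) (nat_lit 137) (nat_lit 5) (nat_lit 151) (nat_lit 5) (nat_lit 152) (nat_lit 5) (nat_lit 314) (nat_lit 299) (nat_lit 167)))) (XT.nd (nat_lit 78) (nat_lit 0) (nat_lit 0) (XT.lf (nat_lit 0) (nat_lit 5486547681) (nat_lit 1064) (nat_lit 1523059756) (nat_lit 1140) (nat_lit 9969838764) (nat_lit 137) (nat_lit 5) (nat_lit 151) (nat_lit 5) (nat_lit 152) (nat_lit 5) (nat_lit 315) (nat_lit 299) (nat_lit 166)) (XT.nd (nat_lit 78) (nat_lit 0) (nat_lit 76) (XT.lf (nat_lit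 76) (nat_lit 5735666587) (nat_lit 0) (nat_lit 903991424) (nat_lit 1140) (nat_lit 10621365642) (nat_lit 138) (nat_lit 5) (nat_lit 137) (nat_lit 5) (nat_lit 152) (nat_lit 5) (nat_lit 316) (nat_lit 299) (nat_lit 165)) (XT.lf (nat_lit 0) (nat_lit 7886196201) (nat_lit 1064) (nat_lit 4366281891) (nat_lit 76) (nat_lit 5296830334) (nat_lit 138) (nat_lit 5) (nat_lit 152) (nat_lit 5) (nat_lit 139) (nat_lit 5) (nat_lit 317) (nat_lit 299) (nat_lit 164)))))) (XT.nd (nat_lit 390) (nat_lit 1520) (nat_lit 0) (XT.nd (nat_lit 156) (nat_lit 532) (nat_lit 0) (XT.nd (nat_lit 78) (nat_lit 0) (nat_lit 0) (XT.lf (nat_lit 0) (nat_lit 3051206999) (nat_lit 1064) (nat_lit 6148990839) (nat_lit 1140) (nat_lit 8645166191) (nat_lit 124) (nat_lit 5) (nat_lit 138) (nat_lit 5) (nat_lit 139) (nat_lit 5) (nat_lit 318) (nat_lit 299) (nat_lit 163)) (XT.lf (nat_lit 0) (nat_lit 10591440719) (nat_lit 1140) (nat_lit 7377168765) (nat_lit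 76) (nat_lit 180580776) (nat_lit 124) (nat_lit 5) (nat_lit 139) (nat_lit 5) (nat_lit 125) (nat_lit 5) (nat_lit 319) (nat_lit 299) (nat_lit 162))) (XT.nd (nat_lit 78) (nat_lit 0) (nat_lit 0) (XT.lf (nat_lit 0) (nat_lit 198371420) (nat_lit 532) (nat_lit 11881042343) (nat_lit 608) (nat_lit 6381090640) (nat_lit 117) (nat_lit 5) (nat_lit 124) (nat_lit 5) (nat_lit 125) (nat_lit 5) (nat_lit 320) (nat_lit 299) (nat_lit 161)) (XT.nd (nat_lit 78) (nat_lit 0) (nat_lit 0) (XT.lf (nat_lit 0) (nat_lit 8145523080) (nat_lit 532) (nat_lit 5533363681) (nat_lit 608) (nat_lit 5100287627) (nat_lit 117) (nat_lit 5) (nat_lit 124) (nat_lit 5) (nat_lit 125) (nat_lit 5) (nat_lit 321) (nat_lit 299) (nat_lit 160)) (XT.lf (nat_lit 0) (nat_lit 15328597399) (nat_lit 608) (nat_lit 2792903489) (nat_lit 76) (nat_lit 985857577) (nat_lit 117) (nat_lit 5) (nat_lit 125) (nat_lit 5) (nat_lit 118) (nat_lit 5) (nat_lit 322) (nat_lit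 299) (nat_lit 159))))) (XT.nd (nat_lit 234) (nat_lit 456) (nat_lit 0) (XT.nd (nat_lit 78) (nat_lit 608) (nat_lit 0) (XT.lf (nat_lit 0) (nat_lit 5325471892) (nat_lit 456) (nat_lit 11801115830) (nat_lit 532) (nat_lit 2315857656) (nat_lit 111) (nat_lit 5) (nat_lit 117) (nat_lit 5) (nat_lit 118) (nat_lit 5) (nat_lit 323) (nat_lit 299) (nat_lit 158)) (XT.nd (nat_lit 78) (nat_lit 608) (nat_lit 0) (XT.lf (nat_lit 0) (nat_lit 13737988051) (nat_lit 456) (nat_lit 5261688799) (nat_lit 532) (nat_lit 787293631) (nat_lit 111) (nat_lit 5) (nat_lit 117) (nat_lit 5) (nat_lit 118) (nat_lit 5) (nat_lit 324) (nat_lit 299) (nat_lit 157)) (XT.lf (nat_lit 0) (nat_lit 801334081) (nat_lit 608) (nat_lit 17864060976) (nat_lit 76) (nat_lit 1475341482) (nat_lit 103) (nat_lit 5) (nat_lit 111) (nat_lit 5) (nat_lit 104) (nat_lit 5) (nat_lit 325) (nat_lit 299) (nat_lit 156)))) (XT.nd (nat_lit 78) (nat_lit 456) (nat_lit 0)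 (XT.lf (nat_lit 0) (nat_lit 2528795529) (nat_lit 608) (nat_lit 9594461989) (nat_lit 76) (nat_lit 8378432877) (nat_lit 103) (nat_lit 5) (nat_lit 111) (nat_lit 5) (nat_lit 104) (nat_lit 5) (nat_lit 326) (nat_lit 299) (nat_lit 155)) (XT.nd (nat_lit 78) (nat_lit 456) (nat_lit 0) (XT.lf (nat_lit 0) (nat_lit 4301493591) (nat_lit 608) (nat_lit 1083362127) (nat_lit 76) (nat_lit 15488832851) (nat_lit 103) (nat_lit 5) (nat_lit 111) (nat_lit 5) (nat_lit 104) (nat_lit 5) (nat_lit 327) (nat_lit 299) (nat_lit 154)) (XT.lf (nat_lit 0) (nat_lit 6211938238) (nat_lit 532) (nat_lit 13441041362) (nat_lit 76) (nat_lit 1601347677) (nat_lit 97) (nat_lit 5) (nat_lit 104) (nat_lit 5) (nat_lit 98) (nat_lit 5) (nat_lit 328) (nat_lit 299) (nat_lit 153))))))))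
noncomputable def xc210 : XT := (XT.nd (nat_lit 1716) (nat_lit 1748) (nat_lit 0) (XT.nd (nat_lit 858) (nat_lit 1672) (nat_lit 0) (XT.nd (nat_lit 390) (nat_lit 836) (nat_lit 0) (XT.nd (nat_lit 156) (nat_lit 380) (nat_lit 0) (XT.nd (nat_lit 78) (nat_lit 456) (nat_lit 0) (XT.lf (nat_lit 0) (nat_lit 8237789208) (nat_lit 532) (nat_lit 4706976492) (nat_lit 76) (nat_lit 8699893704) (nat_lit 97) (nat_lit 5) (nat_lit 104) (nat_lit 5) (nat_lit 98) (nat_lit 5) (nat_lit 329) (nat_lit 299) (nat_lit 152)) (XT.lf (nat_lit 0) (nat_lit 4367999034) (nat_lit 456) (nat_lit 5992316620) (nat_lit 532) (nat_lit 11685325393) (nat_lit 91) (nat_lit 5) (nat_lit 97) (nat_lit 5) (nat_lit 98) (nat_lit 5) (nat_lit 330) (nat_lit 299) (nat_lit 151))) (XT.nd (nat_lit 78) (nat_lit 380) (nat_lit 0) (XT.lf (nat_lit 0) (nat_lit 12599780015) (nat_lit 532) (nat_lit 8663695542) (nat_lit 76) (nat_lit 1193594787) (nat_lit 91) (nat_lit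 5) (nat_lit 98) (nat_lit 5) (nat_lit 92) (nat_lit 5) (nat_lit 331) (nat_lit 299) (nat_lit 150)) (XT.nd (nat_lit 78) (nat_lit 0) (nat_lit 0) (XT.lf (nat_lit 0) (nat_lit 566098062) (nat_lit 380) (nat_lit 14399301758) (nat_lit 456) (nat_lit 7913689155) (nat_lit 86) (nat_lit 5) (nat_lit 91) (nat_lit 5) (nat_lit 92) (nat_lit 5) (nat_lit 332) (nat_lit 299) (nat_lit 149)) (XT.lf (nat_lit 0) (nat_lit 10244156380) (nat_lit 380) (nat_lit 7239627224) (nat_lit 456) (nat_lit 5827545845) (nat_lit 86) (nat_lit 5) (nat_lit 91) (nat_lit 5) (nat_lit 92) (nat_lit 5) (nat_lit 333) (nat_lit 299) (nat_lit 148))))) (XT.nd (nat_lit 234) (nat_lit 380) (nat_lit 0) (XT.nd (nat_lit 78) (nat_lit 456) (nat_lit 0) (XT.lf (nat_lit 0) (nat_lit 20073484848) (nat_lit 456) (nat_lit 3551497304) (nat_lit 76) (nat_lit 131696711) (nat_lit 86) (nat_lit 5) (nat_lit 92) (nat_lit 5) (nat_lit 87) (nat_lit 5) (nat_lit 334) (nat_lit 299)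 (nat_lit 147)) (XT.nd (nat_lit 78) (nat_lit 76) (nat_lit 0) (XT.lf (nat_lit 0) (nat_lit 6294763469) (nat_lit 380) (nat_lit 16572933135) (nat_lit 456) (nat_lit 1343901849) (nat_lit 81) (nat_lit 5) (nat_lit 86) (nat_lit 5) (nat_lit 87) (nat_lit 5) (nat_lit 335) (nat_lit 299) (nat_lit 146)) (XT.lf (nat_lit 0) (nat_lit 1075658237) (nat_lit 456) (nat_lit 8186573179) (nat_lit 76) (nat_lit 15416713917) (nat_lit 80) (nat_lit 5) (nat_lit 86) (nat_lit 5) (nat_lit 81) (nat_lit 5) (nat_lit 336) (nat_lit 299) (nat_lit 145)))) (XT.nd (nat_lit 78) (nat_lit 0) (nat_lit 0) (XT.lf (nat_lit 0) (nat_lit 1852517738) (nat_lit 380) (nat_lit 1700903250) (nat_lit 456) (nat_lit 21606126708) (nat_lit 75) (nat_lit 5) (nat_lit 80) (nat_lit 5) (nat_lit 81) (nat_lit 5) (nat_lit 337) (nat_lit 299) (nat_lit 144)) (XT.nd (nat_lit 78) (nat_lit 0) (nat_lit 0) (XT.lf (nat_lit 0) (nat_lit 6242424439) (nat_lit 456) (nat_lit 13356844790)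 (nat_lit 76) (nat_lit 6051204352) (nat_lit 75) (nat_lit 5) (nat_lit 81) (nat_lit 5) (nat_lit 76) (nat_lit 5) (nat_lit 338) (nat_lit 299) (nat_lit 143)) (XT.lf (nat_lit 0) (nat_lit 9023993442) (nat_lit 456) (nat_lit 3130841106) (nat_lit 76) (nat_lit 14000948146) (nat_lit 75) (nat_lit 5) (nat_lit 81) (nat_lit 5) (nat_lit 76) (nat_lit 5) (nat_lit 339) (nat_lit 299) (nat_lit 142)))))) (XT.nd (nat_lit 390) (nat_lit 988) (nat_lit 0) (XT.nd (nat_lit 156) (nat_lit 304) (nat_lit 0) (XT.nd (nat_lit 78) (nat_lit 0) (nat_lit 0) (XT.lf (nat_lit 0) (nat_lit 7543466766) (nat_lit 380) (nat_lit 4413254024) (nat_lit 456) (nat_lit 14717510908) (nat_lit 70) (nat_lit 5) (nat_lit 75) (nat_lit 5) (nat_lit 76) (nat_lit 5) (nat_lit 340) (nat_lit 299) (nat_lit 141)) (XT.lf (nat_lit 0) (nat_lit 15038860722) (nat_lit 456) (nat_lit 8645406950) (nat_lit 76) (nat_lit 3522135186) (nat_lit 70) (nat_lit 5) (nat_lit 76) (nat_lit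 5) (nat_lit 71) (nat_lit 5) (nat_lit 341) (nat_lit 299) (nat_lit 140))) (XT.nd (nat_lit 78) (nat_lit 0) (nat_lit 0) (XT.lf (nat_lit 0) (nat_lit 2147117238) (nat_lit 304) (nat_lit 16126096163) (nat_lit 380) (nat_lit 9479544565) (nat_lit 66) (nat_lit 5) (nat_lit 70) (nat_lit 5) (nat_lit 71) (nat_lit 5) (nat_lit 342) (nat_lit 299) (nat_lit 139)) (XT.nd (nat_lit 78) (nat_lit 0) (nat_lit 0) (XT.lf (nat_lit 0) (nat_lit 13435097451) (nat_lit 304) (nat_lit 8252294741) (nat_lit 380) (nat_lit 6625638611) (nat_lit 66) (nat_lit 5) (nat_lit 70) (nat_lit 5) (nat_lit 71) (nat_lit 5) (nat_lit 343) (nat_lit 299) (nat_lit 138)) (XT.lf (nat_lit 0) (nat_lit 25056336423) (nat_lit 304) (nat_lit 143285045) (nat_lit 380) (nat_lit 3690632228) (nat_lit 66) (nat_lit 5) (nat_lit 70) (nat_lit 5) (nat_lit 71) (nat_lit 5) (nat_lit 344) (nat_lit 299) (nat_lit 137))))) (XT.nd (nat_lit 234) (nat_lit 304) (nat_lit 0) (XT.nd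 (nat_lit 78) (nat_lit 380) (nat_lit 0) (XT.lf (nat_lit 0) (nat_lit 7605569174) (nat_lit 304) (nat_lit 21359410868) (nat_lit 380) (nat_lit 515390672) (nat_lit 62) (nat_lit 5) (nat_lit 66) (nat_lit 5) (nat_lit 67) (nat_lit 5) (nat_lit 345) (nat_lit 299) (nat_lit 136)) (XT.nd (nat_lit 78) (nat_lit 304) (nat_lit 0) (XT.lf (nat_lit 0) (nat_lit 2737628030) (nat_lit 380) (nat_lit 10653877614) (nat_lit 76) (nat_lit 16694812349) (nat_lit 61) (nat_lit 5) (nat_lit 66) (nat_lit 5) (nat_lit 62) (nat_lit 5) (nat_lit 346) (nat_lit 299) (nat_lit 135)) (XT.lf (nat_lit 0) (nat_lit 911113544) (nat_lit 304) (nat_lit 5171411394) (nat_lit 380) (nat_lit 24627635709) (nat_lit 57) (nat_lit 5) (nat_lit 61) (nat_lit 5) (nat_lit 62) (nat_lit 5) (nat_lit 347) (nat_lit 299) (nat_lit 134)))) (XT.nd (nat_lit 78) (nat_lit 304) (nat_lit 0) (XT.lf (nat_lit 0) (nat_lit 9664040740) (nat_lit 380) (nat_lit 18346088880) (nat_lit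 76) (nat_lit 3338509967) (nat_lit 57) (nat_lit 5) (nat_lit 62) (nat_lit 5) (nat_lit 58) (nat_lit 5) (nat_lit 348) (nat_lit 299) (nat_lit 133)) (XT.nd (nat_lit 78) (nat_lit 304) (nat_lit 0) (XT.lf (nat_lit 0) (nat_lit 13400269376) (nat_lit 380) (nat_lit 6605894291) (nat_lit 76) (nat_lit 11998700101) (nat_lit 57) (nat_lit 5) (nat_lit 62) (nat_lit 5) (nat_lit 58) (nat_lit 5) (nat_lit 349) (nat_lit 299) (nat_lit 132)) (XT.lf (nat_lit 0) (nat_lit 5590598568) (nat_lit 304) (nat_lit 11707906429) (nat_lit 380) (nat_lit 15380780713) (nat_lit 53) (nat_lit 5) (nat_lit 57) (nat_lit 5) (nat_lit 58) (nat_lit 5) (nat_lit 350) (nat_lit 299) (nat_lit 131))))))) (XT.nd (nat_lit 858) (nat_lit 684) (nat_lit 0) (XT.nd (nat_lit 390) (nat_lit 456) (nat_lit 0) (XT.nd (nat_lit 156) (nat_lit 608) (nat_lit 0) (XT.nd (nat_lit 78) (nat_lit 0) (nat_lit 0) (XT.lf (nat_lit 0) (nat_lit 18283449313) (nat_lit 304) (nat_lit 3093188499)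 (nat_lit 380) (nat_lit 11995422381) (nat_lit 53) (nat_lit 5) (nat_lit 57) (nat_lit 5) (nat_lit 58) (nat_lit 5) (nat_lit 351) (nat_lit 299) (nat_lit 130)) (XT.lf (nat_lit 0) (nat_lit 25629017032) (nat_lit 380) (nat_lit 2789006396) (nat_lit 76) (nat_lit 5666045551) (nat_lit 53) (nat_lit 5) (nat_lit 58) (nat_lit 5) (nat_lit 54) (nat_lit 5) (nat_lit 352) (nat_lit 299) (nat_lit 129))) (XT.nd (nat_lit 78) (nat_lit 380) (nat_lit 0) (XT.lf (nat_lit 0) (nat_lit 10040108943) (nat_lit 228) (nat_lit 20092444337) (nat_lit 304) (nat_lit 4681185083) (nat_lit 50) (nat_lit 5) (nat_lit 53) (nat_lit 5) (nat_lit 54) (nat_lit 5) (nat_lit 353) (nat_lit 299) (nat_lit 128)) (XT.nd (nat_lit 78) (nat_lit 380) (nat_lit 0) (XT.lf (nat_lit 0) (nat_lit 23306546068) (nat_lit 228) (nat_lit 11489319438) (nat_lit 304) (nat_lit 768699900) (nat_lit 50) (nat_lit 5) (nat_lit 53) (nat_lit 5) (nat_lit 54) (nat_lit 5) (nat_lit 354)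 (nat_lit 299) (nat_lit 127)) (XT.lf (nat_lit 0) (nat_lit 608931689) (nat_lit 304) (nat_lit 2591011858) (nat_lit 380) (nat_lit 33136967879) (nat_lit 45) (nat_lit 5) (nat_lit 49) (nat_lit 5) (nat_lit 50) (nat_lit 5) (nat_lit 355) (nat_lit 299) (nat_lit 126))))) (XT.nd (nat_lit 234) (nat_lit 228) (nat_lit 0) (XT.nd (nat_lit 78) (nat_lit 228) (nat_lit 0) (XT.lf (nat_lit 0) (nat_lit 7457010348) (nat_lit 380) (nat_lit 23092290131) (nat_lit 76) (nat_lit 6577361619) (nat_lit 45) (nat_lit 5) (nat_lit 50) (nat_lit 5) (nat_lit 46) (nat_lit 5) (nat_lit 356) (nat_lit 299) (nat_lit 125)) (XT.nd (nat_lit 78) (nat_lit 228) (nat_lit 0) (XT.lf (nat_lit 0) (nat_lit 11864152412) (nat_lit 380) (nat_lit 10107758440) (nat_lit 76) (nat_lit 15967530360) (nat_lit 45) (nat_lit 5) (nat_lit 50) (nat_lit 5) (nat_lit 46) (nat_lit 5) (nat_lit 357) (nat_lit 299) (nat_lit 124)) (XT.lf (nat_lit 0) (nat_lit 3326784991) (nat_lit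 228) (nat_lit 13105508350) (nat_lit 304) (nat_lit 22343453440) (nat_lit 42) (nat_lit 5) (nat_lit 45) (nat_lit 5) (nat_lit 46) (nat_lit 5) (nat_lit 358) (nat_lit 299) (nat_lit 123)))) (XT.nd (nat_lit 78) (nat_lit 228) (nat_lit 0) (XT.lf (nat_lit 0) (nat_lit 17367165643) (nat_lit 228) (nat_lit 3869237672) (nat_lit 304) (nat_lit 18397776884) (nat_lit 42) (nat_lit 5) (nat_lit 45) (nat_lit 5) (nat_lit 46) (nat_lit 5) (nat_lit 359) (nat_lit 299) (nat_lit 122)) (XT.nd (nat_lit 78) (nat_lit 228) (nat_lit 0) (XT.lf (nat_lit 0) (nat_lit 26235827467) (nat_lit 304) (nat_lit 8748219866) (nat_lit 76) (nat_lit 5532789801) (nat_lit 42) (nat_lit 5) (nat_lit 46) (nat_lit 5) (nat_lit 43) (nat_lit 5) (nat_lit 360) (nat_lit 299) (nat_lit 121)) (XT.lf (nat_lit 0) (nat_lit 5235768753) (nat_lit 228) (nat_lit 26235129657) (nat_lit 304) (nat_lit 9952511502) (nat_lit 39) (nat_lit 5) (nat_lit 42) (nat_lit 5) (nat_lit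 43) (nat_lit 5) (nat_lit 361) (nat_lit 299) (nat_lit 120)))))) (XT.nd (nat_lit 390) (nat_lit 380) (nat_lit 0) (XT.nd (nat_lit 156) (nat_lit 304) (nat_lit 0) (XT.nd (nat_lit 78) (nat_lit 0) (nat_lit 0) (XT.lf (nat_lit 0) (nat_lit 19814419092) (nat_lit 228) (nat_lit 17134014014) (nat_lit 304) (nat_lit 5406190302) (nat_lit 39) (nat_lit 5) (nat_lit 42) (nat_lit 5) (nat_lit 43) (nat_lit 5) (nat_lit 362) (nat_lit 299) (nat_lit 119)) (XT.lf (nat_lit 0) (nat_lit 34826363047) (nat_lit 228) (nat_lit 7761087838) (nat_lit 304) (nat_lit 726413422) (nat_lit 39) (nat_lit 5) (nat_lit 42) (nat_lit 5) (nat_lit 43) (nat_lit 5) (nat_lit 363) (nat_lit 299) (nat_lit 118))) (XT.nd (nat_lit 78) (nat_lit 0) (nat_lit 0) (XT.lf (nat_lit 0) (nat_lit 4088500540) (nat_lit 304) (nat_lit 38256486246) (nat_lit 76) (nat_lit 1953481648) (nat_lit 35) (nat_lit 5) (nat_lit 39) (nat_lit 5) (nat_lit 36) (nat_lit 5) (nat_lit 364)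 (nat_lit 299) (nat_lit 117)) (XT.nd (nat_lit 78) (nat_lit 0) (nat_lit 0) (XT.lf (nat_lit 0) (nat_lit 9193898447) (nat_lit 304) (nat_lit 24217632260) (nat_lit 76) (nat_lit 11896050334) (nat_lit 35) (nat_lit 5) (nat_lit 39) (nat_lit 5) (nat_lit 36) (nat_lit 5) (nat_lit 365) (nat_lit 299) (nat_lit 116)) (XT.lf (nat_lit 0) (nat_lit 14449777277) (nat_lit 304) (nat_lit 9761539970) (nat_lit 76) (nat_lit 22135735285) (nat_lit 35) (nat_lit 5) (nat_lit 39) (nat_lit 5) (nat_lit 36) (nat_lit 5) (nat_lit 366) (nat_lit 299) (nat_lit 115))))) (XT.nd (nat_lit 234) (nat_lit 152) (nat_lit 0) (XT.nd (nat_lit 78) (nat_lit 0) (nat_lit 0) (XT.lf (nat_lit 0) (nat_lit 5226408210) (nat_lit 228) (nat_lit 14684560769) (nat_lit 304) (nat_lit 27505315020) (nat_lit 32) (nat_lit 5) (nat_lit 35) (nat_lit 5) (nat_lit 36) (nat_lit 5) (nat_lit 367) (nat_lit 299) (nat_lit 114)) (XT.nd (nat_lit 78) (nat_lit 0) (nat_lit 0) (XT.lf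 (nat_lit 0) (nat_lit 20860321291) (nat_lit 228) (nat_lit 4771684149) (nat_lit 304) (nat_lit 22882711481) (nat_lit 32) (nat_lit 5) (nat_lit 35) (nat_lit 5) (nat_lit 36) (nat_lit 5) (nat_lit 368) (nat_lit 299) (nat_lit 113)) (XT.lf (nat_lit 0) (nat_lit 31574451885) (nat_lit 304) (nat_lit 12738863584) (nat_lit 76) (nat_lit 5331298637) (nat_lit 32) (nat_lit 5) (nat_lit 36) (nat_lit 5) (nat_lit 33) (nat_lit 5) (nat_lit 369) (nat_lit 299) (nat_lit 112)))) (XT.nd (nat_lit 78) (nat_lit 0) (nat_lit 0) (XT.lf (nat_lit 0) (nat_lit 2624478222) (nat_lit 152) (nat_lit 35140738751) (nat_lit 228) (nat_lit 13041094386) (nat_lit 30) (nat_lit 5) (nat_lit 32) (nat_lit 5) (nat_lit 33) (nat_lit 5) (nat_lit 370) (nat_lit 299) (nat_lit 111)) (XT.nd (nat_lit 78) (nat_lit 0) (nat_lit 0) (XT.lf (nat_lit 0) (nat_lit 18706265209) (nat_lit 152) (nat_lit 25561686303) (nat_lit 228) (nat_lit 7731124998) (nat_lit 30) (nat_lit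 5) (nat_lit 32) (nat_lit 5) (nat_lit 33) (nat_lit 5) (nat_lit 371) (nat_lit 299) (nat_lit 110)) (XT.lf (nat_lit 0) (nat_lit 35267021060) (nat_lit 152) (nat_lit 15696425626) (nat_lit 228) (nat_lit 2264251822) (nat_lit 30) (nat_lit 5) (nat_lit 32) (nat_lit 5) (nat_lit 33) (nat_lit 5) (nat_lit 372) (nat_lit 299) (nat_lit 109))))))))
noncomputable def xc211 : XT := (XT.nd (nat_lit 35958) (nat_lit 0) (nat_lit 4864) (XT.nd (nat_lit 35100) (nat_lit 0) (nat_lit 8588) (XT.nd (nat_lit 390) (nat_lit 152) (nat_lit 0) (XT.nd (nat_lit 156) (nat_lit 152) (nat_lit 0) (XT.nd (nat_lit 78) (nat_lit 228) (nat_lit 0) (XT.lf (nat_lit 0) (nat_lit 3298652371) (nat_lit 228) (nat_lit 2204374295) (nat_lit 76) (nat_lit 48989254045) (nat_lit 29) (nat_lit 5) (nat_lit 32) (nat_lit 5) (nat_lit 30) (nat_lit 5) (nat_lit 373) (nat_lit 299) (nat_lit 108)) (XT.lf (nat_lit 0) (nat_lit 9167560869) (nat_lit 304) (nat_lit 41562205297)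 (nat_lit 76) (nat_lit 5058826763) (nat_lit 26) (nat_lit 5) (nat_lit 30) (nat_lit 5) (nat_lit 27) (nat_lit 5) (nat_lit 374) (nat_lit 299) (nat_lit 107))) (XT.nd (nat_lit 78) (nat_lit 152) (nat_lit 0) (XT.lf (nat_lit 0) (nat_lit 15287310550) (nat_lit 304) (nat_lit 25985931022) (nat_lit 76) (nat_lit 15848313498) (nat_lit 26) (nat_lit 5) (nat_lit 30) (nat_lit 5) (nat_lit 27) (nat_lit 5) (nat_lit 375) (nat_lit 299) (nat_lit 106)) (XT.nd (nat_lit 78) (nat_lit 152) (nat_lit 0) (XT.lf (nat_lit 0) (nat_lit 21588524822) (nat_lit 304) (nat_lit 9945629129) (nat_lit 76) (nat_lit 26960419626) (nat_lit 26) (nat_lit 5) (nat_lit 30) (nat_lit 5) (nat_lit 27) (nat_lit 5) (nat_lit 376) (nat_lit 299) (nat_lit 105)) (XT.lf (nat_lit 0) (nat_lit 6703526118) (nat_lit 152) (nat_lit 21437621875) (nat_lit 228) (nat_lit 31765767030) (nat_lit 24) (nat_lit 5) (nat_lit 26) (nat_lit 5) (nat_lit 27) (nat_lit 5) (nat_lit 377)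 (nat_lit 299) (nat_lit 104))))) (XT.nd (nat_lit 234) (nat_lit 152) (nat_lit 0) (XT.nd (nat_lit 78) (nat_lit 0) (nat_lit 0) (XT.lf (nat_lit 0) (nat_lit 24052897065) (nat_lit 152) (nat_lit 10935848268) (nat_lit 228) (nat_lit 26369932972) (nat_lit 24) (nat_lit 5) (nat_lit 26) (nat_lit 5) (nat_lit 27) (nat_lit 5) (nat_lit 378) (nat_lit 299) (nat_lit 103)) (XT.nd (nat_lit 78) (nat_lit 0) (nat_lit 0) (XT.lf (nat_lit 0) (nat_lit 41919705834) (nat_lit 152) (nat_lit 120088175) (nat_lit 228) (nat_lit 20814263128) (nat_lit 24) (nat_lit 5) (nat_lit 26) (nat_lit 5) (nat_lit 27) (nat_lit 5) (nat_lit 379) (nat_lit 299) (nat_lit 102)) (XT.lf (nat_lit 0) (nat_lit 49406377548) (nat_lit 228) (nat_lit 4180716378) (nat_lit 76) (nat_lit 10804086560) (nat_lit 24) (nat_lit 5) (nat_lit 27) (nat_lit 5) (nat_lit 25) (nat_lit 5) (nat_lit 380) (nat_lit 299) (nat_lit 101)))) (XT.nd (nat_lit 34320) (nat_lit 0) (nat_lit 9424)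 (XT.lf (nat_lit 0) (nat_lit 13331567504) (nat_lit 152) (nat_lit 43789858479) (nat_lit 228) (nat_lit 8849170695) (nat_lit 22) (nat_lit 5) (nat_lit 24) (nat_lit 5) (nat_lit 25) (nat_lit 5) (nat_lit 381) (nat_lit 299) (nat_lit 100)) (XT.nd (nat_lit 78) (nat_lit 0) (nat_lit 0) (XT.lf (nat_lit 0) (nat_lit 2346218243) (nat_lit 0) (nat_lit 2346218243) (nat_lit 988) (nat_lit 2154982221) (nat_lit 146) (nat_lit 5) (nat_lit 146) (nat_lit 3) (nat_lit 159) (nat_lit 3) (nat_lit 300) (nat_lit 300) (nat_lit 180)) (XT.lf (nat_lit 0) (nat_lit 9846923589) (nat_lit 988) (nat_lit 3545861307) (nat_lit 1064) (nat_lit 496837395) (nat_lit 146) (nat_lit 5) (nat_lit 159) (nat_lit 3) (nat_lit 160) (nat_lit 5) (nat_lit 301) (nat_lit 300) (nat_lit 179)))))) (XT.nd (nat_lit 390) (nat_lit 836) (nat_lit 0) (XT.nd (nat_lit 156) (nat_lit 0) (nat_lit 76) (XT.nd (nat_lit 78) (nat_lit 0) (nat_lit 0) (XT.lf (nat_lit 76) (nat_lit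 2061498967) (nat_lit 0) (nat_lit 8315323798) (nat_lit 1064) (nat_lit 3711847339) (nat_lit 147) (nat_lit 5) (nat_lit 146) (nat_lit 5) (nat_lit 160) (nat_lit 5) (nat_lit 302) (nat_lit 300) (nat_lit 178)) (XT.lf (nat_lit 76) (nat_lit 7903188821) (nat_lit 0) (nat_lit 3043241935) (nat_lit 1064) (nat_lit 3346582108) (nat_lit 147) (nat_lit 5) (nat_lit 146) (nat_lit 5) (nat_lit 160) (nat_lit 5) (nat_lit 303) (nat_lit 300) (nat_lit 177))) (XT.nd (nat_lit 78) (nat_lit 0) (nat_lit 0) (XT.lf (nat_lit 0) (nat_lit 11544477806) (nat_lit 988) (nat_lit 613124849) (nat_lit 1064) (nat_lit 2345579489) (nat_lit 147) (nat_lit 5) (nat_lit 160) (nat_lit 5) (nat_lit 161) (nat_lit 5) (nat_lit 304) (nat_lit 300) (nat_lit 176)) (XT.nd (nat_lit 78) (nat_lit 0) (nat_lit 0) (XT.lf (nat_lit 76) (nat_lit 5405602733) (nat_lit 0) (nat_lit 6825699800) (nat_lit 1064) (nat_lit 2486264573) (nat_lit 148) (nat_lit 5) (nat_lit 147)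 (nat_lit 5) (nat_lit 161) (nat_lit 5) (nat_lit 305) (nat_lit 300) (nat_lit 175)) (XT.lf (nat_lit 76) (nat_lit 11610901288) (nat_lit 0) (nat_lit 1323030087) (nat_lit 1064) (nat_lit 2004630916) (nat_lit 148) (nat_lit 5) (nat_lit 147) (nat_lit 5) (nat_lit 161) (nat_lit 5) (nat_lit 306) (nat_lit 300) (nat_lit 174))))) (XT.nd (nat_lit 234) (nat_lit 988) (nat_lit 0) (XT.nd (nat_lit 78) (nat_lit 0) (nat_lit 0) (XT.lf (nat_lit 76) (nat_lit 2843123510) (nat_lit 0) (nat_lit 10872979055) (nat_lit 1064) (nat_lit 1448364504) (nat_lit 149) (nat_lit 5) (nat_lit 148) (nat_lit 5) (nat_lit 162) (nat_lit 5) (nat_lit 307) (nat_lit 300) (nat_lit 173)) (XT.nd (nat_lit 78) (nat_lit 0) (nat_lit 76) (XT.lf (nat_lit 76) (nat_lit 9247188213) (nat_lit 0) (nat_lit 5310739197) (nat_lit 1064) (nat_lit 838168589) (nat_lit 149) (nat_lit 5) (nat_lit 148) (nat_lit 5) (nat_lit 162) (nat_lit 5) (nat_lit 308) (nat_lit 300) (nat_lit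 172)) (XT.lf (nat_lit 76) (nat_lit 201745556) (nat_lit 0) (nat_lit 15219174041) (nat_lit 1064) (nat_lit 213908535) (nat_lit 150) (nat_lit 5) (nat_lit 149) (nat_lit 5) (nat_lit 163) (nat_lit 5) (nat_lit 309) (nat_lit 300) (nat_lit 171)))) (XT.nd (nat_lit 78) (nat_lit 0) (nat_lit 0) (XT.lf (nat_lit 0) (nat_lit 526046229) (nat_lit 1064) (nat_lit 9074246515) (nat_lit 1140) (nat_lit 6277175444) (nat_lit 135) (nat_lit 5) (nat_lit 149) (nat_lit 5) (nat_lit 150) (nat_lit 5) (nat_lit 310) (nat_lit 300) (nat_lit 170)) (XT.nd (nat_lit 78) (nat_lit 0) (nat_lit 76) (XT.lf (nat_lit 0) (nat_lit 1274241580) (nat_lit 1064) (nat_lit 2533589690) (nat_lit 1140) (nat_lit 12319811422) (nat_lit 135) (nat_lit 5) (nat_lit 149) (nat_lit 5) (nat_lit 150) (nat_lit 5) (nat_lit 311) (nat_lit 300) (nat_lit 169)) (XT.lf (nat_lit 0) (nat_lit 2097830822) (nat_lit 1064) (nat_lit 12125398313) (nat_lit 1140) (nat_lit 2160533033)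 (nat_lit 136) (nat_lit 5) (nat_lit 150) (nat_lit 5) (nat_lit 151) (nat_lit 5) (nat_lit 312) (nat_lit 300) (nat_lit 168))))))) (XT.nd (nat_lit 858) (nat_lit 2356) (nat_lit 0) (XT.nd (nat_lit 390) (nat_lit 1444) (nat_lit 0) (XT.nd (nat_lit 156) (nat_lit 0) (nat_lit 76) (XT.nd (nat_lit 78) (nat_lit 0) (nat_lit 0) (XT.lf (nat_lit 0) (nat_lit 3000524336) (nat_lit 1064) (nat_lit 5385630217) (nat_lit 1140) (nat_lit 8259806131) (nat_lit 136) (nat_lit 5) (nat_lit 150) (nat_lit 5) (nat_lit 151) (nat_lit 5) (nat_lit 313) (nat_lit 300) (nat_lit 167)) (XT.lf (nat_lit 76) (nat_lit 1580482486) (nat_lit 0) (nat_lit 2356132711) (nat_lit 1140) (nat_lit 12979247021) (nat_lit 137) (nat_lit 5) (nat_lit 136) (nat_lit 5) (nat_lit 151) (nat_lit 5) (nat_lit 314) (nat_lit 300) (nat_lit 166))) (XT.nd (nat_lit 78) (nat_lit 0) (nat_lit 0) (XT.lf (nat_lit 0) (nat_lit 4984104754) (nat_lit 1064) (nat_lit 8370773373) (nat_lit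 1140) (nat_lit 3836508977) (nat_lit 137) (nat_lit 5) (nat_lit 151) (nat_lit 5) (nat_lit 152) (nat_lit 5) (nat_lit 315) (nat_lit 300) (nat_lit 165)) (XT.nd (nat_lit 78) (nat_lit 0) (nat_lit 0) (XT.lf (nat_lit 0) (nat_lit 6077937926) (nat_lit 1064) (nat_lit 1227284788) (nat_lit 1140) (nat_lit 10169532489) (nat_lit 137) (nat_lit 5) (nat_lit 151) (nat_lit 5) (nat_lit 152) (nat_lit 5) (nat_lit 316) (nat_lit 300) (nat_lit 164)) (XT.lf (nat_lit 76) (nat_lit 6245855633) (nat_lit 0) (nat_lit 1010605253) (nat_lit 1140) (nat_lit 10508631520) (nat_lit 138) (nat_lit 5) (nat_lit 137) (nat_lit 5) (nat_lit 152) (nat_lit 5) (nat_lit 317) (nat_lit 300) (nat_lit 163))))) (XT.nd (nat_lit 234) (nat_lit 532) (nat_lit 0) (XT.nd (nat_lit 78) (nat_lit 1064) (nat_lit 0) (XT.lf (nat_lit 0) (nat_lit 8527489843) (nat_lit 1064) (nat_lit 4154896416) (nat_lit 76) (nat_lit 5380062555) (nat_lit 138) (nat_lit 5) (nat_lit 152)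 (nat_lit 5) (nat_lit 139) (nat_lit 5) (nat_lit 318) (nat_lit 300) (nat_lit 162)) (XT.nd (nat_lit 78) (nat_lit 0) (nat_lit 0) (XT.lf (nat_lit 0) (nat_lit 3481760535) (nat_lit 1064) (nat_lit 6390622232) (nat_lit 1140) (nat_lit 8495294063) (nat_lit 124) (nat_lit 5) (nat_lit 138) (nat_lit 5) (nat_lit 139) (nat_lit 5) (nat_lit 319) (nat_lit 300) (nat_lit 161)) (XT.lf (nat_lit 0) (nat_lit 11293290271) (nat_lit 1140) (nat_lit 7256139246) (nat_lit 76) (nat_lit 131584377) (nat_lit 124) (nat_lit 5) (nat_lit 139) (nat_lit 5) (nat_lit 125) (nat_lit 5) (nat_lit 320) (nat_lit 300) (nat_lit 160)))) (XT.nd (nat_lit 78) (nat_lit 0) (nat_lit 0) (XT.lf (nat_lit 0) (nat_lit 543310825) (nat_lit 532) (nat_lit 12274662681) (nat_lit 608) (nat_lit 6183964705) (nat_lit 117) (nat_lit 5) (nat_lit 124) (nat_lit 5) (nat_lit 125) (nat_lit 5) (nat_lit 321) (nat_lit 300) (nat_lit 159)) (XT.nd (nat_lit 78) (nat_lit 0) (nat_lit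 0) (XT.lf (nat_lit 0) (nat_lit 8719003590) (nat_lit 532) (nat_lit 5735470482) (nat_lit 608) (nat_lit 4876054844) (nat_lit 117) (nat_lit 5) (nat_lit 124) (nat_lit 5) (nat_lit 125) (nat_lit 5) (nat_lit 322) (nat_lit 300) (nat_lit 158)) (XT.lf (nat_lit 0) (nat_lit 16142701570) (nat_lit 608) (nat_lit 2545154095) (nat_lit 76) (nat_lit 981063076) (nat_lit 117) (nat_lit 5) (nat_lit 125) (nat_lit 5) (nat_lit 118) (nat_lit 5) (nat_lit 323) (nat_lit 300) (nat_lit 157)))))) (XT.nd (nat_lit 468) (nat_lit 836) (nat_lit 0) (XT.nd (nat_lit 234) (nat_lit 456) (nat_lit 0) (XT.nd (nat_lit 78) (nat_lit 608) (nat_lit 0) (XT.lf (nat_lit 0) (nat_lit 5813522189) (nat_lit 456) (nat_lit 12173947249) (nat_lit 532) (nat_lit 2026833779) (nat_lit 111) (nat_lit 5) (nat_lit 117) (nat_lit 5) (nat_lit 118) (nat_lit 5) (nat_lit 324) (nat_lit 300) (nat_lit 156)) (XT.nd (nat_lit 78) (nat_lit 608) (nat_lit 0) (XT.lf (nat_lit 0)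 (nat_lit 14468852101) (nat_lit 456) (nat_lit 5437789893) (nat_lit 532) (nat_lit 462854570) (nat_lit 111) (nat_lit 5) (nat_lit 117) (nat_lit 5) (nat_lit 118) (nat_lit 5) (nat_lit 325) (nat_lit 300) (nat_lit 155)) (XT.lf (nat_lit 0) (nat_lit 1159700311) (nat_lit 608) (nat_lit 18065663424) (nat_lit 76) (nat_lit 1508647228) (nat_lit 103) (nat_lit 5) (nat_lit 111) (nat_lit 5) (nat_lit 104) (nat_lit 5) (nat_lit 326) (nat_lit 300) (nat_lit 154)))) (XT.nd (nat_lit 78) (nat_lit 456) (nat_lit 0) (XT.lf (nat_lit 0) (nat_lit 2929247945) (nat_lit 608) (nat_lit 9557713925) (nat_lit 76) (nat_lit 8619150428) (nat_lit 103) (nat_lit 5) (nat_lit 111) (nat_lit 5) (nat_lit 104) (nat_lit 5) (nat_lit 327) (nat_lit 300) (nat_lit 153)) (XT.nd (nat_lit 78) (nat_lit 456) (nat_lit 0) (XT.lf (nat_lit 0) (nat_lit 4745672914) (nat_lit 608) (nat_lit 800734909) (nat_lit 76) (nat_lit 15943172171) (nat_lit 103) (nat_lit 5) (nat_lit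 111) (nat_lit 5) (nat_lit 104) (nat_lit 5) (nat_lit 328) (nat_lit 300) (nat_lit 152)) (XT.lf (nat_lit 0) (nat_lit 6707281369) (nat_lit 532) (nat_lit 13522154994) (nat_lit 76) (nat_lit 1652411186) (nat_lit 97) (nat_lit 5) (nat_lit 104) (nat_lit 5) (nat_lit 98) (nat_lit 5) (nat_lit 329) (nat_lit 300) (nat_lit 151))))) (XT.nd (nat_lit 234) (nat_lit 380) (nat_lit 0) (XT.nd (nat_lit 78) (nat_lit 456) (nat_lit 0) (XT.lf (nat_lit 0) (nat_lit 8784908305) (nat_lit 532) (nat_lit 4535450244) (nat_lit 76) (nat_lit 8963825544) (nat_lit 97) (nat_lit 5) (nat_lit 104) (nat_lit 5) (nat_lit 98) (nat_lit 5) (nat_lit 330) (nat_lit 300) (nat_lit 150)) (XT.nd (nat_lit 78) (nat_lit 0) (nat_lit 0) (XT.lf (nat_lit 0) (nat_lit 4808708513) (nat_lit 456) (nat_lit 6156641325) (nat_lit 532) (nat_lit 11732041921) (nat_lit 91) (nat_lit 5) (nat_lit 97) (nat_lit 5) (nat_lit 98) (nat_lit 5) (nat_lit 331) (nat_lit 300) (nat_lit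 149)) (XT.lf (nat_lit 0) (nat_lit 13263572619) (nat_lit 532) (nat_lit 8613762173) (nat_lit 76) (nat_lit 1244104971) (nat_lit 91) (nat_lit 5) (nat_lit 98) (nat_lit 5) (nat_lit 92) (nat_lit 5) (nat_lit 332) (nat_lit 300) (nat_lit 148)))) (XT.nd (nat_lit 78) (nat_lit 0) (nat_lit 0) (XT.lf (nat_lit 0) (nat_lit 889887550) (nat_lit 380) (nat_lit 14804898431) (nat_lit 456) (nat_lit 7861516612) (nat_lit 86) (nat_lit 5) (nat_lit 91) (nat_lit 5) (nat_lit 92) (nat_lit 5) (nat_lit 333) (nat_lit 300) (nat_lit 147)) (XT.nd (nat_lit 78) (nat_lit 0) (nat_lit 0) (XT.lf (nat_lit 0) (nat_lit 10849351504) (nat_lit 380) (nat_lit 7431202080) (nat_lit 456) (nat_lit 5721223465) (nat_lit 86) (nat_lit 5) (nat_lit 91) (nat_lit 5) (nat_lit 92) (nat_lit 5) (nat_lit 334) (nat_lit 300) (nat_lit 146)) (XT.lf (nat_lit 0) (nat_lit 20940255112) (nat_lit 456) (nat_lit 3360453390) (nat_lit 76) (nat_lit 160030272) (nat_lit 86)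 (nat_lit 5) (nat_lit 92) (nat_lit 5) (nat_lit 87) (nat_lit 5) (nat_lit 335) (nat_lit 300) (nat_lit 145))))))))
noncomputable def xc212 : XT := (XT.nd (nat_lit 1716) (nat_lit 1596) (nat_lit 0) (XT.nd (nat_lit 858) (nat_lit 1292) (nat_lit 0) (XT.nd (nat_lit 390) (nat_lit 988) (nat_lit 0) (XT.nd (nat_lit 156) (nat_lit 380) (nat_lit 0) (XT.nd (nat_lit 78) (nat_lit 76) (nat_lit 0) (XT.lf (nat_lit 0) (nat_lit 6778277669) (nat_lit 380) (nat_lit 17035142314) (nat_lit 456) (nat_lit 1116052655) (nat_lit 81) (nat_lit 5) (nat_lit 86) (nat_lit 5) (nat_lit 87) (nat_lit 5) (nat_lit 336) (nat_lit 300) (nat_lit 144)) (XT.lf (nat_lit 0) (nat_lit 1363203092) (nat_lit 456) (nat_lit 8140357474) (nat_lit 76) (nat_lit 15907451086) (nat_lit 80) (nat_lit 5) (nat_lit 86) (nat_lit 5) (nat_lit 81) (nat_lit 5) (nat_lit 337) (nat_lit 300) (nat_lit 143))) (XT.nd (nat_lit 78) (nat_lit 0) (nat_lit 0) (XT.lf (nat_lit 0) (nat_lit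 2197045259) (nat_lit 380) (nat_lit 1713595852) (nat_lit 456) (nat_lit 21995549455) (nat_lit 75) (nat_lit 5) (nat_lit 80) (nat_lit 5) (nat_lit 81) (nat_lit 5) (nat_lit 338) (nat_lit 300) (nat_lit 142)) (XT.nd (nat_lit 78) (nat_lit 0) (nat_lit 0) (XT.lf (nat_lit 0) (nat_lit 6673372889) (nat_lit 456) (nat_lit 13469465614) (nat_lit 76) (nat_lit 6269232183) (nat_lit 75) (nat_lit 5) (nat_lit 81) (nat_lit 5) (nat_lit 76) (nat_lit 5) (nat_lit 339) (nat_lit 300) (nat_lit 141)) (XT.lf (nat_lit 0) (nat_lit 9531291611) (nat_lit 456) (nat_lit 2945072631) (nat_lit 76) (nat_lit 14456405426) (nat_lit 75) (nat_lit 5) (nat_lit 81) (nat_lit 5) (nat_lit 76) (nat_lit 5) (nat_lit 340) (nat_lit 300) (nat_lit 140))))) (XT.nd (nat_lit 234) (nat_lit 304) (nat_lit 0) (XT.nd (nat_lit 78) (nat_lit 304) (nat_lit 0) (XT.lf (nat_lit 0) (nat_lit 8046722382) (nat_lit 380) (nat_lit 4501049993) (nat_lit 456) (nat_lit 14919143778)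 (nat_lit 70) (nat_lit 5) (nat_lit 75) (nat_lit 5) (nat_lit 76) (nat_lit 5) (nat_lit 341) (nat_lit 300) (nat_lit 139)) (XT.nd (nat_lit 78) (nat_lit 304) (nat_lit 0) (XT.lf (nat_lit 0) (nat_lit 15716025281) (nat_lit 456) (nat_lit 8628977537) (nat_lit 76) (nat_lit 3670256827) (nat_lit 70) (nat_lit 5) (nat_lit 76) (nat_lit 5) (nat_lit 71) (nat_lit 5) (nat_lit 342) (nat_lit 300) (nat_lit 138)) (XT.lf (nat_lit 0) (nat_lit 2484618537) (nat_lit 304) (nat_lit 16558832603) (nat_lit 380) (nat_lit 9534689163) (nat_lit 66) (nat_lit 5) (nat_lit 70) (nat_lit 5) (nat_lit 71) (nat_lit 5) (nat_lit 343) (nat_lit 300) (nat_lit 137)))) (XT.nd (nat_lit 78) (nat_lit 304) (nat_lit 0) (XT.lf (nat_lit 0) (nat_lit 14103284144) (nat_lit 304) (nat_lit 8450303928) (nat_lit 380) (nat_lit 6601842974) (nat_lit 66) (nat_lit 5) (nat_lit 70) (nat_lit 5) (nat_lit 71) (nat_lit 5) (nat_lit 344) (nat_lit 300) (nat_lit 136)) (XT.nd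 (nat_lit 78) (nat_lit 304) (nat_lit 0) (XT.lf (nat_lit 0) (nat_lit 26065437942) (nat_lit 304) (nat_lit 99467426) (nat_lit 380) (nat_lit 3585268869) (nat_lit 66) (nat_lit 5) (nat_lit 70) (nat_lit 5) (nat_lit 71) (nat_lit 5) (nat_lit 345) (nat_lit 300) (nat_lit 135)) (XT.lf (nat_lit 0) (nat_lit 8094886576) (nat_lit 304) (nat_lit 21945201533) (nat_lit 380) (nat_lit 318015558) (nat_lit 62) (nat_lit 5) (nat_lit 66) (nat_lit 5) (nat_lit 67) (nat_lit 5) (nat_lit 346) (nat_lit 300) (nat_lit 134)))))) (XT.nd (nat_lit 390) (nat_lit 608) (nat_lit 0) (XT.nd (nat_lit 156) (nat_lit 304) (nat_lit 0) (XT.nd (nat_lit 78) (nat_lit 304) (nat_lit 0) (XT.lf (nat_lit 0) (nat_lit 3022362328) (nat_lit 380) (nat_lit 10715452605) (nat_lit 76) (nat_lit 17244549351) (nat_lit 61) (nat_lit 5) (nat_lit 66) (nat_lit 5) (nat_lit 62) (nat_lit 5) (nat_lit 347) (nat_lit 300) (nat_lit 133)) (XT.lf (nat_lit 0) (nat_lit 1193958472)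 (nat_lit 304) (nat_lit 5270202676) (nat_lit 380) (nat_lit 25160877967) (nat_lit 57) (nat_lit 5) (nat_lit 61) (nat_lit 5) (nat_lit 62) (nat_lit 5) (nat_lit 348) (nat_lit 300) (nat_lit 132))) (XT.nd (nat_lit 78) (nat_lit 304) (nat_lit 0) (XT.lf (nat_lit 0) (nat_lit 10147847536) (nat_lit 380) (nat_lit 18642688835) (nat_lit 76) (nat_lit 3492307448) (nat_lit 57) (nat_lit 5) (nat_lit 62) (nat_lit 5) (nat_lit 58) (nat_lit 5) (nat_lit 349) (nat_lit 300) (nat_lit 131)) (XT.nd (nat_lit 78) (nat_lit 304) (nat_lit 0) (XT.lf (nat_lit 0) (nat_lit 13990515879) (nat_lit 380) (nat_lit 6557680138) (nat_lit 76) (nat_lit 12410740894) (nat_lit 57) (nat_lit 5) (nat_lit 62) (nat_lit 5) (nat_lit 58) (nat_lit 5) (nat_lit 350) (nat_lit 300) (nat_lit 130)) (XT.lf (nat_lit 0) (nat_lit 6002291910) (nat_lit 304) (nat_lit 12000269227) (nat_lit 380) (nat_lit 15651136893) (nat_lit 53) (nat_lit 5) (nat_lit 57) (nat_lit 5) (nat_lit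 58) (nat_lit 5) (nat_lit 351) (nat_lit 300) (nat_lit 129))))) (XT.nd (nat_lit 234) (nat_lit 380) (nat_lit 0) (XT.nd (nat_lit 78) (nat_lit 228) (nat_lit 0) (XT.lf (nat_lit 0) (nat_lit 19068822098) (nat_lit 304) (nat_lit 3128824547) (nat_lit 380) (nat_lit 12169782876) (nat_lit 53) (nat_lit 5) (nat_lit 57) (nat_lit 5) (nat_lit 58) (nat_lit 5) (nat_lit 352) (nat_lit 300) (nat_lit 128)) (XT.nd (nat_lit 78) (nat_lit 228) (nat_lit 0) (XT.lf (nat_lit 0) (nat_lit 26572896428) (nat_lit 380) (nat_lit 2637616073) (nat_lit 76) (nat_lit 5890438778) (nat_lit 53) (nat_lit 5) (nat_lit 58) (nat_lit 5) (nat_lit 54) (nat_lit 5) (nat_lit 353) (nat_lit 300) (nat_lit 127)) (XT.lf (nat_lit 0) (nat_lit 10574068211) (nat_lit 228) (nat_lit 20634610599) (nat_lit 304) (nat_lit 4643929078) (nat_lit 50) (nat_lit 5) (nat_lit 53) (nat_lit 5) (nat_lit 54) (nat_lit 5) (nat_lit 354) (nat_lit 300) (nat_lit 126)))) (XT.nd (nat_lit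 78) (nat_lit 380) (nat_lit 0) (XT.lf (nat_lit 0) (nat_lit 24231719149) (nat_lit 228) (nat_lit 11775157207) (nat_lit 304) (nat_lit 619244822) (nat_lit 50) (nat_lit 5) (nat_lit 53) (nat_lit 5) (nat_lit 54) (nat_lit 5) (nat_lit 355) (nat_lit 300) (nat_lit 125)) (XT.nd (nat_lit 78) (nat_lit 0) (nat_lit 0) (XT.lf (nat_lit 0) (nat_lit 854647242) (nat_lit 304) (nat_lit 2607703953) (nat_lit 380) (nat_lit 33959329226) (nat_lit 45) (nat_lit 5) (nat_lit 49) (nat_lit 5) (nat_lit 50) (nat_lit 5) (nat_lit 356) (nat_lit 300) (nat_lit 124)) (XT.lf (nat_lit 0) (nat_lit 7842852774) (nat_lit 380) (nat_lit 23559622706) (nat_lit 76) (nat_lit 6832786530) (nat_lit 45) (nat_lit 5) (nat_lit 50) (nat_lit 5) (nat_lit 46) (nat_lit 5) (nat_lit 357) (nat_lit 300) (nat_lit 123))))))) (XT.nd (nat_lit 858) (nat_lit 608) (nat_lit 0) (XT.nd (nat_lit 390) (nat_lit 532) (nat_lit 0) (XT.nd (nat_lit 156) (nat_lit 228) (nat_lit 0)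 (XT.nd (nat_lit 78) (nat_lit 228) (nat_lit 0) (XT.lf (nat_lit 0) (nat_lit 12377486805) (nat_lit 380) (nat_lit 10192121165) (nat_lit 76) (nat_lit 16502967982) (nat_lit 45) (nat_lit 5) (nat_lit 50) (nat_lit 5) (nat_lit 46) (nat_lit 5) (nat_lit 358) (nat_lit 300) (nat_lit 122)) (XT.lf (nat_lit 0) (nat_lit 3643312784) (nat_lit 228) (nat_lit 13436857712) (nat_lit 304) (nat_lit 22853884738) (nat_lit 42) (nat_lit 5) (nat_lit 45) (nat_lit 5) (nat_lit 46) (nat_lit 5) (nat_lit 359) (nat_lit 300) (nat_lit 121))) (XT.nd (nat_lit 78) (nat_lit 228) (nat_lit 0) (XT.lf (nat_lit 0) (nat_lit 18098592499) (nat_lit 228) (nat_lit 3925299376) (nat_lit 304) (nat_lit 18794494360) (nat_lit 42) (nat_lit 5) (nat_lit 45) (nat_lit 5) (nat_lit 46) (nat_lit 5) (nat_lit 360) (nat_lit 300) (nat_lit 120)) (XT.nd (nat_lit 78) (nat_lit 228) (nat_lit 0) (XT.lf (nat_lit 0) (nat_lit 27169478374) (nat_lit 304) (nat_lit 8802264179)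 (nat_lit 76) (nat_lit 5755903892) (nat_lit 42) (nat_lit 5) (nat_lit 46) (nat_lit 5) (nat_lit 43) (nat_lit 5) (nat_lit 361) (nat_lit 300) (nat_lit 119)) (XT.lf (nat_lit 0) (nat_lit 5599200939) (nat_lit 228) (nat_lit 26960114950) (nat_lit 304) (nat_lit 10102177779) (nat_lit 39) (nat_lit 5) (nat_lit 42) (nat_lit 5) (nat_lit 43) (nat_lit 5) (nat_lit 362) (nat_lit 300) (nat_lit 118))))) (XT.nd (nat_lit 234) (nat_lit 228) (nat_lit 0) (XT.nd (nat_lit 78) (nat_lit 304) (nat_lit 0) (XT.lf (nat_lit 0) (nat_lit 20609200328) (nat_lit 228) (nat_lit 17587773660) (nat_lit 304) (nat_lit 5423804100) (nat_lit 39) (nat_lit 5) (nat_lit 42) (nat_lit 5) (nat_lit 43) (nat_lit 5) (nat_lit 363) (nat_lit 300) (nat_lit 117)) (XT.nd (nat_lit 78) (nat_lit 304) (nat_lit 0) (XT.lf (nat_lit 0) (nat_lit 36065667205) (nat_lit 228) (nat_lit 7935414867) (nat_lit 304) (nat_lit 607844746) (nat_lit 39) (nat_lit 5) (nat_lit 42) (nat_lit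 5) (nat_lit 43) (nat_lit 5) (nat_lit 364) (nat_lit 300) (nat_lit 116)) (XT.lf (nat_lit 0) (nat_lit 4347226913) (nat_lit 304) (nat_lit 39204855107) (nat_lit 76) (nat_lit 2071000819) (nat_lit 35) (nat_lit 5) (nat_lit 39) (nat_lit 5) (nat_lit 36) (nat_lit 5) (nat_lit 365) (nat_lit 300) (nat_lit 115)))) (XT.nd (nat_lit 78) (nat_lit 228) (nat_lit 0) (XT.lf (nat_lit 0) (nat_lit 9601823514) (nat_lit 304) (nat_lit 24750641105) (nat_lit 76) (nat_lit 12310130604) (nat_lit 35) (nat_lit 5) (nat_lit 39) (nat_lit 5) (nat_lit 36) (nat_lit 5) (nat_lit 366) (nat_lit 300) (nat_lit 114)) (XT.nd (nat_lit 78) (nat_lit 228) (nat_lit 0) (XT.lf (nat_lit 0) (nat_lit 15011530900) (nat_lit 304) (nat_lit 9866502555) (nat_lit 76) (nat_lit 22855340120) (nat_lit 35) (nat_lit 5) (nat_lit 39) (nat_lit 5) (nat_lit 36) (nat_lit 5) (nat_lit 367) (nat_lit 300) (nat_lit 113)) (XT.lf (nat_lit 0) (nat_lit 5569242074) (nat_lit 228)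 (nat_lit 15065368887) (nat_lit 304) (nat_lit 28200136515) (nat_lit 32) (nat_lit 5) (nat_lit 35) (nat_lit 5) (nat_lit 36) (nat_lit 5) (nat_lit 368) (nat_lit 300) (nat_lit 112)))))) (XT.nd (nat_lit 390) (nat_lit 456) (nat_lit 0) (XT.nd (nat_lit 156) (nat_lit 152) (nat_lit 0) (XT.nd (nat_lit 78) (nat_lit 0) (nat_lit 0) (XT.lf (nat_lit 0) (nat_lit 21666753860) (nat_lit 228) (nat_lit 4856845639) (nat_lit 304) (nat_lit 23442651121) (nat_lit 32) (nat_lit 5) (nat_lit 35) (nat_lit 5) (nat_lit 36) (nat_lit 5) (nat_lit 369) (nat_lit 300) (nat_lit 111)) (XT.lf (nat_lit 0) (nat_lit 32641288667) (nat_lit 304) (nat_lit 12942414625) (nat_lit 76) (nat_lit 5546439013) (nat_lit 32) (nat_lit 5) (nat_lit 36) (nat_lit 5) (nat_lit 33) (nat_lit 5) (nat_lit 370) (nat_lit 300) (nat_lit 110))) (XT.nd (nat_lit 78) (nat_lit 0) (nat_lit 0) (XT.lf (nat_lit 0) (nat_lit 2880076309) (nat_lit 152) (nat_lit 36135916932) (nat_lit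 228) (nat_lit 13310757209) (nat_lit 30) (nat_lit 5) (nat_lit 32) (nat_lit 5) (nat_lit 33) (nat_lit 5) (nat_lit 371) (nat_lit 300) (nat_lit 109)) (XT.nd (nat_lit 78) (nat_lit 0) (nat_lit 0) (XT.lf (nat_lit 0) (nat_lit 19439165535) (nat_lit 152) (nat_lit 26271212639) (nat_lit 228) (nat_lit 7845029613) (nat_lit 30) (nat_lit 5) (nat_lit 32) (nat_lit 5) (nat_lit 33) (nat_lit 5) (nat_lit 372) (nat_lit 300) (nat_lit 108)) (XT.lf (nat_lit 0) (nat_lit 36491742730) (nat_lit 152) (nat_lit 16111663779) (nat_lit 228) (nat_lit 2217587983) (nat_lit 30) (nat_lit 5) (nat_lit 32) (nat_lit 5) (nat_lit 33) (nat_lit 5) (nat_lit 373) (nat_lit 300) (nat_lit 107))))) (XT.nd (nat_lit 234) (nat_lit 152) (nat_lit 0) (XT.nd (nat_lit 78) (nat_lit 228) (nat_lit 0) (XT.lf (nat_lit 0) (nat_lit 3506694760) (nat_lit 228) (nat_lit 2106287576) (nat_lit 76) (nat_lit 50510602703) (nat_lit 29) (nat_lit 5) (nat_lit 32) (nat_lit 5)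 (nat_lit 30) (nat_lit 5) (nat_lit 374) (nat_lit 300) (nat_lit 106)) (XT.nd (nat_lit 78) (nat_lit 0) (nat_lit 0) (XT.lf (nat_lit 0) (nat_lit 9550586463) (nat_lit 304) (nat_lit 42643583429) (nat_lit 76) (nat_lit 5264654833) (nat_lit 26) (nat_lit 5) (nat_lit 30) (nat_lit 5) (nat_lit 27) (nat_lit 5) (nat_lit 375) (nat_lit 300) (nat_lit 105)) (XT.lf (nat_lit 0) (nat_lit 15850783039) (nat_lit 304) (nat_lit 26604840966) (nat_lit 76) (nat_lit 16376251512) (nat_lit 26) (nat_lit 5) (nat_lit 30) (nat_lit 5) (nat_lit 27) (nat_lit 5) (nat_lit 376) (nat_lit 300) (nat_lit 104)))) (XT.nd (nat_lit 78) (nat_lit 152) (nat_lit 0) (XT.lf (nat_lit 0) (nat_lit 22337979764) (nat_lit 304) (nat_lit 10088009666) (nat_lit 76) (nat_lit 27820192029) (nat_lit 26) (nat_lit 5) (nat_lit 30) (nat_lit 5) (nat_lit 27) (nat_lit 5) (nat_lit 377) (nat_lit 300) (nat_lit 103)) (XT.nd (nat_lit 78) (nat_lit 0) (nat_lit 0) (XT.lf (nat_lit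 0) (nat_lit 7059090941) (nat_lit 152) (nat_lit 22026610419) (nat_lit 228) (nat_lit 32615241304) (nat_lit 24) (nat_lit 5) (nat_lit 26) (nat_lit 5) (nat_lit 27) (nat_lit 5) (nat_lit 378) (nat_lit 300) (nat_lit 102)) (XT.lf (nat_lit 0) (nat_lit 24924444209) (nat_lit 152) (nat_lit 11211360500) (nat_lit 228) (nat_lit 27060546751) (nat_lit 24) (nat_lit 5) (nat_lit 26) (nat_lit 5) (nat_lit 27) (nat_lit 5) (nat_lit 379) (nat_lit 300) (nat_lit 101))))))))
noncomputable def xc213 : XT := (XT.nd (nat_lit 36114) (nat_lit 0) (nat_lit 3496) (XT.nd (nat_lit 35256) (nat_lit 0) (nat_lit 7600) (XT.nd (nat_lit 34788) (nat_lit 0) (nat_lit 8436) (XT.nd (nat_lit 34554) (nat_lit 0) (nat_lit 9272) (XT.nd (nat_lit 34476) (nat_lit 0) (nat_lit 9272) (XT.lf (nat_lit 0) (nat_lit 43322889467) (nat_lit 152) (nat_lit 72658571) (nat_lit 228) (nat_lit 21341133536) (nat_lit 24) (nat_lit 5) (nat_lit 26) (nat_lit 5) (nat_lit 27)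 (nat_lit 5) (nat_lit 380) (nat_lit 300) (nat_lit 100)) (XT.lf (nat_lit 0) (nat_lit 2573287327) (nat_lit 0) (nat_lit 2573287327) (nat_lit 988) (nat_lit 1895875910) (nat_lit 146) (nat_lit 5) (nat_lit 146) (nat_lit 3) (nat_lit 159) (nat_lit 3) (nat_lit 301) (nat_lit 301) (nat_lit 178))) (XT.nd (nat_lit 78) (nat_lit 0) (nat_lit 0) (XT.lf (nat_lit 0) (nat_lit 10747882644) (nat_lit 988) (nat_lit 3324898564) (nat_lit 1064) (nat_lit 213441361) (nat_lit 146) (nat_lit 5) (nat_lit 159) (nat_lit 3) (nat_lit 160) (nat_lit 5) (nat_lit 302) (nat_lit 301) (nat_lit 177)) (XT.nd (nat_lit 78) (nat_lit 0) (nat_lit 0) (XT.lf (nat_lit 76) (nat_lit 2447473316) (nat_lit 0) (nat_lit 8831683791) (nat_lit 1064) (nat_lit 3212576337) (nat_lit 147) (nat_lit 5) (nat_lit 146) (nat_lit 5) (nat_lit 160) (nat_lit 5) (nat_lit 303) (nat_lit 301) (nat_lit 176)) (XT.lf (nat_lit 76) (nat_lit 8454973204) (nat_lit 0) (nat_lit 3393665677)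 (nat_lit 1064) (nat_lit 2854138384) (nat_lit 147) (nat_lit 5) (nat_lit 146) (nat_lit 5) (nat_lit 160) (nat_lit 5) (nat_lit 304) (nat_lit 301) (nat_lit 175))))) (XT.nd (nat_lit 234) (nat_lit 912) (nat_lit 0) (XT.nd (nat_lit 78) (nat_lit 0) (nat_lit 0) (XT.lf (nat_lit 0) (nat_lit 12445495946) (nat_lit 988) (nat_lit 305105404) (nat_lit 1064) (nat_lit 2169276977) (nat_lit 147) (nat_lit 5) (nat_lit 160) (nat_lit 5) (nat_lit 161) (nat_lit 5) (nat_lit 305) (nat_lit 301) (nat_lit 174)) (XT.nd (nat_lit 78) (nat_lit 0) (nat_lit 0) (XT.lf (nat_lit 76) (nat_lit 5890983876) (nat_lit 0) (nat_lit 7248892622) (nat_lit 1064) (nat_lit 2001261035) (nat_lit 148) (nat_lit 5) (nat_lit 147) (nat_lit 5) (nat_lit 161) (nat_lit 5) (nat_lit 306) (nat_lit 301) (nat_lit 173)) (XT.lf (nat_lit 76) (nat_lit 12273027415) (nat_lit 0) (nat_lit 1574781017) (nat_lit 1064) (nat_lit 1521477149) (nat_lit 148) (nat_lit 5) (nat_lit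 147) (nat_lit 5) (nat_lit 161) (nat_lit 5) (nat_lit 307) (nat_lit 301) (nat_lit 172)))) (XT.nd (nat_lit 78) (nat_lit 988) (nat_lit 0) (XT.lf (nat_lit 76) (nat_lit 3258420970) (nat_lit 0) (nat_lit 11380900622) (nat_lit 1064) (nat_lit 963117891) (nat_lit 149) (nat_lit 5) (nat_lit 148) (nat_lit 5) (nat_lit 162) (nat_lit 5) (nat_lit 308) (nat_lit 301) (nat_lit 171)) (XT.nd (nat_lit 78) (nat_lit 988) (nat_lit 0) (XT.lf (nat_lit 76) (nat_lit 9844995854) (nat_lit 0) (nat_lit 5646500398) (nat_lit 1064) (nat_lit 350015056) (nat_lit 149) (nat_lit 5) (nat_lit 148) (nat_lit 5) (nat_lit 162) (nat_lit 5) (nat_lit 309) (nat_lit 301) (nat_lit 170)) (XT.lf (nat_lit 0) (nat_lit 274188597) (nat_lit 1064) (nat_lit 15547491535) (nat_lit 1140) (nat_lit 266076991) (nat_lit 135) (nat_lit 5) (nat_lit 149) (nat_lit 5) (nat_lit 150) (nat_lit 5) (nat_lit 310) (nat_lit 301) (nat_lit 169)))))) (XT.nd (nat_lit 390) (nat_lit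 836) (nat_lit 0) (XT.nd (nat_lit 156) (nat_lit 0) (nat_lit 76) (XT.nd (nat_lit 78) (nat_lit 0) (nat_lit 0) (XT.lf (nat_lit 0) (nat_lit 1017764547) (nat_lit 1064) (nat_lit 9010099530) (nat_lit 1140) (nat_lit 6310220012) (nat_lit 135) (nat_lit 5) (nat_lit 149) (nat_lit 5) (nat_lit 150) (nat_lit 5) (nat_lit 311) (nat_lit 301) (nat_lit 168)) (XT.lf (nat_lit 0) (nat_lit 1774543518) (nat_lit 1064) (nat_lit 2283020312) (nat_lit 1140) (nat_lit 12538657517) (nat_lit 135) (nat_lit 5) (nat_lit 149) (nat_lit 5) (nat_lit 150) (nat_lit 5) (nat_lit 312) (nat_lit 301) (nat_lit 167))) (XT.nd (nat_lit 78) (nat_lit 0) (nat_lit 0) (XT.lf (nat_lit 0) (nat_lit 2611256660) (nat_lit 1064) (nat_lit 12149651469) (nat_lit 1140) (nat_lit 2099504229) (nat_lit 136) (nat_lit 5) (nat_lit 150) (nat_lit 5) (nat_lit 151) (nat_lit 5) (nat_lit 313) (nat_lit 301) (nat_lit 166)) (XT.nd (nat_lit 78) (nat_lit 0) (nat_lit 0) (XT.lf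 (nat_lit 0) (nat_lit 3527909884) (nat_lit 1064) (nat_lit 5217578936) (nat_lit 1140) (nat_lit 8385420903) (nat_lit 136) (nat_lit 5) (nat_lit 150) (nat_lit 5) (nat_lit 151) (nat_lit 5) (nat_lit 314) (nat_lit 301) (nat_lit 165)) (XT.lf (nat_lit 76) (nat_lit 1954285577) (nat_lit 0) (nat_lit 2528196414) (nat_lit 1140) (nat_lit 12926752473) (nat_lit 137) (nat_lit 5) (nat_lit 136) (nat_lit 5) (nat_lit 151) (nat_lit 5) (nat_lit 315) (nat_lit 301) (nat_lit 164))))) (XT.nd (nat_lit 234) (nat_lit 988) (nat_lit 0) (XT.nd (nat_lit 78) (nat_lit 0) (nat_lit 0) (XT.lf (nat_lit 0) (nat_lit 5547990824) (nat_lit 1064) (nat_lit 8290375447) (nat_lit 1140) (nat_lit 3855097996) (nat_lit 137) (nat_lit 5) (nat_lit 151) (nat_lit 5) (nat_lit 152) (nat_lit 5) (nat_lit 316) (nat_lit 301) (nat_lit 163)) (XT.nd (nat_lit 78) (nat_lit 0) (nat_lit 0) (XT.lf (nat_lit 0) (nat_lit 6662570168) (nat_lit 1064) (nat_lit 942238160)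 (nat_lit 1140) (nat_lit 10380923075) (nat_lit 137) (nat_lit 5) (nat_lit 151) (nat_lit 5) (nat_lit 152) (nat_lit 5) (nat_lit 317) (nat_lit 301) (nat_lit 162)) (XT.lf (nat_lit 76) (nat_lit 6751940933) (nat_lit 0) (nat_lit 1115854211) (nat_lit 1140) (nat_lit 10417278070) (nat_lit 138) (nat_lit 5) (nat_lit 137) (nat_lit 5) (nat_lit 152) (nat_lit 5) (nat_lit 318) (nat_lit 301) (nat_lit 161)))) (XT.nd (nat_lit 78) (nat_lit 1064) (nat_lit 0) (XT.lf (nat_lit 0) (nat_lit 9164790413) (nat_lit 1064) (nat_lit 3956823040) (nat_lit 76) (nat_lit 5470135664) (nat_lit 138) (nat_lit 5) (nat_lit 152) (nat_lit 5) (nat_lit 139) (nat_lit 5) (nat_lit 319) (nat_lit 301) (nat_lit 160)) (XT.nd (nat_lit 78) (nat_lit 0) (nat_lit 0) (XT.lf (nat_lit 0) (nat_lit 3905769695) (nat_lit 1064) (nat_lit 6636221253) (nat_lit 1140) (nat_lit 8364417081) (nat_lit 124) (nat_lit 5) (nat_lit 138) (nat_lit 5) (nat_lit 139) (nat_lit 5)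 (nat_lit 320) (nat_lit 301) (nat_lit 159)) (XT.lf (nat_lit 0) (nat_lit 11994146035) (nat_lit 1140) (nat_lit 7151130821) (nat_lit 76) (nat_lit 84241661) (nat_lit 124) (nat_lit 5) (nat_lit 139) (nat_lit 5) (nat_lit 125) (nat_lit 5) (nat_lit 321) (nat_lit 301) (nat_lit 158))))))) (XT.nd (nat_lit 858) (nat_lit 1596) (nat_lit 0) (XT.nd (nat_lit 390) (nat_lit 1520) (nat_lit 0) (XT.nd (nat_lit 156) (nat_lit 456) (nat_lit 0) (XT.nd (nat_lit 78) (nat_lit 0) (nat_lit 0) (XT.lf (nat_lit 0) (nat_lit 879139099) (nat_lit 532) (nat_lit 12677956823) (nat_lit 608) (nat_lit 6003229848) (nat_lit 117) (nat_lit 5) (nat_lit 124) (nat_lit 5) (nat_lit 125) (nat_lit 5) (nat_lit 322) (nat_lit 301) (nat_lit 157)) (XT.lf (nat_lit 0) (nat_lit 9290795979) (nat_lit 532) (nat_lit 5941567861) (nat_lit 608) (nat_lit 4666750278) (nat_lit 117) (nat_lit 5) (nat_lit 124) (nat_lit 5) (nat_lit 125) (nat_lit 5) (nat_lit 323) (nat_lit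 301) (nat_lit 156))) (XT.nd (nat_lit 78) (nat_lit 456) (nat_lit 0) (XT.lf (nat_lit 0) (nat_lit 16960893682) (nat_lit 608) (nat_lit 2309003771) (nat_lit 76) (nat_lit 978097733) (nat_lit 117) (nat_lit 5) (nat_lit 125) (nat_lit 5) (nat_lit 118) (nat_lit 5) (nat_lit 324) (nat_lit 301) (nat_lit 155)) (XT.nd (nat_lit 78) (nat_lit 0) (nat_lit 0) (XT.lf (nat_lit 0) (nat_lit 6297369028) (nat_lit 456) (nat_lit 12556884531) (nat_lit 532) (nat_lit 1749718530) (nat_lit 111) (nat_lit 5) (nat_lit 117) (nat_lit 5) (nat_lit 118) (nat_lit 5) (nat_lit 325) (nat_lit 301) (nat_lit 154)) (XT.lf (nat_lit 0) (nat_lit 15203345987) (nat_lit 456) (nat_lit 5618126371) (nat_lit 532) (nat_lit 148662282) (nat_lit 111) (nat_lit 5) (nat_lit 117) (nat_lit 5) (nat_lit 118) (nat_lit 5) (nat_lit 326) (nat_lit 301) (nat_lit 153))))) (XT.nd (nat_lit 234) (nat_lit 912) (nat_lit 0) (XT.nd (nat_lit 78) (nat_lit 0) (nat_lit 0) (XT.lf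 (nat_lit 0) (nat_lit 1509625836) (nat_lit 608) (nat_lit 18292505245) (nat_lit 76) (nat_lit 1543580979) (nat_lit 103) (nat_lit 5) (nat_lit 111) (nat_lit 5) (nat_lit 104) (nat_lit 5) (nat_lit 327) (nat_lit 301) (nat_lit 152)) (XT.nd (nat_lit 78) (nat_lit 0) (nat_lit 0) (XT.lf (nat_lit 0) (nat_lit 3323081224) (nat_lit 608) (nat_lit 9538495749) (nat_lit 76) (nat_lit 8867700023) (nat_lit 103) (nat_lit 5) (nat_lit 111) (nat_lit 5) (nat_lit 104) (nat_lit 5) (nat_lit 328) (nat_lit 301) (nat_lit 151)) (XT.lf (nat_lit 0) (nat_lit 5185087606) (nat_lit 608) (nat_lit 527718516) (nat_lit 76) (nat_lit 16411734406) (nat_lit 103) (nat_lit 5) (nat_lit 111) (nat_lit 5) (nat_lit 104) (nat_lit 5) (nat_lit 329) (nat_lit 301) (nat_lit 150)))) (XT.nd (nat_lit 78) (nat_lit 456) (nat_lit 0) (XT.lf (nat_lit 0) (nat_lit 7199747792) (nat_lit 532) (nat_lit 13624192903) (nat_lit 76) (nat_lit 1704833064) (nat_lit 97) (nat_lit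 5) (nat_lit 104) (nat_lit 5) (nat_lit 98) (nat_lit 5) (nat_lit 330) (nat_lit 301) (nat_lit 149)) (XT.nd (nat_lit 78) (nat_lit 456) (nat_lit 0) (XT.lf (nat_lit 0) (nat_lit 9331220586) (nat_lit 532) (nat_lit 4376730508) (nat_lit 76) (nat_lit 9235506856) (nat_lit 97) (nat_lit 5) (nat_lit 104) (nat_lit 5) (nat_lit 98) (nat_lit 5) (nat_lit 331) (nat_lit 301) (nat_lit 148)) (XT.lf (nat_lit 0) (nat_lit 5244862980) (nat_lit 456) (nat_lit 6326782366) (nat_lit 532) (nat_lit 11797601790) (nat_lit 91) (nat_lit 5) (nat_lit 97) (nat_lit 5) (nat_lit 98) (nat_lit 5) (nat_lit 332) (nat_lit 301) (nat_lit 147)))))) (XT.nd (nat_lit 390) (nat_lit 836) (nat_lit 0) (XT.nd (nat_lit 156) (nat_lit 380) (nat_lit 0) (XT.nd (nat_lit 78) (nat_lit 380) (nat_lit 0) (XT.lf (nat_lit 0) (nat_lit 13930872957) (nat_lit 532) (nat_lit 8580117130) (nat_lit 76) (nat_lit 1295286485) (nat_lit 91) (nat_lit 5) (nat_lit 98) (nat_lit 5)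 (nat_lit 92) (nat_lit 5) (nat_lit 333) (nat_lit 301) (nat_lit 146)) (XT.lf (nat_lit 0) (nat_lit 1205778772) (nat_lit 380) (nat_lit 15224177461) (nat_lit 456) (nat_lit 7824402153) (nat_lit 86) (nat_lit 5) (nat_lit 91) (nat_lit 5) (nat_lit 92) (nat_lit 5) (nat_lit 334) (nat_lit 301) (nat_lit 145))) (XT.nd (nat_lit 78) (nat_lit 380) (nat_lit 0) (XT.lf (nat_lit 0) (nat_lit 11455603501) (nat_lit 380) (nat_lit 7629994528) (nat_lit 456) (nat_lit 5627850503) (nat_lit 86) (nat_lit 5) (nat_lit 91) (nat_lit 5) (nat_lit 92) (nat_lit 5) (nat_lit 335) (nat_lit 301) (nat_lit 144)) (XT.nd (nat_lit 78) (nat_lit 380) (nat_lit 0) (XT.lf (nat_lit 0) (nat_lit 21817841329) (nat_lit 456) (nat_lit 3180760974) (nat_lit 76) (nat_lit 187814176) (nat_lit 86) (nat_lit 5) (nat_lit 92) (nat_lit 5) (nat_lit 87) (nat_lit 5) (nat_lit 336) (nat_lit 301) (nat_lit 143)) (XT.lf (nat_lit 0) (nat_lit 7259381957) (nat_lit 380) (nat_lit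 17513225696) (nat_lit 456) (nat_lit 896761825) (nat_lit 81) (nat_lit 5) (nat_lit 86) (nat_lit 5) (nat_lit 87) (nat_lit 5) (nat_lit 337) (nat_lit 301) (nat_lit 142))))) (XT.nd (nat_lit 234) (nat_lit 380) (nat_lit 0) (XT.nd (nat_lit 78) (nat_lit 380) (nat_lit 0) (XT.lf (nat_lit 0) (nat_lit 1644720456) (nat_lit 456) (nat_lit 8109506553) (nat_lit 76) (nat_lit 16411289523) (nat_lit 80) (nat_lit 5) (nat_lit 86) (nat_lit 5) (nat_lit 81) (nat_lit 5) (nat_lit 338) (nat_lit 301) (nat_lit 141)) (XT.nd (nat_lit 78) (nat_lit 0) (nat_lit 0) (XT.lf (nat_lit 0) (nat_lit 2535321579) (nat_lit 380) (nat_lit 1728869789) (nat_lit 456) (nat_lit 22411508828) (nat_lit 75) (nat_lit 5) (nat_lit 80) (nat_lit 5) (nat_lit 81) (nat_lit 5) (nat_lit 339) (nat_lit 301) (nat_lit 140)) (XT.lf (nat_lit 0) (nat_lit 7103261809) (nat_lit 456) (nat_lit 13602002293) (nat_lit 76) (nat_lit 6491706076) (nat_lit 75) (nat_lit 5) (nat_lit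 81) (nat_lit 5) (nat_lit 76) (nat_lit 5) (nat_lit 340) (nat_lit 301) (nat_lit 139)))) (XT.nd (nat_lit 78) (nat_lit 380) (nat_lit 0) (XT.lf (nat_lit 0) (nat_lit 10040228159) (nat_lit 456) (nat_lit 2769786664) (nat_lit 76) (nat_lit 14923492664) (nat_lit 75) (nat_lit 5) (nat_lit 81) (nat_lit 5) (nat_lit 76) (nat_lit 5) (nat_lit 341) (nat_lit 301) (nat_lit 138)) (XT.nd (nat_lit 78) (nat_lit 0) (nat_lit 0) (XT.lf (nat_lit 0) (nat_lit 8549177511) (nat_lit 380) (nat_lit 4594040159) (nat_lit 456) (nat_lit 15140596443) (nat_lit 70) (nat_lit 5) (nat_lit 75) (nat_lit 5) (nat_lit 76) (nat_lit 5) (nat_lit 342) (nat_lit 301) (nat_lit 137)) (XT.lf (nat_lit 0) (nat_lit 16400531526) (nat_lit 456) (nat_lit 8627886809) (nat_lit 76) (nat_lit 3820384878) (nat_lit 70) (nat_lit 5) (nat_lit 76) (nat_lit 5) (nat_lit 71) (nat_lit 5) (nat_lit 343) (nat_lit 301) (nat_lit 136))))))))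
noncomputable def xc214 : XT := (XT.nd (nat_lit 1716) (nat_lit 1140) (nat_lit 0) (XT.nd (nat_lit 858) (nat_lit 1064) (nat_lit 0) (XT.nd (nat_lit 390) (nat_lit 608) (nat_lit 0) (XT.nd (nat_lit 156) (nat_lit 380) (nat_lit 0) (XT.nd (nat_lit 78) (nat_lit 0) (nat_lit 0) (XT.lf (nat_lit 0) (nat_lit 2816568520) (nat_lit 304) (nat_lit 17007481411) (nat_lit 380) (nat_lit 9604647513) (nat_lit 66) (nat_lit 5) (nat_lit 70) (nat_lit 5) (nat_lit 71) (nat_lit 5) (nat_lit 344) (nat_lit 301) (nat_lit 135)) (XT.lf (nat_lit 0) (nat_lit 14776296674) (nat_lit 304) (nat_lit 8657098317) (nat_lit 380) (nat_lit 6590109598) (nat_lit 66) (nat_lit 5) (nat_lit 70) (nat_lit 5) (nat_lit 71) (nat_lit 5) (nat_lit 345) (nat_lit 301) (nat_lit 134))) (XT.nd (nat_lit 78) (nat_lit 380) (nat_lit 0) (XT.lf (nat_lit 0) (nat_lit 27090036037) (nat_lit 304) (nat_lit 57097343) (nat_lit 380) (nat_lit 3489148619) (nat_lit 66) (nat_lit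 5) (nat_lit 70) (nat_lit 5) (nat_lit 71) (nat_lit 5) (nat_lit 346) (nat_lit 301) (nat_lit 133)) (XT.nd (nat_lit 78) (nat_lit 76) (nat_lit 0) (XT.lf (nat_lit 0) (nat_lit 8583892403) (nat_lit 304) (nat_lit 22551722663) (nat_lit 380) (nat_lit 126936896) (nat_lit 62) (nat_lit 5) (nat_lit 66) (nat_lit 5) (nat_lit 67) (nat_lit 5) (nat_lit 347) (nat_lit 301) (nat_lit 132)) (XT.lf (nat_lit 0) (nat_lit 3304008273) (nat_lit 380) (nat_lit 10793687473) (nat_lit 76) (nat_lit 17807971826) (nat_lit 61) (nat_lit 5) (nat_lit 66) (nat_lit 5) (nat_lit 62) (nat_lit 5) (nat_lit 348) (nat_lit 301) (nat_lit 131))))) (XT.nd (nat_lit 234) (nat_lit 304) (nat_lit 0) (XT.nd (nat_lit 78) (nat_lit 0) (nat_lit 0) (XT.lf (nat_lit 0) (nat_lit 1470621340) (nat_lit 304) (nat_lit 5375192477) (nat_lit 380) (nat_lit 25721919016) (nat_lit 57) (nat_lit 5) (nat_lit 61) (nat_lit 5) (nat_lit 62) (nat_lit 5) (nat_lit 349) (nat_lit 301)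 (nat_lit 130)) (XT.nd (nat_lit 78) (nat_lit 0) (nat_lit 0) (XT.lf (nat_lit 0) (nat_lit 10635038711) (nat_lit 380) (nat_lit 18962754954) (nat_lit 76) (nat_lit 3647639574) (nat_lit 57) (nat_lit 5) (nat_lit 62) (nat_lit 5) (nat_lit 58) (nat_lit 5) (nat_lit 350) (nat_lit 301) (nat_lit 129)) (XT.lf (nat_lit 0) (nat_lit 14587664121) (nat_lit 380) (nat_lit 6522163410) (nat_lit 76) (nat_lit 12832153317) (nat_lit 57) (nat_lit 5) (nat_lit 62) (nat_lit 5) (nat_lit 58) (nat_lit 5) (nat_lit 351) (nat_lit 301) (nat_lit 128)))) (XT.nd (nat_lit 78) (nat_lit 0) (nat_lit 0) (XT.lf (nat_lit 0) (nat_lit 6412330867) (nat_lit 304) (nat_lit 12304782540) (nat_lit 380) (nat_lit 15940571799) (nat_lit 53) (nat_lit 5) (nat_lit 57) (nat_lit 5) (nat_lit 58) (nat_lit 5) (nat_lit 352) (nat_lit 301) (nat_lit 127)) (XT.nd (nat_lit 78) (nat_lit 0) (nat_lit 0) (XT.lf (nat_lit 0) (nat_lit 19864158799) (nat_lit 304) (nat_lit 3168810872)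 (nat_lit 380) (nat_lit 12360022770) (nat_lit 53) (nat_lit 5) (nat_lit 57) (nat_lit 5) (nat_lit 58) (nat_lit 5) (nat_lit 353) (nat_lit 301) (nat_lit 126)) (XT.lf (nat_lit 0) (nat_lit 27535045980) (nat_lit 380) (nat_lit 2495177475) (nat_lit 76) (nat_lit 6118440339) (nat_lit 53) (nat_lit 5) (nat_lit 58) (nat_lit 5) (nat_lit 54) (nat_lit 5) (nat_lit 354) (nat_lit 301) (nat_lit 125)))))) (XT.nd (nat_lit 390) (nat_lit 456) (nat_lit 0) (XT.nd (nat_lit 156) (nat_lit 380) (nat_lit 0) (XT.nd (nat_lit 78) (nat_lit 0) (nat_lit 0) (XT.lf (nat_lit 0) (nat_lit 11110685111) (nat_lit 228) (nat_lit 21196520943) (nat_lit 304) (nat_lit 4615755615) (nat_lit 50) (nat_lit 5) (nat_lit 53) (nat_lit 5) (nat_lit 54) (nat_lit 5) (nat_lit 355) (nat_lit 301) (nat_lit 124)) (XT.lf (nat_lit 0) (nat_lit 25171675436) (nat_lit 228) (nat_lit 12072947871) (nat_lit 304) (nat_lit 475209220) (nat_lit 50) (nat_lit 5) (nat_lit 53)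 (nat_lit 5) (nat_lit 54) (nat_lit 5) (nat_lit 356) (nat_lit 301) (nat_lit 123))) (XT.nd (nat_lit 78) (nat_lit 0) (nat_lit 0) (XT.lf (nat_lit 0) (nat_lit 1094677838) (nat_lit 304) (nat_lit 2628400657) (nat_lit 380) (nat_lit 34816220434) (nat_lit 45) (nat_lit 5) (nat_lit 49) (nat_lit 5) (nat_lit 50) (nat_lit 5) (nat_lit 357) (nat_lit 301) (nat_lit 122)) (XT.nd (nat_lit 78) (nat_lit 0) (nat_lit 0) (XT.lf (nat_lit 0) (nat_lit 8230963425) (nat_lit 380) (nat_lit 24053916215) (nat_lit 76) (nat_lit 7092538778) (nat_lit 45) (nat_lit 5) (nat_lit 50) (nat_lit 5) (nat_lit 46) (nat_lit 5) (nat_lit 358) (nat_lit 301) (nat_lit 121)) (XT.lf (nat_lit 0) (nat_lit 12897185262) (nat_lit 380) (nat_lit 10291578807) (nat_lit 76) (nat_lit 17051230470) (nat_lit 45) (nat_lit 5) (nat_lit 50) (nat_lit 5) (nat_lit 46) (nat_lit 5) (nat_lit 359) (nat_lit 301) (nat_lit 120))))) (XT.nd (nat_lit 234) (nat_lit 228) (nat_lit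 0) (XT.nd (nat_lit 78) (nat_lit 0) (nat_lit 0) (XT.lf (nat_lit 0) (nat_lit 3956895552) (nat_lit 228) (nat_lit 13781696039) (nat_lit 304) (nat_lit 23388806299) (nat_lit 42) (nat_lit 5) (nat_lit 45) (nat_lit 5) (nat_lit 46) (nat_lit 5) (nat_lit 360) (nat_lit 301) (nat_lit 119)) (XT.nd (nat_lit 78) (nat_lit 0) (nat_lit 0) (XT.lf (nat_lit 0) (nat_lit 18839883657) (nat_lit 228) (nat_lit 3986488062) (nat_lit 304) (nat_lit 19212023384) (nat_lit 42) (nat_lit 5) (nat_lit 45) (nat_lit 5) (nat_lit 46) (nat_lit 5) (nat_lit 361) (nat_lit 301) (nat_lit 118)) (XT.lf (nat_lit 0) (nat_lit 28122724741) (nat_lit 304) (nat_lit 8869892964) (nat_lit 76) (nat_lit 5982431887) (nat_lit 42) (nat_lit 5) (nat_lit 46) (nat_lit 5) (nat_lit 43) (nat_lit 5) (nat_lit 362) (nat_lit 301) (nat_lit 117)))) (XT.nd (nat_lit 78) (nat_lit 0) (nat_lit 0) (XT.lf (nat_lit 0) (nat_lit 5961690233) (nat_lit 228) (nat_lit 27710412793) (nat_lit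 304) (nat_lit 10264882033) (nat_lit 39) (nat_lit 5) (nat_lit 42) (nat_lit 5) (nat_lit 43) (nat_lit 5) (nat_lit 363) (nat_lit 301) (nat_lit 116)) (XT.nd (nat_lit 78) (nat_lit 0) (nat_lit 0) (XT.lf (nat_lit 0) (nat_lit 21416324169) (nat_lit 228) (nat_lit 18058605311) (nat_lit 304) (nat_lit 5450245331) (nat_lit 39) (nat_lit 5) (nat_lit 42) (nat_lit 5) (nat_lit 43) (nat_lit 5) (nat_lit 364) (nat_lit 301) (nat_lit 115)) (XT.lf (nat_lit 0) (nat_lit 37330984629) (nat_lit 228) (nat_lit 8118330169) (nat_lit 304) (nat_lit 493776309) (nat_lit 39) (nat_lit 5) (nat_lit 42) (nat_lit 5) (nat_lit 43) (nat_lit 5) (nat_lit 365) (nat_lit 301) (nat_lit 114))))))) (XT.nd (nat_lit 858) (nat_lit 152) (nat_lit 0) (XT.nd (nat_lit 390) (nat_lit 456) (nat_lit 0) (XT.nd (nat_lit 156) (nat_lit 228) (nat_lit 0) (XT.nd (nat_lit 78) (nat_lit 0) (nat_lit 0) (XT.lf (nat_lit 0) (nat_lit 4605904025) (nat_lit 304) (nat_lit 40193117146)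 (nat_lit 76) (nat_lit 2188663620) (nat_lit 35) (nat_lit 5) (nat_lit 39) (nat_lit 5) (nat_lit 36) (nat_lit 5) (nat_lit 366) (nat_lit 301) (nat_lit 113)) (XT.lf (nat_lit 0) (nat_lit 10014402786) (nat_lit 304) (nat_lit 25310749063) (nat_lit 76) (nat_lit 12733349839) (nat_lit 35) (nat_lit 5) (nat_lit 39) (nat_lit 5) (nat_lit 36) (nat_lit 5) (nat_lit 367) (nat_lit 301) (nat_lit 112))) (XT.nd (nat_lit 78) (nat_lit 228) (nat_lit 0) (XT.lf (nat_lit 0) (nat_lit 15582774465) (nat_lit 304) (nat_lit 9985399305) (nat_lit 76) (nat_lit 23593345292) (nat_lit 35) (nat_lit 5) (nat_lit 39) (nat_lit 5) (nat_lit 36) (nat_lit 5) (nat_lit 368) (nat_lit 301) (nat_lit 111)) (XT.nd (nat_lit 78) (nat_lit 0) (nat_lit 0) (XT.lf (nat_lit 0) (nat_lit 5911681405) (nat_lit 228) (nat_lit 15461029920) (nat_lit 304) (nat_lit 28923284587) (nat_lit 32) (nat_lit 5) (nat_lit 35) (nat_lit 5) (nat_lit 36) (nat_lit 5) (nat_lit 369)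 (nat_lit 301) (nat_lit 110)) (XT.lf (nat_lit 0) (nat_lit 22487010911) (nat_lit 228) (nat_lit 4947890782) (nat_lit 304) (nat_lit 24026652962) (nat_lit 32) (nat_lit 5) (nat_lit 35) (nat_lit 5) (nat_lit 36) (nat_lit 5) (nat_lit 370) (nat_lit 301) (nat_lit 109))))) (XT.nd (nat_lit 234) (nat_lit 304) (nat_lit 0) (XT.nd (nat_lit 78) (nat_lit 152) (nat_lit 0) (XT.lf (nat_lit 0) (nat_lit 33733264838) (nat_lit 304) (nat_lit 13162325422) (nat_lit 76) (nat_lit 5764864813) (nat_lit 32) (nat_lit 5) (nat_lit 36) (nat_lit 5) (nat_lit 33) (nat_lit 5) (nat_lit 371) (nat_lit 301) (nat_lit 108)) (XT.nd (nat_lit 78) (nat_lit 0) (nat_lit 0) (XT.lf (nat_lit 0) (nat_lit 3133189636) (nat_lit 152) (nat_lit 37164339824) (nat_lit 228) (nat_lit 13595488531) (nat_lit 30) (nat_lit 5) (nat_lit 32) (nat_lit 5) (nat_lit 33) (nat_lit 5) (nat_lit 372) (nat_lit 301) (nat_lit 107)) (XT.lf (nat_lit 0) (nat_lit 20184195878) (nat_lit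 152) (nat_lit 27005315411) (nat_lit 228) (nat_lit 7969126721) (nat_lit 30) (nat_lit 5) (nat_lit 32) (nat_lit 5) (nat_lit 33) (nat_lit 5) (nat_lit 373) (nat_lit 301) (nat_lit 106)))) (XT.nd (nat_lit 78) (nat_lit 304) (nat_lit 0) (XT.lf (nat_lit 0) (nat_lit 37743636154) (nat_lit 152) (nat_lit 16542553880) (nat_lit 228) (nat_lit 2176102244) (nat_lit 30) (nat_lit 5) (nat_lit 32) (nat_lit 5) (nat_lit 33) (nat_lit 5) (nat_lit 374) (nat_lit 301) (nat_lit 105)) (XT.nd (nat_lit 78) (nat_lit 228) (nat_lit 0) (XT.lf (nat_lit 0) (nat_lit 3714716621) (nat_lit 228) (nat_lit 2014685038) (nat_lit 76) (nat_lit 52074625691) (nat_lit 29) (nat_lit 5) (nat_lit 32) (nat_lit 5) (nat_lit 30) (nat_lit 5) (nat_lit 375) (nat_lit 301) (nat_lit 104)) (XT.lf (nat_lit 0) (nat_lit 9938903253) (nat_lit 304) (nat_lit 43766902596) (nat_lit 76) (nat_lit 5473554293) (nat_lit 26) (nat_lit 5) (nat_lit 30) (nat_lit 5) (nat_lit 27)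 (nat_lit 5) (nat_lit 376) (nat_lit 301) (nat_lit 103)))))) (XT.nd (nat_lit 34866) (nat_lit 0) (nat_lit 9272) (XT.nd (nat_lit 156) (nat_lit 152) (nat_lit 0) (XT.nd (nat_lit 78) (nat_lit 0) (nat_lit 0) (XT.lf (nat_lit 0) (nat_lit 16425140702) (nat_lit 304) (nat_lit 27251541208) (nat_lit 76) (nat_lit 16917014605) (nat_lit 26) (nat_lit 5) (nat_lit 30) (nat_lit 5) (nat_lit 27) (nat_lit 5) (nat_lit 377) (nat_lit 301) (nat_lit 102)) (XT.lf (nat_lit 0) (nat_lit 23104074663) (nat_lit 304) (nat_lit 10243615988) (nat_lit 76) (nat_lit 28702832302) (nat_lit 26) (nat_lit 5) (nat_lit 30) (nat_lit 5) (nat_lit 27) (nat_lit 5) (nat_lit 378) (nat_lit 301) (nat_lit 101))) (XT.nd (nat_lit 78) (nat_lit 0) (nat_lit 0) (XT.lf (nat_lit 0) (nat_lit 7416456128) (nat_lit 152) (nat_lit 22636376483) (nat_lit 228) (nat_lit 33496141058) (nat_lit 24) (nat_lit 5) (nat_lit 26) (nat_lit 5) (nat_lit 27) (nat_lit 5) (nat_lit 379)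 (nat_lit 301) (nat_lit 100)) (XT.nd (nat_lit 34554) (nat_lit 0) (nat_lit 9272) (XT.lf (nat_lit 0) (nat_lit 25813529437) (nat_lit 152) (nat_lit 11498155442) (nat_lit 228) (nat_lit 27777647148) (nat_lit 24) (nat_lit 5) (nat_lit 26) (nat_lit 5) (nat_lit 27) (nat_lit 5) (nat_lit 380) (nat_lit 301) (nat_lit 99)) (XT.lf (nat_lit 0) (nat_lit 2798174264) (nat_lit 0) (nat_lit 2798174264) (nat_lit 988) (nat_lit 1647581316) (nat_lit 146) (nat_lit 5) (nat_lit 146) (nat_lit 3) (nat_lit 159) (nat_lit 3) (nat_lit 302) (nat_lit 302) (nat_lit 176))))) (XT.nd (nat_lit 234) (nat_lit 0) (nat_lit 76) (XT.nd (nat_lit 78) (nat_lit 0) (nat_lit 0) (XT.lf (nat_lit 0) (nat_lit 11579157157) (nat_lit 0) (nat_lit 62553490) (nat_lit 988) (nat_lit 3054145325) (nat_lit 146) (nat_lit 5) (nat_lit 146) (nat_lit 3) (nat_lit 159) (nat_lit 3) (nat_lit 303) (nat_lit 302) (nat_lit 175)) (XT.nd (nat_lit 78) (nat_lit 0) (nat_lit 0)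 (XT.lf (nat_lit 76) (nat_lit 2826420544) (nat_lit 0) (nat_lit 9348213415) (nat_lit 1064) (nat_lit 2733379658) (nat_lit 147) (nat_lit 5) (nat_lit 146) (nat_lit 5) (nat_lit 160) (nat_lit 5) (nat_lit 304) (nat_lit 302) (nat_lit 174)) (XT.lf (nat_lit 76) (nat_lit 9005246699) (nat_lit 0) (nat_lit 3739727211) (nat_lit 1064) (nat_lit 2380952857) (nat_lit 147) (nat_lit 5) (nat_lit 146) (nat_lit 5) (nat_lit 160) (nat_lit 5) (nat_lit 305) (nat_lit 302) (nat_lit 173)))) (XT.nd (nat_lit 78) (nat_lit 0) (nat_lit 0) (XT.lf (nat_lit 0) (nat_lit 13341703511) (nat_lit 988) (nat_lit 6582828) (nat_lit 1064) (nat_lit 2001845252) (nat_lit 147) (nat_lit 5) (nat_lit 160) (nat_lit 5) (nat_lit 161) (nat_lit 5) (nat_lit 306) (nat_lit 302) (nat_lit 172)) (XT.nd (nat_lit 78) (nat_lit 0) (nat_lit 0) (XT.lf (nat_lit 76) (nat_lit 6372372702) (nat_lit 0) (nat_lit 7672242922) (nat_lit 1064) (nat_lit 1533830231) (nat_lit 148)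 (nat_lit 5) (nat_lit 147) (nat_lit 5) (nat_lit 161) (nat_lit 5) (nat_lit 307) (nat_lit 302) (nat_lit 171)) (XT.lf (nat_lit 76) (nat_lit 12937003974) (nat_lit 0) (nat_lit 1821911361) (nat_lit 1064) (nat_lit 1055015992) (nat_lit 148) (nat_lit 5) (nat_lit 147) (nat_lit 5) (nat_lit 161) (nat_lit 5) (nat_lit 308) (nat_lit 302) (nat_lit 170))))))))
noncomputable def xc215 : XT := (XT.nd (nat_lit 1716) (nat_lit 3800) (nat_lit 0) (XT.nd (nat_lit 858) (nat_lit 2356) (nat_lit 0) (XT.nd (nat_lit 390) (nat_lit 0) (nat_lit 152) (XT.nd (nat_lit 156) (nat_lit 0) (nat_lit 76) (XT.nd (nat_lit 78) (nat_lit 1064) (nat_lit 0) (XT.lf (nat_lit 76) (nat_lit 3667233787) (nat_lit 0) (nat_lit 11893627665) (nat_lit 1064) (nat_lit 493663281) (nat_lit 149) (nat_lit 5) (nat_lit 148) (nat_lit 5) (nat_lit 162) (nat_lit 5) (nat_lit 309) (nat_lit 302) (nat_lit 169)) (XT.lf (nat_lit 0) (nat_lit 120911272) (nat_lit 1064) (nat_lit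 5860073874) (nat_lit 1140) (nat_lit 10320213673) (nat_lit 134) (nat_lit 5) (nat_lit 148) (nat_lit 5) (nat_lit 149) (nat_lit 5) (nat_lit 310) (nat_lit 302) (nat_lit 168))) (XT.nd (nat_lit 78) (nat_lit 0) (nat_lit 0) (XT.lf (nat_lit 0) (nat_lit 744488944) (nat_lit 1064) (nat_lit 15687339213) (nat_lit 1140) (nat_lit 123311052) (nat_lit 135) (nat_lit 5) (nat_lit 149) (nat_lit 5) (nat_lit 150) (nat_lit 5) (nat_lit 311) (nat_lit 302) (nat_lit 167)) (XT.nd (nat_lit 78) (nat_lit 0) (nat_lit 0) (XT.lf (nat_lit 0) (nat_lit 1496913687) (nat_lit 1064) (nat_lit 8963337401) (nat_lit 1140) (nat_lit 6353169090) (nat_lit 135) (nat_lit 5) (nat_lit 149) (nat_lit 5) (nat_lit 150) (nat_lit 5) (nat_lit 312) (nat_lit 302) (nat_lit 166)) (XT.lf (nat_lit 0) (nat_lit 2263329536) (nat_lit 1064) (nat_lit 2043680713) (nat_lit 1140) (nat_lit 12772722560) (nat_lit 135) (nat_lit 5) (nat_lit 149) (nat_lit 5) (nat_lit 150)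 (nat_lit 5) (nat_lit 313) (nat_lit 302) (nat_lit 165))))) (XT.nd (nat_lit 234) (nat_lit 0) (nat_lit 76) (XT.nd (nat_lit 78) (nat_lit 0) (nat_lit 0) (XT.lf (nat_lit 0) (nat_lit 3114225251) (nat_lit 1064) (nat_lit 12194121413) (nat_lit 1140) (nat_lit 2043868567) (nat_lit 136) (nat_lit 5) (nat_lit 150) (nat_lit 5) (nat_lit 151) (nat_lit 5) (nat_lit 314) (nat_lit 302) (nat_lit 164)) (XT.nd (nat_lit 78) (nat_lit 0) (nat_lit 0) (XT.lf (nat_lit 0) (nat_lit 4046010182) (nat_lit 1064) (nat_lit 5063407663) (nat_lit 1140) (nat_lit 8521817716) (nat_lit 136) (nat_lit 5) (nat_lit 150) (nat_lit 5) (nat_lit 151) (nat_lit 5) (nat_lit 315) (nat_lit 302) (nat_lit 163)) (XT.lf (nat_lit 76) (nat_lit 2320566720) (nat_lit 0) (nat_lit 2699602417) (nat_lit 1140) (nat_lit 12898048347) (nat_lit 137) (nat_lit 5) (nat_lit 136) (nat_lit 5) (nat_lit 151) (nat_lit 5) (nat_lit 316) (nat_lit 302) (nat_lit 162)))) (XT.nd (nat_lit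 78) (nat_lit 0) (nat_lit 0) (XT.lf (nat_lit 0) (nat_lit 6105007348) (nat_lit 1064) (nat_lit 8226596252) (nat_lit 1140) (nat_lit 3879784539) (nat_lit 137) (nat_lit 5) (nat_lit 151) (nat_lit 5) (nat_lit 152) (nat_lit 5) (nat_lit 317) (nat_lit 302) (nat_lit 161)) (XT.nd (nat_lit 78) (nat_lit 0) (nat_lit 0) (XT.lf (nat_lit 0) (nat_lit 7241648050) (nat_lit 1064) (nat_lit 667116510) (nat_lit 1140) (nat_lit 10604033877) (nat_lit 137) (nat_lit 5) (nat_lit 151) (nat_lit 5) (nat_lit 152) (nat_lit 5) (nat_lit 318) (nat_lit 302) (nat_lit 160)) (XT.lf (nat_lit 76) (nat_lit 7254913556) (nat_lit 0) (nat_lit 1219959304) (nat_lit 1140) (nat_lit 10346525231) (nat_lit 138) (nat_lit 5) (nat_lit 137) (nat_lit 5) (nat_lit 152) (nat_lit 5) (nat_lit 319) (nat_lit 302) (nat_lit 159)))))) (XT.nd (nat_lit 390) (nat_lit 1064) (nat_lit 0) (XT.nd (nat_lit 156) (nat_lit 532) (nat_lit 0) (XT.nd (nat_lit 78) (nat_lit 1064)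 (nat_lit 0) (XT.lf (nat_lit 0) (nat_lit 9799311724) (nat_lit 1064) (nat_lit 3771332926) (nat_lit 76) (nat_lit 5567005529) (nat_lit 138) (nat_lit 5) (nat_lit 152) (nat_lit 5) (nat_lit 139) (nat_lit 5) (nat_lit 320) (nat_lit 302) (nat_lit 158)) (XT.lf (nat_lit 0) (nat_lit 4324155288) (nat_lit 1064) (nat_lit 6886095292) (nat_lit 1140) (nat_lit 8251756602) (nat_lit 124) (nat_lit 5) (nat_lit 138) (nat_lit 5) (nat_lit 139) (nat_lit 5) (nat_lit 321) (nat_lit 302) (nat_lit 157))) (XT.nd (nat_lit 78) (nat_lit 532) (nat_lit 0) (XT.lf (nat_lit 0) (nat_lit 12695243915) (nat_lit 1140) (nat_lit 7061496018) (nat_lit 76) (nat_lit 38422934) (nat_lit 124) (nat_lit 5) (nat_lit 139) (nat_lit 5) (nat_lit 125) (nat_lit 5) (nat_lit 322) (nat_lit 302) (nat_lit 156)) (XT.nd (nat_lit 78) (nat_lit 0) (nat_lit 0) (XT.lf (nat_lit 0) (nat_lit 1206699953) (nat_lit 532) (nat_lit 13091337532) (nat_lit 608) (nat_lit 5838097412)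 (nat_lit 117) (nat_lit 5) (nat_lit 124) (nat_lit 5) (nat_lit 125) (nat_lit 5) (nat_lit 323) (nat_lit 302) (nat_lit 155)) (XT.lf (nat_lit 0) (nat_lit 9861934112) (nat_lit 532) (nat_lit 6151894513) (nat_lit 608) (nat_lit 4471578678) (nat_lit 117) (nat_lit 5) (nat_lit 124) (nat_lit 5) (nat_lit 125) (nat_lit 5) (nat_lit 324) (nat_lit 302) (nat_lit 154))))) (XT.nd (nat_lit 234) (nat_lit 532) (nat_lit 0) (XT.nd (nat_lit 78) (nat_lit 532) (nat_lit 0) (XT.lf (nat_lit 0) (nat_lit 17784463697) (nat_lit 608) (nat_lit 2083707999) (nat_lit 76) (nat_lit 976903163) (nat_lit 117) (nat_lit 5) (nat_lit 125) (nat_lit 5) (nat_lit 118) (nat_lit 5) (nat_lit 325) (nat_lit 302) (nat_lit 153)) (XT.nd (nat_lit 78) (nat_lit 76) (nat_lit 0) (XT.lf (nat_lit 0) (nat_lit 6777968083) (nat_lit 456) (nat_lit 12950292796) (nat_lit 532) (nat_lit 1483687829) (nat_lit 111) (nat_lit 5) (nat_lit 117) (nat_lit 5) (nat_lit 118) (nat_lit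 5) (nat_lit 326) (nat_lit 302) (nat_lit 152)) (XT.lf (nat_lit 0) (nat_lit 153076241) (nat_lit 532) (nat_lit 5648263423) (nat_lit 76) (nat_lit 15788006865) (nat_lit 110) (nat_lit 5) (nat_lit 117) (nat_lit 5) (nat_lit 111) (nat_lit 5) (nat_lit 327) (nat_lit 302) (nat_lit 151)))) (XT.nd (nat_lit 78) (nat_lit 0) (nat_lit 0) (XT.lf (nat_lit 0) (nat_lit 1851959116) (nat_lit 608) (nat_lit 18544241962) (nat_lit 76) (nat_lit 1580155478) (nat_lit 103) (nat_lit 5) (nat_lit 111) (nat_lit 5) (nat_lit 104) (nat_lit 5) (nat_lit 328) (nat_lit 302) (nat_lit 150)) (XT.nd (nat_lit 78) (nat_lit 0) (nat_lit 0) (XT.lf (nat_lit 0) (nat_lit 3711166384) (nat_lit 608) (nat_lit 9536263786) (nat_lit 76) (nat_lit 9124281577) (nat_lit 103) (nat_lit 5) (nat_lit 111) (nat_lit 5) (nat_lit 104) (nat_lit 5) (nat_lit 329) (nat_lit 302) (nat_lit 149)) (XT.lf (nat_lit 0) (nat_lit 5620633170) (nat_lit 608) (nat_lit 263562853) (nat_lit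 76) (nat_lit 16894912218) (nat_lit 103) (nat_lit 5) (nat_lit 111) (nat_lit 5) (nat_lit 104) (nat_lit 5) (nat_lit 330) (nat_lit 302) (nat_lit 148))))))) (XT.nd (nat_lit 858) (nat_lit 1672) (nat_lit 0) (XT.nd (nat_lit 390) (nat_lit 836) (nat_lit 0) (XT.nd (nat_lit 156) (nat_lit 836) (nat_lit 0) (XT.nd (nat_lit 78) (nat_lit 0) (nat_lit 0) (XT.lf (nat_lit 0) (nat_lit 7690269382) (nat_lit 532) (nat_lit 13746721367) (nat_lit 76) (nat_lit 1758664023) (nat_lit 97) (nat_lit 5) (nat_lit 104) (nat_lit 5) (nat_lit 98) (nat_lit 5) (nat_lit 331) (nat_lit 302) (nat_lit 147)) (XT.lf (nat_lit 0) (nat_lit 9877690365) (nat_lit 532) (nat_lit 4230170944) (nat_lit 76) (nat_lit 9515179796) (nat_lit 97) (nat_lit 5) (nat_lit 104) (nat_lit 5) (nat_lit 98) (nat_lit 5) (nat_lit 332) (nat_lit 302) (nat_lit 146))) (XT.nd (nat_lit 78) (nat_lit 380) (nat_lit 0) (XT.lf (nat_lit 0) (nat_lit 5677346217) (nat_lit 456) (nat_lit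 6502863338) (nat_lit 532) (nat_lit 11881569067) (nat_lit 91) (nat_lit 5) (nat_lit 97) (nat_lit 5) (nat_lit 98) (nat_lit 5) (nat_lit 333) (nat_lit 302) (nat_lit 145)) (XT.nd (nat_lit 78) (nat_lit 380) (nat_lit 0) (XT.lf (nat_lit 0) (nat_lit 14602728037) (nat_lit 532) (nat_lit 8562228054) (nat_lit 76) (nat_lit 1347207918) (nat_lit 91) (nat_lit 5) (nat_lit 98) (nat_lit 5) (nat_lit 92) (nat_lit 5) (nat_lit 334) (nat_lit 302) (nat_lit 144)) (XT.lf (nat_lit 0) (nat_lit 1514545778) (nat_lit 380) (nat_lit 15657462383) (nat_lit 456) (nat_lit 7801843280) (nat_lit 86) (nat_lit 5) (nat_lit 91) (nat_lit 5) (nat_lit 92) (nat_lit 5) (nat_lit 335) (nat_lit 302) (nat_lit 143))))) (XT.nd (nat_lit 234) (nat_lit 456) (nat_lit 0) (XT.nd (nat_lit 78) (nat_lit 380) (nat_lit 0) (XT.lf (nat_lit 0) (nat_lit 12063925628) (nat_lit 380) (nat_lit 7836136691) (nat_lit 456) (nat_lit 5546888990) (nat_lit 86) (nat_lit 5) (nat_lit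 91) (nat_lit 5) (nat_lit 92) (nat_lit 5) (nat_lit 336) (nat_lit 302) (nat_lit 142)) (XT.nd (nat_lit 78) (nat_lit 380) (nat_lit 0) (XT.lf (nat_lit 0) (nat_lit 22707439783) (nat_lit 456) (nat_lit 3011779979) (nat_lit 76) (nat_lit 215112279) (nat_lit 86) (nat_lit 5) (nat_lit 92) (nat_lit 5) (nat_lit 87) (nat_lit 5) (nat_lit 337) (nat_lit 302) (nat_lit 141)) (XT.lf (nat_lit 0) (nat_lit 7738975046) (nat_lit 380) (nat_lit 18007544243) (nat_lit 456) (nat_lit 685402440) (nat_lit 81) (nat_lit 5) (nat_lit 86) (nat_lit 5) (nat_lit 87) (nat_lit 5) (nat_lit 338) (nat_lit 302) (nat_lit 140)))) (XT.nd (nat_lit 78) (nat_lit 380) (nat_lit 0) (XT.lf (nat_lit 0) (nat_lit 1920870696) (nat_lit 456) (nat_lit 8093519768) (nat_lit 76) (nat_lit 16928715308) (nat_lit 80) (nat_lit 5) (nat_lit 86) (nat_lit 5) (nat_lit 81) (nat_lit 5) (nat_lit 339) (nat_lit 302) (nat_lit 139)) (XT.nd (nat_lit 78) (nat_lit 0) (nat_lit 0)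 (XT.lf (nat_lit 0) (nat_lit 2868111326) (nat_lit 380) (nat_lit 1746676180) (nat_lit 456) (nat_lit 22853948247) (nat_lit 75) (nat_lit 5) (nat_lit 80) (nat_lit 5) (nat_lit 81) (nat_lit 5) (nat_lit 340) (nat_lit 302) (nat_lit 138)) (XT.lf (nat_lit 0) (nat_lit 7532862381) (nat_lit 456) (nat_lit 13754102998) (nat_lit 76) (nat_lit 6718879662) (nat_lit 75) (nat_lit 5) (nat_lit 81) (nat_lit 5) (nat_lit 76) (nat_lit 5) (nat_lit 341) (nat_lit 302) (nat_lit 137)))))) (XT.nd (nat_lit 468) (nat_lit 988) (nat_lit 0) (XT.nd (nat_lit 234) (nat_lit 304) (nat_lit 0) (XT.nd (nat_lit 78) (nat_lit 380) (nat_lit 0) (XT.lf (nat_lit 0) (nat_lit 10551631817) (nat_lit 456) (nat_lit 2604376027) (nat_lit 76) (nat_lit 15402675505) (nat_lit 75) (nat_lit 5) (nat_lit 81) (nat_lit 5) (nat_lit 76) (nat_lit 5) (nat_lit 342) (nat_lit 302) (nat_lit 136)) (XT.nd (nat_lit 78) (nat_lit 0) (nat_lit 0) (XT.lf (nat_lit 0) (nat_lit 9051720758)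 (nat_lit 380) (nat_lit 4692233374) (nat_lit 456) (nat_lit 15381672995) (nat_lit 70) (nat_lit 5) (nat_lit 75) (nat_lit 5) (nat_lit 76) (nat_lit 5) (nat_lit 343) (nat_lit 302) (nat_lit 135)) (XT.lf (nat_lit 0) (nat_lit 17093344423) (nat_lit 456) (nat_lit 8641686129) (nat_lit 76) (nat_lit 3972719438) (nat_lit 70) (nat_lit 5) (nat_lit 76) (nat_lit 5) (nat_lit 71) (nat_lit 5) (nat_lit 344) (nat_lit 302) (nat_lit 134)))) (XT.nd (nat_lit 78) (nat_lit 0) (nat_lit 0) (XT.lf (nat_lit 0) (nat_lit 3143700533) (nat_lit 304) (nat_lit 17472351748) (nat_lit 380) (nat_lit 9689108622) (nat_lit 66) (nat_lit 5) (nat_lit 70) (nat_lit 5) (nat_lit 71) (nat_lit 5) (nat_lit 345) (nat_lit 302) (nat_lit 133)) (XT.nd (nat_lit 78) (nat_lit 0) (nat_lit 0) (XT.lf (nat_lit 0) (nat_lit 15455153494) (nat_lit 304) (nat_lit 8872778155) (nat_lit 380) (nat_lit 6590066948) (nat_lit 66) (nat_lit 5) (nat_lit 70) (nat_lit 5) (nat_lit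 71) (nat_lit 5) (nat_lit 346) (nat_lit 302) (nat_lit 132)) (XT.lf (nat_lit 0) (nat_lit 28131443837) (nat_lit 304) (nat_lit 16059670) (nat_lit 380) (nat_lit 3401836731) (nat_lit 66) (nat_lit 5) (nat_lit 70) (nat_lit 5) (nat_lit 71) (nat_lit 5) (nat_lit 347) (nat_lit 302) (nat_lit 131))))) (XT.nd (nat_lit 234) (nat_lit 304) (nat_lit 0) (XT.nd (nat_lit 78) (nat_lit 304) (nat_lit 0) (XT.lf (nat_lit 0) (nat_lit 57218997) (nat_lit 380) (nat_lit 23121618167) (nat_lit 76) (nat_lit 9015641061) (nat_lit 61) (nat_lit 5) (nat_lit 66) (nat_lit 5) (nat_lit 62) (nat_lit 5) (nat_lit 348) (nat_lit 302) (nat_lit 130)) (XT.nd (nat_lit 78) (nat_lit 304) (nat_lit 0) (XT.lf (nat_lit 0) (nat_lit 3583140846) (nat_lit 380) (nat_lit 10888231711) (nat_lit 76) (nat_lit 18385651451) (nat_lit 61) (nat_lit 5) (nat_lit 66) (nat_lit 5) (nat_lit 62) (nat_lit 5) (nat_lit 349) (nat_lit 302) (nat_lit 129)) (XT.lf (nat_lit 0) (nat_lit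 1741758658) (nat_lit 304) (nat_lit 5486381064) (nat_lit 380) (nat_lit 26310915365) (nat_lit 57) (nat_lit 5) (nat_lit 61) (nat_lit 5) (nat_lit 62) (nat_lit 5) (nat_lit 350) (nat_lit 302) (nat_lit 128)))) (XT.nd (nat_lit 78) (nat_lit 304) (nat_lit 0) (XT.lf (nat_lit 0) (nat_lit 11126354694) (nat_lit 380) (nat_lit 19306154949) (nat_lit 76) (nat_lit 3804729146) (nat_lit 57) (nat_lit 5) (nat_lit 62) (nat_lit 5) (nat_lit 58) (nat_lit 5) (nat_lit 351) (nat_lit 302) (nat_lit 127)) (XT.nd (nat_lit 78) (nat_lit 304) (nat_lit 0) (XT.lf (nat_lit 0) (nat_lit 15192541445) (nat_lit 380) (nat_lit 6498913115) (nat_lit 76) (nat_lit 13263390134) (nat_lit 57) (nat_lit 5) (nat_lit 62) (nat_lit 5) (nat_lit 58) (nat_lit 5) (nat_lit 352) (nat_lit 302) (nat_lit 126)) (XT.lf (nat_lit 0) (nat_lit 6821469762) (nat_lit 304) (nat_lit 12621616879) (nat_lit 380) (nat_lit 16249028183) (nat_lit 53) (nat_lit 5) (nat_lit 57)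 (nat_lit 5) (nat_lit 58) (nat_lit 5) (nat_lit 353) (nat_lit 302) (nat_lit 125))))))))
noncomputable def xc216 : XT := (XT.nd (nat_lit 1716) (nat_lit 304) (nat_lit 0) (XT.nd (nat_lit 858) (nat_lit 684) (nat_lit 0) (XT.nd (nat_lit 390) (nat_lit 456) (nat_lit 0) (XT.nd (nat_lit 156) (nat_lit 608) (nat_lit 0) (XT.nd (nat_lit 78) (nat_lit 0) (nat_lit 0) (XT.lf (nat_lit 0) (nat_lit 20670538873) (nat_lit 304) (nat_lit 3213089627) (nat_lit 380) (nat_lit 12566007171) (nat_lit 53) (nat_lit 5) (nat_lit 57) (nat_lit 5) (nat_lit 58) (nat_lit 5) (nat_lit 354) (nat_lit 302) (nat_lit 124)) (XT.lf (nat_lit 0) (nat_lit 28516590487) (nat_lit 380) (nat_lit 2361184577) (nat_lit 76) (nat_lit 6350337783) (nat_lit 53) (nat_lit 5) (nat_lit 58) (nat_lit 5) (nat_lit 54) (nat_lit 5) (nat_lit 355) (nat_lit 302) (nat_lit 123))) (XT.nd (nat_lit 78) (nat_lit 380) (nat_lit 0) (XT.lf (nat_lit 0) (nat_lit 11650806355) (nat_lit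 228) (nat_lit 21778567977) (nat_lit 304) (nat_lit 4596351637) (nat_lit 50) (nat_lit 5) (nat_lit 53) (nat_lit 5) (nat_lit 54) (nat_lit 5) (nat_lit 356) (nat_lit 302) (nat_lit 122)) (XT.nd (nat_lit 78) (nat_lit 380) (nat_lit 0) (XT.lf (nat_lit 0) (nat_lit 26127603069) (nat_lit 228) (nat_lit 12382856118) (nat_lit 304) (nat_lit 336187199) (nat_lit 50) (nat_lit 5) (nat_lit 53) (nat_lit 5) (nat_lit 54) (nat_lit 5) (nat_lit 357) (nat_lit 302) (nat_lit 121)) (XT.lf (nat_lit 0) (nat_lit 1329602422) (nat_lit 304) (nat_lit 2653020973) (nat_lit 380) (nat_lit 35708111450) (nat_lit 45) (nat_lit 5) (nat_lit 49) (nat_lit 5) (nat_lit 50) (nat_lit 5) (nat_lit 358) (nat_lit 302) (nat_lit 120))))) (XT.nd (nat_lit 234) (nat_lit 228) (nat_lit 0) (XT.nd (nat_lit 78) (nat_lit 228) (nat_lit 0) (XT.lf (nat_lit 0) (nat_lit 8621944612) (nat_lit 380) (nat_lit 24575236621) (nat_lit 76) (nat_lit 7356939648) (nat_lit 45)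 (nat_lit 5) (nat_lit 50) (nat_lit 5) (nat_lit 46) (nat_lit 5) (nat_lit 359) (nat_lit 302) (nat_lit 119)) (XT.nd (nat_lit 78) (nat_lit 228) (nat_lit 0) (XT.lf (nat_lit 0) (nat_lit 13423957406) (nat_lit 380) (nat_lit 10405862987) (nat_lit 76) (nat_lit 17612888459) (nat_lit 45) (nat_lit 5) (nat_lit 50) (nat_lit 5) (nat_lit 46) (nat_lit 5) (nat_lit 360) (nat_lit 302) (nat_lit 118)) (XT.lf (nat_lit 0) (nat_lit 4268159102) (nat_lit 228) (nat_lit 14140224303) (nat_lit 304) (nat_lit 23948426015) (nat_lit 42) (nat_lit 5) (nat_lit 45) (nat_lit 5) (nat_lit 46) (nat_lit 5) (nat_lit 361) (nat_lit 302) (nat_lit 117)))) (XT.nd (nat_lit 78) (nat_lit 228) (nat_lit 0) (XT.lf (nat_lit 0) (nat_lit 19592028403) (nat_lit 228) (nat_lit 4052759775) (nat_lit 304) (nat_lit 19650476830) (nat_lit 42) (nat_lit 5) (nat_lit 45) (nat_lit 5) (nat_lit 46) (nat_lit 5) (nat_lit 362) (nat_lit 302) (nat_lit 116)) (XT.nd (nat_lit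 78) (nat_lit 228) (nat_lit 0) (XT.lf (nat_lit 0) (nat_lit 29096637435) (nat_lit 304) (nat_lit 8950827024) (nat_lit 76) (nat_lit 6212664462) (nat_lit 42) (nat_lit 5) (nat_lit 46) (nat_lit 5) (nat_lit 43) (nat_lit 5) (nat_lit 363) (nat_lit 302) (nat_lit 115)) (XT.lf (nat_lit 0) (nat_lit 6323888349) (nat_lit 228) (nat_lit 28486578033) (nat_lit 304) (nat_lit 10440524715) (nat_lit 39) (nat_lit 5) (nat_lit 42) (nat_lit 5) (nat_lit 43) (nat_lit 5) (nat_lit 364) (nat_lit 302) (nat_lit 114)))))) (XT.nd (nat_lit 390) (nat_lit 380) (nat_lit 0) (XT.nd (nat_lit 156) (nat_lit 304) (nat_lit 0) (XT.nd (nat_lit 78) (nat_lit 0) (nat_lit 0) (XT.lf (nat_lit 0) (nat_lit 22236821087) (nat_lit 228) (nat_lit 18546822554) (nat_lit 304) (nat_lit 5485302420) (nat_lit 39) (nat_lit 5) (nat_lit 42) (nat_lit 5) (nat_lit 43) (nat_lit 5) (nat_lit 365) (nat_lit 302) (nat_lit 113)) (XT.lf (nat_lit 0) (nat_lit 38623736686) (nat_lit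 228) (nat_lit 8309898601) (nat_lit 304) (nat_lit 383880598) (nat_lit 39) (nat_lit 5) (nat_lit 42) (nat_lit 5) (nat_lit 43) (nat_lit 5) (nat_lit 366) (nat_lit 302) (nat_lit 112))) (XT.nd (nat_lit 78) (nat_lit 0) (nat_lit 0) (XT.lf (nat_lit 0) (nat_lit 4864978783) (nat_lit 304) (nat_lit 41221812334) (nat_lit 76) (nat_lit 2306668497) (nat_lit 35) (nat_lit 5) (nat_lit 39) (nat_lit 5) (nat_lit 36) (nat_lit 5) (nat_lit 367) (nat_lit 302) (nat_lit 111)) (XT.nd (nat_lit 78) (nat_lit 0) (nat_lit 0) (XT.lf (nat_lit 0) (nat_lit 10432211217) (nat_lit 304) (nat_lit 25898131412) (nat_lit 76) (nat_lit 13166170691) (nat_lit 35) (nat_lit 5) (nat_lit 39) (nat_lit 5) (nat_lit 36) (nat_lit 5) (nat_lit 368) (nat_lit 302) (nat_lit 110)) (XT.lf (nat_lit 0) (nat_lit 16164215318) (nat_lit 304) (nat_lit 10118029127) (nat_lit 76) (nat_lit 24350485803) (nat_lit 35) (nat_lit 5) (nat_lit 39) (nat_lit 5) (nat_lit 36) (nat_lit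 5) (nat_lit 369) (nat_lit 302) (nat_lit 109))))) (XT.nd (nat_lit 234) (nat_lit 152) (nat_lit 0) (XT.nd (nat_lit 78) (nat_lit 0) (nat_lit 0) (XT.lf (nat_lit 0) (nat_lit 6254327415) (nat_lit 228) (nat_lit 15871792637) (nat_lit 304) (nat_lit 29675179539) (nat_lit 32) (nat_lit 5) (nat_lit 35) (nat_lit 5) (nat_lit 36) (nat_lit 5) (nat_lit 370) (nat_lit 302) (nat_lit 108)) (XT.nd (nat_lit 78) (nat_lit 0) (nat_lit 0) (XT.lf (nat_lit 0) (nat_lit 23322102372) (nat_lit 228) (nat_lit 5044805000) (nat_lit 304) (nat_lit 24635021885) (nat_lit 32) (nat_lit 5) (nat_lit 35) (nat_lit 5) (nat_lit 36) (nat_lit 5) (nat_lit 371) (nat_lit 302) (nat_lit 107)) (XT.lf (nat_lit 0) (nat_lit 34851528700) (nat_lit 304) (nat_lit 13398498189) (nat_lit 76) (nat_lit 5986856501) (nat_lit 32) (nat_lit 5) (nat_lit 36) (nat_lit 5) (nat_lit 33) (nat_lit 5) (nat_lit 372) (nat_lit 302) (nat_lit 106)))) (XT.nd (nat_lit 78) (nat_lit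 0) (nat_lit 0) (XT.lf (nat_lit 0) (nat_lit 3384326468) (nat_lit 152) (nat_lit 38226810206) (nat_lit 228) (nat_lit 13895339809) (nat_lit 30) (nat_lit 5) (nat_lit 32) (nat_lit 5) (nat_lit 33) (nat_lit 5) (nat_lit 373) (nat_lit 302) (nat_lit 105)) (XT.nd (nat_lit 78) (nat_lit 0) (nat_lit 0) (XT.lf (nat_lit 0) (nat_lit 20942285970) (nat_lit 152) (nat_lit 27764543016) (nat_lit 228) (nat_lit 8103333164) (nat_lit 30) (nat_lit 5) (nat_lit 32) (nat_lit 5) (nat_lit 33) (nat_lit 5) (nat_lit 374) (nat_lit 302) (nat_lit 104)) (XT.lf (nat_lit 0) (nat_lit 39024065837) (nat_lit 152) (nat_lit 16989382091) (nat_lit 228) (nat_lit 2139572342) (nat_lit 30) (nat_lit 5) (nat_lit 32) (nat_lit 5) (nat_lit 33) (nat_lit 5) (nat_lit 375) (nat_lit 302) (nat_lit 103))))))) (XT.nd (nat_lit 35490) (nat_lit 0) (nat_lit 8208) (XT.nd (nat_lit 35022) (nat_lit 0) (nat_lit 9120) (XT.nd (nat_lit 156) (nat_lit 0) (nat_lit 0) (XT.nd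 (nat_lit 78) (nat_lit 228) (nat_lit 0) (XT.lf (nat_lit 0) (nat_lit 3923076791) (nat_lit 228) (nat_lit 1929220069) (nat_lit 76) (nat_lit 53682773508) (nat_lit 29) (nat_lit 5) (nat_lit 32) (nat_lit 5) (nat_lit 30) (nat_lit 5) (nat_lit 376) (nat_lit 302) (nat_lit 102)) (XT.lf (nat_lit 0) (nat_lit 10333025858) (nat_lit 304) (nat_lit 44932875706) (nat_lit 76) (nat_lit 5685795434) (nat_lit 26) (nat_lit 5) (nat_lit 30) (nat_lit 5) (nat_lit 27) (nat_lit 5) (nat_lit 377) (nat_lit 302) (nat_lit 101))) (XT.nd (nat_lit 78) (nat_lit 0) (nat_lit 0) (XT.lf (nat_lit 0) (nat_lit 17011055609) (nat_lit 304) (nat_lit 27926336019) (nat_lit 76) (nat_lit 17471160492) (nat_lit 26) (nat_lit 5) (nat_lit 30) (nat_lit 5) (nat_lit 27) (nat_lit 5) (nat_lit 378) (nat_lit 302) (nat_lit 100)) (XT.nd (nat_lit 34710) (nat_lit 0) (nat_lit 9120) (XT.lf (nat_lit 0) (nat_lit 23887644171) (nat_lit 304) (nat_lit 10412330851) (nat_lit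 76) (nat_lit 29609194407) (nat_lit 26) (nat_lit 5) (nat_lit 30) (nat_lit 5) (nat_lit 27) (nat_lit 5) (nat_lit 379) (nat_lit 302) (nat_lit 99)) (XT.lf (nat_lit 0) (nat_lit 3021329895) (nat_lit 0) (nat_lit 3021329895) (nat_lit 988) (nat_lit 1409355941) (nat_lit 146) (nat_lit 5) (nat_lit 146) (nat_lit 3) (nat_lit 159) (nat_lit 3) (nat_lit 303) (nat_lit 303) (nat_lit 174))))) (XT.nd (nat_lit 234) (nat_lit 0) (nat_lit 76) (XT.nd (nat_lit 78) (nat_lit 0) (nat_lit 0) (XT.lf (nat_lit 0) (nat_lit 12196843335) (nat_lit 0) (nat_lit 334741559) (nat_lit 988) (nat_lit 2587220530) (nat_lit 146) (nat_lit 5) (nat_lit 146) (nat_lit 3) (nat_lit 159) (nat_lit 3) (nat_lit 304) (nat_lit 303) (nat_lit 173)) (XT.nd (nat_lit 78) (nat_lit 0) (nat_lit 0) (XT.lf (nat_lit 76) (nat_lit 3199197916) (nat_lit 0) (nat_lit 9865797258) (nat_lit 1064) (nat_lit 2272847380) (nat_lit 147) (nat_lit 5) (nat_lit 146) (nat_lit 5) (nat_lit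 160) (nat_lit 5) (nat_lit 305) (nat_lit 303) (nat_lit 172)) (XT.lf (nat_lit 76) (nat_lit 9555000951) (nat_lit 0) (nat_lit 4082149552) (nat_lit 1064) (nat_lit 1925649727) (nat_lit 147) (nat_lit 5) (nat_lit 146) (nat_lit 5) (nat_lit 160) (nat_lit 5) (nat_lit 306) (nat_lit 303) (nat_lit 171)))) (XT.nd (nat_lit 78) (nat_lit 0) (nat_lit 0) (XT.lf (nat_lit 76) (nat_lit 288870481) (nat_lit 0) (nat_lit 13948690312) (nat_lit 1064) (nat_lit 1556643920) (nat_lit 148) (nat_lit 5) (nat_lit 147) (nat_lit 5) (nat_lit 161) (nat_lit 5) (nat_lit 307) (nat_lit 303) (nat_lit 170)) (XT.nd (nat_lit 78) (nat_lit 0) (nat_lit 0) (XT.lf (nat_lit 76) (nat_lit 6850714501) (nat_lit 0) (nat_lit 8096475175) (nat_lit 1064) (nat_lit 1082655361) (nat_lit 148) (nat_lit 5) (nat_lit 147) (nat_lit 5) (nat_lit 161) (nat_lit 5) (nat_lit 308) (nat_lit 303) (nat_lit 169)) (XT.lf (nat_lit 76) (nat_lit 13603920519) (nat_lit 0) (nat_lit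 2064981290) (nat_lit 1064) (nat_lit 603957950) (nat_lit 148) (nat_lit 5) (nat_lit 147) (nat_lit 5) (nat_lit 161) (nat_lit 5) (nat_lit 309) (nat_lit 303) (nat_lit 168)))))) (XT.nd (nat_lit 390) (nat_lit 0) (nat_lit 152) (XT.nd (nat_lit 156) (nat_lit 0) (nat_lit 0) (XT.nd (nat_lit 78) (nat_lit 1064) (nat_lit 0) (XT.lf (nat_lit 76) (nat_lit 4070454862) (nat_lit 0) (nat_lit 12411903198) (nat_lit 1064) (nat_lit 38732256) (nat_lit 149) (nat_lit 5) (nat_lit 148) (nat_lit 5) (nat_lit 162) (nat_lit 5) (nat_lit 310) (nat_lit 303) (nat_lit 167)) (XT.lf (nat_lit 0) (nat_lit 571698403) (nat_lit 1064) (nat_lit 5740964649) (nat_lit 1140) (nat_lit 10462808991) (nat_lit 134) (nat_lit 5) (nat_lit 148) (nat_lit 5) (nat_lit 149) (nat_lit 5) (nat_lit 311) (nat_lit 303) (nat_lit 166))) (XT.nd (nat_lit 78) (nat_lit 0) (nat_lit 76) (XT.lf (nat_lit 76) (nat_lit 1187136706) (nat_lit 0) (nat_lit 15384504) (nat_lit 1140)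 (nat_lit 15834892561) (nat_lit 135) (nat_lit 5) (nat_lit 134) (nat_lit 5) (nat_lit 149) (nat_lit 5) (nat_lit 312) (nat_lit 303) (nat_lit 165)) (XT.nd (nat_lit 78) (nat_lit 0) (nat_lit 0) (XT.lf (nat_lit 0) (nat_lit 1964684896) (nat_lit 1064) (nat_lit 8933373242) (nat_lit 1140) (nat_lit 6405808161) (nat_lit 135) (nat_lit 5) (nat_lit 149) (nat_lit 5) (nat_lit 150) (nat_lit 5) (nat_lit 313) (nat_lit 303) (nat_lit 164)) (XT.lf (nat_lit 0) (nat_lit 2741776799) (nat_lit 1064) (nat_lit 1814831639) (nat_lit 1140) (nat_lit 13021966371) (nat_lit 135) (nat_lit 5) (nat_lit 149) (nat_lit 5) (nat_lit 150) (nat_lit 5) (nat_lit 314) (nat_lit 303) (nat_lit 163))))) (XT.nd (nat_lit 234) (nat_lit 0) (nat_lit 76) (XT.nd (nat_lit 78) (nat_lit 0) (nat_lit 0) (XT.lf (nat_lit 0) (nat_lit 3607907350) (nat_lit 1064) (nat_lit 12258295890) (nat_lit 1140) (nat_lit 1993373154) (nat_lit 136) (nat_lit 5) (nat_lit 150) (nat_lit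 5) (nat_lit 151) (nat_lit 5) (nat_lit 315) (nat_lit 303) (nat_lit 162)) (XT.nd (nat_lit 78) (nat_lit 0) (nat_lit 0) (XT.lf (nat_lit 0) (nat_lit 4555987906) (nat_lit 1064) (nat_lit 4922446626) (nat_lit 1140) (nat_lit 8668917422) (nat_lit 136) (nat_lit 5) (nat_lit 150) (nat_lit 5) (nat_lit 151) (nat_lit 5) (nat_lit 316) (nat_lit 303) (nat_lit 161)) (XT.lf (nat_lit 76) (nat_lit 2680175781) (nat_lit 0) (nat_lit 2870665059) (nat_lit 1140) (nat_lit 12892392285) (nat_lit 137) (nat_lit 5) (nat_lit 136) (nat_lit 5) (nat_lit 151) (nat_lit 5) (nat_lit 317) (nat_lit 303) (nat_lit 160)))) (XT.nd (nat_lit 78) (nat_lit 0) (nat_lit 0) (XT.lf (nat_lit 0) (nat_lit 6656313662) (nat_lit 1064) (nat_lit 8178841912) (nat_lit 1140) (nat_lit 3910433522) (nat_lit 137) (nat_lit 5) (nat_lit 151) (nat_lit 5) (nat_lit 152) (nat_lit 5) (nat_lit 318) (nat_lit 303) (nat_lit 159)) (XT.nd (nat_lit 78) (nat_lit 0) (nat_lit 0)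 (XT.lf (nat_lit 0) (nat_lit 7816330592) (nat_lit 1064) (nat_lit 401156969) (nat_lit 1140) (nat_lit 10838907754) (nat_lit 137) (nat_lit 5) (nat_lit 151) (nat_lit 5) (nat_lit 152) (nat_lit 5) (nat_lit 319) (nat_lit 303) (nat_lit 158)) (XT.lf (nat_lit 76) (nat_lit 7755730342) (nat_lit 0) (nat_lit 1323133129) (nat_lit 1140) (nat_lit 10295651140) (nat_lit 138) (nat_lit 5) (nat_lit 137) (nat_lit 5) (nat_lit 152) (nat_lit 5) (nat_lit 320) (nat_lit 303) (nat_lit 157))))))))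
noncomputable def xc217 : XT := (XT.nd (nat_lit 1716) (nat_lit 2508) (nat_lit 0) (XT.nd (nat_lit 858) (nat_lit 2128) (nat_lit 0) (XT.nd (nat_lit 390) (nat_lit 1064) (nat_lit 0) (XT.nd (nat_lit 156) (nat_lit 532) (nat_lit 0) (XT.nd (nat_lit 78) (nat_lit 1064) (nat_lit 0) (XT.lf (nat_lit 0) (nat_lit 10432227450) (nat_lit 1064) (nat_lit 3597740136) (nat_lit 76) (nat_lit 5670641009) (nat_lit 138) (nat_lit 5) (nat_lit 152) (nat_lit 5) (nat_lit 139) (nat_lit 5) (nat_lit 321) (nat_lit 303) (nat_lit 156)) (XT.lf (nat_lit 0) (nat_lit 4737801620) (nat_lit 1064) (nat_lit 7140550147) (nat_lit 1140) (nat_lit 8156588035) (nat_lit 124) (nat_lit 5) (nat_lit 138) (nat_lit 5) (nat_lit 139) (nat_lit 5) (nat_lit 322) (nat_lit 303) (nat_lit 155))) (XT.nd (nat_lit 78) (nat_lit 532) (nat_lit 0) (XT.lf (nat_lit 0) (nat_lit 13391728601) (nat_lit 1064) (nat_lit 6114411) (nat_lit 1140) (nat_lit 6980577065) (nat_lit 124)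 (nat_lit 5) (nat_lit 138) (nat_lit 5) (nat_lit 139) (nat_lit 5) (nat_lit 323) (nat_lit 303) (nat_lit 154)) (XT.nd (nat_lit 78) (nat_lit 0) (nat_lit 0) (XT.lf (nat_lit 0) (nat_lit 1526798285) (nat_lit 532) (nat_lit 13515222917) (nat_lit 608) (nat_lit 5687828578) (nat_lit 117) (nat_lit 5) (nat_lit 124) (nat_lit 5) (nat_lit 125) (nat_lit 5) (nat_lit 324) (nat_lit 303) (nat_lit 153)) (XT.lf (nat_lit 0) (nat_lit 10433420614) (nat_lit 532) (nat_lit 6366689463) (nat_lit 608) (nat_lit 4289792294) (nat_lit 117) (nat_lit 5) (nat_lit 124) (nat_lit 5) (nat_lit 125) (nat_lit 5) (nat_lit 325) (nat_lit 303) (nat_lit 152))))) (XT.nd (nat_lit 234) (nat_lit 532) (nat_lit 0) (XT.nd (nat_lit 78) (nat_lit 532) (nat_lit 0) (XT.lf (nat_lit 0) (nat_lit 18614673264) (nat_lit 608) (nat_lit 1868562641) (nat_lit 76) (nat_lit 977425733) (nat_lit 117) (nat_lit 5) (nat_lit 125) (nat_lit 5) (nat_lit 118) (nat_lit 5) (nat_lit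 326) (nat_lit 303) (nat_lit 151)) (XT.nd (nat_lit 78) (nat_lit 76) (nat_lit 0) (XT.lf (nat_lit 0) (nat_lit 7256241601) (nat_lit 456) (nat_lit 13354544562) (nat_lit 532) (nat_lit 1227960687) (nat_lit 111) (nat_lit 5) (nat_lit 117) (nat_lit 5) (nat_lit 118) (nat_lit 5) (nat_lit 327) (nat_lit 303) (nat_lit 150)) (XT.lf (nat_lit 0) (nat_lit 443473437) (nat_lit 532) (nat_lit 5544304796) (nat_lit 76) (nat_lit 16239882767) (nat_lit 110) (nat_lit 5) (nat_lit 117) (nat_lit 5) (nat_lit 111) (nat_lit 5) (nat_lit 328) (nat_lit 303) (nat_lit 149)))) (XT.nd (nat_lit 78) (nat_lit 0) (nat_lit 0) (XT.lf (nat_lit 0) (nat_lit 2187510824) (nat_lit 608) (nat_lit 18820582002) (nat_lit 76) (nat_lit 1618385922) (nat_lit 103) (nat_lit 5) (nat_lit 111) (nat_lit 5) (nat_lit 104) (nat_lit 5) (nat_lit 329) (nat_lit 303) (nat_lit 148)) (XT.nd (nat_lit 78) (nat_lit 0) (nat_lit 0) (XT.lf (nat_lit 0) (nat_lit 4094339177) (nat_lit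 608) (nat_lit 9550519448) (nat_lit 76) (nat_lit 9389103014) (nat_lit 103) (nat_lit 5) (nat_lit 111) (nat_lit 5) (nat_lit 104) (nat_lit 5) (nat_lit 330) (nat_lit 303) (nat_lit 147)) (XT.lf (nat_lit 0) (nat_lit 6053172360) (nat_lit 608) (nat_lit 7554931) (nat_lit 76) (nat_lit 17393112002) (nat_lit 103) (nat_lit 5) (nat_lit 111) (nat_lit 5) (nat_lit 104) (nat_lit 5) (nat_lit 331) (nat_lit 303) (nat_lit 146)))))) (XT.nd (nat_lit 390) (nat_lit 836) (nat_lit 0) (XT.nd (nat_lit 156) (nat_lit 836) (nat_lit 0) (XT.nd (nat_lit 78) (nat_lit 0) (nat_lit 0) (XT.lf (nat_lit 0) (nat_lit 8179747524) (nat_lit 532) (nat_lit 13889354581) (nat_lit 76) (nat_lit 1813955725) (nat_lit 97) (nat_lit 5) (nat_lit 104) (nat_lit 5) (nat_lit 98) (nat_lit 5) (nat_lit 332) (nat_lit 303) (nat_lit 145)) (XT.lf (nat_lit 0) (nat_lit 10425254143) (nat_lit 532) (nat_lit 4095164979) (nat_lit 76) (nat_lit 9803093230) (nat_lit 97)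 (nat_lit 5) (nat_lit 104) (nat_lit 5) (nat_lit 98) (nat_lit 5) (nat_lit 333) (nat_lit 303) (nat_lit 144))) (XT.nd (nat_lit 78) (nat_lit 380) (nat_lit 0) (XT.lf (nat_lit 0) (nat_lit 6107009941) (nat_lit 456) (nat_lit 6685014467) (nat_lit 532) (nat_lit 11983552214) (nat_lit 91) (nat_lit 5) (nat_lit 97) (nat_lit 5) (nat_lit 98) (nat_lit 5) (nat_lit 334) (nat_lit 303) (nat_lit 143)) (XT.nd (nat_lit 78) (nat_lit 380) (nat_lit 0) (XT.lf (nat_lit 0) (nat_lit 15280162211) (nat_lit 532) (nat_lit 8559605227) (nat_lit 76) (nat_lit 1399937134) (nat_lit 91) (nat_lit 5) (nat_lit 98) (nat_lit 5) (nat_lit 92) (nat_lit 5) (nat_lit 335) (nat_lit 303) (nat_lit 142)) (XT.lf (nat_lit 0) (nat_lit 1816927804) (nat_lit 380) (nat_lit 16105091427) (nat_lit 456) (nat_lit 7793377192) (nat_lit 86) (nat_lit 5) (nat_lit 91) (nat_lit 5) (nat_lit 92) (nat_lit 5) (nat_lit 336) (nat_lit 303) (nat_lit 141))))) (XT.nd (nat_lit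 234) (nat_lit 456) (nat_lit 0) (XT.nd (nat_lit 78) (nat_lit 380) (nat_lit 0) (XT.lf (nat_lit 0) (nat_lit 12675305196) (nat_lit 380) (nat_lit 8049769503) (nat_lit 456) (nat_lit 5477838004) (nat_lit 86) (nat_lit 5) (nat_lit 91) (nat_lit 5) (nat_lit 92) (nat_lit 5) (nat_lit 337) (nat_lit 303) (nat_lit 140)) (XT.nd (nat_lit 78) (nat_lit 380) (nat_lit 0) (XT.lf (nat_lit 0) (nat_lit 23610232600) (nat_lit 456) (nat_lit 2852907415) (nat_lit 76) (nat_lit 241985742) (nat_lit 86) (nat_lit 5) (nat_lit 92) (nat_lit 5) (nat_lit 87) (nat_lit 5) (nat_lit 338) (nat_lit 303) (nat_lit 139)) (XT.lf (nat_lit 0) (nat_lit 8217926869) (nat_lit 380) (nat_lit 18518476363) (nat_lit 456) (nat_lit 481379501) (nat_lit 81) (nat_lit 5) (nat_lit 86) (nat_lit 5) (nat_lit 87) (nat_lit 5) (nat_lit 339) (nat_lit 303) (nat_lit 138)))) (XT.nd (nat_lit 78) (nat_lit 380) (nat_lit 0) (XT.lf (nat_lit 0) (nat_lit 2192285700) (nat_lit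 456) (nat_lit 8091936652) (nat_lit 76) (nat_lit 17460223765) (nat_lit 80) (nat_lit 5) (nat_lit 86) (nat_lit 5) (nat_lit 81) (nat_lit 5) (nat_lit 340) (nat_lit 303) (nat_lit 137)) (XT.nd (nat_lit 78) (nat_lit 0) (nat_lit 0) (XT.lf (nat_lit 0) (nat_lit 3196147408) (nat_lit 380) (nat_lit 1766971929) (nat_lit 456) (nat_lit 23322858386) (nat_lit 75) (nat_lit 5) (nat_lit 80) (nat_lit 5) (nat_lit 81) (nat_lit 5) (nat_lit 341) (nat_lit 303) (nat_lit 136)) (XT.lf (nat_lit 0) (nat_lit 7962922828) (nat_lit 456) (nat_lit 13925459838) (nat_lit 76) (nat_lit 6951007276) (nat_lit 75) (nat_lit 5) (nat_lit 81) (nat_lit 5) (nat_lit 76) (nat_lit 5) (nat_lit 342) (nat_lit 303) (nat_lit 135))))))) (XT.nd (nat_lit 858) (nat_lit 1140) (nat_lit 0) (XT.nd (nat_lit 390) (nat_lit 684) (nat_lit 0) (XT.nd (nat_lit 156) (nat_lit 304) (nat_lit 0) (XT.nd (nat_lit 78) (nat_lit 380) (nat_lit 0) (XT.lf (nat_lit 0) (nat_lit 11066311428)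 (nat_lit 456) (nat_lit 2448268231) (nat_lit 76) (nat_lit 15894426862) (nat_lit 75) (nat_lit 5) (nat_lit 81) (nat_lit 5) (nat_lit 76) (nat_lit 5) (nat_lit 343) (nat_lit 303) (nat_lit 134)) (XT.lf (nat_lit 0) (nat_lit 9555214996) (nat_lit 380) (nat_lit 4795647194) (nat_lit 456) (nat_lit 15642217029) (nat_lit 70) (nat_lit 5) (nat_lit 75) (nat_lit 5) (nat_lit 76) (nat_lit 5) (nat_lit 344) (nat_lit 303) (nat_lit 133))) (XT.nd (nat_lit 78) (nat_lit 304) (nat_lit 0) (XT.lf (nat_lit 0) (nat_lit 17795415141) (nat_lit 456) (nat_lit 8669965572) (nat_lit 76) (nat_lit 4127458581) (nat_lit 70) (nat_lit 5) (nat_lit 76) (nat_lit 5) (nat_lit 71) (nat_lit 5) (nat_lit 345) (nat_lit 303) (nat_lit 132)) (XT.nd (nat_lit 78) (nat_lit 0) (nat_lit 0) (XT.lf (nat_lit 0) (nat_lit 3466718267) (nat_lit 304) (nat_lit 17953771706) (nat_lit 380) (nat_lit 9787795533) (nat_lit 66) (nat_lit 5) (nat_lit 70) (nat_lit 5) (nat_lit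 71) (nat_lit 5) (nat_lit 346) (nat_lit 303) (nat_lit 131)) (XT.lf (nat_lit 0) (nat_lit 16140853457) (nat_lit 304) (nat_lit 9097456069) (nat_lit 380) (nat_lit 6601374444) (nat_lit 66) (nat_lit 5) (nat_lit 70) (nat_lit 5) (nat_lit 71) (nat_lit 5) (nat_lit 347) (nat_lit 303) (nat_lit 130))))) (XT.nd (nat_lit 234) (nat_lit 304) (nat_lit 0) (XT.nd (nat_lit 78) (nat_lit 380) (nat_lit 0) (XT.lf (nat_lit 0) (nat_lit 29167438442) (nat_lit 380) (nat_lit 3299399560) (nat_lit 76) (nat_lit 23291527) (nat_lit 66) (nat_lit 5) (nat_lit 71) (nat_lit 5) (nat_lit 67) (nat_lit 5) (nat_lit 348) (nat_lit 303) (nat_lit 129)) (XT.nd (nat_lit 78) (nat_lit 0) (nat_lit 0) (XT.lf (nat_lit 0) (nat_lit 233704814) (nat_lit 380) (nat_lit 23592677987) (nat_lit 76) (nat_lit 9328285506) (nat_lit 61) (nat_lit 5) (nat_lit 66) (nat_lit 5) (nat_lit 62) (nat_lit 5) (nat_lit 349) (nat_lit 303) (nat_lit 128)) (XT.lf (nat_lit 0) (nat_lit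 3860313952) (nat_lit 380) (nat_lit 10998773104) (nat_lit 76) (nat_lit 18978167803) (nat_lit 61) (nat_lit 5) (nat_lit 66) (nat_lit 5) (nat_lit 62) (nat_lit 5) (nat_lit 350) (nat_lit 303) (nat_lit 127)))) (XT.nd (nat_lit 78) (nat_lit 0) (nat_lit 0) (XT.lf (nat_lit 0) (nat_lit 2007998294) (nat_lit 304) (nat_lit 5603779370) (nat_lit 380) (nat_lit 26928067106) (nat_lit 57) (nat_lit 5) (nat_lit 61) (nat_lit 5) (nat_lit 62) (nat_lit 5) (nat_lit 351) (nat_lit 303) (nat_lit 126)) (XT.nd (nat_lit 78) (nat_lit 0) (nat_lit 0) (XT.lf (nat_lit 0) (nat_lit 11622521451) (nat_lit 380) (nat_lit 19672800572) (nat_lit 76) (nat_lit 3963795504) (nat_lit 57) (nat_lit 5) (nat_lit 62) (nat_lit 5) (nat_lit 58) (nat_lit 5) (nat_lit 352) (nat_lit 303) (nat_lit 125)) (XT.lf (nat_lit 0) (nat_lit 15805964403) (nat_lit 380) (nat_lit 6487531940) (nat_lit 76) (nat_lit 13704907842) (nat_lit 57) (nat_lit 5) (nat_lit 62) (nat_lit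 5) (nat_lit 58) (nat_lit 5) (nat_lit 353) (nat_lit 303) (nat_lit 124)))))) (XT.nd (nat_lit 390) (nat_lit 608) (nat_lit 0) (XT.nd (nat_lit 156) (nat_lit 228) (nat_lit 0) (XT.nd (nat_lit 78) (nat_lit 0) (nat_lit 0) (XT.lf (nat_lit 0) (nat_lit 7230439399) (nat_lit 304) (nat_lit 12950959006) (nat_lit 380) (nat_lit 16576483221) (nat_lit 53) (nat_lit 5) (nat_lit 57) (nat_lit 5) (nat_lit 58) (nat_lit 5) (nat_lit 354) (nat_lit 303) (nat_lit 123)) (XT.lf (nat_lit 0) (nat_lit 21489029354) (nat_lit 304) (nat_lit 3261612046) (nat_lit 380) (nat_lit 12787632234) (nat_lit 53) (nat_lit 5) (nat_lit 57) (nat_lit 5) (nat_lit 58) (nat_lit 5) (nat_lit 355) (nat_lit 303) (nat_lit 122))) (XT.nd (nat_lit 78) (nat_lit 228) (nat_lit 0) (XT.lf (nat_lit 0) (nat_lit 29518655388) (nat_lit 380) (nat_lit 2235160634) (nat_lit 76) (nat_lit 6586416994) (nat_lit 53) (nat_lit 5) (nat_lit 58) (nat_lit 5) (nat_lit 54) (nat_lit 5)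 (nat_lit 356) (nat_lit 303) (nat_lit 121)) (XT.nd (nat_lit 78) (nat_lit 0) (nat_lit 0) (XT.lf (nat_lit 0) (nat_lit 12195260032) (nat_lit 228) (nat_lit 22381167551) (nat_lit 304) (nat_lit 4585428304) (nat_lit 50) (nat_lit 5) (nat_lit 53) (nat_lit 5) (nat_lit 54) (nat_lit 5) (nat_lit 357) (nat_lit 303) (nat_lit 120)) (XT.lf (nat_lit 0) (nat_lit 27100683089) (nat_lit 228) (nat_lit 12705062709) (nat_lit 304) (nat_lit 201793318) (nat_lit 50) (nat_lit 5) (nat_lit 53) (nat_lit 5) (nat_lit 54) (nat_lit 5) (nat_lit 358) (nat_lit 303) (nat_lit 119))))) (XT.nd (nat_lit 234) (nat_lit 228) (nat_lit 0) (XT.nd (nat_lit 78) (nat_lit 0) (nat_lit 0) (XT.lf (nat_lit 0) (nat_lit 1559974281) (nat_lit 304) (nat_lit 2681493019) (nat_lit 380) (nat_lit 36635518808) (nat_lit 45) (nat_lit 5) (nat_lit 49) (nat_lit 5) (nat_lit 50) (nat_lit 5) (nat_lit 359) (nat_lit 303) (nat_lit 118)) (XT.nd (nat_lit 78) (nat_lit 0) (nat_lit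 0) (XT.lf (nat_lit 0) (nat_lit 9016386044) (nat_lit 380) (nat_lit 25123694511) (nat_lit 76) (nat_lit 7626309075) (nat_lit 45) (nat_lit 5) (nat_lit 50) (nat_lit 5) (nat_lit 46) (nat_lit 5) (nat_lit 360) (nat_lit 303) (nat_lit 117)) (XT.lf (nat_lit 0) (nat_lit 13958504375) (nat_lit 380) (nat_lit 10534738674) (nat_lit 76) (nat_lit 18188519032) (nat_lit 45) (nat_lit 5) (nat_lit 50) (nat_lit 5) (nat_lit 46) (nat_lit 5) (nat_lit 361) (nat_lit 303) (nat_lit 116)))) (XT.nd (nat_lit 78) (nat_lit 0) (nat_lit 0) (XT.lf (nat_lit 0) (nat_lit 4577707017) (nat_lit 228) (nat_lit 14512661199) (nat_lit 304) (nat_lit 24532988256) (nat_lit 42) (nat_lit 5) (nat_lit 45) (nat_lit 5) (nat_lit 46) (nat_lit 5) (nat_lit 362) (nat_lit 303) (nat_lit 115)) (XT.nd (nat_lit 78) (nat_lit 0) (nat_lit 0) (XT.lf (nat_lit 0) (nat_lit 20356005897) (nat_lit 228) (nat_lit 4124080594) (nat_lit 304) (nat_lit 20110000321) (nat_lit 42)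 (nat_lit 5) (nat_lit 45) (nat_lit 5) (nat_lit 46) (nat_lit 5) (nat_lit 363) (nat_lit 303) (nat_lit 114)) (XT.lf (nat_lit 0) (nat_lit 30092291720) (nat_lit 304) (nat_lit 9044818203) (nat_lit 76) (nat_lit 6446890204) (nat_lit 42) (nat_lit 5) (nat_lit 46) (nat_lit 5) (nat_lit 43) (nat_lit 5) (nat_lit 364) (nat_lit 303) (nat_lit 113))))))))
noncomputable def xc218 : XT := (XT.nd (nat_lit 36426) (nat_lit 0) (nat_lit 5396) (XT.nd (nat_lit 858) (nat_lit 304) (nat_lit 0) (XT.nd (nat_lit 390) (nat_lit 380) (nat_lit 0) (XT.nd (nat_lit 156) (nat_lit 304) (nat_lit 0) (XT.nd (nat_lit 78) (nat_lit 0) (nat_lit 0) (XT.lf (nat_lit 0) (nat_lit 6686427517) (nat_lit 228) (nat_lit 29289193901) (nat_lit 304) (nat_lit 10629031456) (nat_lit 39) (nat_lit 5) (nat_lit 42) (nat_lit 5) (nat_lit 43) (nat_lit 5) (nat_lit 365) (nat_lit 303) (nat_lit 112)) (XT.lf (nat_lit 0) (nat_lit 23071714572) (nat_lit 228) (nat_lit 19052759781)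 (nat_lit 304) (nat_lit 5528784793) (nat_lit 39) (nat_lit 5) (nat_lit 42) (nat_lit 5) (nat_lit 43) (nat_lit 5) (nat_lit 366) (nat_lit 303) (nat_lit 111))) (XT.nd (nat_lit 78) (nat_lit 304) (nat_lit 0) (XT.lf (nat_lit 0) (nat_lit 39945350584) (nat_lit 228) (nat_lit 8510198036) (nat_lit 304) (nat_lit 277846822) (nat_lit 39) (nat_lit 5) (nat_lit 42) (nat_lit 5) (nat_lit 43) (nat_lit 5) (nat_lit 367) (nat_lit 303) (nat_lit 110)) (XT.nd (nat_lit 78) (nat_lit 0) (nat_lit 0) (XT.lf (nat_lit 0) (nat_lit 5124885766) (nat_lit 304) (nat_lit 42291534546) (nat_lit 76) (nat_lit 2425208704) (nat_lit 35) (nat_lit 5) (nat_lit 39) (nat_lit 5) (nat_lit 36) (nat_lit 5) (nat_lit 368) (nat_lit 303) (nat_lit 109)) (XT.lf (nat_lit 0) (nat_lit 10855816019) (nat_lit 304) (nat_lit 26513005298) (nat_lit 76) (nat_lit 13609058873) (nat_lit 35) (nat_lit 5) (nat_lit 39) (nat_lit 5) (nat_lit 36) (nat_lit 5) (nat_lit 369) (nat_lit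 303) (nat_lit 108))))) (XT.nd (nat_lit 234) (nat_lit 152) (nat_lit 0) (XT.nd (nat_lit 78) (nat_lit 228) (nat_lit 0) (XT.lf (nat_lit 0) (nat_lit 16756557763) (nat_lit 304) (nat_lit 10264220431) (nat_lit 76) (nat_lit 25127508203) (nat_lit 35) (nat_lit 5) (nat_lit 39) (nat_lit 5) (nat_lit 36) (nat_lit 5) (nat_lit 370) (nat_lit 303) (nat_lit 107)) (XT.nd (nat_lit 78) (nat_lit 0) (nat_lit 0) (XT.lf (nat_lit 0) (nat_lit 6597764164) (nat_lit 228) (nat_lit 16297924566) (nat_lit 304) (nat_lit 30456278940) (nat_lit 32) (nat_lit 5) (nat_lit 35) (nat_lit 5) (nat_lit 36) (nat_lit 5) (nat_lit 371) (nat_lit 303) (nat_lit 106)) (XT.lf (nat_lit 0) (nat_lit 24173034304) (nat_lit 228) (nat_lit 5147584247) (nat_lit 304) (nat_lit 25268095857) (nat_lit 32) (nat_lit 5) (nat_lit 35) (nat_lit 5) (nat_lit 36) (nat_lit 5) (nat_lit 372) (nat_lit 303) (nat_lit 105)))) (XT.nd (nat_lit 78) (nat_lit 152) (nat_lit 0) (XT.lf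 (nat_lit 0) (nat_lit 35997240380) (nat_lit 304) (nat_lit 13650865996) (nat_lit 76) (nat_lit 6212692514) (nat_lit 32) (nat_lit 5) (nat_lit 36) (nat_lit 5) (nat_lit 33) (nat_lit 5) (nat_lit 373) (nat_lit 303) (nat_lit 104)) (XT.nd (nat_lit 78) (nat_lit 0) (nat_lit 0) (XT.lf (nat_lit 0) (nat_lit 3633976860) (nat_lit 152) (nat_lit 39324166108) (nat_lit 228) (nat_lit 14210387034) (nat_lit 30) (nat_lit 5) (nat_lit 32) (nat_lit 5) (nat_lit 33) (nat_lit 5) (nat_lit 374) (nat_lit 303) (nat_lit 103)) (XT.lf (nat_lit 0) (nat_lit 21714360955) (nat_lit 152) (nat_lit 28549471146) (nat_lit 228) (nat_lit 8247585617) (nat_lit 30) (nat_lit 5) (nat_lit 32) (nat_lit 5) (nat_lit 33) (nat_lit 5) (nat_lit 375) (nat_lit 303) (nat_lit 102)))))) (XT.nd (nat_lit 35100) (nat_lit 0) (nat_lit 9120) (XT.nd (nat_lit 156) (nat_lit 228) (nat_lit 0) (XT.nd (nat_lit 78) (nat_lit 76) (nat_lit 0) (XT.lf (nat_lit 0) (nat_lit 40334405682)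 (nat_lit 152) (nat_lit 17452453690) (nat_lit 228) (nat_lit 2107791024) (nat_lit 30) (nat_lit 5) (nat_lit 32) (nat_lit 5) (nat_lit 33) (nat_lit 5) (nat_lit 376) (nat_lit 303) (nat_lit 101)) (XT.lf (nat_lit 0) (nat_lit 4132124237) (nat_lit 228) (nat_lit 1849566725) (nat_lit 76) (nat_lit 55336530393) (nat_lit 29) (nat_lit 5) (nat_lit 32) (nat_lit 5) (nat_lit 30) (nat_lit 5) (nat_lit 377) (nat_lit 303) (nat_lit 100))) (XT.nd (nat_lit 78) (nat_lit 0) (nat_lit 0) (XT.lf (nat_lit 0) (nat_lit 10733463901) (nat_lit 304) (nat_lit 46142268360) (nat_lit 76) (nat_lit 5901646432) (nat_lit 26) (nat_lit 5) (nat_lit 30) (nat_lit 5) (nat_lit 27) (nat_lit 5) (nat_lit 378) (nat_lit 303) (nat_lit 99)) (XT.nd (nat_lit 34788) (nat_lit 0) (nat_lit 9120) (XT.lf (nat_lit 0) (nat_lit 17609200159) (nat_lit 304) (nat_lit 28629569190) (nat_lit 76) (nat_lit 18039253690) (nat_lit 26) (nat_lit 5) (nat_lit 30) (nat_lit 5) (nat_lit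 27) (nat_lit 5) (nat_lit 379) (nat_lit 303) (nat_lit 98)) (XT.lf (nat_lit 0) (nat_lit 3243188949) (nat_lit 0) (nat_lit 3243188949) (nat_lit 988) (nat_lit 1180496253) (nat_lit 146) (nat_lit 5) (nat_lit 146) (nat_lit 3) (nat_lit 159) (nat_lit 3) (nat_lit 304) (nat_lit 304) (nat_lit 172))))) (XT.nd (nat_lit 234) (nat_lit 0) (nat_lit 76) (XT.nd (nat_lit 78) (nat_lit 0) (nat_lit 0) (XT.lf (nat_lit 0) (nat_lit 12817543115) (nat_lit 0) (nat_lit 599578285) (nat_lit 988) (nat_lit 2138350997) (nat_lit 146) (nat_lit 5) (nat_lit 146) (nat_lit 3) (nat_lit 159) (nat_lit 3) (nat_lit 305) (nat_lit 304) (nat_lit 171)) (XT.nd (nat_lit 78) (nat_lit 0) (nat_lit 0) (XT.lf (nat_lit 76) (nat_lit 3566627107) (nat_lit 0) (nat_lit 10385295957) (nat_lit 1064) (nat_lit 1829642785) (nat_lit 147) (nat_lit 5) (nat_lit 146) (nat_lit 5) (nat_lit 160) (nat_lit 5) (nat_lit 306) (nat_lit 304) (nat_lit 170)) (XT.lf (nat_lit 76)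 (nat_lit 10105197827) (nat_lit 0) (nat_lit 4421628389) (nat_lit 1064) (nat_lit 1486924057) (nat_lit 147) (nat_lit 5) (nat_lit 146) (nat_lit 5) (nat_lit 160) (nat_lit 5) (nat_lit 307) (nat_lit 304) (nat_lit 169)))) (XT.nd (nat_lit 78) (nat_lit 0) (nat_lit 0) (XT.lf (nat_lit 76) (nat_lit 576343021) (nat_lit 0) (nat_lit 14555563609) (nat_lit 1064) (nat_lit 1120634716) (nat_lit 148) (nat_lit 5) (nat_lit 147) (nat_lit 5) (nat_lit 161) (nat_lit 5) (nat_lit 308) (nat_lit 304) (nat_lit 168)) (XT.nd (nat_lit 78) (nat_lit 0) (nat_lit 0) (XT.lf (nat_lit 76) (nat_lit 7326921786) (nat_lit 0) (nat_lit 8522294272) (nat_lit 1064) (nat_lit 646485971) (nat_lit 148) (nat_lit 5) (nat_lit 147) (nat_lit 5) (nat_lit 161) (nat_lit 5) (nat_lit 309) (nat_lit 304) (nat_lit 167)) (XT.lf (nat_lit 76) (nat_lit 14274839931) (nat_lit 0) (nat_lit 2304527662) (nat_lit 1064) (nat_lit 167077610) (nat_lit 148) (nat_lit 5) (nat_lit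 147) (nat_lit 5) (nat_lit 161) (nat_lit 5) (nat_lit 310) (nat_lit 304) (nat_lit 166))))))) (XT.nd (nat_lit 858) (nat_lit 2812) (nat_lit 0) (XT.nd (nat_lit 390) (nat_lit 0) (nat_lit 152) (XT.nd (nat_lit 156) (nat_lit 0) (nat_lit 0) (XT.nd (nat_lit 78) (nat_lit 0) (nat_lit 0) (XT.lf (nat_lit 0) (nat_lit 395019977) (nat_lit 1064) (nat_lit 12537449242) (nat_lit 1140) (nat_lit 4069932552) (nat_lit 134) (nat_lit 5) (nat_lit 148) (nat_lit 5) (nat_lit 149) (nat_lit 5) (nat_lit 311) (nat_lit 304) (nat_lit 165)) (XT.lf (nat_lit 0) (nat_lit 1010340346) (nat_lit 1064) (nat_lit 5635211271) (nat_lit 1140) (nat_lit 10619269287) (nat_lit 134) (nat_lit 5) (nat_lit 148) (nat_lit 5) (nat_lit 149) (nat_lit 5) (nat_lit 312) (nat_lit 304) (nat_lit 164))) (XT.nd (nat_lit 78) (nat_lit 0) (nat_lit 76) (XT.lf (nat_lit 76) (nat_lit 1498007808) (nat_lit 0) (nat_lit 152449532) (nat_lit 1140) (nat_lit 15884489466) (nat_lit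 135) (nat_lit 5) (nat_lit 134) (nat_lit 5) (nat_lit 149) (nat_lit 5) (nat_lit 313) (nat_lit 304) (nat_lit 163)) (XT.nd (nat_lit 78) (nat_lit 0) (nat_lit 0) (XT.lf (nat_lit 0) (nat_lit 2422215129) (nat_lit 1064) (nat_lit 8919666192) (nat_lit 1140) (nat_lit 6467945643) (nat_lit 135) (nat_lit 5) (nat_lit 149) (nat_lit 5) (nat_lit 150) (nat_lit 5) (nat_lit 314) (nat_lit 304) (nat_lit 162)) (XT.lf (nat_lit 0) (nat_lit 3211010381) (nat_lit 1064) (nat_lit 1595773434) (nat_lit 1140) (nat_lit 13286376078) (nat_lit 135) (nat_lit 5) (nat_lit 149) (nat_lit 5) (nat_lit 150) (nat_lit 5) (nat_lit 315) (nat_lit 304) (nat_lit 161))))) (XT.nd (nat_lit 234) (nat_lit 0) (nat_lit 76) (XT.nd (nat_lit 78) (nat_lit 0) (nat_lit 0) (XT.lf (nat_lit 0) (nat_lit 4093423618) (nat_lit 1064) (nat_lit 12341711498) (nat_lit 1140) (nat_lit 1947781315) (nat_lit 136) (nat_lit 5) (nat_lit 150) (nat_lit 5) (nat_lit 151) (nat_lit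 5) (nat_lit 316) (nat_lit 304) (nat_lit 160)) (XT.nd (nat_lit 78) (nat_lit 0) (nat_lit 0) (XT.lf (nat_lit 0) (nat_lit 5058957881) (nat_lit 1064) (nat_lit 4794068307) (nat_lit 1140) (nat_lit 8826661610) (nat_lit 136) (nat_lit 5) (nat_lit 150) (nat_lit 5) (nat_lit 151) (nat_lit 5) (nat_lit 317) (nat_lit 304) (nat_lit 159)) (XT.lf (nat_lit 76) (nat_lit 3033926382) (nat_lit 0) (nat_lit 3041688932) (nat_lit 1140) (nat_lit 12909103245) (nat_lit 137) (nat_lit 5) (nat_lit 136) (nat_lit 5) (nat_lit 151) (nat_lit 5) (nat_lit 318) (nat_lit 304) (nat_lit 158)))) (XT.nd (nat_lit 78) (nat_lit 0) (nat_lit 0) (XT.lf (nat_lit 0) (nat_lit 7203025500) (nat_lit 1064) (nat_lit 8146563444) (nat_lit 1140) (nat_lit 3946924062) (nat_lit 137) (nat_lit 5) (nat_lit 151) (nat_lit 5) (nat_lit 152) (nat_lit 5) (nat_lit 319) (nat_lit 304) (nat_lit 157)) (XT.nd (nat_lit 78) (nat_lit 0) (nat_lit 0) (XT.lf (nat_lit 0) (nat_lit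 8387735488) (nat_lit 1064) (nat_lit 143634663) (nat_lit 1140) (nat_lit 11085606573) (nat_lit 137) (nat_lit 5) (nat_lit 151) (nat_lit 5) (nat_lit 152) (nat_lit 5) (nat_lit 320) (nat_lit 304) (nat_lit 156)) (XT.lf (nat_lit 76) (nat_lit 8255316550) (nat_lit 0) (nat_lit 1425580488) (nat_lit 1140) (nat_lit 10263989194) (nat_lit 138) (nat_lit 5) (nat_lit 137) (nat_lit 5) (nat_lit 152) (nat_lit 5) (nat_lit 321) (nat_lit 304) (nat_lit 155)))))) (XT.nd (nat_lit 390) (nat_lit 1520) (nat_lit 0) (XT.nd (nat_lit 156) (nat_lit 532) (nat_lit 0) (XT.nd (nat_lit 78) (nat_lit 1064) (nat_lit 0) (XT.lf (nat_lit 0) (nat_lit 11064674313) (nat_lit 1064) (nat_lit 3435399196) (nat_lit 76) (nat_lit 5781023519) (nat_lit 138) (nat_lit 5) (nat_lit 152) (nat_lit 5) (nat_lit 139) (nat_lit 5) (nat_lit 322) (nat_lit 304) (nat_lit 154)) (XT.lf (nat_lit 0) (nat_lit 5147559076) (nat_lit 1064) (nat_lit 7399890600) (nat_lit 1140)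 (nat_lit 8078238013) (nat_lit 124) (nat_lit 5) (nat_lit 138) (nat_lit 5) (nat_lit 139) (nat_lit 5) (nat_lit 323) (nat_lit 304) (nat_lit 153))) (XT.nd (nat_lit 78) (nat_lit 532) (nat_lit 0) (XT.lf (nat_lit 0) (nat_lit 14053309010) (nat_lit 1064) (nat_lit 50107502) (nat_lit 1140) (nat_lit 6876355869) (nat_lit 124) (nat_lit 5) (nat_lit 138) (nat_lit 5) (nat_lit 139) (nat_lit 5) (nat_lit 324) (nat_lit 304) (nat_lit 152)) (XT.nd (nat_lit 78) (nat_lit 0) (nat_lit 0) (XT.lf (nat_lit 0) (nat_lit 1840202698) (nat_lit 532) (nat_lit 13950036997) (nat_lit 608) (nat_lit 5551731646) (nat_lit 117) (nat_lit 5) (nat_lit 124) (nat_lit 5) (nat_lit 125) (nat_lit 5) (nat_lit 325) (nat_lit 304) (nat_lit 151)) (XT.lf (nat_lit 0) (nat_lit 11006229509) (nat_lit 532) (nat_lit 6586192470) (nat_lit 608) (nat_lit 4120688209) (nat_lit 117) (nat_lit 5) (nat_lit 124) (nat_lit 5) (nat_lit 125) (nat_lit 5) (nat_lit 326) (nat_lit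 304) (nat_lit 150))))) (XT.nd (nat_lit 234) (nat_lit 988) (nat_lit 0) (XT.nd (nat_lit 78) (nat_lit 532) (nat_lit 0) (XT.lf (nat_lit 0) (nat_lit 19452758722) (nat_lit 608) (nat_lit 1662901547) (nat_lit 76) (nat_lit 979616330) (nat_lit 117) (nat_lit 5) (nat_lit 125) (nat_lit 5) (nat_lit 118) (nat_lit 5) (nat_lit 327) (nat_lit 304) (nat_lit 149)) (XT.nd (nat_lit 78) (nat_lit 76) (nat_lit 0) (XT.lf (nat_lit 0) (nat_lit 7733080960) (nat_lit 456) (nat_lit 13770020169) (nat_lit 532) (nat_lit 981796608) (nat_lit 111) (nat_lit 5) (nat_lit 117) (nat_lit 5) (nat_lit 118) (nat_lit 5) (nat_lit 328) (nat_lit 304) (nat_lit 148)) (XT.lf (nat_lit 0) (nat_lit 726176178) (nat_lit 532) (nat_lit 5452922063) (nat_lit 76) (nat_lit 16706564307) (nat_lit 110) (nat_lit 5) (nat_lit 117) (nat_lit 5) (nat_lit 111) (nat_lit 5) (nat_lit 329) (nat_lit 304) (nat_lit 147)))) (XT.nd (nat_lit 78) (nat_lit 456) (nat_lit 0) (XT.lf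 (nat_lit 0) (nat_lit 2517056345) (nat_lit 608) (nat_lit 19121284655) (nat_lit 76) (nat_lit 1658289918) (nat_lit 103) (nat_lit 5) (nat_lit 111) (nat_lit 5) (nat_lit 104) (nat_lit 5) (nat_lit 330) (nat_lit 304) (nat_lit 146)) (XT.nd (nat_lit 78) (nat_lit 456) (nat_lit 0) (XT.lf (nat_lit 0) (nat_lit 4473402551) (nat_lit 608) (nat_lit 9580807064) (nat_lit 76) (nat_lit 9662380394) (nat_lit 103) (nat_lit 5) (nat_lit 111) (nat_lit 5) (nat_lit 104) (nat_lit 5) (nat_lit 331) (nat_lit 304) (nat_lit 145)) (XT.lf (nat_lit 0) (nat_lit 245779480) (nat_lit 456) (nat_lit 6240120730) (nat_lit 532) (nat_lit 17663337289) (nat_lit 97) (nat_lit 5) (nat_lit 103) (nat_lit 5) (nat_lit 104) (nat_lit 5) (nat_lit 332) (nat_lit 304) (nat_lit 144))))))))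
noncomputable def xc219 : XT := (XT.nd (nat_lit 1716) (nat_lit 2052) (nat_lit 0) (XT.nd (nat_lit 858) (nat_lit 1368) (nat_lit 0) (XT.nd (nat_lit 390) (nat_lit 836) (nat_lit 0) (XT.nd (nat_lit 156) (nat_lit 836) (nat_lit 0) (XT.nd (nat_lit 78) (nat_lit 0) (nat_lit 0) (XT.lf (nat_lit 0) (nat_lit 8669055549) (nat_lit 532) (nat_lit 14051752603) (nat_lit 76) (nat_lit 1870760843) (nat_lit 97) (nat_lit 5) (nat_lit 104) (nat_lit 5) (nat_lit 98) (nat_lit 5) (nat_lit 333) (nat_lit 304) (nat_lit 143)) (XT.lf (nat_lit 0) (nat_lit 10974823029) (nat_lit 532) (nat_lit 3971143603) (nat_lit 76) (nat_lit 10099502966) (nat_lit 97) (nat_lit 5) (nat_lit 104) (nat_lit 5) (nat_lit 98) (nat_lit 5) (nat_lit 334) (nat_lit 304) (nat_lit 142))) (XT.nd (nat_lit 78) (nat_lit 380) (nat_lit 0) (XT.lf (nat_lit 0) (nat_lit 6534676209) (nat_lit 456) (nat_lit 6873372638) (nat_lit 532) (nat_lit 12103202127) (nat_lit 91) (nat_lit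 5) (nat_lit 97) (nat_lit 5) (nat_lit 98) (nat_lit 5) (nat_lit 335) (nat_lit 304) (nat_lit 141)) (XT.nd (nat_lit 78) (nat_lit 380) (nat_lit 0) (XT.lf (nat_lit 0) (nat_lit 15964179608) (nat_lit 532) (nat_lit 8571799483) (nat_lit 76) (nat_lit 1453541411) (nat_lit 91) (nat_lit 5) (nat_lit 98) (nat_lit 5) (nat_lit 92) (nat_lit 5) (nat_lit 336) (nat_lit 304) (nat_lit 140)) (XT.lf (nat_lit 0) (nat_lit 2113631559) (nat_lit 380) (nat_lit 16567417676) (nat_lit 456) (nat_lit 7798578842) (nat_lit 86) (nat_lit 5) (nat_lit 91) (nat_lit 5) (nat_lit 92) (nat_lit 5) (nat_lit 337) (nat_lit 304) (nat_lit 139))))) (XT.nd (nat_lit 234) (nat_lit 456) (nat_lit 0) (XT.nd (nat_lit 78) (nat_lit 380) (nat_lit 0) (XT.lf (nat_lit 0) (nat_lit 13290706022) (nat_lit 380) (nat_lit 8271042691) (nat_lit 456) (nat_lit 5420231720) (nat_lit 86) (nat_lit 5) (nat_lit 91) (nat_lit 5) (nat_lit 92) (nat_lit 5) (nat_lit 338) (nat_lit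 304) (nat_lit 138)) (XT.nd (nat_lit 78) (nat_lit 380) (nat_lit 0) (XT.lf (nat_lit 0) (nat_lit 24527390199) (nat_lit 456) (nat_lit 2703575264) (nat_lit 76) (nat_lit 268493211) (nat_lit 86) (nat_lit 5) (nat_lit 92) (nat_lit 5) (nat_lit 87) (nat_lit 5) (nat_lit 339) (nat_lit 304) (nat_lit 137)) (XT.lf (nat_lit 0) (nat_lit 8697080917) (nat_lit 380) (nat_lit 19046418055) (nat_lit 456) (nat_lit 284127972) (nat_lit 81) (nat_lit 5) (nat_lit 86) (nat_lit 5) (nat_lit 87) (nat_lit 5) (nat_lit 340) (nat_lit 304) (nat_lit 136)))) (XT.nd (nat_lit 78) (nat_lit 380) (nat_lit 0) (XT.lf (nat_lit 0) (nat_lit 2459570798) (nat_lit 456) (nat_lit 8104334954) (nat_lit 76) (nat_lit 18006320041) (nat_lit 80) (nat_lit 5) (nat_lit 86) (nat_lit 5) (nat_lit 81) (nat_lit 5) (nat_lit 341) (nat_lit 304) (nat_lit 135)) (XT.nd (nat_lit 78) (nat_lit 0) (nat_lit 0) (XT.lf (nat_lit 0) (nat_lit 3520133198) (nat_lit 380) (nat_lit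 1789719482) (nat_lit 456) (nat_lit 23818275772) (nat_lit 75) (nat_lit 5) (nat_lit 80) (nat_lit 5) (nat_lit 81) (nat_lit 5) (nat_lit 342) (nat_lit 304) (nat_lit 134)) (XT.lf (nat_lit 0) (nat_lit 8394170374) (nat_lit 456) (nat_lit 14115807053) (nat_lit 76) (nat_lit 7188344380) (nat_lit 75) (nat_lit 5) (nat_lit 81) (nat_lit 5) (nat_lit 76) (nat_lit 5) (nat_lit 343) (nat_lit 304) (nat_lit 133)))))) (XT.nd (nat_lit 390) (nat_lit 684) (nat_lit 0) (XT.nd (nat_lit 156) (nat_lit 304) (nat_lit 0) (XT.nd (nat_lit 78) (nat_lit 380) (nat_lit 0) (XT.lf (nat_lit 0) (nat_lit 11585057917) (nat_lit 456) (nat_lit 2300923481) (nat_lit 76) (nat_lit 16399227518) (nat_lit 75) (nat_lit 5) (nat_lit 81) (nat_lit 5) (nat_lit 76) (nat_lit 5) (nat_lit 344) (nat_lit 304) (nat_lit 132)) (XT.lf (nat_lit 0) (nat_lit 10060499607) (nat_lit 380) (nat_lit 4904307655) (nat_lit 456) (nat_lit 15922110219) (nat_lit 70) (nat_lit 5)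 (nat_lit 75) (nat_lit 5) (nat_lit 76) (nat_lit 5) (nat_lit 345) (nat_lit 304) (nat_lit 131))) (XT.nd (nat_lit 78) (nat_lit 304) (nat_lit 0) (XT.lf (nat_lit 0) (nat_lit 18507683085) (nat_lit 456) (nat_lit 8712352086) (nat_lit 76) (nat_lit 4284798748) (nat_lit 70) (nat_lit 5) (nat_lit 76) (nat_lit 5) (nat_lit 71) (nat_lit 5) (nat_lit 346) (nat_lit 304) (nat_lit 130)) (XT.nd (nat_lit 78) (nat_lit 0) (nat_lit 0) (XT.lf (nat_lit 0) (nat_lit 3786297832) (nat_lit 304) (nat_lit 18452088322) (nat_lit 380) (nat_lit 9900463854) (nat_lit 66) (nat_lit 5) (nat_lit 70) (nat_lit 5) (nat_lit 71) (nat_lit 5) (nat_lit 347) (nat_lit 304) (nat_lit 129)) (XT.lf (nat_lit 0) (nat_lit 16834378106) (nat_lit 304) (nat_lit 9331256901) (nat_lit 380) (nat_lit 6623720973) (nat_lit 66) (nat_lit 5) (nat_lit 70) (nat_lit 5) (nat_lit 71) (nat_lit 5) (nat_lit 348) (nat_lit 304) (nat_lit 128))))) (XT.nd (nat_lit 234) (nat_lit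 304) (nat_lit 0) (XT.nd (nat_lit 78) (nat_lit 380) (nat_lit 0) (XT.lf (nat_lit 0) (nat_lit 30208046323) (nat_lit 380) (nat_lit 3190185934) (nat_lit 76) (nat_lit 61232430) (nat_lit 66) (nat_lit 5) (nat_lit 71) (nat_lit 5) (nat_lit 67) (nat_lit 5) (nat_lit 349) (nat_lit 304) (nat_lit 127)) (XT.nd (nat_lit 78) (nat_lit 0) (nat_lit 0) (XT.lf (nat_lit 0) (nat_lit 405452736) (nat_lit 380) (nat_lit 24090647105) (nat_lit 76) (nat_lit 9647888255) (nat_lit 61) (nat_lit 5) (nat_lit 66) (nat_lit 5) (nat_lit 62) (nat_lit 5) (nat_lit 350) (nat_lit 304) (nat_lit 126)) (XT.lf (nat_lit 0) (nat_lit 4136061990) (nat_lit 380) (nat_lit 11125036082) (nat_lit 76) (nat_lit 19586109132) (nat_lit 61) (nat_lit 5) (nat_lit 66) (nat_lit 5) (nat_lit 62) (nat_lit 5) (nat_lit 351) (nat_lit 304) (nat_lit 125)))) (XT.nd (nat_lit 78) (nat_lit 0) (nat_lit 0) (XT.lf (nat_lit 0) (nat_lit 2269941396) (nat_lit 304) (nat_lit 5727408704)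 (nat_lit 380) (nat_lit 27573616990) (nat_lit 57) (nat_lit 5) (nat_lit 61) (nat_lit 5) (nat_lit 62) (nat_lit 5) (nat_lit 352) (nat_lit 304) (nat_lit 124)) (XT.nd (nat_lit 78) (nat_lit 0) (nat_lit 0) (XT.lf (nat_lit 0) (nat_lit 12124252157) (nat_lit 380) (nat_lit 20062646173) (nat_lit 76) (nat_lit 4125055003) (nat_lit 57) (nat_lit 5) (nat_lit 62) (nat_lit 5) (nat_lit 58) (nat_lit 5) (nat_lit 353) (nat_lit 304) (nat_lit 123)) (XT.lf (nat_lit 0) (nat_lit 16428740483) (nat_lit 380) (nat_lit 6487654581) (nat_lit 76) (nat_lit 14157167343) (nat_lit 57) (nat_lit 5) (nat_lit 62) (nat_lit 5) (nat_lit 58) (nat_lit 5) (nat_lit 354) (nat_lit 304) (nat_lit 122))))))) (XT.nd (nat_lit 858) (nat_lit 912) (nat_lit 0) (XT.nd (nat_lit 390) (nat_lit 608) (nat_lit 0) (XT.nd (nat_lit 156) (nat_lit 228) (nat_lit 0) (XT.nd (nat_lit 78) (nat_lit 0) (nat_lit 0) (XT.lf (nat_lit 0) (nat_lit 7639949002) (nat_lit 304) (nat_lit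 13293011786) (nat_lit 380) (nat_lit 16922947473) (nat_lit 53) (nat_lit 5) (nat_lit 57) (nat_lit 5) (nat_lit 58) (nat_lit 5) (nat_lit 355) (nat_lit 304) (nat_lit 121)) (XT.lf (nat_lit 0) (nat_lit 22320687051) (nat_lit 304) (nat_lit 3314338085) (nat_lit 380) (nat_lit 13024824070) (nat_lit 53) (nat_lit 5) (nat_lit 57) (nat_lit 5) (nat_lit 58) (nat_lit 5) (nat_lit 356) (nat_lit 304) (nat_lit 120))) (XT.nd (nat_lit 78) (nat_lit 228) (nat_lit 0) (XT.lf (nat_lit 0) (nat_lit 30542368680) (nat_lit 380) (nat_lit 2116656511) (nat_lit 76) (nat_lit 6826962730) (nat_lit 53) (nat_lit 5) (nat_lit 58) (nat_lit 5) (nat_lit 54) (nat_lit 5) (nat_lit 357) (nat_lit 304) (nat_lit 119)) (XT.nd (nat_lit 78) (nat_lit 0) (nat_lit 0) (XT.lf (nat_lit 0) (nat_lit 12744857569) (nat_lit 228) (nat_lit 23004758798) (nat_lit 304) (nat_lit 4582719797) (nat_lit 50) (nat_lit 5) (nat_lit 53) (nat_lit 5) (nat_lit 54) (nat_lit 5)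 (nat_lit 358) (nat_lit 304) (nat_lit 118)) (XT.lf (nat_lit 0) (nat_lit 28092091675) (nat_lit 228) (nat_lit 13039764319) (nat_lit 304) (nat_lit 71661334) (nat_lit 50) (nat_lit 5) (nat_lit 53) (nat_lit 5) (nat_lit 54) (nat_lit 5) (nat_lit 359) (nat_lit 304) (nat_lit 117))))) (XT.nd (nat_lit 234) (nat_lit 228) (nat_lit 0) (XT.nd (nat_lit 78) (nat_lit 0) (nat_lit 0) (XT.lf (nat_lit 0) (nat_lit 1786322746) (nat_lit 304) (nat_lit 2713753643) (nat_lit 380) (nat_lit 37599005161) (nat_lit 45) (nat_lit 5) (nat_lit 49) (nat_lit 5) (nat_lit 50) (nat_lit 5) (nat_lit 360) (nat_lit 304) (nat_lit 116)) (XT.nd (nat_lit 78) (nat_lit 0) (nat_lit 0) (XT.lf (nat_lit 0) (nat_lit 9414866214) (nat_lit 380) (nat_lit 25699443984) (nat_lit 76) (nat_lit 7900966231) (nat_lit 45) (nat_lit 5) (nat_lit 50) (nat_lit 5) (nat_lit 46) (nat_lit 5) (nat_lit 361) (nat_lit 304) (nat_lit 115)) (XT.lf (nat_lit 0) (nat_lit 14501520272)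 (nat_lit 380) (nat_lit 10678002813) (nat_lit 76) (nat_lit 18778706529) (nat_lit 45) (nat_lit 5) (nat_lit 50) (nat_lit 5) (nat_lit 46) (nat_lit 5) (nat_lit 362) (nat_lit 304) (nat_lit 114)))) (XT.nd (nat_lit 78) (nat_lit 0) (nat_lit 0) (XT.lf (nat_lit 0) (nat_lit 4886122346) (nat_lit 228) (nat_lit 14899243001) (nat_lit 304) (nat_lit 25142773230) (nat_lit 42) (nat_lit 5) (nat_lit 45) (nat_lit 5) (nat_lit 46) (nat_lit 5) (nat_lit 363) (nat_lit 304) (nat_lit 113)) (XT.nd (nat_lit 78) (nat_lit 0) (nat_lit 0) (XT.lf (nat_lit 0) (nat_lit 21132787161) (nat_lit 228) (nat_lit 4200426280) (nat_lit 304) (nat_lit 20590771520) (nat_lit 42) (nat_lit 5) (nat_lit 45) (nat_lit 5) (nat_lit 46) (nat_lit 5) (nat_lit 364) (nat_lit 304) (nat_lit 112)) (XT.lf (nat_lit 0) (nat_lit 31110768985) (nat_lit 304) (nat_lit 9151648062) (nat_lit 76) (nat_lit 6685396173) (nat_lit 42) (nat_lit 5) (nat_lit 46) (nat_lit 5) (nat_lit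 43) (nat_lit 5) (nat_lit 365) (nat_lit 304) (nat_lit 111)))))) (XT.nd (nat_lit 468) (nat_lit 380) (nat_lit 0) (XT.nd (nat_lit 234) (nat_lit 304) (nat_lit 0) (XT.nd (nat_lit 78) (nat_lit 0) (nat_lit 0) (XT.lf (nat_lit 0) (nat_lit 7049922140) (nat_lit 228) (nat_lit 30118872194) (nat_lit 304) (nat_lit 10830352206) (nat_lit 39) (nat_lit 5) (nat_lit 42) (nat_lit 5) (nat_lit 43) (nat_lit 5) (nat_lit 366) (nat_lit 304) (nat_lit 110)) (XT.nd (nat_lit 78) (nat_lit 0) (nat_lit 0) (XT.lf (nat_lit 0) (nat_lit 23922023094) (nat_lit 228) (nat_lit 19576772163) (nat_lit 304) (nat_lit 5580521935) (nat_lit 39) (nat_lit 5) (nat_lit 42) (nat_lit 5) (nat_lit 43) (nat_lit 5) (nat_lit 367) (nat_lit 304) (nat_lit 109)) (XT.lf (nat_lit 0) (nat_lit 41297261670) (nat_lit 228) (nat_lit 8719319112) (nat_lit 304) (nat_lit 175379895) (nat_lit 39) (nat_lit 5) (nat_lit 42) (nat_lit 5) (nat_lit 43) (nat_lit 5) (nat_lit 368)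 (nat_lit 304) (nat_lit 108)))) (XT.nd (nat_lit 78) (nat_lit 0) (nat_lit 0) (XT.lf (nat_lit 0) (nat_lit 5386048325) (nat_lit 304) (nat_lit 43402931013) (nat_lit 76) (nat_lit 2544472791) (nat_lit 35) (nat_lit 5) (nat_lit 39) (nat_lit 5) (nat_lit 36) (nat_lit 5) (nat_lit 369) (nat_lit 304) (nat_lit 107)) (XT.nd (nat_lit 78) (nat_lit 0) (nat_lit 0) (XT.lf (nat_lit 0) (nat_lit 11285777864) (nat_lit 304) (nat_lit 27155628885) (nat_lit 76) (nat_lit 14062483868) (nat_lit 35) (nat_lit 5) (nat_lit 39) (nat_lit 5) (nat_lit 36) (nat_lit 5) (nat_lit 370) (nat_lit 304) (nat_lit 106)) (XT.lf (nat_lit 0) (nat_lit 17360504364) (nat_lit 304) (nat_lit 10423829984) (nat_lit 76) (nat_lit 25925171535) (nat_lit 35) (nat_lit 5) (nat_lit 39) (nat_lit 5) (nat_lit 36) (nat_lit 5) (nat_lit 371) (nat_lit 304) (nat_lit 105))))) (XT.nd (nat_lit 234) (nat_lit 152) (nat_lit 0) (XT.nd (nat_lit 78) (nat_lit 0) (nat_lit 0) (XT.lf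 (nat_lit 0) (nat_lit 6942560060) (nat_lit 228) (nat_lit 16739711911) (nat_lit 304) (nat_lit 31267077322) (nat_lit 32) (nat_lit 5) (nat_lit 35) (nat_lit 5) (nat_lit 36) (nat_lit 5) (nat_lit 372) (nat_lit 304) (nat_lit 104)) (XT.nd (nat_lit 78) (nat_lit 0) (nat_lit 0) (XT.lf (nat_lit 0) (nat_lit 25040810742) (nat_lit 228) (nat_lit 5256234695) (nat_lit 304) (nat_lit 25926245543) (nat_lit 32) (nat_lit 5) (nat_lit 35) (nat_lit 5) (nat_lit 36) (nat_lit 5) (nat_lit 373) (nat_lit 304) (nat_lit 103)) (XT.lf (nat_lit 0) (nat_lit 37171573482) (nat_lit 304) (nat_lit 13919391751) (nat_lit 76) (nat_lit 6442649797) (nat_lit 32) (nat_lit 5) (nat_lit 36) (nat_lit 5) (nat_lit 33) (nat_lit 5) (nat_lit 374) (nat_lit 304) (nat_lit 102)))) (XT.nd (nat_lit 78) (nat_lit 0) (nat_lit 0) (XT.lf (nat_lit 0) (nat_lit 3882614036) (nat_lit 152) (nat_lit 40457281227) (nat_lit 228) (nat_lit 14540730157) (nat_lit 30) (nat_lit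 5) (nat_lit 32) (nat_lit 5) (nat_lit 33) (nat_lit 5) (nat_lit 375) (nat_lit 304) (nat_lit 101)) (XT.nd (nat_lit 78) (nat_lit 0) (nat_lit 0) (XT.lf (nat_lit 0) (nat_lit 22501343113) (nat_lit 152) (nat_lit 29360702985) (nat_lit 228) (nat_lit 8401839896) (nat_lit 30) (nat_lit 5) (nat_lit 32) (nat_lit 5) (nat_lit 33) (nat_lit 5) (nat_lit 376) (nat_lit 304) (nat_lit 100)) (XT.lf (nat_lit 0) (nat_lit 41676041085) (nat_lit 152) (nat_lit 17932093033) (nat_lit 228) (nat_lit 2080565251) (nat_lit 30) (nat_lit 5) (nat_lit 32) (nat_lit 5) (nat_lit 33) (nat_lit 5) (nat_lit 377) (nat_lit 304) (nat_lit 99))))))))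
noncomputable def xc220 : XT := (XT.nd (nat_lit 36582) (nat_lit 0) (nat_lit 3116) (XT.nd (nat_lit 35724) (nat_lit 0) (nat_lit 7220) (XT.nd (nat_lit 35256) (nat_lit 0) (nat_lit 7904) (XT.nd (nat_lit 35022) (nat_lit 0) (nat_lit 8892) (XT.nd (nat_lit 34944) (nat_lit 0) (nat_lit 8892) (XT.lf (nat_lit 0) (nat_lit 4342198949) (nat_lit 228) (nat_lit 1775418563) (nat_lit 76) (nat_lit 57037415897) (nat_lit 29) (nat_lit 5) (nat_lit 32) (nat_lit 5) (nat_lit 30) (nat_lit 5) (nat_lit 378) (nat_lit 304) (nat_lit 98)) (XT.lf (nat_lit 0) (nat_lit 3464171259) (nat_lit 0) (nat_lit 3464171259) (nat_lit 988) (nat_lit 960335340) (nat_lit 146) (nat_lit 5) (nat_lit 146) (nat_lit 3) (nat_lit 159) (nat_lit 3) (nat_lit 305) (nat_lit 305) (nat_lit 170))) (XT.nd (nat_lit 78) (nat_lit 0) (nat_lit 0) (XT.lf (nat_lit 0) (nat_lit 13442237643) (nat_lit 0) (nat_lit 857733868) (nat_lit 988) (nat_lit 1706237837) (nat_lit 146)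 (nat_lit 5) (nat_lit 146) (nat_lit 3) (nat_lit 159) (nat_lit 3) (nat_lit 306) (nat_lit 305) (nat_lit 169)) (XT.nd (nat_lit 78) (nat_lit 0) (nat_lit 0) (XT.lf (nat_lit 76) (nat_lit 3929496646) (nat_lit 0) (nat_lit 10907548380) (nat_lit 1064) (nat_lit 1402497932) (nat_lit 147) (nat_lit 5) (nat_lit 146) (nat_lit 5) (nat_lit 160) (nat_lit 5) (nat_lit 307) (nat_lit 305) (nat_lit 168)) (XT.lf (nat_lit 76) (nat_lit 10656771942) (nat_lit 0) (nat_lit 4758834080) (nat_lit 1064) (nat_lit 1063537471) (nat_lit 147) (nat_lit 5) (nat_lit 146) (nat_lit 5) (nat_lit 160) (nat_lit 5) (nat_lit 308) (nat_lit 305) (nat_lit 167))))) (XT.nd (nat_lit 234) (nat_lit 0) (nat_lit 76) (XT.nd (nat_lit 78) (nat_lit 1064) (nat_lit 0) (XT.lf (nat_lit 76) (nat_lit 856435108) (nat_lit 0) (nat_lit 15169827451) (nat_lit 1064) (nat_lit 699254679) (nat_lit 148) (nat_lit 5) (nat_lit 147) (nat_lit 5) (nat_lit 161) (nat_lit 5) (nat_lit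 309) (nat_lit 305) (nat_lit 166)) (XT.nd (nat_lit 78) (nat_lit 1064) (nat_lit 0) (XT.lf (nat_lit 76) (nat_lit 7801876815) (nat_lit 0) (nat_lit 8950387308) (nat_lit 1064) (nat_lit 224133872) (nat_lit 148) (nat_lit 5) (nat_lit 147) (nat_lit 5) (nat_lit 161) (nat_lit 5) (nat_lit 310) (nat_lit 305) (nat_lit 165)) (XT.lf (nat_lit 0) (nat_lit 251779426) (nat_lit 1064) (nat_lit 2286743731) (nat_lit 1140) (nat_lit 14696479121) (nat_lit 133) (nat_lit 5) (nat_lit 147) (nat_lit 5) (nat_lit 148) (nat_lit 5) (nat_lit 311) (nat_lit 305) (nat_lit 164)))) (XT.nd (nat_lit 78) (nat_lit 0) (nat_lit 0) (XT.lf (nat_lit 0) (nat_lit 816085131) (nat_lit 1064) (nat_lit 12643686973) (nat_lit 1140) (nat_lit 4039191720) (nat_lit 134) (nat_lit 5) (nat_lit 148) (nat_lit 5) (nat_lit 149) (nat_lit 5) (nat_lit 312) (nat_lit 305) (nat_lit 163)) (XT.nd (nat_lit 78) (nat_lit 0) (nat_lit 0) (XT.lf (nat_lit 0) (nat_lit 1437946241)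 (nat_lit 1064) (nat_lit 5542242613) (nat_lit 1140) (nat_lit 10789460173) (nat_lit 134) (nat_lit 5) (nat_lit 148) (nat_lit 5) (nat_lit 149) (nat_lit 5) (nat_lit 313) (nat_lit 305) (nat_lit 162)) (XT.lf (nat_lit 76) (nat_lit 1802404166) (nat_lit 0) (nat_lit 285784910) (nat_lit 1140) (nat_lit 15959996842) (nat_lit 135) (nat_lit 5) (nat_lit 134) (nat_lit 5) (nat_lit 149) (nat_lit 5) (nat_lit 314) (nat_lit 305) (nat_lit 161)))))) (XT.nd (nat_lit 390) (nat_lit 836) (nat_lit 0) (XT.nd (nat_lit 156) (nat_lit 0) (nat_lit 76) (XT.nd (nat_lit 78) (nat_lit 0) (nat_lit 0) (XT.lf (nat_lit 0) (nat_lit 2870590591) (nat_lit 1064) (nat_lit 8921719135) (nat_lit 1140) (nat_lit 6539411891) (nat_lit 135) (nat_lit 5) (nat_lit 149) (nat_lit 5) (nat_lit 150) (nat_lit 5) (nat_lit 315) (nat_lit 305) (nat_lit 160)) (XT.lf (nat_lit 0) (nat_lit 3672106720) (nat_lit 1064) (nat_lit 1385843684) (nat_lit 1140) (nat_lit 13565965301)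 (nat_lit 135) (nat_lit 5) (nat_lit 149) (nat_lit 5) (nat_lit 150) (nat_lit 5) (nat_lit 316) (nat_lit 305) (nat_lit 159))) (XT.nd (nat_lit 78) (nat_lit 0) (nat_lit 0) (XT.lf (nat_lit 0) (nat_lit 4571848013) (nat_lit 1064) (nat_lit 12443951466) (nat_lit 1140) (nat_lit 1906871711) (nat_lit 136) (nat_lit 5) (nat_lit 150) (nat_lit 5) (nat_lit 151) (nat_lit 5) (nat_lit 317) (nat_lit 305) (nat_lit 158)) (XT.nd (nat_lit 78) (nat_lit 0) (nat_lit 0) (XT.lf (nat_lit 0) (nat_lit 5555990391) (nat_lit 1064) (nat_lit 4677685136) (nat_lit 1140) (nat_lit 8995011903) (nat_lit 136) (nat_lit 5) (nat_lit 150) (nat_lit 5) (nat_lit 151) (nat_lit 5) (nat_lit 318) (nat_lit 305) (nat_lit 157)) (XT.lf (nat_lit 76) (nat_lit 3382598362) (nat_lit 0) (nat_lit 3212969688) (nat_lit 1140) (nat_lit 12947558537) (nat_lit 137) (nat_lit 5) (nat_lit 136) (nat_lit 5) (nat_lit 151) (nat_lit 5) (nat_lit 319) (nat_lit 305) (nat_lit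 156))))) (XT.nd (nat_lit 234) (nat_lit 988) (nat_lit 0) (XT.nd (nat_lit 78) (nat_lit 0) (nat_lit 0) (XT.lf (nat_lit 0) (nat_lit 7746218186) (nat_lit 1064) (nat_lit 8129254508) (nat_lit 1140) (nat_lit 3989148858) (nat_lit 137) (nat_lit 5) (nat_lit 151) (nat_lit 5) (nat_lit 152) (nat_lit 5) (nat_lit 320) (nat_lit 305) (nat_lit 155)) (XT.nd (nat_lit 78) (nat_lit 0) (nat_lit 0) (XT.lf (nat_lit 76) (nat_lit 108252022) (nat_lit 0) (nat_lit 8849730795) (nat_lit 1140) (nat_lit 11236999328) (nat_lit 138) (nat_lit 5) (nat_lit 137) (nat_lit 5) (nat_lit 152) (nat_lit 5) (nat_lit 321) (nat_lit 305) (nat_lit 154)) (XT.lf (nat_lit 76) (nat_lit 8754568373) (nat_lit 0) (nat_lit 1527498969) (nat_lit 1140) (nat_lit 10250925289) (nat_lit 138) (nat_lit 5) (nat_lit 137) (nat_lit 5) (nat_lit 152) (nat_lit 5) (nat_lit 322) (nat_lit 305) (nat_lit 153)))) (XT.nd (nat_lit 78) (nat_lit 1064) (nat_lit 0) (XT.lf (nat_lit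 0) (nat_lit 11697755120) (nat_lit 1064) (nat_lit 3283702812) (nat_lit 76) (nat_lit 5898146637) (nat_lit 138) (nat_lit 5) (nat_lit 152) (nat_lit 5) (nat_lit 139) (nat_lit 5) (nat_lit 323) (nat_lit 305) (nat_lit 152)) (XT.nd (nat_lit 78) (nat_lit 0) (nat_lit 0) (XT.lf (nat_lit 0) (nat_lit 5554246577) (nat_lit 1064) (nat_lit 7664420967) (nat_lit 1140) (nat_lit 8016081748) (nat_lit 124) (nat_lit 5) (nat_lit 138) (nat_lit 5) (nat_lit 139) (nat_lit 5) (nat_lit 324) (nat_lit 305) (nat_lit 151)) (XT.lf (nat_lit 0) (nat_lit 14719821609) (nat_lit 1064) (nat_lit 92905531) (nat_lit 1140) (nat_lit 6787012171) (nat_lit 124) (nat_lit 5) (nat_lit 138) (nat_lit 5) (nat_lit 139) (nat_lit 5) (nat_lit 325) (nat_lit 305) (nat_lit 150))))))) (XT.nd (nat_lit 858) (nat_lit 1596) (nat_lit 0) (XT.nd (nat_lit 390) (nat_lit 1444) (nat_lit 0) (XT.nd (nat_lit 156) (nat_lit 532) (nat_lit 0) (XT.nd (nat_lit 78) (nat_lit 0)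 (nat_lit 0) (XT.lf (nat_lit 0) (nat_lit 2147647883) (nat_lit 532) (nat_lit 14396210265) (nat_lit 608) (nat_lit 5429159465) (nat_lit 117) (nat_lit 5) (nat_lit 124) (nat_lit 5) (nat_lit 125) (nat_lit 5) (nat_lit 326) (nat_lit 305) (nat_lit 149)) (XT.lf (nat_lit 0) (nat_lit 11581308728) (nat_lit 532) (nat_lit 6810644418) (nat_lit 608) (nat_lit 3963605816) (nat_lit 117) (nat_lit 5) (nat_lit 124) (nat_lit 5) (nat_lit 125) (nat_lit 5) (nat_lit 327) (nat_lit 305) (nat_lit 148))) (XT.nd (nat_lit 78) (nat_lit 532) (nat_lit 0) (XT.lf (nat_lit 0) (nat_lit 20299933962) (nat_lit 608) (nat_lit 1466094302) (nat_lit 76) (nat_lit 983430143) (nat_lit 117) (nat_lit 5) (nat_lit 125) (nat_lit 5) (nat_lit 118) (nat_lit 5) (nat_lit 328) (nat_lit 305) (nat_lit 147)) (XT.nd (nat_lit 78) (nat_lit 76) (nat_lit 0) (XT.lf (nat_lit 0) (nat_lit 8209349108) (nat_lit 456) (nat_lit 14197108210) (nat_lit 532) (nat_lit 744493130)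 (nat_lit 111) (nat_lit 5) (nat_lit 117) (nat_lit 5) (nat_lit 118) (nat_lit 5) (nat_lit 329) (nat_lit 305) (nat_lit 146)) (XT.lf (nat_lit 0) (nat_lit 1001895423) (nat_lit 532) (nat_lit 5373591565) (nat_lit 76) (nat_lit 17188423934) (nat_lit 110) (nat_lit 5) (nat_lit 117) (nat_lit 5) (nat_lit 111) (nat_lit 5) (nat_lit 330) (nat_lit 305) (nat_lit 145))))) (XT.nd (nat_lit 234) (nat_lit 456) (nat_lit 0) (XT.nd (nat_lit 78) (nat_lit 456) (nat_lit 0) (XT.lf (nat_lit 0) (nat_lit 2841338131) (nat_lit 608) (nat_lit 19446158177) (nat_lit 76) (nat_lit 1699887439) (nat_lit 103) (nat_lit 5) (nat_lit 111) (nat_lit 5) (nat_lit 104) (nat_lit 5) (nat_lit 331) (nat_lit 305) (nat_lit 144)) (XT.nd (nat_lit 78) (nat_lit 456) (nat_lit 0) (XT.lf (nat_lit 0) (nat_lit 4849128994) (nat_lit 608) (nat_lit 9626711841) (nat_lit 76) (nat_lit 9944338042) (nat_lit 103) (nat_lit 5) (nat_lit 111) (nat_lit 5) (nat_lit 104) (nat_lit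 5) (nat_lit 332) (nat_lit 305) (nat_lit 143)) (XT.lf (nat_lit 0) (nat_lit 492304461) (nat_lit 456) (nat_lit 6424961301) (nat_lit 532) (nat_lit 17948701417) (nat_lit 97) (nat_lit 5) (nat_lit 103) (nat_lit 5) (nat_lit 104) (nat_lit 5) (nat_lit 333) (nat_lit 305) (nat_lit 142)))) (XT.nd (nat_lit 78) (nat_lit 456) (nat_lit 0) (XT.lf (nat_lit 0) (nat_lit 9159041062) (nat_lit 532) (nat_lit 14233619428) (nat_lit 76) (nat_lit 1929133124) (nat_lit 97) (nat_lit 5) (nat_lit 104) (nat_lit 5) (nat_lit 98) (nat_lit 5) (nat_lit 334) (nat_lit 305) (nat_lit 141)) (XT.nd (nat_lit 78) (nat_lit 456) (nat_lit 0) (XT.lf (nat_lit 0) (nat_lit 11527285047) (nat_lit 532) (nat_lit 3857573296) (nat_lit 76) (nat_lit 10404671991) (nat_lit 97) (nat_lit 5) (nat_lit 104) (nat_lit 5) (nat_lit 98) (nat_lit 5) (nat_lit 335) (nat_lit 305) (nat_lit 140)) (XT.lf (nat_lit 0) (nat_lit 6961139692) (nat_lit 456) (nat_lit 7068081440)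 (nat_lit 532) (nat_lit 12240210290) (nat_lit 91) (nat_lit 5) (nat_lit 97) (nat_lit 5) (nat_lit 98) (nat_lit 5) (nat_lit 336) (nat_lit 305) (nat_lit 139)))))) (XT.nd (nat_lit 390) (nat_lit 836) (nat_lit 0) (XT.nd (nat_lit 156) (nat_lit 380) (nat_lit 0) (XT.nd (nat_lit 78) (nat_lit 380) (nat_lit 0) (XT.lf (nat_lit 0) (nat_lit 16655766444) (nat_lit 532) (nat_lit 8598400258) (nat_lit 76) (nat_lit 1508087574) (nat_lit 91) (nat_lit 5) (nat_lit 98) (nat_lit 5) (nat_lit 92) (nat_lit 5) (nat_lit 337) (nat_lit 305) (nat_lit 138)) (XT.lf (nat_lit 0) (nat_lit 2405333389) (nat_lit 380) (nat_lit 17044809238) (nat_lit 456) (nat_lit 7817059097) (nat_lit 86) (nat_lit 5) (nat_lit 91) (nat_lit 5) (nat_lit 92) (nat_lit 5) (nat_lit 338) (nat_lit 305) (nat_lit 137))) (XT.nd (nat_lit 78) (nat_lit 380) (nat_lit 0) (XT.lf (nat_lit 0) (nat_lit 13911070780) (nat_lit 380) (nat_lit 8500114780) (nat_lit 456) (nat_lit 5373637594)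 (nat_lit 86) (nat_lit 5) (nat_lit 91) (nat_lit 5) (nat_lit 92) (nat_lit 5) (nat_lit 339) (nat_lit 305) (nat_lit 136)) (XT.nd (nat_lit 78) (nat_lit 380) (nat_lit 0) (XT.lf (nat_lit 0) (nat_lit 25460073646) (nat_lit 456) (nat_lit 2563248482) (nat_lit 76) (nat_lit 294690996) (nat_lit 86) (nat_lit 5) (nat_lit 92) (nat_lit 5) (nat_lit 87) (nat_lit 5) (nat_lit 340) (nat_lit 305) (nat_lit 135)) (XT.lf (nat_lit 0) (nat_lit 9177256463) (nat_lit 380) (nat_lit 19591783074) (nat_lit 456) (nat_lit 93110936) (nat_lit 81) (nat_lit 5) (nat_lit 86) (nat_lit 5) (nat_lit 87) (nat_lit 5) (nat_lit 341) (nat_lit 305) (nat_lit 134))))) (XT.nd (nat_lit 234) (nat_lit 380) (nat_lit 0) (XT.nd (nat_lit 78) (nat_lit 380) (nat_lit 0) (XT.lf (nat_lit 0) (nat_lit 2723306576) (nat_lit 456) (nat_lit 8130328800) (nat_lit 76) (nat_lit 18567519694) (nat_lit 80) (nat_lit 5) (nat_lit 86) (nat_lit 5) (nat_lit 81) (nat_lit 5) (nat_lit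 342) (nat_lit 305) (nat_lit 133)) (XT.nd (nat_lit 78) (nat_lit 0) (nat_lit 0) (XT.lf (nat_lit 0) (nat_lit 3840744610) (nat_lit 380) (nat_lit 1814886601) (nat_lit 456) (nat_lit 24340281519) (nat_lit 75) (nat_lit 5) (nat_lit 80) (nat_lit 5) (nat_lit 81) (nat_lit 5) (nat_lit 343) (nat_lit 305) (nat_lit 132)) (XT.lf (nat_lit 0) (nat_lit 8827313102) (nat_lit 456) (nat_lit 14324919327) (nat_lit 76) (nat_lit 7431147963) (nat_lit 75) (nat_lit 5) (nat_lit 81) (nat_lit 5) (nat_lit 76) (nat_lit 5) (nat_lit 344) (nat_lit 305) (nat_lit 131)))) (XT.nd (nat_lit 78) (nat_lit 380) (nat_lit 0) (XT.lf (nat_lit 0) (nat_lit 12108646176) (nat_lit 456) (nat_lit 2161832800) (nat_lit 76) (nat_lit 16917566724) (nat_lit 75) (nat_lit 5) (nat_lit 81) (nat_lit 5) (nat_lit 76) (nat_lit 5) (nat_lit 345) (nat_lit 305) (nat_lit 130)) (XT.nd (nat_lit 78) (nat_lit 0) (nat_lit 0) (XT.lf (nat_lit 0) (nat_lit 10568392605) (nat_lit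 380) (nat_lit 5018249067) (nat_lit 456) (nat_lit 16221271008) (nat_lit 70) (nat_lit 5) (nat_lit 75) (nat_lit 5) (nat_lit 76) (nat_lit 5) (nat_lit 346) (nat_lit 305) (nat_lit 129)) (XT.lf (nat_lit 0) (nat_lit 19231077864) (nat_lit 456) (nat_lit 8768507781) (nat_lit 76) (nat_lit 4444935141) (nat_lit 70) (nat_lit 5) (nat_lit 76) (nat_lit 5) (nat_lit 71) (nat_lit 5) (nat_lit 347) (nat_lit 305) (nat_lit 128))))))))
noncomputable def xc221 : XT := (XT.nd (nat_lit 1716) (nat_lit 684) (nat_lit 0) (XT.nd (nat_lit 858) (nat_lit 1064) (nat_lit 0) (XT.nd (nat_lit 390) (nat_lit 608) (nat_lit 0) (XT.nd (nat_lit 156) (nat_lit 380) (nat_lit 0) (XT.nd (nat_lit 78) (nat_lit 0) (nat_lit 0) (XT.lf (nat_lit 0) (nat_lit 4103089724) (nat_lit 304) (nat_lit 18967667623) (nat_lit 380) (nat_lit 10026900386) (nat_lit 66) (nat_lit 5) (nat_lit 70) (nat_lit 5) (nat_lit 71) (nat_lit 5) (nat_lit 348) (nat_lit 305) (nat_lit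 127)) (XT.lf (nat_lit 0) (nat_lit 17536693874) (nat_lit 304) (nat_lit 9574317570) (nat_lit 380) (nat_lit 6656823493) (nat_lit 66) (nat_lit 5) (nat_lit 70) (nat_lit 5) (nat_lit 71) (nat_lit 5) (nat_lit 349) (nat_lit 305) (nat_lit 126))) (XT.nd (nat_lit 78) (nat_lit 380) (nat_lit 0) (XT.lf (nat_lit 0) (nat_lit 31270367199) (nat_lit 380) (nat_lit 3089647179) (nat_lit 76) (nat_lit 98173708) (nat_lit 66) (nat_lit 5) (nat_lit 71) (nat_lit 5) (nat_lit 67) (nat_lit 5) (nat_lit 350) (nat_lit 305) (nat_lit 125)) (XT.nd (nat_lit 78) (nat_lit 0) (nat_lit 0) (XT.lf (nat_lit 0) (nat_lit 572896531) (nat_lit 380) (nat_lit 24615599319) (nat_lit 76) (nat_lit 9974797033) (nat_lit 61) (nat_lit 5) (nat_lit 66) (nat_lit 5) (nat_lit 62) (nat_lit 5) (nat_lit 351) (nat_lit 305) (nat_lit 124)) (XT.lf (nat_lit 0) (nat_lit 4410901337) (nat_lit 380) (nat_lit 11266780175) (nat_lit 76) (nat_lit 20210073115) (nat_lit 61)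 (nat_lit 5) (nat_lit 66) (nat_lit 5) (nat_lit 62) (nat_lit 5) (nat_lit 352) (nat_lit 305) (nat_lit 123))))) (XT.nd (nat_lit 234) (nat_lit 304) (nat_lit 0) (XT.nd (nat_lit 78) (nat_lit 0) (nat_lit 0) (XT.lf (nat_lit 0) (nat_lit 2528164206) (nat_lit 304) (nat_lit 5857300484) (nat_lit 380) (nat_lit 28247849603) (nat_lit 57) (nat_lit 5) (nat_lit 61) (nat_lit 5) (nat_lit 62) (nat_lit 5) (nat_lit 353) (nat_lit 305) (nat_lit 122)) (XT.nd (nat_lit 78) (nat_lit 0) (nat_lit 0) (XT.lf (nat_lit 0) (nat_lit 12632248798) (nat_lit 380) (nat_lit 20475687386) (nat_lit 76) (nat_lit 4288721475) (nat_lit 57) (nat_lit 5) (nat_lit 62) (nat_lit 5) (nat_lit 58) (nat_lit 5) (nat_lit 354) (nat_lit 305) (nat_lit 121)) (XT.lf (nat_lit 0) (nat_lit 17061669761) (nat_lit 380) (nat_lit 6498946188) (nat_lit 76) (nat_lit 14620634618) (nat_lit 57) (nat_lit 5) (nat_lit 62) (nat_lit 5) (nat_lit 58) (nat_lit 5) (nat_lit 355) (nat_lit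 305) (nat_lit 120)))) (XT.nd (nat_lit 78) (nat_lit 0) (nat_lit 0) (XT.lf (nat_lit 0) (nat_lit 8050688071) (nat_lit 304) (nat_lit 13647994060) (nat_lit 380) (nat_lit 17288463925) (nat_lit 53) (nat_lit 5) (nat_lit 57) (nat_lit 5) (nat_lit 58) (nat_lit 5) (nat_lit 356) (nat_lit 305) (nat_lit 119)) (XT.nd (nat_lit 78) (nat_lit 0) (nat_lit 0) (XT.lf (nat_lit 0) (nat_lit 23166560672) (nat_lit 304) (nat_lit 3371236112) (nat_lit 380) (nat_lit 13277537751) (nat_lit 53) (nat_lit 5) (nat_lit 57) (nat_lit 5) (nat_lit 58) (nat_lit 5) (nat_lit 357) (nat_lit 305) (nat_lit 118)) (XT.lf (nat_lit 0) (nat_lit 31588862787) (nat_lit 380) (nat_lit 2005249108) (nat_lit 76) (nat_lit 7072259146) (nat_lit 53) (nat_lit 5) (nat_lit 58) (nat_lit 5) (nat_lit 54) (nat_lit 5) (nat_lit 358) (nat_lit 305) (nat_lit 117)))))) (XT.nd (nat_lit 390) (nat_lit 456) (nat_lit 0) (XT.nd (nat_lit 156) (nat_lit 304) (nat_lit 0) (XT.nd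 (nat_lit 78) (nat_lit 76) (nat_lit 0) (XT.lf (nat_lit 0) (nat_lit 13300395619) (nat_lit 228) (nat_lit 23649804212) (nat_lit 304) (nat_lit 4587982184) (nat_lit 50) (nat_lit 5) (nat_lit 53) (nat_lit 5) (nat_lit 54) (nat_lit 5) (nat_lit 359) (nat_lit 305) (nat_lit 116)) (XT.lf (nat_lit 0) (nat_lit 53492383) (nat_lit 304) (nat_lit 13333140862) (nat_lit 76) (nat_lit 29048969760) (nat_lit 49) (nat_lit 5) (nat_lit 53) (nat_lit 5) (nat_lit 50) (nat_lit 5) (nat_lit 360) (nat_lit 305) (nat_lit 115))) (XT.nd (nat_lit 78) (nat_lit 0) (nat_lit 0) (XT.lf (nat_lit 0) (nat_lit 2009154805) (nat_lit 304) (nat_lit 2749748054) (nat_lit 380) (nat_lit 38599178905) (nat_lit 45) (nat_lit 5) (nat_lit 49) (nat_lit 5) (nat_lit 50) (nat_lit 5) (nat_lit 361) (nat_lit 305) (nat_lit 114)) (XT.nd (nat_lit 78) (nat_lit 0) (nat_lit 0) (XT.lf (nat_lit 0) (nat_lit 9817953721) (nat_lit 380) (nat_lit 26302681652) (nat_lit 76) (nat_lit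 8181230098) (nat_lit 45) (nat_lit 5) (nat_lit 50) (nat_lit 5) (nat_lit 46) (nat_lit 5) (nat_lit 362) (nat_lit 305) (nat_lit 113)) (XT.lf (nat_lit 0) (nat_lit 15053693569) (nat_lit 380) (nat_lit 10835483041) (nat_lit 76) (nat_lit 19384043336) (nat_lit 45) (nat_lit 5) (nat_lit 50) (nat_lit 5) (nat_lit 46) (nat_lit 5) (nat_lit 363) (nat_lit 305) (nat_lit 112))))) (XT.nd (nat_lit 234) (nat_lit 228) (nat_lit 0) (XT.nd (nat_lit 78) (nat_lit 0) (nat_lit 0) (XT.lf (nat_lit 0) (nat_lit 5193969207) (nat_lit 228) (nat_lit 15300223464) (nat_lit 304) (nat_lit 25778096417) (nat_lit 42) (nat_lit 5) (nat_lit 45) (nat_lit 5) (nat_lit 46) (nat_lit 5) (nat_lit 364) (nat_lit 305) (nat_lit 111)) (XT.nd (nat_lit 78) (nat_lit 0) (nat_lit 0) (XT.lf (nat_lit 0) (nat_lit 21923336980) (nat_lit 228) (nat_lit 4281781955) (nat_lit 304) (nat_lit 21092999511) (nat_lit 42) (nat_lit 5) (nat_lit 45) (nat_lit 5) (nat_lit 46)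 (nat_lit 5) (nat_lit 365) (nat_lit 305) (nat_lit 110)) (XT.lf (nat_lit 0) (nat_lit 32153158426) (nat_lit 304) (nat_lit 9271126633) (nat_lit 76) (nat_lit 6928468439) (nat_lit 42) (nat_lit 5) (nat_lit 46) (nat_lit 5) (nat_lit 43) (nat_lit 5) (nat_lit 366) (nat_lit 305) (nat_lit 109)))) (XT.nd (nat_lit 78) (nat_lit 0) (nat_lit 0) (XT.lf (nat_lit 0) (nat_lit 7414970373) (nat_lit 228) (nat_lit 30976253495) (nat_lit 304) (nat_lit 11044460440) (nat_lit 39) (nat_lit 5) (nat_lit 42) (nat_lit 5) (nat_lit 43) (nat_lit 5) (nat_lit 367) (nat_lit 305) (nat_lit 108)) (XT.nd (nat_lit 78) (nat_lit 0) (nat_lit 0) (XT.lf (nat_lit 0) (nat_lit 24788762009) (nat_lit 228) (nat_lit 20119235653) (nat_lit 304) (nat_lit 5640362514) (nat_lit 39) (nat_lit 5) (nat_lit 42) (nat_lit 5) (nat_lit 43) (nat_lit 5) (nat_lit 368) (nat_lit 305) (nat_lit 107)) (XT.lf (nat_lit 0) (nat_lit 42680915657) (nat_lit 228) (nat_lit 8937365020)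 (nat_lit 304) (nat_lit 76199467) (nat_lit 39) (nat_lit 5) (nat_lit 42) (nat_lit 5) (nat_lit 43) (nat_lit 5) (nat_lit 369) (nat_lit 305) (nat_lit 106))))))) (XT.nd (nat_lit 35802) (nat_lit 0) (nat_lit 7828) (XT.nd (nat_lit 390) (nat_lit 152) (nat_lit 0) (XT.nd (nat_lit 156) (nat_lit 228) (nat_lit 0) (XT.nd (nat_lit 78) (nat_lit 0) (nat_lit 0) (XT.lf (nat_lit 0) (nat_lit 5648879643) (nat_lit 304) (nat_lit 44556701883) (nat_lit 76) (nat_lit 2664645061) (nat_lit 35) (nat_lit 5) (nat_lit 39) (nat_lit 5) (nat_lit 36) (nat_lit 5) (nat_lit 370) (nat_lit 305) (nat_lit 105)) (XT.lf (nat_lit 0) (nat_lit 11722652044) (nat_lit 304) (nat_lit 27826300606) (nat_lit 76) (nat_lit 14526919633) (nat_lit 35) (nat_lit 5) (nat_lit 39) (nat_lit 5) (nat_lit 36) (nat_lit 5) (nat_lit 371) (nat_lit 305) (nat_lit 104))) (XT.nd (nat_lit 78) (nat_lit 228) (nat_lit 0) (XT.lf (nat_lit 0) (nat_lit 17976757207) (nat_lit 304)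 (nat_lit 10596741829) (nat_lit 76) (nat_lit 26744248282) (nat_lit 35) (nat_lit 5) (nat_lit 39) (nat_lit 5) (nat_lit 36) (nat_lit 5) (nat_lit 372) (nat_lit 305) (nat_lit 103)) (XT.nd (nat_lit 78) (nat_lit 0) (nat_lit 0) (XT.lf (nat_lit 0) (nat_lit 7289269298) (nat_lit 228) (nat_lit 17197459503) (nat_lit 304) (nat_lit 32108105962) (nat_lit 32) (nat_lit 5) (nat_lit 35) (nat_lit 5) (nat_lit 36) (nat_lit 5) (nat_lit 373) (nat_lit 305) (nat_lit 102)) (XT.lf (nat_lit 0) (nat_lit 25926435487) (nat_lit 228) (nat_lit 5370772449) (nat_lit 304) (nat_lit 26609873997) (nat_lit 32) (nat_lit 5) (nat_lit 35) (nat_lit 5) (nat_lit 36) (nat_lit 5) (nat_lit 374) (nat_lit 305) (nat_lit 101))))) (XT.nd (nat_lit 234) (nat_lit 0) (nat_lit 0) (XT.nd (nat_lit 78) (nat_lit 152) (nat_lit 0) (XT.lf (nat_lit 0) (nat_lit 38375716719) (nat_lit 304) (nat_lit 14204067268) (nat_lit 76) (nat_lit 6677004329) (nat_lit 32) (nat_lit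 5) (nat_lit 36) (nat_lit 5) (nat_lit 33) (nat_lit 5) (nat_lit 375) (nat_lit 305) (nat_lit 100)) (XT.nd (nat_lit 78) (nat_lit 0) (nat_lit 0) (XT.lf (nat_lit 0) (nat_lit 4130695690) (nat_lit 152) (nat_lit 41627065396) (nat_lit 228) (nat_lit 14886492557) (nat_lit 30) (nat_lit 5) (nat_lit 32) (nat_lit 5) (nat_lit 33) (nat_lit 5) (nat_lit 376) (nat_lit 305) (nat_lit 99)) (XT.lf (nat_lit 0) (nat_lit 23304153536) (nat_lit 152) (nat_lit 30198869447) (nat_lit 228) (nat_lit 8566070331) (nat_lit 30) (nat_lit 5) (nat_lit 32) (nat_lit 5) (nat_lit 33) (nat_lit 5) (nat_lit 377) (nat_lit 305) (nat_lit 98)))) (XT.nd (nat_lit 35022) (nat_lit 0) (nat_lit 8816) (XT.lf (nat_lit 0) (nat_lit 43050370987) (nat_lit 152) (nat_lit 18428643564) (nat_lit 228) (nat_lit 2057715450) (nat_lit 30) (nat_lit 5) (nat_lit 32) (nat_lit 5) (nat_lit 33) (nat_lit 5) (nat_lit 378) (nat_lit 305) (nat_lit 97)) (XT.nd (nat_lit 78) (nat_lit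 0) (nat_lit 0) (XT.lf (nat_lit 0) (nat_lit 3684682918) (nat_lit 0) (nat_lit 3684682918) (nat_lit 988) (nat_lit 748240696) (nat_lit 146) (nat_lit 5) (nat_lit 146) (nat_lit 3) (nat_lit 159) (nat_lit 3) (nat_lit 306) (nat_lit 306) (nat_lit 168)) (XT.lf (nat_lit 0) (nat_lit 14071886368) (nat_lit 0) (nat_lit 1109847480) (nat_lit 988) (nat_lit 1289648848) (nat_lit 146) (nat_lit 5) (nat_lit 146) (nat_lit 3) (nat_lit 159) (nat_lit 3) (nat_lit 307) (nat_lit 306) (nat_lit 167)))))) (XT.nd (nat_lit 468) (nat_lit 0) (nat_lit 76) (XT.nd (nat_lit 234) (nat_lit 988) (nat_lit 0) (XT.nd (nat_lit 78) (nat_lit 0) (nat_lit 0) (XT.lf (nat_lit 76) (nat_lit 4288564245) (nat_lit 0) (nat_lit 11433373704) (nat_lit 1064) (nat_lit 990209464) (nat_lit 147) (nat_lit 5) (nat_lit 146) (nat_lit 5) (nat_lit 160) (nat_lit 5) (nat_lit 308) (nat_lit 306) (nat_lit 166)) (XT.nd (nat_lit 78) (nat_lit 0) (nat_lit 76) (XT.lf (nat_lit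 76) (nat_lit 11210633061) (nat_lit 0) (nat_lit 5094413542) (nat_lit 1064) (nat_lit 654314075) (nat_lit 147) (nat_lit 5) (nat_lit 146) (nat_lit 5) (nat_lit 160) (nat_lit 5) (nat_lit 309) (nat_lit 306) (nat_lit 165)) (XT.lf (nat_lit 76) (nat_lit 1129844059) (nat_lit 0) (nat_lit 15792324419) (nat_lit 1064) (nat_lit 291352050) (nat_lit 148) (nat_lit 5) (nat_lit 147) (nat_lit 5) (nat_lit 161) (nat_lit 5) (nat_lit 310) (nat_lit 306) (nat_lit 164)))) (XT.nd (nat_lit 78) (nat_lit 0) (nat_lit 0) (XT.lf (nat_lit 0) (nat_lit 181910349) (nat_lit 1064) (nat_lit 9197677992) (nat_lit 1140) (nat_lit 8092686703) (nat_lit 133) (nat_lit 5) (nat_lit 147) (nat_lit 5) (nat_lit 148) (nat_lit 5) (nat_lit 311) (nat_lit 306) (nat_lit 163)) (XT.nd (nat_lit 78) (nat_lit 0) (nat_lit 76) (XT.lf (nat_lit 0) (nat_lit 655705013) (nat_lit 1064) (nat_lit 2112763833) (nat_lit 1140) (nat_lit 14970494701) (nat_lit 133) (nat_lit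 5) (nat_lit 147) (nat_lit 5) (nat_lit 148) (nat_lit 5) (nat_lit 312) (nat_lit 306) (nat_lit 162)) (XT.lf (nat_lit 0) (nat_lit 1226291650) (nat_lit 1064) (nat_lit 12768604383) (nat_lit 1140) (nat_lit 4016302236) (nat_lit 134) (nat_lit 5) (nat_lit 148) (nat_lit 5) (nat_lit 149) (nat_lit 5) (nat_lit 313) (nat_lit 306) (nat_lit 161))))) (XT.nd (nat_lit 234) (nat_lit 0) (nat_lit 76) (XT.nd (nat_lit 78) (nat_lit 0) (nat_lit 0) (XT.lf (nat_lit 0) (nat_lit 1855573915) (nat_lit 1064) (nat_lit 5461526202) (nat_lit 1140) (nat_lit 10973274817) (nat_lit 134) (nat_lit 5) (nat_lit 148) (nat_lit 5) (nat_lit 149) (nat_lit 5) (nat_lit 314) (nat_lit 306) (nat_lit 160)) (XT.nd (nat_lit 78) (nat_lit 0) (nat_lit 76) (XT.lf (nat_lit 76) (nat_lit 2101038572) (nat_lit 0) (nat_lit 415728891) (nat_lit 1140) (nat_lit 16060790047) (nat_lit 135) (nat_lit 5) (nat_lit 134) (nat_lit 5) (nat_lit 149) (nat_lit 5) (nat_lit 315)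 (nat_lit 306) (nat_lit 159)) (XT.lf (nat_lit 0) (nat_lit 3310850083) (nat_lit 1064) (nat_lit 8939076580) (nat_lit 1140) (nat_lit 6620058268) (nat_lit 135) (nat_lit 5) (nat_lit 149) (nat_lit 5) (nat_lit 150) (nat_lit 5) (nat_lit 316) (nat_lit 306) (nat_lit 158)))) (XT.nd (nat_lit 78) (nat_lit 0) (nat_lit 76) (XT.lf (nat_lit 0) (nat_lit 4126096887) (nat_lit 1064) (nat_lit 1184414985) (nat_lit 1140) (nat_lit 13860773406) (nat_lit 135) (nat_lit 5) (nat_lit 149) (nat_lit 5) (nat_lit 150) (nat_lit 5) (nat_lit 317) (nat_lit 306) (nat_lit 157)) (XT.nd (nat_lit 78) (nat_lit 0) (nat_lit 0) (XT.lf (nat_lit 0) (nat_lit 5044211000) (nat_lit 1064) (nat_lit 12564643583) (nat_lit 1140) (nat_lit 1870437516) (nat_lit 136) (nat_lit 5) (nat_lit 150) (nat_lit 5) (nat_lit 151) (nat_lit 5) (nat_lit 318) (nat_lit 306) (nat_lit 156)) (XT.lf (nat_lit 0) (nat_lit 6048114323) (nat_lit 1064) (nat_lit 4572747314) (nat_lit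 1140) (nat_lit 9173949302) (nat_lit 136) (nat_lit 5) (nat_lit 150) (nat_lit 5) (nat_lit 151) (nat_lit 5) (nat_lit 319) (nat_lit 306) (nat_lit 155))))))))
noncomputable def xc222 : XT := (XT.nd (nat_lit 1716) (nat_lit 3116) (nat_lit 0) (XT.nd (nat_lit 858) (nat_lit 1900) (nat_lit 0) (XT.nd (nat_lit 390) (nat_lit 1900) (nat_lit 0) (XT.nd (nat_lit 156) (nat_lit 0) (nat_lit 76) (XT.nd (nat_lit 78) (nat_lit 0) (nat_lit 76) (XT.lf (nat_lit 76) (nat_lit 3726940097) (nat_lit 0) (nat_lit 3384794812) (nat_lit 1140) (nat_lit 13007191058) (nat_lit 137) (nat_lit 5) (nat_lit 136) (nat_lit 5) (nat_lit 151) (nat_lit 5) (nat_lit 320) (nat_lit 306) (nat_lit 154)) (XT.lf (nat_lit 0) (nat_lit 8286929664) (nat_lit 1064) (nat_lit 8126449290) (nat_lit 1140) (nat_lit 4037013610) (nat_lit 137) (nat_lit 5) (nat_lit 151) (nat_lit 5) (nat_lit 152) (nat_lit 5) (nat_lit 321) (nat_lit 306) (nat_lit 153))) (XT.nd (nat_lit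 78) (nat_lit 0) (nat_lit 0) (XT.lf (nat_lit 76) (nat_lit 355763976) (nat_lit 0) (nat_lit 9172650939) (nat_lit 1140) (nat_lit 11262474764) (nat_lit 138) (nat_lit 5) (nat_lit 137) (nat_lit 5) (nat_lit 152) (nat_lit 5) (nat_lit 322) (nat_lit 306) (nat_lit 152)) (XT.nd (nat_lit 78) (nat_lit 0) (nat_lit 76) (XT.lf (nat_lit 76) (nat_lit 9254355321) (nat_lit 0) (nat_lit 1629079491) (nat_lit 1140) (nat_lit 10255895238) (nat_lit 138) (nat_lit 5) (nat_lit 137) (nat_lit 5) (nat_lit 152) (nat_lit 5) (nat_lit 323) (nat_lit 306) (nat_lit 151)) (XT.lf (nat_lit 0) (nat_lit 12332541651) (nat_lit 1064) (nat_lit 3142079709) (nat_lit 76) (nat_lit 6022015734) (nat_lit 138) (nat_lit 5) (nat_lit 152) (nat_lit 5) (nat_lit 139) (nat_lit 5) (nat_lit 324) (nat_lit 306) (nat_lit 150))))) (XT.nd (nat_lit 234) (nat_lit 456) (nat_lit 0) (XT.nd (nat_lit 78) (nat_lit 532) (nat_lit 0) (XT.lf (nat_lit 0) (nat_lit 5958653905)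 (nat_lit 1064) (nat_lit 7934445639) (nat_lit 1140) (nat_lit 7969540536) (nat_lit 124) (nat_lit 5) (nat_lit 138) (nat_lit 5) (nat_lit 139) (nat_lit 5) (nat_lit 325) (nat_lit 306) (nat_lit 149)) (XT.nd (nat_lit 78) (nat_lit 532) (nat_lit 0) (XT.lf (nat_lit 0) (nat_lit 15392270560) (nat_lit 1064) (nat_lit 134617012) (nat_lit 1140) (nat_lit 6711958785) (nat_lit 124) (nat_lit 5) (nat_lit 138) (nat_lit 5) (nat_lit 139) (nat_lit 5) (nat_lit 326) (nat_lit 306) (nat_lit 148)) (XT.lf (nat_lit 0) (nat_lit 2449836866) (nat_lit 532) (nat_lit 14854180237) (nat_lit 608) (nat_lit 5319507026) (nat_lit 117) (nat_lit 5) (nat_lit 124) (nat_lit 5) (nat_lit 125) (nat_lit 5) (nat_lit 327) (nat_lit 306) (nat_lit 147)))) (XT.nd (nat_lit 78) (nat_lit 456) (nat_lit 0) (XT.lf (nat_lit 0) (nat_lit 12159582501) (nat_lit 532) (nat_lit 7040287695) (nat_lit 608) (nat_lit 3817924454) (nat_lit 117) (nat_lit 5) (nat_lit 124)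 (nat_lit 5) (nat_lit 125) (nat_lit 5) (nat_lit 328) (nat_lit 306) (nat_lit 146)) (XT.nd (nat_lit 78) (nat_lit 456) (nat_lit 0) (XT.lf (nat_lit 0) (nat_lit 21157393173) (nat_lit 608) (nat_lit 1277544101) (nat_lit 76) (nat_lit 988826461) (nat_lit 117) (nat_lit 5) (nat_lit 125) (nat_lit 5) (nat_lit 118) (nat_lit 5) (nat_lit 329) (nat_lit 306) (nat_lit 145)) (XT.lf (nat_lit 0) (nat_lit 8685882875) (nat_lit 456) (nat_lit 14636205955) (nat_lit 532) (nat_lit 515383513) (nat_lit 111) (nat_lit 5) (nat_lit 117) (nat_lit 5) (nat_lit 118) (nat_lit 5) (nat_lit 330) (nat_lit 306) (nat_lit 144)))))) (XT.nd (nat_lit 390) (nat_lit 836) (nat_lit 0) (XT.nd (nat_lit 156) (nat_lit 456) (nat_lit 0) (XT.nd (nat_lit 78) (nat_lit 532) (nat_lit 0) (XT.lf (nat_lit 0) (nat_lit 1271309397) (nat_lit 532) (nat_lit 5305825648) (nat_lit 76) (nat_lit 17685849390) (nat_lit 110) (nat_lit 5) (nat_lit 117) (nat_lit 5) (nat_lit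 111) (nat_lit 5) (nat_lit 331) (nat_lit 306) (nat_lit 143)) (XT.lf (nat_lit 0) (nat_lit 3161067951) (nat_lit 608) (nat_lit 19795058034) (nat_lit 76) (nat_lit 1743200797) (nat_lit 103) (nat_lit 5) (nat_lit 111) (nat_lit 5) (nat_lit 104) (nat_lit 5) (nat_lit 332) (nat_lit 306) (nat_lit 142))) (XT.nd (nat_lit 78) (nat_lit 456) (nat_lit 0) (XT.lf (nat_lit 0) (nat_lit 5222262742) (nat_lit 608) (nat_lit 9687857966) (nat_lit 76) (nat_lit 10235208703) (nat_lit 103) (nat_lit 5) (nat_lit 111) (nat_lit 5) (nat_lit 104) (nat_lit 5) (nat_lit 333) (nat_lit 306) (nat_lit 141)) (XT.nd (nat_lit 78) (nat_lit 0) (nat_lit 0) (XT.lf (nat_lit 0) (nat_lit 732496912) (nat_lit 456) (nat_lit 6615482739) (nat_lit 532) (nat_lit 18256663835) (nat_lit 97) (nat_lit 5) (nat_lit 103) (nat_lit 5) (nat_lit 104) (nat_lit 5) (nat_lit 334) (nat_lit 306) (nat_lit 140)) (XT.lf (nat_lit 0) (nat_lit 9650528145) (nat_lit 532) (nat_lit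 14434701201) (nat_lit 76) (nat_lit 1989127444) (nat_lit 97) (nat_lit 5) (nat_lit 104) (nat_lit 5) (nat_lit 98) (nat_lit 5) (nat_lit 335) (nat_lit 306) (nat_lit 139))))) (XT.nd (nat_lit 234) (nat_lit 380) (nat_lit 0) (XT.nd (nat_lit 78) (nat_lit 456) (nat_lit 0) (XT.lf (nat_lit 0) (nat_lit 12083507337) (nat_lit 532) (nat_lit 3753954078) (nat_lit 76) (nat_lit 10718870721) (nat_lit 97) (nat_lit 5) (nat_lit 104) (nat_lit 5) (nat_lit 98) (nat_lit 5) (nat_lit 336) (nat_lit 306) (nat_lit 138)) (XT.nd (nat_lit 78) (nat_lit 0) (nat_lit 0) (XT.lf (nat_lit 0) (nat_lit 7387169845) (nat_lit 456) (nat_lit 7269291216) (nat_lit 532) (nat_lit 12394307068) (nat_lit 91) (nat_lit 5) (nat_lit 97) (nat_lit 5) (nat_lit 98) (nat_lit 5) (nat_lit 337) (nat_lit 306) (nat_lit 137)) (XT.lf (nat_lit 0) (nat_lit 17355893248) (nat_lit 532) (nat_lit 8639033754) (nat_lit 76) (nat_lit 1563642127) (nat_lit 91) (nat_lit 5) (nat_lit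 98) (nat_lit 5) (nat_lit 92) (nat_lit 5) (nat_lit 338) (nat_lit 306) (nat_lit 136)))) (XT.nd (nat_lit 78) (nat_lit 0) (nat_lit 0) (XT.lf (nat_lit 0) (nat_lit 2692681330) (nat_lit 380) (nat_lit 17537649445) (nat_lit 456) (nat_lit 7848463027) (nat_lit 86) (nat_lit 5) (nat_lit 91) (nat_lit 5) (nat_lit 92) (nat_lit 5) (nat_lit 339) (nat_lit 306) (nat_lit 135)) (XT.nd (nat_lit 78) (nat_lit 0) (nat_lit 0) (XT.lf (nat_lit 0) (nat_lit 14537323232) (nat_lit 380) (nat_lit 8737153107) (nat_lit 456) (nat_lit 5337654642) (nat_lit 86) (nat_lit 5) (nat_lit 91) (nat_lit 5) (nat_lit 92) (nat_lit 5) (nat_lit 340) (nat_lit 306) (nat_lit 134)) (XT.lf (nat_lit 0) (nat_lit 26409436927) (nat_lit 456) (nat_lit 2431423116) (nat_lit 76) (nat_lit 320633234) (nat_lit 86) (nat_lit 5) (nat_lit 92) (nat_lit 5) (nat_lit 87) (nat_lit 5) (nat_lit 341) (nat_lit 306) (nat_lit 133))))))) (XT.nd (nat_lit 858) (nat_lit 1216) (nat_lit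 0) (XT.nd (nat_lit 390) (nat_lit 1064) (nat_lit 0) (XT.nd (nat_lit 156) (nat_lit 380) (nat_lit 0) (XT.nd (nat_lit 78) (nat_lit 0) (nat_lit 0) (XT.lf (nat_lit 0) (nat_lit 90383341) (nat_lit 456) (nat_lit 20063707093) (nat_lit 76) (nat_lit 9567954639) (nat_lit 80) (nat_lit 5) (nat_lit 86) (nat_lit 5) (nat_lit 81) (nat_lit 5) (nat_lit 342) (nat_lit 306) (nat_lit 132)) (XT.lf (nat_lit 0) (nat_lit 2984050597) (nat_lit 456) (nat_lit 8169566968) (nat_lit 76) (nat_lit 19144349273) (nat_lit 80) (nat_lit 5) (nat_lit 86) (nat_lit 5) (nat_lit 81) (nat_lit 5) (nat_lit 343) (nat_lit 306) (nat_lit 131))) (XT.nd (nat_lit 78) (nat_lit 0) (nat_lit 0) (XT.lf (nat_lit 0) (nat_lit 4158632060) (nat_lit 380) (nat_lit 1842446155) (nat_lit 456) (nat_lit 24889000167) (nat_lit 75) (nat_lit 5) (nat_lit 80) (nat_lit 5) (nat_lit 81) (nat_lit 5) (nat_lit 344) (nat_lit 306) (nat_lit 130)) (XT.nd (nat_lit 78) (nat_lit 0) (nat_lit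 0) (XT.lf (nat_lit 0) (nat_lit 9263041740) (nat_lit 456) (nat_lit 14552610221) (nat_lit 76) (nat_lit 7679676947) (nat_lit 75) (nat_lit 5) (nat_lit 81) (nat_lit 5) (nat_lit 76) (nat_lit 5) (nat_lit 345) (nat_lit 306) (nat_lit 129)) (XT.lf (nat_lit 0) (nat_lit 12637836867) (nat_lit 456) (nat_lit 2030516244) (nat_lit 76) (nat_lit 17449942798) (nat_lit 75) (nat_lit 5) (nat_lit 81) (nat_lit 5) (nat_lit 76) (nat_lit 5) (nat_lit 346) (nat_lit 306) (nat_lit 128))))) (XT.nd (nat_lit 234) (nat_lit 380) (nat_lit 0) (XT.nd (nat_lit 78) (nat_lit 304) (nat_lit 0) (XT.lf (nat_lit 0) (nat_lit 11079692673) (nat_lit 380) (nat_lit 5137513838) (nat_lit 456) (nat_lit 16539653395) (nat_lit 70) (nat_lit 5) (nat_lit 75) (nat_lit 5) (nat_lit 76) (nat_lit 5) (nat_lit 347) (nat_lit 306) (nat_lit 127)) (XT.nd (nat_lit 78) (nat_lit 304) (nat_lit 0) (XT.lf (nat_lit 0) (nat_lit 19966521167) (nat_lit 456) (nat_lit 8838128320)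 (nat_lit 76) (nat_lit 4608062091) (nat_lit 70) (nat_lit 5) (nat_lit 76) (nat_lit 5) (nat_lit 71) (nat_lit 5) (nat_lit 348) (nat_lit 306) (nat_lit 126)) (XT.lf (nat_lit 0) (nat_lit 4417720692) (nat_lit 304) (nat_lit 19500894702) (nat_lit 380) (nat_lit 10166921855) (nat_lit 66) (nat_lit 5) (nat_lit 70) (nat_lit 5) (nat_lit 71) (nat_lit 5) (nat_lit 349) (nat_lit 306) (nat_lit 125)))) (XT.nd (nat_lit 78) (nat_lit 380) (nat_lit 0) (XT.lf (nat_lit 0) (nat_lit 18248754181) (nat_lit 304) (nat_lit 9826786952) (nat_lit 380) (nat_lit 6700425728) (nat_lit 66) (nat_lit 5) (nat_lit 70) (nat_lit 5) (nat_lit 71) (nat_lit 5) (nat_lit 350) (nat_lit 306) (nat_lit 124)) (XT.nd (nat_lit 78) (nat_lit 380) (nat_lit 0) (XT.lf (nat_lit 0) (nat_lit 32355598100) (nat_lit 380) (nat_lit 2997357489) (nat_lit 76) (nat_lit 134208093) (nat_lit 66) (nat_lit 5) (nat_lit 71) (nat_lit 5) (nat_lit 67) (nat_lit 5) (nat_lit 351)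 (nat_lit 306) (nat_lit 123)) (XT.lf (nat_lit 0) (nat_lit 736449920) (nat_lit 380) (nat_lit 25167652746) (nat_lit 76) (nat_lit 10309362021) (nat_lit 61) (nat_lit 5) (nat_lit 66) (nat_lit 5) (nat_lit 62) (nat_lit 5) (nat_lit 352) (nat_lit 306) (nat_lit 122)))))) (XT.nd (nat_lit 390) (nat_lit 608) (nat_lit 0) (XT.nd (nat_lit 156) (nat_lit 304) (nat_lit 0) (XT.nd (nat_lit 78) (nat_lit 304) (nat_lit 0) (XT.lf (nat_lit 0) (nat_lit 4685331769) (nat_lit 380) (nat_lit 11423798578) (nat_lit 76) (nat_lit 20850667617) (nat_lit 61) (nat_lit 5) (nat_lit 66) (nat_lit 5) (nat_lit 62) (nat_lit 5) (nat_lit 353) (nat_lit 306) (nat_lit 121)) (XT.lf (nat_lit 0) (nat_lit 2783219773) (nat_lit 304) (nat_lit 5993495998) (nat_lit 380) (nat_lit 28951090636) (nat_lit 57) (nat_lit 5) (nat_lit 61) (nat_lit 5) (nat_lit 62) (nat_lit 5) (nat_lit 354) (nat_lit 306) (nat_lit 120))) (XT.nd (nat_lit 78) (nat_lit 304) (nat_lit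 0) (XT.lf (nat_lit 0) (nat_lit 13147203703) (nat_lit 380) (nat_lit 20911959920) (nat_lit 76) (nat_lit 4455006667) (nat_lit 57) (nat_lit 5) (nat_lit 62) (nat_lit 5) (nat_lit 58) (nat_lit 5) (nat_lit 355) (nat_lit 306) (nat_lit 119)) (XT.nd (nat_lit 78) (nat_lit 304) (nat_lit 0) (XT.lf (nat_lit 0) (nat_lit 17705546496) (nat_lit 380) (nat_lit 6521100895) (nat_lit 76) (nat_lit 15095781373) (nat_lit 57) (nat_lit 5) (nat_lit 62) (nat_lit 5) (nat_lit 58) (nat_lit 5) (nat_lit 356) (nat_lit 306) (nat_lit 118)) (XT.lf (nat_lit 0) (nat_lit 8463328140) (nat_lit 304) (nat_lit 14016140566) (nat_lit 380) (nat_lit 17673107123) (nat_lit 53) (nat_lit 5) (nat_lit 57) (nat_lit 5) (nat_lit 58) (nat_lit 5) (nat_lit 357) (nat_lit 306) (nat_lit 117))))) (XT.nd (nat_lit 234) (nat_lit 380) (nat_lit 0) (XT.nd (nat_lit 78) (nat_lit 228) (nat_lit 0) (XT.lf (nat_lit 0) (nat_lit 24027692857) (nat_lit 304) (nat_lit 3432282598)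 (nat_lit 380) (nat_lit 13545756389) (nat_lit 53) (nat_lit 5) (nat_lit 57) (nat_lit 5) (nat_lit 58) (nat_lit 5) (nat_lit 358) (nat_lit 306) (nat_lit 116)) (XT.nd (nat_lit 78) (nat_lit 228) (nat_lit 0) (XT.lf (nat_lit 0) (nat_lit 32659276382) (nat_lit 380) (nat_lit 1900539866) (nat_lit 76) (nat_lit 7322590305) (nat_lit 53) (nat_lit 5) (nat_lit 58) (nat_lit 5) (nat_lit 54) (nat_lit 5) (nat_lit 359) (nat_lit 306) (nat_lit 115)) (XT.lf (nat_lit 0) (nat_lit 13862657863) (nat_lit 228) (nat_lit 24316789760) (nat_lit 304) (nat_lit 4600992367) (nat_lit 50) (nat_lit 5) (nat_lit 53) (nat_lit 5) (nat_lit 54) (nat_lit 5) (nat_lit 360) (nat_lit 306) (nat_lit 114)))) (XT.nd (nat_lit 78) (nat_lit 304) (nat_lit 0) (XT.lf (nat_lit 0) (nat_lit 173735326) (nat_lit 304) (nat_lit 13572028439) (nat_lit 76) (nat_lit 29959098179) (nat_lit 49) (nat_lit 5) (nat_lit 53) (nat_lit 5) (nat_lit 50) (nat_lit 5) (nat_lit 361)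 (nat_lit 306) (nat_lit 113)) (XT.nd (nat_lit 78) (nat_lit 0) (nat_lit 0) (XT.lf (nat_lit 0) (nat_lit 2228956621) (nat_lit 304) (nat_lit 2789429488) (nat_lit 380) (nat_lit 39636693899) (nat_lit 45) (nat_lit 5) (nat_lit 49) (nat_lit 5) (nat_lit 50) (nat_lit 5) (nat_lit 362) (nat_lit 306) (nat_lit 112)) (XT.lf (nat_lit 0) (nat_lit 10226208536) (nat_lit 380) (nat_lit 26933645737) (nat_lit 76) (nat_lit 8467420021) (nat_lit 45) (nat_lit 5) (nat_lit 50) (nat_lit 5) (nat_lit 46) (nat_lit 5) (nat_lit 363) (nat_lit 306) (nat_lit 111))))))))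
noncomputable def xc223 : XT := (XT.nd (nat_lit 36816) (nat_lit 0) (nat_lit 5092) (XT.nd (nat_lit 858) (nat_lit 152) (nat_lit 0) (XT.nd (nat_lit 390) (nat_lit 532) (nat_lit 0) (XT.nd (nat_lit 156) (nat_lit 228) (nat_lit 0) (XT.nd (nat_lit 78) (nat_lit 228) (nat_lit 0) (XT.lf (nat_lit 0) (nat_lit 15615708457) (nat_lit 380) (nat_lit 11007036499) (nat_lit 76) (nat_lit 20005130675) (nat_lit 45) (nat_lit 5) (nat_lit 50) (nat_lit 5) (nat_lit 46) (nat_lit 5) (nat_lit 364) (nat_lit 306) (nat_lit 110)) (XT.lf (nat_lit 0) (nat_lit 5501794307) (nat_lit 228) (nat_lit 15715873747) (nat_lit 304) (nat_lit 26439308091) (nat_lit 42) (nat_lit 5) (nat_lit 45) (nat_lit 5) (nat_lit 46) (nat_lit 5) (nat_lit 365) (nat_lit 306) (nat_lit 109))) (XT.nd (nat_lit 78) (nat_lit 228) (nat_lit 0) (XT.lf (nat_lit 0) (nat_lit 22728615753) (nat_lit 228) (nat_lit 4368141802) (nat_lit 304) (nat_lit 21616924235) (nat_lit 42) (nat_lit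 5) (nat_lit 45) (nat_lit 5) (nat_lit 46) (nat_lit 5) (nat_lit 366) (nat_lit 306) (nat_lit 108)) (XT.nd (nat_lit 78) (nat_lit 228) (nat_lit 0) (XT.lf (nat_lit 0) (nat_lit 33220558694) (nat_lit 304) (nat_lit 9403091264) (nat_lit 76) (nat_lit 7176392603) (nat_lit 42) (nat_lit 5) (nat_lit 46) (nat_lit 5) (nat_lit 43) (nat_lit 5) (nat_lit 367) (nat_lit 306) (nat_lit 107)) (XT.lf (nat_lit 0) (nat_lit 7782155622) (nat_lit 228) (nat_lit 31862007435) (nat_lit 304) (nat_lit 11271352429) (nat_lit 39) (nat_lit 5) (nat_lit 42) (nat_lit 5) (nat_lit 43) (nat_lit 5) (nat_lit 368) (nat_lit 306) (nat_lit 106))))) (XT.nd (nat_lit 234) (nat_lit 228) (nat_lit 0) (XT.nd (nat_lit 78) (nat_lit 304) (nat_lit 0) (XT.lf (nat_lit 0) (nat_lit 25672945391) (nat_lit 228) (nat_lit 20680547028) (nat_lit 304) (nat_lit 5708173560) (nat_lit 39) (nat_lit 5) (nat_lit 42) (nat_lit 5) (nat_lit 43) (nat_lit 5) (nat_lit 369) (nat_lit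 306) (nat_lit 105)) (XT.nd (nat_lit 78) (nat_lit 228) (nat_lit 0) (XT.lf (nat_lit 0) (nat_lit 19571474) (nat_lit 304) (nat_lit 9144682208) (nat_lit 76) (nat_lit 44078001710) (nat_lit 38) (nat_lit 5) (nat_lit 42) (nat_lit 5) (nat_lit 39) (nat_lit 5) (nat_lit 370) (nat_lit 306) (nat_lit 104)) (XT.lf (nat_lit 0) (nat_lit 5913783744) (nat_lit 304) (nat_lit 45753599886) (nat_lit 76) (nat_lit 2785906014) (nat_lit 35) (nat_lit 5) (nat_lit 39) (nat_lit 5) (nat_lit 36) (nat_lit 5) (nat_lit 371) (nat_lit 306) (nat_lit 103)))) (XT.nd (nat_lit 78) (nat_lit 228) (nat_lit 0) (XT.lf (nat_lit 0) (nat_lit 12166989578) (nat_lit 304) (nat_lit 28525358503) (nat_lit 76) (nat_lit 15002845281) (nat_lit 35) (nat_lit 5) (nat_lit 39) (nat_lit 5) (nat_lit 36) (nat_lit 5) (nat_lit 372) (nat_lit 306) (nat_lit 102)) (XT.nd (nat_lit 78) (nat_lit 228) (nat_lit 0) (XT.lf (nat_lit 0) (nat_lit 18606019120) (nat_lit 304) (nat_lit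 10782866297) (nat_lit 76) (nat_lit 27585525303) (nat_lit 35) (nat_lit 5) (nat_lit 39) (nat_lit 5) (nat_lit 36) (nat_lit 5) (nat_lit 373) (nat_lit 306) (nat_lit 101)) (XT.lf (nat_lit 0) (nat_lit 7638433225) (nat_lit 228) (nat_lit 17671490776) (nat_lit 304) (nat_lit 32979932721) (nat_lit 32) (nat_lit 5) (nat_lit 35) (nat_lit 5) (nat_lit 36) (nat_lit 5) (nat_lit 374) (nat_lit 306) (nat_lit 100)))))) (XT.nd (nat_lit 35490) (nat_lit 0) (nat_lit 7828) (XT.nd (nat_lit 156) (nat_lit 152) (nat_lit 0) (XT.nd (nat_lit 78) (nat_lit 0) (nat_lit 0) (XT.lf (nat_lit 0) (nat_lit 26830913841) (nat_lit 228) (nat_lit 5491223280) (nat_lit 304) (nat_lit 27319416411) (nat_lit 32) (nat_lit 5) (nat_lit 35) (nat_lit 5) (nat_lit 36) (nat_lit 5) (nat_lit 375) (nat_lit 306) (nat_lit 99)) (XT.lf (nat_lit 0) (nat_lit 39610875516) (nat_lit 304) (nat_lit 14504912413) (nat_lit 76) (nat_lit 6916031622) (nat_lit 32) (nat_lit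 5) (nat_lit 36) (nat_lit 5) (nat_lit 33) (nat_lit 5) (nat_lit 376) (nat_lit 306) (nat_lit 98))) (XT.nd (nat_lit 35178) (nat_lit 0) (nat_lit 8816) (XT.lf (nat_lit 0) (nat_lit 4378665229) (nat_lit 152) (nat_lit 42834465098) (nat_lit 228) (nat_lit 15247820576) (nat_lit 30) (nat_lit 5) (nat_lit 32) (nat_lit 5) (nat_lit 33) (nat_lit 5) (nat_lit 377) (nat_lit 306) (nat_lit 97)) (XT.nd (nat_lit 78) (nat_lit 0) (nat_lit 0) (XT.lf (nat_lit 0) (nat_lit 3905117384) (nat_lit 0) (nat_lit 3905117384) (nat_lit 988) (nat_lit 543612129) (nat_lit 146) (nat_lit 5) (nat_lit 146) (nat_lit 3) (nat_lit 159) (nat_lit 3) (nat_lit 307) (nat_lit 307) (nat_lit 166)) (XT.lf (nat_lit 0) (nat_lit 14707429324) (nat_lit 0) (nat_lit 1356529270) (nat_lit 988) (nat_lit 887414453) (nat_lit 146) (nat_lit 5) (nat_lit 146) (nat_lit 3) (nat_lit 159) (nat_lit 3) (nat_lit 308) (nat_lit 307) (nat_lit 165))))) (XT.nd (nat_lit 234) (nat_lit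 0) (nat_lit 0) (XT.nd (nat_lit 78) (nat_lit 988) (nat_lit 0) (XT.lf (nat_lit 76) (nat_lit 4644558998) (nat_lit 0) (nat_lit 11963573401) (nat_lit 1064) (nat_lit 591634661) (nat_lit 147) (nat_lit 5) (nat_lit 146) (nat_lit 5) (nat_lit 160) (nat_lit 5) (nat_lit 309) (nat_lit 307) (nat_lit 164)) (XT.nd (nat_lit 78) (nat_lit 988) (nat_lit 0) (XT.lf (nat_lit 76) (nat_lit 11767668389) (nat_lit 0) (nat_lit 5428992051) (nat_lit 1064) (nat_lit 258136616) (nat_lit 147) (nat_lit 5) (nat_lit 146) (nat_lit 5) (nat_lit 160) (nat_lit 5) (nat_lit 310) (nat_lit 307) (nat_lit 163)) (XT.lf (nat_lit 0) (nat_lit 102135479) (nat_lit 1064) (nat_lit 16320719879) (nat_lit 1140) (nat_lit 1294068525) (nat_lit 133) (nat_lit 5) (nat_lit 147) (nat_lit 5) (nat_lit 148) (nat_lit 5) (nat_lit 311) (nat_lit 307) (nat_lit 162)))) (XT.nd (nat_lit 78) (nat_lit 0) (nat_lit 0) (XT.lf (nat_lit 0) (nat_lit 572195042) (nat_lit 1064) (nat_lit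 9238091623) (nat_lit 1140) (nat_lit 8173449058) (nat_lit 133) (nat_lit 5) (nat_lit 147) (nat_lit 5) (nat_lit 148) (nat_lit 5) (nat_lit 312) (nat_lit 307) (nat_lit 161)) (XT.nd (nat_lit 78) (nat_lit 0) (nat_lit 76) (XT.lf (nat_lit 0) (nat_lit 1048994981) (nat_lit 1064) (nat_lit 1947489749) (nat_lit 1140) (nat_lit 15262310274) (nat_lit 133) (nat_lit 5) (nat_lit 147) (nat_lit 5) (nat_lit 148) (nat_lit 5) (nat_lit 313) (nat_lit 307) (nat_lit 160)) (XT.lf (nat_lit 0) (nat_lit 1626662232) (nat_lit 1064) (nat_lit 12911872525) (nat_lit 1140) (nat_lit 4000996001) (nat_lit 134) (nat_lit 5) (nat_lit 148) (nat_lit 5) (nat_lit 149) (nat_lit 5) (nat_lit 314) (nat_lit 307) (nat_lit 159))))))) (XT.nd (nat_lit 858) (nat_lit 2812) (nat_lit 0) (XT.nd (nat_lit 390) (nat_lit 0) (nat_lit 152) (XT.nd (nat_lit 156) (nat_lit 0) (nat_lit 76) (XT.nd (nat_lit 78) (nat_lit 0) (nat_lit 0) (XT.lf (nat_lit 0) (nat_lit 2264233202)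 (nat_lit 1064) (nat_lit 5392566173) (nat_lit 1140) (nat_lit 11170632963) (nat_lit 134) (nat_lit 5) (nat_lit 148) (nat_lit 5) (nat_lit 149) (nat_lit 5) (nat_lit 315) (nat_lit 307) (nat_lit 158)) (XT.lf (nat_lit 76) (nat_lit 2394593134) (nat_lit 0) (nat_lit 542604032) (nat_lit 1140) (nat_lit 16186306179) (nat_lit 135) (nat_lit 5) (nat_lit 134) (nat_lit 5) (nat_lit 149) (nat_lit 5) (nat_lit 316) (nat_lit 307) (nat_lit 157))) (XT.nd (nat_lit 78) (nat_lit 0) (nat_lit 0) (XT.lf (nat_lit 0) (nat_lit 3743988173) (nat_lit 1064) (nat_lit 8971322654) (nat_lit 1140) (nat_lit 6709756274) (nat_lit 135) (nat_lit 5) (nat_lit 149) (nat_lit 5) (nat_lit 150) (nat_lit 5) (nat_lit 317) (nat_lit 307) (nat_lit 156)) (XT.nd (nat_lit 78) (nat_lit 0) (nat_lit 76) (XT.lf (nat_lit 0) (nat_lit 4573969684) (nat_lit 1064) (nat_lit 990892849) (nat_lit 1140) (nat_lit 14170864820) (nat_lit 135) (nat_lit 5) (nat_lit 149) (nat_lit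 5) (nat_lit 150) (nat_lit 5) (nat_lit 318) (nat_lit 307) (nat_lit 155)) (XT.lf (nat_lit 0) (nat_lit 5511502593) (nat_lit 1064) (nat_lit 12703458254) (nat_lit 1140) (nat_lit 1838285635) (nat_lit 136) (nat_lit 5) (nat_lit 150) (nat_lit 5) (nat_lit 151) (nat_lit 5) (nat_lit 319) (nat_lit 307) (nat_lit 154))))) (XT.nd (nat_lit 234) (nat_lit 0) (nat_lit 76) (XT.nd (nat_lit 78) (nat_lit 0) (nat_lit 0) (XT.lf (nat_lit 0) (nat_lit 6536320143) (nat_lit 1064) (nat_lit 4478740766) (nat_lit 1140) (nat_lit 9363473600) (nat_lit 136) (nat_lit 5) (nat_lit 150) (nat_lit 5) (nat_lit 151) (nat_lit 5) (nat_lit 320) (nat_lit 307) (nat_lit 153)) (XT.nd (nat_lit 78) (nat_lit 0) (nat_lit 76) (XT.lf (nat_lit 76) (nat_lit 4067670709) (nat_lit 0) (nat_lit 3557444354) (nat_lit 1140) (nat_lit 13087486688) (nat_lit 137) (nat_lit 5) (nat_lit 136) (nat_lit 5) (nat_lit 151) (nat_lit 5) (nat_lit 321) (nat_lit 307) (nat_lit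 152)) (XT.lf (nat_lit 0) (nat_lit 8826163374) (nat_lit 1064) (nat_lit 8137720520) (nat_lit 1140) (nat_lit 4090436476) (nat_lit 137) (nat_lit 5) (nat_lit 151) (nat_lit 5) (nat_lit 152) (nat_lit 5) (nat_lit 322) (nat_lit 307) (nat_lit 151)))) (XT.nd (nat_lit 78) (nat_lit 0) (nat_lit 0) (XT.lf (nat_lit 76) (nat_lit 596679514) (nat_lit 0) (nat_lit 9501962071) (nat_lit 1140) (nat_lit 11306603560) (nat_lit 138) (nat_lit 5) (nat_lit 137) (nat_lit 5) (nat_lit 152) (nat_lit 5) (nat_lit 323) (nat_lit 307) (nat_lit 150)) (XT.nd (nat_lit 78) (nat_lit 0) (nat_lit 76) (XT.lf (nat_lit 76) (nat_lit 9755522504) (nat_lit 0) (nat_lit 1730506831) (nat_lit 1140) (nat_lit 10278382342) (nat_lit 138) (nat_lit 5) (nat_lit 137) (nat_lit 5) (nat_lit 152) (nat_lit 5) (nat_lit 324) (nat_lit 307) (nat_lit 149)) (XT.lf (nat_lit 0) (nat_lit 12970077404) (nat_lit 1064) (nat_lit 3009992597) (nat_lit 76) (nat_lit 6152647643)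 (nat_lit 138) (nat_lit 5) (nat_lit 152) (nat_lit 5) (nat_lit 139) (nat_lit 5) (nat_lit 325) (nat_lit 307) (nat_lit 148)))))) (XT.nd (nat_lit 468) (nat_lit 1064) (nat_lit 0) (XT.nd (nat_lit 234) (nat_lit 456) (nat_lit 0) (XT.nd (nat_lit 78) (nat_lit 532) (nat_lit 0) (XT.lf (nat_lit 0) (nat_lit 6361543913) (nat_lit 1064) (nat_lit 8210269605) (nat_lit 1140) (nat_lit 7938079420) (nat_lit 124) (nat_lit 5) (nat_lit 138) (nat_lit 5) (nat_lit 139) (nat_lit 5) (nat_lit 326) (nat_lit 307) (nat_lit 147)) (XT.nd (nat_lit 78) (nat_lit 532) (nat_lit 0) (XT.lf (nat_lit 0) (nat_lit 16071640997) (nat_lit 1064) (nat_lit 175345421) (nat_lit 1140) (nat_lit 6650650236) (nat_lit 124) (nat_lit 5) (nat_lit 138) (nat_lit 5) (nat_lit 139) (nat_lit 5) (nat_lit 327) (nat_lit 307) (nat_lit 146)) (XT.lf (nat_lit 0) (nat_lit 2747443149) (nat_lit 532) (nat_lit 15324391998) (nat_lit 608) (nat_lit 5222209192) (nat_lit 117)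 (nat_lit 5) (nat_lit 124) (nat_lit 5) (nat_lit 125) (nat_lit 5) (nat_lit 328) (nat_lit 307) (nat_lit 145)))) (XT.nd (nat_lit 78) (nat_lit 456) (nat_lit 0) (XT.lf (nat_lit 0) (nat_lit 12741953643) (nat_lit 532) (nat_lit 7275366573) (nat_lit 608) (nat_lit 3683061174) (nat_lit 117) (nat_lit 5) (nat_lit 124) (nat_lit 5) (nat_lit 125) (nat_lit 5) (nat_lit 329) (nat_lit 307) (nat_lit 144)) (XT.nd (nat_lit 78) (nat_lit 456) (nat_lit 0) (XT.lf (nat_lit 0) (nat_lit 22026313471) (nat_lit 608) (nat_lit 1096685742) (nat_lit 76) (nat_lit 995768486) (nat_lit 117) (nat_lit 5) (nat_lit 125) (nat_lit 5) (nat_lit 118) (nat_lit 5) (nat_lit 330) (nat_lit 307) (nat_lit 143)) (XT.lf (nat_lit 0) (nat_lit 9163495175) (nat_lit 456) (nat_lit 15087719789) (nat_lit 532) (nat_lit 293834545) (nat_lit 111) (nat_lit 5) (nat_lit 117) (nat_lit 5) (nat_lit 118) (nat_lit 5) (nat_lit 331) (nat_lit 307) (nat_lit 142))))) (XT.nd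 (nat_lit 234) (nat_lit 456) (nat_lit 0) (XT.nd (nat_lit 78) (nat_lit 532) (nat_lit 0) (XT.lf (nat_lit 0) (nat_lit 1535065713) (nat_lit 532) (nat_lit 5249170778) (nat_lit 76) (nat_lit 18199243930) (nat_lit 110) (nat_lit 5) (nat_lit 117) (nat_lit 5) (nat_lit 111) (nat_lit 5) (nat_lit 332) (nat_lit 307) (nat_lit 141)) (XT.nd (nat_lit 78) (nat_lit 0) (nat_lit 0) (XT.lf (nat_lit 0) (nat_lit 3476928998) (nat_lit 608) (nat_lit 20167885279) (nat_lit 76) (nat_lit 1788254607) (nat_lit 103) (nat_lit 5) (nat_lit 111) (nat_lit 5) (nat_lit 104) (nat_lit 5) (nat_lit 333) (nat_lit 307) (nat_lit 140)) (XT.lf (nat_lit 0) (nat_lit 5593521895) (nat_lit 608) (nat_lit 9763906815) (nat_lit 76) (nat_lit 10535233688) (nat_lit 103) (nat_lit 5) (nat_lit 111) (nat_lit 5) (nat_lit 104) (nat_lit 5) (nat_lit 334) (nat_lit 307) (nat_lit 139)))) (XT.nd (nat_lit 78) (nat_lit 0) (nat_lit 0) (XT.lf (nat_lit 0) (nat_lit 966954916)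 (nat_lit 456) (nat_lit 6811847682) (nat_lit 532) (nat_lit 18587096690) (nat_lit 97) (nat_lit 5) (nat_lit 103) (nat_lit 5) (nat_lit 104) (nat_lit 5) (nat_lit 335) (nat_lit 307) (nat_lit 138)) (XT.nd (nat_lit 78) (nat_lit 0) (nat_lit 0) (XT.lf (nat_lit 0) (nat_lit 10144319464) (nat_lit 532) (nat_lit 14654784550) (nat_lit 76) (nat_lit 2050799879) (nat_lit 97) (nat_lit 5) (nat_lit 104) (nat_lit 5) (nat_lit 98) (nat_lit 5) (nat_lit 336) (nat_lit 307) (nat_lit 137)) (XT.lf (nat_lit 0) (nat_lit 12644338261) (nat_lit 532) (nat_lit 3659817664) (nat_lit 76) (nat_lit 11042377242) (nat_lit 97) (nat_lit 5) (nat_lit 104) (nat_lit 5) (nat_lit 98) (nat_lit 5) (nat_lit 337) (nat_lit 307) (nat_lit 136))))))))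
noncomputable def xc224 : XT := (XT.nd (nat_lit 1716) (nat_lit 1596) (nat_lit 0) (XT.nd (nat_lit 858) (nat_lit 1292) (nat_lit 0) (XT.nd (nat_lit 390) (nat_lit 1216) (nat_lit 0) (XT.nd (nat_lit 156) (nat_lit 380) (nat_lit 0) (XT.nd (nat_lit 78) (nat_lit 0) (nat_lit 0) (XT.lf (nat_lit 0) (nat_lit 7813512966) (nat_lit 456) (nat_lit 7477159125) (nat_lit 532) (nat_lit 12565260108) (nat_lit 91) (nat_lit 5) (nat_lit 97) (nat_lit 5) (nat_lit 98) (nat_lit 5) (nat_lit 338) (nat_lit 307) (nat_lit 135)) (XT.lf (nat_lit 0) (nat_lit 18065516988) (nat_lit 532) (nat_lit 8693361225) (nat_lit 76) (nat_lit 1620271369) (nat_lit 91) (nat_lit 5) (nat_lit 98) (nat_lit 5) (nat_lit 92) (nat_lit 5) (nat_lit 339) (nat_lit 307) (nat_lit 134))) (XT.nd (nat_lit 78) (nat_lit 0) (nat_lit 0) (XT.lf (nat_lit 0) (nat_lit 2976297041) (nat_lit 380) (nat_lit 18046337068) (nat_lit 456) (nat_lit 7892468296) (nat_lit 86) (nat_lit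 5) (nat_lit 91) (nat_lit 5) (nat_lit 92) (nat_lit 5) (nat_lit 340) (nat_lit 307) (nat_lit 133)) (XT.nd (nat_lit 78) (nat_lit 0) (nat_lit 0) (XT.lf (nat_lit 0) (nat_lit 15170370377) (nat_lit 380) (nat_lit 8982333855) (nat_lit 456) (nat_lit 5311911833) (nat_lit 86) (nat_lit 5) (nat_lit 91) (nat_lit 5) (nat_lit 92) (nat_lit 5) (nat_lit 341) (nat_lit 307) (nat_lit 132)) (XT.lf (nat_lit 0) (nat_lit 27376629142) (nat_lit 456) (nat_lit 2307624533) (nat_lit 76) (nat_lit 346372041) (nat_lit 86) (nat_lit 5) (nat_lit 92) (nat_lit 5) (nat_lit 87) (nat_lit 5) (nat_lit 342) (nat_lit 307) (nat_lit 131))))) (XT.nd (nat_lit 234) (nat_lit 380) (nat_lit 0) (XT.nd (nat_lit 78) (nat_lit 380) (nat_lit 0) (XT.lf (nat_lit 0) (nat_lit 266924768) (nat_lit 456) (nat_lit 20466907921) (nat_lit 76) (nat_lit 9874220452) (nat_lit 80) (nat_lit 5) (nat_lit 86) (nat_lit 5) (nat_lit 81) (nat_lit 5) (nat_lit 343) (nat_lit 307)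 (nat_lit 130)) (XT.nd (nat_lit 78) (nat_lit 380) (nat_lit 0) (XT.lf (nat_lit 0) (nat_lit 3242339034) (nat_lit 456) (nat_lit 8221731273) (nat_lit 76) (nat_lit 19737346909) (nat_lit 80) (nat_lit 5) (nat_lit 86) (nat_lit 5) (nat_lit 81) (nat_lit 5) (nat_lit 344) (nat_lit 307) (nat_lit 129)) (XT.lf (nat_lit 0) (nat_lit 4474422327) (nat_lit 380) (nat_lit 1872375923) (nat_lit 456) (nat_lit 25464598632) (nat_lit 75) (nat_lit 5) (nat_lit 80) (nat_lit 5) (nat_lit 81) (nat_lit 5) (nat_lit 345) (nat_lit 307) (nat_lit 128)))) (XT.nd (nat_lit 78) (nat_lit 380) (nat_lit 0) (XT.lf (nat_lit 0) (nat_lit 9702031347) (nat_lit 456) (nat_lit 14798730722) (nat_lit 76) (nat_lit 7934192568) (nat_lit 75) (nat_lit 5) (nat_lit 81) (nat_lit 5) (nat_lit 76) (nat_lit 5) (nat_lit 346) (nat_lit 307) (nat_lit 127)) (XT.nd (nat_lit 78) (nat_lit 380) (nat_lit 0) (XT.lf (nat_lit 0) (nat_lit 13173378143) (nat_lit 456) (nat_lit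 1906521241) (nat_lit 76) (nat_lit 17996863716) (nat_lit 75) (nat_lit 5) (nat_lit 81) (nat_lit 5) (nat_lit 76) (nat_lit 5) (nat_lit 347) (nat_lit 307) (nat_lit 126)) (XT.lf (nat_lit 0) (nat_lit 11595181096) (nat_lit 380) (nat_lit 5262152307) (nat_lit 456) (nat_lit 16877245822) (nat_lit 70) (nat_lit 5) (nat_lit 75) (nat_lit 5) (nat_lit 76) (nat_lit 5) (nat_lit 348) (nat_lit 307) (nat_lit 125)))))) (XT.nd (nat_lit 390) (nat_lit 608) (nat_lit 0) (XT.nd (nat_lit 156) (nat_lit 380) (nat_lit 0) (XT.nd (nat_lit 78) (nat_lit 304) (nat_lit 0) (XT.lf (nat_lit 0) (nat_lit 20714928592) (nat_lit 456) (nat_lit 8920941418) (nat_lit 76) (nat_lit 4774373419) (nat_lit 70) (nat_lit 5) (nat_lit 76) (nat_lit 5) (nat_lit 71) (nat_lit 5) (nat_lit 349) (nat_lit 307) (nat_lit 124)) (XT.lf (nat_lit 0) (nat_lit 4730795508) (nat_lit 304) (nat_lit 20052173829) (nat_lit 380) (nat_lit 10320373715) (nat_lit 66) (nat_lit 5)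 (nat_lit 70) (nat_lit 5) (nat_lit 71) (nat_lit 5) (nat_lit 350) (nat_lit 307) (nat_lit 123))) (XT.nd (nat_lit 78) (nat_lit 380) (nat_lit 0) (XT.lf (nat_lit 0) (nat_lit 18971501462) (nat_lit 304) (nat_lit 10088825790) (nat_lit 380) (nat_lit 6754296951) (nat_lit 66) (nat_lit 5) (nat_lit 70) (nat_lit 5) (nat_lit 71) (nat_lit 5) (nat_lit 351) (nat_lit 307) (nat_lit 122)) (XT.nd (nat_lit 78) (nat_lit 380) (nat_lit 0) (XT.lf (nat_lit 0) (nat_lit 33464940645) (nat_lit 380) (nat_lit 2912917666) (nat_lit 76) (nat_lit 169424057) (nat_lit 66) (nat_lit 5) (nat_lit 71) (nat_lit 5) (nat_lit 67) (nat_lit 5) (nat_lit 352) (nat_lit 307) (nat_lit 121)) (XT.lf (nat_lit 0) (nat_lit 896507875) (nat_lit 380) (nat_lit 25746968733) (nat_lit 76) (nat_lit 10651936385) (nat_lit 61) (nat_lit 5) (nat_lit 66) (nat_lit 5) (nat_lit 62) (nat_lit 5) (nat_lit 353) (nat_lit 307) (nat_lit 120))))) (XT.nd (nat_lit 234) (nat_lit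 304) (nat_lit 0) (XT.nd (nat_lit 78) (nat_lit 304) (nat_lit 0) (XT.lf (nat_lit 0) (nat_lit 4959837797) (nat_lit 380) (nat_lit 11595916812) (nat_lit 76) (nat_lit 21508511435) (nat_lit 61) (nat_lit 5) (nat_lit 66) (nat_lit 5) (nat_lit 62) (nat_lit 5) (nat_lit 354) (nat_lit 307) (nat_lit 119)) (XT.nd (nat_lit 78) (nat_lit 0) (nat_lit 0) (XT.lf (nat_lit 0) (nat_lit 3035639582) (nat_lit 304) (nat_lit 6136046189) (nat_lit 380) (nat_lit 29683706252) (nat_lit 57) (nat_lit 5) (nat_lit 61) (nat_lit 5) (nat_lit 62) (nat_lit 5) (nat_lit 355) (nat_lit 307) (nat_lit 118)) (XT.lf (nat_lit 0) (nat_lit 13669801019) (nat_lit 380) (nat_lit 21371538448) (nat_lit 76) (nat_lit 4624120670) (nat_lit 57) (nat_lit 5) (nat_lit 62) (nat_lit 5) (nat_lit 58) (nat_lit 5) (nat_lit 356) (nat_lit 307) (nat_lit 117)))) (XT.nd (nat_lit 78) (nat_lit 304) (nat_lit 0) (XT.lf (nat_lit 0) (nat_lit 18361160663) (nat_lit 380) (nat_lit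 6553840457) (nat_lit 76) (nat_lit 15583085690) (nat_lit 57) (nat_lit 5) (nat_lit 62) (nat_lit 5) (nat_lit 58) (nat_lit 5) (nat_lit 357) (nat_lit 307) (nat_lit 116)) (XT.nd (nat_lit 78) (nat_lit 0) (nat_lit 0) (XT.lf (nat_lit 0) (nat_lit 8878524455) (nat_lit 304) (nat_lit 14397701872) (nat_lit 380) (nat_lit 18076982381) (nat_lit 53) (nat_lit 5) (nat_lit 57) (nat_lit 5) (nat_lit 58) (nat_lit 5) (nat_lit 358) (nat_lit 307) (nat_lit 115)) (XT.lf (nat_lit 0) (nat_lit 24905122158) (nat_lit 304) (nat_lit 3497461842) (nat_lit 380) (nat_lit 13829490289) (nat_lit 53) (nat_lit 5) (nat_lit 57) (nat_lit 5) (nat_lit 58) (nat_lit 5) (nat_lit 359) (nat_lit 307) (nat_lit 114))))))) (XT.nd (nat_lit 858) (nat_lit 532) (nat_lit 0) (XT.nd (nat_lit 390) (nat_lit 456) (nat_lit 0) (XT.nd (nat_lit 156) (nat_lit 380) (nat_lit 0) (XT.nd (nat_lit 78) (nat_lit 228) (nat_lit 0) (XT.lf (nat_lit 0) (nat_lit 33754756164) (nat_lit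 380) (nat_lit 1802153370) (nat_lit 76) (nat_lit 7578240665) (nat_lit 53) (nat_lit 5) (nat_lit 58) (nat_lit 5) (nat_lit 54) (nat_lit 5) (nat_lit 360) (nat_lit 307) (nat_lit 113)) (XT.lf (nat_lit 0) (nat_lit 14432416735) (nat_lit 228) (nat_lit 25006225041) (nat_lit 304) (nat_lit 4621547085) (nat_lit 50) (nat_lit 5) (nat_lit 53) (nat_lit 5) (nat_lit 54) (nat_lit 5) (nat_lit 361) (nat_lit 307) (nat_lit 112))) (XT.nd (nat_lit 78) (nat_lit 304) (nat_lit 0) (XT.lf (nat_lit 0) (nat_lit 290775241) (nat_lit 304) (nat_lit 13827330824) (nat_lit 76) (nat_lit 30894311246) (nat_lit 49) (nat_lit 5) (nat_lit 53) (nat_lit 5) (nat_lit 50) (nat_lit 5) (nat_lit 362) (nat_lit 307) (nat_lit 111)) (XT.nd (nat_lit 78) (nat_lit 0) (nat_lit 0) (XT.lf (nat_lit 0) (nat_lit 2446194980) (nat_lit 304) (nat_lit 2832758891) (nat_lit 380) (nat_lit 40712249261) (nat_lit 45) (nat_lit 5) (nat_lit 49) (nat_lit 5) (nat_lit 50) (nat_lit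 5) (nat_lit 363) (nat_lit 307) (nat_lit 110)) (XT.lf (nat_lit 0) (nat_lit 10640183220) (nat_lit 380) (nat_lit 27592615270) (nat_lit 76) (nat_lit 8759856252) (nat_lit 45) (nat_lit 5) (nat_lit 50) (nat_lit 5) (nat_lit 46) (nat_lit 5) (nat_lit 364) (nat_lit 307) (nat_lit 109))))) (XT.nd (nat_lit 234) (nat_lit 228) (nat_lit 0) (XT.nd (nat_lit 78) (nat_lit 228) (nat_lit 0) (XT.lf (nat_lit 0) (nat_lit 16188246146) (nat_lit 380) (nat_lit 11192548721) (nat_lit 76) (nat_lit 20642579382) (nat_lit 45) (nat_lit 5) (nat_lit 50) (nat_lit 5) (nat_lit 46) (nat_lit 5) (nat_lit 365) (nat_lit 307) (nat_lit 108)) (XT.nd (nat_lit 78) (nat_lit 0) (nat_lit 0) (XT.lf (nat_lit 0) (nat_lit 5810128393) (nat_lit 228) (nat_lit 16146482375) (nat_lit 304) (nat_lit 27126792905) (nat_lit 42) (nat_lit 5) (nat_lit 45) (nat_lit 5) (nat_lit 46) (nat_lit 5) (nat_lit 366) (nat_lit 307) (nat_lit 107)) (XT.lf (nat_lit 0) (nat_lit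 23549581271) (nat_lit 228) (nat_lit 4459508789) (nat_lit 304) (nat_lit 22162816013) (nat_lit 42) (nat_lit 5) (nat_lit 45) (nat_lit 5) (nat_lit 46) (nat_lit 5) (nat_lit 367) (nat_lit 307) (nat_lit 106)))) (XT.nd (nat_lit 78) (nat_lit 228) (nat_lit 0) (XT.lf (nat_lit 0) (nat_lit 34314079513) (nat_lit 304) (nat_lit 9547405541) (nat_lit 76) (nat_lit 7429454304) (nat_lit 42) (nat_lit 5) (nat_lit 46) (nat_lit 5) (nat_lit 43) (nat_lit 5) (nat_lit 368) (nat_lit 307) (nat_lit 105)) (XT.nd (nat_lit 78) (nat_lit 0) (nat_lit 0) (XT.lf (nat_lit 0) (nat_lit 8152047981) (nat_lit 228) (nat_lit 32776833003) (nat_lit 304) (nat_lit 11511046565) (nat_lit 39) (nat_lit 5) (nat_lit 42) (nat_lit 5) (nat_lit 43) (nat_lit 5) (nat_lit 369) (nat_lit 307) (nat_lit 104)) (XT.lf (nat_lit 0) (nat_lit 26575587821) (nat_lit 228) (nat_lit 21261123969) (nat_lit 304) (nat_lit 5783839702) (nat_lit 39) (nat_lit 5) (nat_lit 42) (nat_lit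 5) (nat_lit 43) (nat_lit 5) (nat_lit 370) (nat_lit 307) (nat_lit 103)))))) (XT.nd (nat_lit 390) (nat_lit 0) (nat_lit 0) (XT.nd (nat_lit 156) (nat_lit 228) (nat_lit 0) (XT.nd (nat_lit 78) (nat_lit 228) (nat_lit 0) (XT.lf (nat_lit 0) (nat_lit 111143058) (nat_lit 304) (nat_lit 9288440372) (nat_lit 76) (nat_lit 45437034741) (nat_lit 38) (nat_lit 5) (nat_lit 42) (nat_lit 5) (nat_lit 39) (nat_lit 5) (nat_lit 371) (nat_lit 307) (nat_lit 102)) (XT.lf (nat_lit 0) (nat_lit 6181156453) (nat_lit 304) (nat_lit 46994430095) (nat_lit 76) (nat_lit 2908432767) (nat_lit 35) (nat_lit 5) (nat_lit 39) (nat_lit 5) (nat_lit 36) (nat_lit 5) (nat_lit 372) (nat_lit 307) (nat_lit 101))) (XT.nd (nat_lit 78) (nat_lit 228) (nat_lit 0) (XT.lf (nat_lit 0) (nat_lit 12619338291) (nat_lit 304) (nat_lit 29253179660) (nat_lit 76) (nat_lit 15490745758) (nat_lit 35) (nat_lit 5) (nat_lit 39) (nat_lit 5) (nat_lit 36) (nat_lit 5) (nat_lit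 373) (nat_lit 307) (nat_lit 100)) (XT.nd (nat_lit 78) (nat_lit 228) (nat_lit 0) (XT.lf (nat_lit 0) (nat_lit 19248994865) (nat_lit 304) (nat_lit 10982139083) (nat_lit 76) (nat_lit 28449804769) (nat_lit 35) (nat_lit 5) (nat_lit 39) (nat_lit 5) (nat_lit 36) (nat_lit 5) (nat_lit 374) (nat_lit 307) (nat_lit 99)) (XT.lf (nat_lit 0) (nat_lit 7990581648) (nat_lit 228) (nat_lit 18162147788) (nat_lit 304) (nat_lit 33883161960) (nat_lit 32) (nat_lit 5) (nat_lit 35) (nat_lit 5) (nat_lit 36) (nat_lit 5) (nat_lit 375) (nat_lit 307) (nat_lit 98))))) (XT.nd (nat_lit 35490) (nat_lit 0) (nat_lit 7600) (XT.nd (nat_lit 35334) (nat_lit 0) (nat_lit 8664) (XT.lf (nat_lit 0) (nat_lit 27755254292) (nat_lit 228) (nat_lit 5617622396) (nat_lit 304) (nat_lit 28055339930) (nat_lit 32) (nat_lit 5) (nat_lit 35) (nat_lit 5) (nat_lit 36) (nat_lit 5) (nat_lit 376) (nat_lit 307) (nat_lit 97)) (XT.nd (nat_lit 78) (nat_lit 0) (nat_lit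 0) (XT.lf (nat_lit 0) (nat_lit 4125856520) (nat_lit 0) (nat_lit 4125856520) (nat_lit 988) (nat_lit 345879784) (nat_lit 146) (nat_lit 5) (nat_lit 146) (nat_lit 3) (nat_lit 159) (nat_lit 3) (nat_lit 308) (nat_lit 308) (nat_lit 164)) (XT.lf (nat_lit 0) (nat_lit 15349789319) (nat_lit 0) (nat_lit 1598362263) (nat_lit 988) (nat_lit 498423859) (nat_lit 146) (nat_lit 5) (nat_lit 146) (nat_lit 3) (nat_lit 159) (nat_lit 3) (nat_lit 309) (nat_lit 308) (nat_lit 163)))) (XT.nd (nat_lit 78) (nat_lit 1064) (nat_lit 0) (XT.lf (nat_lit 76) (nat_lit 4998183473) (nat_lit 0) (nat_lit 12498933129) (nat_lit 1064) (nat_lit 205687699) (nat_lit 147) (nat_lit 5) (nat_lit 146) (nat_lit 5) (nat_lit 160) (nat_lit 5) (nat_lit 310) (nat_lit 308) (nat_lit 162)) (XT.nd (nat_lit 78) (nat_lit 0) (nat_lit 76) (XT.lf (nat_lit 0) (nat_lit 123597320) (nat_lit 1064) (nat_lit 5638329533) (nat_lit 1140) (nat_lit 12203899344) (nat_lit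 132) (nat_lit 5) (nat_lit 146) (nat_lit 5) (nat_lit 147) (nat_lit 5) (nat_lit 311) (nat_lit 308) (nat_lit 161)) (XT.lf (nat_lit 0) (nat_lit 478818361) (nat_lit 1064) (nat_lit 16581684476) (nat_lit 1140) (nat_lit 1175591312) (nat_lit 133) (nat_lit 5) (nat_lit 147) (nat_lit 5) (nat_lit 148) (nat_lit 5) (nat_lit 312) (nat_lit 308) (nat_lit 160))))))))
noncomputable def xc225 : XT := (XT.nd (nat_lit 1716) (nat_lit 3496) (nat_lit 0) (XT.nd (nat_lit 858) (nat_lit 2280) (nat_lit 0) (XT.nd (nat_lit 390) (nat_lit 0) (nat_lit 152) (XT.nd (nat_lit 156) (nat_lit 0) (nat_lit 76) (XT.nd (nat_lit 78) (nat_lit 0) (nat_lit 0) (XT.lf (nat_lit 0) (nat_lit 952097610) (nat_lit 1064) (nat_lit 9293237286) (nat_lit 1140) (nat_lit 8265934793) (nat_lit 133) (nat_lit 5) (nat_lit 147) (nat_lit 5) (nat_lit 148) (nat_lit 5) (nat_lit 313) (nat_lit 308) (nat_lit 159)) (XT.lf (nat_lit 0) (nat_lit 1432636399) (nat_lit 1064)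 (nat_lit 1790383289) (nat_lit 1140) (nat_lit 15571909935) (nat_lit 133) (nat_lit 5) (nat_lit 147) (nat_lit 5) (nat_lit 148) (nat_lit 5) (nat_lit 314) (nat_lit 308) (nat_lit 158))) (XT.nd (nat_lit 78) (nat_lit 0) (nat_lit 0) (XT.lf (nat_lit 0) (nat_lit 2018172846) (nat_lit 1064) (nat_lit 13073203637) (nat_lit 1140) (nat_lit 3993025785) (nat_lit 134) (nat_lit 5) (nat_lit 148) (nat_lit 5) (nat_lit 149) (nat_lit 5) (nat_lit 315) (nat_lit 308) (nat_lit 157)) (XT.nd (nat_lit 78) (nat_lit 0) (nat_lit 0) (XT.lf (nat_lit 0) (nat_lit 2664889079) (nat_lit 1064) (nat_lit 5334901349) (nat_lit 1140) (nat_lit 11381480014) (nat_lit 134) (nat_lit 5) (nat_lit 148) (nat_lit 5) (nat_lit 149) (nat_lit 5) (nat_lit 316) (nat_lit 308) (nat_lit 156)) (XT.lf (nat_lit 76) (nat_lit 2683721347) (nat_lit 0) (nat_lit 666718211) (nat_lit 1140) (nat_lit 16336041308) (nat_lit 135) (nat_lit 5) (nat_lit 134) (nat_lit 5) (nat_lit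 149) (nat_lit 5) (nat_lit 317) (nat_lit 308) (nat_lit 155))))) (XT.nd (nat_lit 234) (nat_lit 0) (nat_lit 76) (XT.nd (nat_lit 78) (nat_lit 0) (nat_lit 0) (XT.lf (nat_lit 0) (nat_lit 4170958197) (nat_lit 1064) (nat_lit 9018079242) (nat_lit 1140) (nat_lit 6808396741) (nat_lit 135) (nat_lit 5) (nat_lit 149) (nat_lit 5) (nat_lit 150) (nat_lit 5) (nat_lit 318) (nat_lit 308) (nat_lit 154)) (XT.nd (nat_lit 78) (nat_lit 0) (nat_lit 76) (XT.lf (nat_lit 0) (nat_lit 5016674580) (nat_lit 1064) (nat_lit 804713720) (nat_lit 1140) (nat_lit 14496328413) (nat_lit 135) (nat_lit 5) (nat_lit 149) (nat_lit 5) (nat_lit 150) (nat_lit 5) (nat_lit 319) (nat_lit 308) (nat_lit 153)) (XT.lf (nat_lit 0) (nat_lit 5974675234) (nat_lit 1064) (nat_lit 12860106693) (nat_lit 1140) (nat_lit 1810235970) (nat_lit 136) (nat_lit 5) (nat_lit 150) (nat_lit 5) (nat_lit 151) (nat_lit 5) (nat_lit 320) (nat_lit 308) (nat_lit 152)))) (XT.nd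 (nat_lit 78) (nat_lit 0) (nat_lit 0) (XT.lf (nat_lit 0) (nat_lit 7021562722) (nat_lit 1064) (nat_lit 4395185214) (nat_lit 1140) (nat_lit 9563602823) (nat_lit 136) (nat_lit 5) (nat_lit 150) (nat_lit 5) (nat_lit 151) (nat_lit 5) (nat_lit 321) (nat_lit 308) (nat_lit 151)) (XT.nd (nat_lit 78) (nat_lit 0) (nat_lit 76) (XT.lf (nat_lit 76) (nat_lit 4405482157) (nat_lit 0) (nat_lit 3731191623) (nat_lit 1140) (nat_lit 13187981869) (nat_lit 137) (nat_lit 5) (nat_lit 136) (nat_lit 5) (nat_lit 151) (nat_lit 5) (nat_lit 322) (nat_lit 308) (nat_lit 150)) (XT.lf (nat_lit 0) (nat_lit 9364890984) (nat_lit 1064) (nat_lit 8162677616) (nat_lit 1140) (nat_lit 4149347570) (nat_lit 137) (nat_lit 5) (nat_lit 151) (nat_lit 5) (nat_lit 152) (nat_lit 5) (nat_lit 323) (nat_lit 308) (nat_lit 149)))))) (XT.nd (nat_lit 390) (nat_lit 1596) (nat_lit 0) (XT.nd (nat_lit 156) (nat_lit 988) (nat_lit 0) (XT.nd (nat_lit 78) (nat_lit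 0) (nat_lit 0) (XT.lf (nat_lit 76) (nat_lit 831605650) (nat_lit 0) (nat_lit 9838045163) (nat_lit 1140) (nat_lit 11368918411) (nat_lit 138) (nat_lit 5) (nat_lit 137) (nat_lit 5) (nat_lit 152) (nat_lit 5) (nat_lit 324) (nat_lit 308) (nat_lit 148)) (XT.lf (nat_lit 76) (nat_lit 10258892791) (nat_lit 0) (nat_lit 1831960123) (nat_lit 1140) (nat_lit 10317915117) (nat_lit 138) (nat_lit 5) (nat_lit 137) (nat_lit 5) (nat_lit 152) (nat_lit 5) (nat_lit 325) (nat_lit 308) (nat_lit 147))) (XT.nd (nat_lit 78) (nat_lit 1064) (nat_lit 0) (XT.lf (nat_lit 0) (nat_lit 13611380219) (nat_lit 1064) (nat_lit 2886936259) (nat_lit 76) (nat_lit 6290070354) (nat_lit 138) (nat_lit 5) (nat_lit 152) (nat_lit 5) (nat_lit 139) (nat_lit 5) (nat_lit 326) (nat_lit 308) (nat_lit 146)) (XT.nd (nat_lit 78) (nat_lit 0) (nat_lit 0) (XT.lf (nat_lit 0) (nat_lit 6763654619) (nat_lit 1064) (nat_lit 8492198954) (nat_lit 1140) (nat_lit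 7921204995) (nat_lit 124) (nat_lit 5) (nat_lit 138) (nat_lit 5) (nat_lit 139) (nat_lit 5) (nat_lit 327) (nat_lit 308) (nat_lit 145)) (XT.lf (nat_lit 0) (nat_lit 16758901284) (nat_lit 1064) (nat_lit 215189533) (nat_lit 1140) (nat_lit 6602580609) (nat_lit 124) (nat_lit 5) (nat_lit 138) (nat_lit 5) (nat_lit 139) (nat_lit 5) (nat_lit 328) (nat_lit 308) (nat_lit 144))))) (XT.nd (nat_lit 234) (nat_lit 1064) (nat_lit 0) (XT.nd (nat_lit 78) (nat_lit 0) (nat_lit 0) (XT.lf (nat_lit 0) (nat_lit 3041112721) (nat_lit 532) (nat_lit 15807298755) (nat_lit 608) (nat_lit 5136738561) (nat_lit 117) (nat_lit 5) (nat_lit 124) (nat_lit 5) (nat_lit 125) (nat_lit 5) (nat_lit 329) (nat_lit 308) (nat_lit 143)) (XT.nd (nat_lit 78) (nat_lit 0) (nat_lit 0) (XT.lf (nat_lit 0) (nat_lit 13329305726) (nat_lit 532) (nat_lit 7516127567) (nat_lit 608) (nat_lit 3558468633) (nat_lit 117) (nat_lit 5) (nat_lit 124) (nat_lit 5) (nat_lit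 125) (nat_lit 5) (nat_lit 330) (nat_lit 308) (nat_lit 142)) (XT.lf (nat_lit 0) (nat_lit 22907857426) (nat_lit 608) (nat_lit 922983729) (nat_lit 76) (nat_lit 1004223151) (nat_lit 117) (nat_lit 5) (nat_lit 125) (nat_lit 5) (nat_lit 118) (nat_lit 5) (nat_lit 331) (nat_lit 308) (nat_lit 141)))) (XT.nd (nat_lit 78) (nat_lit 608) (nat_lit 0) (XT.lf (nat_lit 0) (nat_lit 9642977100) (nat_lit 456) (nat_lit 15552065640) (nat_lit 532) (nat_lit 79244479) (nat_lit 111) (nat_lit 5) (nat_lit 117) (nat_lit 5) (nat_lit 118) (nat_lit 5) (nat_lit 332) (nat_lit 308) (nat_lit 140)) (XT.nd (nat_lit 78) (nat_lit 532) (nat_lit 0) (XT.lf (nat_lit 0) (nat_lit 1793783378) (nat_lit 532) (nat_lit 5203205766) (nat_lit 76) (nat_lit 18729026562) (nat_lit 110) (nat_lit 5) (nat_lit 117) (nat_lit 5) (nat_lit 111) (nat_lit 5) (nat_lit 333) (nat_lit 308) (nat_lit 139)) (XT.lf (nat_lit 0) (nat_lit 3789577907) (nat_lit 608) (nat_lit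 20564585052) (nat_lit 76) (nat_lit 1835075764) (nat_lit 103) (nat_lit 5) (nat_lit 111) (nat_lit 5) (nat_lit 104) (nat_lit 5) (nat_lit 334) (nat_lit 308) (nat_lit 138))))))) (XT.nd (nat_lit 858) (nat_lit 1748) (nat_lit 0) (XT.nd (nat_lit 390) (nat_lit 836) (nat_lit 0) (XT.nd (nat_lit 156) (nat_lit 456) (nat_lit 0) (XT.nd (nat_lit 78) (nat_lit 456) (nat_lit 0) (XT.lf (nat_lit 0) (nat_lit 5963600406) (nat_lit 608) (nat_lit 9854555296) (nat_lit 76) (nat_lit 10844663047) (nat_lit 103) (nat_lit 5) (nat_lit 111) (nat_lit 5) (nat_lit 104) (nat_lit 5) (nat_lit 335) (nat_lit 308) (nat_lit 137)) (XT.lf (nat_lit 0) (nat_lit 1196249261) (nat_lit 456) (nat_lit 7014224095) (nat_lit 532) (nat_lit 18939914549) (nat_lit 97) (nat_lit 5) (nat_lit 103) (nat_lit 5) (nat_lit 104) (nat_lit 5) (nat_lit 336) (nat_lit 308) (nat_lit 136))) (XT.nd (nat_lit 78) (nat_lit 456) (nat_lit 0) (XT.lf (nat_lit 0) (nat_lit 10641198275)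 (nat_lit 532) (nat_lit 14893695042) (nat_lit 76) (nat_lit 2114207759) (nat_lit 97) (nat_lit 5) (nat_lit 104) (nat_lit 5) (nat_lit 98) (nat_lit 5) (nat_lit 337) (nat_lit 308) (nat_lit 135)) (XT.nd (nat_lit 78) (nat_lit 456) (nat_lit 0) (XT.lf (nat_lit 0) (nat_lit 13210609406) (nat_lit 532) (nat_lit 3574725743) (nat_lit 76) (nat_lit 11375477572) (nat_lit 97) (nat_lit 5) (nat_lit 104) (nat_lit 5) (nat_lit 98) (nat_lit 5) (nat_lit 338) (nat_lit 308) (nat_lit 134)) (XT.lf (nat_lit 0) (nat_lit 8240894155) (nat_lit 456) (nat_lit 7691849214) (nat_lit 532) (nat_lit 12752872854) (nat_lit 91) (nat_lit 5) (nat_lit 97) (nat_lit 5) (nat_lit 98) (nat_lit 5) (nat_lit 339) (nat_lit 308) (nat_lit 133))))) (XT.nd (nat_lit 234) (nat_lit 456) (nat_lit 0) (XT.nd (nat_lit 78) (nat_lit 380) (nat_lit 0) (XT.lf (nat_lit 0) (nat_lit 18785583113) (nat_lit 532) (nat_lit 8761077379) (nat_lit 76) (nat_lit 1678041523) (nat_lit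 91) (nat_lit 5) (nat_lit 98) (nat_lit 5) (nat_lit 92) (nat_lit 5) (nat_lit 340) (nat_lit 308) (nat_lit 132)) (XT.nd (nat_lit 78) (nat_lit 0) (nat_lit 0) (XT.lf (nat_lit 0) (nat_lit 3256777648) (nat_lit 380) (nat_lit 18571286553) (nat_lit 456) (nat_lit 7948783657) (nat_lit 86) (nat_lit 5) (nat_lit 91) (nat_lit 5) (nat_lit 92) (nat_lit 5) (nat_lit 341) (nat_lit 308) (nat_lit 131)) (XT.lf (nat_lit 0) (nat_lit 15811104494) (nat_lit 380) (nat_lit 9235842097) (nat_lit 456) (nat_lit 5296066579) (nat_lit 86) (nat_lit 5) (nat_lit 91) (nat_lit 5) (nat_lit 92) (nat_lit 5) (nat_lit 342) (nat_lit 308) (nat_lit 130)))) (XT.nd (nat_lit 78) (nat_lit 456) (nat_lit 0) (XT.lf (nat_lit 0) (nat_lit 28362796626) (nat_lit 456) (nat_lit 2191405746) (nat_lit 76) (nat_lit 371957670) (nat_lit 86) (nat_lit 5) (nat_lit 92) (nat_lit 5) (nat_lit 87) (nat_lit 5) (nat_lit 343) (nat_lit 308) (nat_lit 129)) (XT.nd (nat_lit 78)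 (nat_lit 0) (nat_lit 0) (XT.lf (nat_lit 0) (nat_lit 438783888) (nat_lit 456) (nat_lit 20893611562) (nat_lit 76) (nat_lit 10188570520) (nat_lit 80) (nat_lit 5) (nat_lit 86) (nat_lit 5) (nat_lit 81) (nat_lit 5) (nat_lit 344) (nat_lit 308) (nat_lit 128)) (XT.lf (nat_lit 0) (nat_lit 3498688212) (nat_lit 456) (nat_lit 8286535060) (nat_lit 76) (nat_lit 20347062904) (nat_lit 80) (nat_lit 5) (nat_lit 86) (nat_lit 5) (nat_lit 81) (nat_lit 5) (nat_lit 345) (nat_lit 308) (nat_lit 127)))))) (XT.nd (nat_lit 390) (nat_lit 988) (nat_lit 0) (XT.nd (nat_lit 156) (nat_lit 380) (nat_lit 0) (XT.nd (nat_lit 78) (nat_lit 0) (nat_lit 0) (XT.lf (nat_lit 0) (nat_lit 4788720323) (nat_lit 380) (nat_lit 1904658410) (nat_lit 456) (nat_lit 26067285257) (nat_lit 75) (nat_lit 5) (nat_lit 80) (nat_lit 5) (nat_lit 81) (nat_lit 5) (nat_lit 346) (nat_lit 308) (nat_lit 126)) (XT.lf (nat_lit 0) (nat_lit 10144942938) (nat_lit 456)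 (nat_lit 15063167895) (nat_lit 76) (nat_lit 8194958766) (nat_lit 75) (nat_lit 5) (nat_lit 81) (nat_lit 5) (nat_lit 76) (nat_lit 5) (nat_lit 347) (nat_lit 308) (nat_lit 125))) (XT.nd (nat_lit 78) (nat_lit 380) (nat_lit 0) (XT.lf (nat_lit 0) (nat_lit 13716007303) (nat_lit 456) (nat_lit 1789421006) (nat_lit 76) (nat_lit 18558847707) (nat_lit 75) (nat_lit 5) (nat_lit 81) (nat_lit 5) (nat_lit 76) (nat_lit 5) (nat_lit 348) (nat_lit 308) (nat_lit 124)) (XT.nd (nat_lit 78) (nat_lit 0) (nat_lit 0) (XT.lf (nat_lit 0) (nat_lit 12115623618) (nat_lit 380) (nat_lit 5392222602) (nat_lit 456) (nat_lit 17234070148) (nat_lit 70) (nat_lit 5) (nat_lit 75) (nat_lit 5) (nat_lit 76) (nat_lit 5) (nat_lit 349) (nat_lit 308) (nat_lit 123)) (XT.lf (nat_lit 0) (nat_lit 21477211391) (nat_lit 456) (nat_lit 9016705440) (nat_lit 76) (nat_lit 4944062785) (nat_lit 70) (nat_lit 5) (nat_lit 76) (nat_lit 5) (nat_lit 71) (nat_lit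 5) (nat_lit 350) (nat_lit 308) (nat_lit 122))))) (XT.nd (nat_lit 234) (nat_lit 684) (nat_lit 0) (XT.nd (nat_lit 78) (nat_lit 0) (nat_lit 0) (XT.lf (nat_lit 0) (nat_lit 5042898650) (nat_lit 304) (nat_lit 20621928588) (nat_lit 380) (nat_lit 10487129053) (nat_lit 66) (nat_lit 5) (nat_lit 70) (nat_lit 5) (nat_lit 71) (nat_lit 5) (nat_lit 351) (nat_lit 308) (nat_lit 121)) (XT.nd (nat_lit 78) (nat_lit 0) (nat_lit 0) (XT.lf (nat_lit 0) (nat_lit 19705869105) (nat_lit 304) (nat_lit 10360606625) (nat_lit 380) (nat_lit 6818230837) (nat_lit 66) (nat_lit 5) (nat_lit 70) (nat_lit 5) (nat_lit 71) (nat_lit 5) (nat_lit 352) (nat_lit 308) (nat_lit 120)) (XT.lf (nat_lit 0) (nat_lit 34599602977) (nat_lit 380) (nat_lit 2835953656) (nat_lit 76) (nat_lit 203906081) (nat_lit 66) (nat_lit 5) (nat_lit 71) (nat_lit 5) (nat_lit 67) (nat_lit 5) (nat_lit 353) (nat_lit 308) (nat_lit 119)))) (XT.nd (nat_lit 78) (nat_lit 304)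 (nat_lit 0) (XT.lf (nat_lit 0) (nat_lit 1053447845) (nat_lit 380) (nat_lit 26353750880) (nat_lit 76) (nat_lit 11002876796) (nat_lit 61) (nat_lit 5) (nat_lit 66) (nat_lit 5) (nat_lit 62) (nat_lit 5) (nat_lit 354) (nat_lit 308) (nat_lit 118)) (XT.nd (nat_lit 78) (nat_lit 304) (nat_lit 0) (XT.lf (nat_lit 0) (nat_lit 5234889954) (nat_lit 380) (nat_lit 11782991485) (nat_lit 76) (nat_lit 22184235049) (nat_lit 61) (nat_lit 5) (nat_lit 66) (nat_lit 5) (nat_lit 62) (nat_lit 5) (nat_lit 355) (nat_lit 308) (nat_lit 117)) (XT.lf (nat_lit 0) (nat_lit 3285935102) (nat_lit 304) (nat_lit 6285011456) (nat_lit 380) (nat_lit 30446102534) (nat_lit 57) (nat_lit 5) (nat_lit 61) (nat_lit 5) (nat_lit 62) (nat_lit 5) (nat_lit 356) (nat_lit 308) (nat_lit 116))))))))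
noncomputable def xc226 : XT := (XT.nd (nat_lit 37050) (nat_lit 0) (nat_lit 6460) (XT.nd (nat_lit 858) (nat_lit 760) (nat_lit 0) (XT.nd (nat_lit 390) (nat_lit 836) (nat_lit 0) (XT.nd (nat_lit 156) (nat_lit 304) (nat_lit 0) (XT.nd (nat_lit 78) (nat_lit 0) (nat_lit 0) (XT.lf (nat_lit 0) (nat_lit 14200718129) (nat_lit 380) (nat_lit 21854535605) (nat_lit 76) (nat_lit 4796272325) (nat_lit 57) (nat_lit 5) (nat_lit 62) (nat_lit 5) (nat_lit 58) (nat_lit 5) (nat_lit 357) (nat_lit 308) (nat_lit 115)) (XT.lf (nat_lit 0) (nat_lit 19029299444) (nat_lit 380) (nat_lit 6596912956) (nat_lit 76) (nat_lit 16083032663) (nat_lit 57) (nat_lit 5) (nat_lit 62) (nat_lit 5) (nat_lit 58) (nat_lit 5) (nat_lit 358) (nat_lit 308) (nat_lit 114))) (XT.nd (nat_lit 78) (nat_lit 0) (nat_lit 0) (XT.lf (nat_lit 0) (nat_lit 9296917582) (nat_lit 304) (nat_lit 14792944352) (nat_lit 380) (nat_lit 18500225064) (nat_lit 53) (nat_lit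 5) (nat_lit 57) (nat_lit 5) (nat_lit 58) (nat_lit 5) (nat_lit 359) (nat_lit 308) (nat_lit 113)) (XT.nd (nat_lit 78) (nat_lit 0) (nat_lit 0) (XT.lf (nat_lit 0) (nat_lit 25799884943) (nat_lit 304) (nat_lit 3566765720) (nat_lit 380) (nat_lit 14128776174) (nat_lit 53) (nat_lit 5) (nat_lit 57) (nat_lit 5) (nat_lit 58) (nat_lit 5) (nat_lit 360) (nat_lit 308) (nat_lit 112)) (XT.lf (nat_lit 0) (nat_lit 34876458600) (nat_lit 380) (nat_lit 1709736029) (nat_lit 76) (nat_lit 7839495558) (nat_lit 53) (nat_lit 5) (nat_lit 58) (nat_lit 5) (nat_lit 54) (nat_lit 5) (nat_lit 361) (nat_lit 308) (nat_lit 111))))) (XT.nd (nat_lit 234) (nat_lit 228) (nat_lit 0) (XT.nd (nat_lit 78) (nat_lit 380) (nat_lit 0) (XT.lf (nat_lit 0) (nat_lit 15010435081) (nat_lit 228) (nat_lit 25718643472) (nat_lit 304) (nat_lit 4649461994) (nat_lit 50) (nat_lit 5) (nat_lit 53) (nat_lit 5) (nat_lit 54) (nat_lit 5) (nat_lit 362) (nat_lit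 308) (nat_lit 110)) (XT.nd (nat_lit 78) (nat_lit 304) (nat_lit 0) (XT.lf (nat_lit 0) (nat_lit 404906978) (nat_lit 304) (nat_lit 14099009578) (nat_lit 76) (nat_lit 31855488893) (nat_lit 49) (nat_lit 5) (nat_lit 53) (nat_lit 5) (nat_lit 50) (nat_lit 5) (nat_lit 363) (nat_lit 308) (nat_lit 109)) (XT.lf (nat_lit 0) (nat_lit 2661318655) (nat_lit 304) (nat_lit 2879704632) (nat_lit 380) (nat_lit 41826589257) (nat_lit 45) (nat_lit 5) (nat_lit 49) (nat_lit 5) (nat_lit 50) (nat_lit 5) (nat_lit 364) (nat_lit 308) (nat_lit 108)))) (XT.nd (nat_lit 78) (nat_lit 228) (nat_lit 0) (XT.lf (nat_lit 0) (nat_lit 11060424091) (nat_lit 380) (nat_lit 28279909386) (nat_lit 76) (nat_lit 9058860470) (nat_lit 45) (nat_lit 5) (nat_lit 50) (nat_lit 5) (nat_lit 46) (nat_lit 5) (nat_lit 365) (nat_lit 308) (nat_lit 107)) (XT.nd (nat_lit 78) (nat_lit 228) (nat_lit 0) (XT.lf (nat_lit 0) (nat_lit 16771986126) (nat_lit 380) (nat_lit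 11391932617) (nat_lit 76) (nat_lit 21297010677) (nat_lit 45) (nat_lit 5) (nat_lit 50) (nat_lit 5) (nat_lit 46) (nat_lit 5) (nat_lit 366) (nat_lit 308) (nat_lit 106)) (XT.lf (nat_lit 0) (nat_lit 6119487628) (nat_lit 228) (nat_lit 16592355228) (nat_lit 304) (nat_lit 27840969557) (nat_lit 42) (nat_lit 5) (nat_lit 45) (nat_lit 5) (nat_lit 46) (nat_lit 5) (nat_lit 367) (nat_lit 308) (nat_lit 105)))))) (XT.nd (nat_lit 390) (nat_lit 456) (nat_lit 0) (XT.nd (nat_lit 156) (nat_lit 304) (nat_lit 0) (XT.nd (nat_lit 78) (nat_lit 0) (nat_lit 0) (XT.lf (nat_lit 0) (nat_lit 24387190440) (nat_lit 228) (nat_lit 4555894423) (nat_lit 304) (nat_lit 22730975119) (nat_lit 42) (nat_lit 5) (nat_lit 45) (nat_lit 5) (nat_lit 46) (nat_lit 5) (nat_lit 368) (nat_lit 308) (nat_lit 104)) (XT.lf (nat_lit 0) (nat_lit 35434843268) (nat_lit 304) (nat_lit 9703958294) (nat_lit 76) (nat_lit 7687939708) (nat_lit 42) (nat_lit 5)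 (nat_lit 46) (nat_lit 5) (nat_lit 43) (nat_lit 5) (nat_lit 369) (nat_lit 308) (nat_lit 103))) (XT.nd (nat_lit 78) (nat_lit 76) (nat_lit 0) (XT.lf (nat_lit 0) (nat_lit 8525205604) (nat_lit 228) (nat_lit 33721458896) (nat_lit 304) (nat_lit 11763582753) (nat_lit 39) (nat_lit 5) (nat_lit 42) (nat_lit 5) (nat_lit 43) (nat_lit 5) (nat_lit 370) (nat_lit 308) (nat_lit 102)) (XT.nd (nat_lit 78) (nat_lit 76) (nat_lit 0) (XT.lf (nat_lit 0) (nat_lit 27497706120) (nat_lit 228) (nat_lit 21861405166) (nat_lit 304) (nat_lit 5867262457) (nat_lit 39) (nat_lit 5) (nat_lit 42) (nat_lit 5) (nat_lit 43) (nat_lit 5) (nat_lit 371) (nat_lit 308) (nat_lit 101)) (XT.lf (nat_lit 0) (nat_lit 200238910) (nat_lit 304) (nat_lit 9444007240) (nat_lit 76) (nat_lit 46834732435) (nat_lit 38) (nat_lit 5) (nat_lit 42) (nat_lit 5) (nat_lit 39) (nat_lit 5) (nat_lit 372) (nat_lit 308) (nat_lit 100))))) (XT.nd (nat_lit 234) (nat_lit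 228) (nat_lit 0) (XT.nd (nat_lit 78) (nat_lit 0) (nat_lit 0) (XT.lf (nat_lit 0) (nat_lit 6451386318) (nat_lit 304) (nat_lit 48280049795) (nat_lit 76) (nat_lit 3032399457) (nat_lit 35) (nat_lit 5) (nat_lit 39) (nat_lit 5) (nat_lit 36) (nat_lit 5) (nat_lit 373) (nat_lit 308) (nat_lit 99)) (XT.nd (nat_lit 78) (nat_lit 0) (nat_lit 0) (XT.lf (nat_lit 0) (nat_lit 13080243848) (nat_lit 304) (nat_lit 30010179707) (nat_lit 76) (nat_lit 15991112507) (nat_lit 35) (nat_lit 5) (nat_lit 39) (nat_lit 5) (nat_lit 36) (nat_lit 5) (nat_lit 374) (nat_lit 308) (nat_lit 98)) (XT.lf (nat_lit 0) (nat_lit 19906392292) (nat_lit 304) (nat_lit 11194520399) (nat_lit 76) (nat_lit 29337905103) (nat_lit 35) (nat_lit 5) (nat_lit 39) (nat_lit 5) (nat_lit 36) (nat_lit 5) (nat_lit 375) (nat_lit 308) (nat_lit 97)))) (XT.nd (nat_lit 35412) (nat_lit 0) (nat_lit 8664) (XT.lf (nat_lit 0) (nat_lit 8346234083) (nat_lit 228) (nat_lit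 18669791268) (nat_lit 304) (nat_lit 34818434514) (nat_lit 32) (nat_lit 5) (nat_lit 35) (nat_lit 5) (nat_lit 36) (nat_lit 5) (nat_lit 376) (nat_lit 308) (nat_lit 96)) (XT.nd (nat_lit 78) (nat_lit 0) (nat_lit 0) (XT.lf (nat_lit 0) (nat_lit 4347271592) (nat_lit 0) (nat_lit 4347271592) (nat_lit 988) (nat_lit 154502281) (nat_lit 146) (nat_lit 5) (nat_lit 146) (nat_lit 3) (nat_lit 159) (nat_lit 3) (nat_lit 309) (nat_lit 309) (nat_lit 162)) (XT.lf (nat_lit 0) (nat_lit 15999874021) (nat_lit 0) (nat_lit 1835904153) (nat_lit 988) (nat_lit 121621436) (nat_lit 146) (nat_lit 5) (nat_lit 146) (nat_lit 3) (nat_lit 159) (nat_lit 3) (nat_lit 310) (nat_lit 309) (nat_lit 161))))))) (XT.nd (nat_lit 858) (nat_lit 1140) (nat_lit 0) (XT.nd (nat_lit 390) (nat_lit 0) (nat_lit 152) (XT.nd (nat_lit 156) (nat_lit 0) (nat_lit 76) (XT.nd (nat_lit 78) (nat_lit 0) (nat_lit 0) (XT.lf (nat_lit 0) (nat_lit 165372628) (nat_lit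 1064) (nat_lit 12873181985) (nat_lit 1140) (nat_lit 5183073123) (nat_lit 132) (nat_lit 5) (nat_lit 146) (nat_lit 5) (nat_lit 147) (nat_lit 5) (nat_lit 311) (nat_lit 309) (nat_lit 160)) (XT.lf (nat_lit 0) (nat_lit 489535182) (nat_lit 1064) (nat_lit 5603070723) (nat_lit 1140) (nat_lit 12400232176) (nat_lit 132) (nat_lit 5) (nat_lit 146) (nat_lit 5) (nat_lit 147) (nat_lit 5) (nat_lit 312) (nat_lit 309) (nat_lit 159))) (XT.nd (nat_lit 78) (nat_lit 0) (nat_lit 0) (XT.lf (nat_lit 0) (nat_lit 845354482) (nat_lit 1064) (nat_lit 16863603859) (nat_lit 1140) (nat_lit 1062589405) (nat_lit 133) (nat_lit 5) (nat_lit 147) (nat_lit 5) (nat_lit 148) (nat_lit 5) (nat_lit 313) (nat_lit 309) (nat_lit 158)) (XT.nd (nat_lit 78) (nat_lit 0) (nat_lit 0) (XT.lf (nat_lit 0) (nat_lit 1322574683) (nat_lit 1064) (nat_lit 9362780859) (nat_lit 1140) (nat_lit 8369961724) (nat_lit 133) (nat_lit 5) (nat_lit 147) (nat_lit 5)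 (nat_lit 148) (nat_lit 5) (nat_lit 314) (nat_lit 309) (nat_lit 157)) (XT.lf (nat_lit 0) (nat_lit 1807570972) (nat_lit 1064) (nat_lit 1640936006) (nat_lit 1140) (nat_lit 15899308871) (nat_lit 133) (nat_lit 5) (nat_lit 147) (nat_lit 5) (nat_lit 148) (nat_lit 5) (nat_lit 315) (nat_lit 309) (nat_lit 156))))) (XT.nd (nat_lit 234) (nat_lit 0) (nat_lit 76) (XT.nd (nat_lit 78) (nat_lit 0) (nat_lit 0) (XT.lf (nat_lit 0) (nat_lit 2401755780) (nat_lit 1064) (nat_lit 13252349446) (nat_lit 1140) (nat_lit 3992164192) (nat_lit 134) (nat_lit 5) (nat_lit 148) (nat_lit 5) (nat_lit 149) (nat_lit 5) (nat_lit 316) (nat_lit 309) (nat_lit 155)) (XT.nd (nat_lit 78) (nat_lit 0) (nat_lit 0) (XT.lf (nat_lit 0) (nat_lit 3058464633) (nat_lit 1064) (nat_lit 5288103438) (nat_lit 1140) (nat_lit 11605786194) (nat_lit 134) (nat_lit 5) (nat_lit 148) (nat_lit 5) (nat_lit 149) (nat_lit 5) (nat_lit 317) (nat_lit 309) (nat_lit 154))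 (XT.lf (nat_lit 76) (nat_lit 2969050047) (nat_lit 0) (nat_lit 788365585) (nat_lit 1140) (nat_lit 16509547886) (nat_lit 135) (nat_lit 5) (nat_lit 134) (nat_lit 5) (nat_lit 149) (nat_lit 5) (nat_lit 318) (nat_lit 309) (nat_lit 153)))) (XT.nd (nat_lit 78) (nat_lit 0) (nat_lit 0) (XT.lf (nat_lit 0) (nat_lit 4592675104) (nat_lit 1064) (nat_lit 9079004226) (nat_lit 1140) (nat_lit 6915889079) (nat_lit 135) (nat_lit 5) (nat_lit 149) (nat_lit 5) (nat_lit 150) (nat_lit 5) (nat_lit 319) (nat_lit 309) (nat_lit 152)) (XT.nd (nat_lit 78) (nat_lit 0) (nat_lit 76) (XT.lf (nat_lit 0) (nat_lit 5455124487) (nat_lit 1064) (nat_lit 625343099) (nat_lit 1140) (nat_lit 14837276941) (nat_lit 135) (nat_lit 5) (nat_lit 149) (nat_lit 5) (nat_lit 150) (nat_lit 5) (nat_lit 320) (nat_lit 309) (nat_lit 151)) (XT.lf (nat_lit 0) (nat_lit 6434646535) (nat_lit 1064) (nat_lit 13034339238) (nat_lit 1140) (nat_lit 1786120733) (nat_lit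 136) (nat_lit 5) (nat_lit 150) (nat_lit 5) (nat_lit 151) (nat_lit 5) (nat_lit 321) (nat_lit 309) (nat_lit 150)))))) (XT.nd (nat_lit 390) (nat_lit 1444) (nat_lit 0) (XT.nd (nat_lit 156) (nat_lit 0) (nat_lit 76) (XT.nd (nat_lit 78) (nat_lit 0) (nat_lit 0) (XT.lf (nat_lit 0) (nat_lit 7504764015) (nat_lit 1064) (nat_lit 4321632367) (nat_lit 1140) (nat_lit 9774372737) (nat_lit 136) (nat_lit 5) (nat_lit 150) (nat_lit 5) (nat_lit 151) (nat_lit 5) (nat_lit 322) (nat_lit 309) (nat_lit 149)) (XT.lf (nat_lit 76) (nat_lit 4741041217) (nat_lit 0) (nat_lit 3906303863) (nat_lit 1140) (nat_lit 13308261329) (nat_lit 137) (nat_lit 5) (nat_lit 136) (nat_lit 5) (nat_lit 151) (nat_lit 5) (nat_lit 323) (nat_lit 309) (nat_lit 148))) (XT.nd (nat_lit 78) (nat_lit 0) (nat_lit 0) (XT.lf (nat_lit 0) (nat_lit 9904054991) (nat_lit 1064) (nat_lit 8200964938) (nat_lit 1140) (nat_lit 4213688492) (nat_lit 137) (nat_lit 5) (nat_lit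 151) (nat_lit 5) (nat_lit 152) (nat_lit 5) (nat_lit 324) (nat_lit 309) (nat_lit 147)) (XT.nd (nat_lit 78) (nat_lit 0) (nat_lit 0) (XT.lf (nat_lit 76) (nat_lit 1061121404) (nat_lit 0) (nat_lit 10181281747) (nat_lit 1140) (nat_lit 11448996939) (nat_lit 138) (nat_lit 5) (nat_lit 137) (nat_lit 5) (nat_lit 152) (nat_lit 5) (nat_lit 325) (nat_lit 309) (nat_lit 146)) (XT.lf (nat_lit 76) (nat_lit 10765268880) (nat_lit 0) (nat_lit 1933613324) (nat_lit 1140) (nat_lit 10374065168) (nat_lit 138) (nat_lit 5) (nat_lit 137) (nat_lit 5) (nat_lit 152) (nat_lit 5) (nat_lit 326) (nat_lit 309) (nat_lit 145))))) (XT.nd (nat_lit 234) (nat_lit 532) (nat_lit 0) (XT.nd (nat_lit 78) (nat_lit 1064) (nat_lit 0) (XT.lf (nat_lit 0) (nat_lit 14257444779) (nat_lit 1064) (nat_lit 2772435745) (nat_lit 76) (nat_lit 6434322735) (nat_lit 138) (nat_lit 5) (nat_lit 152) (nat_lit 5) (nat_lit 139) (nat_lit 5) (nat_lit 327) (nat_lit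 309) (nat_lit 144)) (XT.nd (nat_lit 78) (nat_lit 0) (nat_lit 0) (XT.lf (nat_lit 0) (nat_lit 7165701206) (nat_lit 1064) (nat_lit 8780541378) (nat_lit 1140) (nat_lit 7918463345) (nat_lit 124) (nat_lit 5) (nat_lit 138) (nat_lit 5) (nat_lit 139) (nat_lit 5) (nat_lit 328) (nat_lit 309) (nat_lit 143)) (XT.lf (nat_lit 0) (nat_lit 17455005166) (nat_lit 1064) (nat_lit 254243719) (nat_lit 1140) (nat_lit 6567281522) (nat_lit 124) (nat_lit 5) (nat_lit 138) (nat_lit 5) (nat_lit 139) (nat_lit 5) (nat_lit 329) (nat_lit 309) (nat_lit 142)))) (XT.nd (nat_lit 78) (nat_lit 0) (nat_lit 0) (XT.lf (nat_lit 0) (nat_lit 3331465980) (nat_lit 532) (nat_lit 16303362375) (nat_lit 608) (nat_lit 5062603459) (nat_lit 117) (nat_lit 5) (nat_lit 124) (nat_lit 5) (nat_lit 125) (nat_lit 5) (nat_lit 330) (nat_lit 309) (nat_lit 141)) (XT.nd (nat_lit 78) (nat_lit 0) (nat_lit 0) (XT.lf (nat_lit 0) (nat_lit 13922505167) (nat_lit 532)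 (nat_lit 7762819800) (nat_lit 608) (nat_lit 3443633121) (nat_lit 117) (nat_lit 5) (nat_lit 124) (nat_lit 5) (nat_lit 125) (nat_lit 5) (nat_lit 331) (nat_lit 309) (nat_lit 140)) (XT.lf (nat_lit 0) (nat_lit 23803175485) (nat_lit 608) (nat_lit 755930490) (nat_lit 76) (nat_lit 1014160959) (nat_lit 117) (nat_lit 5) (nat_lit 125) (nat_lit 5) (nat_lit 118) (nat_lit 5) (nat_lit 332) (nat_lit 309) (nat_lit 139))))))))
noncomputable def xc227 : XT := (XT.nd (nat_lit 1716) (nat_lit 2356) (nat_lit 0) (XT.nd (nat_lit 858) (nat_lit 1520) (nat_lit 0) (XT.nd (nat_lit 390) (nat_lit 836) (nat_lit 0) (XT.nd (nat_lit 156) (nat_lit 988) (nat_lit 0) (XT.nd (nat_lit 78) (nat_lit 0) (nat_lit 0) (XT.lf (nat_lit 0) (nat_lit 126442468) (nat_lit 532) (nat_lit 15901950130) (nat_lit 76) (nat_lit 9997380632) (nat_lit 110) (nat_lit 5) (nat_lit 117) (nat_lit 5) (nat_lit 111) (nat_lit 5) (nat_lit 333) (nat_lit 309) (nat_lit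 138)) (XT.lf (nat_lit 0) (nat_lit 2048054692) (nat_lit 532) (nat_lit 5167540100) (nat_lit 76) (nat_lit 19275632314) (nat_lit 110) (nat_lit 5) (nat_lit 117) (nat_lit 5) (nat_lit 111) (nat_lit 5) (nat_lit 334) (nat_lit 309) (nat_lit 137))) (XT.nd (nat_lit 78) (nat_lit 456) (nat_lit 0) (XT.lf (nat_lit 0) (nat_lit 4099646656) (nat_lit 608) (nat_lit 20985145202) (nat_lit 76) (nat_lit 1883693424) (nat_lit 103) (nat_lit 5) (nat_lit 111) (nat_lit 5) (nat_lit 104) (nat_lit 5) (nat_lit 335) (nat_lit 309) (nat_lit 136)) (XT.nd (nat_lit 78) (nat_lit 456) (nat_lit 0) (XT.lf (nat_lit 0) (nat_lit 6333169982) (nat_lit 608) (nat_lit 9959534283) (nat_lit 76) (nat_lit 11163755741) (nat_lit 103) (nat_lit 5) (nat_lit 111) (nat_lit 5) (nat_lit 104) (nat_lit 5) (nat_lit 336) (nat_lit 309) (nat_lit 135)) (XT.lf (nat_lit 0) (nat_lit 1420925217) (nat_lit 456) (nat_lit 7222785404) (nat_lit 532) (nat_lit 19315073016)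 (nat_lit 97) (nat_lit 5) (nat_lit 103) (nat_lit 5) (nat_lit 104) (nat_lit 5) (nat_lit 337) (nat_lit 309) (nat_lit 134))))) (XT.nd (nat_lit 234) (nat_lit 380) (nat_lit 0) (XT.nd (nat_lit 78) (nat_lit 456) (nat_lit 0) (XT.lf (nat_lit 0) (nat_lit 11141930336) (nat_lit 532) (nat_lit 15151295747) (nat_lit 76) (nat_lit 2179409732) (nat_lit 97) (nat_lit 5) (nat_lit 104) (nat_lit 5) (nat_lit 98) (nat_lit 5) (nat_lit 338) (nat_lit 309) (nat_lit 133)) (XT.nd (nat_lit 78) (nat_lit 456) (nat_lit 0) (XT.lf (nat_lit 0) (nat_lit 13783137507) (nat_lit 532) (nat_lit 3498268344) (nat_lit 76) (nat_lit 11718465919) (nat_lit 97) (nat_lit 5) (nat_lit 104) (nat_lit 5) (nat_lit 98) (nat_lit 5) (nat_lit 339) (nat_lit 309) (nat_lit 132)) (XT.lf (nat_lit 0) (nat_lit 8670019178) (nat_lit 456) (nat_lit 7913532502) (nat_lit 532) (nat_lit 12956983162) (nat_lit 91) (nat_lit 5) (nat_lit 97) (nat_lit 5) (nat_lit 98) (nat_lit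 5) (nat_lit 340) (nat_lit 309) (nat_lit 131)))) (XT.nd (nat_lit 78) (nat_lit 380) (nat_lit 0) (XT.lf (nat_lit 0) (nat_lit 19517027517) (nat_lit 532) (nat_lit 8841908867) (nat_lit 76) (nat_lit 1737018843) (nat_lit 91) (nat_lit 5) (nat_lit 98) (nat_lit 5) (nat_lit 92) (nat_lit 5) (nat_lit 341) (nat_lit 309) (nat_lit 130)) (XT.nd (nat_lit 78) (nat_lit 0) (nat_lit 0) (XT.lf (nat_lit 0) (nat_lit 3534697489) (nat_lit 380) (nat_lit 19112928282) (nat_lit 456) (nat_lit 8017147547) (nat_lit 86) (nat_lit 5) (nat_lit 91) (nat_lit 5) (nat_lit 92) (nat_lit 5) (nat_lit 342) (nat_lit 309) (nat_lit 129)) (XT.lf (nat_lit 0) (nat_lit 16460405115) (nat_lit 380) (nat_lit 9497871857) (nat_lit 456) (nat_lit 5289803313) (nat_lit 86) (nat_lit 5) (nat_lit 91) (nat_lit 5) (nat_lit 92) (nat_lit 5) (nat_lit 343) (nat_lit 309) (nat_lit 128)))))) (XT.nd (nat_lit 390) (nat_lit 684) (nat_lit 0) (XT.nd (nat_lit 156) (nat_lit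 380) (nat_lit 0) (XT.nd (nat_lit 78) (nat_lit 456) (nat_lit 0) (XT.lf (nat_lit 0) (nat_lit 29369085001) (nat_lit 456) (nat_lit 2082345842) (nat_lit 76) (nat_lit 397438644) (nat_lit 86) (nat_lit 5) (nat_lit 92) (nat_lit 5) (nat_lit 87) (nat_lit 5) (nat_lit 344) (nat_lit 309) (nat_lit 127)) (XT.lf (nat_lit 0) (nat_lit 606393043) (nat_lit 456) (nat_lit 21343868306) (nat_lit 76) (nat_lit 10511310730) (nat_lit 80) (nat_lit 5) (nat_lit 86) (nat_lit 5) (nat_lit 81) (nat_lit 5) (nat_lit 345) (nat_lit 309) (nat_lit 126))) (XT.nd (nat_lit 78) (nat_lit 380) (nat_lit 0) (XT.lf (nat_lit 0) (nat_lit 3753596080) (nat_lit 456) (nat_lit 8363721788) (nat_lit 76) (nat_lit 20974060319) (nat_lit 80) (nat_lit 5) (nat_lit 86) (nat_lit 5) (nat_lit 81) (nat_lit 5) (nat_lit 346) (nat_lit 309) (nat_lit 125)) (XT.nd (nat_lit 78) (nat_lit 0) (nat_lit 0) (XT.lf (nat_lit 0) (nat_lit 5102110772) (nat_lit 380) (nat_lit 1939280686)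 (nat_lit 456) (nat_lit 26697308967) (nat_lit 75) (nat_lit 5) (nat_lit 80) (nat_lit 5) (nat_lit 81) (nat_lit 5) (nat_lit 347) (nat_lit 309) (nat_lit 124)) (XT.lf (nat_lit 0) (nat_lit 10592425028) (nat_lit 456) (nat_lit 15345843639) (nat_lit 76) (nat_lit 8462242558) (nat_lit 75) (nat_lit 5) (nat_lit 81) (nat_lit 5) (nat_lit 76) (nat_lit 5) (nat_lit 348) (nat_lit 309) (nat_lit 123))))) (XT.nd (nat_lit 234) (nat_lit 304) (nat_lit 0) (XT.nd (nat_lit 78) (nat_lit 380) (nat_lit 0) (XT.lf (nat_lit 0) (nat_lit 14266452378) (nat_lit 456) (nat_lit 1678813060) (nat_lit 76) (nat_lit 19136423845) (nat_lit 75) (nat_lit 5) (nat_lit 81) (nat_lit 5) (nat_lit 76) (nat_lit 5) (nat_lit 349) (nat_lit 309) (nat_lit 122)) (XT.nd (nat_lit 78) (nat_lit 0) (nat_lit 0) (XT.lf (nat_lit 0) (nat_lit 12641772210) (nat_lit 380) (nat_lit 5527790510) (nat_lit 456) (nat_lit 17610180717) (nat_lit 70) (nat_lit 5) (nat_lit 75) (nat_lit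 5) (nat_lit 76) (nat_lit 5) (nat_lit 350) (nat_lit 309) (nat_lit 121)) (XT.lf (nat_lit 0) (nat_lit 22254278173) (nat_lit 456) (nat_lit 9125208092) (nat_lit 76) (nat_lit 5117324025) (nat_lit 70) (nat_lit 5) (nat_lit 76) (nat_lit 5) (nat_lit 71) (nat_lit 5) (nat_lit 351) (nat_lit 309) (nat_lit 120)))) (XT.nd (nat_lit 78) (nat_lit 0) (nat_lit 0) (XT.lf (nat_lit 0) (nat_lit 5354595900) (nat_lit 304) (nat_lit 21210602039) (nat_lit 380) (nat_lit 10667087564) (nat_lit 66) (nat_lit 5) (nat_lit 70) (nat_lit 5) (nat_lit 71) (nat_lit 5) (nat_lit 352) (nat_lit 309) (nat_lit 119)) (XT.nd (nat_lit 78) (nat_lit 0) (nat_lit 0) (XT.lf (nat_lit 0) (nat_lit 20452783325) (nat_lit 304) (nat_lit 10642313750) (nat_lit 380) (nat_lit 6892044402) (nat_lit 66) (nat_lit 5) (nat_lit 70) (nat_lit 5) (nat_lit 71) (nat_lit 5) (nat_lit 353) (nat_lit 309) (nat_lit 118)) (XT.lf (nat_lit 0) (nat_lit 35760801654) (nat_lit 380)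 (nat_lit 2766115177) (nat_lit 76) (nat_lit 237734926) (nat_lit 66) (nat_lit 5) (nat_lit 71) (nat_lit 5) (nat_lit 67) (nat_lit 5) (nat_lit 354) (nat_lit 309) (nat_lit 117))))))) (XT.nd (nat_lit 858) (nat_lit 760) (nat_lit 0) (XT.nd (nat_lit 390) (nat_lit 912) (nat_lit 0) (XT.nd (nat_lit 156) (nat_lit 304) (nat_lit 0) (XT.nd (nat_lit 78) (nat_lit 0) (nat_lit 0) (XT.lf (nat_lit 0) (nat_lit 1207630914) (nat_lit 380) (nat_lit 26988244153) (nat_lit 76) (nat_lit 11362543946) (nat_lit 61) (nat_lit 5) (nat_lit 66) (nat_lit 5) (nat_lit 62) (nat_lit 5) (nat_lit 355) (nat_lit 309) (nat_lit 116)) (XT.lf (nat_lit 0) (nat_lit 5510946006) (nat_lit 380) (nat_lit 11984909139) (nat_lit 76) (nat_lit 22878481369) (nat_lit 61) (nat_lit 5) (nat_lit 66) (nat_lit 5) (nat_lit 62) (nat_lit 5) (nat_lit 356) (nat_lit 309) (nat_lit 115))) (XT.nd (nat_lit 78) (nat_lit 0) (nat_lit 0) (XT.lf (nat_lit 0) (nat_lit 3534599245)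 (nat_lit 304) (nat_lit 6440461491) (nat_lit 380) (nat_lit 31238725024) (nat_lit 57) (nat_lit 5) (nat_lit 61) (nat_lit 5) (nat_lit 62) (nat_lit 5) (nat_lit 357) (nat_lit 309) (nat_lit 114)) (XT.nd (nat_lit 78) (nat_lit 0) (nat_lit 0) (XT.lf (nat_lit 0) (nat_lit 14740627014) (nat_lit 380) (nat_lit 22361101077) (nat_lit 76) (nat_lit 4971669623) (nat_lit 57) (nat_lit 5) (nat_lit 62) (nat_lit 5) (nat_lit 58) (nat_lit 5) (nat_lit 358) (nat_lit 309) (nat_lit 113)) (XT.lf (nat_lit 0) (nat_lit 19710748661) (nat_lit 380) (nat_lit 6650091610) (nat_lit 76) (nat_lit 16596115031) (nat_lit 57) (nat_lit 5) (nat_lit 62) (nat_lit 5) (nat_lit 58) (nat_lit 5) (nat_lit 359) (nat_lit 309) (nat_lit 112))))) (XT.nd (nat_lit 234) (nat_lit 608) (nat_lit 0) (XT.nd (nat_lit 78) (nat_lit 0) (nat_lit 0) (XT.lf (nat_lit 0) (nat_lit 9719134935) (nat_lit 304) (nat_lit 15202150180) (nat_lit 380) (nat_lit 18942999949) (nat_lit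 53) (nat_lit 5) (nat_lit 57) (nat_lit 5) (nat_lit 58) (nat_lit 5) (nat_lit 360) (nat_lit 309) (nat_lit 111)) (XT.nd (nat_lit 78) (nat_lit 0) (nat_lit 0) (XT.lf (nat_lit 0) (nat_lit 26713017244) (nat_lit 304) (nat_lit 3640193447) (nat_lit 380) (nat_lit 14443676481) (nat_lit 53) (nat_lit 5) (nat_lit 57) (nat_lit 5) (nat_lit 58) (nat_lit 5) (nat_lit 361) (nat_lit 309) (nat_lit 110)) (XT.lf (nat_lit 0) (nat_lit 36025551633) (nat_lit 380) (nat_lit 1622954831) (nat_lit 76) (nat_lit 8106641658) (nat_lit 53) (nat_lit 5) (nat_lit 58) (nat_lit 5) (nat_lit 54) (nat_lit 5) (nat_lit 362) (nat_lit 309) (nat_lit 109)))) (XT.nd (nat_lit 78) (nat_lit 380) (nat_lit 0) (XT.lf (nat_lit 0) (nat_lit 15597467753) (nat_lit 228) (nat_lit 26454602511) (nat_lit 304) (nat_lit 4684570791) (nat_lit 50) (nat_lit 5) (nat_lit 53) (nat_lit 5) (nat_lit 54) (nat_lit 5) (nat_lit 363) (nat_lit 309) (nat_lit 108)) (XT.nd (nat_lit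 78) (nat_lit 304) (nat_lit 0) (XT.lf (nat_lit 0) (nat_lit 516411788) (nat_lit 304) (nat_lit 14387055584) (nat_lit 76) (nat_lit 32843530136) (nat_lit 49) (nat_lit 5) (nat_lit 53) (nat_lit 5) (nat_lit 50) (nat_lit 5) (nat_lit 364) (nat_lit 309) (nat_lit 107)) (XT.lf (nat_lit 0) (nat_lit 2874759710) (nat_lit 304) (nat_lit 2930242226) (nat_lit 380) (nat_lit 42980503268) (nat_lit 45) (nat_lit 5) (nat_lit 49) (nat_lit 5) (nat_lit 50) (nat_lit 5) (nat_lit 365) (nat_lit 309) (nat_lit 106)))))) (XT.nd (nat_lit 468) (nat_lit 304) (nat_lit 0) (XT.nd (nat_lit 234) (nat_lit 228) (nat_lit 0) (XT.nd (nat_lit 78) (nat_lit 228) (nat_lit 0) (XT.lf (nat_lit 0) (nat_lit 11487472343) (nat_lit 380) (nat_lit 28995886701) (nat_lit 76) (nat_lit 9364756297) (nat_lit 45) (nat_lit 5) (nat_lit 50) (nat_lit 5) (nat_lit 46) (nat_lit 5) (nat_lit 366) (nat_lit 309) (nat_lit 105)) (XT.nd (nat_lit 78) (nat_lit 228) (nat_lit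 0) (XT.lf (nat_lit 0) (nat_lit 17367607390) (nat_lit 380) (nat_lit 11605127522) (nat_lit 76) (nat_lit 21969056933) (nat_lit 45) (nat_lit 5) (nat_lit 50) (nat_lit 5) (nat_lit 46) (nat_lit 5) (nat_lit 367) (nat_lit 309) (nat_lit 104)) (XT.lf (nat_lit 0) (nat_lit 6430374909) (nat_lit 228) (nat_lit 17053815565) (nat_lit 304) (nat_lit 28582290514) (nat_lit 42) (nat_lit 5) (nat_lit 45) (nat_lit 5) (nat_lit 46) (nat_lit 5) (nat_lit 368) (nat_lit 309) (nat_lit 103)))) (XT.nd (nat_lit 78) (nat_lit 228) (nat_lit 0) (XT.lf (nat_lit 0) (nat_lit 25242400961) (nat_lit 228) (nat_lit 4657318518) (nat_lit 304) (nat_lit 23321731431) (nat_lit 42) (nat_lit 5) (nat_lit 45) (nat_lit 5) (nat_lit 46) (nat_lit 5) (nat_lit 369) (nat_lit 309) (nat_lit 102)) (XT.nd (nat_lit 78) (nat_lit 228) (nat_lit 0) (XT.lf (nat_lit 0) (nat_lit 36583986567) (nat_lit 304) (nat_lit 9872662666) (nat_lit 76) (nat_lit 7952135987) (nat_lit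 42) (nat_lit 5) (nat_lit 46) (nat_lit 5) (nat_lit 43) (nat_lit 5) (nat_lit 370) (nat_lit 309) (nat_lit 101)) (XT.lf (nat_lit 0) (nat_lit 8902176009) (nat_lit 228) (nat_lit 34696643903) (nat_lit 304) (nat_lit 12029021852) (nat_lit 39) (nat_lit 5) (nat_lit 42) (nat_lit 5) (nat_lit 43) (nat_lit 5) (nat_lit 371) (nat_lit 309) (nat_lit 100))))) (XT.nd (nat_lit 234) (nat_lit 0) (nat_lit 0) (XT.nd (nat_lit 78) (nat_lit 304) (nat_lit 0) (XT.lf (nat_lit 0) (nat_lit 28440321028) (nat_lit 228) (nat_lit 22481850467) (nat_lit 304) (nat_lit 5958359570) (nat_lit 39) (nat_lit 5) (nat_lit 42) (nat_lit 5) (nat_lit 43) (nat_lit 5) (nat_lit 372) (nat_lit 309) (nat_lit 99)) (XT.nd (nat_lit 78) (nat_lit 228) (nat_lit 0) (XT.lf (nat_lit 0) (nat_lit 287084574) (nat_lit 304) (nat_lit 9611306773) (nat_lit 76) (nat_lit 48272375645) (nat_lit 38) (nat_lit 5) (nat_lit 42) (nat_lit 5) (nat_lit 39) (nat_lit 5) (nat_lit 373)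 (nat_lit 309) (nat_lit 98)) (XT.lf (nat_lit 0) (nat_lit 6724855488) (nat_lit 304) (nat_lit 49611368432) (nat_lit 76) (nat_lit 3157977631) (nat_lit 35) (nat_lit 5) (nat_lit 39) (nat_lit 5) (nat_lit 36) (nat_lit 5) (nat_lit 374) (nat_lit 309) (nat_lit 97)))) (XT.nd (nat_lit 35568) (nat_lit 0) (nat_lit 7296) (XT.lf (nat_lit 0) (nat_lit 13550250757) (nat_lit 304) (nat_lit 30796812421) (nat_lit 76) (nat_lit 16504444125) (nat_lit 35) (nat_lit 5) (nat_lit 39) (nat_lit 5) (nat_lit 36) (nat_lit 5) (nat_lit 375) (nat_lit 309) (nat_lit 96)) (XT.nd (nat_lit 78) (nat_lit 0) (nat_lit 0) (XT.lf (nat_lit 0) (nat_lit 30429442) (nat_lit 1140) (nat_lit 4538987496) (nat_lit 1140) (nat_lit 4538987496) (nat_lit 131) (nat_lit 3) (nat_lit 146) (nat_lit 3) (nat_lit 146) (nat_lit 5) (nat_lit 310) (nat_lit 310) (nat_lit 160)) (XT.lf (nat_lit 0) (nat_lit 239235457) (nat_lit 1140) (nat_lit 1828037733) (nat_lit 1140) (nat_lit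 16416926697) (nat_lit 131) (nat_lit 3) (nat_lit 146) (nat_lit 3) (nat_lit 146) (nat_lit 5) (nat_lit 311) (nat_lit 310) (nat_lit 159))))))))
noncomputable def xc228 : XT := (XT.nd (nat_lit 1716) (nat_lit 3876) (nat_lit 0) (XT.nd (nat_lit 858) (nat_lit 1140) (nat_lit 0) (XT.nd (nat_lit 390) (nat_lit 0) (nat_lit 152) (XT.nd (nat_lit 156) (nat_lit 0) (nat_lit 76) (XT.nd (nat_lit 78) (nat_lit 0) (nat_lit 0) (XT.lf (nat_lit 0) (nat_lit 522013363) (nat_lit 1064) (nat_lit 13060922399) (nat_lit 1140) (nat_lit 5173726337) (nat_lit 132) (nat_lit 5) (nat_lit 146) (nat_lit 5) (nat_lit 147) (nat_lit 5) (nat_lit 312) (nat_lit 310) (nat_lit 158)) (XT.lf (nat_lit 0) (nat_lit 845657699) (nat_lit 1064) (nat_lit 5578488043) (nat_lit 1140) (nat_lit 12612201297) (nat_lit 132) (nat_lit 5) (nat_lit 146) (nat_lit 5) (nat_lit 147) (nat_lit 5) (nat_lit 313) (nat_lit 310) (nat_lit 157))) (XT.nd (nat_lit 78) (nat_lit 0)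 (nat_lit 0) (XT.lf (nat_lit 0) (nat_lit 1202670596) (nat_lit 1064) (nat_lit 17166353193) (nat_lit 1140) (nat_lit 954708725) (nat_lit 133) (nat_lit 5) (nat_lit 147) (nat_lit 5) (nat_lit 148) (nat_lit 5) (nat_lit 314) (nat_lit 310) (nat_lit 156)) (XT.nd (nat_lit 78) (nat_lit 0) (nat_lit 0) (XT.lf (nat_lit 0) (nat_lit 1684538798) (nat_lit 1064) (nat_lit 9446422749) (nat_lit 1140) (nat_lit 8485372845) (nat_lit 133) (nat_lit 5) (nat_lit 147) (nat_lit 5) (nat_lit 148) (nat_lit 5) (nat_lit 315) (nat_lit 310) (nat_lit 155)) (XT.lf (nat_lit 0) (nat_lit 2174697979) (nat_lit 1064) (nat_lit 1498667450) (nat_lit 1140) (nat_lit 16244552476) (nat_lit 133) (nat_lit 5) (nat_lit 147) (nat_lit 5) (nat_lit 148) (nat_lit 5) (nat_lit 316) (nat_lit 310) (nat_lit 154))))) (XT.nd (nat_lit 234) (nat_lit 0) (nat_lit 76) (XT.nd (nat_lit 78) (nat_lit 0) (nat_lit 0) (XT.lf (nat_lit 0) (nat_lit 2778302513) (nat_lit 1064)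 (nat_lit 13449099588) (nat_lit 1140) (nat_lit 3998202690) (nat_lit 134) (nat_lit 5) (nat_lit 148) (nat_lit 5) (nat_lit 149) (nat_lit 5) (nat_lit 317) (nat_lit 310) (nat_lit 153)) (XT.nd (nat_lit 78) (nat_lit 0) (nat_lit 0) (XT.lf (nat_lit 0) (nat_lit 3445843874) (nat_lit 1064) (nat_lit 5251775336) (nat_lit 1140) (nat_lit 11843545773) (nat_lit 134) (nat_lit 5) (nat_lit 148) (nat_lit 5) (nat_lit 149) (nat_lit 5) (nat_lit 318) (nat_lit 310) (nat_lit 152)) (XT.lf (nat_lit 76) (nat_lit 3251181271) (nat_lit 0) (nat_lit 907827493) (nat_lit 1140) (nat_lit 16706432343) (nat_lit 135) (nat_lit 5) (nat_lit 134) (nat_lit 5) (nat_lit 149) (nat_lit 5) (nat_lit 319) (nat_lit 310) (nat_lit 151)))) (XT.nd (nat_lit 78) (nat_lit 0) (nat_lit 0) (XT.lf (nat_lit 0) (nat_lit 5010018143) (nat_lit 1064) (nat_lit 9153789855) (nat_lit 1140) (nat_lit 7032160582) (nat_lit 135) (nat_lit 5) (nat_lit 149) (nat_lit 5) (nat_lit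 150) (nat_lit 5) (nat_lit 320) (nat_lit 310) (nat_lit 150)) (XT.nd (nat_lit 78) (nat_lit 0) (nat_lit 76) (XT.lf (nat_lit 0) (nat_lit 5890198403) (nat_lit 1064) (nat_lit 452273783) (nat_lit 1140) (nat_lit 15193846541) (nat_lit 135) (nat_lit 5) (nat_lit 149) (nat_lit 5) (nat_lit 150) (nat_lit 5) (nat_lit 321) (nat_lit 310) (nat_lit 149)) (XT.lf (nat_lit 0) (nat_lit 6892301864) (nat_lit 1064) (nat_lit 13225943781) (nat_lit 1140) (nat_lit 1765783801) (nat_lit 136) (nat_lit 5) (nat_lit 150) (nat_lit 5) (nat_lit 151) (nat_lit 5) (nat_lit 322) (nat_lit 310) (nat_lit 148)))))) (XT.nd (nat_lit 390) (nat_lit 1444) (nat_lit 0) (XT.nd (nat_lit 156) (nat_lit 0) (nat_lit 76) (XT.nd (nat_lit 78) (nat_lit 0) (nat_lit 0) (XT.lf (nat_lit 0) (nat_lit 7986815608) (nat_lit 1064) (nat_lit 4257664217) (nat_lit 1140) (nat_lit 9995836392) (nat_lit 136) (nat_lit 5) (nat_lit 150) (nat_lit 5) (nat_lit 151) (nat_lit 5)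 (nat_lit 323) (nat_lit 310) (nat_lit 147)) (XT.lf (nat_lit 76) (nat_lit 5074991367) (nat_lit 0) (nat_lit 4083042881) (nat_lit 1140) (nat_lit 13447955963) (nat_lit 137) (nat_lit 5) (nat_lit 136) (nat_lit 5) (nat_lit 151) (nat_lit 5) (nat_lit 324) (nat_lit 310) (nat_lit 146))) (XT.nd (nat_lit 78) (nat_lit 0) (nat_lit 0) (XT.lf (nat_lit 0) (nat_lit 10444571189) (nat_lit 1064) (nat_lit 8252260164) (nat_lit 1140) (nat_lit 4283411896) (nat_lit 137) (nat_lit 5) (nat_lit 151) (nat_lit 5) (nat_lit 152) (nat_lit 5) (nat_lit 325) (nat_lit 310) (nat_lit 145)) (XT.nd (nat_lit 78) (nat_lit 0) (nat_lit 0) (XT.lf (nat_lit 76) (nat_lit 1285779615) (nat_lit 0) (nat_lit 10532054566) (nat_lit 1140) (nat_lit 11546459660) (nat_lit 138) (nat_lit 5) (nat_lit 137) (nat_lit 5) (nat_lit 152) (nat_lit 5) (nat_lit 326) (nat_lit 310) (nat_lit 144)) (XT.lf (nat_lit 76) (nat_lit 11275435265) (nat_lit 0) (nat_lit 2035635672)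 (nat_lit 1140) (nat_lit 10446445194) (nat_lit 138) (nat_lit 5) (nat_lit 137) (nat_lit 5) (nat_lit 152) (nat_lit 5) (nat_lit 327) (nat_lit 310) (nat_lit 143))))) (XT.nd (nat_lit 234) (nat_lit 532) (nat_lit 0) (XT.nd (nat_lit 78) (nat_lit 1064) (nat_lit 0) (XT.lf (nat_lit 0) (nat_lit 14909244994) (nat_lit 1064) (nat_lit 2666044672) (nat_lit 76) (nat_lit 6585454284) (nat_lit 138) (nat_lit 5) (nat_lit 152) (nat_lit 5) (nat_lit 139) (nat_lit 5) (nat_lit 328) (nat_lit 310) (nat_lit 142)) (XT.nd (nat_lit 78) (nat_lit 0) (nat_lit 0) (XT.lf (nat_lit 0) (nat_lit 7568377916) (nat_lit 1064) (nat_lit 9075606649) (nat_lit 1140) (nat_lit 7929438114) (nat_lit 124) (nat_lit 5) (nat_lit 138) (nat_lit 5) (nat_lit 139) (nat_lit 5) (nat_lit 329) (nat_lit 310) (nat_lit 141)) (XT.lf (nat_lit 0) (nat_lit 18160893839) (nat_lit 1064) (nat_lit 292598244) (nat_lit 1140) (nat_lit 6544320229) (nat_lit 124) (nat_lit 5) (nat_lit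 138) (nat_lit 5) (nat_lit 139) (nat_lit 5) (nat_lit 330) (nat_lit 310) (nat_lit 140)))) (XT.nd (nat_lit 78) (nat_lit 0) (nat_lit 0) (XT.lf (nat_lit 0) (nat_lit 3619099542) (nat_lit 532) (nat_lit 16813053932) (nat_lit 608) (nat_lit 4999346057) (nat_lit 117) (nat_lit 5) (nat_lit 124) (nat_lit 5) (nat_lit 125) (nat_lit 5) (nat_lit 331) (nat_lit 310) (nat_lit 139)) (XT.nd (nat_lit 78) (nat_lit 0) (nat_lit 0) (XT.lf (nat_lit 0) (nat_lit 14522403217) (nat_lit 532) (nat_lit 8015695350) (nat_lit 608) (nat_lit 3338072691) (nat_lit 117) (nat_lit 5) (nat_lit 124) (nat_lit 5) (nat_lit 125) (nat_lit 5) (nat_lit 332) (nat_lit 310) (nat_lit 138)) (XT.lf (nat_lit 0) (nat_lit 24713408309) (nat_lit 608) (nat_lit 595044683) (nat_lit 76) (nat_lit 1025555826) (nat_lit 117) (nat_lit 5) (nat_lit 125) (nat_lit 5) (nat_lit 118) (nat_lit 5) (nat_lit 333) (nat_lit 310) (nat_lit 137))))))) (XT.nd (nat_lit 858) (nat_lit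 1520) (nat_lit 0) (XT.nd (nat_lit 390) (nat_lit 836) (nat_lit 0) (XT.nd (nat_lit 156) (nat_lit 988) (nat_lit 0) (XT.nd (nat_lit 78) (nat_lit 0) (nat_lit 0) (XT.lf (nat_lit 0) (nat_lit 324854978) (nat_lit 532) (nat_lit 16192832092) (nat_lit 76) (nat_lit 10282481619) (nat_lit 110) (nat_lit 5) (nat_lit 117) (nat_lit 5) (nat_lit 111) (nat_lit 5) (nat_lit 334) (nat_lit 310) (nat_lit 136)) (XT.lf (nat_lit 0) (nat_lit 2298447047) (nat_lit 532) (nat_lit 5141812378) (nat_lit 76) (nat_lit 19839512515) (nat_lit 110) (nat_lit 5) (nat_lit 117) (nat_lit 5) (nat_lit 111) (nat_lit 5) (nat_lit 335) (nat_lit 310) (nat_lit 135))) (XT.nd (nat_lit 78) (nat_lit 456) (nat_lit 0) (XT.lf (nat_lit 0) (nat_lit 4407744370) (nat_lit 608) (nat_lit 21429595022) (nat_lit 76) (nat_lit 1934138986) (nat_lit 103) (nat_lit 5) (nat_lit 111) (nat_lit 5) (nat_lit 104) (nat_lit 5) (nat_lit 336) (nat_lit 310) (nat_lit 134)) (XT.nd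 (nat_lit 78) (nat_lit 456) (nat_lit 0) (XT.lf (nat_lit 0) (nat_lit 6702881892) (nat_lit 608) (nat_lit 10078607170) (nat_lit 76) (nat_lit 11492779831) (nat_lit 103) (nat_lit 5) (nat_lit 111) (nat_lit 5) (nat_lit 104) (nat_lit 5) (nat_lit 337) (nat_lit 310) (nat_lit 133)) (XT.lf (nat_lit 0) (nat_lit 1641504222) (nat_lit 456) (nat_lit 7437710635) (nat_lit 532) (nat_lit 19712567464) (nat_lit 97) (nat_lit 5) (nat_lit 103) (nat_lit 5) (nat_lit 104) (nat_lit 5) (nat_lit 338) (nat_lit 310) (nat_lit 132))))) (XT.nd (nat_lit 234) (nat_lit 380) (nat_lit 0) (XT.nd (nat_lit 78) (nat_lit 456) (nat_lit 0) (XT.lf (nat_lit 0) (nat_lit 11647265740) (nat_lit 532) (nat_lit 15427485909) (nat_lit 76) (nat_lit 2246465829) (nat_lit 97) (nat_lit 5) (nat_lit 104) (nat_lit 5) (nat_lit 98) (nat_lit 5) (nat_lit 339) (nat_lit 310) (nat_lit 131)) (XT.nd (nat_lit 78) (nat_lit 456) (nat_lit 0) (XT.lf (nat_lit 0) (nat_lit 14362726286)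 (nat_lit 532) (nat_lit 3430062306) (nat_lit 76) (nat_lit 12071644951) (nat_lit 97) (nat_lit 5) (nat_lit 104) (nat_lit 5) (nat_lit 98) (nat_lit 5) (nat_lit 340) (nat_lit 310) (nat_lit 130)) (XT.lf (nat_lit 0) (nat_lit 9101576252) (nat_lit 456) (nat_lit 8142387069) (nat_lit 532) (nat_lit 13177462026) (nat_lit 91) (nat_lit 5) (nat_lit 97) (nat_lit 5) (nat_lit 98) (nat_lit 5) (nat_lit 341) (nat_lit 310) (nat_lit 129)))) (XT.nd (nat_lit 78) (nat_lit 380) (nat_lit 0) (XT.lf (nat_lit 0) (nat_lit 20260778432) (nat_lit 532) (nat_lit 8935612893) (nat_lit 76) (nat_lit 1797269738) (nat_lit 91) (nat_lit 5) (nat_lit 98) (nat_lit 5) (nat_lit 92) (nat_lit 5) (nat_lit 342) (nat_lit 310) (nat_lit 128)) (XT.nd (nat_lit 78) (nat_lit 0) (nat_lit 0) (XT.lf (nat_lit 0) (nat_lit 3810609759) (nat_lit 380) (nat_lit 19671708847) (nat_lit 456) (nat_lit 8097326766) (nat_lit 86) (nat_lit 5) (nat_lit 91) (nat_lit 5) (nat_lit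 92) (nat_lit 5) (nat_lit 343) (nat_lit 310) (nat_lit 127)) (XT.lf (nat_lit 0) (nat_lit 17119140906) (nat_lit 380) (nat_lit 9768626184) (nat_lit 456) (nat_lit 5292832164) (nat_lit 86) (nat_lit 5) (nat_lit 91) (nat_lit 5) (nat_lit 92) (nat_lit 5) (nat_lit 344) (nat_lit 310) (nat_lit 126)))))) (XT.nd (nat_lit 390) (nat_lit 684) (nat_lit 0) (XT.nd (nat_lit 156) (nat_lit 380) (nat_lit 0) (XT.nd (nat_lit 78) (nat_lit 456) (nat_lit 0) (XT.lf (nat_lit 0) (nat_lit 30396641174) (nat_lit 456) (nat_lit 1980048495) (nat_lit 76) (nat_lit 422861891) (nat_lit 86) (nat_lit 5) (nat_lit 92) (nat_lit 5) (nat_lit 87) (nat_lit 5) (nat_lit 345) (nat_lit 310) (nat_lit 125)) (XT.lf (nat_lit 0) (nat_lit 770164661) (nat_lit 456) (nat_lit 21817767536) (nat_lit 76) (nat_lit 10842752506) (nat_lit 80) (nat_lit 5) (nat_lit 86) (nat_lit 5) (nat_lit 81) (nat_lit 5) (nat_lit 346) (nat_lit 310) (nat_lit 124))) (XT.nd (nat_lit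 78) (nat_lit 380) (nat_lit 0) (XT.lf (nat_lit 0) (nat_lit 4007543600) (nat_lit 456) (nat_lit 8453063714) (nat_lit 76) (nat_lit 21618915580) (nat_lit 80) (nat_lit 5) (nat_lit 86) (nat_lit 5) (nat_lit 81) (nat_lit 5) (nat_lit 347) (nat_lit 310) (nat_lit 123)) (XT.nd (nat_lit 78) (nat_lit 0) (nat_lit 0) (XT.lf (nat_lit 0) (nat_lit 5415159806) (nat_lit 380) (nat_lit 1976234226) (nat_lit 456) (nat_lit 27354958514) (nat_lit 75) (nat_lit 5) (nat_lit 80) (nat_lit 5) (nat_lit 81) (nat_lit 5) (nat_lit 348) (nat_lit 310) (nat_lit 122)) (XT.lf (nat_lit 0) (nat_lit 11045115115) (nat_lit 456) (nat_lit 15646713535) (nat_lit 76) (nat_lit 8736314404) (nat_lit 75) (nat_lit 5) (nat_lit 81) (nat_lit 5) (nat_lit 76) (nat_lit 5) (nat_lit 349) (nat_lit 310) (nat_lit 121))))) (XT.nd (nat_lit 234) (nat_lit 304) (nat_lit 0) (XT.nd (nat_lit 78) (nat_lit 380) (nat_lit 0) (XT.lf (nat_lit 0) (nat_lit 14825433654) (nat_lit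 456) (nat_lit 1574317827) (nat_lit 76) (nat_lit 19730132647) (nat_lit 75) (nat_lit 5) (nat_lit 81) (nat_lit 5) (nat_lit 76) (nat_lit 5) (nat_lit 350) (nat_lit 310) (nat_lit 120)) (XT.nd (nat_lit 78) (nat_lit 0) (nat_lit 0) (XT.lf (nat_lit 0) (nat_lit 13174366770) (nat_lit 380) (nat_lit 5668929373) (nat_lit 456) (nat_lit 18005663501) (nat_lit 70) (nat_lit 5) (nat_lit 75) (nat_lit 5) (nat_lit 76) (nat_lit 5) (nat_lit 351) (nat_lit 310) (nat_lit 119)) (XT.lf (nat_lit 0) (nat_lit 23047036540) (nat_lit 456) (nat_lit 9246265201) (nat_lit 76) (nat_lit 5294351481) (nat_lit 70) (nat_lit 5) (nat_lit 76) (nat_lit 5) (nat_lit 71) (nat_lit 5) (nat_lit 352) (nat_lit 310) (nat_lit 118)))) (XT.nd (nat_lit 78) (nat_lit 0) (nat_lit 0) (XT.lf (nat_lit 0) (nat_lit 5666435861) (nat_lit 304) (nat_lit 21818656921) (nat_lit 380) (nat_lit 10860174598) (nat_lit 66) (nat_lit 5) (nat_lit 70) (nat_lit 5) (nat_lit 71) (nat_lit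 5) (nat_lit 353) (nat_lit 310) (nat_lit 117)) (XT.nd (nat_lit 78) (nat_lit 0) (nat_lit 0) (XT.lf (nat_lit 0) (nat_lit 21213164964) (nat_lit 304) (nat_lit 10934143183) (nat_lit 380) (nat_lit 6975577003) (nat_lit 66) (nat_lit 5) (nat_lit 70) (nat_lit 5) (nat_lit 71) (nat_lit 5) (nat_lit 354) (nat_lit 310) (nat_lit 116)) (XT.lf (nat_lit 0) (nat_lit 36949763500) (nat_lit 380) (nat_lit 2703074419) (nat_lit 76) (nat_lit 270987873) (nat_lit 66) (nat_lit 5) (nat_lit 71) (nat_lit 5) (nat_lit 67) (nat_lit 5) (nat_lit 355) (nat_lit 310) (nat_lit 115))))))))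
noncomputable def xc229 : XT := (XT.nd (nat_lit 37362) (nat_lit 0) (nat_lit 5472) (XT.nd (nat_lit 858) (nat_lit 532) (nat_lit 0) (XT.nd (nat_lit 390) (nat_lit 912) (nat_lit 0) (XT.nd (nat_lit 156) (nat_lit 304) (nat_lit 0) (XT.nd (nat_lit 78) (nat_lit 0) (nat_lit 0) (XT.lf (nat_lit 0) (nat_lit 1359402902) (nat_lit 380) (nat_lit 27650734108) (nat_lit 76) (nat_lit 11731303049) (nat_lit 61) (nat_lit 5) (nat_lit 66) (nat_lit 5) (nat_lit 62) (nat_lit 5) (nat_lit 356) (nat_lit 310) (nat_lit 114)) (XT.lf (nat_lit 0) (nat_lit 5788452115) (nat_lit 380) (nat_lit 12201585181) (nat_lit 76) (nat_lit 23591906474) (nat_lit 61) (nat_lit 5) (nat_lit 66) (nat_lit 5) (nat_lit 62) (nat_lit 5) (nat_lit 357) (nat_lit 310) (nat_lit 113))) (XT.nd (nat_lit 78) (nat_lit 0) (nat_lit 0) (XT.lf (nat_lit 0) (nat_lit 3782107756) (nat_lit 304) (nat_lit 6602475120) (nat_lit 380) (nat_lit 32062058341) (nat_lit 57) (nat_lit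 5) (nat_lit 61) (nat_lit 5) (nat_lit 62) (nat_lit 5) (nat_lit 358) (nat_lit 310) (nat_lit 112)) (XT.nd (nat_lit 78) (nat_lit 0) (nat_lit 0) (XT.lf (nat_lit 0) (nat_lit 15290195566) (nat_lit 380) (nat_lit 22891420775) (nat_lit 76) (nat_lit 5150520088) (nat_lit 57) (nat_lit 5) (nat_lit 62) (nat_lit 5) (nat_lit 58) (nat_lit 5) (nat_lit 359) (nat_lit 310) (nat_lit 111)) (XT.lf (nat_lit 0) (nat_lit 20406294171) (nat_lit 380) (nat_lit 6713173645) (nat_lit 76) (nat_lit 17122833798) (nat_lit 57) (nat_lit 5) (nat_lit 62) (nat_lit 5) (nat_lit 58) (nat_lit 5) (nat_lit 360) (nat_lit 310) (nat_lit 110))))) (XT.nd (nat_lit 234) (nat_lit 608) (nat_lit 0) (XT.nd (nat_lit 78) (nat_lit 0) (nat_lit 0) (XT.lf (nat_lit 0) (nat_lit 10145792238) (nat_lit 304) (nat_lit 15625617360) (nat_lit 380) (nat_lit 19405500648) (nat_lit 53) (nat_lit 5) (nat_lit 57) (nat_lit 5) (nat_lit 58) (nat_lit 5) (nat_lit 361) (nat_lit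 310) (nat_lit 109)) (XT.nd (nat_lit 78) (nat_lit 0) (nat_lit 0) (XT.lf (nat_lit 0) (nat_lit 27645556553) (nat_lit 304) (nat_lit 3717751362) (nat_lit 380) (nat_lit 14774278718) (nat_lit 53) (nat_lit 5) (nat_lit 57) (nat_lit 5) (nat_lit 58) (nat_lit 5) (nat_lit 362) (nat_lit 310) (nat_lit 108)) (XT.lf (nat_lit 0) (nat_lit 37203216359) (nat_lit 380) (nat_lit 1541496168) (nat_lit 76) (nat_lit 8379967436) (nat_lit 53) (nat_lit 5) (nat_lit 58) (nat_lit 5) (nat_lit 54) (nat_lit 5) (nat_lit 363) (nat_lit 310) (nat_lit 107)))) (XT.nd (nat_lit 78) (nat_lit 380) (nat_lit 0) (XT.lf (nat_lit 0) (nat_lit 16194263139) (nat_lit 228) (nat_lit 27214683922) (nat_lit 304) (nat_lit 4726724408) (nat_lit 50) (nat_lit 5) (nat_lit 53) (nat_lit 5) (nat_lit 54) (nat_lit 5) (nat_lit 364) (nat_lit 310) (nat_lit 106)) (XT.nd (nat_lit 78) (nat_lit 304) (nat_lit 0) (XT.lf (nat_lit 0) (nat_lit 625558210) (nat_lit 304) (nat_lit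 14691488175) (nat_lit 76) (nat_lit 33859354069) (nat_lit 49) (nat_lit 5) (nat_lit 53) (nat_lit 5) (nat_lit 50) (nat_lit 5) (nat_lit 365) (nat_lit 310) (nat_lit 105)) (XT.lf (nat_lit 0) (nat_lit 3086934724) (nat_lit 304) (nat_lit 2984354088) (nat_lit 380) (nat_lit 44174825835) (nat_lit 45) (nat_lit 5) (nat_lit 49) (nat_lit 5) (nat_lit 50) (nat_lit 5) (nat_lit 366) (nat_lit 310) (nat_lit 104)))))) (XT.nd (nat_lit 390) (nat_lit 304) (nat_lit 0) (XT.nd (nat_lit 156) (nat_lit 228) (nat_lit 0) (XT.nd (nat_lit 78) (nat_lit 0) (nat_lit 0) (XT.lf (nat_lit 0) (nat_lit 11921865135) (nat_lit 380) (nat_lit 29740944784) (nat_lit 76) (nat_lit 9677869797) (nat_lit 45) (nat_lit 5) (nat_lit 50) (nat_lit 5) (nat_lit 46) (nat_lit 5) (nat_lit 367) (nat_lit 310) (nat_lit 103)) (XT.lf (nat_lit 0) (nat_lit 17975789613) (nat_lit 380) (nat_lit 11832098320) (nat_lit 76) (nat_lit 22659362437) (nat_lit 45) (nat_lit 5)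 (nat_lit 50) (nat_lit 5) (nat_lit 46) (nat_lit 5) (nat_lit 368) (nat_lit 310) (nat_lit 102))) (XT.nd (nat_lit 78) (nat_lit 0) (nat_lit 0) (XT.lf (nat_lit 0) (nat_lit 6743281115) (nat_lit 228) (nat_lit 17531204073) (nat_lit 304) (nat_lit 29351241810) (nat_lit 42) (nat_lit 5) (nat_lit 45) (nat_lit 5) (nat_lit 46) (nat_lit 5) (nat_lit 369) (nat_lit 310) (nat_lit 101)) (XT.nd (nat_lit 78) (nat_lit 0) (nat_lit 0) (XT.lf (nat_lit 0) (nat_lit 26116172950) (nat_lit 228) (nat_lit 4763808987) (nat_lit 304) (nat_lit 23935444132) (nat_lit 42) (nat_lit 5) (nat_lit 45) (nat_lit 5) (nat_lit 46) (nat_lit 5) (nat_lit 370) (nat_lit 310) (nat_lit 100)) (XT.lf (nat_lit 0) (nat_lit 37762661787) (nat_lit 304) (nat_lit 10053455254) (nat_lit 76) (nat_lit 8222331782) (nat_lit 42) (nat_lit 5) (nat_lit 46) (nat_lit 5) (nat_lit 43) (nat_lit 5) (nat_lit 371) (nat_lit 310) (nat_lit 99))))) (XT.nd (nat_lit 35880) (nat_lit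 0) (nat_lit 7068) (XT.nd (nat_lit 78) (nat_lit 76) (nat_lit 0) (XT.lf (nat_lit 0) (nat_lit 9283497333) (nat_lit 228) (nat_lit 35703177343) (nat_lit 304) (nat_lit 12307445167) (nat_lit 39) (nat_lit 5) (nat_lit 42) (nat_lit 5) (nat_lit 43) (nat_lit 5) (nat_lit 372) (nat_lit 310) (nat_lit 98)) (XT.nd (nat_lit 78) (nat_lit 76) (nat_lit 0) (XT.lf (nat_lit 0) (nat_lit 29404458857) (nat_lit 228) (nat_lit 23122941052) (nat_lit 304) (nat_lit 6057064395) (nat_lit 39) (nat_lit 5) (nat_lit 42) (nat_lit 5) (nat_lit 43) (nat_lit 5) (nat_lit 373) (nat_lit 310) (nat_lit 97)) (XT.lf (nat_lit 0) (nat_lit 371895147) (nat_lit 304) (nat_lit 9790285355) (nat_lit 76) (nat_lit 49751276707) (nat_lit 38) (nat_lit 5) (nat_lit 42) (nat_lit 5) (nat_lit 39) (nat_lit 5) (nat_lit 374) (nat_lit 310) (nat_lit 96)))) (XT.nd (nat_lit 78) (nat_lit 0) (nat_lit 0) (XT.lf (nat_lit 0) (nat_lit 207100125) (nat_lit 1140) (nat_lit 4584375833)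 (nat_lit 1140) (nat_lit 4584375833) (nat_lit 131) (nat_lit 3) (nat_lit 146) (nat_lit 3) (nat_lit 146) (nat_lit 5) (nat_lit 311) (nat_lit 311) (nat_lit 158)) (XT.nd (nat_lit 78) (nat_lit 0) (nat_lit 76) (XT.lf (nat_lit 0) (nat_lit 587689801) (nat_lit 1140) (nat_lit 1706604520) (nat_lit 1140) (nat_lit 16733160153) (nat_lit 131) (nat_lit 3) (nat_lit 146) (nat_lit 3) (nat_lit 146) (nat_lit 5) (nat_lit 312) (nat_lit 311) (nat_lit 157)) (XT.lf (nat_lit 0) (nat_lit 869165474) (nat_lit 1064) (nat_lit 13265687158) (nat_lit 1140) (nat_lit 5173561580) (nat_lit 132) (nat_lit 5) (nat_lit 146) (nat_lit 5) (nat_lit 147) (nat_lit 5) (nat_lit 313) (nat_lit 311) (nat_lit 156))))))) (XT.nd (nat_lit 858) (nat_lit 1672) (nat_lit 0) (XT.nd (nat_lit 390) (nat_lit 0) (nat_lit 152) (XT.nd (nat_lit 156) (nat_lit 0) (nat_lit 76) (XT.nd (nat_lit 78) (nat_lit 0) (nat_lit 76) (XT.lf (nat_lit 0) (nat_lit 1192864042) (nat_lit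 1064) (nat_lit 5564228205) (nat_lit 1140) (nat_lit 12839716319) (nat_lit 132) (nat_lit 5) (nat_lit 146) (nat_lit 5) (nat_lit 147) (nat_lit 5) (nat_lit 314) (nat_lit 311) (nat_lit 155)) (XT.lf (nat_lit 0) (nat_lit 1551650592) (nat_lit 1064) (nat_lit 17489847152) (nat_lit 1140) (nat_lit 851614325) (nat_lit 133) (nat_lit 5) (nat_lit 147) (nat_lit 5) (nat_lit 148) (nat_lit 5) (nat_lit 315) (nat_lit 311) (nat_lit 154))) (XT.nd (nat_lit 78) (nat_lit 0) (nat_lit 0) (XT.lf (nat_lit 0) (nat_lit 2038861251) (nat_lit 1064) (nat_lit 9543896367) (nat_lit 1140) (nat_lit 8612035330) (nat_lit 133) (nat_lit 5) (nat_lit 147) (nat_lit 5) (nat_lit 148) (nat_lit 5) (nat_lit 316) (nat_lit 311) (nat_lit 153)) (XT.nd (nat_lit 78) (nat_lit 0) (nat_lit 76) (XT.lf (nat_lit 0) (nat_lit 2534877063) (nat_lit 1064) (nat_lit 1363123527) (nat_lit 1140) (nat_lit 16607715556) (nat_lit 133) (nat_lit 5) (nat_lit 147) (nat_lit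 5) (nat_lit 148) (nat_lit 5) (nat_lit 317) (nat_lit 311) (nat_lit 152)) (XT.lf (nat_lit 0) (nat_lit 3148666444) (nat_lit 1064) (nat_lit 13663280144) (nat_lit 1140) (nat_lit 4010950705) (nat_lit 134) (nat_lit 5) (nat_lit 148) (nat_lit 5) (nat_lit 149) (nat_lit 5) (nat_lit 318) (nat_lit 311) (nat_lit 151))))) (XT.nd (nat_lit 234) (nat_lit 0) (nat_lit 76) (XT.nd (nat_lit 78) (nat_lit 0) (nat_lit 0) (XT.lf (nat_lit 0) (nat_lit 3827874389) (nat_lit 1064) (nat_lit 5225549536) (nat_lit 1140) (nat_lit 12094776354) (nat_lit 134) (nat_lit 5) (nat_lit 148) (nat_lit 5) (nat_lit 149) (nat_lit 5) (nat_lit 319) (nat_lit 311) (nat_lit 150)) (XT.nd (nat_lit 78) (nat_lit 0) (nat_lit 76) (XT.lf (nat_lit 76) (nat_lit 3530694014) (nat_lit 0) (nat_lit 1025373319) (nat_lit 1140) (nat_lit 16926352828) (nat_lit 135) (nat_lit 5) (nat_lit 134) (nat_lit 5) (nat_lit 149) (nat_lit 5) (nat_lit 320) (nat_lit 311) (nat_lit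 149)) (XT.lf (nat_lit 0) (nat_lit 5423833427) (nat_lit 1064) (nat_lit 9242161212) (nat_lit 1140) (nat_lit 7157155780) (nat_lit 135) (nat_lit 5) (nat_lit 149) (nat_lit 5) (nat_lit 150) (nat_lit 5) (nat_lit 321) (nat_lit 311) (nat_lit 148)))) (XT.nd (nat_lit 78) (nat_lit 0) (nat_lit 76) (XT.lf (nat_lit 0) (nat_lit 6322743908) (nat_lit 1064) (nat_lit 285024192) (nat_lit 1140) (nat_lit 15566196288) (nat_lit 135) (nat_lit 5) (nat_lit 149) (nat_lit 5) (nat_lit 150) (nat_lit 5) (nat_lit 322) (nat_lit 311) (nat_lit 147)) (XT.nd (nat_lit 78) (nat_lit 0) (nat_lit 0) (XT.lf (nat_lit 0) (nat_lit 7348496815) (nat_lit 1064) (nat_lit 13434744308) (nat_lit 1140) (nat_lit 1749080104) (nat_lit 136) (nat_lit 5) (nat_lit 150) (nat_lit 5) (nat_lit 151) (nat_lit 5) (nat_lit 323) (nat_lit 311) (nat_lit 146)) (XT.lf (nat_lit 0) (nat_lit 8468581140) (nat_lit 1064) (nat_lit 4202891438) (nat_lit 1140) (nat_lit 10228063705)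 (nat_lit 136) (nat_lit 5) (nat_lit 150) (nat_lit 5) (nat_lit 151) (nat_lit 5) (nat_lit 324) (nat_lit 311) (nat_lit 145)))))) (XT.nd (nat_lit 390) (nat_lit 1976) (nat_lit 0) (XT.nd (nat_lit 156) (nat_lit 0) (nat_lit 76) (XT.nd (nat_lit 78) (nat_lit 0) (nat_lit 76) (XT.lf (nat_lit 76) (nat_lit 5407954572) (nat_lit 0) (nat_lit 4261665661) (nat_lit 1140) (nat_lit 13606740852) (nat_lit 137) (nat_lit 5) (nat_lit 136) (nat_lit 5) (nat_lit 151) (nat_lit 5) (nat_lit 325) (nat_lit 311) (nat_lit 144)) (XT.lf (nat_lit 0) (nat_lit 10987331031) (nat_lit 1064) (nat_lit 8316272759) (nat_lit 1140) (nat_lit 4358481082) (nat_lit 137) (nat_lit 5) (nat_lit 151) (nat_lit 5) (nat_lit 152) (nat_lit 5) (nat_lit 326) (nat_lit 311) (nat_lit 143))) (XT.nd (nat_lit 78) (nat_lit 0) (nat_lit 0) (XT.lf (nat_lit 76) (nat_lit 1506108653) (nat_lit 0) (nat_lit 10890748192) (nat_lit 1140) (nat_lit 11660968082) (nat_lit 138) (nat_lit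 5) (nat_lit 137) (nat_lit 5) (nat_lit 152) (nat_lit 5) (nat_lit 327) (nat_lit 311) (nat_lit 142)) (XT.nd (nat_lit 78) (nat_lit 0) (nat_lit 76) (XT.lf (nat_lit 76) (nat_lit 11790160119) (nat_lit 0) (nat_lit 2138192110) (nat_lit 1140) (nat_lit 10534707125) (nat_lit 138) (nat_lit 5) (nat_lit 137) (nat_lit 5) (nat_lit 152) (nat_lit 5) (nat_lit 328) (nat_lit 311) (nat_lit 141)) (XT.lf (nat_lit 0) (nat_lit 15567736287) (nat_lit 1064) (nat_lit 2567343624) (nat_lit 76) (nat_lit 6743524903) (nat_lit 138) (nat_lit 5) (nat_lit 152) (nat_lit 5) (nat_lit 139) (nat_lit 5) (nat_lit 329) (nat_lit 311) (nat_lit 140))))) (XT.nd (nat_lit 234) (nat_lit 532) (nat_lit 0) (XT.nd (nat_lit 78) (nat_lit 532) (nat_lit 0) (XT.lf (nat_lit 0) (nat_lit 7972359853) (nat_lit 1064) (nat_lit 9377707094) (nat_lit 1140) (nat_lit 7953748695) (nat_lit 124) (nat_lit 5) (nat_lit 138) (nat_lit 5) (nat_lit 139) (nat_lit 5) (nat_lit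 330) (nat_lit 311) (nat_lit 139)) (XT.nd (nat_lit 78) (nat_lit 532) (nat_lit 0) (XT.lf (nat_lit 0) (nat_lit 18877497936) (nat_lit 1064) (nat_lit 330339536) (nat_lit 1140) (nat_lit 6533297833) (nat_lit 124) (nat_lit 5) (nat_lit 138) (nat_lit 5) (nat_lit 139) (nat_lit 5) (nat_lit 331) (nat_lit 311) (nat_lit 138)) (XT.lf (nat_lit 0) (nat_lit 3904587960) (nat_lit 532) (nat_lit 17336854245) (nat_lit 608) (nat_lit 4946540591) (nat_lit 117) (nat_lit 5) (nat_lit 124) (nat_lit 5) (nat_lit 125) (nat_lit 5) (nat_lit 332) (nat_lit 311) (nat_lit 137)))) (XT.nd (nat_lit 78) (nat_lit 532) (nat_lit 0) (XT.lf (nat_lit 0) (nat_lit 15129837869) (nat_lit 532) (nat_lit 8275009604) (nat_lit 608) (nat_lit 3241335408) (nat_lit 117) (nat_lit 5) (nat_lit 124) (nat_lit 5) (nat_lit 125) (nat_lit 5) (nat_lit 333) (nat_lit 311) (nat_lit 136)) (XT.nd (nat_lit 78) (nat_lit 532) (nat_lit 0) (XT.lf (nat_lit 0) (nat_lit 25639689019)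 (nat_lit 608) (nat_lit 439869611) (nat_lit 76) (nat_lit 1038384937) (nat_lit 117) (nat_lit 5) (nat_lit 125) (nat_lit 5) (nat_lit 118) (nat_lit 5) (nat_lit 334) (nat_lit 311) (nat_lit 135)) (XT.lf (nat_lit 0) (nat_lit 518047922) (nat_lit 532) (nat_lit 16503127807) (nat_lit 76) (nat_lit 10576986389) (nat_lit 110) (nat_lit 5) (nat_lit 117) (nat_lit 5) (nat_lit 111) (nat_lit 5) (nat_lit 335) (nat_lit 311) (nat_lit 134))))))))
noncomputable def xc230 : XT := (XT.nd (nat_lit 1716) (nat_lit 1672) (nat_lit 0) (XT.nd (nat_lit 858) (nat_lit 1900) (nat_lit 0) (XT.nd (nat_lit 390) (nat_lit 836) (nat_lit 0) (XT.nd (nat_lit 156) (nat_lit 456) (nat_lit 0) (XT.nd (nat_lit 78) (nat_lit 532) (nat_lit 0) (XT.lf (nat_lit 0) (nat_lit 2545504629) (nat_lit 532) (nat_lit 5125688839) (nat_lit 76) (nat_lit 20421135096) (nat_lit 110) (nat_lit 5) (nat_lit 117) (nat_lit 5) (nat_lit 111) (nat_lit 5) (nat_lit 336) (nat_lit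 311) (nat_lit 133)) (XT.lf (nat_lit 0) (nat_lit 4714459042) (nat_lit 608) (nat_lit 21898004094) (nat_lit 76) (nat_lit 1986446085) (nat_lit 103) (nat_lit 5) (nat_lit 111) (nat_lit 5) (nat_lit 104) (nat_lit 5) (nat_lit 337) (nat_lit 311) (nat_lit 132))) (XT.nd (nat_lit 78) (nat_lit 456) (nat_lit 0) (XT.lf (nat_lit 0) (nat_lit 7073368680) (nat_lit 608) (nat_lit 10211568513) (nat_lit 76) (nat_lit 11832012671) (nat_lit 103) (nat_lit 5) (nat_lit 111) (nat_lit 5) (nat_lit 104) (nat_lit 5) (nat_lit 338) (nat_lit 311) (nat_lit 131)) (XT.nd (nat_lit 78) (nat_lit 0) (nat_lit 0) (XT.lf (nat_lit 0) (nat_lit 1858485467) (nat_lit 456) (nat_lit 7659184558) (nat_lit 532) (nat_lit 20132431865) (nat_lit 97) (nat_lit 5) (nat_lit 103) (nat_lit 5) (nat_lit 104) (nat_lit 5) (nat_lit 339) (nat_lit 311) (nat_lit 130)) (XT.lf (nat_lit 0) (nat_lit 12157940659) (nat_lit 532) (nat_lit 15722199722) (nat_lit 76) (nat_lit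 2315437527) (nat_lit 97) (nat_lit 5) (nat_lit 104) (nat_lit 5) (nat_lit 98) (nat_lit 5) (nat_lit 340) (nat_lit 311) (nat_lit 129))))) (XT.nd (nat_lit 234) (nat_lit 380) (nat_lit 0) (XT.nd (nat_lit 78) (nat_lit 456) (nat_lit 0) (XT.lf (nat_lit 0) (nat_lit 14950168217) (nat_lit 532) (nat_lit 3369749841) (nat_lit 76) (nat_lit 12435326069) (nat_lit 97) (nat_lit 5) (nat_lit 104) (nat_lit 5) (nat_lit 98) (nat_lit 5) (nat_lit 341) (nat_lit 311) (nat_lit 128)) (XT.nd (nat_lit 78) (nat_lit 0) (nat_lit 0) (XT.lf (nat_lit 0) (nat_lit 9536237734) (nat_lit 456) (nat_lit 8378598159) (nat_lit 532) (nat_lit 13414212382) (nat_lit 91) (nat_lit 5) (nat_lit 97) (nat_lit 5) (nat_lit 98) (nat_lit 5) (nat_lit 342) (nat_lit 311) (nat_lit 127)) (XT.lf (nat_lit 0) (nat_lit 21017758246) (nat_lit 532) (nat_lit 9041975897) (nat_lit 76) (nat_lit 1858860871) (nat_lit 91) (nat_lit 5) (nat_lit 98) (nat_lit 5) (nat_lit 92)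 (nat_lit 5) (nat_lit 343) (nat_lit 311) (nat_lit 126)))) (XT.nd (nat_lit 78) (nat_lit 0) (nat_lit 0) (XT.lf (nat_lit 0) (nat_lit 4085048088) (nat_lit 380) (nat_lit 20248091346) (nat_lit 456) (nat_lit 8189115260) (nat_lit 86) (nat_lit 5) (nat_lit 91) (nat_lit 5) (nat_lit 92) (nat_lit 5) (nat_lit 344) (nat_lit 311) (nat_lit 125)) (XT.nd (nat_lit 78) (nat_lit 0) (nat_lit 0) (XT.lf (nat_lit 0) (nat_lit 17788171478) (nat_lit 380) (nat_lit 10048317236) (nat_lit 456) (nat_lit 5304887701) (nat_lit 86) (nat_lit 5) (nat_lit 91) (nat_lit 5) (nat_lit 92) (nat_lit 5) (nat_lit 345) (nat_lit 311) (nat_lit 124)) (XT.lf (nat_lit 0) (nat_lit 31446615274) (nat_lit 456) (nat_lit 1884140570) (nat_lit 76) (nat_lit 448272875) (nat_lit 86) (nat_lit 5) (nat_lit 92) (nat_lit 5) (nat_lit 87) (nat_lit 5) (nat_lit 346) (nat_lit 311) (nat_lit 123)))))) (XT.nd (nat_lit 390) (nat_lit 1064) (nat_lit 0) (XT.nd (nat_lit 156)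 (nat_lit 380) (nat_lit 0) (XT.nd (nat_lit 78) (nat_lit 0) (nat_lit 0) (XT.lf (nat_lit 0) (nat_lit 930492550) (nat_lit 456) (nat_lit 22315436749) (nat_lit 76) (nat_lit 11183213189) (nat_lit 80) (nat_lit 5) (nat_lit 86) (nat_lit 5) (nat_lit 81) (nat_lit 5) (nat_lit 347) (nat_lit 311) (nat_lit 122)) (XT.lf (nat_lit 0) (nat_lit 4260996072) (nat_lit 456) (nat_lit 8554360662) (nat_lit 76) (nat_lit 22282219075) (nat_lit 80) (nat_lit 5) (nat_lit 86) (nat_lit 5) (nat_lit 81) (nat_lit 5) (nat_lit 348) (nat_lit 311) (nat_lit 121))) (XT.nd (nat_lit 78) (nat_lit 0) (nat_lit 0) (XT.lf (nat_lit 0) (nat_lit 5728416476) (nat_lit 380) (nat_lit 2015514767) (nat_lit 456) (nat_lit 28040561816) (nat_lit 75) (nat_lit 5) (nat_lit 80) (nat_lit 5) (nat_lit 81) (nat_lit 5) (nat_lit 349) (nat_lit 311) (nat_lit 120)) (XT.nd (nat_lit 78) (nat_lit 0) (nat_lit 0) (XT.lf (nat_lit 0) (nat_lit 11503641097) (nat_lit 456) (nat_lit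 15965765790) (nat_lit 76) (nat_lit 9017448581) (nat_lit 75) (nat_lit 5) (nat_lit 81) (nat_lit 5) (nat_lit 76) (nat_lit 5) (nat_lit 350) (nat_lit 311) (nat_lit 119)) (XT.lf (nat_lit 0) (nat_lit 15393665139) (nat_lit 456) (nat_lit 1475577313) (nat_lit 76) (nat_lit 20340526670) (nat_lit 75) (nat_lit 5) (nat_lit 81) (nat_lit 5) (nat_lit 76) (nat_lit 5) (nat_lit 351) (nat_lit 311) (nat_lit 118))))) (XT.nd (nat_lit 234) (nat_lit 380) (nat_lit 0) (XT.nd (nat_lit 78) (nat_lit 304) (nat_lit 0) (XT.lf (nat_lit 0) (nat_lit 13714136743) (nat_lit 380) (nat_lit 5815719986) (nat_lit 456) (nat_lit 18420635332) (nat_lit 70) (nat_lit 5) (nat_lit 75) (nat_lit 5) (nat_lit 76) (nat_lit 5) (nat_lit 352) (nat_lit 311) (nat_lit 117)) (XT.nd (nat_lit 78) (nat_lit 304) (nat_lit 0) (XT.lf (nat_lit 0) (nat_lit 23856394683) (nat_lit 456) (nat_lit 9379719578) (nat_lit 76) (nat_lit 5475340321) (nat_lit 70) (nat_lit 5) (nat_lit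 76) (nat_lit 5) (nat_lit 71) (nat_lit 5) (nat_lit 353) (nat_lit 311) (nat_lit 116)) (XT.lf (nat_lit 0) (nat_lit 5978951403) (nat_lit 304) (nat_lit 22446575872) (nat_lit 380) (nat_lit 11066340291) (nat_lit 66) (nat_lit 5) (nat_lit 70) (nat_lit 5) (nat_lit 71) (nat_lit 5) (nat_lit 354) (nat_lit 311) (nat_lit 115)))) (XT.nd (nat_lit 78) (nat_lit 380) (nat_lit 0) (XT.lf (nat_lit 0) (nat_lit 21987931239) (nat_lit 304) (nat_lit 11236302666) (nat_lit 380) (nat_lit 7068689416) (nat_lit 66) (nat_lit 5) (nat_lit 70) (nat_lit 5) (nat_lit 71) (nat_lit 5) (nat_lit 355) (nat_lit 311) (nat_lit 114)) (XT.nd (nat_lit 78) (nat_lit 380) (nat_lit 0) (XT.lf (nat_lit 0) (nat_lit 38167727416) (nat_lit 380) (nat_lit 2646524824) (nat_lit 76) (nat_lit 303738963) (nat_lit 66) (nat_lit 5) (nat_lit 71) (nat_lit 5) (nat_lit 67) (nat_lit 5) (nat_lit 356) (nat_lit 311) (nat_lit 113)) (XT.lf (nat_lit 0) (nat_lit 1509095406)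 (nat_lit 380) (nat_lit 28341546197) (nat_lit 76) (nat_lit 12109524339) (nat_lit 61) (nat_lit 5) (nat_lit 66) (nat_lit 5) (nat_lit 62) (nat_lit 5) (nat_lit 357) (nat_lit 311) (nat_lit 112))))))) (XT.nd (nat_lit 858) (nat_lit 456) (nat_lit 0) (XT.nd (nat_lit 390) (nat_lit 608) (nat_lit 0) (XT.nd (nat_lit 156) (nat_lit 304) (nat_lit 0) (XT.nd (nat_lit 78) (nat_lit 304) (nat_lit 0) (XT.lf (nat_lit 0) (nat_lit 6067843948) (nat_lit 380) (nat_lit 12432962897) (nat_lit 76) (nat_lit 24325180366) (nat_lit 61) (nat_lit 5) (nat_lit 66) (nat_lit 5) (nat_lit 62) (nat_lit 5) (nat_lit 358) (nat_lit 311) (nat_lit 111)) (XT.lf (nat_lit 0) (nat_lit 4028920535) (nat_lit 304) (nat_lit 6771140178) (nat_lit 380) (nat_lit 32916625875) (nat_lit 57) (nat_lit 5) (nat_lit 61) (nat_lit 5) (nat_lit 62) (nat_lit 5) (nat_lit 359) (nat_lit 311) (nat_lit 110))) (XT.nd (nat_lit 78) (nat_lit 304) (nat_lit 0) (XT.lf (nat_lit 0)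 (nat_lit 15850088860) (nat_lit 380) (nat_lit 23445716104) (nat_lit 76) (nat_lit 5333031144) (nat_lit 57) (nat_lit 5) (nat_lit 62) (nat_lit 5) (nat_lit 58) (nat_lit 5) (nat_lit 360) (nat_lit 311) (nat_lit 109)) (XT.nd (nat_lit 78) (nat_lit 304) (nat_lit 0) (XT.lf (nat_lit 0) (nat_lit 21116723216) (nat_lit 380) (nat_lit 6785979248) (nat_lit 76) (nat_lit 17663698863) (nat_lit 57) (nat_lit 5) (nat_lit 62) (nat_lit 5) (nat_lit 58) (nat_lit 5) (nat_lit 361) (nat_lit 311) (nat_lit 108)) (XT.lf (nat_lit 0) (nat_lit 10577494929) (nat_lit 304) (nat_lit 16063659776) (nat_lit 380) (nat_lit 19887949107) (nat_lit 53) (nat_lit 5) (nat_lit 57) (nat_lit 5) (nat_lit 58) (nat_lit 5) (nat_lit 362) (nat_lit 311) (nat_lit 107))))) (XT.nd (nat_lit 234) (nat_lit 380) (nat_lit 0) (XT.nd (nat_lit 78) (nat_lit 228) (nat_lit 0) (XT.lf (nat_lit 0) (nat_lit 28598543564) (nat_lit 304) (nat_lit 3799452733) (nat_lit 380) (nat_lit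 15120694884) (nat_lit 53) (nat_lit 5) (nat_lit 57) (nat_lit 5) (nat_lit 58) (nat_lit 5) (nat_lit 363) (nat_lit 311) (nat_lit 106)) (XT.nd (nat_lit 78) (nat_lit 228) (nat_lit 0) (XT.lf (nat_lit 0) (nat_lit 38410648675) (nat_lit 380) (nat_lit 1465064733) (nat_lit 76) (nat_lit 8659763602) (nat_lit 53) (nat_lit 5) (nat_lit 58) (nat_lit 5) (nat_lit 54) (nat_lit 5) (nat_lit 364) (nat_lit 311) (nat_lit 105)) (XT.lf (nat_lit 0) (nat_lit 16801564644) (nat_lit 228) (nat_lit 27999494066) (nat_lit 304) (nat_lit 4775790249) (nat_lit 50) (nat_lit 5) (nat_lit 53) (nat_lit 5) (nat_lit 54) (nat_lit 5) (nat_lit 365) (nat_lit 311) (nat_lit 104)))) (XT.nd (nat_lit 78) (nat_lit 304) (nat_lit 0) (XT.lf (nat_lit 0) (nat_lit 732602898) (nat_lit 304) (nat_lit 15012354343) (nat_lit 76) (nat_lit 34903900860) (nat_lit 49) (nat_lit 5) (nat_lit 53) (nat_lit 5) (nat_lit 50) (nat_lit 5) (nat_lit 366) (nat_lit 311) (nat_lit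 103)) (XT.nd (nat_lit 78) (nat_lit 0) (nat_lit 0) (XT.lf (nat_lit 0) (nat_lit 3298245963) (nat_lit 304) (nat_lit 3042029300) (nat_lit 380) (nat_lit 45410436779) (nat_lit 45) (nat_lit 5) (nat_lit 49) (nat_lit 5) (nat_lit 50) (nat_lit 5) (nat_lit 367) (nat_lit 311) (nat_lit 102)) (XT.lf (nat_lit 0) (nat_lit 12364136624) (nat_lit 380) (nat_lit 30515519702) (nat_lit 76) (nat_lit 9998529965) (nat_lit 45) (nat_lit 5) (nat_lit 50) (nat_lit 5) (nat_lit 46) (nat_lit 5) (nat_lit 368) (nat_lit 311) (nat_lit 101)))))) (XT.nd (nat_lit 390) (nat_lit 0) (nat_lit 0) (XT.nd (nat_lit 156) (nat_lit 228) (nat_lit 0) (XT.nd (nat_lit 78) (nat_lit 228) (nat_lit 0) (XT.lf (nat_lit 0) (nat_lit 18597214306) (nat_lit 380) (nat_lit 12072834643) (nat_lit 76) (nat_lit 23368584160) (nat_lit 45) (nat_lit 5) (nat_lit 50) (nat_lit 5) (nat_lit 46) (nat_lit 5) (nat_lit 369) (nat_lit 311) (nat_lit 100)) (XT.lf (nat_lit 0) (nat_lit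 7058686305) (nat_lit 228) (nat_lit 18024878946) (nat_lit 304) (nat_lit 30148342907) (nat_lit 42) (nat_lit 5) (nat_lit 45) (nat_lit 5) (nat_lit 46) (nat_lit 5) (nat_lit 370) (nat_lit 311) (nat_lit 99))) (XT.nd (nat_lit 78) (nat_lit 228) (nat_lit 0) (XT.lf (nat_lit 0) (nat_lit 27009470524) (nat_lit 228) (nat_lit 4875401656) (nat_lit 304) (nat_lit 24572501478) (nat_lit 42) (nat_lit 5) (nat_lit 45) (nat_lit 5) (nat_lit 46) (nat_lit 5) (nat_lit 371) (nat_lit 311) (nat_lit 98)) (XT.nd (nat_lit 78) (nat_lit 228) (nat_lit 0) (XT.lf (nat_lit 0) (nat_lit 38972038599) (nat_lit 304) (nat_lit 10246295323) (nat_lit 76) (nat_lit 8498817661) (nat_lit 42) (nat_lit 5) (nat_lit 46) (nat_lit 5) (nat_lit 43) (nat_lit 5) (nat_lit 372) (nat_lit 311) (nat_lit 97)) (XT.lf (nat_lit 0) (nat_lit 9669699532) (nat_lit 228) (nat_lit 36741879528) (nat_lit 304) (nat_lit 12598953995) (nat_lit 39) (nat_lit 5) (nat_lit 42) (nat_lit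 5) (nat_lit 43) (nat_lit 5) (nat_lit 373) (nat_lit 311) (nat_lit 96))))) (XT.nd (nat_lit 35958) (nat_lit 0) (nat_lit 7068) (XT.nd (nat_lit 35802) (nat_lit 0) (nat_lit 6992) (XT.lf (nat_lit 0) (nat_lit 30391153087) (nat_lit 228) (nat_lit 23785179638) (nat_lit 304) (nat_lit 6163325330) (nat_lit 39) (nat_lit 5) (nat_lit 42) (nat_lit 5) (nat_lit 43) (nat_lit 5) (nat_lit 374) (nat_lit 311) (nat_lit 95)) (XT.nd (nat_lit 78) (nat_lit 0) (nat_lit 0) (XT.lf (nat_lit 0) (nat_lit 378981711) (nat_lit 1140) (nat_lit 4636337038) (nat_lit 1140) (nat_lit 4636337038) (nat_lit 131) (nat_lit 3) (nat_lit 146) (nat_lit 3) (nat_lit 146) (nat_lit 5) (nat_lit 312) (nat_lit 312) (nat_lit 156)) (XT.lf (nat_lit 0) (nat_lit 927007063) (nat_lit 1140) (nat_lit 1591647180) (nat_lit 1140) (nat_lit 17068999482) (nat_lit 131) (nat_lit 3) (nat_lit 146) (nat_lit 3) (nat_lit 146) (nat_lit 5) (nat_lit 313) (nat_lit 312) (nat_lit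 155)))) (XT.nd (nat_lit 78) (nat_lit 0) (nat_lit 0) (XT.lf (nat_lit 0) (nat_lit 1207703168) (nat_lit 1064) (nat_lit 13487333035) (nat_lit 1140) (nat_lit 5182311129) (nat_lit 132) (nat_lit 5) (nat_lit 146) (nat_lit 5) (nat_lit 147) (nat_lit 5) (nat_lit 314) (nat_lit 312) (nat_lit 154)) (XT.nd (nat_lit 78) (nat_lit 0) (nat_lit 76) (XT.lf (nat_lit 0) (nat_lit 1532011837) (nat_lit 1064) (nat_lit 5559965986) (nat_lit 1140) (nat_lit 13082716257) (nat_lit 132) (nat_lit 5) (nat_lit 146) (nat_lit 5) (nat_lit 147) (nat_lit 5) (nat_lit 315) (nat_lit 312) (nat_lit 153)) (XT.lf (nat_lit 0) (nat_lit 1893138255) (nat_lit 1064) (nat_lit 17834038620) (nat_lit 1140) (nat_lit 752989260) (nat_lit 133) (nat_lit 5) (nat_lit 147) (nat_lit 5) (nat_lit 148) (nat_lit 5) (nat_lit 316) (nat_lit 312) (nat_lit 152))))))))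
noncomputable def xc231 : XT := (XT.nd (nat_lit 1716) (nat_lit 3496) (nat_lit 0) (XT.nd (nat_lit 858) (nat_lit 2280) (nat_lit 0) (XT.nd (nat_lit 390) (nat_lit 0) (nat_lit 152) (XT.nd (nat_lit 156) (nat_lit 0) (nat_lit 76) (XT.nd (nat_lit 78) (nat_lit 0) (nat_lit 0) (XT.lf (nat_lit 0) (nat_lit 2386374802) (nat_lit 1064) (nat_lit 9654966708) (nat_lit 1140) (nat_lit 8749839599) (nat_lit 133) (nat_lit 5) (nat_lit 147) (nat_lit 5) (nat_lit 148) (nat_lit 5) (nat_lit 317) (nat_lit 312) (nat_lit 151)) (XT.lf (nat_lit 0) (nat_lit 2888930864) (nat_lit 1064) (nat_lit 1233874951) (nat_lit 1140) (nat_lit 16988901594) (nat_lit 133) (nat_lit 5) (nat_lit 147) (nat_lit 5) (nat_lit 148) (nat_lit 5) (nat_lit 318) (nat_lit 312) (nat_lit 150))) (XT.nd (nat_lit 78) (nat_lit 0) (nat_lit 0) (XT.lf (nat_lit 0) (nat_lit 3513665466) (nat_lit 1064) (nat_lit 13894752276) (nat_lit 1140) (nat_lit 4030234769) (nat_lit 134)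 (nat_lit 5) (nat_lit 148) (nat_lit 5) (nat_lit 149) (nat_lit 5) (nat_lit 319) (nat_lit 312) (nat_lit 149)) (XT.nd (nat_lit 78) (nat_lit 0) (nat_lit 0) (XT.lf (nat_lit 0) (nat_lit 4205369872) (nat_lit 1064) (nat_lit 5209086632) (nat_lit 1140) (nat_lit 12359518230) (nat_lit 134) (nat_lit 5) (nat_lit 148) (nat_lit 5) (nat_lit 149) (nat_lit 5) (nat_lit 320) (nat_lit 312) (nat_lit 148)) (XT.lf (nat_lit 76) (nat_lit 3808145897) (nat_lit 0) (nat_lit 1141261299) (nat_lit 1140) (nat_lit 17169017119) (nat_lit 135) (nat_lit 5) (nat_lit 134) (nat_lit 5) (nat_lit 149) (nat_lit 5) (nat_lit 321) (nat_lit 312) (nat_lit 147))))) (XT.nd (nat_lit 234) (nat_lit 0) (nat_lit 76) (XT.nd (nat_lit 78) (nat_lit 0) (nat_lit 0) (XT.lf (nat_lit 0) (nat_lit 5834936345) (nat_lit 1064) (nat_lit 9343874782) (nat_lit 1140) (nat_lit 7290835841) (nat_lit 135) (nat_lit 5) (nat_lit 149) (nat_lit 5) (nat_lit 150) (nat_lit 5) (nat_lit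 322) (nat_lit 312) (nat_lit 146)) (XT.nd (nat_lit 78) (nat_lit 0) (nat_lit 76) (XT.lf (nat_lit 0) (nat_lit 6753579540) (nat_lit 1064) (nat_lit 123136795) (nat_lit 1140) (nat_lit 15954507796) (nat_lit 135) (nat_lit 5) (nat_lit 149) (nat_lit 5) (nat_lit 150) (nat_lit 5) (nat_lit 323) (nat_lit 312) (nat_lit 145)) (XT.lf (nat_lit 0) (nat_lit 7804059549) (nat_lit 1064) (nat_lit 13660599544) (nat_lit 1140) (nat_lit 1735875052) (nat_lit 136) (nat_lit 5) (nat_lit 150) (nat_lit 5) (nat_lit 151) (nat_lit 5) (nat_lit 324) (nat_lit 312) (nat_lit 144)))) (XT.nd (nat_lit 78) (nat_lit 0) (nat_lit 0) (XT.lf (nat_lit 0) (nat_lit 8950898603) (nat_lit 1064) (nat_lit 4156951877) (nat_lit 1140) (nat_lit 10471141097) (nat_lit 136) (nat_lit 5) (nat_lit 150) (nat_lit 5) (nat_lit 151) (nat_lit 5) (nat_lit 325) (nat_lit 312) (nat_lit 143)) (XT.nd (nat_lit 78) (nat_lit 0) (nat_lit 76) (XT.lf (nat_lit 76) (nat_lit 5740532981)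 (nat_lit 0) (nat_lit 4442424947) (nat_lit 1140) (nat_lit 13784333416) (nat_lit 137) (nat_lit 5) (nat_lit 136) (nat_lit 5) (nat_lit 151) (nat_lit 5) (nat_lit 326) (nat_lit 312) (nat_lit 142)) (XT.lf (nat_lit 0) (nat_lit 11533203866) (nat_lit 1064) (nat_lit 8392742551) (nat_lit 1140) (nat_lit 4438869626) (nat_lit 137) (nat_lit 5) (nat_lit 151) (nat_lit 5) (nat_lit 152) (nat_lit 5) (nat_lit 327) (nat_lit 312) (nat_lit 141)))))) (XT.nd (nat_lit 390) (nat_lit 1596) (nat_lit 0) (XT.nd (nat_lit 156) (nat_lit 988) (nat_lit 0) (XT.nd (nat_lit 78) (nat_lit 0) (nat_lit 0) (XT.lf (nat_lit 76) (nat_lit 1722614044) (nat_lit 0) (nat_lit 11257749635) (nat_lit 1140) (nat_lit 11792222926) (nat_lit 138) (nat_lit 5) (nat_lit 137) (nat_lit 5) (nat_lit 152) (nat_lit 5) (nat_lit 328) (nat_lit 312) (nat_lit 140)) (XT.lf (nat_lit 76) (nat_lit 12310197089) (nat_lit 0) (nat_lit 2241443696) (nat_lit 1140) (nat_lit 10638540379)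 (nat_lit 138) (nat_lit 5) (nat_lit 137) (nat_lit 5) (nat_lit 152) (nat_lit 5) (nat_lit 329) (nat_lit 312) (nat_lit 139))) (XT.nd (nat_lit 78) (nat_lit 1064) (nat_lit 0) (XT.lf (nat_lit 0) (nat_lit 16233857774) (nat_lit 1064) (nat_lit 2475938645) (nat_lit 76) (nat_lit 6908604701) (nat_lit 138) (nat_lit 5) (nat_lit 152) (nat_lit 5) (nat_lit 139) (nat_lit 5) (nat_lit 330) (nat_lit 312) (nat_lit 138)) (XT.nd (nat_lit 78) (nat_lit 0) (nat_lit 0) (XT.lf (nat_lit 0) (nat_lit 8378304708) (nat_lit 1064) (nat_lit 9687158060) (nat_lit 1140) (nat_lit 7991048533) (nat_lit 124) (nat_lit 5) (nat_lit 138) (nat_lit 5) (nat_lit 139) (nat_lit 5) (nat_lit 331) (nat_lit 312) (nat_lit 137)) (XT.lf (nat_lit 0) (nat_lit 19605739437) (nat_lit 1064) (nat_lit 367550453) (nat_lit 1140) (nat_lit 6533847620) (nat_lit 124) (nat_lit 5) (nat_lit 138) (nat_lit 5) (nat_lit 139) (nat_lit 5) (nat_lit 332) (nat_lit 312) (nat_lit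 136))))) (XT.nd (nat_lit 234) (nat_lit 1064) (nat_lit 0) (XT.nd (nat_lit 78) (nat_lit 0) (nat_lit 0) (XT.lf (nat_lit 0) (nat_lit 4188485362) (nat_lit 532) (nat_lit 17875254429) (nat_lit 608) (nat_lit 4903791698) (nat_lit 117) (nat_lit 5) (nat_lit 124) (nat_lit 5) (nat_lit 125) (nat_lit 5) (nat_lit 333) (nat_lit 312) (nat_lit 135)) (XT.nd (nat_lit 78) (nat_lit 0) (nat_lit 0) (XT.lf (nat_lit 0) (nat_lit 15745635688) (nat_lit 532) (nat_lit 8541021597) (nat_lit 608) (nat_lit 3152997693) (nat_lit 117) (nat_lit 5) (nat_lit 124) (nat_lit 5) (nat_lit 125) (nat_lit 5) (nat_lit 334) (nat_lit 312) (nat_lit 134)) (XT.lf (nat_lit 0) (nat_lit 26583145370) (nat_lit 608) (nat_lit 289971711) (nat_lit 76) (nat_lit 1052628611) (nat_lit 117) (nat_lit 5) (nat_lit 125) (nat_lit 5) (nat_lit 118) (nat_lit 5) (nat_lit 335) (nat_lit 312) (nat_lit 133)))) (XT.nd (nat_lit 78) (nat_lit 532) (nat_lit 0) (XT.lf (nat_lit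 0) (nat_lit 706506030) (nat_lit 532) (nat_lit 16832806194) (nat_lit 76) (nat_lit 10881128220) (nat_lit 110) (nat_lit 5) (nat_lit 117) (nat_lit 5) (nat_lit 111) (nat_lit 5) (nat_lit 336) (nat_lit 312) (nat_lit 132)) (XT.nd (nat_lit 78) (nat_lit 532) (nat_lit 0) (XT.lf (nat_lit 0) (nat_lit 2789750030) (nat_lit 532) (nat_lit 5118861983) (nat_lit 76) (nat_lit 21020984914) (nat_lit 110) (nat_lit 5) (nat_lit 117) (nat_lit 5) (nat_lit 111) (nat_lit 5) (nat_lit 337) (nat_lit 312) (nat_lit 131)) (XT.lf (nat_lit 0) (nat_lit 5020359154) (nat_lit 608) (nat_lit 22390481235) (nat_lit 76) (nat_lit 2040650580) (nat_lit 103) (nat_lit 5) (nat_lit 111) (nat_lit 5) (nat_lit 104) (nat_lit 5) (nat_lit 338) (nat_lit 312) (nat_lit 130))))))) (XT.nd (nat_lit 858) (nat_lit 1748) (nat_lit 0) (XT.nd (nat_lit 390) (nat_lit 836) (nat_lit 0) (XT.nd (nat_lit 156) (nat_lit 456) (nat_lit 0) (XT.nd (nat_lit 78) (nat_lit 456)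 (nat_lit 0) (XT.lf (nat_lit 0) (nat_lit 7445245799) (nat_lit 608) (nat_lit 10358242770) (nat_lit 76) (nat_lit 12181741122) (nat_lit 103) (nat_lit 5) (nat_lit 111) (nat_lit 5) (nat_lit 104) (nat_lit 5) (nat_lit 339) (nat_lit 312) (nat_lit 129)) (XT.lf (nat_lit 0) (nat_lit 2072347410) (nat_lit 456) (nat_lit 7887397841) (nat_lit 532) (nat_lit 20574737723) (nat_lit 97) (nat_lit 5) (nat_lit 103) (nat_lit 5) (nat_lit 104) (nat_lit 5) (nat_lit 340) (nat_lit 312) (nat_lit 128))) (XT.nd (nat_lit 78) (nat_lit 456) (nat_lit 0) (XT.lf (nat_lit 0) (nat_lit 12674679016) (nat_lit 532) (nat_lit 16035405194) (nat_lit 76) (nat_lit 2386387807) (nat_lit 97) (nat_lit 5) (nat_lit 104) (nat_lit 5) (nat_lit 98) (nat_lit 5) (nat_lit 341) (nat_lit 312) (nat_lit 127)) (XT.nd (nat_lit 78) (nat_lit 456) (nat_lit 0) (XT.lf (nat_lit 0) (nat_lit 15546246212) (nat_lit 532) (nat_lit 3316997172) (nat_lit 76) (nat_lit 12809829690)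 (nat_lit 97) (nat_lit 5) (nat_lit 104) (nat_lit 5) (nat_lit 98) (nat_lit 5) (nat_lit 342) (nat_lit 312) (nat_lit 126)) (XT.lf (nat_lit 0) (nat_lit 9974661744) (nat_lit 456) (nat_lit 8622358289) (nat_lit 532) (nat_lit 13667168016) (nat_lit 91) (nat_lit 5) (nat_lit 97) (nat_lit 5) (nat_lit 98) (nat_lit 5) (nat_lit 343) (nat_lit 312) (nat_lit 125))))) (XT.nd (nat_lit 234) (nat_lit 456) (nat_lit 0) (XT.nd (nat_lit 78) (nat_lit 380) (nat_lit 0) (XT.lf (nat_lit 0) (nat_lit 21788885263) (nat_lit 532) (nat_lit 9160812342) (nat_lit 76) (nat_lit 1921859274) (nat_lit 91) (nat_lit 5) (nat_lit 98) (nat_lit 5) (nat_lit 92) (nat_lit 5) (nat_lit 344) (nat_lit 312) (nat_lit 124)) (XT.nd (nat_lit 78) (nat_lit 0) (nat_lit 0) (XT.lf (nat_lit 0) (nat_lit 4358528021) (nat_lit 380) (nat_lit 20842555704) (nat_lit 456) (nat_lit 8292332963) (nat_lit 86) (nat_lit 5) (nat_lit 91) (nat_lit 5) (nat_lit 92) (nat_lit 5) (nat_lit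 345) (nat_lit 312) (nat_lit 123)) (XT.lf (nat_lit 0) (nat_lit 18468349138) (nat_lit 380) (nat_lit 10337166381) (nat_lit 456) (nat_lit 5325727775) (nat_lit 86) (nat_lit 5) (nat_lit 91) (nat_lit 5) (nat_lit 92) (nat_lit 5) (nat_lit 346) (nat_lit 312) (nat_lit 122)))) (XT.nd (nat_lit 78) (nat_lit 456) (nat_lit 0) (XT.lf (nat_lit 0) (nat_lit 32520162534) (nat_lit 456) (nat_lit 1794270800) (nat_lit 76) (nat_lit 473715714) (nat_lit 86) (nat_lit 5) (nat_lit 92) (nat_lit 5) (nat_lit 87) (nat_lit 5) (nat_lit 347) (nat_lit 312) (nat_lit 121)) (XT.nd (nat_lit 78) (nat_lit 0) (nat_lit 0) (XT.lf (nat_lit 0) (nat_lit 1087753116) (nat_lit 456) (nat_lit 22837040663) (nat_lit 76) (nat_lit 11533016408) (nat_lit 80) (nat_lit 5) (nat_lit 86) (nat_lit 5) (nat_lit 81) (nat_lit 5) (nat_lit 348) (nat_lit 312) (nat_lit 120)) (XT.lf (nat_lit 0) (nat_lit 4514404392) (nat_lit 456) (nat_lit 8667438872) (nat_lit 76) (nat_lit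 22964575766) (nat_lit 80) (nat_lit 5) (nat_lit 86) (nat_lit 5) (nat_lit 81) (nat_lit 5) (nat_lit 349) (nat_lit 312) (nat_lit 119)))))) (XT.nd (nat_lit 468) (nat_lit 684) (nat_lit 0) (XT.nd (nat_lit 234) (nat_lit 684) (nat_lit 0) (XT.nd (nat_lit 78) (nat_lit 0) (nat_lit 0) (XT.lf (nat_lit 0) (nat_lit 6042414202) (nat_lit 380) (nat_lit 2057122179) (nat_lit 456) (nat_lit 28754485378) (nat_lit 75) (nat_lit 5) (nat_lit 80) (nat_lit 5) (nat_lit 81) (nat_lit 5) (nat_lit 350) (nat_lit 312) (nat_lit 118)) (XT.nd (nat_lit 78) (nat_lit 0) (nat_lit 0) (XT.lf (nat_lit 0) (nat_lit 11968622636) (nat_lit 456) (nat_lit 16303020270) (nat_lit 76) (nat_lit 9305923537) (nat_lit 75) (nat_lit 5) (nat_lit 81) (nat_lit 5) (nat_lit 76) (nat_lit 5) (nat_lit 351) (nat_lit 312) (nat_lit 117)) (XT.lf (nat_lit 0) (nat_lit 15971855972) (nat_lit 456) (nat_lit 1382253861) (nat_lit 76) (nat_lit 20968171110) (nat_lit 75) (nat_lit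 5) (nat_lit 81) (nat_lit 5) (nat_lit 76) (nat_lit 5) (nat_lit 352) (nat_lit 312) (nat_lit 116)))) (XT.nd (nat_lit 78) (nat_lit 304) (nat_lit 0) (XT.lf (nat_lit 0) (nat_lit 14261802687) (nat_lit 380) (nat_lit 5968250529) (nat_lit 456) (nat_lit 18855243199) (nat_lit 70) (nat_lit 5) (nat_lit 75) (nat_lit 5) (nat_lit 76) (nat_lit 5) (nat_lit 353) (nat_lit 312) (nat_lit 115)) (XT.nd (nat_lit 78) (nat_lit 304) (nat_lit 0) (XT.lf (nat_lit 0) (nat_lit 24683262927) (nat_lit 456) (nat_lit 9525439962) (nat_lit 76) (nat_lit 5660486849) (nat_lit 70) (nat_lit 5) (nat_lit 76) (nat_lit 5) (nat_lit 71) (nat_lit 5) (nat_lit 354) (nat_lit 312) (nat_lit 114)) (XT.lf (nat_lit 0) (nat_lit 6292661038) (nat_lit 304) (nat_lit 23094861679) (nat_lit 380) (nat_lit 11285558755) (nat_lit 66) (nat_lit 5) (nat_lit 70) (nat_lit 5) (nat_lit 71) (nat_lit 5) (nat_lit 355) (nat_lit 312) (nat_lit 113))))) (XT.nd (nat_lit 234) (nat_lit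 304) (nat_lit 0) (XT.nd (nat_lit 78) (nat_lit 380) (nat_lit 0) (XT.lf (nat_lit 0) (nat_lit 22777997422) (nat_lit 304) (nat_lit 11549011679) (nat_lit 380) (nat_lit 7171262967) (nat_lit 66) (nat_lit 5) (nat_lit 70) (nat_lit 5) (nat_lit 71) (nat_lit 5) (nat_lit 356) (nat_lit 312) (nat_lit 112)) (XT.nd (nat_lit 78) (nat_lit 380) (nat_lit 0) (XT.lf (nat_lit 0) (nat_lit 39415946166) (nat_lit 380) (nat_lit 2596179946) (nat_lit 76) (nat_lit 336059213) (nat_lit 66) (nat_lit 5) (nat_lit 71) (nat_lit 5) (nat_lit 67) (nat_lit 5) (nat_lit 357) (nat_lit 312) (nat_lit 111)) (XT.lf (nat_lit 0) (nat_lit 1657026782) (nat_lit 380) (nat_lit 29061045166) (nat_lit 76) (nat_lit 12497583562) (nat_lit 61) (nat_lit 5) (nat_lit 66) (nat_lit 5) (nat_lit 62) (nat_lit 5) (nat_lit 358) (nat_lit 312) (nat_lit 110)))) (XT.nd (nat_lit 78) (nat_lit 304) (nat_lit 0) (XT.lf (nat_lit 0) (nat_lit 6349547726) (nat_lit 380) (nat_lit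 12679012545) (nat_lit 76) (nat_lit 25078987712) (nat_lit 61) (nat_lit 5) (nat_lit 66) (nat_lit 5) (nat_lit 62) (nat_lit 5) (nat_lit 359) (nat_lit 312) (nat_lit 109)) (XT.nd (nat_lit 78) (nat_lit 0) (nat_lit 0) (XT.lf (nat_lit 0) (nat_lit 4275482889) (nat_lit 304) (nat_lit 6946553395) (nat_lit 380) (nat_lit 33802989562) (nat_lit 57) (nat_lit 5) (nat_lit 61) (nat_lit 5) (nat_lit 62) (nat_lit 5) (nat_lit 360) (nat_lit 312) (nat_lit 108)) (XT.lf (nat_lit 0) (nat_lit 16420970381) (nat_lit 380) (nat_lit 24024243309) (nat_lit 76) (nat_lit 5519410477) (nat_lit 57) (nat_lit 5) (nat_lit 62) (nat_lit 5) (nat_lit 58) (nat_lit 5) (nat_lit 361) (nat_lit 312) (nat_lit 107))))))))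
noncomputable def xc232 : XT := (XT.nd (nat_lit 37596) (nat_lit 0) (nat_lit 3724) (XT.nd (nat_lit 858) (nat_lit 0) (nat_lit 0) (XT.nd (nat_lit 390) (nat_lit 608) (nat_lit 0) (XT.nd (nat_lit 156) (nat_lit 228) (nat_lit 0) (XT.nd (nat_lit 78) (nat_lit 304) (nat_lit 0) (XT.lf (nat_lit 0) (nat_lit 21842825743) (nat_lit 380) (nat_lit 6868350589) (nat_lit 76) (nat_lit 18219229635) (nat_lit 57) (nat_lit 5) (nat_lit 62) (nat_lit 5) (nat_lit 58) (nat_lit 5) (nat_lit 362) (nat_lit 312) (nat_lit 106)) (XT.lf (nat_lit 0) (nat_lit 11014839500) (nat_lit 304) (nat_lit 16516607268) (nat_lit 380) (nat_lit 20390595158) (nat_lit 53) (nat_lit 5) (nat_lit 57) (nat_lit 5) (nat_lit 58) (nat_lit 5) (nat_lit 363) (nat_lit 312) (nat_lit 105))) (XT.nd (nat_lit 78) (nat_lit 228) (nat_lit 0) (XT.lf (nat_lit 0) (nat_lit 29573023873) (nat_lit 304) (nat_lit 3885317576) (nat_lit 380) (nat_lit 15483060952) (nat_lit 53) (nat_lit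 5) (nat_lit 57) (nat_lit 5) (nat_lit 58) (nat_lit 5) (nat_lit 364) (nat_lit 312) (nat_lit 104)) (XT.nd (nat_lit 78) (nat_lit 228) (nat_lit 0) (XT.lf (nat_lit 0) (nat_lit 39649060910) (nat_lit 380) (nat_lit 1393382478) (nat_lit 76) (nat_lit 8946323540) (nat_lit 53) (nat_lit 5) (nat_lit 58) (nat_lit 5) (nat_lit 54) (nat_lit 5) (nat_lit 365) (nat_lit 312) (nat_lit 103)) (XT.lf (nat_lit 0) (nat_lit 17420112113) (nat_lit 228) (nat_lit 28809664226) (nat_lit 304) (nat_lit 4831651485) (nat_lit 50) (nat_lit 5) (nat_lit 53) (nat_lit 5) (nat_lit 54) (nat_lit 5) (nat_lit 366) (nat_lit 312) (nat_lit 102))))) (XT.nd (nat_lit 234) (nat_lit 228) (nat_lit 0) (XT.nd (nat_lit 78) (nat_lit 304) (nat_lit 0) (XT.lf (nat_lit 0) (nat_lit 837791412) (nat_lit 304) (nat_lit 15349728011) (nat_lit 76) (nat_lit 35978132759) (nat_lit 49) (nat_lit 5) (nat_lit 53) (nat_lit 5) (nat_lit 50) (nat_lit 5) (nat_lit 367) (nat_lit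 312) (nat_lit 101)) (XT.nd (nat_lit 78) (nat_lit 0) (nat_lit 0) (XT.lf (nat_lit 0) (nat_lit 3509082491) (nat_lit 304) (nat_lit 3103263399) (nat_lit 380) (nat_lit 46688261400) (nat_lit 45) (nat_lit 5) (nat_lit 49) (nat_lit 5) (nat_lit 50) (nat_lit 5) (nat_lit 368) (nat_lit 312) (nat_lit 100)) (XT.lf (nat_lit 0) (nat_lit 12814818980) (nat_lit 380) (nat_lit 31320085656) (nat_lit 76) (nat_lit 10327069213) (nat_lit 45) (nat_lit 5) (nat_lit 50) (nat_lit 5) (nat_lit 46) (nat_lit 5) (nat_lit 369) (nat_lit 312) (nat_lit 99)))) (XT.nd (nat_lit 78) (nat_lit 228) (nat_lit 0) (XT.lf (nat_lit 0) (nat_lit 19232565936) (nat_lit 380) (nat_lit 12327350132) (nat_lit 76) (nat_lit 24097392508) (nat_lit 45) (nat_lit 5) (nat_lit 50) (nat_lit 5) (nat_lit 46) (nat_lit 5) (nat_lit 370) (nat_lit 312) (nat_lit 98)) (XT.nd (nat_lit 78) (nat_lit 0) (nat_lit 0) (XT.lf (nat_lit 0) (nat_lit 7377060861) (nat_lit 228) (nat_lit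 18535215993) (nat_lit 304) (nat_lit 30974146613) (nat_lit 42) (nat_lit 5) (nat_lit 45) (nat_lit 5) (nat_lit 46) (nat_lit 5) (nat_lit 371) (nat_lit 312) (nat_lit 97)) (XT.lf (nat_lit 0) (nat_lit 27923263346) (nat_lit 228) (nat_lit 4992140093) (nat_lit 304) (nat_lit 25233320618) (nat_lit 42) (nat_lit 5) (nat_lit 45) (nat_lit 5) (nat_lit 46) (nat_lit 5) (nat_lit 372) (nat_lit 312) (nat_lit 96)))))) (XT.nd (nat_lit 36270) (nat_lit 0) (nat_lit 6916) (XT.nd (nat_lit 36036) (nat_lit 0) (nat_lit 6764) (XT.nd (nat_lit 35958) (nat_lit 0) (nat_lit 6764) (XT.lf (nat_lit 0) (nat_lit 40213305477) (nat_lit 304) (nat_lit 10451164069) (nat_lit 76) (nat_lit 8781886561) (nat_lit 42) (nat_lit 5) (nat_lit 46) (nat_lit 5) (nat_lit 43) (nat_lit 5) (nat_lit 373) (nat_lit 312) (nat_lit 95)) (XT.lf (nat_lit 0) (nat_lit 546509691) (nat_lit 1140) (nat_lit 4694769152) (nat_lit 1140) (nat_lit 4694769152) (nat_lit 131) (nat_lit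 3) (nat_lit 146) (nat_lit 3) (nat_lit 146) (nat_lit 5) (nat_lit 313) (nat_lit 313) (nat_lit 154))) (XT.nd (nat_lit 78) (nat_lit 0) (nat_lit 76) (XT.lf (nat_lit 0) (nat_lit 1258037719) (nat_lit 1140) (nat_lit 1482779124) (nat_lit 1140) (nat_lit 17424451995) (nat_lit 131) (nat_lit 3) (nat_lit 146) (nat_lit 3) (nat_lit 146) (nat_lit 5) (nat_lit 314) (nat_lit 313) (nat_lit 153)) (XT.nd (nat_lit 78) (nat_lit 0) (nat_lit 0) (XT.lf (nat_lit 0) (nat_lit 1538460354) (nat_lit 1064) (nat_lit 13725750050) (nat_lit 1140) (nat_lit 5199730413) (nat_lit 132) (nat_lit 5) (nat_lit 146) (nat_lit 5) (nat_lit 147) (nat_lit 5) (nat_lit 315) (nat_lit 313) (nat_lit 152)) (XT.lf (nat_lit 0) (nat_lit 1863919854) (nat_lit 1064) (nat_lit 5565402853) (nat_lit 1140) (nat_lit 13341168570) (nat_lit 132) (nat_lit 5) (nat_lit 146) (nat_lit 5) (nat_lit 147) (nat_lit 5) (nat_lit 316) (nat_lit 313) (nat_lit 151))))) (XT.nd (nat_lit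 234) (nat_lit 0) (nat_lit 76) (XT.nd (nat_lit 78) (nat_lit 0) (nat_lit 0) (XT.lf (nat_lit 0) (nat_lit 2227939891) (nat_lit 1064) (nat_lit 18198917497) (nat_lit 1140) (nat_lit 658533510) (nat_lit 133) (nat_lit 5) (nat_lit 147) (nat_lit 5) (nat_lit 148) (nat_lit 5) (nat_lit 317) (nat_lit 313) (nat_lit 150)) (XT.nd (nat_lit 78) (nat_lit 0) (nat_lit 0) (XT.lf (nat_lit 0) (nat_lit 2727876229) (nat_lit 1064) (nat_lit 9779429028) (nat_lit 1140) (nat_lit 8898698449) (nat_lit 133) (nat_lit 5) (nat_lit 147) (nat_lit 5) (nat_lit 148) (nat_lit 5) (nat_lit 318) (nat_lit 313) (nat_lit 149)) (XT.lf (nat_lit 0) (nat_lit 3237647511) (nat_lit 1064) (nat_lit 1110515781) (nat_lit 1140) (nat_lit 17388242100) (nat_lit 133) (nat_lit 5) (nat_lit 147) (nat_lit 5) (nat_lit 148) (nat_lit 5) (nat_lit 319) (nat_lit 313) (nat_lit 148)))) (XT.nd (nat_lit 78) (nat_lit 0) (nat_lit 0) (XT.lf (nat_lit 0) (nat_lit 3874084411)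 (nat_lit 1064) (nat_lit 14143410970) (nat_lit 1140) (nat_lit 4055897719) (nat_lit 134) (nat_lit 5) (nat_lit 148) (nat_lit 5) (nat_lit 149) (nat_lit 5) (nat_lit 320) (nat_lit 313) (nat_lit 147)) (XT.nd (nat_lit 78) (nat_lit 0) (nat_lit 0) (XT.lf (nat_lit 0) (nat_lit 4579112504) (nat_lit 1064) (nat_lit 5202073916) (nat_lit 1140) (nat_lit 12637833784) (nat_lit 134) (nat_lit 5) (nat_lit 148) (nat_lit 5) (nat_lit 149) (nat_lit 5) (nat_lit 321) (nat_lit 313) (nat_lit 146)) (XT.lf (nat_lit 76) (nat_lit 4084074752) (nat_lit 0) (nat_lit 1255739293) (nat_lit 1140) (nat_lit 17434180672) (nat_lit 135) (nat_lit 5) (nat_lit 134) (nat_lit 5) (nat_lit 149) (nat_lit 5) (nat_lit 322) (nat_lit 313) (nat_lit 145))))))) (XT.nd (nat_lit 858) (nat_lit 2508) (nat_lit 0) (XT.nd (nat_lit 390) (nat_lit 836) (nat_lit 0) (XT.nd (nat_lit 156) (nat_lit 0) (nat_lit 76) (XT.nd (nat_lit 78) (nat_lit 0) (nat_lit 0) (XT.lf (nat_lit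 0) (nat_lit 6244113867) (nat_lit 1064) (nat_lit 9458717119) (nat_lit 1140) (nat_lit 7433178023) (nat_lit 135) (nat_lit 5) (nat_lit 149) (nat_lit 5) (nat_lit 150) (nat_lit 5) (nat_lit 323) (nat_lit 313) (nat_lit 144)) (XT.lf (nat_lit 76) (nat_lit 34496529) (nat_lit 0) (nat_lit 7149332127) (nat_lit 1140) (nat_lit 16324819953) (nat_lit 136) (nat_lit 5) (nat_lit 135) (nat_lit 5) (nat_lit 150) (nat_lit 5) (nat_lit 324) (nat_lit 313) (nat_lit 143))) (XT.nd (nat_lit 78) (nat_lit 0) (nat_lit 0) (XT.lf (nat_lit 0) (nat_lit 8259793014) (nat_lit 1064) (nat_lit 13903401701) (nat_lit 1140) (nat_lit 1726044004) (nat_lit 136) (nat_lit 5) (nat_lit 150) (nat_lit 5) (nat_lit 151) (nat_lit 5) (nat_lit 325) (nat_lit 313) (nat_lit 142)) (XT.nd (nat_lit 78) (nat_lit 0) (nat_lit 0) (XT.lf (nat_lit 0) (nat_lit 9434582530) (nat_lit 1064) (nat_lit 4119509143) (nat_lit 1140) (nat_lit 10725171155) (nat_lit 136) (nat_lit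 5) (nat_lit 150) (nat_lit 5) (nat_lit 151) (nat_lit 5) (nat_lit 326) (nat_lit 313) (nat_lit 141)) (XT.lf (nat_lit 76) (nat_lit 6073310542) (nat_lit 0) (nat_lit 4625569801) (nat_lit 1140) (nat_lit 13980491695) (nat_lit 137) (nat_lit 5) (nat_lit 136) (nat_lit 5) (nat_lit 151) (nat_lit 5) (nat_lit 327) (nat_lit 313) (nat_lit 140))))) (XT.nd (nat_lit 234) (nat_lit 988) (nat_lit 0) (XT.nd (nat_lit 78) (nat_lit 0) (nat_lit 0) (XT.lf (nat_lit 0) (nat_lit 12083039085) (nat_lit 1064) (nat_lit 8481438401) (nat_lit 1140) (nat_lit 4524561035) (nat_lit 137) (nat_lit 5) (nat_lit 151) (nat_lit 5) (nat_lit 152) (nat_lit 5) (nat_lit 328) (nat_lit 313) (nat_lit 139)) (XT.nd (nat_lit 78) (nat_lit 0) (nat_lit 0) (XT.lf (nat_lit 76) (nat_lit 1935780005) (nat_lit 0) (nat_lit 11633448942) (nat_lit 1140) (nat_lit 11939962468) (nat_lit 138) (nat_lit 5) (nat_lit 137) (nat_lit 5) (nat_lit 152) (nat_lit 5) (nat_lit 329)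 (nat_lit 313) (nat_lit 138)) (XT.lf (nat_lit 76) (nat_lit 12836287021) (nat_lit 0) (nat_lit 2345547995) (nat_lit 1140) (nat_lit 10757670235) (nat_lit 138) (nat_lit 5) (nat_lit 137) (nat_lit 5) (nat_lit 152) (nat_lit 5) (nat_lit 330) (nat_lit 313) (nat_lit 137)))) (XT.nd (nat_lit 78) (nat_lit 1064) (nat_lit 0) (XT.lf (nat_lit 0) (nat_lit 16908534360) (nat_lit 1064) (nat_lit 2391459817) (nat_lit 76) (nat_lit 7080773815) (nat_lit 138) (nat_lit 5) (nat_lit 152) (nat_lit 5) (nat_lit 139) (nat_lit 5) (nat_lit 331) (nat_lit 313) (nat_lit 136)) (XT.nd (nat_lit 78) (nat_lit 0) (nat_lit 0) (XT.lf (nat_lit 0) (nat_lit 8786854396) (nat_lit 1064) (nat_lit 10004278365) (nat_lit 1140) (nat_lit 8041023534) (nat_lit 124) (nat_lit 5) (nat_lit 138) (nat_lit 5) (nat_lit 139) (nat_lit 5) (nat_lit 332) (nat_lit 313) (nat_lit 135)) (XT.lf (nat_lit 0) (nat_lit 20346533509) (nat_lit 1064) (nat_lit 404310524) (nat_lit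 1140) (nat_lit 6545633480) (nat_lit 124) (nat_lit 5) (nat_lit 138) (nat_lit 5) (nat_lit 139) (nat_lit 5) (nat_lit 333) (nat_lit 313) (nat_lit 134)))))) (XT.nd (nat_lit 390) (nat_lit 1444) (nat_lit 0) (XT.nd (nat_lit 156) (nat_lit 532) (nat_lit 0) (XT.nd (nat_lit 78) (nat_lit 0) (nat_lit 0) (XT.lf (nat_lit 0) (nat_lit 4471326992) (nat_lit 532) (nat_lit 18428756436) (nat_lit 608) (nat_lit 4870732850) (nat_lit 117) (nat_lit 5) (nat_lit 124) (nat_lit 5) (nat_lit 125) (nat_lit 5) (nat_lit 334) (nat_lit 313) (nat_lit 133)) (XT.lf (nat_lit 0) (nat_lit 16370613564) (nat_lit 532) (nat_lit 8813994356) (nat_lit 608) (nat_lit 3072662770) (nat_lit 117) (nat_lit 5) (nat_lit 124) (nat_lit 5) (nat_lit 125) (nat_lit 5) (nat_lit 335) (nat_lit 313) (nat_lit 132))) (XT.nd (nat_lit 78) (nat_lit 532) (nat_lit 0) (XT.lf (nat_lit 0) (nat_lit 27544901849) (nat_lit 608) (nat_lit 144939136) (nat_lit 76) (nat_lit 1068270176)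 (nat_lit 117) (nat_lit 5) (nat_lit 125) (nat_lit 5) (nat_lit 118) (nat_lit 5) (nat_lit 336) (nat_lit 313) (nat_lit 131)) (XT.nd (nat_lit 78) (nat_lit 0) (nat_lit 0) (XT.lf (nat_lit 0) (nat_lit 890691757) (nat_lit 532) (nat_lit 17181870457) (nat_lit 76) (nat_lit 11195150188) (nat_lit 110) (nat_lit 5) (nat_lit 117) (nat_lit 5) (nat_lit 111) (nat_lit 5) (nat_lit 337) (nat_lit 313) (nat_lit 130)) (XT.lf (nat_lit 0) (nat_lit 3031685779) (nat_lit 532) (nat_lit 5121049276) (nat_lit 76) (nat_lit 21639564094) (nat_lit 110) (nat_lit 5) (nat_lit 117) (nat_lit 5) (nat_lit 111) (nat_lit 5) (nat_lit 338) (nat_lit 313) (nat_lit 129))))) (XT.nd (nat_lit 234) (nat_lit 456) (nat_lit 0) (XT.nd (nat_lit 78) (nat_lit 456) (nat_lit 0) (XT.lf (nat_lit 0) (nat_lit 5325995228) (nat_lit 608) (nat_lit 22907173537) (nat_lit 76) (nat_lit 2096790554) (nat_lit 103) (nat_lit 5) (nat_lit 111) (nat_lit 5) (nat_lit 104) (nat_lit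 5) (nat_lit 339) (nat_lit 313) (nat_lit 128)) (XT.nd (nat_lit 78) (nat_lit 456) (nat_lit 0) (XT.lf (nat_lit 0) (nat_lit 7819113172) (nat_lit 608) (nat_lit 10518483126) (nat_lit 76) (nat_lit 12542261760) (nat_lit 103) (nat_lit 5) (nat_lit 111) (nat_lit 5) (nat_lit 104) (nat_lit 5) (nat_lit 340) (nat_lit 313) (nat_lit 127)) (XT.lf (nat_lit 0) (nat_lit 2283549201) (nat_lit 456) (nat_lit 8122547201) (nat_lit 532) (nat_lit 21039593110) (nat_lit 97) (nat_lit 5) (nat_lit 103) (nat_lit 5) (nat_lit 104) (nat_lit 5) (nat_lit 341) (nat_lit 313) (nat_lit 126)))) (XT.nd (nat_lit 78) (nat_lit 456) (nat_lit 0) (XT.lf (nat_lit 0) (nat_lit 13198194095) (nat_lit 532) (nat_lit 16367103113) (nat_lit 76) (nat_lit 2459381227) (nat_lit 97) (nat_lit 5) (nat_lit 104) (nat_lit 5) (nat_lit 98) (nat_lit 5) (nat_lit 342) (nat_lit 313) (nat_lit 125)) (XT.nd (nat_lit 78) (nat_lit 456) (nat_lit 0) (XT.lf (nat_lit 0) (nat_lit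 16151735257) (nat_lit 532) (nat_lit 3271493265) (nat_lit 76) (nat_lit 13195485538) (nat_lit 97) (nat_lit 5) (nat_lit 104) (nat_lit 5) (nat_lit 98) (nat_lit 5) (nat_lit 343) (nat_lit 313) (nat_lit 124)) (XT.lf (nat_lit 0) (nat_lit 10417493715) (nat_lit 456) (nat_lit 8873867368) (nat_lit 532) (nat_lit 13936292552) (nat_lit 91) (nat_lit 5) (nat_lit 97) (nat_lit 5) (nat_lit 98) (nat_lit 5) (nat_lit 344) (nat_lit 313) (nat_lit 123))))))))
noncomputable def xc233 : XT := (XT.nd (nat_lit 1716) (nat_lit 836) (nat_lit 0) (XT.nd (nat_lit 858) (nat_lit 1292) (nat_lit 0) (XT.nd (nat_lit 390) (nat_lit 760) (nat_lit 0) (XT.nd (nat_lit 156) (nat_lit 456) (nat_lit 0) (XT.nd (nat_lit 78) (nat_lit 380) (nat_lit 0) (XT.lf (nat_lit 0) (nat_lit 22575075405) (nat_lit 532) (nat_lit 9291963574) (nat_lit 76) (nat_lit 1986332449) (nat_lit 91) (nat_lit 5) (nat_lit 98) (nat_lit 5) (nat_lit 92) (nat_lit 5) (nat_lit 345)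 (nat_lit 313) (nat_lit 122)) (XT.lf (nat_lit 0) (nat_lit 4631548440) (nat_lit 380) (nat_lit 21455599005) (nat_lit 456) (nat_lit 8406824741) (nat_lit 86) (nat_lit 5) (nat_lit 91) (nat_lit 5) (nat_lit 92) (nat_lit 5) (nat_lit 346) (nat_lit 313) (nat_lit 121))) (XT.nd (nat_lit 78) (nat_lit 456) (nat_lit 0) (XT.lf (nat_lit 0) (nat_lit 19160520561) (nat_lit 380) (nat_lit 10635404314) (nat_lit 456) (nat_lit 5355132413) (nat_lit 86) (nat_lit 5) (nat_lit 91) (nat_lit 5) (nat_lit 92) (nat_lit 5) (nat_lit 347) (nat_lit 313) (nat_lit 120)) (XT.nd (nat_lit 78) (nat_lit 456) (nat_lit 0) (XT.lf (nat_lit 0) (nat_lit 33618445139) (nat_lit 456) (nat_lit 1710108551) (nat_lit 76) (nat_lit 499233297) (nat_lit 86) (nat_lit 5) (nat_lit 92) (nat_lit 5) (nat_lit 87) (nat_lit 5) (nat_lit 348) (nat_lit 313) (nat_lit 119)) (XT.lf (nat_lit 0) (nat_lit 1242306523) (nat_lit 456) (nat_lit 23382780417) (nat_lit 76) (nat_lit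 11892492452) (nat_lit 80) (nat_lit 5) (nat_lit 86) (nat_lit 5) (nat_lit 81) (nat_lit 5) (nat_lit 349) (nat_lit 313) (nat_lit 118))))) (XT.nd (nat_lit 234) (nat_lit 380) (nat_lit 0) (XT.nd (nat_lit 78) (nat_lit 380) (nat_lit 0) (XT.lf (nat_lit 0) (nat_lit 4768206244) (nat_lit 456) (nat_lit 8792149935) (nat_lit 76) (nat_lit 23666605808) (nat_lit 80) (nat_lit 5) (nat_lit 86) (nat_lit 5) (nat_lit 81) (nat_lit 5) (nat_lit 350) (nat_lit 313) (nat_lit 117)) (XT.nd (nat_lit 78) (nat_lit 0) (nat_lit 0) (XT.lf (nat_lit 0) (nat_lit 6357672142) (nat_lit 380) (nat_lit 2101060340) (nat_lit 456) (nat_lit 29497133803) (nat_lit 75) (nat_lit 5) (nat_lit 80) (nat_lit 5) (nat_lit 81) (nat_lit 5) (nat_lit 351) (nat_lit 313) (nat_lit 116)) (XT.lf (nat_lit 0) (nat_lit 12440672460) (nat_lit 456) (nat_lit 16658527605) (nat_lit 76) (nat_lit 9602022252) (nat_lit 75) (nat_lit 5) (nat_lit 81) (nat_lit 5) (nat_lit 76) (nat_lit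 5) (nat_lit 352) (nat_lit 313) (nat_lit 115)))) (XT.nd (nat_lit 78) (nat_lit 380) (nat_lit 0) (XT.lf (nat_lit 0) (nat_lit 16560711792) (nat_lit 456) (nat_lit 1294028979) (nat_lit 76) (nat_lit 21613644407) (nat_lit 75) (nat_lit 5) (nat_lit 81) (nat_lit 5) (nat_lit 76) (nat_lit 5) (nat_lit 353) (nat_lit 313) (nat_lit 114)) (XT.nd (nat_lit 78) (nat_lit 0) (nat_lit 0) (XT.lf (nat_lit 0) (nat_lit 14818077770) (nat_lit 380) (nat_lit 6126616494) (nat_lit 456) (nat_lit 19309663628) (nat_lit 70) (nat_lit 5) (nat_lit 75) (nat_lit 5) (nat_lit 76) (nat_lit 5) (nat_lit 354) (nat_lit 313) (nat_lit 113)) (XT.lf (nat_lit 0) (nat_lit 25528555238) (nat_lit 456) (nat_lit 9683320040) (nat_lit 76) (nat_lit 5849988813) (nat_lit 70) (nat_lit 5) (nat_lit 76) (nat_lit 5) (nat_lit 71) (nat_lit 5) (nat_lit 355) (nat_lit 313) (nat_lit 112)))))) (XT.nd (nat_lit 390) (nat_lit 608) (nat_lit 0) (XT.nd (nat_lit 156) (nat_lit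 380) (nat_lit 0) (XT.nd (nat_lit 78) (nat_lit 0) (nat_lit 0) (XT.lf (nat_lit 0) (nat_lit 6608070234) (nat_lit 304) (nat_lit 23764037562) (nat_lit 380) (nat_lit 11517827332) (nat_lit 66) (nat_lit 5) (nat_lit 70) (nat_lit 5) (nat_lit 71) (nat_lit 5) (nat_lit 356) (nat_lit 313) (nat_lit 111)) (XT.lf (nat_lit 0) (nat_lit 23584278475) (nat_lit 304) (nat_lit 11872501479) (nat_lit 380) (nat_lit 7283198734) (nat_lit 66) (nat_lit 5) (nat_lit 70) (nat_lit 5) (nat_lit 71) (nat_lit 5) (nat_lit 357) (nat_lit 313) (nat_lit 110))) (XT.nd (nat_lit 78) (nat_lit 380) (nat_lit 0) (XT.lf (nat_lit 0) (nat_lit 40695688127) (nat_lit 380) (nat_lit 2551772364) (nat_lit 76) (nat_lit 368016832) (nat_lit 66) (nat_lit 5) (nat_lit 71) (nat_lit 5) (nat_lit 67) (nat_lit 5) (nat_lit 358) (nat_lit 313) (nat_lit 109)) (XT.nd (nat_lit 78) (nat_lit 0) (nat_lit 0) (XT.lf (nat_lit 0) (nat_lit 1803503080) (nat_lit 380) (nat_lit 29809634541)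 (nat_lit 76) (nat_lit 12895862462) (nat_lit 61) (nat_lit 5) (nat_lit 66) (nat_lit 5) (nat_lit 62) (nat_lit 5) (nat_lit 359) (nat_lit 313) (nat_lit 108)) (XT.lf (nat_lit 0) (nat_lit 6633981240) (nat_lit 380) (nat_lit 12939730513) (nat_lit 76) (nat_lit 25854028599) (nat_lit 61) (nat_lit 5) (nat_lit 66) (nat_lit 5) (nat_lit 62) (nat_lit 5) (nat_lit 360) (nat_lit 313) (nat_lit 107))))) (XT.nd (nat_lit 234) (nat_lit 304) (nat_lit 0) (XT.nd (nat_lit 78) (nat_lit 0) (nat_lit 0) (XT.lf (nat_lit 0) (nat_lit 4522226720) (nat_lit 304) (nat_lit 7128820307) (nat_lit 380) (nat_lit 34721749727) (nat_lit 57) (nat_lit 5) (nat_lit 61) (nat_lit 5) (nat_lit 62) (nat_lit 5) (nat_lit 361) (nat_lit 313) (nat_lit 106)) (XT.nd (nat_lit 78) (nat_lit 0) (nat_lit 0) (XT.lf (nat_lit 0) (nat_lit 17003503211) (nat_lit 380) (nat_lit 24627292903) (nat_lit 76) (nat_lit 5709866389) (nat_lit 57) (nat_lit 5) (nat_lit 62) (nat_lit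 5) (nat_lit 58) (nat_lit 5) (nat_lit 362) (nat_lit 313) (nat_lit 105)) (XT.lf (nat_lit 0) (nat_lit 22585395679) (nat_lit 380) (nat_lit 6960150907) (nat_lit 76) (nat_lit 18789955647) (nat_lit 57) (nat_lit 5) (nat_lit 62) (nat_lit 5) (nat_lit 58) (nat_lit 5) (nat_lit 363) (nat_lit 313) (nat_lit 104)))) (XT.nd (nat_lit 78) (nat_lit 0) (nat_lit 0) (XT.lf (nat_lit 0) (nat_lit 11458414784) (nat_lit 304) (nat_lit 16984805740) (nat_lit 380) (nat_lit 20913716140) (nat_lit 53) (nat_lit 5) (nat_lit 57) (nat_lit 5) (nat_lit 58) (nat_lit 5) (nat_lit 364) (nat_lit 313) (nat_lit 103)) (XT.nd (nat_lit 78) (nat_lit 0) (nat_lit 0) (XT.lf (nat_lit 0) (nat_lit 30570049638) (nat_lit 304) (nat_lit 3975372495) (nat_lit 380) (nat_lit 15861536399) (nat_lit 53) (nat_lit 5) (nat_lit 57) (nat_lit 5) (nat_lit 58) (nat_lit 5) (nat_lit 365) (nat_lit 313) (nat_lit 102)) (XT.lf (nat_lit 0) (nat_lit 40919683434) (nat_lit 380)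 (nat_lit 1326187631) (nat_lit 76) (nat_lit 9239943739) (nat_lit 53) (nat_lit 5) (nat_lit 58) (nat_lit 5) (nat_lit 54) (nat_lit 5) (nat_lit 366) (nat_lit 313) (nat_lit 101))))))) (XT.nd (nat_lit 36894) (nat_lit 0) (nat_lit 6916) (XT.nd (nat_lit 468) (nat_lit 228) (nat_lit 0) (XT.nd (nat_lit 156) (nat_lit 304) (nat_lit 0) (XT.nd (nat_lit 78) (nat_lit 76) (nat_lit 0) (XT.lf (nat_lit 0) (nat_lit 18050643206) (nat_lit 228) (nat_lit 29645850975) (nat_lit 304) (nat_lit 4894206391) (nat_lit 50) (nat_lit 5) (nat_lit 53) (nat_lit 5) (nat_lit 54) (nat_lit 5) (nat_lit 367) (nat_lit 313) (nat_lit 100)) (XT.lf (nat_lit 0) (nat_lit 941358962) (nat_lit 304) (nat_lit 15703709377) (nat_lit 76) (nat_lit 37083035110) (nat_lit 49) (nat_lit 5) (nat_lit 53) (nat_lit 5) (nat_lit 50) (nat_lit 5) (nat_lit 368) (nat_lit 313) (nat_lit 99))) (XT.nd (nat_lit 78) (nat_lit 0) (nat_lit 0) (XT.lf (nat_lit 0) (nat_lit 3719821219)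 (nat_lit 304) (nat_lit 3168058181) (nat_lit 380) (nat_lit 48009270745) (nat_lit 45) (nat_lit 5) (nat_lit 49) (nat_lit 5) (nat_lit 50) (nat_lit 5) (nat_lit 369) (nat_lit 313) (nat_lit 98)) (XT.nd (nat_lit 78) (nat_lit 0) (nat_lit 0) (XT.lf (nat_lit 0) (nat_lit 13274443356) (nat_lit 380) (nat_lit 32155154682) (nat_lit 76) (nat_lit 10663823837) (nat_lit 45) (nat_lit 5) (nat_lit 50) (nat_lit 5) (nat_lit 46) (nat_lit 5) (nat_lit 370) (nat_lit 313) (nat_lit 97)) (XT.lf (nat_lit 0) (nat_lit 19882533018) (nat_lit 380) (nat_lit 12595681758) (nat_lit 76) (nat_lit 24846472097) (nat_lit 45) (nat_lit 5) (nat_lit 50) (nat_lit 5) (nat_lit 46) (nat_lit 5) (nat_lit 371) (nat_lit 313) (nat_lit 96))))) (XT.nd (nat_lit 36192) (nat_lit 0) (nat_lit 6840) (XT.nd (nat_lit 36036) (nat_lit 0) (nat_lit 6764) (XT.lf (nat_lit 0) (nat_lit 28858528129) (nat_lit 228) (nat_lit 5114075459) (nat_lit 304) (nat_lit 25918347475)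 (nat_lit 42) (nat_lit 5) (nat_lit 45) (nat_lit 5) (nat_lit 46) (nat_lit 5) (nat_lit 373) (nat_lit 313) (nat_lit 94)) (XT.nd (nat_lit 78) (nat_lit 0) (nat_lit 0) (XT.lf (nat_lit 0) (nat_lit 710099372) (nat_lit 1140) (nat_lit 4759584327) (nat_lit 1140) (nat_lit 4759584327) (nat_lit 131) (nat_lit 3) (nat_lit 146) (nat_lit 3) (nat_lit 146) (nat_lit 5) (nat_lit 314) (nat_lit 314) (nat_lit 152)) (XT.lf (nat_lit 0) (nat_lit 1581593200) (nat_lit 1140) (nat_lit 1379635510) (nat_lit 1140) (nat_lit 17799558567) (nat_lit 131) (nat_lit 3) (nat_lit 146) (nat_lit 3) (nat_lit 146) (nat_lit 5) (nat_lit 315) (nat_lit 314) (nat_lit 151)))) (XT.nd (nat_lit 78) (nat_lit 0) (nat_lit 0) (XT.lf (nat_lit 0) (nat_lit 1862233253) (nat_lit 1064) (nat_lit 13980860306) (nat_lit 1140) (nat_lit 5225596913) (nat_lit 132) (nat_lit 5) (nat_lit 146) (nat_lit 5) (nat_lit 147) (nat_lit 5) (nat_lit 316) (nat_lit 314) (nat_lit 150))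 (XT.nd (nat_lit 78) (nat_lit 0) (nat_lit 76) (XT.lf (nat_lit 0) (nat_lit 2189370545) (nat_lit 1064) (nat_lit 5580265672) (nat_lit 1140) (nat_lit 13615068275) (nat_lit 132) (nat_lit 5) (nat_lit 146) (nat_lit 5) (nat_lit 147) (nat_lit 5) (nat_lit 317) (nat_lit 314) (nat_lit 149)) (XT.lf (nat_lit 0) (nat_lit 2556826810) (nat_lit 1064) (nat_lit 18584509604) (nat_lit 1140) (nat_lit 567962973) (nat_lit 133) (nat_lit 5) (nat_lit 147) (nat_lit 5) (nat_lit 148) (nat_lit 5) (nat_lit 318) (nat_lit 314) (nat_lit 148)))))) (XT.nd (nat_lit 390) (nat_lit 0) (nat_lit 152) (XT.nd (nat_lit 156) (nat_lit 0) (nat_lit 76) (XT.nd (nat_lit 78) (nat_lit 0) (nat_lit 0) (XT.lf (nat_lit 0) (nat_lit 3064128750) (nat_lit 1064) (nat_lit 9917107609) (nat_lit 1140) (nat_lit 9058546255) (nat_lit 133) (nat_lit 5) (nat_lit 147) (nat_lit 5) (nat_lit 148) (nat_lit 5) (nat_lit 319) (nat_lit 314) (nat_lit 147)) (XT.lf (nat_lit 0)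 (nat_lit 3581782990) (nat_lit 1064) (nat_lit 992662041) (nat_lit 1140) (nat_lit 17805896016) (nat_lit 133) (nat_lit 5) (nat_lit 147) (nat_lit 5) (nat_lit 148) (nat_lit 5) (nat_lit 320) (nat_lit 314) (nat_lit 146))) (XT.nd (nat_lit 78) (nat_lit 0) (nat_lit 0) (XT.lf (nat_lit 0) (nat_lit 4230677367) (nat_lit 1064) (nat_lit 14409183868) (nat_lit 1140) (nat_lit 4087797959) (nat_lit 134) (nat_lit 5) (nat_lit 148) (nat_lit 5) (nat_lit 149) (nat_lit 5) (nat_lit 321) (nat_lit 314) (nat_lit 145)) (XT.nd (nat_lit 78) (nat_lit 0) (nat_lit 0) (XT.lf (nat_lit 0) (nat_lit 4949855221) (nat_lit 1064) (nat_lit 5204224064) (nat_lit 1140) (nat_lit 12929806960) (nat_lit 134) (nat_lit 5) (nat_lit 148) (nat_lit 5) (nat_lit 149) (nat_lit 5) (nat_lit 322) (nat_lit 314) (nat_lit 144)) (XT.lf (nat_lit 76) (nat_lit 4359000123) (nat_lit 0) (nat_lit 1369045513) (nat_lit 1140) (nat_lit 17721644814) (nat_lit 135) (nat_lit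 5) (nat_lit 134) (nat_lit 5) (nat_lit 149) (nat_lit 5) (nat_lit 323) (nat_lit 314) (nat_lit 143))))) (XT.nd (nat_lit 234) (nat_lit 0) (nat_lit 76) (XT.nd (nat_lit 78) (nat_lit 0) (nat_lit 0) (XT.lf (nat_lit 0) (nat_lit 6652126729) (nat_lit 1064) (nat_lit 9586503606) (nat_lit 1140) (nat_lit 7584175161) (nat_lit 135) (nat_lit 5) (nat_lit 149) (nat_lit 5) (nat_lit 150) (nat_lit 5) (nat_lit 324) (nat_lit 314) (nat_lit 142)) (XT.nd (nat_lit 78) (nat_lit 0) (nat_lit 76) (XT.lf (nat_lit 76) (nat_lit 189977285) (nat_lit 0) (nat_lit 7425112457) (nat_lit 1140) (nat_lit 16591702152) (nat_lit 136) (nat_lit 5) (nat_lit 135) (nat_lit 5) (nat_lit 150) (nat_lit 5) (nat_lit 325) (nat_lit 314) (nat_lit 141)) (XT.lf (nat_lit 0) (nat_lit 8716477065) (nat_lit 1064) (nat_lit 14163075315) (nat_lit 1140) (nat_lit 1719471756) (nat_lit 136) (nat_lit 5) (nat_lit 150) (nat_lit 5) (nat_lit 151) (nat_lit 5) (nat_lit 326)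 (nat_lit 314) (nat_lit 140)))) (XT.nd (nat_lit 78) (nat_lit 0) (nat_lit 0) (XT.lf (nat_lit 0) (nat_lit 9920426084) (nat_lit 1064) (nat_lit 4090251274) (nat_lit 1140) (nat_lit 10990272341) (nat_lit 136) (nat_lit 5) (nat_lit 150) (nat_lit 5) (nat_lit 151) (nat_lit 5) (nat_lit 327) (nat_lit 314) (nat_lit 139)) (XT.nd (nat_lit 78) (nat_lit 0) (nat_lit 76) (XT.lf (nat_lit 76) (nat_lit 6406854539) (nat_lit 0) (nat_lit 4811346137) (nat_lit 1140) (nat_lit 14195012749) (nat_lit 137) (nat_lit 5) (nat_lit 136) (nat_lit 5) (nat_lit 151) (nat_lit 5) (nat_lit 328) (nat_lit 314) (nat_lit 138)) (XT.lf (nat_lit 0) (nat_lit 12637668162) (nat_lit 1064) (nat_lit 8582156954) (nat_lit 1140) (nat_lit 4615548426) (nat_lit 137) (nat_lit 5) (nat_lit 151) (nat_lit 5) (nat_lit 152) (nat_lit 5) (nat_lit 329) (nat_lit 314) (nat_lit 137))))))))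
noncomputable def xc234 : XT := (XT.nd (nat_lit 1716) (nat_lit 2660) (nat_lit 0) (XT.nd (nat_lit 858) (nat_lit 1748) (nat_lit 0) (XT.nd (nat_lit 390) (nat_lit 1596) (nat_lit 0) (XT.nd (nat_lit 156) (nat_lit 988) (nat_lit 0) (XT.nd (nat_lit 78) (nat_lit 0) (nat_lit 0) (XT.lf (nat_lit 76) (nat_lit 2146070900) (nat_lit 0) (nat_lit 12018239778) (nat_lit 1140) (nat_lit 12103960997) (nat_lit 138) (nat_lit 5) (nat_lit 137) (nat_lit 5) (nat_lit 152) (nat_lit 5) (nat_lit 330) (nat_lit 314) (nat_lit 136)) (XT.lf (nat_lit 76) (nat_lit 13369159607) (nat_lit 0) (nat_lit 2450659452) (nat_lit 1140) (nat_lit 10891856318) (nat_lit 138) (nat_lit 5) (nat_lit 137) (nat_lit 5) (nat_lit 152) (nat_lit 5) (nat_lit 331) (nat_lit 314) (nat_lit 135))) (XT.nd (nat_lit 78) (nat_lit 1064) (nat_lit 0) (XT.lf (nat_lit 0) (nat_lit 17592678742) (nat_lit 1064) (nat_lit 2313559925) (nat_lit 76) (nat_lit 7260122256) (nat_lit 138)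 (nat_lit 5) (nat_lit 152) (nat_lit 5) (nat_lit 139) (nat_lit 5) (nat_lit 332) (nat_lit 314) (nat_lit 134)) (XT.nd (nat_lit 78) (nat_lit 0) (nat_lit 0) (XT.lf (nat_lit 0) (nat_lit 9198636620) (nat_lit 1064) (nat_lit 10329390752) (nat_lit 1140) (nat_lit 8103390581) (nat_lit 124) (nat_lit 5) (nat_lit 138) (nat_lit 5) (nat_lit 139) (nat_lit 5) (nat_lit 333) (nat_lit 314) (nat_lit 133)) (XT.lf (nat_lit 0) (nat_lit 21100790283) (nat_lit 1064) (nat_lit 440696185) (nat_lit 1140) (nat_lit 6568348447) (nat_lit 124) (nat_lit 5) (nat_lit 138) (nat_lit 5) (nat_lit 139) (nat_lit 5) (nat_lit 334) (nat_lit 314) (nat_lit 132))))) (XT.nd (nat_lit 234) (nat_lit 1064) (nat_lit 0) (XT.nd (nat_lit 78) (nat_lit 0) (nat_lit 0) (XT.lf (nat_lit 0) (nat_lit 4753630691) (nat_lit 532) (nat_lit 18997873606) (nat_lit 608) (nat_lit 4847024880) (nat_lit 117) (nat_lit 5) (nat_lit 124) (nat_lit 5) (nat_lit 125) (nat_lit 5) (nat_lit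 335) (nat_lit 314) (nat_lit 131)) (XT.nd (nat_lit 78) (nat_lit 0) (nat_lit 0) (XT.lf (nat_lit 0) (nat_lit 17005580407) (nat_lit 532) (nat_lit 9094195232) (nat_lit 608) (nat_lit 2999959201) (nat_lit 117) (nat_lit 5) (nat_lit 124) (nat_lit 5) (nat_lit 125) (nat_lit 5) (nat_lit 336) (nat_lit 314) (nat_lit 130)) (XT.lf (nat_lit 0) (nat_lit 28526081705) (nat_lit 608) (nat_lit 4380414) (nat_lit 76) (nat_lit 1085295854) (nat_lit 117) (nat_lit 5) (nat_lit 125) (nat_lit 5) (nat_lit 118) (nat_lit 5) (nat_lit 337) (nat_lit 314) (nat_lit 129)))) (XT.nd (nat_lit 78) (nat_lit 532) (nat_lit 0) (XT.lf (nat_lit 0) (nat_lit 1071046731) (nat_lit 532) (nat_lit 17550357088) (nat_lit 76) (nat_lit 11519305308) (nat_lit 110) (nat_lit 5) (nat_lit 117) (nat_lit 5) (nat_lit 111) (nat_lit 5) (nat_lit 338) (nat_lit 314) (nat_lit 128)) (XT.nd (nat_lit 78) (nat_lit 532) (nat_lit 0) (XT.lf (nat_lit 0) (nat_lit 3271795791)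 (nat_lit 532) (nat_lit 5131991937) (nat_lit 76) (nat_lit 22277392390) (nat_lit 110) (nat_lit 5) (nat_lit 117) (nat_lit 5) (nat_lit 111) (nat_lit 5) (nat_lit 339) (nat_lit 314) (nat_lit 127)) (XT.lf (nat_lit 0) (nat_lit 5631901298) (nat_lit 608) (nat_lit 23448265514) (nat_lit 76) (nat_lit 2154906314) (nat_lit 103) (nat_lit 5) (nat_lit 111) (nat_lit 5) (nat_lit 104) (nat_lit 5) (nat_lit 340) (nat_lit 314) (nat_lit 126)))))) (XT.nd (nat_lit 390) (nat_lit 836) (nat_lit 0) (XT.nd (nat_lit 156) (nat_lit 456) (nat_lit 0) (XT.nd (nat_lit 78) (nat_lit 456) (nat_lit 0) (XT.lf (nat_lit 0) (nat_lit 8195556677) (nat_lit 608) (nat_lit 10692170406) (nat_lit 76) (nat_lit 12913881111) (nat_lit 103) (nat_lit 5) (nat_lit 111) (nat_lit 5) (nat_lit 104) (nat_lit 5) (nat_lit 341) (nat_lit 314) (nat_lit 125)) (XT.lf (nat_lit 0) (nat_lit 2492532035) (nat_lit 456) (nat_lit 8364835574) (nat_lit 532) (nat_lit 21527141781)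 (nat_lit 97) (nat_lit 5) (nat_lit 103) (nat_lit 5) (nat_lit 104) (nat_lit 5) (nat_lit 342) (nat_lit 314) (nat_lit 124))) (XT.nd (nat_lit 78) (nat_lit 456) (nat_lit 0) (XT.lf (nat_lit 0) (nat_lit 13729190071) (nat_lit 532) (nat_lit 16717326088) (nat_lit 76) (nat_lit 2534483982) (nat_lit 97) (nat_lit 5) (nat_lit 104) (nat_lit 5) (nat_lit 98) (nat_lit 5) (nat_lit 343) (nat_lit 314) (nat_lit 123)) (XT.nd (nat_lit 78) (nat_lit 456) (nat_lit 0) (XT.lf (nat_lit 0) (nat_lit 16767403969) (nat_lit 532) (nat_lit 3232948627) (nat_lit 76) (nat_lit 13592632937) (nat_lit 97) (nat_lit 5) (nat_lit 104) (nat_lit 5) (nat_lit 98) (nat_lit 5) (nat_lit 344) (nat_lit 314) (nat_lit 122)) (XT.lf (nat_lit 0) (nat_lit 10865367869) (nat_lit 456) (nat_lit 9133332829) (nat_lit 532) (nat_lit 14221578514) (nat_lit 91) (nat_lit 5) (nat_lit 97) (nat_lit 5) (nat_lit 98) (nat_lit 5) (nat_lit 345) (nat_lit 314) (nat_lit 121)))))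 (XT.nd (nat_lit 234) (nat_lit 456) (nat_lit 0) (XT.nd (nat_lit 78) (nat_lit 380) (nat_lit 0) (XT.lf (nat_lit 0) (nat_lit 23377243855) (nat_lit 532) (nat_lit 9435296769) (nat_lit 76) (nat_lit 2052348474) (nat_lit 91) (nat_lit 5) (nat_lit 98) (nat_lit 5) (nat_lit 92) (nat_lit 5) (nat_lit 346) (nat_lit 314) (nat_lit 120)) (XT.nd (nat_lit 78) (nat_lit 0) (nat_lit 0) (XT.lf (nat_lit 0) (nat_lit 4904592902) (nat_lit 380) (nat_lit 22087735851) (nat_lit 456) (nat_lit 8532459390) (nat_lit 86) (nat_lit 5) (nat_lit 91) (nat_lit 5) (nat_lit 92) (nat_lit 5) (nat_lit 347) (nat_lit 314) (nat_lit 119)) (XT.lf (nat_lit 0) (nat_lit 19865528420) (nat_lit 380) (nat_lit 10943271177) (nat_lit 456) (nat_lit 5392902800) (nat_lit 86) (nat_lit 5) (nat_lit 91) (nat_lit 5) (nat_lit 92) (nat_lit 5) (nat_lit 348) (nat_lit 314) (nat_lit 118)))) (XT.nd (nat_lit 78) (nat_lit 456) (nat_lit 0) (XT.lf (nat_lit 0) (nat_lit 34742634018)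 (nat_lit 456) (nat_lit 1631342646) (nat_lit 76) (nat_lit 524867390) (nat_lit 86) (nat_lit 5) (nat_lit 92) (nat_lit 5) (nat_lit 87) (nat_lit 5) (nat_lit 349) (nat_lit 314) (nat_lit 117)) (XT.nd (nat_lit 78) (nat_lit 0) (nat_lit 0) (XT.lf (nat_lit 0) (nat_lit 1394497778) (nat_lit 456) (nat_lit 23952892856) (nat_lit 76) (nat_lit 12261978652) (nat_lit 80) (nat_lit 5) (nat_lit 86) (nat_lit 5) (nat_lit 81) (nat_lit 5) (nat_lit 350) (nat_lit 314) (nat_lit 116)) (XT.lf (nat_lit 0) (nat_lit 5022827247) (nat_lit 456) (nat_lit 8928369798) (nat_lit 76) (nat_lit 24388945173) (nat_lit 80) (nat_lit 5) (nat_lit 86) (nat_lit 5) (nat_lit 81) (nat_lit 5) (nat_lit 351) (nat_lit 314) (nat_lit 115))))))) (XT.nd (nat_lit 858) (nat_lit 912) (nat_lit 0) (XT.nd (nat_lit 390) (nat_lit 988) (nat_lit 0) (XT.nd (nat_lit 156) (nat_lit 380) (nat_lit 0) (XT.nd (nat_lit 78) (nat_lit 0) (nat_lit 0) (XT.lf (nat_lit 0) (nat_lit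 6674696503) (nat_lit 380) (nat_lit 2147337034) (nat_lit 456) (nat_lit 30268949376) (nat_lit 75) (nat_lit 5) (nat_lit 80) (nat_lit 5) (nat_lit 81) (nat_lit 5) (nat_lit 352) (nat_lit 314) (nat_lit 114)) (XT.lf (nat_lit 0) (nat_lit 12920397624) (nat_lit 456) (nat_lit 17032368387) (nat_lit 76) (nat_lit 9906032594) (nat_lit 75) (nat_lit 5) (nat_lit 81) (nat_lit 5) (nat_lit 76) (nat_lit 5) (nat_lit 353) (nat_lit 314) (nat_lit 113))) (XT.nd (nat_lit 78) (nat_lit 380) (nat_lit 0) (XT.lf (nat_lit 0) (nat_lit 17160936050) (nat_lit 456) (nat_lit 1210602231) (nat_lit 76) (nat_lit 22277538860) (nat_lit 75) (nat_lit 5) (nat_lit 81) (nat_lit 5) (nat_lit 76) (nat_lit 5) (nat_lit 354) (nat_lit 314) (nat_lit 112)) (XT.nd (nat_lit 78) (nat_lit 0) (nat_lit 0) (XT.lf (nat_lit 0) (nat_lit 15383669215) (nat_lit 380) (nat_lit 6290920644) (nat_lit 456) (nat_lit 19784102120) (nat_lit 70) (nat_lit 5) (nat_lit 75) (nat_lit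 5) (nat_lit 76) (nat_lit 5) (nat_lit 355) (nat_lit 314) (nat_lit 111)) (XT.lf (nat_lit 0) (nat_lit 26393190689) (nat_lit 456) (nat_lit 9853277535) (nat_lit 76) (nat_lit 6044045701) (nat_lit 70) (nat_lit 5) (nat_lit 76) (nat_lit 5) (nat_lit 71) (nat_lit 5) (nat_lit 356) (nat_lit 314) (nat_lit 110))))) (XT.nd (nat_lit 234) (nat_lit 684) (nat_lit 0) (XT.nd (nat_lit 78) (nat_lit 0) (nat_lit 0) (XT.lf (nat_lit 0) (nat_lit 6925672662) (nat_lit 304) (nat_lit 24454647475) (nat_lit 380) (nat_lit 11763165917) (nat_lit 66) (nat_lit 5) (nat_lit 70) (nat_lit 5) (nat_lit 71) (nat_lit 5) (nat_lit 357) (nat_lit 314) (nat_lit 109)) (XT.nd (nat_lit 78) (nat_lit 0) (nat_lit 0) (XT.lf (nat_lit 0) (nat_lit 24407690636) (nat_lit 304) (nat_lit 12207015150) (nat_lit 380) (nat_lit 7404416798) (nat_lit 66) (nat_lit 5) (nat_lit 70) (nat_lit 5) (nat_lit 71) (nat_lit 5) (nat_lit 358) (nat_lit 314) (nat_lit 108)) (XT.lf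 (nat_lit 0) (nat_lit 42008239019) (nat_lit 380) (nat_lit 2513052672) (nat_lit 76) (nat_lit 399677416) (nat_lit 66) (nat_lit 5) (nat_lit 71) (nat_lit 5) (nat_lit 67) (nat_lit 5) (nat_lit 359) (nat_lit 314) (nat_lit 107)))) (XT.nd (nat_lit 78) (nat_lit 304) (nat_lit 0) (XT.lf (nat_lit 0) (nat_lit 1948818932) (nat_lit 380) (nat_lit 30587756191) (nat_lit 76) (nat_lit 13304749263) (nat_lit 61) (nat_lit 5) (nat_lit 66) (nat_lit 5) (nat_lit 62) (nat_lit 5) (nat_lit 360) (nat_lit 314) (nat_lit 106)) (XT.nd (nat_lit 78) (nat_lit 304) (nat_lit 0) (XT.lf (nat_lit 0) (nat_lit 6921554812) (nat_lit 380) (nat_lit 13215138558) (nat_lit 76) (nat_lit 26651019289) (nat_lit 61) (nat_lit 5) (nat_lit 66) (nat_lit 5) (nat_lit 62) (nat_lit 5) (nat_lit 361) (nat_lit 314) (nat_lit 105)) (XT.lf (nat_lit 0) (nat_lit 4769571668) (nat_lit 304) (nat_lit 7318055178) (nat_lit 380) (nat_lit 35673545002) (nat_lit 57) (nat_lit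 5) (nat_lit 61) (nat_lit 5) (nat_lit 62) (nat_lit 5) (nat_lit 362) (nat_lit 314) (nat_lit 104)))))) (XT.nd (nat_lit 390) (nat_lit 608) (nat_lit 0) (XT.nd (nat_lit 156) (nat_lit 304) (nat_lit 0) (XT.nd (nat_lit 78) (nat_lit 0) (nat_lit 0) (XT.lf (nat_lit 0) (nat_lit 17598351185) (nat_lit 380) (nat_lit 25255189166) (nat_lit 76) (nat_lit 5904608132) (nat_lit 57) (nat_lit 5) (nat_lit 62) (nat_lit 5) (nat_lit 58) (nat_lit 5) (nat_lit 363) (nat_lit 314) (nat_lit 103)) (XT.lf (nat_lit 0) (nat_lit 23345232187) (nat_lit 380) (nat_lit 7061263664) (nat_lit 76) (nat_lit 19376417182) (nat_lit 57) (nat_lit 5) (nat_lit 62) (nat_lit 5) (nat_lit 58) (nat_lit 5) (nat_lit 364) (nat_lit 314) (nat_lit 102))) (XT.nd (nat_lit 78) (nat_lit 0) (nat_lit 0) (XT.lf (nat_lit 0) (nat_lit 11908803197) (nat_lit 304) (nat_lit 17468617283) (nat_lit 380) (nat_lit 21457616574) (nat_lit 53) (nat_lit 5) (nat_lit 57) (nat_lit 5)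 (nat_lit 58) (nat_lit 5) (nat_lit 365) (nat_lit 314) (nat_lit 101)) (XT.nd (nat_lit 78) (nat_lit 0) (nat_lit 0) (XT.lf (nat_lit 0) (nat_lit 31590681194) (nat_lit 304) (nat_lit 4069650534) (nat_lit 380) (nat_lit 16256303802) (nat_lit 53) (nat_lit 5) (nat_lit 57) (nat_lit 5) (nat_lit 58) (nat_lit 5) (nat_lit 366) (nat_lit 314) (nat_lit 100)) (XT.lf (nat_lit 0) (nat_lit 42223766253) (nat_lit 380) (nat_lit 1263233773) (nat_lit 76) (nat_lit 9540924211) (nat_lit 53) (nat_lit 5) (nat_lit 58) (nat_lit 5) (nat_lit 54) (nat_lit 5) (nat_lit 367) (nat_lit 314) (nat_lit 99))))) (XT.nd (nat_lit 234) (nat_lit 0) (nat_lit 0) (XT.nd (nat_lit 78) (nat_lit 380) (nat_lit 0) (XT.lf (nat_lit 0) (nat_lit 18693894739) (nat_lit 228) (nat_lit 30508736564) (nat_lit 304) (nat_lit 4963367734) (nat_lit 50) (nat_lit 5) (nat_lit 53) (nat_lit 5) (nat_lit 54) (nat_lit 5) (nat_lit 368) (nat_lit 314) (nat_lit 98)) (XT.nd (nat_lit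 78) (nat_lit 304) (nat_lit 0) (XT.lf (nat_lit 0) (nat_lit 1043531118) (nat_lit 304) (nat_lit 16074424322) (nat_lit 76) (nat_lit 38219617376) (nat_lit 49) (nat_lit 5) (nat_lit 53) (nat_lit 5) (nat_lit 50) (nat_lit 5) (nat_lit 369) (nat_lit 314) (nat_lit 97)) (XT.lf (nat_lit 0) (nat_lit 3930827915) (nat_lit 304) (nat_lit 3236421522) (nat_lit 380) (nat_lit 49374481945) (nat_lit 45) (nat_lit 5) (nat_lit 49) (nat_lit 5) (nat_lit 50) (nat_lit 5) (nat_lit 370) (nat_lit 314) (nat_lit 96)))) (XT.nd (nat_lit 36270) (nat_lit 0) (nat_lit 6536) (XT.lf (nat_lit 0) (nat_lit 13743540835) (nat_lit 380) (nat_lit 33021276431) (nat_lit 76) (nat_lit 11009134487) (nat_lit 45) (nat_lit 5) (nat_lit 50) (nat_lit 5) (nat_lit 46) (nat_lit 5) (nat_lit 371) (nat_lit 314) (nat_lit 95)) (XT.nd (nat_lit 78) (nat_lit 0) (nat_lit 0) (XT.lf (nat_lit 0) (nat_lit 870147182) (nat_lit 1140) (nat_lit 4830708271) (nat_lit 1140) (nat_lit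 4830708271) (nat_lit 131) (nat_lit 3) (nat_lit 146) (nat_lit 3) (nat_lit 146) (nat_lit 5) (nat_lit 315) (nat_lit 315) (nat_lit 150)) (XT.lf (nat_lit 0) (nat_lit 1898448432) (nat_lit 1140) (nat_lit 1281871980) (nat_lit 1140) (nat_lit 18194392729) (nat_lit 131) (nat_lit 3) (nat_lit 146) (nat_lit 3) (nat_lit 146) (nat_lit 5) (nat_lit 316) (nat_lit 315) (nat_lit 149))))))))
noncomputable def xc235 : XT := (XT.nd (nat_lit 1716) (nat_lit 3800) (nat_lit 0) (XT.nd (nat_lit 858) (nat_lit 1596) (nat_lit 0) (XT.nd (nat_lit 390) (nat_lit 0) (nat_lit 152) (XT.nd (nat_lit 156) (nat_lit 0) (nat_lit 76) (XT.nd (nat_lit 78) (nat_lit 0) (nat_lit 0) (XT.lf (nat_lit 0) (nat_lit 2179782868) (nat_lit 1064) (nat_lit 14252616924) (nat_lit 1140) (nat_lit 5259709139) (nat_lit 132) (nat_lit 5) (nat_lit 146) (nat_lit 5) (nat_lit 147) (nat_lit 5) (nat_lit 317) (nat_lit 315) (nat_lit 148)) (XT.lf (nat_lit 0) (nat_lit 2509112455)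 (nat_lit 1064) (nat_lit 5604305495) (nat_lit 1140) (nat_lit 13904437138) (nat_lit 132) (nat_lit 5) (nat_lit 146) (nat_lit 5) (nat_lit 147) (nat_lit 5) (nat_lit 318) (nat_lit 315) (nat_lit 147))) (XT.nd (nat_lit 78) (nat_lit 0) (nat_lit 0) (XT.lf (nat_lit 0) (nat_lit 2880537667) (nat_lit 1064) (nat_lit 18990875679) (nat_lit 1140) (nat_lit 481008515) (nat_lit 133) (nat_lit 5) (nat_lit 147) (nat_lit 5) (nat_lit 148) (nat_lit 5) (nat_lit 319) (nat_lit 315) (nat_lit 146)) (XT.nd (nat_lit 78) (nat_lit 0) (nat_lit 0) (XT.lf (nat_lit 0) (nat_lit 3395864315) (nat_lit 1064) (nat_lit 10067854611) (nat_lit 1140) (nat_lit 9229338228) (nat_lit 133) (nat_lit 5) (nat_lit 147) (nat_lit 5) (nat_lit 148) (nat_lit 5) (nat_lit 320) (nat_lit 315) (nat_lit 145)) (XT.lf (nat_lit 0) (nat_lit 3922063374) (nat_lit 1064) (nat_lit 879950421) (nat_lit 1140) (nat_lit 18242049193) (nat_lit 133) (nat_lit 5) (nat_lit 147) (nat_lit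 5) (nat_lit 148) (nat_lit 5) (nat_lit 321) (nat_lit 315) (nat_lit 144))))) (XT.nd (nat_lit 234) (nat_lit 0) (nat_lit 76) (XT.nd (nat_lit 78) (nat_lit 0) (nat_lit 0) (XT.lf (nat_lit 0) (nat_lit 4584169865) (nat_lit 1064) (nat_lit 14692030190) (nat_lit 1140) (nat_lit 4125808755) (nat_lit 134) (nat_lit 5) (nat_lit 148) (nat_lit 5) (nat_lit 149) (nat_lit 5) (nat_lit 322) (nat_lit 315) (nat_lit 143)) (XT.nd (nat_lit 78) (nat_lit 0) (nat_lit 0) (XT.lf (nat_lit 0) (nat_lit 5318323866) (nat_lit 1064) (nat_lit 5215273899) (nat_lit 1140) (nat_lit 13235542778) (nat_lit 134) (nat_lit 5) (nat_lit 148) (nat_lit 5) (nat_lit 149) (nat_lit 5) (nat_lit 323) (nat_lit 315) (nat_lit 142)) (XT.lf (nat_lit 76) (nat_lit 4633424691) (nat_lit 0) (nat_lit 1481409216) (nat_lit 1140) (nat_lit 18031255061) (nat_lit 135) (nat_lit 5) (nat_lit 134) (nat_lit 5) (nat_lit 149) (nat_lit 5) (nat_lit 324) (nat_lit 315) (nat_lit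 141)))) (XT.nd (nat_lit 78) (nat_lit 0) (nat_lit 0) (XT.lf (nat_lit 0) (nat_lit 7059711499) (nat_lit 1064) (nat_lit 9727077292) (nat_lit 1140) (nat_lit 7743835204) (nat_lit 135) (nat_lit 5) (nat_lit 149) (nat_lit 5) (nat_lit 150) (nat_lit 5) (nat_lit 325) (nat_lit 315) (nat_lit 140)) (XT.nd (nat_lit 78) (nat_lit 0) (nat_lit 76) (XT.lf (nat_lit 76) (nat_lit 341256639) (nat_lit 0) (nat_lit 7705647304) (nat_lit 1140) (nat_lit 16879384031) (nat_lit 136) (nat_lit 5) (nat_lit 135) (nat_lit 5) (nat_lit 150) (nat_lit 5) (nat_lit 326) (nat_lit 315) (nat_lit 139)) (XT.lf (nat_lit 0) (nat_lit 9174870482) (nat_lit 1064) (nat_lit 14439576173) (nat_lit 1140) (nat_lit 1716052075) (nat_lit 136) (nat_lit 5) (nat_lit 150) (nat_lit 5) (nat_lit 151) (nat_lit 5) (nat_lit 327) (nat_lit 315) (nat_lit 138)))))) (XT.nd (nat_lit 390) (nat_lit 1900) (nat_lit 0) (XT.nd (nat_lit 156) (nat_lit 0) (nat_lit 76) (XT.nd (nat_lit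 78) (nat_lit 0) (nat_lit 0) (XT.lf (nat_lit 0) (nat_lit 10409203047) (nat_lit 1064) (nat_lit 4068889491) (nat_lit 1140) (nat_lit 11266578730) (nat_lit 136) (nat_lit 5) (nat_lit 150) (nat_lit 5) (nat_lit 151) (nat_lit 5) (nat_lit 328) (nat_lit 315) (nat_lit 137)) (XT.lf (nat_lit 76) (nat_lit 6741717052) (nat_lit 0) (nat_lit 4999997241) (nat_lit 1140) (nat_lit 14427731170) (nat_lit 137) (nat_lit 5) (nat_lit 136) (nat_lit 5) (nat_lit 151) (nat_lit 5) (nat_lit 329) (nat_lit 315) (nat_lit 136))) (XT.nd (nat_lit 78) (nat_lit 0) (nat_lit 0) (XT.lf (nat_lit 0) (nat_lit 13197906610) (nat_lit 1064) (nat_lit 8694721485) (nat_lit 1140) (nat_lit 4711834240) (nat_lit 137) (nat_lit 5) (nat_lit 151) (nat_lit 5) (nat_lit 152) (nat_lit 5) (nat_lit 330) (nat_lit 315) (nat_lit 135)) (XT.nd (nat_lit 78) (nat_lit 0) (nat_lit 0) (XT.lf (nat_lit 76) (nat_lit 2353932615) (nat_lit 0) (nat_lit 12412519998) (nat_lit 1140)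 (nat_lit 12284027376) (nat_lit 138) (nat_lit 5) (nat_lit 137) (nat_lit 5) (nat_lit 152) (nat_lit 5) (nat_lit 331) (nat_lit 315) (nat_lit 134)) (XT.lf (nat_lit 76) (nat_lit 13909534966) (nat_lit 0) (nat_lit 2556929747) (nat_lit 1140) (nat_lit 11040891181) (nat_lit 138) (nat_lit 5) (nat_lit 137) (nat_lit 5) (nat_lit 152) (nat_lit 5) (nat_lit 332) (nat_lit 315) (nat_lit 133))))) (XT.nd (nat_lit 234) (nat_lit 988) (nat_lit 0) (XT.nd (nat_lit 78) (nat_lit 1064) (nat_lit 0) (XT.lf (nat_lit 0) (nat_lit 18287193341) (nat_lit 1064) (nat_lit 2241913196) (nat_lit 76) (nat_lit 7446749777) (nat_lit 138) (nat_lit 5) (nat_lit 152) (nat_lit 5) (nat_lit 139) (nat_lit 5) (nat_lit 333) (nat_lit 315) (nat_lit 132)) (XT.nd (nat_lit 78) (nat_lit 0) (nat_lit 0) (XT.lf (nat_lit 0) (nat_lit 9614266368) (nat_lit 1064) (nat_lit 10662822325) (nat_lit 1140) (nat_lit 8177896146) (nat_lit 124) (nat_lit 5) (nat_lit 138) (nat_lit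 5) (nat_lit 139) (nat_lit 5) (nat_lit 334) (nat_lit 315) (nat_lit 131)) (XT.lf (nat_lit 0) (nat_lit 21869416564) (nat_lit 1064) (nat_lit 476781003) (nat_lit 1140) (nat_lit 6601713315) (nat_lit 124) (nat_lit 5) (nat_lit 138) (nat_lit 5) (nat_lit 139) (nat_lit 5) (nat_lit 335) (nat_lit 315) (nat_lit 130)))) (XT.nd (nat_lit 78) (nat_lit 456) (nat_lit 0) (XT.lf (nat_lit 0) (nat_lit 5035898288) (nat_lit 532) (nat_lit 19583131217) (nat_lit 608) (nat_lit 4832354606) (nat_lit 117) (nat_lit 5) (nat_lit 124) (nat_lit 5) (nat_lit 125) (nat_lit 5) (nat_lit 336) (nat_lit 315) (nat_lit 129)) (XT.nd (nat_lit 78) (nat_lit 456) (nat_lit 0) (XT.lf (nat_lit 0) (nat_lit 17651338767) (nat_lit 532) (nat_lit 9381896238) (nat_lit 608) (nat_lit 2934539510) (nat_lit 117) (nat_lit 5) (nat_lit 124) (nat_lit 5) (nat_lit 125) (nat_lit 5) (nat_lit 337) (nat_lit 315) (nat_lit 128)) (XT.lf (nat_lit 0) (nat_lit 134705408) (nat_lit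 456) (nat_lit 29394398383) (nat_lit 532) (nat_lit 970284113) (nat_lit 111) (nat_lit 5) (nat_lit 117) (nat_lit 5) (nat_lit 118) (nat_lit 5) (nat_lit 338) (nat_lit 315) (nat_lit 127))))))) (XT.nd (nat_lit 858) (nat_lit 1900) (nat_lit 0) (XT.nd (nat_lit 390) (nat_lit 836) (nat_lit 0) (XT.nd (nat_lit 156) (nat_lit 988) (nat_lit 0) (XT.nd (nat_lit 78) (nat_lit 0) (nat_lit 0) (XT.lf (nat_lit 0) (nat_lit 1247993122) (nat_lit 532) (nat_lit 17938334968) (nat_lit 76) (nat_lit 11853856674) (nat_lit 110) (nat_lit 5) (nat_lit 117) (nat_lit 5) (nat_lit 111) (nat_lit 5) (nat_lit 339) (nat_lit 315) (nat_lit 126)) (XT.lf (nat_lit 0) (nat_lit 3510546742) (nat_lit 532) (nat_lit 5151453800) (nat_lit 76) (nat_lit 22935007567) (nat_lit 110) (nat_lit 5) (nat_lit 117) (nat_lit 5) (nat_lit 111) (nat_lit 5) (nat_lit 340) (nat_lit 315) (nat_lit 125))) (XT.nd (nat_lit 78) (nat_lit 456) (nat_lit 0) (XT.lf (nat_lit 0) (nat_lit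 5938596308) (nat_lit 608) (nat_lit 24013978320) (nat_lit 76) (nat_lit 2215040395) (nat_lit 103) (nat_lit 5) (nat_lit 111) (nat_lit 5) (nat_lit 104) (nat_lit 5) (nat_lit 341) (nat_lit 315) (nat_lit 124)) (XT.nd (nat_lit 78) (nat_lit 456) (nat_lit 0) (XT.lf (nat_lit 0) (nat_lit 8575149563) (nat_lit 608) (nat_lit 10879212063) (nat_lit 76) (nat_lit 13296915886) (nat_lit 103) (nat_lit 5) (nat_lit 111) (nat_lit 5) (nat_lit 104) (nat_lit 5) (nat_lit 342) (nat_lit 315) (nat_lit 123)) (XT.lf (nat_lit 0) (nat_lit 2699720437) (nat_lit 456) (nat_lit 8614472278) (nat_lit 532) (nat_lit 22037562386) (nat_lit 97) (nat_lit 5) (nat_lit 103) (nat_lit 5) (nat_lit 104) (nat_lit 5) (nat_lit 343) (nat_lit 315) (nat_lit 122))))) (XT.nd (nat_lit 234) (nat_lit 380) (nat_lit 0) (XT.nd (nat_lit 78) (nat_lit 456) (nat_lit 0) (XT.lf (nat_lit 0) (nat_lit 14268363495) (nat_lit 532) (nat_lit 17086137680) (nat_lit 76) (nat_lit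 2611763970) (nat_lit 97) (nat_lit 5) (nat_lit 104) (nat_lit 5) (nat_lit 98) (nat_lit 5) (nat_lit 344) (nat_lit 315) (nat_lit 121)) (XT.nd (nat_lit 78) (nat_lit 456) (nat_lit 0) (XT.lf (nat_lit 0) (nat_lit 17394016109) (nat_lit 532) (nat_lit 3201094183) (nat_lit 76) (nat_lit 14001621118) (nat_lit 97) (nat_lit 5) (nat_lit 104) (nat_lit 5) (nat_lit 98) (nat_lit 5) (nat_lit 345) (nat_lit 315) (nat_lit 120)) (XT.lf (nat_lit 0) (nat_lit 11318908643) (nat_lit 456) (nat_lit 9400969764) (nat_lit 532) (nat_lit 14523046481) (nat_lit 91) (nat_lit 5) (nat_lit 97) (nat_lit 5) (nat_lit 98) (nat_lit 5) (nat_lit 346) (nat_lit 315) (nat_lit 119)))) (XT.nd (nat_lit 78) (nat_lit 380) (nat_lit 0) (XT.lf (nat_lit 0) (nat_lit 24196306658) (nat_lit 532) (nat_lit 9590703950) (nat_lit 76) (nat_lit 2119976097) (nat_lit 91) (nat_lit 5) (nat_lit 98) (nat_lit 5) (nat_lit 92) (nat_lit 5) (nat_lit 347) (nat_lit 315) (nat_lit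 118)) (XT.nd (nat_lit 78) (nat_lit 0) (nat_lit 0) (XT.lf (nat_lit 0) (nat_lit 5178130924) (nat_lit 380) (nat_lit 22739498735) (nat_lit 456) (nat_lit 8669128721) (nat_lit 86) (nat_lit 5) (nat_lit 91) (nat_lit 5) (nat_lit 92) (nat_lit 5) (nat_lit 348) (nat_lit 315) (nat_lit 117)) (XT.lf (nat_lit 0) (nat_lit 20584212947) (nat_lit 380) (nat_lit 11261016700) (nat_lit 456) (nat_lit 5438860320) (nat_lit 86) (nat_lit 5) (nat_lit 91) (nat_lit 5) (nat_lit 92) (nat_lit 5) (nat_lit 349) (nat_lit 315) (nat_lit 116)))))) (XT.nd (nat_lit 468) (nat_lit 1064) (nat_lit 0) (XT.nd (nat_lit 234) (nat_lit 380) (nat_lit 0) (XT.nd (nat_lit 78) (nat_lit 456) (nat_lit 0) (XT.lf (nat_lit 0) (nat_lit 35893910612) (nat_lit 456) (nat_lit 1557680266) (nat_lit 76) (nat_lit 550658744) (nat_lit 86) (nat_lit 5) (nat_lit 92) (nat_lit 5) (nat_lit 87) (nat_lit 5) (nat_lit 350) (nat_lit 315) (nat_lit 115)) (XT.nd (nat_lit 78) (nat_lit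 0) (nat_lit 0) (XT.lf (nat_lit 0) (nat_lit 1544657774) (nat_lit 456) (nat_lit 24547649900) (nat_lit 76) (nat_lit 12641819750) (nat_lit 80) (nat_lit 5) (nat_lit 86) (nat_lit 5) (nat_lit 81) (nat_lit 5) (nat_lit 351) (nat_lit 315) (nat_lit 114)) (XT.lf (nat_lit 0) (nat_lit 5278682028) (nat_lit 456) (nat_lit 9075997842) (nat_lit 76) (nat_lit 25132246284) (nat_lit 80) (nat_lit 5) (nat_lit 86) (nat_lit 5) (nat_lit 81) (nat_lit 5) (nat_lit 352) (nat_lit 315) (nat_lit 113)))) (XT.nd (nat_lit 78) (nat_lit 0) (nat_lit 0) (XT.lf (nat_lit 0) (nat_lit 6993981791) (nat_lit 380) (nat_lit 2195963840) (nat_lit 456) (nat_lit 31070411729) (nat_lit 75) (nat_lit 5) (nat_lit 80) (nat_lit 5) (nat_lit 81) (nat_lit 5) (nat_lit 353) (nat_lit 315) (nat_lit 112)) (XT.nd (nat_lit 78) (nat_lit 0) (nat_lit 0) (XT.lf (nat_lit 0) (nat_lit 13408400722) (nat_lit 456) (nat_lit 17424652431) (nat_lit 76) (nat_lit 10218247669)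 (nat_lit 75) (nat_lit 5) (nat_lit 81) (nat_lit 5) (nat_lit 76) (nat_lit 5) (nat_lit 354) (nat_lit 315) (nat_lit 111)) (XT.lf (nat_lit 0) (nat_lit 17773231285) (nat_lit 456) (nat_lit 1131690193) (nat_lit 76) (nat_lit 22960461237) (nat_lit 75) (nat_lit 5) (nat_lit 81) (nat_lit 5) (nat_lit 76) (nat_lit 5) (nat_lit 355) (nat_lit 315) (nat_lit 110))))) (XT.nd (nat_lit 234) (nat_lit 380) (nat_lit 0) (XT.nd (nat_lit 78) (nat_lit 304) (nat_lit 0) (XT.lf (nat_lit 0) (nat_lit 15959279689) (nat_lit 380) (nat_lit 6461272974) (nat_lit 456) (nat_lit 20278792668) (nat_lit 70) (nat_lit 5) (nat_lit 75) (nat_lit 5) (nat_lit 76) (nat_lit 5) (nat_lit 356) (nat_lit 315) (nat_lit 109)) (XT.nd (nat_lit 78) (nat_lit 304) (nat_lit 0) (XT.lf (nat_lit 0) (nat_lit 27278094898) (nat_lit 456) (nat_lit 10035253364) (nat_lit 76) (nat_lit 6242859034) (nat_lit 70) (nat_lit 5) (nat_lit 76) (nat_lit 5) (nat_lit 71) (nat_lit 5)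 (nat_lit 357) (nat_lit 315) (nat_lit 108)) (XT.lf (nat_lit 0) (nat_lit 7245951392) (nat_lit 304) (nat_lit 25167256440) (nat_lit 380) (nat_lit 12021616333) (nat_lit 66) (nat_lit 5) (nat_lit 70) (nat_lit 5) (nat_lit 71) (nat_lit 5) (nat_lit 358) (nat_lit 315) (nat_lit 107)))) (XT.nd (nat_lit 78) (nat_lit 380) (nat_lit 0) (XT.lf (nat_lit 0) (nat_lit 25249152958) (nat_lit 304) (nat_lit 12552807683) (nat_lit 380) (nat_lit 7534855553) (nat_lit 66) (nat_lit 5) (nat_lit 70) (nat_lit 5) (nat_lit 71) (nat_lit 5) (nat_lit 359) (nat_lit 315) (nat_lit 106)) (XT.nd (nat_lit 78) (nat_lit 380) (nat_lit 0) (XT.lf (nat_lit 0) (nat_lit 43354903617) (nat_lit 380) (nat_lit 2479788523) (nat_lit 76) (nat_lit 431104141) (nat_lit 66) (nat_lit 5) (nat_lit 71) (nat_lit 5) (nat_lit 67) (nat_lit 5) (nat_lit 360) (nat_lit 315) (nat_lit 105)) (XT.lf (nat_lit 0) (nat_lit 2093258389) (nat_lit 380) (nat_lit 31395889973) (nat_lit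 76) (nat_lit 13724639152) (nat_lit 61) (nat_lit 5) (nat_lit 66) (nat_lit 5) (nat_lit 62) (nat_lit 5) (nat_lit 361) (nat_lit 315) (nat_lit 104))))))))
noncomputable def xc236 : XT := (XT.nd (nat_lit 38064) (nat_lit 0) (nat_lit 2812) (XT.nd (nat_lit 37206) (nat_lit 0) (nat_lit 6308) (XT.nd (nat_lit 390) (nat_lit 304) (nat_lit 0) (XT.nd (nat_lit 156) (nat_lit 304) (nat_lit 0) (XT.nd (nat_lit 78) (nat_lit 304) (nat_lit 0) (XT.lf (nat_lit 0) (nat_lit 7212672223) (nat_lit 380) (nat_lit 13505283100) (nat_lit 76) (nat_lit 27470692985) (nat_lit 61) (nat_lit 5) (nat_lit 66) (nat_lit 5) (nat_lit 62) (nat_lit 5) (nat_lit 362) (nat_lit 315) (nat_lit 103)) (XT.lf (nat_lit 0) (nat_lit 5017926182) (nat_lit 304) (nat_lit 7514380943) (nat_lit 380) (nat_lit 36659052306) (nat_lit 57) (nat_lit 5) (nat_lit 61) (nat_lit 5) (nat_lit 62) (nat_lit 5) (nat_lit 363) (nat_lit 315) (nat_lit 102))) (XT.nd (nat_lit 78) (nat_lit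 304) (nat_lit 0) (XT.lf (nat_lit 0) (nat_lit 18206180010) (nat_lit 380) (nat_lit 25908289724) (nat_lit 76) (nat_lit 6103846245) (nat_lit 57) (nat_lit 5) (nat_lit 62) (nat_lit 5) (nat_lit 58) (nat_lit 5) (nat_lit 364) (nat_lit 315) (nat_lit 101)) (XT.nd (nat_lit 78) (nat_lit 304) (nat_lit 0) (XT.lf (nat_lit 0) (nat_lit 24123140890) (nat_lit 380) (nat_lit 7171591751) (nat_lit 76) (nat_lit 19979165881) (nat_lit 57) (nat_lit 5) (nat_lit 62) (nat_lit 5) (nat_lit 58) (nat_lit 5) (nat_lit 365) (nat_lit 315) (nat_lit 100)) (XT.lf (nat_lit 0) (nat_lit 12366581921) (nat_lit 304) (nat_lit 17968420330) (nat_lit 380) (nat_lit 22022627898) (nat_lit 53) (nat_lit 5) (nat_lit 57) (nat_lit 5) (nat_lit 58) (nat_lit 5) (nat_lit 366) (nat_lit 315) (nat_lit 99))))) (XT.nd (nat_lit 234) (nat_lit 76) (nat_lit 0) (XT.nd (nat_lit 78) (nat_lit 228) (nat_lit 0) (XT.lf (nat_lit 0) (nat_lit 32635988647) (nat_lit 304) (nat_lit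 4168191049) (nat_lit 380) (nat_lit 16667568476) (nat_lit 53) (nat_lit 5) (nat_lit 57) (nat_lit 5) (nat_lit 58) (nat_lit 5) (nat_lit 367) (nat_lit 315) (nat_lit 98)) (XT.nd (nat_lit 78) (nat_lit 228) (nat_lit 0) (XT.lf (nat_lit 0) (nat_lit 43562580584) (nat_lit 380) (nat_lit 1204288967) (nat_lit 76) (nat_lit 9849568904) (nat_lit 53) (nat_lit 5) (nat_lit 58) (nat_lit 5) (nat_lit 54) (nat_lit 5) (nat_lit 368) (nat_lit 315) (nat_lit 97)) (XT.lf (nat_lit 0) (nat_lit 19350603971) (nat_lit 228) (nat_lit 31399029352) (nat_lit 304) (nat_lit 5039062197) (nat_lit 50) (nat_lit 5) (nat_lit 53) (nat_lit 5) (nat_lit 54) (nat_lit 5) (nat_lit 369) (nat_lit 315) (nat_lit 96)))) (XT.nd (nat_lit 36426) (nat_lit 0) (nat_lit 6232) (XT.lf (nat_lit 0) (nat_lit 1144524474) (nat_lit 304) (nat_lit 16462023874) (nat_lit 76) (nat_lit 39388914177) (nat_lit 49) (nat_lit 5) (nat_lit 53) (nat_lit 5) (nat_lit 50) (nat_lit 5)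 (nat_lit 370) (nat_lit 315) (nat_lit 95)) (XT.nd (nat_lit 78) (nat_lit 0) (nat_lit 0) (XT.lf (nat_lit 0) (nat_lit 1027031907) (nat_lit 1140) (nat_lit 4908079716) (nat_lit 1140) (nat_lit 4908079716) (nat_lit 131) (nat_lit 3) (nat_lit 146) (nat_lit 3) (nat_lit 146) (nat_lit 5) (nat_lit 316) (nat_lit 316) (nat_lit 148)) (XT.lf (nat_lit 0) (nat_lit 2209344232) (nat_lit 1140) (nat_lit 1189163473) (nat_lit 1140) (nat_lit 18609059844) (nat_lit 131) (nat_lit 3) (nat_lit 146) (nat_lit 3) (nat_lit 146) (nat_lit 5) (nat_lit 317) (nat_lit 316) (nat_lit 147)))))) (XT.nd (nat_lit 390) (nat_lit 0) (nat_lit 152) (XT.nd (nat_lit 156) (nat_lit 0) (nat_lit 76) (XT.nd (nat_lit 78) (nat_lit 0) (nat_lit 0) (XT.lf (nat_lit 0) (nat_lit 2491837319) (nat_lit 1064) (nat_lit 14541003056) (nat_lit 1140) (nat_lit 5301885669) (nat_lit 132) (nat_lit 5) (nat_lit 146) (nat_lit 5) (nat_lit 147) (nat_lit 5) (nat_lit 318) (nat_lit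 316) (nat_lit 146)) (XT.lf (nat_lit 0) (nat_lit 2823862493) (nat_lit 1064) (nat_lit 5637296431) (nat_lit 1140) (nat_lit 14209322928) (nat_lit 132) (nat_lit 5) (nat_lit 146) (nat_lit 5) (nat_lit 147) (nat_lit 5) (nat_lit 319) (nat_lit 316) (nat_lit 145))) (XT.nd (nat_lit 78) (nat_lit 0) (nat_lit 0) (XT.lf (nat_lit 0) (nat_lit 3199780692) (nat_lit 1064) (nat_lit 19418110467) (nat_lit 1140) (nat_lit 397415067) (nat_lit 133) (nat_lit 5) (nat_lit 147) (nat_lit 5) (nat_lit 148) (nat_lit 5) (nat_lit 320) (nat_lit 316) (nat_lit 144)) (XT.nd (nat_lit 78) (nat_lit 0) (nat_lit 0) (XT.lf (nat_lit 0) (nat_lit 3723785774) (nat_lit 1064) (nat_lit 10231549004) (nat_lit 1140) (nat_lit 9411049730) (nat_lit 133) (nat_lit 5) (nat_lit 147) (nat_lit 5) (nat_lit 148) (nat_lit 5) (nat_lit 321) (nat_lit 316) (nat_lit 143)) (XT.lf (nat_lit 0) (nat_lit 4259186954) (nat_lit 1064) (nat_lit 772037045) (nat_lit 1140) (nat_lit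 18696913927) (nat_lit 133) (nat_lit 5) (nat_lit 147) (nat_lit 5) (nat_lit 148) (nat_lit 5) (nat_lit 322) (nat_lit 316) (nat_lit 142))))) (XT.nd (nat_lit 234) (nat_lit 0) (nat_lit 76) (XT.nd (nat_lit 78) (nat_lit 0) (nat_lit 0) (XT.lf (nat_lit 0) (nat_lit 4935260968) (nat_lit 1064) (nat_lit 14991939749) (nat_lit 1140) (nat_lit 4169817589) (nat_lit 134) (nat_lit 5) (nat_lit 148) (nat_lit 5) (nat_lit 149) (nat_lit 5) (nat_lit 323) (nat_lit 316) (nat_lit 141)) (XT.nd (nat_lit 78) (nat_lit 0) (nat_lit 0) (XT.lf (nat_lit 0) (nat_lit 5685219220) (nat_lit 1064) (nat_lit 5234983235) (nat_lit 1140) (nat_lit 13555166898) (nat_lit 134) (nat_lit 5) (nat_lit 148) (nat_lit 5) (nat_lit 149) (nat_lit 5) (nat_lit 324) (nat_lit 316) (nat_lit 140)) (XT.lf (nat_lit 76) (nat_lit 4907835637) (nat_lit 0) (nat_lit 1593051359) (nat_lit 1140) (nat_lit 18362899568) (nat_lit 135) (nat_lit 5) (nat_lit 134) (nat_lit 5) (nat_lit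 149) (nat_lit 5) (nat_lit 325) (nat_lit 316) (nat_lit 139)))) (XT.nd (nat_lit 78) (nat_lit 0) (nat_lit 0) (XT.lf (nat_lit 0) (nat_lit 7467582558) (nat_lit 1064) (nat_lit 9880307820) (nat_lit 1140) (nat_lit 7912180790) (nat_lit 135) (nat_lit 5) (nat_lit 149) (nat_lit 5) (nat_lit 150) (nat_lit 5) (nat_lit 326) (nat_lit 316) (nat_lit 138)) (XT.nd (nat_lit 78) (nat_lit 0) (nat_lit 76) (XT.lf (nat_lit 76) (nat_lit 488717484) (nat_lit 0) (nat_lit 7991281304) (nat_lit 1140) (nat_lit 17187755196) (nat_lit 136) (nat_lit 5) (nat_lit 135) (nat_lit 5) (nat_lit 150) (nat_lit 5) (nat_lit 327) (nat_lit 316) (nat_lit 137)) (XT.lf (nat_lit 0) (nat_lit 9635712888) (nat_lit 1064) (nat_lit 14732890331) (nat_lit 1140) (nat_lit 1715687248) (nat_lit 136) (nat_lit 5) (nat_lit 150) (nat_lit 5) (nat_lit 151) (nat_lit 5) (nat_lit 328) (nat_lit 316) (nat_lit 136))))))) (XT.nd (nat_lit 858) (nat_lit 1900) (nat_lit 0) (XT.nd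 (nat_lit 390) (nat_lit 1900) (nat_lit 0) (XT.nd (nat_lit 156) (nat_lit 0) (nat_lit 76) (XT.nd (nat_lit 78) (nat_lit 0) (nat_lit 0) (XT.lf (nat_lit 0) (nat_lit 10901669713) (nat_lit 1064) (nat_lit 4055157023) (nat_lit 1140) (nat_lit 11554239792) (nat_lit 136) (nat_lit 5) (nat_lit 150) (nat_lit 5) (nat_lit 151) (nat_lit 5) (nat_lit 329) (nat_lit 316) (nat_lit 135)) (XT.lf (nat_lit 76) (nat_lit 7078436353) (nat_lit 0) (nat_lit 5191764261) (nat_lit 1140) (nat_lit 14678517709) (nat_lit 137) (nat_lit 5) (nat_lit 136) (nat_lit 5) (nat_lit 151) (nat_lit 5) (nat_lit 330) (nat_lit 316) (nat_lit 134))) (XT.nd (nat_lit 78) (nat_lit 0) (nat_lit 0) (XT.lf (nat_lit 0) (nat_lit 13764555848) (nat_lit 1064) (nat_lit 8818980815) (nat_lit 1140) (nat_lit 4813429970) (nat_lit 137) (nat_lit 5) (nat_lit 151) (nat_lit 5) (nat_lit 152) (nat_lit 5) (nat_lit 331) (nat_lit 316) (nat_lit 133)) (XT.nd (nat_lit 78) (nat_lit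 0) (nat_lit 0) (XT.lf (nat_lit 76) (nat_lit 2559793866) (nat_lit 0) (nat_lit 12816692211) (nat_lit 1140) (nat_lit 12480003706) (nat_lit 138) (nat_lit 5) (nat_lit 137) (nat_lit 5) (nat_lit 152) (nat_lit 5) (nat_lit 332) (nat_lit 316) (nat_lit 132)) (XT.lf (nat_lit 76) (nat_lit 14458125164) (nat_lit 0) (nat_lit 2664508137) (nat_lit 1140) (nat_lit 11204598993) (nat_lit 138) (nat_lit 5) (nat_lit 137) (nat_lit 5) (nat_lit 152) (nat_lit 5) (nat_lit 333) (nat_lit 316) (nat_lit 131))))) (XT.nd (nat_lit 234) (nat_lit 988) (nat_lit 0) (XT.nd (nat_lit 78) (nat_lit 1064) (nat_lit 0) (XT.lf (nat_lit 0) (nat_lit 18992972151) (nat_lit 1064) (nat_lit 2176214114) (nat_lit 76) (nat_lit 7640765763) (nat_lit 138) (nat_lit 5) (nat_lit 152) (nat_lit 5) (nat_lit 139) (nat_lit 5) (nat_lit 334) (nat_lit 316) (nat_lit 130)) (XT.nd (nat_lit 78) (nat_lit 0) (nat_lit 0) (XT.lf (nat_lit 0) (nat_lit 10034347341) (nat_lit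 1064) (nat_lit 11004904987) (nat_lit 1140) (nat_lit 8264314987) (nat_lit 124) (nat_lit 5) (nat_lit 138) (nat_lit 5) (nat_lit 139) (nat_lit 5) (nat_lit 335) (nat_lit 316) (nat_lit 129)) (XT.lf (nat_lit 0) (nat_lit 22653317491) (nat_lit 1064) (nat_lit 512635882) (nat_lit 1140) (nat_lit 6645475352) (nat_lit 124) (nat_lit 5) (nat_lit 138) (nat_lit 5) (nat_lit 139) (nat_lit 5) (nat_lit 336) (nat_lit 316) (nat_lit 128)))) (XT.nd (nat_lit 78) (nat_lit 456) (nat_lit 0) (XT.lf (nat_lit 0) (nat_lit 5318616933) (nat_lit 532) (nat_lit 20185067046) (nat_lit 608) (nat_lit 4826433528) (nat_lit 117) (nat_lit 5) (nat_lit 124) (nat_lit 5) (nat_lit 125) (nat_lit 5) (nat_lit 337) (nat_lit 316) (nat_lit 127)) (XT.nd (nat_lit 78) (nat_lit 456) (nat_lit 0) (XT.lf (nat_lit 0) (nat_lit 18308686402) (nat_lit 532) (nat_lit 9677374379) (nat_lit 608) (nat_lit 2876078885) (nat_lit 117) (nat_lit 5) (nat_lit 124) (nat_lit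 5) (nat_lit 125) (nat_lit 5) (nat_lit 338) (nat_lit 316) (nat_lit 126)) (XT.lf (nat_lit 0) (nat_lit 270056806) (nat_lit 456) (nat_lit 30283749270) (nat_lit 532) (nat_lit 855997402) (nat_lit 111) (nat_lit 5) (nat_lit 117) (nat_lit 5) (nat_lit 118) (nat_lit 5) (nat_lit 339) (nat_lit 316) (nat_lit 125)))))) (XT.nd (nat_lit 390) (nat_lit 836) (nat_lit 0) (XT.nd (nat_lit 156) (nat_lit 988) (nat_lit 0) (XT.nd (nat_lit 78) (nat_lit 0) (nat_lit 0) (XT.lf (nat_lit 0) (nat_lit 1421934932) (nat_lit 532) (nat_lit 18345904536) (nat_lit 76) (nat_lit 12199077622) (nat_lit 110) (nat_lit 5) (nat_lit 117) (nat_lit 5) (nat_lit 111) (nat_lit 5) (nat_lit 340) (nat_lit 316) (nat_lit 124)) (XT.lf (nat_lit 0) (nat_lit 3748389373) (nat_lit 532) (nat_lit 5179220247) (nat_lit 76) (nat_lit 23612965801) (nat_lit 110) (nat_lit 5) (nat_lit 117) (nat_lit 5) (nat_lit 111) (nat_lit 5) (nat_lit 341) (nat_lit 316) (nat_lit 123)))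 (XT.nd (nat_lit 78) (nat_lit 456) (nat_lit 0) (XT.lf (nat_lit 0) (nat_lit 6246585445) (nat_lit 608) (nat_lit 24604569073) (nat_lit 76) (nat_lit 2277237569) (nat_lit 103) (nat_lit 5) (nat_lit 111) (nat_lit 5) (nat_lit 104) (nat_lit 5) (nat_lit 342) (nat_lit 316) (nat_lit 122)) (XT.nd (nat_lit 78) (nat_lit 456) (nat_lit 0) (XT.lf (nat_lit 0) (nat_lit 8958453805) (nat_lit 608) (nat_lit 11079541244) (nat_lit 76) (nat_lit 13691693229) (nat_lit 103) (nat_lit 5) (nat_lit 111) (nat_lit 5) (nat_lit 104) (nat_lit 5) (nat_lit 343) (nat_lit 316) (nat_lit 121)) (XT.lf (nat_lit 0) (nat_lit 2905523475) (nat_lit 456) (nat_lit 8871673188) (nat_lit 532) (nat_lit 22571067758) (nat_lit 97) (nat_lit 5) (nat_lit 103) (nat_lit 5) (nat_lit 104) (nat_lit 5) (nat_lit 344) (nat_lit 316) (nat_lit 120))))) (XT.nd (nat_lit 234) (nat_lit 380) (nat_lit 0) (XT.nd (nat_lit 78) (nat_lit 456) (nat_lit 0) (XT.lf (nat_lit 0) (nat_lit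 14816404713) (nat_lit 532) (nat_lit 17473631614) (nat_lit 76) (nat_lit 2691290863) (nat_lit 97) (nat_lit 5) (nat_lit 104) (nat_lit 5) (nat_lit 98) (nat_lit 5) (nat_lit 345) (nat_lit 316) (nat_lit 119)) (XT.nd (nat_lit 78) (nat_lit 456) (nat_lit 0) (XT.lf (nat_lit 0) (nat_lit 18032332042) (nat_lit 532) (nat_lit 3175680215) (nat_lit 76) (nat_lit 14422809532) (nat_lit 97) (nat_lit 5) (nat_lit 104) (nat_lit 5) (nat_lit 98) (nat_lit 5) (nat_lit 346) (nat_lit 316) (nat_lit 118)) (XT.lf (nat_lit 0) (nat_lit 11778732040) (nat_lit 456) (nat_lit 9677001071) (nat_lit 532) (nat_lit 14840744295) (nat_lit 91) (nat_lit 5) (nat_lit 97) (nat_lit 5) (nat_lit 98) (nat_lit 5) (nat_lit 347) (nat_lit 316) (nat_lit 117)))) (XT.nd (nat_lit 78) (nat_lit 380) (nat_lit 0) (XT.lf (nat_lit 0) (nat_lit 25033182273) (nat_lit 532) (nat_lit 9758101077) (nat_lit 76) (nat_lit 2189284843) (nat_lit 91) (nat_lit 5) (nat_lit 98)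 (nat_lit 5) (nat_lit 92) (nat_lit 5) (nat_lit 348) (nat_lit 316) (nat_lit 116)) (XT.nd (nat_lit 78) (nat_lit 0) (nat_lit 0) (XT.lf (nat_lit 0) (nat_lit 5452619196) (nat_lit 380) (nat_lit 23411438442) (nat_lit 456) (nat_lit 8816746694) (nat_lit 86) (nat_lit 5) (nat_lit 91) (nat_lit 5) (nat_lit 92) (nat_lit 5) (nat_lit 349) (nat_lit 316) (nat_lit 115)) (XT.lf (nat_lit 0) (nat_lit 21317413456) (nat_lit 380) (nat_lit 11588900351) (nat_lit 456) (nat_lit 5492845655) (nat_lit 86) (nat_lit 5) (nat_lit 91) (nat_lit 5) (nat_lit 92) (nat_lit 5) (nat_lit 350) (nat_lit 316) (nat_lit 114))))))))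
noncomputable def xc237 : XT := (XT.nd (nat_lit 38142) (nat_lit 0) (nat_lit 4560) (XT.nd (nat_lit 858) (nat_lit 1216) (nat_lit 0) (XT.nd (nat_lit 390) (nat_lit 684) (nat_lit 0) (XT.nd (nat_lit 156) (nat_lit 380) (nat_lit 0) (XT.nd (nat_lit 78) (nat_lit 456) (nat_lit 0) (XT.lf (nat_lit 0) (nat_lit 37073468597) (nat_lit 456) (nat_lit 1488845909) (nat_lit 76) (nat_lit 576647197) (nat_lit 86) (nat_lit 5) (nat_lit 92) (nat_lit 5) (nat_lit 87) (nat_lit 5) (nat_lit 351) (nat_lit 316) (nat_lit 113)) (XT.lf (nat_lit 0) (nat_lit 1693104269) (nat_lit 456) (nat_lit 25167357988) (nat_lit 76) (nat_lit 13032368281) (nat_lit 80) (nat_lit 5) (nat_lit 86) (nat_lit 5) (nat_lit 81) (nat_lit 5) (nat_lit 352) (nat_lit 316) (nat_lit 112))) (XT.nd (nat_lit 78) (nat_lit 380) (nat_lit 0) (XT.lf (nat_lit 0) (nat_lit 5536175267) (nat_lit 456) (nat_lit 9234956021) (nat_lit 76) (nat_lit 25897178661) (nat_lit 80) (nat_lit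 5) (nat_lit 86) (nat_lit 5) (nat_lit 81) (nat_lit 5) (nat_lit 353) (nat_lit 316) (nat_lit 111)) (XT.nd (nat_lit 78) (nat_lit 0) (nat_lit 0) (XT.lf (nat_lit 0) (nat_lit 7316012004) (nat_lit 380) (nat_lit 2246956051) (nat_lit 456) (nat_lit 31902037581) (nat_lit 75) (nat_lit 5) (nat_lit 80) (nat_lit 5) (nat_lit 81) (nat_lit 5) (nat_lit 354) (nat_lit 316) (nat_lit 110)) (XT.lf (nat_lit 0) (nat_lit 13905281048) (nat_lit 456) (nat_lit 17835518116) (nat_lit 76) (nat_lit 10538966178) (nat_lit 75) (nat_lit 5) (nat_lit 81) (nat_lit 5) (nat_lit 76) (nat_lit 5) (nat_lit 355) (nat_lit 316) (nat_lit 109))))) (XT.nd (nat_lit 234) (nat_lit 304) (nat_lit 0) (XT.nd (nat_lit 78) (nat_lit 380) (nat_lit 0) (XT.lf (nat_lit 0) (nat_lit 18398300364) (nat_lit 456) (nat_lit 1057025474) (nat_lit 76) (nat_lit 23663033403) (nat_lit 75) (nat_lit 5) (nat_lit 81) (nat_lit 5) (nat_lit 76) (nat_lit 5) (nat_lit 356) (nat_lit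 316) (nat_lit 108)) (XT.nd (nat_lit 78) (nat_lit 0) (nat_lit 0) (XT.lf (nat_lit 0) (nat_lit 16545608648) (nat_lit 380) (nat_lit 6637790690) (nat_lit 456) (nat_lit 20793997323) (nat_lit 70) (nat_lit 5) (nat_lit 75) (nat_lit 5) (nat_lit 76) (nat_lit 5) (nat_lit 357) (nat_lit 316) (nat_lit 107)) (XT.lf (nat_lit 0) (nat_lit 28184201424) (nat_lit 456) (nat_lit 10229210865) (nat_lit 76) (nat_lit 6446632658) (nat_lit 70) (nat_lit 5) (nat_lit 76) (nat_lit 5) (nat_lit 71) (nat_lit 5) (nat_lit 358) (nat_lit 316) (nat_lit 106)))) (XT.nd (nat_lit 78) (nat_lit 0) (nat_lit 0) (XT.lf (nat_lit 0) (nat_lit 7569380033) (nat_lit 304) (nat_lit 25902450908) (nat_lit 380) (nat_lit 12293241766) (nat_lit 66) (nat_lit 5) (nat_lit 70) (nat_lit 5) (nat_lit 71) (nat_lit 5) (nat_lit 359) (nat_lit 316) (nat_lit 105)) (XT.nd (nat_lit 78) (nat_lit 0) (nat_lit 0) (XT.lf (nat_lit 0) (nat_lit 26109588808) (nat_lit 304) (nat_lit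 12910146064) (nat_lit 380) (nat_lit 7674471067) (nat_lit 66) (nat_lit 5) (nat_lit 70) (nat_lit 5) (nat_lit 71) (nat_lit 5) (nat_lit 360) (nat_lit 316) (nat_lit 104)) (XT.lf (nat_lit 0) (nat_lit 44737007439) (nat_lit 380) (nat_lit 2451763733) (nat_lit 76) (nat_lit 462357939) (nat_lit 66) (nat_lit 5) (nat_lit 71) (nat_lit 5) (nat_lit 67) (nat_lit 5) (nat_lit 361) (nat_lit 316) (nat_lit 103)))))) (XT.nd (nat_lit 390) (nat_lit 532) (nat_lit 0) (XT.nd (nat_lit 156) (nat_lit 304) (nat_lit 0) (XT.nd (nat_lit 78) (nat_lit 0) (nat_lit 0) (XT.lf (nat_lit 0) (nat_lit 2237095719) (nat_lit 380) (nat_lit 32234553455) (nat_lit 76) (nat_lit 14155934750) (nat_lit 61) (nat_lit 5) (nat_lit 66) (nat_lit 5) (nat_lit 62) (nat_lit 5) (nat_lit 362) (nat_lit 316) (nat_lit 102)) (XT.lf (nat_lit 0) (nat_lit 7507731592) (nat_lit 380) (nat_lit 13810234585) (nat_lit 76) (nat_lit 28313800594) (nat_lit 61) (nat_lit 5) (nat_lit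 66) (nat_lit 5) (nat_lit 62) (nat_lit 5) (nat_lit 363) (nat_lit 316) (nat_lit 101))) (XT.nd (nat_lit 78) (nat_lit 0) (nat_lit 0) (XT.lf (nat_lit 0) (nat_lit 5267688553) (nat_lit 304) (nat_lit 7717929167) (nat_lit 380) (nat_lit 37678986902) (nat_lit 57) (nat_lit 5) (nat_lit 61) (nat_lit 5) (nat_lit 62) (nat_lit 5) (nat_lit 364) (nat_lit 316) (nat_lit 100)) (XT.nd (nat_lit 78) (nat_lit 0) (nat_lit 0) (XT.lf (nat_lit 0) (nat_lit 18827658359) (nat_lit 380) (nat_lit 26586985190) (nat_lit 76) (nat_lit 6307792878) (nat_lit 57) (nat_lit 5) (nat_lit 62) (nat_lit 5) (nat_lit 58) (nat_lit 5) (nat_lit 365) (nat_lit 316) (nat_lit 99)) (XT.lf (nat_lit 0) (nat_lit 24919935067) (nat_lit 380) (nat_lit 7291056761) (nat_lit 76) (nat_lit 20598765368) (nat_lit 57) (nat_lit 5) (nat_lit 62) (nat_lit 5) (nat_lit 58) (nat_lit 5) (nat_lit 366) (nat_lit 316) (nat_lit 98))))) (XT.nd (nat_lit 234) (nat_lit 228) (nat_lit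 0) (XT.nd (nat_lit 78) (nat_lit 0) (nat_lit 0) (XT.lf (nat_lit 0) (nat_lit 12832324056) (nat_lit 304) (nat_lit 18484609832) (nat_lit 380) (nat_lit 22609108248) (nat_lit 53) (nat_lit 5) (nat_lit 57) (nat_lit 5) (nat_lit 58) (nat_lit 5) (nat_lit 367) (nat_lit 316) (nat_lit 97)) (XT.nd (nat_lit 78) (nat_lit 0) (nat_lit 0) (XT.lf (nat_lit 0) (nat_lit 33707053430) (nat_lit 304) (nat_lit 4271039588) (nat_lit 380) (nat_lit 17095558165) (nat_lit 53) (nat_lit 5) (nat_lit 57) (nat_lit 5) (nat_lit 58) (nat_lit 5) (nat_lit 368) (nat_lit 316) (nat_lit 96)) (XT.lf (nat_lit 0) (nat_lit 44937420433) (nat_lit 380) (nat_lit 1149134932) (nat_lit 76) (nat_lit 10166186111) (nat_lit 53) (nat_lit 5) (nat_lit 58) (nat_lit 5) (nat_lit 54) (nat_lit 5) (nat_lit 369) (nat_lit 316) (nat_lit 95)))) (XT.nd (nat_lit 36504) (nat_lit 0) (nat_lit 6156) (XT.lf (nat_lit 0) (nat_lit 20021509865) (nat_lit 228) (nat_lit 32317464263)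 (nat_lit 304) (nat_lit 5121229850) (nat_lit 50) (nat_lit 5) (nat_lit 53) (nat_lit 5) (nat_lit 54) (nat_lit 5) (nat_lit 370) (nat_lit 316) (nat_lit 94)) (XT.nd (nat_lit 78) (nat_lit 0) (nat_lit 0) (XT.lf (nat_lit 0) (nat_lit 1181115848) (nat_lit 1140) (nat_lit 4991649939) (nat_lit 1140) (nat_lit 4991649939) (nat_lit 131) (nat_lit 3) (nat_lit 146) (nat_lit 3) (nat_lit 146) (nat_lit 5) (nat_lit 317) (nat_lit 317) (nat_lit 146)) (XT.lf (nat_lit 0) (nat_lit 2514989577) (nat_lit 1140) (nat_lit 1101203099) (nat_lit 1140) (nat_lit 19043696361) (nat_lit 131) (nat_lit 3) (nat_lit 146) (nat_lit 3) (nat_lit 146) (nat_lit 5) (nat_lit 318) (nat_lit 317) (nat_lit 145))))))) (XT.nd (nat_lit 858) (nat_lit 1672) (nat_lit 0) (XT.nd (nat_lit 390) (nat_lit 0) (nat_lit 152) (XT.nd (nat_lit 156) (nat_lit 0) (nat_lit 76) (XT.nd (nat_lit 78) (nat_lit 0) (nat_lit 0) (XT.lf (nat_lit 0) (nat_lit 2799094054) (nat_lit 1064)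 (nat_lit 14846030984) (nat_lit 1140) (nat_lit 5351964255) (nat_lit 132) (nat_lit 5) (nat_lit 146) (nat_lit 5) (nat_lit 147) (nat_lit 5) (nat_lit 319) (nat_lit 317) (nat_lit 144)) (XT.lf (nat_lit 0) (nat_lit 3134308092) (nat_lit 1064) (nat_lit 5679034582) (nat_lit 1140) (nat_lit 14529798748) (nat_lit 132) (nat_lit 5) (nat_lit 146) (nat_lit 5) (nat_lit 147) (nat_lit 5) (nat_lit 320) (nat_lit 317) (nat_lit 143))) (XT.nd (nat_lit 78) (nat_lit 0) (nat_lit 0) (XT.lf (nat_lit 0) (nat_lit 3515235792) (nat_lit 1064) (nat_lit 19866341893) (nat_lit 1140) (nat_lit 316940777) (nat_lit 133) (nat_lit 5) (nat_lit 147) (nat_lit 5) (nat_lit 148) (nat_lit 5) (nat_lit 321) (nat_lit 317) (nat_lit 142)) (XT.nd (nat_lit 78) (nat_lit 0) (nat_lit 0) (XT.lf (nat_lit 0) (nat_lit 4048568938) (nat_lit 1064) (nat_lit 10408095583) (nat_lit 1140) (nat_lit 9603675648) (nat_lit 133) (nat_lit 5) (nat_lit 147) (nat_lit 5) (nat_lit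 148) (nat_lit 5) (nat_lit 322) (nat_lit 317) (nat_lit 141)) (XT.lf (nat_lit 0) (nat_lit 4593826244) (nat_lit 1064) (nat_lit 668596320) (nat_lit 1140) (nat_lit 19170728553) (nat_lit 133) (nat_lit 5) (nat_lit 147) (nat_lit 5) (nat_lit 148) (nat_lit 5) (nat_lit 323) (nat_lit 317) (nat_lit 140))))) (XT.nd (nat_lit 234) (nat_lit 0) (nat_lit 76) (XT.nd (nat_lit 78) (nat_lit 0) (nat_lit 0) (XT.lf (nat_lit 0) (nat_lit 5284625242) (nat_lit 1064) (nat_lit 15308932038) (nat_lit 1140) (nat_lit 4219725551) (nat_lit 134) (nat_lit 5) (nat_lit 148) (nat_lit 5) (nat_lit 149) (nat_lit 5) (nat_lit 324) (nat_lit 317) (nat_lit 139)) (XT.nd (nat_lit 78) (nat_lit 0) (nat_lit 0) (XT.lf (nat_lit 0) (nat_lit 6051218947) (nat_lit 1064) (nat_lit 5263133797) (nat_lit 1140) (nat_lit 13888825239) (nat_lit 134) (nat_lit 5) (nat_lit 148) (nat_lit 5) (nat_lit 149) (nat_lit 5) (nat_lit 325) (nat_lit 317) (nat_lit 138)) (XT.lf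 (nat_lit 76) (nat_lit 5182705927) (nat_lit 0) (nat_lit 1704185219) (nat_lit 1140) (nat_lit 18716507693) (nat_lit 135) (nat_lit 5) (nat_lit 134) (nat_lit 5) (nat_lit 149) (nat_lit 5) (nat_lit 326) (nat_lit 317) (nat_lit 137)))) (XT.nd (nat_lit 78) (nat_lit 0) (nat_lit 0) (XT.lf (nat_lit 0) (nat_lit 7876433971) (nat_lit 1064) (nat_lit 10046090425) (nat_lit 1140) (nat_lit 8089248852) (nat_lit 135) (nat_lit 5) (nat_lit 149) (nat_lit 5) (nat_lit 150) (nat_lit 5) (nat_lit 327) (nat_lit 317) (nat_lit 136)) (XT.nd (nat_lit 78) (nat_lit 0) (nat_lit 76) (XT.lf (nat_lit 76) (nat_lit 632724985) (nat_lit 0) (nat_lit 8282357835) (nat_lit 1140) (nat_lit 17516744101) (nat_lit 136) (nat_lit 5) (nat_lit 135) (nat_lit 5) (nat_lit 150) (nat_lit 5) (nat_lit 328) (nat_lit 317) (nat_lit 135)) (XT.lf (nat_lit 0) (nat_lit 10099726580) (nat_lit 1064) (nat_lit 15043033203) (nat_lit 1140) (nat_lit 1718287671) (nat_lit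 136) (nat_lit 5) (nat_lit 150) (nat_lit 5) (nat_lit 151) (nat_lit 5) (nat_lit 329) (nat_lit 317) (nat_lit 134)))))) (XT.nd (nat_lit 468) (nat_lit 1976) (nat_lit 0) (XT.nd (nat_lit 234) (nat_lit 0) (nat_lit 76) (XT.nd (nat_lit 78) (nat_lit 0) (nat_lit 0) (XT.lf (nat_lit 0) (nat_lit 11398566702) (nat_lit 1064) (nat_lit 4048808008) (nat_lit 1140) (nat_lit 11853420195) (nat_lit 136) (nat_lit 5) (nat_lit 150) (nat_lit 5) (nat_lit 151) (nat_lit 5) (nat_lit 330) (nat_lit 317) (nat_lit 133)) (XT.nd (nat_lit 78) (nat_lit 0) (nat_lit 76) (XT.lf (nat_lit 76) (nat_lit 7417538231) (nat_lit 0) (nat_lit 5386886689) (nat_lit 1140) (nat_lit 14947277994) (nat_lit 137) (nat_lit 5) (nat_lit 136) (nat_lit 5) (nat_lit 151) (nat_lit 5) (nat_lit 331) (nat_lit 317) (nat_lit 132)) (XT.lf (nat_lit 0) (nat_lit 14338404993) (nat_lit 1064) (nat_lit 8954808308) (nat_lit 1140) (nat_lit 4920355918) (nat_lit 137) (nat_lit 5)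 (nat_lit 151) (nat_lit 5) (nat_lit 152) (nat_lit 5) (nat_lit 332) (nat_lit 317) (nat_lit 131)))) (XT.nd (nat_lit 78) (nat_lit 0) (nat_lit 0) (XT.lf (nat_lit 76) (nat_lit 2764067438) (nat_lit 0) (nat_lit 13231164334) (nat_lit 1140) (nat_lit 12691764086) (nat_lit 138) (nat_lit 5) (nat_lit 137) (nat_lit 5) (nat_lit 152) (nat_lit 5) (nat_lit 333) (nat_lit 317) (nat_lit 130)) (XT.nd (nat_lit 78) (nat_lit 0) (nat_lit 76) (XT.lf (nat_lit 76) (nat_lit 15015635672) (nat_lit 0) (nat_lit 2773541786) (nat_lit 1140) (nat_lit 11382834311) (nat_lit 138) (nat_lit 5) (nat_lit 137) (nat_lit 5) (nat_lit 152) (nat_lit 5) (nat_lit 334) (nat_lit 317) (nat_lit 129)) (XT.lf (nat_lit 0) (nat_lit 19710902525) (nat_lit 1064) (nat_lit 2116176306) (nat_lit 76) (nat_lit 7842289133) (nat_lit 138) (nat_lit 5) (nat_lit 152) (nat_lit 5) (nat_lit 139) (nat_lit 5) (nat_lit 335) (nat_lit 317) (nat_lit 128))))) (XT.nd (nat_lit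 234) (nat_lit 532) (nat_lit 0) (XT.nd (nat_lit 78) (nat_lit 532) (nat_lit 0) (XT.lf (nat_lit 0) (nat_lit 10459473324) (nat_lit 1064) (nat_lit 11355975874) (nat_lit 1140) (nat_lit 8362448938) (nat_lit 124) (nat_lit 5) (nat_lit 138) (nat_lit 5) (nat_lit 139) (nat_lit 5) (nat_lit 336) (nat_lit 317) (nat_lit 127)) (XT.nd (nat_lit 78) (nat_lit 532) (nat_lit 0) (XT.lf (nat_lit 0) (nat_lit 23453398144) (nat_lit 1064) (nat_lit 548329266) (nat_lit 1140) (nat_lit 6699407090) (nat_lit 124) (nat_lit 5) (nat_lit 138) (nat_lit 5) (nat_lit 139) (nat_lit 5) (nat_lit 337) (nat_lit 317) (nat_lit 126)) (XT.lf (nat_lit 0) (nat_lit 5602260366) (nat_lit 532) (nat_lit 20804231925) (nat_lit 608) (nat_lit 4828996621) (nat_lit 117) (nat_lit 5) (nat_lit 124) (nat_lit 5) (nat_lit 125) (nat_lit 5) (nat_lit 338) (nat_lit 317) (nat_lit 125)))) (XT.nd (nat_lit 78) (nat_lit 532) (nat_lit 0) (XT.lf (nat_lit 0) (nat_lit 18978417795)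 (nat_lit 532) (nat_lit 9980911988) (nat_lit 608) (nat_lit 2824273956) (nat_lit 117) (nat_lit 5) (nat_lit 124) (nat_lit 5) (nat_lit 125) (nat_lit 5) (nat_lit 339) (nat_lit 317) (nat_lit 124)) (XT.nd (nat_lit 78) (nat_lit 76) (nat_lit 0) (XT.lf (nat_lit 0) (nat_lit 401931002) (nat_lit 456) (nat_lit 31199349067) (nat_lit 532) (nat_lit 746513563) (nat_lit 111) (nat_lit 5) (nat_lit 117) (nat_lit 5) (nat_lit 118) (nat_lit 5) (nat_lit 340) (nat_lit 317) (nat_lit 123)) (XT.lf (nat_lit 0) (nat_lit 1593259222) (nat_lit 532) (nat_lit 18773197045) (nat_lit 76) (nat_lit 12555251899) (nat_lit 110) (nat_lit 5) (nat_lit 117) (nat_lit 5) (nat_lit 111) (nat_lit 5) (nat_lit 341) (nat_lit 317) (nat_lit 122))))))))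
noncomputable def xc238 : XT := (XT.nd (nat_lit 1716) (nat_lit 608) (nat_lit 0) (XT.nd (nat_lit 858) (nat_lit 1900) (nat_lit 0) (XT.nd (nat_lit 390) (nat_lit 836) (nat_lit 0) (XT.nd (nat_lit 156) (nat_lit 456) (nat_lit 0) (XT.nd (nat_lit 78) (nat_lit 532) (nat_lit 0) (XT.lf (nat_lit 0) (nat_lit 3985759736) (nat_lit 532) (nat_lit 5215097217) (nat_lit 76) (nat_lit 24311842104) (nat_lit 110) (nat_lit 5) (nat_lit 117) (nat_lit 5) (nat_lit 111) (nat_lit 5) (nat_lit 342) (nat_lit 317) (nat_lit 121)) (XT.lf (nat_lit 0) (nat_lit 6556361411) (nat_lit 608) (nat_lit 25220330240) (nat_lit 76) (nat_lit 2341544858) (nat_lit 103) (nat_lit 5) (nat_lit 111) (nat_lit 5) (nat_lit 104) (nat_lit 5) (nat_lit 343) (nat_lit 317) (nat_lit 120))) (XT.nd (nat_lit 78) (nat_lit 456) (nat_lit 0) (XT.lf (nat_lit 0) (nat_lit 9346021403) (nat_lit 608) (nat_lit 11293115923) (nat_lit 76) (nat_lit 14098550979) (nat_lit 103) (nat_lit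 5) (nat_lit 111) (nat_lit 5) (nat_lit 104) (nat_lit 5) (nat_lit 344) (nat_lit 317) (nat_lit 119)) (XT.nd (nat_lit 78) (nat_lit 0) (nat_lit 0) (XT.lf (nat_lit 0) (nat_lit 3110335918) (nat_lit 456) (nat_lit 9136660920) (nat_lit 532) (nat_lit 23127904287) (nat_lit 97) (nat_lit 5) (nat_lit 103) (nat_lit 5) (nat_lit 104) (nat_lit 5) (nat_lit 345) (nat_lit 317) (nat_lit 118)) (XT.lf (nat_lit 0) (nat_lit 15373999232) (nat_lit 532) (nat_lit 17879931054) (nat_lit 76) (nat_lit 2773136171) (nat_lit 97) (nat_lit 5) (nat_lit 104) (nat_lit 5) (nat_lit 98) (nat_lit 5) (nat_lit 346) (nat_lit 317) (nat_lit 117))))) (XT.nd (nat_lit 234) (nat_lit 380) (nat_lit 0) (XT.nd (nat_lit 78) (nat_lit 456) (nat_lit 0) (XT.lf (nat_lit 0) (nat_lit 18683110136) (nat_lit 532) (nat_lit 3156475371) (nat_lit 76) (nat_lit 14856568170) (nat_lit 97) (nat_lit 5) (nat_lit 104) (nat_lit 5) (nat_lit 98) (nat_lit 5) (nat_lit 347) (nat_lit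 317) (nat_lit 116)) (XT.nd (nat_lit 78) (nat_lit 0) (nat_lit 0) (XT.lf (nat_lit 0) (nat_lit 12245446946) (nat_lit 456) (nat_lit 9961657616) (nat_lit 532) (nat_lit 15174746358) (nat_lit 91) (nat_lit 5) (nat_lit 97) (nat_lit 5) (nat_lit 98) (nat_lit 5) (nat_lit 348) (nat_lit 317) (nat_lit 115)) (XT.lf (nat_lit 0) (nat_lit 25888793082) (nat_lit 532) (nat_lit 9937427208) (nat_lit 76) (nat_lit 2260345105) (nat_lit 91) (nat_lit 5) (nat_lit 98) (nat_lit 5) (nat_lit 92) (nat_lit 5) (nat_lit 349) (nat_lit 317) (nat_lit 114)))) (XT.nd (nat_lit 78) (nat_lit 0) (nat_lit 0) (XT.lf (nat_lit 0) (nat_lit 5728502743) (nat_lit 380) (nat_lit 24104124460) (nat_lit 456) (nat_lit 8975248635) (nat_lit 86) (nat_lit 5) (nat_lit 91) (nat_lit 5) (nat_lit 92) (nat_lit 5) (nat_lit 350) (nat_lit 317) (nat_lit 113)) (XT.nd (nat_lit 78) (nat_lit 0) (nat_lit 0) (XT.lf (nat_lit 0) (nat_lit 22065969813) (nat_lit 380) (nat_lit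 11927191502) (nat_lit 456) (nat_lit 5554717957) (nat_lit 86) (nat_lit 5) (nat_lit 91) (nat_lit 5) (nat_lit 92) (nat_lit 5) (nat_lit 351) (nat_lit 317) (nat_lit 112)) (XT.lf (nat_lit 0) (nat_lit 38282515586) (nat_lit 456) (nat_lit 1424580412) (nat_lit 76) (nat_lit 602871761) (nat_lit 86) (nat_lit 5) (nat_lit 92) (nat_lit 5) (nat_lit 87) (nat_lit 5) (nat_lit 352) (nat_lit 317) (nat_lit 111)))))) (XT.nd (nat_lit 390) (nat_lit 1064) (nat_lit 0) (XT.nd (nat_lit 156) (nat_lit 380) (nat_lit 0) (XT.nd (nat_lit 78) (nat_lit 0) (nat_lit 0) (XT.lf (nat_lit 0) (nat_lit 1840142813) (nat_lit 456) (nat_lit 25812357605) (nat_lit 76) (nat_lit 13433984949) (nat_lit 80) (nat_lit 5) (nat_lit 86) (nat_lit 5) (nat_lit 81) (nat_lit 5) (nat_lit 353) (nat_lit 317) (nat_lit 110)) (XT.lf (nat_lit 0) (nat_lit 5795702676) (nat_lit 456) (nat_lit 9405188078) (nat_lit 76) (nat_lit 26684429574) (nat_lit 80) (nat_lit 5) (nat_lit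 86) (nat_lit 5) (nat_lit 81) (nat_lit 5) (nat_lit 354) (nat_lit 317) (nat_lit 109))) (XT.nd (nat_lit 78) (nat_lit 0) (nat_lit 0) (XT.lf (nat_lit 0) (nat_lit 7641261765) (nat_lit 380) (nat_lit 2300332586) (nat_lit 456) (nat_lit 32764380544) (nat_lit 75) (nat_lit 5) (nat_lit 80) (nat_lit 5) (nat_lit 81) (nat_lit 5) (nat_lit 355) (nat_lit 317) (nat_lit 108)) (XT.nd (nat_lit 78) (nat_lit 0) (nat_lit 0) (XT.lf (nat_lit 0) (nat_lit 14411635733) (nat_lit 456) (nat_lit 18265131791) (nat_lit 76) (nat_lit 10868492764) (nat_lit 75) (nat_lit 5) (nat_lit 81) (nat_lit 5) (nat_lit 76) (nat_lit 5) (nat_lit 356) (nat_lit 317) (nat_lit 107)) (XT.lf (nat_lit 0) (nat_lit 19036847679) (nat_lit 456) (nat_lit 986355783) (nat_lit 76) (nat_lit 24385892949) (nat_lit 75) (nat_lit 5) (nat_lit 81) (nat_lit 5) (nat_lit 76) (nat_lit 5) (nat_lit 357) (nat_lit 317) (nat_lit 106))))) (XT.nd (nat_lit 234) (nat_lit 380) (nat_lit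 0) (XT.nd (nat_lit 78) (nat_lit 304) (nat_lit 0) (XT.lf (nat_lit 0) (nat_lit 17143353633) (nat_lit 380) (nat_lit 6820598203) (nat_lit 456) (nat_lit 21330005832) (nat_lit 70) (nat_lit 5) (nat_lit 75) (nat_lit 5) (nat_lit 76) (nat_lit 5) (nat_lit 358) (nat_lit 317) (nat_lit 105)) (XT.nd (nat_lit 78) (nat_lit 304) (nat_lit 0) (XT.lf (nat_lit 0) (nat_lit 29112453152) (nat_lit 456) (nat_lit 10435135075) (nat_lit 76) (nat_lit 6655573020) (nat_lit 70) (nat_lit 5) (nat_lit 76) (nat_lit 5) (nat_lit 71) (nat_lit 5) (nat_lit 359) (nat_lit 317) (nat_lit 104)) (XT.lf (nat_lit 0) (nat_lit 7896423824) (nat_lit 304) (nat_lit 26660839144) (nat_lit 380) (nat_lit 12578126250) (nat_lit 66) (nat_lit 5) (nat_lit 70) (nat_lit 5) (nat_lit 71) (nat_lit 5) (nat_lit 360) (nat_lit 317) (nat_lit 103)))) (XT.nd (nat_lit 78) (nat_lit 380) (nat_lit 0) (XT.lf (nat_lit 0) (nat_lit 26989927336) (nat_lit 304) (nat_lit 13279309387)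 (nat_lit 380) (nat_lit 7823236491) (nat_lit 66) (nat_lit 5) (nat_lit 70) (nat_lit 5) (nat_lit 71) (nat_lit 5) (nat_lit 361) (nat_lit 317) (nat_lit 102)) (XT.nd (nat_lit 78) (nat_lit 380) (nat_lit 0) (XT.lf (nat_lit 0) (nat_lit 46155898427) (nat_lit 380) (nat_lit 2428777437) (nat_lit 76) (nat_lit 493497669) (nat_lit 66) (nat_lit 5) (nat_lit 71) (nat_lit 5) (nat_lit 67) (nat_lit 5) (nat_lit 362) (nat_lit 317) (nat_lit 101)) (XT.lf (nat_lit 0) (nat_lit 2380596166) (nat_lit 380) (nat_lit 33104301701) (nat_lit 76) (nat_lit 14599046598) (nat_lit 61) (nat_lit 5) (nat_lit 66) (nat_lit 5) (nat_lit 62) (nat_lit 5) (nat_lit 363) (nat_lit 317) (nat_lit 100))))))) (XT.nd (nat_lit 37440) (nat_lit 0) (nat_lit 6080) (XT.nd (nat_lit 390) (nat_lit 0) (nat_lit 0) (XT.nd (nat_lit 156) (nat_lit 304) (nat_lit 0) (XT.nd (nat_lit 78) (nat_lit 304) (nat_lit 0) (XT.lf (nat_lit 0) (nat_lit 7807126234) (nat_lit 380) (nat_lit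 14130086907) (nat_lit 76) (nat_lit 29181111510) (nat_lit 61) (nat_lit 5) (nat_lit 66) (nat_lit 5) (nat_lit 62) (nat_lit 5) (nat_lit 364) (nat_lit 317) (nat_lit 99)) (XT.lf (nat_lit 0) (nat_lit 5519247899) (nat_lit 304) (nat_lit 7928840024) (nat_lit 380) (nat_lit 38734102504) (nat_lit 57) (nat_lit 5) (nat_lit 61) (nat_lit 5) (nat_lit 62) (nat_lit 5) (nat_lit 365) (nat_lit 317) (nat_lit 98))) (XT.nd (nat_lit 78) (nat_lit 304) (nat_lit 0) (XT.lf (nat_lit 0) (nat_lit 19463458935) (nat_lit 380) (nat_lit 27291698878) (nat_lit 76) (nat_lit 6516662112) (nat_lit 57) (nat_lit 5) (nat_lit 62) (nat_lit 5) (nat_lit 58) (nat_lit 5) (nat_lit 366) (nat_lit 317) (nat_lit 97)) (XT.nd (nat_lit 78) (nat_lit 304) (nat_lit 0) (XT.lf (nat_lit 0) (nat_lit 25736436834) (nat_lit 380) (nat_lit 7419598301) (nat_lit 76) (nat_lit 21235791871) (nat_lit 57) (nat_lit 5) (nat_lit 62) (nat_lit 5) (nat_lit 58) (nat_lit 5) (nat_lit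 367) (nat_lit 317) (nat_lit 96)) (XT.lf (nat_lit 0) (nat_lit 13306599723) (nat_lit 304) (nat_lit 19017597455) (nat_lit 380) (nat_lit 23217442306) (nat_lit 53) (nat_lit 5) (nat_lit 57) (nat_lit 5) (nat_lit 58) (nat_lit 5) (nat_lit 368) (nat_lit 317) (nat_lit 95))))) (XT.nd (nat_lit 36816) (nat_lit 0) (nat_lit 6004) (XT.nd (nat_lit 36660) (nat_lit 0) (nat_lit 5928) (XT.lf (nat_lit 0) (nat_lit 34804969834) (nat_lit 304) (nat_lit 4378247793) (nat_lit 380) (nat_lit 17540522784) (nat_lit 53) (nat_lit 5) (nat_lit 57) (nat_lit 5) (nat_lit 58) (nat_lit 5) (nat_lit 369) (nat_lit 317) (nat_lit 94)) (XT.nd (nat_lit 78) (nat_lit 0) (nat_lit 0) (XT.lf (nat_lit 0) (nat_lit 1332745935) (nat_lit 1140) (nat_lit 5081382311) (nat_lit 1140) (nat_lit 5081382311) (nat_lit 131) (nat_lit 3) (nat_lit 146) (nat_lit 3) (nat_lit 146) (nat_lit 5) (nat_lit 318) (nat_lit 318) (nat_lit 144)) (XT.lf (nat_lit 0) (nat_lit 2816063751)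 (nat_lit 1140) (nat_lit 1017701084) (nat_lit 1140) (nat_lit 19498469144) (nat_lit 131) (nat_lit 3) (nat_lit 146) (nat_lit 3) (nat_lit 146) (nat_lit 5) (nat_lit 319) (nat_lit 318) (nat_lit 143)))) (XT.nd (nat_lit 78) (nat_lit 0) (nat_lit 0) (XT.lf (nat_lit 0) (nat_lit 3102221948) (nat_lit 1064) (nat_lit 15167741290) (nat_lit 1140) (nat_lit 5409800981) (nat_lit 132) (nat_lit 5) (nat_lit 146) (nat_lit 5) (nat_lit 147) (nat_lit 5) (nat_lit 320) (nat_lit 318) (nat_lit 142)) (XT.nd (nat_lit 78) (nat_lit 0) (nat_lit 76) (XT.lf (nat_lit 0) (nat_lit 3441109250) (nat_lit 1064) (nat_lit 5729337053) (nat_lit 1140) (nat_lit 14865962417) (nat_lit 132) (nat_lit 5) (nat_lit 146) (nat_lit 5) (nat_lit 147) (nat_lit 5) (nat_lit 321) (nat_lit 318) (nat_lit 141)) (XT.lf (nat_lit 0) (nat_lit 3827556546) (nat_lit 1064) (nat_lit 20335730313) (nat_lit 1140) (nat_lit 239356209) (nat_lit 133) (nat_lit 5) (nat_lit 147)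 (nat_lit 5) (nat_lit 148) (nat_lit 5) (nat_lit 322) (nat_lit 318) (nat_lit 140)))))) (XT.nd (nat_lit 390) (nat_lit 0) (nat_lit 152) (XT.nd (nat_lit 156) (nat_lit 0) (nat_lit 76) (XT.nd (nat_lit 78) (nat_lit 0) (nat_lit 0) (XT.lf (nat_lit 0) (nat_lit 4370864531) (nat_lit 1064) (nat_lit 10597424046) (nat_lit 1140) (nat_lit 9807229809) (nat_lit 133) (nat_lit 5) (nat_lit 147) (nat_lit 5) (nat_lit 148) (nat_lit 5) (nat_lit 323) (nat_lit 318) (nat_lit 139)) (XT.lf (nat_lit 0) (nat_lit 4926629890) (nat_lit 1064) (nat_lit 569319837) (nat_lit 1140) (nat_lit 19663757101) (nat_lit 133) (nat_lit 5) (nat_lit 147) (nat_lit 5) (nat_lit 148) (nat_lit 5) (nat_lit 324) (nat_lit 318) (nat_lit 138))) (XT.nd (nat_lit 78) (nat_lit 0) (nat_lit 0) (XT.lf (nat_lit 0) (nat_lit 5632914631) (nat_lit 1064) (nat_lit 15643055402) (nat_lit 1140) (nat_lit 4275446768) (nat_lit 134) (nat_lit 5) (nat_lit 148) (nat_lit 5) (nat_lit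 149) (nat_lit 5) (nat_lit 325) (nat_lit 318) (nat_lit 137)) (XT.nd (nat_lit 78) (nat_lit 0) (nat_lit 0) (XT.lf (nat_lit 0) (nat_lit 6416979429) (nat_lit 1064) (nat_lit 5299528202) (nat_lit 1140) (nat_lit 14236683637) (nat_lit 134) (nat_lit 5) (nat_lit 148) (nat_lit 5) (nat_lit 149) (nat_lit 5) (nat_lit 326) (nat_lit 318) (nat_lit 136)) (XT.lf (nat_lit 76) (nat_lit 5458495541) (nat_lit 0) (nat_lit 1815016986) (nat_lit 1140) (nat_lit 19092048675) (nat_lit 135) (nat_lit 5) (nat_lit 134) (nat_lit 5) (nat_lit 149) (nat_lit 5) (nat_lit 327) (nat_lit 318) (nat_lit 135))))) (XT.nd (nat_lit 234) (nat_lit 0) (nat_lit 76) (XT.nd (nat_lit 78) (nat_lit 0) (nat_lit 0) (XT.lf (nat_lit 0) (nat_lit 8286941276) (nat_lit 1064) (nat_lit 10224345012) (nat_lit 1140) (nat_lit 8275090272) (nat_lit 135) (nat_lit 5) (nat_lit 149) (nat_lit 5) (nat_lit 150) (nat_lit 5) (nat_lit 328) (nat_lit 318) (nat_lit 134)) (XT.nd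 (nat_lit 78) (nat_lit 0) (nat_lit 76) (XT.lf (nat_lit 76) (nat_lit 773627722) (nat_lit 0) (nat_lit 8579219645) (nat_lit 1140) (nat_lit 17866316788) (nat_lit 136) (nat_lit 5) (nat_lit 135) (nat_lit 5) (nat_lit 150) (nat_lit 5) (nat_lit 329) (nat_lit 318) (nat_lit 133)) (XT.lf (nat_lit 0) (nat_lit 10567618278) (nat_lit 1064) (nat_lit 15370048737) (nat_lit 1140) (nat_lit 1723771456) (nat_lit 136) (nat_lit 5) (nat_lit 150) (nat_lit 5) (nat_lit 151) (nat_lit 5) (nat_lit 330) (nat_lit 318) (nat_lit 132)))) (XT.nd (nat_lit 78) (nat_lit 0) (nat_lit 0) (XT.lf (nat_lit 0) (nat_lit 11900620694) (nat_lit 1064) (nat_lit 4049616459) (nat_lit 1140) (nat_lit 12164299650) (nat_lit 136) (nat_lit 5) (nat_lit 150) (nat_lit 5) (nat_lit 151) (nat_lit 5) (nat_lit 331) (nat_lit 318) (nat_lit 131)) (XT.nd (nat_lit 78) (nat_lit 0) (nat_lit 76) (XT.lf (nat_lit 76) (nat_lit 7759537266) (nat_lit 0) (nat_lit 5585602820)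 (nat_lit 1140) (nat_lit 15233951357) (nat_lit 137) (nat_lit 5) (nat_lit 136) (nat_lit 5) (nat_lit 151) (nat_lit 5) (nat_lit 332) (nat_lit 318) (nat_lit 130)) (XT.lf (nat_lit 0) (nat_lit 14920232579) (nat_lit 1064) (nat_lit 9102100939) (nat_lit 1140) (nat_lit 5032640975) (nat_lit 137) (nat_lit 5) (nat_lit 151) (nat_lit 5) (nat_lit 152) (nat_lit 5) (nat_lit 333) (nat_lit 318) (nat_lit 129))))))))
noncomputable def xc239 : XT := (XT.nd (nat_lit 1716) (nat_lit 1748) (nat_lit 0) (XT.nd (nat_lit 858) (nat_lit 1748) (nat_lit 0) (XT.nd (nat_lit 390) (nat_lit 1596) (nat_lit 0) (XT.nd (nat_lit 156) (nat_lit 988) (nat_lit 0) (XT.nd (nat_lit 78) (nat_lit 0) (nat_lit 0) (XT.lf (nat_lit 76) (nat_lit 2967151357) (nat_lit 0) (nat_lit 13656350142) (nat_lit 1140) (nat_lit 12919213463) (nat_lit 138) (nat_lit 5) (nat_lit 137) (nat_lit 5) (nat_lit 152) (nat_lit 5) (nat_lit 334) (nat_lit 318) (nat_lit 128)) (XT.lf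 (nat_lit 76) (nat_lit 15582766777) (nat_lit 0) (nat_lit 2884176077) (nat_lit 1140) (nat_lit 11575480947) (nat_lit 138) (nat_lit 5) (nat_lit 137) (nat_lit 5) (nat_lit 152) (nat_lit 5) (nat_lit 335) (nat_lit 318) (nat_lit 127))) (XT.nd (nat_lit 78) (nat_lit 1064) (nat_lit 0) (XT.lf (nat_lit 0) (nat_lit 20441866899) (nat_lit 1064) (nat_lit 2061531487) (nat_lit 76) (nat_lit 8051448276) (nat_lit 138) (nat_lit 5) (nat_lit 152) (nat_lit 5) (nat_lit 139) (nat_lit 5) (nat_lit 336) (nat_lit 318) (nat_lit 126)) (XT.nd (nat_lit 78) (nat_lit 0) (nat_lit 0) (XT.lf (nat_lit 0) (nat_lit 10890229494) (nat_lit 1064) (nat_lit 11716377779) (nat_lit 1140) (nat_lit 8472125783) (nat_lit 124) (nat_lit 5) (nat_lit 138) (nat_lit 5) (nat_lit 139) (nat_lit 5) (nat_lit 337) (nat_lit 318) (nat_lit 125)) (XT.lf (nat_lit 0) (nat_lit 24270565108) (nat_lit 1064) (nat_lit 583927328) (nat_lit 1140) (nat_lit 6763305202) (nat_lit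 124) (nat_lit 5) (nat_lit 138) (nat_lit 5) (nat_lit 139) (nat_lit 5) (nat_lit 338) (nat_lit 318) (nat_lit 124))))) (XT.nd (nat_lit 234) (nat_lit 608) (nat_lit 0) (XT.nd (nat_lit 78) (nat_lit 456) (nat_lit 0) (XT.lf (nat_lit 0) (nat_lit 5887290119) (nat_lit 532) (nat_lit 21441190317) (nat_lit 608) (nat_lit 4839801184) (nat_lit 117) (nat_lit 5) (nat_lit 124) (nat_lit 5) (nat_lit 125) (nat_lit 5) (nat_lit 339) (nat_lit 318) (nat_lit 123)) (XT.nd (nat_lit 78) (nat_lit 456) (nat_lit 0) (XT.lf (nat_lit 0) (nat_lit 19661325613) (nat_lit 532) (nat_lit 10292797050) (nat_lit 608) (nat_lit 2778841656) (nat_lit 117) (nat_lit 5) (nat_lit 124) (nat_lit 5) (nat_lit 125) (nat_lit 5) (nat_lit 340) (nat_lit 318) (nat_lit 122)) (XT.lf (nat_lit 0) (nat_lit 530656376) (nat_lit 456) (nat_lit 32142010016) (nat_lit 532) (nat_lit 641504162) (nat_lit 111) (nat_lit 5) (nat_lit 117) (nat_lit 5) (nat_lit 118) (nat_lit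 5) (nat_lit 341) (nat_lit 318) (nat_lit 121)))) (XT.nd (nat_lit 78) (nat_lit 532) (nat_lit 0) (XT.lf (nat_lit 0) (nat_lit 1762337272) (nat_lit 532) (nat_lit 19220373890) (nat_lit 76) (nat_lit 12922673853) (nat_lit 110) (nat_lit 5) (nat_lit 117) (nat_lit 5) (nat_lit 111) (nat_lit 5) (nat_lit 342) (nat_lit 318) (nat_lit 120)) (XT.nd (nat_lit 78) (nat_lit 532) (nat_lit 0) (XT.lf (nat_lit 0) (nat_lit 4223080366) (nat_lit 532) (nat_lit 5258910263) (nat_lit 76) (nat_lit 25032230762) (nat_lit 110) (nat_lit 5) (nat_lit 117) (nat_lit 5) (nat_lit 111) (nat_lit 5) (nat_lit 343) (nat_lit 318) (nat_lit 119)) (XT.lf (nat_lit 0) (nat_lit 6868405636) (nat_lit 608) (nat_lit 25861589121) (nat_lit 76) (nat_lit 2408011547) (nat_lit 103) (nat_lit 5) (nat_lit 111) (nat_lit 5) (nat_lit 104) (nat_lit 5) (nat_lit 344) (nat_lit 318) (nat_lit 118)))))) (XT.nd (nat_lit 390) (nat_lit 836) (nat_lit 0) (XT.nd (nat_lit 156)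 (nat_lit 456) (nat_lit 0) (XT.nd (nat_lit 78) (nat_lit 456) (nat_lit 0) (XT.lf (nat_lit 0) (nat_lit 9738395620) (nat_lit 608) (nat_lit 11519918113) (nat_lit 76) (nat_lit 14517837938) (nat_lit 103) (nat_lit 5) (nat_lit 111) (nat_lit 5) (nat_lit 104) (nat_lit 5) (nat_lit 345) (nat_lit 318) (nat_lit 117)) (XT.lf (nat_lit 0) (nat_lit 3314539330) (nat_lit 456) (nat_lit 9409665013) (nat_lit 532) (nat_lit 23708351367) (nat_lit 97) (nat_lit 5) (nat_lit 103) (nat_lit 5) (nat_lit 104) (nat_lit 5) (nat_lit 346) (nat_lit 318) (nat_lit 116))) (XT.nd (nat_lit 78) (nat_lit 456) (nat_lit 0) (XT.lf (nat_lit 0) (nat_lit 15941829047) (nat_lit 532) (nat_lit 18305187966) (nat_lit 76) (nat_lit 2857373317) (nat_lit 97) (nat_lit 5) (nat_lit 104) (nat_lit 5) (nat_lit 98) (nat_lit 5) (nat_lit 347) (nat_lit 318) (nat_lit 115)) (XT.nd (nat_lit 78) (nat_lit 456) (nat_lit 0) (XT.lf (nat_lit 0) (nat_lit 19347108138) (nat_lit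 532) (nat_lit 3143265730) (nat_lit 76) (nat_lit 15303277895) (nat_lit 97) (nat_lit 5) (nat_lit 104) (nat_lit 5) (nat_lit 98) (nat_lit 5) (nat_lit 348) (nat_lit 318) (nat_lit 114)) (XT.lf (nat_lit 0) (nat_lit 12719656375) (nat_lit 456) (nat_lit 10255178390) (nat_lit 532) (nat_lit 15525152981) (nat_lit 91) (nat_lit 5) (nat_lit 97) (nat_lit 5) (nat_lit 98) (nat_lit 5) (nat_lit 349) (nat_lit 318) (nat_lit 113))))) (XT.nd (nat_lit 234) (nat_lit 456) (nat_lit 0) (XT.nd (nat_lit 78) (nat_lit 380) (nat_lit 0) (XT.lf (nat_lit 0) (nat_lit 26764066867) (nat_lit 532) (nat_lit 10128643716) (nat_lit 76) (nat_lit 2333228242) (nat_lit 91) (nat_lit 5) (nat_lit 98) (nat_lit 5) (nat_lit 92) (nat_lit 5) (nat_lit 350) (nat_lit 318) (nat_lit 112)) (XT.nd (nat_lit 78) (nat_lit 0) (nat_lit 0) (XT.lf (nat_lit 0) (nat_lit 6006216032) (nat_lit 380) (nat_lit 24818145418) (nat_lit 456) (nat_lit 9144590494) (nat_lit 86)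 (nat_lit 5) (nat_lit 91) (nat_lit 5) (nat_lit 92) (nat_lit 5) (nat_lit 351) (nat_lit 318) (nat_lit 111)) (XT.lf (nat_lit 0) (nat_lit 22830723865) (nat_lit 380) (nat_lit 12276169601) (nat_lit 456) (nat_lit 5624354059) (nat_lit 86) (nat_lit 5) (nat_lit 91) (nat_lit 5) (nat_lit 92) (nat_lit 5) (nat_lit 352) (nat_lit 318) (nat_lit 110)))) (XT.nd (nat_lit 78) (nat_lit 456) (nat_lit 0) (XT.lf (nat_lit 0) (nat_lit 39522274805) (nat_lit 456) (nat_lit 1364640027) (nat_lit 76) (nat_lit 629370722) (nat_lit 86) (nat_lit 5) (nat_lit 92) (nat_lit 5) (nat_lit 87) (nat_lit 5) (nat_lit 353) (nat_lit 318) (nat_lit 109)) (XT.nd (nat_lit 78) (nat_lit 0) (nat_lit 0) (XT.lf (nat_lit 0) (nat_lit 1986067632) (nat_lit 456) (nat_lit 26483022874) (nat_lit 76) (nat_lit 13847039014) (nat_lit 80) (nat_lit 5) (nat_lit 86) (nat_lit 5) (nat_lit 81) (nat_lit 5) (nat_lit 354) (nat_lit 318) (nat_lit 108)) (XT.lf (nat_lit 0) (nat_lit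 6057651946) (nat_lit 456) (nat_lit 9586658808) (nat_lit 76) (nat_lit 27494704711) (nat_lit 80) (nat_lit 5) (nat_lit 86) (nat_lit 5) (nat_lit 81) (nat_lit 5) (nat_lit 355) (nat_lit 318) (nat_lit 107))))))) (XT.nd (nat_lit 858) (nat_lit 0) (nat_lit 0) (XT.nd (nat_lit 390) (nat_lit 988) (nat_lit 0) (XT.nd (nat_lit 156) (nat_lit 380) (nat_lit 0) (XT.nd (nat_lit 78) (nat_lit 0) (nat_lit 0) (XT.lf (nat_lit 0) (nat_lit 7970197424) (nat_lit 380) (nat_lit 2356115920) (nat_lit 456) (nat_lit 33658031006) (nat_lit 75) (nat_lit 5) (nat_lit 80) (nat_lit 5) (nat_lit 81) (nat_lit 5) (nat_lit 356) (nat_lit 318) (nat_lit 106)) (XT.lf (nat_lit 0) (nat_lit 14928060828) (nat_lit 456) (nat_lit 18713687244) (nat_lit 76) (nat_lit 11207138367) (nat_lit 75) (nat_lit 5) (nat_lit 81) (nat_lit 5) (nat_lit 76) (nat_lit 5) (nat_lit 357) (nat_lit 318) (nat_lit 105))) (XT.nd (nat_lit 78) (nat_lit 380) (nat_lit 0) (XT.lf (nat_lit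 0) (nat_lit 19689580317) (nat_lit 456) (nat_lit 919443058) (nat_lit 76) (nat_lit 25129693835) (nat_lit 75) (nat_lit 5) (nat_lit 81) (nat_lit 5) (nat_lit 76) (nat_lit 5) (nat_lit 358) (nat_lit 318) (nat_lit 104)) (XT.nd (nat_lit 78) (nat_lit 0) (nat_lit 0) (XT.lf (nat_lit 0) (nat_lit 17753211529) (nat_lit 380) (nat_lit 7009827134) (nat_lit 456) (nat_lit 21887135331) (nat_lit 70) (nat_lit 5) (nat_lit 75) (nat_lit 5) (nat_lit 76) (nat_lit 5) (nat_lit 359) (nat_lit 318) (nat_lit 103)) (XT.lf (nat_lit 0) (nat_lit 30063803639) (nat_lit 456) (nat_lit 10653032075) (nat_lit 76) (nat_lit 6869889454) (nat_lit 70) (nat_lit 5) (nat_lit 76) (nat_lit 5) (nat_lit 71) (nat_lit 5) (nat_lit 360) (nat_lit 318) (nat_lit 102))))) (XT.nd (nat_lit 234) (nat_lit 684) (nat_lit 0) (XT.nd (nat_lit 78) (nat_lit 0) (nat_lit 0) (XT.lf (nat_lit 0) (nat_lit 8227540679) (nat_lit 304) (nat_lit 27443051640) (nat_lit 380) (nat_lit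 12876374204) (nat_lit 66) (nat_lit 5) (nat_lit 70) (nat_lit 5) (nat_lit 71) (nat_lit 5) (nat_lit 361) (nat_lit 318) (nat_lit 101)) (XT.nd (nat_lit 78) (nat_lit 0) (nat_lit 0) (XT.lf (nat_lit 0) (nat_lit 27891104904) (nat_lit 304) (nat_lit 13660588980) (nat_lit 380) (nat_lit 7981141515) (nat_lit 66) (nat_lit 5) (nat_lit 70) (nat_lit 5) (nat_lit 71) (nat_lit 5) (nat_lit 362) (nat_lit 318) (nat_lit 100)) (XT.lf (nat_lit 0) (nat_lit 47612948615) (nat_lit 380) (nat_lit 2410643298) (nat_lit 76) (nat_lit 524580280) (nat_lit 66) (nat_lit 5) (nat_lit 71) (nat_lit 5) (nat_lit 67) (nat_lit 5) (nat_lit 363) (nat_lit 318) (nat_lit 99)))) (XT.nd (nat_lit 78) (nat_lit 304) (nat_lit 0) (XT.lf (nat_lit 0) (nat_lit 2524016667) (nat_lit 380) (nat_lit 34005727145) (nat_lit 76) (nat_lit 15054393625) (nat_lit 61) (nat_lit 5) (nat_lit 66) (nat_lit 5) (nat_lit 62) (nat_lit 5) (nat_lit 364) (nat_lit 318) (nat_lit 98))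 (XT.nd (nat_lit 78) (nat_lit 304) (nat_lit 0) (XT.lf (nat_lit 0) (nat_lit 8111245473) (nat_lit 380) (nat_lit 14464956886) (nat_lit 76) (nat_lit 30073414398) (nat_lit 61) (nat_lit 5) (nat_lit 66) (nat_lit 5) (nat_lit 62) (nat_lit 5) (nat_lit 365) (nat_lit 318) (nat_lit 97)) (XT.lf (nat_lit 0) (nat_lit 5772985096) (nat_lit 304) (nat_lit 8147262282) (nat_lit 380) (nat_lit 39825191463) (nat_lit 57) (nat_lit 5) (nat_lit 61) (nat_lit 5) (nat_lit 62) (nat_lit 5) (nat_lit 366) (nat_lit 318) (nat_lit 96)))))) (XT.nd (nat_lit 37206) (nat_lit 0) (nat_lit 5776) (XT.nd (nat_lit 36972) (nat_lit 0) (nat_lit 5624) (XT.nd (nat_lit 78) (nat_lit 0) (nat_lit 0) (XT.lf (nat_lit 0) (nat_lit 20114259513) (nat_lit 380) (nat_lit 28022886580) (nat_lit 76) (nat_lit 6730670268) (nat_lit 57) (nat_lit 5) (nat_lit 62) (nat_lit 5) (nat_lit 58) (nat_lit 5) (nat_lit 367) (nat_lit 318) (nat_lit 95)) (XT.nd (nat_lit 36816) (nat_lit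 0) (nat_lit 5624) (XT.lf (nat_lit 0) (nat_lit 26573478298) (nat_lit 380) (nat_lit 7557173372) (nat_lit 76) (nat_lit 21890834843) (nat_lit 57) (nat_lit 5) (nat_lit 62) (nat_lit 5) (nat_lit 58) (nat_lit 5) (nat_lit 368) (nat_lit 318) (nat_lit 94)) (XT.lf (nat_lit 0) (nat_lit 1482254762) (nat_lit 1140) (nat_lit 5177251884) (nat_lit 1140) (nat_lit 5177251884) (nat_lit 131) (nat_lit 3) (nat_lit 146) (nat_lit 3) (nat_lit 146) (nat_lit 5) (nat_lit 319) (nat_lit 319) (nat_lit 142)))) (XT.nd (nat_lit 78) (nat_lit 0) (nat_lit 76) (XT.lf (nat_lit 0) (nat_lit 3113218382) (nat_lit 1140) (nat_lit 938383773) (nat_lit 1140) (nat_lit 19973574875) (nat_lit 131) (nat_lit 3) (nat_lit 146) (nat_lit 3) (nat_lit 146) (nat_lit 5) (nat_lit 320) (nat_lit 319) (nat_lit 141)) (XT.nd (nat_lit 78) (nat_lit 0) (nat_lit 0) (XT.lf (nat_lit 0) (nat_lit 3401863281) (nat_lit 1064) (nat_lit 15506202106) (nat_lit 1140) (nat_lit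 5475269482) (nat_lit 132) (nat_lit 5) (nat_lit 146) (nat_lit 5) (nat_lit 147) (nat_lit 5) (nat_lit 321) (nat_lit 319) (nat_lit 140)) (XT.lf (nat_lit 0) (nat_lit 3744900463) (nat_lit 1064) (nat_lit 5788041026) (nat_lit 1140) (nat_lit 15217935923) (nat_lit 132) (nat_lit 5) (nat_lit 146) (nat_lit 5) (nat_lit 147) (nat_lit 5) (nat_lit 322) (nat_lit 319) (nat_lit 139))))) (XT.nd (nat_lit 234) (nat_lit 0) (nat_lit 76) (XT.nd (nat_lit 78) (nat_lit 0) (nat_lit 0) (XT.lf (nat_lit 0) (nat_lit 4137372102) (nat_lit 1064) (nat_lit 20826467850) (nat_lit 1140) (nat_lit 164443587) (nat_lit 133) (nat_lit 5) (nat_lit 147) (nat_lit 5) (nat_lit 148) (nat_lit 5) (nat_lit 323) (nat_lit 319) (nat_lit 138)) (XT.nd (nat_lit 78) (nat_lit 0) (nat_lit 0) (XT.lf (nat_lit 0) (nat_lit 4691300039) (nat_lit 1064) (nat_lit 10799488153) (nat_lit 1140) (nat_lit 10021744462) (nat_lit 133) (nat_lit 5) (nat_lit 147) (nat_lit 5)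 (nat_lit 148) (nat_lit 5) (nat_lit 324) (nat_lit 319) (nat_lit 137)) (XT.lf (nat_lit 0) (nat_lit 5258224488) (nat_lit 1064) (nat_lit 473915340) (nat_lit 1140) (nat_lit 20176288998) (nat_lit 133) (nat_lit 5) (nat_lit 147) (nat_lit 5) (nat_lit 148) (nat_lit 5) (nat_lit 325) (nat_lit 319) (nat_lit 136)))) (XT.nd (nat_lit 78) (nat_lit 0) (nat_lit 0) (XT.lf (nat_lit 0) (nat_lit 5980760239) (nat_lit 1064) (nat_lit 15994386278) (nat_lit 1140) (nat_lit 4336907880) (nat_lit 134) (nat_lit 5) (nat_lit 148) (nat_lit 5) (nat_lit 149) (nat_lit 5) (nat_lit 326) (nat_lit 319) (nat_lit 135)) (XT.nd (nat_lit 78) (nat_lit 0) (nat_lit 0) (XT.lf (nat_lit 0) (nat_lit 6783137520) (nat_lit 1064) (nat_lit 5343989013) (nat_lit 1140) (nat_lit 14598927554) (nat_lit 134) (nat_lit 5) (nat_lit 148) (nat_lit 5) (nat_lit 149) (nat_lit 5) (nat_lit 327) (nat_lit 319) (nat_lit 134)) (XT.lf (nat_lit 76) (nat_lit 5735652647) (nat_lit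 0) (nat_lit 1925746326) (nat_lit 1140) (nat_lit 19489530422) (nat_lit 135) (nat_lit 5) (nat_lit 134) (nat_lit 5) (nat_lit 149) (nat_lit 5) (nat_lit 328) (nat_lit 319) (nat_lit 133))))))))
noncomputable def xc240 : XT := (XT.nd (nat_lit 1716) (nat_lit 2584) (nat_lit 0) (XT.nd (nat_lit 858) (nat_lit 2508) (nat_lit 0) (XT.nd (nat_lit 390) (nat_lit 836) (nat_lit 0) (XT.nd (nat_lit 156) (nat_lit 0) (nat_lit 76) (XT.nd (nat_lit 78) (nat_lit 0) (nat_lit 0) (XT.lf (nat_lit 0) (nat_lit 8699763188) (nat_lit 1064) (nat_lit 10415015294) (nat_lit 1140) (nat_lit 8469769555) (nat_lit 135) (nat_lit 5) (nat_lit 149) (nat_lit 5) (nat_lit 150) (nat_lit 5) (nat_lit 329) (nat_lit 319) (nat_lit 132)) (XT.lf (nat_lit 76) (nat_lit 911758779) (nat_lit 0) (nat_lit 8882209463) (nat_lit 1140) (nat_lit 18236475736) (nat_lit 136) (nat_lit 5) (nat_lit 135) (nat_lit 5) (nat_lit 150) (nat_lit 5) (nat_lit 330) (nat_lit 319)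 (nat_lit 131))) (XT.nd (nat_lit 78) (nat_lit 0) (nat_lit 0) (XT.lf (nat_lit 0) (nat_lit 11040080799) (nat_lit 1064) (nat_lit 15714008657) (nat_lit 1140) (nat_lit 1732064065) (nat_lit 136) (nat_lit 5) (nat_lit 150) (nat_lit 5) (nat_lit 151) (nat_lit 5) (nat_lit 331) (nat_lit 319) (nat_lit 130)) (XT.nd (nat_lit 78) (nat_lit 0) (nat_lit 0) (XT.lf (nat_lit 0) (nat_lit 12408546084) (nat_lit 1064) (nat_lit 4057375300) (nat_lit 1140) (nat_lit 12487072781) (nat_lit 136) (nat_lit 5) (nat_lit 150) (nat_lit 5) (nat_lit 151) (nat_lit 5) (nat_lit 332) (nat_lit 319) (nat_lit 129)) (XT.lf (nat_lit 76) (nat_lit 8104938041) (nat_lit 0) (nat_lit 5788150195) (nat_lit 1140) (nat_lit 15538509745) (nat_lit 137) (nat_lit 5) (nat_lit 136) (nat_lit 5) (nat_lit 151) (nat_lit 5) (nat_lit 333) (nat_lit 319) (nat_lit 128))))) (XT.nd (nat_lit 234) (nat_lit 988) (nat_lit 0) (XT.nd (nat_lit 78) (nat_lit 0) (nat_lit 0) (XT.lf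 (nat_lit 0) (nat_lit 15510808202) (nat_lit 1064) (nat_lit 9260778429) (nat_lit 1140) (nat_lit 5150322419) (nat_lit 137) (nat_lit 5) (nat_lit 151) (nat_lit 5) (nat_lit 152) (nat_lit 5) (nat_lit 334) (nat_lit 319) (nat_lit 127)) (XT.nd (nat_lit 78) (nat_lit 0) (nat_lit 0) (XT.lf (nat_lit 76) (nat_lit 3169430009) (nat_lit 0) (nat_lit 14092669809) (nat_lit 1140) (nat_lit 13162286572) (nat_lit 138) (nat_lit 5) (nat_lit 137) (nat_lit 5) (nat_lit 152) (nat_lit 5) (nat_lit 335) (nat_lit 319) (nat_lit 126)) (XT.lf (nat_lit 76) (nat_lit 16160214937) (nat_lit 0) (nat_lit 2996554915) (nat_lit 1140) (nat_lit 11782450914) (nat_lit 138) (nat_lit 5) (nat_lit 137) (nat_lit 5) (nat_lit 152) (nat_lit 5) (nat_lit 336) (nat_lit 319) (nat_lit 125)))) (XT.nd (nat_lit 78) (nat_lit 1064) (nat_lit 0) (XT.lf (nat_lit 0) (nat_lit 21186744453) (nat_lit 1064) (nat_lit 2012028474) (nat_lit 76) (nat_lit 8268380986) (nat_lit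 138) (nat_lit 5) (nat_lit 152) (nat_lit 5) (nat_lit 139) (nat_lit 5) (nat_lit 337) (nat_lit 319) (nat_lit 124)) (XT.nd (nat_lit 78) (nat_lit 0) (nat_lit 0) (XT.lf (nat_lit 0) (nat_lit 11327193679) (nat_lit 1064) (nat_lit 12086459581) (nat_lit 1140) (nat_lit 8593198196) (nat_lit 124) (nat_lit 5) (nat_lit 138) (nat_lit 5) (nat_lit 139) (nat_lit 5) (nat_lit 338) (nat_lit 319) (nat_lit 123)) (XT.lf (nat_lit 0) (nat_lit 25105727984) (nat_lit 1064) (nat_lit 619494147) (nat_lit 1140) (nat_lit 6836989446) (nat_lit 124) (nat_lit 5) (nat_lit 138) (nat_lit 5) (nat_lit 139) (nat_lit 5) (nat_lit 339) (nat_lit 319) (nat_lit 122)))))) (XT.nd (nat_lit 390) (nat_lit 1444) (nat_lit 0) (XT.nd (nat_lit 156) (nat_lit 532) (nat_lit 0) (XT.nd (nat_lit 78) (nat_lit 0) (nat_lit 0) (XT.lf (nat_lit 0) (nat_lit 6174156671) (nat_lit 532) (nat_lit 22096520884) (nat_lit 608) (nat_lit 4858625784) (nat_lit 117) (nat_lit 5)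 (nat_lit 124) (nat_lit 5) (nat_lit 125) (nat_lit 5) (nat_lit 340) (nat_lit 319) (nat_lit 121)) (XT.lf (nat_lit 0) (nat_lit 20358202127) (nat_lit 532) (nat_lit 10613323542) (nat_lit 608) (nat_lit 2739518133) (nat_lit 117) (nat_lit 5) (nat_lit 124) (nat_lit 5) (nat_lit 125) (nat_lit 5) (nat_lit 341) (nat_lit 319) (nat_lit 120))) (XT.nd (nat_lit 78) (nat_lit 76) (nat_lit 0) (XT.lf (nat_lit 0) (nat_lit 656546323) (nat_lit 456) (nat_lit 33112567306) (nat_lit 532) (nat_lit 540658036) (nat_lit 111) (nat_lit 5) (nat_lit 117) (nat_lit 5) (nat_lit 118) (nat_lit 5) (nat_lit 342) (nat_lit 319) (nat_lit 119)) (XT.nd (nat_lit 78) (nat_lit 0) (nat_lit 0) (XT.lf (nat_lit 0) (nat_lit 1929525680) (nat_lit 532) (nat_lit 19687626009) (nat_lit 76) (nat_lit 13301648627) (nat_lit 110) (nat_lit 5) (nat_lit 117) (nat_lit 5) (nat_lit 111) (nat_lit 5) (nat_lit 343) (nat_lit 319) (nat_lit 118)) (XT.lf (nat_lit 0) (nat_lit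 4460761408) (nat_lit 532) (nat_lit 5310503690) (nat_lit 76) (nat_lit 25774745800) (nat_lit 110) (nat_lit 5) (nat_lit 117) (nat_lit 5) (nat_lit 111) (nat_lit 5) (nat_lit 344) (nat_lit 319) (nat_lit 117))))) (XT.nd (nat_lit 234) (nat_lit 456) (nat_lit 0) (XT.nd (nat_lit 78) (nat_lit 456) (nat_lit 0) (XT.lf (nat_lit 0) (nat_lit 7183189431) (nat_lit 608) (nat_lit 26528707388) (nat_lit 76) (nat_lit 2476689203) (nat_lit 103) (nat_lit 5) (nat_lit 111) (nat_lit 5) (nat_lit 104) (nat_lit 5) (nat_lit 345) (nat_lit 319) (nat_lit 116)) (XT.nd (nat_lit 78) (nat_lit 456) (nat_lit 0) (XT.lf (nat_lit 0) (nat_lit 10136112174) (nat_lit 608) (nat_lit 11759953126) (nat_lit 76) (nat_lit 14949914155) (nat_lit 103) (nat_lit 5) (nat_lit 111) (nat_lit 5) (nat_lit 104) (nat_lit 5) (nat_lit 346) (nat_lit 319) (nat_lit 115)) (XT.lf (nat_lit 0) (nat_lit 3518503114) (nat_lit 456) (nat_lit 9690922129) (nat_lit 532) (nat_lit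 24312720911) (nat_lit 97) (nat_lit 5) (nat_lit 103) (nat_lit 5) (nat_lit 104) (nat_lit 5) (nat_lit 347) (nat_lit 319) (nat_lit 114)))) (XT.nd (nat_lit 78) (nat_lit 456) (nat_lit 0) (XT.lf (nat_lit 0) (nat_lit 16520573916) (nat_lit 532) (nat_lit 18749582534) (nat_lit 76) (nat_lit 2944077701) (nat_lit 97) (nat_lit 5) (nat_lit 104) (nat_lit 5) (nat_lit 98) (nat_lit 5) (nat_lit 348) (nat_lit 319) (nat_lit 113)) (XT.nd (nat_lit 78) (nat_lit 456) (nat_lit 0) (XT.lf (nat_lit 0) (nat_lit 20025084486) (nat_lit 532) (nat_lit 3135853924) (nat_lit 76) (nat_lit 15763330780) (nat_lit 97) (nat_lit 5) (nat_lit 104) (nat_lit 5) (nat_lit 98) (nat_lit 5) (nat_lit 349) (nat_lit 319) (nat_lit 112)) (XT.lf (nat_lit 0) (nat_lit 13201958689) (nat_lit 456) (nat_lit 10557810690) (nat_lit 532) (nat_lit 15892089805) (nat_lit 91) (nat_lit 5) (nat_lit 97) (nat_lit 5) (nat_lit 98) (nat_lit 5) (nat_lit 350) (nat_lit 319)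 (nat_lit 111))))))) (XT.nd (nat_lit 858) (nat_lit 988) (nat_lit 0) (XT.nd (nat_lit 390) (nat_lit 760) (nat_lit 0) (XT.nd (nat_lit 156) (nat_lit 456) (nat_lit 0) (XT.nd (nat_lit 78) (nat_lit 380) (nat_lit 0) (XT.lf (nat_lit 0) (nat_lit 27659938248) (nat_lit 532) (nat_lit 10331733579) (nat_lit 76) (nat_lit 2408006675) (nat_lit 91) (nat_lit 5) (nat_lit 98) (nat_lit 5) (nat_lit 92) (nat_lit 5) (nat_lit 351) (nat_lit 319) (nat_lit 110)) (XT.lf (nat_lit 0) (nat_lit 6286184026) (nat_lit 380) (nat_lit 25554109540) (nat_lit 456) (nat_lit 9324748173) (nat_lit 86) (nat_lit 5) (nat_lit 91) (nat_lit 5) (nat_lit 92) (nat_lit 5) (nat_lit 352) (nat_lit 319) (nat_lit 109))) (XT.nd (nat_lit 78) (nat_lit 456) (nat_lit 0) (XT.lf (nat_lit 0) (nat_lit 23612520836) (nat_lit 380) (nat_lit 12636124359) (nat_lit 456) (nat_lit 5701647753) (nat_lit 86) (nat_lit 5) (nat_lit 91) (nat_lit 5) (nat_lit 92) (nat_lit 5) (nat_lit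 353) (nat_lit 319) (nat_lit 108)) (XT.nd (nat_lit 78) (nat_lit 456) (nat_lit 0) (XT.lf (nat_lit 0) (nat_lit 40793986740) (nat_lit 456) (nat_lit 1308795556) (nat_lit 76) (nat_lit 656181723) (nat_lit 86) (nat_lit 5) (nat_lit 92) (nat_lit 5) (nat_lit 87) (nat_lit 5) (nat_lit 354) (nat_lit 319) (nat_lit 107)) (XT.lf (nat_lit 0) (nat_lit 2131162466) (nat_lit 456) (nat_lit 27179761218) (nat_lit 76) (nat_lit 14271908680) (nat_lit 80) (nat_lit 5) (nat_lit 86) (nat_lit 5) (nat_lit 81) (nat_lit 5) (nat_lit 355) (nat_lit 319) (nat_lit 106))))) (XT.nd (nat_lit 234) (nat_lit 380) (nat_lit 0) (XT.nd (nat_lit 78) (nat_lit 380) (nat_lit 0) (XT.lf (nat_lit 0) (nat_lit 6322403645) (nat_lit 456) (nat_lit 9779353386) (nat_lit 76) (nat_lit 28328728857) (nat_lit 80) (nat_lit 5) (nat_lit 86) (nat_lit 5) (nat_lit 81) (nat_lit 5) (nat_lit 356) (nat_lit 319) (nat_lit 105)) (XT.nd (nat_lit 78) (nat_lit 0) (nat_lit 0)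 (XT.lf (nat_lit 0) (nat_lit 8303278090) (nat_lit 380) (nat_lit 2414332017) (nat_lit 456) (nat_lit 34583616074) (nat_lit 75) (nat_lit 5) (nat_lit 80) (nat_lit 5) (nat_lit 81) (nat_lit 5) (nat_lit 357) (nat_lit 319) (nat_lit 104)) (XT.lf (nat_lit 0) (nat_lit 15455152369) (nat_lit 456) (nat_lit 19181405241) (nat_lit 76) (nat_lit 11555220573) (nat_lit 75) (nat_lit 5) (nat_lit 81) (nat_lit 5) (nat_lit 76) (nat_lit 5) (nat_lit 358) (nat_lit 319) (nat_lit 103)))) (XT.nd (nat_lit 78) (nat_lit 380) (nat_lit 0) (XT.lf (nat_lit 0) (nat_lit 20357209198) (nat_lit 456) (nat_lit 856062641) (nat_lit 76) (nat_lit 25895107034) (nat_lit 75) (nat_lit 5) (nat_lit 81) (nat_lit 5) (nat_lit 76) (nat_lit 5) (nat_lit 359) (nat_lit 319) (nat_lit 102)) (XT.nd (nat_lit 78) (nat_lit 0) (nat_lit 0) (XT.lf (nat_lit 0) (nat_lit 18375879782) (nat_lit 380) (nat_lit 7205616324) (nat_lit 456) (nat_lit 22465730090) (nat_lit 70)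 (nat_lit 5) (nat_lit 75) (nat_lit 5) (nat_lit 76) (nat_lit 5) (nat_lit 360) (nat_lit 319) (nat_lit 101)) (XT.lf (nat_lit 0) (nat_lit 31039218449) (nat_lit 456) (nat_lit 10882928389) (nat_lit 76) (nat_lit 7089794455) (nat_lit 70) (nat_lit 5) (nat_lit 76) (nat_lit 5) (nat_lit 71) (nat_lit 5) (nat_lit 361) (nat_lit 319) (nat_lit 100)))))) (XT.nd (nat_lit 390) (nat_lit 304) (nat_lit 0) (XT.nd (nat_lit 156) (nat_lit 380) (nat_lit 0) (XT.nd (nat_lit 78) (nat_lit 0) (nat_lit 0) (XT.lf (nat_lit 0) (nat_lit 8563182188) (nat_lit 304) (nat_lit 28249741550) (nat_lit 380) (nat_lit 13188110022) (nat_lit 66) (nat_lit 5) (nat_lit 70) (nat_lit 5) (nat_lit 71) (nat_lit 5) (nat_lit 362) (nat_lit 319) (nat_lit 99)) (XT.lf (nat_lit 0) (nat_lit 28814066486) (nat_lit 304) (nat_lit 14054288554) (nat_lit 380) (nat_lit 8148191869) (nat_lit 66) (nat_lit 5) (nat_lit 70) (nat_lit 5) (nat_lit 71) (nat_lit 5) (nat_lit 363)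 (nat_lit 319) (nat_lit 98))) (XT.nd (nat_lit 78) (nat_lit 380) (nat_lit 0) (XT.lf (nat_lit 0) (nat_lit 49109555789) (nat_lit 380) (nat_lit 2397188761) (nat_lit 76) (nat_lit 555660964) (nat_lit 66) (nat_lit 5) (nat_lit 71) (nat_lit 5) (nat_lit 67) (nat_lit 5) (nat_lit 364) (nat_lit 319) (nat_lit 97)) (XT.nd (nat_lit 78) (nat_lit 0) (nat_lit 0) (XT.lf (nat_lit 0) (nat_lit 2667606538) (nat_lit 380) (nat_lit 34939459514) (nat_lit 76) (nat_lit 15522403631) (nat_lit 61) (nat_lit 5) (nat_lit 66) (nat_lit 5) (nat_lit 62) (nat_lit 5) (nat_lit 365) (nat_lit 319) (nat_lit 96)) (XT.lf (nat_lit 0) (nat_lit 8420475431) (nat_lit 380) (nat_lit 14814983801) (nat_lit 76) (nat_lit 30991517993) (nat_lit 61) (nat_lit 5) (nat_lit 66) (nat_lit 5) (nat_lit 62) (nat_lit 5) (nat_lit 366) (nat_lit 319) (nat_lit 95))))) (XT.nd (nat_lit 37050) (nat_lit 0) (nat_lit 5624) (XT.nd (nat_lit 78) (nat_lit 0) (nat_lit 0) (XT.lf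 (nat_lit 0) (nat_lit 6029273678) (nat_lit 304) (nat_lit 8373353312) (nat_lit 380) (nat_lit 40953084998) (nat_lit 57) (nat_lit 5) (nat_lit 61) (nat_lit 5) (nat_lit 62) (nat_lit 5) (nat_lit 367) (nat_lit 319) (nat_lit 94)) (XT.nd (nat_lit 36894) (nat_lit 0) (nat_lit 5624) (XT.lf (nat_lit 0) (nat_lit 20780743958) (nat_lit 380) (nat_lit 28781036402) (nat_lit 76) (nat_lit 6950036217) (nat_lit 57) (nat_lit 5) (nat_lit 62) (nat_lit 5) (nat_lit 58) (nat_lit 5) (nat_lit 368) (nat_lit 319) (nat_lit 93)) (XT.lf (nat_lit 0) (nat_lit 1629961589) (nat_lit 1140) (nat_lit 5279245002) (nat_lit 1140) (nat_lit 5279245002) (nat_lit 131) (nat_lit 3) (nat_lit 146) (nat_lit 3) (nat_lit 146) (nat_lit 5) (nat_lit 320) (nat_lit 320) (nat_lit 140)))) (XT.nd (nat_lit 78) (nat_lit 0) (nat_lit 76) (XT.lf (nat_lit 0) (nat_lit 3407079368) (nat_lit 1140) (nat_lit 862992687) (nat_lit 1140) (nat_lit 20469239522) (nat_lit 131)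 (nat_lit 3) (nat_lit 146) (nat_lit 3) (nat_lit 146) (nat_lit 5) (nat_lit 321) (nat_lit 320) (nat_lit 139)) (XT.nd (nat_lit 78) (nat_lit 0) (nat_lit 0) (XT.lf (nat_lit 0) (nat_lit 3698635623) (nat_lit 1064) (nat_lit 15861508422) (nat_lit 1140) (nat_lit 5548260221) (nat_lit 132) (nat_lit 5) (nat_lit 146) (nat_lit 5) (nat_lit 147) (nat_lit 5) (nat_lit 322) (nat_lit 320) (nat_lit 138)) (XT.lf (nat_lit 0) (nat_lit 4046292568) (nat_lit 1064) (nat_lit 5855002891) (nat_lit 1140) (nat_lit 15585864926) (nat_lit 132) (nat_lit 5) (nat_lit 146) (nat_lit 5) (nat_lit 147) (nat_lit 5) (nat_lit 323) (nat_lit 320) (nat_lit 137))))))))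
noncomputable def xc241 : XT := (XT.nd (nat_lit 1716) (nat_lit 3724) (nat_lit 0) (XT.nd (nat_lit 858) (nat_lit 1748) (nat_lit 0) (XT.nd (nat_lit 390) (nat_lit 0) (nat_lit 76) (XT.nd (nat_lit 156) (nat_lit 0) (nat_lit 0) (XT.nd (nat_lit 78) (nat_lit 0) (nat_lit 0) (XT.lf (nat_lit 0) (nat_lit 4445288966) (nat_lit 1064) (nat_lit 21338777793) (nat_lit 1140) (nat_lit 91996078) (nat_lit 133) (nat_lit 5) (nat_lit 147) (nat_lit 5) (nat_lit 148) (nat_lit 5) (nat_lit 324) (nat_lit 320) (nat_lit 136)) (XT.lf (nat_lit 0) (nat_lit 5010481468) (nat_lit 1064) (nat_lit 11014264942) (nat_lit 1140) (nat_lit 10247269790) (nat_lit 133) (nat_lit 5) (nat_lit 147) (nat_lit 5) (nat_lit 148) (nat_lit 5) (nat_lit 325) (nat_lit 320) (nat_lit 135))) (XT.nd (nat_lit 78) (nat_lit 0) (nat_lit 76) (XT.lf (nat_lit 0) (nat_lit 5589216298) (nat_lit 1064) (nat_lit 382105755) (nat_lit 1140) (nat_lit 20708638826) (nat_lit 133)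 (nat_lit 5) (nat_lit 147) (nat_lit 5) (nat_lit 148) (nat_lit 5) (nat_lit 326) (nat_lit 320) (nat_lit 134)) (XT.nd (nat_lit 78) (nat_lit 0) (nat_lit 0) (XT.lf (nat_lit 0) (nat_lit 6328774025) (nat_lit 1064) (nat_lit 16363028513) (nat_lit 1140) (nat_lit 4404047551) (nat_lit 134) (nat_lit 5) (nat_lit 148) (nat_lit 5) (nat_lit 149) (nat_lit 5) (nat_lit 327) (nat_lit 320) (nat_lit 133)) (XT.lf (nat_lit 0) (nat_lit 7150312207) (nat_lit 1064) (nat_lit 5396357855) (nat_lit 1140) (nat_lit 14975761822) (nat_lit 134) (nat_lit 5) (nat_lit 148) (nat_lit 5) (nat_lit 149) (nat_lit 5) (nat_lit 328) (nat_lit 320) (nat_lit 132))))) (XT.nd (nat_lit 234) (nat_lit 0) (nat_lit 152) (XT.nd (nat_lit 78) (nat_lit 0) (nat_lit 76) (XT.lf (nat_lit 76) (nat_lit 6014614714) (nat_lit 0) (nat_lit 2036566911) (nat_lit 1140) (nat_lit 19908998393) (nat_lit 135) (nat_lit 5) (nat_lit 134) (nat_lit 5) (nat_lit 149) (nat_lit 5)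 (nat_lit 329) (nat_lit 320) (nat_lit 131)) (XT.nd (nat_lit 78) (nat_lit 0) (nat_lit 0) (XT.lf (nat_lit 0) (nat_lit 9115543220) (nat_lit 1064) (nat_lit 10618068007) (nat_lit 1140) (nat_lit 8673364551) (nat_lit 135) (nat_lit 5) (nat_lit 149) (nat_lit 5) (nat_lit 150) (nat_lit 5) (nat_lit 330) (nat_lit 320) (nat_lit 130)) (XT.lf (nat_lit 76) (nat_lit 1047436761) (nat_lit 0) (nat_lit 9191670590) (nat_lit 1140) (nat_lit 18627258805) (nat_lit 136) (nat_lit 5) (nat_lit 135) (nat_lit 5) (nat_lit 150) (nat_lit 5) (nat_lit 331) (nat_lit 320) (nat_lit 129)))) (XT.nd (nat_lit 78) (nat_lit 0) (nat_lit 0) (XT.lf (nat_lit 0) (nat_lit 11517794649) (nat_lit 1064) (nat_lit 16075011778) (nat_lit 1140) (nat_lit 1743097969) (nat_lit 136) (nat_lit 5) (nat_lit 150) (nat_lit 5) (nat_lit 151) (nat_lit 5) (nat_lit 332) (nat_lit 320) (nat_lit 128)) (XT.nd (nat_lit 78) (nat_lit 0) (nat_lit 0) (XT.lf (nat_lit 0) (nat_lit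 12923046570) (nat_lit 1064) (nat_lit 4071895454) (nat_lit 1140) (nat_lit 12821949024) (nat_lit 136) (nat_lit 5) (nat_lit 150) (nat_lit 5) (nat_lit 151) (nat_lit 5) (nat_lit 333) (nat_lit 320) (nat_lit 127)) (XT.lf (nat_lit 76) (nat_lit 8454236296) (nat_lit 0) (nat_lit 5994766038) (nat_lit 1140) (nat_lit 15860956720) (nat_lit 137) (nat_lit 5) (nat_lit 136) (nat_lit 5) (nat_lit 151) (nat_lit 5) (nat_lit 334) (nat_lit 320) (nat_lit 126)))))) (XT.nd (nat_lit 390) (nat_lit 1064) (nat_lit 0) (XT.nd (nat_lit 156) (nat_lit 988) (nat_lit 0) (XT.nd (nat_lit 78) (nat_lit 0) (nat_lit 0) (XT.lf (nat_lit 0) (nat_lit 16110894108) (nat_lit 1064) (nat_lit 9430782441) (nat_lit 1140) (nat_lit 5273445735) (nat_lit 137) (nat_lit 5) (nat_lit 151) (nat_lit 5) (nat_lit 152) (nat_lit 5) (nat_lit 335) (nat_lit 320) (nat_lit 125)) (XT.lf (nat_lit 76) (nat_lit 3371275198) (nat_lit 0) (nat_lit 14540550443) (nat_lit 1140)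 (nat_lit 13420946954) (nat_lit 138) (nat_lit 5) (nat_lit 137) (nat_lit 5) (nat_lit 152) (nat_lit 5) (nat_lit 336) (nat_lit 320) (nat_lit 124))) (XT.nd (nat_lit 78) (nat_lit 988) (nat_lit 0) (XT.lf (nat_lit 76) (nat_lit 16748674092) (nat_lit 0) (nat_lit 3110821019) (nat_lit 1140) (nat_lit 12003683456) (nat_lit 138) (nat_lit 5) (nat_lit 137) (nat_lit 5) (nat_lit 152) (nat_lit 5) (nat_lit 337) (nat_lit 320) (nat_lit 123)) (XT.nd (nat_lit 78) (nat_lit 1064) (nat_lit 0) (XT.lf (nat_lit 0) (nat_lit 21946412717) (nat_lit 1064) (nat_lit 1967432258) (nat_lit 76) (nat_lit 8493234435) (nat_lit 138) (nat_lit 5) (nat_lit 152) (nat_lit 5) (nat_lit 139) (nat_lit 5) (nat_lit 338) (nat_lit 320) (nat_lit 122)) (XT.lf (nat_lit 0) (nat_lit 11770937570) (nat_lit 1064) (nat_lit 12466576669) (nat_lit 1140) (nat_lit 8725542771) (nat_lit 124) (nat_lit 5) (nat_lit 138) (nat_lit 5) (nat_lit 139) (nat_lit 5) (nat_lit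 339) (nat_lit 320) (nat_lit 121))))) (XT.nd (nat_lit 234) (nat_lit 532) (nat_lit 0) (XT.nd (nat_lit 78) (nat_lit 532) (nat_lit 0) (XT.lf (nat_lit 0) (nat_lit 25959800872) (nat_lit 1064) (nat_lit 655091884) (nat_lit 1140) (nat_lit 6920301682) (nat_lit 124) (nat_lit 5) (nat_lit 138) (nat_lit 5) (nat_lit 139) (nat_lit 5) (nat_lit 340) (nat_lit 320) (nat_lit 120)) (XT.nd (nat_lit 78) (nat_lit 0) (nat_lit 0) (XT.lf (nat_lit 0) (nat_lit 6463300542) (nat_lit 532) (nat_lit 22770817073) (nat_lit 608) (nat_lit 4885269244) (nat_lit 117) (nat_lit 5) (nat_lit 124) (nat_lit 5) (nat_lit 125) (nat_lit 5) (nat_lit 341) (nat_lit 320) (nat_lit 119)) (XT.lf (nat_lit 0) (nat_lit 21069840590) (nat_lit 532) (nat_lit 10942791756) (nat_lit 608) (nat_lit 2706057741) (nat_lit 117) (nat_lit 5) (nat_lit 124) (nat_lit 5) (nat_lit 125) (nat_lit 5) (nat_lit 342) (nat_lit 320) (nat_lit 118)))) (XT.nd (nat_lit 78) (nat_lit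 76) (nat_lit 0) (XT.lf (nat_lit 0) (nat_lit 779900226) (nat_lit 456) (nat_lit 34111879843) (nat_lit 532) (nat_lit 443680255) (nat_lit 111) (nat_lit 5) (nat_lit 117) (nat_lit 5) (nat_lit 118) (nat_lit 5) (nat_lit 343) (nat_lit 320) (nat_lit 117)) (XT.nd (nat_lit 78) (nat_lit 0) (nat_lit 0) (XT.lf (nat_lit 0) (nat_lit 2095167402) (nat_lit 532) (nat_lit 20175173352) (nat_lit 76) (nat_lit 13692492372) (nat_lit 110) (nat_lit 5) (nat_lit 117) (nat_lit 5) (nat_lit 111) (nat_lit 5) (nat_lit 344) (nat_lit 320) (nat_lit 116)) (XT.lf (nat_lit 0) (nat_lit 4699201680) (nat_lit 532) (nat_lit 5369739735) (nat_lit 76) (nat_lit 26540021462) (nat_lit 110) (nat_lit 5) (nat_lit 117) (nat_lit 5) (nat_lit 111) (nat_lit 5) (nat_lit 345) (nat_lit 320) (nat_lit 115))))))) (XT.nd (nat_lit 858) (nat_lit 1444) (nat_lit 0) (XT.nd (nat_lit 390) (nat_lit 1292) (nat_lit 0) (XT.nd (nat_lit 156) (nat_lit 456) (nat_lit 0) (XT.nd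 (nat_lit 78) (nat_lit 0) (nat_lit 0) (XT.lf (nat_lit 0) (nat_lit 7501175100) (nat_lit 608) (nat_lit 27222080716) (nat_lit 76) (nat_lit 2547631703) (nat_lit 103) (nat_lit 5) (nat_lit 111) (nat_lit 5) (nat_lit 104) (nat_lit 5) (nat_lit 346) (nat_lit 320) (nat_lit 114)) (XT.lf (nat_lit 0) (nat_lit 10539700380) (nat_lit 608) (nat_lit 12013248910) (nat_lit 76) (nat_lit 15395151214) (nat_lit 103) (nat_lit 5) (nat_lit 111) (nat_lit 5) (nat_lit 104) (nat_lit 5) (nat_lit 347) (nat_lit 320) (nat_lit 113))) (XT.nd (nat_lit 78) (nat_lit 0) (nat_lit 0) (XT.lf (nat_lit 0) (nat_lit 3722585498) (nat_lit 456) (nat_lit 9980676248) (nat_lit 532) (nat_lit 24941356948) (nat_lit 97) (nat_lit 5) (nat_lit 103) (nat_lit 5) (nat_lit 104) (nat_lit 5) (nat_lit 348) (nat_lit 320) (nat_lit 112)) (XT.nd (nat_lit 78) (nat_lit 0) (nat_lit 0) (XT.lf (nat_lit 0) (nat_lit 17110912594) (nat_lit 532) (nat_lit 19213322654) (nat_lit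 76) (nat_lit 3033326778) (nat_lit 97) (nat_lit 5) (nat_lit 104) (nat_lit 5) (nat_lit 98) (nat_lit 5) (nat_lit 349) (nat_lit 320) (nat_lit 111)) (XT.lf (nat_lit 0) (nat_lit 20717799604) (nat_lit 532) (nat_lit 3134058322) (nat_lit 76) (nat_lit 16237130456) (nat_lit 97) (nat_lit 5) (nat_lit 104) (nat_lit 5) (nat_lit 98) (nat_lit 5) (nat_lit 350) (nat_lit 320) (nat_lit 110))))) (XT.nd (nat_lit 234) (nat_lit 456) (nat_lit 0) (XT.nd (nat_lit 78) (nat_lit 380) (nat_lit 0) (XT.lf (nat_lit 0) (nat_lit 13692948756) (nat_lit 456) (nat_lit 10869810304) (nat_lit 532) (nat_lit 16275707277) (nat_lit 91) (nat_lit 5) (nat_lit 97) (nat_lit 5) (nat_lit 98) (nat_lit 5) (nat_lit 351) (nat_lit 320) (nat_lit 109)) (XT.nd (nat_lit 78) (nat_lit 380) (nat_lit 0) (XT.lf (nat_lit 0) (nat_lit 28577350096) (nat_lit 532) (nat_lit 10546700717) (nat_lit 76) (nat_lit 2484753978) (nat_lit 91) (nat_lit 5) (nat_lit 98) (nat_lit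 5) (nat_lit 92) (nat_lit 5) (nat_lit 352) (nat_lit 320) (nat_lit 108)) (XT.lf (nat_lit 0) (nat_lit 6568823192) (nat_lit 380) (nat_lit 26312645128) (nat_lit 456) (nat_lit 9515716902) (nat_lit 86) (nat_lit 5) (nat_lit 91) (nat_lit 5) (nat_lit 92) (nat_lit 5) (nat_lit 353) (nat_lit 320) (nat_lit 107)))) (XT.nd (nat_lit 78) (nat_lit 456) (nat_lit 0) (XT.lf (nat_lit 0) (nat_lit 24412210680) (nat_lit 380) (nat_lit 13007355955) (nat_lit 456) (nat_lit 5786509111) (nat_lit 86) (nat_lit 5) (nat_lit 91) (nat_lit 5) (nat_lit 92) (nat_lit 5) (nat_lit 354) (nat_lit 320) (nat_lit 106)) (XT.nd (nat_lit 78) (nat_lit 456) (nat_lit 0) (XT.lf (nat_lit 0) (nat_lit 42098910773) (nat_lit 456) (nat_lit 1256831530) (nat_lit 76) (nat_lit 683341846) (nat_lit 86) (nat_lit 5) (nat_lit 92) (nat_lit 5) (nat_lit 87) (nat_lit 5) (nat_lit 355) (nat_lit 320) (nat_lit 105)) (XT.lf (nat_lit 0) (nat_lit 2275701360) (nat_lit 456)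 (nat_lit 27903013097) (nat_lit 76) (nat_lit 14708981479) (nat_lit 80) (nat_lit 5) (nat_lit 86) (nat_lit 5) (nat_lit 81) (nat_lit 5) (nat_lit 356) (nat_lit 320) (nat_lit 104)))))) (XT.nd (nat_lit 390) (nat_lit 684) (nat_lit 0) (XT.nd (nat_lit 156) (nat_lit 380) (nat_lit 0) (XT.nd (nat_lit 78) (nat_lit 380) (nat_lit 0) (XT.lf (nat_lit 0) (nat_lit 6590332085) (nat_lit 456) (nat_lit 9983276747) (nat_lit 76) (nat_lit 29187246586) (nat_lit 80) (nat_lit 5) (nat_lit 86) (nat_lit 5) (nat_lit 81) (nat_lit 5) (nat_lit 357) (nat_lit 320) (nat_lit 103)) (XT.lf (nat_lit 0) (nat_lit 8640956642) (nat_lit 380) (nat_lit 2475010275) (nat_lit 456) (nat_lit 35541799585) (nat_lit 75) (nat_lit 5) (nat_lit 80) (nat_lit 5) (nat_lit 81) (nat_lit 5) (nat_lit 358) (nat_lit 320) (nat_lit 102))) (XT.nd (nat_lit 78) (nat_lit 380) (nat_lit 0) (XT.lf (nat_lit 0) (nat_lit 15993507398) (nat_lit 456) (nat_lit 19668533118) (nat_lit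 76) (nat_lit 11913063971) (nat_lit 75) (nat_lit 5) (nat_lit 81) (nat_lit 5) (nat_lit 76) (nat_lit 5) (nat_lit 359) (nat_lit 320) (nat_lit 101)) (XT.nd (nat_lit 78) (nat_lit 380) (nat_lit 0) (XT.lf (nat_lit 0) (nat_lit 21040450190) (nat_lit 456) (nat_lit 796002501) (nat_lit 76) (nat_lit 26682821196) (nat_lit 75) (nat_lit 5) (nat_lit 81) (nat_lit 5) (nat_lit 76) (nat_lit 5) (nat_lit 360) (nat_lit 320) (nat_lit 100)) (XT.lf (nat_lit 0) (nat_lit 19012057587) (nat_lit 380) (nat_lit 7408111873) (nat_lit 456) (nat_lit 23066161319) (nat_lit 70) (nat_lit 5) (nat_lit 75) (nat_lit 5) (nat_lit 76) (nat_lit 5) (nat_lit 361) (nat_lit 320) (nat_lit 99))))) (XT.nd (nat_lit 234) (nat_lit 380) (nat_lit 0) (XT.nd (nat_lit 78) (nat_lit 304) (nat_lit 0) (XT.lf (nat_lit 0) (nat_lit 32039676461) (nat_lit 456) (nat_lit 11124870433) (nat_lit 76) (nat_lit 7315503952) (nat_lit 70) (nat_lit 5) (nat_lit 76) (nat_lit 5)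 (nat_lit 71) (nat_lit 5) (nat_lit 362) (nat_lit 320) (nat_lit 98)) (XT.nd (nat_lit 78) (nat_lit 0) (nat_lit 0) (XT.lf (nat_lit 0) (nat_lit 8903794581) (nat_lit 304) (nat_lit 29081585160) (nat_lit 380) (nat_lit 13513477699) (nat_lit 66) (nat_lit 5) (nat_lit 70) (nat_lit 5) (nat_lit 71) (nat_lit 5) (nat_lit 363) (nat_lit 320) (nat_lit 97)) (XT.lf (nat_lit 0) (nat_lit 29759767052) (nat_lit 304) (nat_lit 14460724359) (nat_lit 380) (nat_lit 8324408864) (nat_lit 66) (nat_lit 5) (nat_lit 70) (nat_lit 5) (nat_lit 71) (nat_lit 5) (nat_lit 364) (nat_lit 320) (nat_lit 96)))) (XT.nd (nat_lit 78) (nat_lit 380) (nat_lit 0) (XT.lf (nat_lit 0) (nat_lit 50647145144) (nat_lit 380) (nat_lit 2388254357) (nat_lit 76) (nat_lit 586793302) (nat_lit 66) (nat_lit 5) (nat_lit 71) (nat_lit 5) (nat_lit 67) (nat_lit 5) (nat_lit 365) (nat_lit 320) (nat_lit 95)) (XT.nd (nat_lit 78) (nat_lit 0) (nat_lit 0) (XT.lf (nat_lit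 0) (nat_lit 2811608125) (nat_lit 380) (nat_lit 35906165832) (nat_lit 76) (nat_lit 16003513762) (nat_lit 61) (nat_lit 5) (nat_lit 66) (nat_lit 5) (nat_lit 62) (nat_lit 5) (nat_lit 366) (nat_lit 320) (nat_lit 94)) (XT.lf (nat_lit 0) (nat_lit 8735199783) (nat_lit 380) (nat_lit 15180328978) (nat_lit 76) (nat_lit 31936251903) (nat_lit 61) (nat_lit 5) (nat_lit 66) (nat_lit 5) (nat_lit 62) (nat_lit 5) (nat_lit 367) (nat_lit 320) (nat_lit 93))))))))
noncomputable def xc242 : XT := (XT.nd (nat_lit 1716) (nat_lit 3876) (nat_lit 0) (XT.nd (nat_lit 858) (nat_lit 1064) (nat_lit 0) (XT.nd (nat_lit 390) (nat_lit 0) (nat_lit 152) (XT.nd (nat_lit 156) (nat_lit 0) (nat_lit 76) (XT.nd (nat_lit 78) (nat_lit 0) (nat_lit 0) (XT.lf (nat_lit 0) (nat_lit 1776173269) (nat_lit 1140) (nat_lit 5387358954) (nat_lit 1140) (nat_lit 5387358954) (nat_lit 131) (nat_lit 3) (nat_lit 146) (nat_lit 3) (nat_lit 146) (nat_lit 5) (nat_lit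 321) (nat_lit 321) (nat_lit 138)) (XT.lf (nat_lit 0) (nat_lit 3698248704) (nat_lit 1140) (nat_lit 791283637) (nat_lit 1140) (nat_lit 20985717878) (nat_lit 131) (nat_lit 3) (nat_lit 146) (nat_lit 3) (nat_lit 146) (nat_lit 5) (nat_lit 322) (nat_lit 321) (nat_lit 137))) (XT.nd (nat_lit 78) (nat_lit 0) (nat_lit 0) (XT.lf (nat_lit 0) (nat_lit 3993133614) (nat_lit 1064) (nat_lit 16233781475) (nat_lit 1140) (nat_lit 5628679800) (nat_lit 132) (nat_lit 5) (nat_lit 146) (nat_lit 5) (nat_lit 147) (nat_lit 5) (nat_lit 323) (nat_lit 321) (nat_lit 136)) (XT.nd (nat_lit 78) (nat_lit 0) (nat_lit 76) (XT.lf (nat_lit 0) (nat_lit 4345874474) (nat_lit 1064) (nat_lit 5930097444) (nat_lit 1140) (nat_lit 15969918323) (nat_lit 132) (nat_lit 5) (nat_lit 146) (nat_lit 5) (nat_lit 147) (nat_lit 5) (nat_lit 324) (nat_lit 321) (nat_lit 135)) (XT.lf (nat_lit 0) (nat_lit 4751892711) (nat_lit 1064) (nat_lit 21872914082) (nat_lit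 1140) (nat_lit 21817119) (nat_lit 133) (nat_lit 5) (nat_lit 147) (nat_lit 5) (nat_lit 148) (nat_lit 5) (nat_lit 325) (nat_lit 321) (nat_lit 134))))) (XT.nd (nat_lit 234) (nat_lit 0) (nat_lit 76) (XT.nd (nat_lit 78) (nat_lit 0) (nat_lit 0) (XT.lf (nat_lit 0) (nat_lit 5328995015) (nat_lit 1064) (nat_lit 11241754012) (nat_lit 1140) (nat_lit 10483873474) (nat_lit 133) (nat_lit 5) (nat_lit 147) (nat_lit 5) (nat_lit 148) (nat_lit 5) (nat_lit 326) (nat_lit 321) (nat_lit 133)) (XT.nd (nat_lit 78) (nat_lit 0) (nat_lit 76) (XT.lf (nat_lit 0) (nat_lit 5920192887) (nat_lit 1064) (nat_lit 293628270) (nat_lit 1140) (nat_lit 21261146138) (nat_lit 133) (nat_lit 5) (nat_lit 147) (nat_lit 5) (nat_lit 148) (nat_lit 5) (nat_lit 327) (nat_lit 321) (nat_lit 132)) (XT.lf (nat_lit 0) (nat_lit 6677550412) (nat_lit 1064) (nat_lit 16749112738) (nat_lit 1140) (nat_lit 4476816008) (nat_lit 134) (nat_lit 5) (nat_lit 148)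 (nat_lit 5) (nat_lit 149) (nat_lit 5) (nat_lit 328) (nat_lit 321) (nat_lit 131)))) (XT.nd (nat_lit 78) (nat_lit 0) (nat_lit 0) (XT.lf (nat_lit 0) (nat_lit 7519106201) (nat_lit 1064) (nat_lit 5456494581) (nat_lit 1140) (nat_lit 15367410434) (nat_lit 134) (nat_lit 5) (nat_lit 148) (nat_lit 5) (nat_lit 149) (nat_lit 5) (nat_lit 329) (nat_lit 321) (nat_lit 130)) (XT.nd (nat_lit 78) (nat_lit 0) (nat_lit 76) (XT.lf (nat_lit 76) (nat_lit 6295809577) (nat_lit 0) (nat_lit 2147666930) (nat_lit 1140) (nat_lit 20350534590) (nat_lit 135) (nat_lit 5) (nat_lit 134) (nat_lit 5) (nat_lit 149) (nat_lit 5) (nat_lit 330) (nat_lit 321) (nat_lit 129)) (XT.lf (nat_lit 0) (nat_lit 9534911238) (nat_lit 1064) (nat_lit 10833492180) (nat_lit 1140) (nat_lit 8885966193) (nat_lit 135) (nat_lit 5) (nat_lit 149) (nat_lit 5) (nat_lit 150) (nat_lit 5) (nat_lit 331) (nat_lit 321) (nat_lit 128)))))) (XT.nd (nat_lit 390) (nat_lit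 1368) (nat_lit 0) (XT.nd (nat_lit 156) (nat_lit 0) (nat_lit 76) (XT.nd (nat_lit 78) (nat_lit 0) (nat_lit 76) (XT.lf (nat_lit 76) (nat_lit 1180966771) (nat_lit 0) (nat_lit 9507947471) (nat_lit 1140) (nat_lit 19038738269) (nat_lit 136) (nat_lit 5) (nat_lit 135) (nat_lit 5) (nat_lit 150) (nat_lit 5) (nat_lit 332) (nat_lit 321) (nat_lit 127)) (XT.lf (nat_lit 0) (nat_lit 12001429560) (nat_lit 1064) (nat_lit 16453183388) (nat_lit 1140) (nat_lit 1756812325) (nat_lit 136) (nat_lit 5) (nat_lit 150) (nat_lit 5) (nat_lit 151) (nat_lit 5) (nat_lit 333) (nat_lit 321) (nat_lit 126))) (XT.nd (nat_lit 78) (nat_lit 0) (nat_lit 0) (XT.lf (nat_lit 0) (nat_lit 13444816677) (nat_lit 1064) (nat_lit 4093004994) (nat_lit 1140) (nat_lit 13169152560) (nat_lit 136) (nat_lit 5) (nat_lit 150) (nat_lit 5) (nat_lit 151) (nat_lit 5) (nat_lit 334) (nat_lit 321) (nat_lit 125)) (XT.nd (nat_lit 78) (nat_lit 0) (nat_lit 76) (XT.lf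 (nat_lit 76) (nat_lit 8807920048) (nat_lit 0) (nat_lit 6205687666) (nat_lit 1140) (nat_lit 16201326550) (nat_lit 137) (nat_lit 5) (nat_lit 136) (nat_lit 5) (nat_lit 151) (nat_lit 5) (nat_lit 335) (nat_lit 321) (nat_lit 124)) (XT.lf (nat_lit 0) (nat_lit 16721246721) (nat_lit 1064) (nat_lit 9612075845) (nat_lit 1140) (nat_lit 5402064455) (nat_lit 137) (nat_lit 5) (nat_lit 151) (nat_lit 5) (nat_lit 152) (nat_lit 5) (nat_lit 336) (nat_lit 321) (nat_lit 123))))) (XT.nd (nat_lit 234) (nat_lit 1520) (nat_lit 0) (XT.nd (nat_lit 78) (nat_lit 0) (nat_lit 0) (XT.lf (nat_lit 76) (nat_lit 3573047150) (nat_lit 0) (nat_lit 15000426622) (nat_lit 1140) (nat_lit 13695186057) (nat_lit 138) (nat_lit 5) (nat_lit 137) (nat_lit 5) (nat_lit 152) (nat_lit 5) (nat_lit 337) (nat_lit 321) (nat_lit 122)) (XT.nd (nat_lit 78) (nat_lit 0) (nat_lit 76) (XT.lf (nat_lit 76) (nat_lit 17348836933) (nat_lit 0) (nat_lit 3227116199)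 (nat_lit 1140) (nat_lit 12239144148) (nat_lit 138) (nat_lit 5) (nat_lit 137) (nat_lit 5) (nat_lit 152) (nat_lit 5) (nat_lit 338) (nat_lit 321) (nat_lit 121)) (XT.lf (nat_lit 0) (nat_lit 22721749138) (nat_lit 1064) (nat_lit 1927523119) (nat_lit 76) (nat_lit 8726165147) (nat_lit 138) (nat_lit 5) (nat_lit 152) (nat_lit 5) (nat_lit 139) (nat_lit 5) (nat_lit 339) (nat_lit 321) (nat_lit 120)))) (XT.nd (nat_lit 78) (nat_lit 532) (nat_lit 0) (XT.lf (nat_lit 0) (nat_lit 12222027880) (nat_lit 1064) (nat_lit 12857091360) (nat_lit 1140) (nat_lit 8869059105) (nat_lit 124) (nat_lit 5) (nat_lit 138) (nat_lit 5) (nat_lit 139) (nat_lit 5) (nat_lit 340) (nat_lit 321) (nat_lit 119)) (XT.nd (nat_lit 78) (nat_lit 532) (nat_lit 0) (XT.lf (nat_lit 0) (nat_lit 26833703814) (nat_lit 1064) (nat_lit 690780943) (nat_lit 1140) (nat_lit 7013104956) (nat_lit 124) (nat_lit 5) (nat_lit 138) (nat_lit 5) (nat_lit 139) (nat_lit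 5) (nat_lit 341) (nat_lit 321) (nat_lit 118)) (XT.lf (nat_lit 0) (nat_lit 6755153344) (nat_lit 532) (nat_lit 23464687709) (nat_lit 608) (nat_lit 4919549714) (nat_lit 117) (nat_lit 5) (nat_lit 124) (nat_lit 5) (nat_lit 125) (nat_lit 5) (nat_lit 342) (nat_lit 321) (nat_lit 117))))))) (XT.nd (nat_lit 858) (nat_lit 1900) (nat_lit 0) (XT.nd (nat_lit 390) (nat_lit 912) (nat_lit 0) (XT.nd (nat_lit 156) (nat_lit 608) (nat_lit 0) (XT.nd (nat_lit 78) (nat_lit 456) (nat_lit 0) (XT.lf (nat_lit 0) (nat_lit 21797036570) (nat_lit 532) (nat_lit 11281508638) (nat_lit 608) (nat_lit 2678232088) (nat_lit 117) (nat_lit 5) (nat_lit 124) (nat_lit 5) (nat_lit 125) (nat_lit 5) (nat_lit 343) (nat_lit 321) (nat_lit 116)) (XT.lf (nat_lit 0) (nat_lit 901004381) (nat_lit 456) (nat_lit 35140831033) (nat_lit 532) (nat_lit 350291141) (nat_lit 111) (nat_lit 5) (nat_lit 117) (nat_lit 5) (nat_lit 118) (nat_lit 5) (nat_lit 344)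 (nat_lit 321) (nat_lit 115))) (XT.nd (nat_lit 78) (nat_lit 532) (nat_lit 0) (XT.lf (nat_lit 0) (nat_lit 2259592744) (nat_lit 532) (nat_lit 20683264411) (nat_lit 76) (nat_lit 14095532471) (nat_lit 110) (nat_lit 5) (nat_lit 117) (nat_lit 5) (nat_lit 111) (nat_lit 5) (nat_lit 345) (nat_lit 321) (nat_lit 114)) (XT.nd (nat_lit 78) (nat_lit 532) (nat_lit 0) (XT.lf (nat_lit 0) (nat_lit 4938789691) (nat_lit 532) (nat_lit 5436497809) (nat_lit 76) (nat_lit 27328712715) (nat_lit 110) (nat_lit 5) (nat_lit 117) (nat_lit 5) (nat_lit 111) (nat_lit 5) (nat_lit 346) (nat_lit 321) (nat_lit 113)) (XT.lf (nat_lit 0) (nat_lit 7822816994) (nat_lit 608) (nat_lit 27942138469) (nat_lit 76) (nat_lit 2620895251) (nat_lit 103) (nat_lit 5) (nat_lit 111) (nat_lit 5) (nat_lit 104) (nat_lit 5) (nat_lit 347) (nat_lit 321) (nat_lit 112))))) (XT.nd (nat_lit 234) (nat_lit 456) (nat_lit 0) (XT.nd (nat_lit 78) (nat_lit 456) (nat_lit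 0) (XT.lf (nat_lit 0) (nat_lit 10949684247) (nat_lit 608) (nat_lit 12279855437) (nat_lit 76) (nat_lit 15853932543) (nat_lit 103) (nat_lit 5) (nat_lit 111) (nat_lit 5) (nat_lit 104) (nat_lit 5) (nat_lit 348) (nat_lit 321) (nat_lit 111)) (XT.nd (nat_lit 78) (nat_lit 0) (nat_lit 0) (XT.lf (nat_lit 0) (nat_lit 3927134485) (nat_lit 456) (nat_lit 10279178876) (nat_lit 532) (nat_lit 25594635275) (nat_lit 97) (nat_lit 5) (nat_lit 103) (nat_lit 5) (nat_lit 104) (nat_lit 5) (nat_lit 349) (nat_lit 321) (nat_lit 110)) (XT.lf (nat_lit 0) (nat_lit 17713524033) (nat_lit 532) (nat_lit 19696643479) (nat_lit 76) (nat_lit 3125200128) (nat_lit 97) (nat_lit 5) (nat_lit 104) (nat_lit 5) (nat_lit 98) (nat_lit 5) (nat_lit 350) (nat_lit 321) (nat_lit 109)))) (XT.nd (nat_lit 78) (nat_lit 456) (nat_lit 0) (XT.lf (nat_lit 0) (nat_lit 21426017147) (nat_lit 532) (nat_lit 3137712252) (nat_lit 76) (nat_lit 16725092474) (nat_lit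 97) (nat_lit 5) (nat_lit 104) (nat_lit 5) (nat_lit 98) (nat_lit 5) (nat_lit 351) (nat_lit 321) (nat_lit 108)) (XT.nd (nat_lit 78) (nat_lit 0) (nat_lit 0) (XT.lf (nat_lit 0) (nat_lit 14193219080) (nat_lit 456) (nat_lit 11191441698) (nat_lit 532) (nat_lit 16676180191) (nat_lit 91) (nat_lit 5) (nat_lit 97) (nat_lit 5) (nat_lit 98) (nat_lit 5) (nat_lit 352) (nat_lit 321) (nat_lit 107)) (XT.lf (nat_lit 0) (nat_lit 29517254915) (nat_lit 532) (nat_lit 10773569389) (nat_lit 76) (nat_lit 2563544974) (nat_lit 91) (nat_lit 5) (nat_lit 98) (nat_lit 5) (nat_lit 92) (nat_lit 5) (nat_lit 353) (nat_lit 321) (nat_lit 106)))))) (XT.nd (nat_lit 390) (nat_lit 1064) (nat_lit 0) (XT.nd (nat_lit 156) (nat_lit 456) (nat_lit 0) (XT.nd (nat_lit 78) (nat_lit 0) (nat_lit 0) (XT.lf (nat_lit 0) (nat_lit 6854542470) (nat_lit 380) (nat_lit 27094401050) (nat_lit 456) (nat_lit 9717510667) (nat_lit 86) (nat_lit 5) (nat_lit 91)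 (nat_lit 5) (nat_lit 92) (nat_lit 5) (nat_lit 354) (nat_lit 321) (nat_lit 105)) (XT.lf (nat_lit 0) (nat_lit 25230649410) (nat_lit 380) (nat_lit 13390175243) (nat_lit 456) (nat_lit 5878863859) (nat_lit 86) (nat_lit 5) (nat_lit 91) (nat_lit 5) (nat_lit 92) (nat_lit 5) (nat_lit 355) (nat_lit 321) (nat_lit 104))) (XT.nd (nat_lit 78) (nat_lit 456) (nat_lit 0) (XT.lf (nat_lit 0) (nat_lit 43438326801) (nat_lit 456) (nat_lit 1208545438) (nat_lit 76) (nat_lit 710887696) (nat_lit 86) (nat_lit 5) (nat_lit 92) (nat_lit 5) (nat_lit 87) (nat_lit 5) (nat_lit 356) (nat_lit 321) (nat_lit 103)) (XT.nd (nat_lit 78) (nat_lit 0) (nat_lit 0) (XT.lf (nat_lit 0) (nat_lit 2419949421) (nat_lit 456) (nat_lit 28653251800) (nat_lit 76) (nat_lit 15158654674) (nat_lit 80) (nat_lit 5) (nat_lit 86) (nat_lit 5) (nat_lit 81) (nat_lit 5) (nat_lit 357) (nat_lit 321) (nat_lit 102)) (XT.lf (nat_lit 0) (nat_lit 6861806144) (nat_lit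 456) (nat_lit 10198453020) (nat_lit 76) (nat_lit 30071022964) (nat_lit 80) (nat_lit 5) (nat_lit 86) (nat_lit 5) (nat_lit 81) (nat_lit 5) (nat_lit 358) (nat_lit 321) (nat_lit 101))))) (XT.nd (nat_lit 234) (nat_lit 684) (nat_lit 0) (XT.nd (nat_lit 78) (nat_lit 0) (nat_lit 0) (XT.lf (nat_lit 0) (nat_lit 8983680683) (nat_lit 380) (nat_lit 2538183478) (nat_lit 456) (nat_lit 36533282180) (nat_lit 75) (nat_lit 5) (nat_lit 80) (nat_lit 5) (nat_lit 81) (nat_lit 5) (nat_lit 359) (nat_lit 321) (nat_lit 100)) (XT.nd (nat_lit 78) (nat_lit 0) (nat_lit 0) (XT.lf (nat_lit 0) (nat_lit 16543724966) (nat_lit 456) (nat_lit 20175344433) (nat_lit 76) (nat_lit 12281000504) (nat_lit 75) (nat_lit 5) (nat_lit 81) (nat_lit 5) (nat_lit 76) (nat_lit 5) (nat_lit 360) (nat_lit 321) (nat_lit 99)) (XT.lf (nat_lit 0) (nat_lit 21740025197) (nat_lit 456) (nat_lit 739062499) (nat_lit 76) (nat_lit 27493543321) (nat_lit 75) (nat_lit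 5) (nat_lit 81) (nat_lit 5) (nat_lit 76) (nat_lit 5) (nat_lit 361) (nat_lit 321) (nat_lit 98)))) (XT.nd (nat_lit 78) (nat_lit 304) (nat_lit 0) (XT.lf (nat_lit 0) (nat_lit 19662447038) (nat_lit 380) (nat_lit 7617467170) (nat_lit 456) (nat_lit 23688827020) (nat_lit 70) (nat_lit 5) (nat_lit 75) (nat_lit 5) (nat_lit 76) (nat_lit 5) (nat_lit 362) (nat_lit 321) (nat_lit 97)) (XT.nd (nat_lit 78) (nat_lit 304) (nat_lit 0) (XT.lf (nat_lit 0) (nat_lit 33066171175) (nat_lit 456) (nat_lit 11378924013) (nat_lit 76) (nat_lit 7547237581) (nat_lit 70) (nat_lit 5) (nat_lit 76) (nat_lit 5) (nat_lit 71) (nat_lit 5) (nat_lit 363) (nat_lit 321) (nat_lit 96)) (XT.lf (nat_lit 0) (nat_lit 9249819652) (nat_lit 304) (nat_lit 29939282374) (nat_lit 380) (nat_lit 13852640515) (nat_lit 66) (nat_lit 5) (nat_lit 70) (nat_lit 5) (nat_lit 71) (nat_lit 5) (nat_lit 364) (nat_lit 321) (nat_lit 95))))))))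
noncomputable def xc243 : XT := (XT.nd (nat_lit 38844) (nat_lit 0) (nat_lit 304) (XT.nd (nat_lit 37986) (nat_lit 0) (nat_lit 4408) (XT.nd (nat_lit 37518) (nat_lit 0) (nat_lit 5016) (XT.nd (nat_lit 37284) (nat_lit 0) (nat_lit 4940) (XT.nd (nat_lit 78) (nat_lit 0) (nat_lit 0) (XT.lf (nat_lit 0) (nat_lit 30729172911) (nat_lit 304) (nat_lit 14880225370) (nat_lit 380) (nat_lit 8509828980) (nat_lit 66) (nat_lit 5) (nat_lit 70) (nat_lit 5) (nat_lit 71) (nat_lit 5) (nat_lit 365) (nat_lit 321) (nat_lit 94)) (XT.lf (nat_lit 0) (nat_lit 52227170943) (nat_lit 380) (nat_lit 2383693045) (nat_lit 76) (nat_lit 618029403) (nat_lit 66) (nat_lit 5) (nat_lit 71) (nat_lit 5) (nat_lit 67) (nat_lit 5) (nat_lit 366) (nat_lit 321) (nat_lit 93))) (XT.nd (nat_lit 78) (nat_lit 0) (nat_lit 0) (XT.lf (nat_lit 0) (nat_lit 1921185144) (nat_lit 1140) (nat_lit 5501601650) (nat_lit 1140) (nat_lit 5501601650) (nat_lit 131) (nat_lit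 3) (nat_lit 146) (nat_lit 3) (nat_lit 146) (nat_lit 5) (nat_lit 322) (nat_lit 322) (nat_lit 136)) (XT.nd (nat_lit 78) (nat_lit 0) (nat_lit 76) (XT.lf (nat_lit 0) (nat_lit 3987306219) (nat_lit 1140) (nat_lit 723025888) (nat_lit 1140) (nat_lit 21523293156) (nat_lit 131) (nat_lit 3) (nat_lit 146) (nat_lit 3) (nat_lit 146) (nat_lit 5) (nat_lit 323) (nat_lit 322) (nat_lit 135)) (XT.lf (nat_lit 0) (nat_lit 4285930660) (nat_lit 1064) (nat_lit 16623168187) (nat_lit 1140) (nat_lit 5716450339) (nat_lit 132) (nat_lit 5) (nat_lit 146) (nat_lit 5) (nat_lit 147) (nat_lit 5) (nat_lit 324) (nat_lit 322) (nat_lit 134))))) (XT.nd (nat_lit 234) (nat_lit 0) (nat_lit 76) (XT.nd (nat_lit 78) (nat_lit 0) (nat_lit 0) (XT.lf (nat_lit 0) (nat_lit 4644214822) (nat_lit 1064) (nat_lit 6013217132) (nat_lit 1140) (nat_lit 16370287859) (nat_lit 132) (nat_lit 5) (nat_lit 146) (nat_lit 5) (nat_lit 147) (nat_lit 5) (nat_lit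 325) (nat_lit 322) (nat_lit 133)) (XT.nd (nat_lit 78) (nat_lit 0) (nat_lit 76) (XT.lf (nat_lit 76) (nat_lit 5011002032) (nat_lit 0) (nat_lit 47201287) (nat_lit 1140) (nat_lit 22382413286) (nat_lit 133) (nat_lit 5) (nat_lit 132) (nat_lit 5) (nat_lit 147) (nat_lit 5) (nat_lit 326) (nat_lit 322) (nat_lit 132)) (XT.lf (nat_lit 0) (nat_lit 5647408652) (nat_lit 1064) (nat_lit 11481976866) (nat_lit 1140) (nat_lit 10731640306) (nat_lit 133) (nat_lit 5) (nat_lit 147) (nat_lit 5) (nat_lit 148) (nat_lit 5) (nat_lit 327) (nat_lit 322) (nat_lit 131)))) (XT.nd (nat_lit 78) (nat_lit 0) (nat_lit 76) (XT.lf (nat_lit 0) (nat_lit 6251724680) (nat_lit 1064) (nat_lit 208233462) (nat_lit 1140) (nat_lit 21834175306) (nat_lit 133) (nat_lit 5) (nat_lit 147) (nat_lit 5) (nat_lit 148) (nat_lit 5) (nat_lit 328) (nat_lit 322) (nat_lit 130)) (XT.nd (nat_lit 78) (nat_lit 0) (nat_lit 0) (XT.lf (nat_lit 0) (nat_lit 7027667825)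 (nat_lit 1064) (nat_lit 17152795820) (nat_lit 1140) (nat_lit 4555174622) (nat_lit 134) (nat_lit 5) (nat_lit 148) (nat_lit 5) (nat_lit 149) (nat_lit 5) (nat_lit 329) (nat_lit 322) (nat_lit 129)) (XT.lf (nat_lit 0) (nat_lit 7890107446) (nat_lit 1064) (nat_lit 5524276505) (nat_lit 1140) (nat_lit 15774116372) (nat_lit 134) (nat_lit 5) (nat_lit 148) (nat_lit 5) (nat_lit 149) (nat_lit 5) (nat_lit 330) (nat_lit 322) (nat_lit 128)))))) (XT.nd (nat_lit 390) (nat_lit 760) (nat_lit 0) (XT.nd (nat_lit 156) (nat_lit 0) (nat_lit 76) (XT.nd (nat_lit 78) (nat_lit 0) (nat_lit 76) (XT.lf (nat_lit 76) (nat_lit 6579656455) (nat_lit 0) (nat_lit 2259229572) (nat_lit 1140) (nat_lit 20814256627) (nat_lit 135) (nat_lit 5) (nat_lit 134) (nat_lit 5) (nat_lit 149) (nat_lit 5) (nat_lit 331) (nat_lit 322) (nat_lit 127)) (XT.lf (nat_lit 0) (nat_lit 9958484942) (nat_lit 1064) (nat_lit 11061298465) (nat_lit 1140) (nat_lit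 9107678279) (nat_lit 135) (nat_lit 5) (nat_lit 149) (nat_lit 5) (nat_lit 150) (nat_lit 5) (nat_lit 332) (nat_lit 322) (nat_lit 126))) (XT.nd (nat_lit 78) (nat_lit 0) (nat_lit 76) (XT.lf (nat_lit 76) (nat_lit 1312641328) (nat_lit 0) (nat_lit 9831386257) (nat_lit 1140) (nat_lit 19471019937) (nat_lit 136) (nat_lit 5) (nat_lit 135) (nat_lit 5) (nat_lit 150) (nat_lit 5) (nat_lit 333) (nat_lit 322) (nat_lit 125)) (XT.nd (nat_lit 78) (nat_lit 0) (nat_lit 0) (XT.lf (nat_lit 0) (nat_lit 12491645951) (nat_lit 1064) (nat_lit 16848674692) (nat_lit 1140) (nat_lit 1773152681) (nat_lit 136) (nat_lit 5) (nat_lit 150) (nat_lit 5) (nat_lit 151) (nat_lit 5) (nat_lit 334) (nat_lit 322) (nat_lit 124)) (XT.lf (nat_lit 0) (nat_lit 13974543221) (nat_lit 1064) (nat_lit 4120548351) (nat_lit 1140) (nat_lit 13528922269) (nat_lit 136) (nat_lit 5) (nat_lit 150) (nat_lit 5) (nat_lit 151) (nat_lit 5) (nat_lit 335) (nat_lit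 322) (nat_lit 123))))) (XT.nd (nat_lit 234) (nat_lit 912) (nat_lit 0) (XT.nd (nat_lit 78) (nat_lit 0) (nat_lit 76) (XT.lf (nat_lit 76) (nat_lit 9166470651) (nat_lit 0) (nat_lit 6421152902) (nat_lit 1140) (nat_lit 16559683368) (nat_lit 137) (nat_lit 5) (nat_lit 136) (nat_lit 5) (nat_lit 151) (nat_lit 5) (nat_lit 336) (nat_lit 322) (nat_lit 122)) (XT.nd (nat_lit 78) (nat_lit 0) (nat_lit 0) (XT.lf (nat_lit 0) (nat_lit 17342618113) (nat_lit 1064) (nat_lit 9804642033) (nat_lit 1140) (nat_lit 5536240018) (nat_lit 137) (nat_lit 5) (nat_lit 151) (nat_lit 5) (nat_lit 152) (nat_lit 5) (nat_lit 337) (nat_lit 322) (nat_lit 121)) (XT.lf (nat_lit 76) (nat_lit 3775095475) (nat_lit 0) (nat_lit 15472740926) (nat_lit 1140) (nat_lit 13985022404) (nat_lit 138) (nat_lit 5) (nat_lit 137) (nat_lit 5) (nat_lit 152) (nat_lit 5) (nat_lit 338) (nat_lit 322) (nat_lit 120)))) (XT.nd (nat_lit 78) (nat_lit 988) (nat_lit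 0) (XT.lf (nat_lit 76) (nat_lit 17961396128) (nat_lit 0) (nat_lit 3345581631) (nat_lit 1140) (nat_lit 12488824070) (nat_lit 138) (nat_lit 5) (nat_lit 137) (nat_lit 5) (nat_lit 152) (nat_lit 5) (nat_lit 339) (nat_lit 322) (nat_lit 119)) (XT.nd (nat_lit 78) (nat_lit 1064) (nat_lit 0) (XT.lf (nat_lit 0) (nat_lit 23513632585) (nat_lit 1064) (nat_lit 1892095815) (nat_lit 76) (nat_lit 8967338996) (nat_lit 138) (nat_lit 5) (nat_lit 152) (nat_lit 5) (nat_lit 139) (nat_lit 5) (nat_lit 340) (nat_lit 322) (nat_lit 118)) (XT.lf (nat_lit 0) (nat_lit 12681027470) (nat_lit 1064) (nat_lit 13258373326) (nat_lit 1140) (nat_lit 9023668959) (nat_lit 124) (nat_lit 5) (nat_lit 138) (nat_lit 5) (nat_lit 139) (nat_lit 5) (nat_lit 341) (nat_lit 322) (nat_lit 117))))))) (XT.nd (nat_lit 858) (nat_lit 2052) (nat_lit 0) (XT.nd (nat_lit 390) (nat_lit 988) (nat_lit 0) (XT.nd (nat_lit 156) (nat_lit 532) (nat_lit 0) (XT.nd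 (nat_lit 78) (nat_lit 532) (nat_lit 0) (XT.lf (nat_lit 0) (nat_lit 27728364204) (nat_lit 1064) (nat_lit 726620124) (nat_lit 1140) (nat_lit 7115282650) (nat_lit 124) (nat_lit 5) (nat_lit 138) (nat_lit 5) (nat_lit 139) (nat_lit 5) (nat_lit 342) (nat_lit 322) (nat_lit 116)) (XT.lf (nat_lit 0) (nat_lit 7050138781) (nat_lit 532) (nat_lit 24178757593) (nat_lit 608) (nat_lit 4961303792) (nat_lit 117) (nat_lit 5) (nat_lit 124) (nat_lit 5) (nat_lit 125) (nat_lit 5) (nat_lit 343) (nat_lit 322) (nat_lit 115))) (XT.nd (nat_lit 78) (nat_lit 532) (nat_lit 0) (XT.lf (nat_lit 0) (nat_lit 22540589257) (nat_lit 532) (nat_lit 11629788123) (nat_lit 608) (nat_lit 2655829135) (nat_lit 117) (nat_lit 5) (nat_lit 124) (nat_lit 5) (nat_lit 125) (nat_lit 5) (nat_lit 344) (nat_lit 322) (nat_lit 114)) (XT.nd (nat_lit 78) (nat_lit 76) (nat_lit 0) (XT.lf (nat_lit 0) (nat_lit 1020132870) (nat_lit 456) (nat_lit 36200329594)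 (nat_lit 532) (nat_lit 260225343) (nat_lit 111) (nat_lit 5) (nat_lit 117) (nat_lit 5) (nat_lit 118) (nat_lit 5) (nat_lit 345) (nat_lit 322) (nat_lit 113)) (XT.lf (nat_lit 0) (nat_lit 2423120294) (nat_lit 532) (nat_lit 21212175821) (nat_lit 76) (nat_lit 14511107775) (nat_lit 110) (nat_lit 5) (nat_lit 117) (nat_lit 5) (nat_lit 111) (nat_lit 5) (nat_lit 346) (nat_lit 322) (nat_lit 112))))) (XT.nd (nat_lit 234) (nat_lit 456) (nat_lit 0) (XT.nd (nat_lit 78) (nat_lit 532) (nat_lit 0) (XT.lf (nat_lit 0) (nat_lit 5179904612) (nat_lit 532) (nat_lit 5510673790) (nat_lit 76) (nat_lit 28141495776) (nat_lit 110) (nat_lit 5) (nat_lit 117) (nat_lit 5) (nat_lit 111) (nat_lit 5) (nat_lit 347) (nat_lit 322) (nat_lit 111)) (XT.nd (nat_lit 78) (nat_lit 0) (nat_lit 0) (XT.lf (nat_lit 0) (nat_lit 8148562529) (nat_lit 608) (nat_lit 28689343457) (nat_lit 76) (nat_lit 2696538412) (nat_lit 103) (nat_lit 5) (nat_lit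 111) (nat_lit 5) (nat_lit 104) (nat_lit 5) (nat_lit 348) (nat_lit 322) (nat_lit 110)) (XT.lf (nat_lit 0) (nat_lit 11366583537) (nat_lit 608) (nat_lit 12559844143) (nat_lit 76) (nat_lit 16326653727) (nat_lit 103) (nat_lit 5) (nat_lit 111) (nat_lit 5) (nat_lit 104) (nat_lit 5) (nat_lit 349) (nat_lit 322) (nat_lit 109)))) (XT.nd (nat_lit 78) (nat_lit 0) (nat_lit 0) (XT.lf (nat_lit 0) (nat_lit 4132488742) (nat_lit 456) (nat_lit 10586689259) (nat_lit 532) (nat_lit 26272963181) (nat_lit 97) (nat_lit 5) (nat_lit 103) (nat_lit 5) (nat_lit 104) (nat_lit 5) (nat_lit 350) (nat_lit 322) (nat_lit 108)) (XT.nd (nat_lit 78) (nat_lit 0) (nat_lit 0) (XT.lf (nat_lit 0) (nat_lit 18329088545) (nat_lit 532) (nat_lit 20199807036) (nat_lit 76) (nat_lit 3219779533) (nat_lit 97) (nat_lit 5) (nat_lit 104) (nat_lit 5) (nat_lit 98) (nat_lit 5) (nat_lit 351) (nat_lit 322) (nat_lit 107)) (XT.lf (nat_lit 0) (nat_lit 22150505225)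 (nat_lit 532) (nat_lit 3146663282) (nat_lit 76) (nat_lit 17227644667) (nat_lit 97) (nat_lit 5) (nat_lit 104) (nat_lit 5) (nat_lit 98) (nat_lit 5) (nat_lit 352) (nat_lit 322) (nat_lit 106)))))) (XT.nd (nat_lit 468) (nat_lit 760) (nat_lit 0) (XT.nd (nat_lit 234) (nat_lit 456) (nat_lit 0) (XT.nd (nat_lit 78) (nat_lit 380) (nat_lit 0) (XT.lf (nat_lit 0) (nat_lit 14703360888) (nat_lit 456) (nat_lit 11522978223) (nat_lit 532) (nat_lit 17093707274) (nat_lit 91) (nat_lit 5) (nat_lit 97) (nat_lit 5) (nat_lit 98) (nat_lit 5) (nat_lit 353) (nat_lit 322) (nat_lit 105)) (XT.nd (nat_lit 78) (nat_lit 380) (nat_lit 0) (XT.lf (nat_lit 0) (nat_lit 30480616201) (nat_lit 532) (nat_lit 11012383644) (nat_lit 76) (nat_lit 2644455826) (nat_lit 91) (nat_lit 5) (nat_lit 98) (nat_lit 5) (nat_lit 92) (nat_lit 5) (nat_lit 354) (nat_lit 322) (nat_lit 104)) (XT.lf (nat_lit 0) (nat_lit 7143744190) (nat_lit 380) (nat_lit 27900047265)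 (nat_lit 456) (nat_lit 9930161690) (nat_lit 86) (nat_lit 5) (nat_lit 91) (nat_lit 5) (nat_lit 92) (nat_lit 5) (nat_lit 355) (nat_lit 322) (nat_lit 103)))) (XT.nd (nat_lit 78) (nat_lit 456) (nat_lit 0) (XT.lf (nat_lit 0) (nat_lit 26068700393) (nat_lit 380) (nat_lit 13784903980) (nat_lit 456) (nat_lit 5978652787) (nat_lit 86) (nat_lit 5) (nat_lit 91) (nat_lit 5) (nat_lit 92) (nat_lit 5) (nat_lit 356) (nat_lit 322) (nat_lit 102)) (XT.nd (nat_lit 78) (nat_lit 456) (nat_lit 0) (XT.lf (nat_lit 0) (nat_lit 44813536841) (nat_lit 456) (nat_lit 1163747000) (nat_lit 76) (nat_lit 738855475) (nat_lit 86) (nat_lit 5) (nat_lit 92) (nat_lit 5) (nat_lit 87) (nat_lit 5) (nat_lit 357) (nat_lit 322) (nat_lit 101)) (XT.lf (nat_lit 0) (nat_lit 2564163532) (nat_lit 456) (nat_lit 29430983306) (nat_lit 76) (nat_lit 15621335655) (nat_lit 80) (nat_lit 5) (nat_lit 86) (nat_lit 5) (nat_lit 81) (nat_lit 5) (nat_lit 358)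 (nat_lit 322) (nat_lit 100))))) (XT.nd (nat_lit 234) (nat_lit 380) (nat_lit 0) (XT.nd (nat_lit 78) (nat_lit 380) (nat_lit 0) (XT.lf (nat_lit 0) (nat_lit 7137190065) (nat_lit 456) (nat_lit 10424925011) (nat_lit 76) (nat_lit 30980844275) (nat_lit 80) (nat_lit 5) (nat_lit 86) (nat_lit 5) (nat_lit 81) (nat_lit 5) (nat_lit 359) (nat_lit 322) (nat_lit 99)) (XT.nd (nat_lit 78) (nat_lit 0) (nat_lit 0) (XT.lf (nat_lit 0) (nat_lit 9331893472) (nat_lit 380) (nat_lit 2603887747) (nat_lit 456) (nat_lit 37558801435) (nat_lit 75) (nat_lit 5) (nat_lit 80) (nat_lit 5) (nat_lit 81) (nat_lit 5) (nat_lit 360) (nat_lit 322) (nat_lit 98)) (XT.lf (nat_lit 0) (nat_lit 17106407104) (nat_lit 456) (nat_lit 20702138672) (nat_lit 76) (nat_lit 12659369828) (nat_lit 75) (nat_lit 5) (nat_lit 81) (nat_lit 5) (nat_lit 76) (nat_lit 5) (nat_lit 361) (nat_lit 322) (nat_lit 97)))) (XT.nd (nat_lit 78) (nat_lit 380) (nat_lit 0) (XT.lf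 (nat_lit 0) (nat_lit 22456663224) (nat_lit 456) (nat_lit 685053700) (nat_lit 76) (nat_lit 28327999436) (nat_lit 75) (nat_lit 5) (nat_lit 81) (nat_lit 5) (nat_lit 76) (nat_lit 5) (nat_lit 362) (nat_lit 322) (nat_lit 96)) (XT.nd (nat_lit 78) (nat_lit 0) (nat_lit 0) (XT.lf (nat_lit 0) (nat_lit 20327754254) (nat_lit 380) (nat_lit 7833842954) (nat_lit 456) (nat_lit 24334151894) (nat_lit 70) (nat_lit 5) (nat_lit 75) (nat_lit 5) (nat_lit 76) (nat_lit 5) (nat_lit 363) (nat_lit 322) (nat_lit 95)) (XT.lf (nat_lit 0) (nat_lit 34119711989) (nat_lit 456) (nat_lit 11645173877) (nat_lit 76) (nat_lit 7785218957) (nat_lit 70) (nat_lit 5) (nat_lit 76) (nat_lit 5) (nat_lit 71) (nat_lit 5) (nat_lit 364) (nat_lit 322) (nat_lit 94))))))))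
noncomputable def xc244 : XT := (XT.nd (nat_lit 39000) (nat_lit 0) (nat_lit 304) (XT.nd (nat_lit 38142) (nat_lit 0) (nat_lit 4408) (XT.nd (nat_lit 37674) (nat_lit 0) (nat_lit 5016) (XT.nd (nat_lit 37440) (nat_lit 0) (nat_lit 4940) (XT.nd (nat_lit 37362) (nat_lit 0) (nat_lit 4940) (XT.lf (nat_lit 0) (nat_lit 9601695648) (nat_lit 304) (nat_lit 30823557234) (nat_lit 380) (nat_lit 14205780749) (nat_lit 66) (nat_lit 5) (nat_lit 70) (nat_lit 5) (nat_lit 71) (nat_lit 5) (nat_lit 365) (nat_lit 322) (nat_lit 93)) (XT.lf (nat_lit 0) (nat_lit 2065281889) (nat_lit 1140) (nat_lit 5621991322) (nat_lit 1140) (nat_lit 5621991322) (nat_lit 131) (nat_lit 3) (nat_lit 146) (nat_lit 3) (nat_lit 146) (nat_lit 5) (nat_lit 323) (nat_lit 323) (nat_lit 134))) (XT.nd (nat_lit 78) (nat_lit 0) (nat_lit 76) (XT.lf (nat_lit 0) (nat_lit 4274811213) (nat_lit 1140) (nat_lit 658001368) (nat_lit 1140) (nat_lit 22082276654) (nat_lit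 131) (nat_lit 3) (nat_lit 146) (nat_lit 3) (nat_lit 146) (nat_lit 5) (nat_lit 324) (nat_lit 323) (nat_lit 133)) (XT.nd (nat_lit 78) (nat_lit 0) (nat_lit 0) (XT.lf (nat_lit 0) (nat_lit 4577580536) (nat_lit 1064) (nat_lit 17029840675) (nat_lit 1140) (nat_lit 5811508884) (nat_lit 132) (nat_lit 5) (nat_lit 146) (nat_lit 5) (nat_lit 147) (nat_lit 5) (nat_lit 325) (nat_lit 323) (nat_lit 132)) (XT.lf (nat_lit 0) (nat_lit 4941863554) (nat_lit 1064) (nat_lit 6104271357) (nat_lit 1140) (nat_lit 16787187790) (nat_lit 132) (nat_lit 5) (nat_lit 146) (nat_lit 5) (nat_lit 147) (nat_lit 5) (nat_lit 326) (nat_lit 323) (nat_lit 131))))) (XT.nd (nat_lit 234) (nat_lit 0) (nat_lit 152) (XT.nd (nat_lit 78) (nat_lit 0) (nat_lit 76) (XT.lf (nat_lit 76) (nat_lit 5249798477) (nat_lit 0) (nat_lit 114712292) (nat_lit 1140) (nat_lit 22894222408) (nat_lit 133) (nat_lit 5) (nat_lit 132) (nat_lit 5) (nat_lit 147) (nat_lit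 5) (nat_lit 327) (nat_lit 323) (nat_lit 130)) (XT.nd (nat_lit 78) (nat_lit 0) (nat_lit 0) (XT.lf (nat_lit 0) (nat_lit 5966273636) (nat_lit 1064) (nat_lit 11734976312) (nat_lit 1140) (nat_lit 10990671830) (nat_lit 133) (nat_lit 5) (nat_lit 147) (nat_lit 5) (nat_lit 148) (nat_lit 5) (nat_lit 328) (nat_lit 323) (nat_lit 129)) (XT.lf (nat_lit 0) (nat_lit 6584366444) (nat_lit 1064) (nat_lit 125684485) (nat_lit 1140) (nat_lit 22428115434) (nat_lit 133) (nat_lit 5) (nat_lit 147) (nat_lit 5) (nat_lit 148) (nat_lit 5) (nat_lit 329) (nat_lit 323) (nat_lit 128)))) (XT.nd (nat_lit 78) (nat_lit 0) (nat_lit 0) (XT.lf (nat_lit 0) (nat_lit 7379690150) (nat_lit 1064) (nat_lit 17574260361) (nat_lit 1140) (nat_lit 4639095516) (nat_lit 134) (nat_lit 5) (nat_lit 148) (nat_lit 5) (nat_lit 149) (nat_lit 5) (nat_lit 330) (nat_lit 323) (nat_lit 127)) (XT.nd (nat_lit 78) (nat_lit 0) (nat_lit 0) (XT.lf (nat_lit 0) (nat_lit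 8263890563) (nat_lit 1064) (nat_lit 5599597680) (nat_lit 1140) (nat_lit 16196141470) (nat_lit 134) (nat_lit 5) (nat_lit 148) (nat_lit 5) (nat_lit 149) (nat_lit 5) (nat_lit 331) (nat_lit 323) (nat_lit 126)) (XT.lf (nat_lit 76) (nat_lit 6866566924) (nat_lit 0) (nat_lit 2371433487) (nat_lit 1140) (nat_lit 21300316901) (nat_lit 135) (nat_lit 5) (nat_lit 134) (nat_lit 5) (nat_lit 149) (nat_lit 5) (nat_lit 332) (nat_lit 323) (nat_lit 125)))))) (XT.nd (nat_lit 390) (nat_lit 836) (nat_lit 0) (XT.nd (nat_lit 156) (nat_lit 0) (nat_lit 76) (XT.nd (nat_lit 78) (nat_lit 0) (nat_lit 0) (XT.lf (nat_lit 0) (nat_lit 10386871280) (nat_lit 1064) (nat_lit 11301518530) (nat_lit 1140) (nat_lit 9338617272) (nat_lit 135) (nat_lit 5) (nat_lit 149) (nat_lit 5) (nat_lit 150) (nat_lit 5) (nat_lit 333) (nat_lit 323) (nat_lit 124)) (XT.lf (nat_lit 76) (nat_lit 1442741233) (nat_lit 0) (nat_lit 10162335349) (nat_lit 1140)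 (nat_lit 19924242364) (nat_lit 136) (nat_lit 5) (nat_lit 135) (nat_lit 5) (nat_lit 150) (nat_lit 5) (nat_lit 334) (nat_lit 323) (nat_lit 123))) (XT.nd (nat_lit 78) (nat_lit 0) (nat_lit 0) (XT.lf (nat_lit 0) (nat_lit 12989096343) (nat_lit 1064) (nat_lit 17261662318) (nat_lit 1140) (nat_lit 1792070690) (nat_lit 136) (nat_lit 5) (nat_lit 150) (nat_lit 5) (nat_lit 151) (nat_lit 5) (nat_lit 335) (nat_lit 323) (nat_lit 122)) (XT.nd (nat_lit 78) (nat_lit 0) (nat_lit 0) (XT.lf (nat_lit 0) (nat_lit 14512906714) (nat_lit 1064) (nat_lit 4154385563) (nat_lit 1140) (nat_lit 13901511713) (nat_lit 136) (nat_lit 5) (nat_lit 150) (nat_lit 5) (nat_lit 151) (nat_lit 5) (nat_lit 336) (nat_lit 323) (nat_lit 121)) (XT.lf (nat_lit 76) (nat_lit 9530363820) (nat_lit 0) (nat_lit 6641400465) (nat_lit 1140) (nat_lit 16936120416) (nat_lit 137) (nat_lit 5) (nat_lit 136) (nat_lit 5) (nat_lit 151) (nat_lit 5) (nat_lit 337)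 (nat_lit 323) (nat_lit 120))))) (XT.nd (nat_lit 234) (nat_lit 988) (nat_lit 0) (XT.nd (nat_lit 78) (nat_lit 0) (nat_lit 0) (XT.lf (nat_lit 0) (nat_lit 17975757425) (nat_lit 1064) (nat_lit 10008484293) (nat_lit 1140) (nat_lit 5676041639) (nat_lit 137) (nat_lit 5) (nat_lit 151) (nat_lit 5) (nat_lit 152) (nat_lit 5) (nat_lit 338) (nat_lit 323) (nat_lit 119)) (XT.nd (nat_lit 78) (nat_lit 0) (nat_lit 0) (XT.lf (nat_lit 76) (nat_lit 3977760075) (nat_lit 0) (nat_lit 15957944460) (nat_lit 1140) (nat_lit 14290500841) (nat_lit 138) (nat_lit 5) (nat_lit 137) (nat_lit 5) (nat_lit 152) (nat_lit 5) (nat_lit 339) (nat_lit 323) (nat_lit 118)) (XT.lf (nat_lit 76) (nat_lit 18587045522) (nat_lit 0) (nat_lit 3466358115) (nat_lit 1140) (nat_lit 12752739049) (nat_lit 138) (nat_lit 5) (nat_lit 137) (nat_lit 5) (nat_lit 152) (nat_lit 5) (nat_lit 340) (nat_lit 323) (nat_lit 117)))) (XT.nd (nat_lit 78) (nat_lit 1064)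 (nat_lit 0) (XT.lf (nat_lit 0) (nat_lit 24322944826) (nat_lit 1064) (nat_lit 1860958794) (nat_lit 76) (nat_lit 9216931222) (nat_lit 138) (nat_lit 5) (nat_lit 152) (nat_lit 5) (nat_lit 139) (nat_lit 5) (nat_lit 341) (nat_lit 323) (nat_lit 116)) (XT.nd (nat_lit 78) (nat_lit 0) (nat_lit 0) (XT.lf (nat_lit 0) (nat_lit 13148496425) (nat_lit 1064) (nat_lit 13670800014) (nat_lit 1140) (nat_lit 9189315480) (nat_lit 124) (nat_lit 5) (nat_lit 138) (nat_lit 5) (nat_lit 139) (nat_lit 5) (nat_lit 342) (nat_lit 323) (nat_lit 115)) (XT.lf (nat_lit 0) (nat_lit 28644718170) (nat_lit 1064) (nat_lit 762666774) (nat_lit 1140) (nat_lit 7226737684) (nat_lit 124) (nat_lit 5) (nat_lit 138) (nat_lit 5) (nat_lit 139) (nat_lit 5) (nat_lit 343) (nat_lit 323) (nat_lit 114))))))) (XT.nd (nat_lit 858) (nat_lit 1596) (nat_lit 0) (XT.nd (nat_lit 390) (nat_lit 1444) (nat_lit 0) (XT.nd (nat_lit 156) (nat_lit 532) (nat_lit 0)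 (XT.nd (nat_lit 78) (nat_lit 0) (nat_lit 0) (XT.lf (nat_lit 0) (nat_lit 7348673614) (nat_lit 532) (nat_lit 24913668113) (nat_lit 608) (nat_lit 5010385706) (nat_lit 117) (nat_lit 5) (nat_lit 124) (nat_lit 5) (nat_lit 125) (nat_lit 5) (nat_lit 344) (nat_lit 323) (nat_lit 113)) (XT.lf (nat_lit 0) (nat_lit 23301302730) (nat_lit 532) (nat_lit 11987951468) (nat_lit 608) (nat_lit 2638652358) (nat_lit 117) (nat_lit 5) (nat_lit 124) (nat_lit 5) (nat_lit 125) (nat_lit 5) (nat_lit 345) (nat_lit 323) (nat_lit 112))) (XT.nd (nat_lit 78) (nat_lit 76) (nat_lit 0) (XT.lf (nat_lit 0) (nat_lit 1137548391) (nat_lit 456) (nat_lit 37291310384) (nat_lit 532) (nat_lit 173230961) (nat_lit 111) (nat_lit 5) (nat_lit 117) (nat_lit 5) (nat_lit 118) (nat_lit 5) (nat_lit 346) (nat_lit 323) (nat_lit 111)) (XT.nd (nat_lit 78) (nat_lit 0) (nat_lit 0) (XT.lf (nat_lit 0) (nat_lit 2586057816) (nat_lit 532) (nat_lit 21762212015)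 (nat_lit 76) (nat_lit 14939568852) (nat_lit 110) (nat_lit 5) (nat_lit 117) (nat_lit 5) (nat_lit 111) (nat_lit 5) (nat_lit 347) (nat_lit 323) (nat_lit 110)) (XT.lf (nat_lit 0) (nat_lit 5422917201) (nat_lit 532) (nat_lit 5592179362) (nat_lit 76) (nat_lit 28979068653) (nat_lit 110) (nat_lit 5) (nat_lit 117) (nat_lit 5) (nat_lit 111) (nat_lit 5) (nat_lit 348) (nat_lit 323) (nat_lit 109))))) (XT.nd (nat_lit 234) (nat_lit 456) (nat_lit 0) (XT.nd (nat_lit 78) (nat_lit 456) (nat_lit 0) (XT.lf (nat_lit 0) (nat_lit 8478853154) (nat_lit 608) (nat_lit 29464191763) (nat_lit 76) (nat_lit 2774622144) (nat_lit 103) (nat_lit 5) (nat_lit 111) (nat_lit 5) (nat_lit 104) (nat_lit 5) (nat_lit 349) (nat_lit 323) (nat_lit 108)) (XT.nd (nat_lit 78) (nat_lit 456) (nat_lit 0) (XT.lf (nat_lit 0) (nat_lit 11790914780) (nat_lit 608) (nat_lit 12853307431) (nat_lit 76) (nat_lit 16813722834) (nat_lit 103) (nat_lit 5) (nat_lit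 111) (nat_lit 5) (nat_lit 104) (nat_lit 5) (nat_lit 350) (nat_lit 323) (nat_lit 107)) (XT.lf (nat_lit 0) (nat_lit 4338978460) (nat_lit 456) (nat_lit 10903474608) (nat_lit 532) (nat_lit 26976779231) (nat_lit 97) (nat_lit 5) (nat_lit 103) (nat_lit 5) (nat_lit 104) (nat_lit 5) (nat_lit 351) (nat_lit 323) (nat_lit 106)))) (XT.nd (nat_lit 78) (nat_lit 456) (nat_lit 0) (XT.lf (nat_lit 0) (nat_lit 18958288933) (nat_lit 532) (nat_lit 20723101890) (nat_lit 76) (nat_lit 3317149054) (nat_lit 97) (nat_lit 5) (nat_lit 104) (nat_lit 5) (nat_lit 98) (nat_lit 5) (nat_lit 352) (nat_lit 323) (nat_lit 105)) (XT.nd (nat_lit 78) (nat_lit 456) (nat_lit 0) (XT.lf (nat_lit 0) (nat_lit 22892037597) (nat_lit 532) (nat_lit 3160772543) (nat_lit 76) (nat_lit 17745227536) (nat_lit 97) (nat_lit 5) (nat_lit 104) (nat_lit 5) (nat_lit 98) (nat_lit 5) (nat_lit 353) (nat_lit 323) (nat_lit 104)) (XT.lf (nat_lit 0) (nat_lit 15223965189)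 (nat_lit 456) (nat_lit 11864702327) (nat_lit 532) (nat_lit 17528510835) (nat_lit 91) (nat_lit 5) (nat_lit 97) (nat_lit 5) (nat_lit 98) (nat_lit 5) (nat_lit 354) (nat_lit 323) (nat_lit 103)))))) (XT.nd (nat_lit 390) (nat_lit 760) (nat_lit 0) (XT.nd (nat_lit 156) (nat_lit 456) (nat_lit 0) (XT.nd (nat_lit 78) (nat_lit 380) (nat_lit 0) (XT.lf (nat_lit 0) (nat_lit 31468409782) (nat_lit 532) (nat_lit 11263206820) (nat_lit 76) (nat_lit 2727564128) (nat_lit 91) (nat_lit 5) (nat_lit 98) (nat_lit 5) (nat_lit 92) (nat_lit 5) (nat_lit 355) (nat_lit 323) (nat_lit 102)) (XT.lf (nat_lit 0) (nat_lit 7436824963) (nat_lit 380) (nat_lit 28730275363) (nat_lit 456) (nat_lit 10153719951) (nat_lit 86) (nat_lit 5) (nat_lit 91) (nat_lit 5) (nat_lit 92) (nat_lit 5) (nat_lit 356) (nat_lit 323) (nat_lit 101))) (XT.nd (nat_lit 78) (nat_lit 456) (nat_lit 0) (XT.lf (nat_lit 0) (nat_lit 26927235626) (nat_lit 380) (nat_lit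 14191875060) (nat_lit 456) (nat_lit 6085831215) (nat_lit 86) (nat_lit 5) (nat_lit 91) (nat_lit 5) (nat_lit 92) (nat_lit 5) (nat_lit 357) (nat_lit 323) (nat_lit 100)) (XT.nd (nat_lit 78) (nat_lit 456) (nat_lit 0) (XT.lf (nat_lit 0) (nat_lit 46225866630) (nat_lit 456) (nat_lit 1122257486) (nat_lit 76) (nat_lit 767281059) (nat_lit 86) (nat_lit 5) (nat_lit 92) (nat_lit 5) (nat_lit 87) (nat_lit 5) (nat_lit 358) (nat_lit 323) (nat_lit 99)) (XT.lf (nat_lit 0) (nat_lit 2708593036) (nat_lit 456) (nat_lit 30236746204) (nat_lit 76) (nat_lit 16097442348) (nat_lit 80) (nat_lit 5) (nat_lit 86) (nat_lit 5) (nat_lit 81) (nat_lit 5) (nat_lit 359) (nat_lit 323) (nat_lit 98))))) (XT.nd (nat_lit 234) (nat_lit 380) (nat_lit 0) (XT.nd (nat_lit 78) (nat_lit 380) (nat_lit 0) (XT.lf (nat_lit 0) (nat_lit 7416844211) (nat_lit 456) (nat_lit 10662753731) (nat_lit 76) (nat_lit 31917518752) (nat_lit 80) (nat_lit 5) (nat_lit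 86) (nat_lit 5) (nat_lit 81) (nat_lit 5) (nat_lit 360) (nat_lit 323) (nat_lit 97)) (XT.nd (nat_lit 78) (nat_lit 0) (nat_lit 0) (XT.lf (nat_lit 0) (nat_lit 9686034806) (nat_lit 380) (nat_lit 2672162514) (nat_lit 456) (nat_lit 38619132064) (nat_lit 75) (nat_lit 5) (nat_lit 80) (nat_lit 5) (nat_lit 81) (nat_lit 5) (nat_lit 361) (nat_lit 323) (nat_lit 96)) (XT.lf (nat_lit 0) (nat_lit 17682159774) (nat_lit 456) (nat_lit 21249241013) (nat_lit 76) (nat_lit 13048519676) (nat_lit 75) (nat_lit 5) (nat_lit 81) (nat_lit 5) (nat_lit 76) (nat_lit 5) (nat_lit 362) (nat_lit 323) (nat_lit 95)))) (XT.nd (nat_lit 78) (nat_lit 380) (nat_lit 0) (XT.lf (nat_lit 0) (nat_lit 23191101429) (nat_lit 456) (nat_lit 633797719) (nat_lit 76) (nat_lit 29186935295) (nat_lit 75) (nat_lit 5) (nat_lit 81) (nat_lit 5) (nat_lit 76) (nat_lit 5) (nat_lit 363) (nat_lit 323) (nat_lit 94)) (XT.nd (nat_lit 78) (nat_lit 0) (nat_lit 0)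 (XT.lf (nat_lit 0) (nat_lit 21008690477) (nat_lit 380) (nat_lit 8057407369) (nat_lit 456) (nat_lit 25002587295) (nat_lit 70) (nat_lit 5) (nat_lit 75) (nat_lit 5) (nat_lit 76) (nat_lit 5) (nat_lit 364) (nat_lit 323) (nat_lit 93)) (XT.lf (nat_lit 0) (nat_lit 35201325480) (nat_lit 456) (nat_lit 11923723310) (nat_lit 76) (nat_lit 8029675939) (nat_lit 70) (nat_lit 5) (nat_lit 76) (nat_lit 5) (nat_lit 71) (nat_lit 5) (nat_lit 365) (nat_lit 323) (nat_lit 92))))))))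
noncomputable def xc245 : XT := (XT.nd (nat_lit 1716) (nat_lit 3192) (nat_lit 0) (XT.nd (nat_lit 858) (nat_lit 1064) (nat_lit 0) (XT.nd (nat_lit 390) (nat_lit 0) (nat_lit 152) (XT.nd (nat_lit 156) (nat_lit 0) (nat_lit 76) (XT.nd (nat_lit 78) (nat_lit 0) (nat_lit 0) (XT.lf (nat_lit 0) (nat_lit 2208738311) (nat_lit 1140) (nat_lit 5748556257) (nat_lit 1140) (nat_lit 5748556257) (nat_lit 131) (nat_lit 3) (nat_lit 146) (nat_lit 3) (nat_lit 146) (nat_lit 5) (nat_lit 324) (nat_lit 324) (nat_lit 132)) (XT.lf (nat_lit 0) (nat_lit 4561304025) (nat_lit 1140) (nat_lit 596003925) (nat_lit 1140) (nat_lit 22663007469) (nat_lit 131) (nat_lit 3) (nat_lit 146) (nat_lit 3) (nat_lit 146) (nat_lit 5) (nat_lit 325) (nat_lit 324) (nat_lit 131))) (XT.nd (nat_lit 78) (nat_lit 0) (nat_lit 0) (XT.lf (nat_lit 0) (nat_lit 4868618910) (nat_lit 1064) (nat_lit 17453995809) (nat_lit 1140) (nat_lit 5913806864) (nat_lit 132)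 (nat_lit 5) (nat_lit 146) (nat_lit 5) (nat_lit 147) (nat_lit 5) (nat_lit 326) (nat_lit 324) (nat_lit 130)) (XT.nd (nat_lit 78) (nat_lit 0) (nat_lit 0) (XT.lf (nat_lit 0) (nat_lit 5239353401) (nat_lit 1064) (nat_lit 6203185821) (nat_lit 1140) (nat_lit 17220854602) (nat_lit 132) (nat_lit 5) (nat_lit 146) (nat_lit 5) (nat_lit 147) (nat_lit 5) (nat_lit 327) (nat_lit 324) (nat_lit 129)) (XT.lf (nat_lit 76) (nat_lit 5490680484) (nat_lit 0) (nat_lit 180454506) (nat_lit 1140) (nat_lit 23430551128) (nat_lit 133) (nat_lit 5) (nat_lit 132) (nat_lit 5) (nat_lit 147) (nat_lit 5) (nat_lit 328) (nat_lit 324) (nat_lit 128))))) (XT.nd (nat_lit 234) (nat_lit 0) (nat_lit 76) (XT.nd (nat_lit 78) (nat_lit 0) (nat_lit 0) (XT.lf (nat_lit 0) (nat_lit 6286125945) (nat_lit 1064) (nat_lit 12000815911) (nat_lit 1140) (nat_lit 11261086032) (nat_lit 133) (nat_lit 5) (nat_lit 147) (nat_lit 5) (nat_lit 148) (nat_lit 5) (nat_lit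 329) (nat_lit 324) (nat_lit 127)) (XT.nd (nat_lit 78) (nat_lit 0) (nat_lit 76) (XT.lf (nat_lit 0) (nat_lit 6918658700) (nat_lit 1064) (nat_lit 45756291) (nat_lit 1140) (nat_lit 23043380302) (nat_lit 133) (nat_lit 5) (nat_lit 147) (nat_lit 5) (nat_lit 148) (nat_lit 5) (nat_lit 330) (nat_lit 324) (nat_lit 126)) (XT.lf (nat_lit 0) (nat_lit 7734168130) (nat_lit 1064) (nat_lit 18013714269) (nat_lit 1140) (nat_lit 4728561204) (nat_lit 134) (nat_lit 5) (nat_lit 148) (nat_lit 5) (nat_lit 149) (nat_lit 5) (nat_lit 331) (nat_lit 324) (nat_lit 125)))) (XT.nd (nat_lit 78) (nat_lit 0) (nat_lit 0) (XT.lf (nat_lit 0) (nat_lit 8641018227) (nat_lit 1064) (nat_lit 5682368229) (nat_lit 1140) (nat_lit 16633766318) (nat_lit 134) (nat_lit 5) (nat_lit 148) (nat_lit 5) (nat_lit 149) (nat_lit 5) (nat_lit 332) (nat_lit 324) (nat_lit 124)) (XT.nd (nat_lit 78) (nat_lit 0) (nat_lit 76) (XT.lf (nat_lit 76) (nat_lit 7156945849)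 (nat_lit 0) (nat_lit 2484453227) (nat_lit 1140) (nat_lit 21808901839) (nat_lit 135) (nat_lit 5) (nat_lit 134) (nat_lit 5) (nat_lit 149) (nat_lit 5) (nat_lit 333) (nat_lit 324) (nat_lit 123)) (XT.lf (nat_lit 0) (nat_lit 10820667814) (nat_lit 1064) (nat_lit 11554204495) (nat_lit 1140) (nat_lit 9578912131) (nat_lit 135) (nat_lit 5) (nat_lit 149) (nat_lit 5) (nat_lit 150) (nat_lit 5) (nat_lit 334) (nat_lit 324) (nat_lit 122)))))) (XT.nd (nat_lit 390) (nat_lit 1368) (nat_lit 0) (XT.nd (nat_lit 156) (nat_lit 0) (nat_lit 76) (XT.nd (nat_lit 78) (nat_lit 0) (nat_lit 76) (XT.lf (nat_lit 76) (nat_lit 1571536398) (nat_lit 0) (nat_lit 10501145935) (nat_lit 1140) (nat_lit 20398576127) (nat_lit 136) (nat_lit 5) (nat_lit 135) (nat_lit 5) (nat_lit 150) (nat_lit 5) (nat_lit 335) (nat_lit 324) (nat_lit 121)) (XT.lf (nat_lit 0) (nat_lit 13494426706) (nat_lit 1064) (nat_lit 17692347879) (nat_lit 1140) (nat_lit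 1813523855) (nat_lit 136) (nat_lit 5) (nat_lit 150) (nat_lit 5) (nat_lit 151) (nat_lit 5) (nat_lit 336) (nat_lit 324) (nat_lit 120))) (XT.nd (nat_lit 78) (nat_lit 0) (nat_lit 0) (XT.lf (nat_lit 0) (nat_lit 15060582724) (nat_lit 1064) (nat_lit 4194391588) (nat_lit 1140) (nat_lit 14287189146) (nat_lit 136) (nat_lit 5) (nat_lit 150) (nat_lit 5) (nat_lit 151) (nat_lit 5) (nat_lit 337) (nat_lit 324) (nat_lit 119)) (XT.nd (nat_lit 78) (nat_lit 0) (nat_lit 76) (XT.lf (nat_lit 76) (nat_lit 9900070615) (nat_lit 0) (nat_lit 6866670356) (nat_lit 1140) (nat_lit 17330759356) (nat_lit 137) (nat_lit 5) (nat_lit 136) (nat_lit 5) (nat_lit 151) (nat_lit 5) (nat_lit 338) (nat_lit 324) (nat_lit 118)) (XT.lf (nat_lit 0) (nat_lit 18621412247) (nat_lit 1064) (nat_lit 10223625239) (nat_lit 1140) (nat_lit 5821546208) (nat_lit 137) (nat_lit 5) (nat_lit 151) (nat_lit 5) (nat_lit 152) (nat_lit 5) (nat_lit 339) (nat_lit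 324) (nat_lit 117))))) (XT.nd (nat_lit 234) (nat_lit 1520) (nat_lit 0) (XT.nd (nat_lit 78) (nat_lit 0) (nat_lit 0) (XT.lf (nat_lit 76) (nat_lit 4181372013) (nat_lit 0) (nat_lit 16456497392) (nat_lit 1140) (nat_lit 14611691844) (nat_lit 138) (nat_lit 5) (nat_lit 137) (nat_lit 5) (nat_lit 152) (nat_lit 5) (nat_lit 340) (nat_lit 324) (nat_lit 116)) (XT.nd (nat_lit 78) (nat_lit 0) (nat_lit 76) (XT.lf (nat_lit 76) (nat_lit 19226481292) (nat_lit 0) (nat_lit 3589586332) (nat_lit 1140) (nat_lit 13030928966) (nat_lit 138) (nat_lit 5) (nat_lit 137) (nat_lit 5) (nat_lit 152) (nat_lit 5) (nat_lit 341) (nat_lit 324) (nat_lit 115)) (XT.lf (nat_lit 0) (nat_lit 25150571963) (nat_lit 1064) (nat_lit 1833933477) (nat_lit 76) (nat_lit 9475126459) (nat_lit 138) (nat_lit 5) (nat_lit 152) (nat_lit 5) (nat_lit 139) (nat_lit 5) (nat_lit 342) (nat_lit 324) (nat_lit 114)))) (XT.nd (nat_lit 78) (nat_lit 532) (nat_lit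 0) (XT.lf (nat_lit 0) (nat_lit 13624993104) (nat_lit 1064) (nat_lit 14094757070) (nat_lit 1140) (nat_lit 9365962473) (nat_lit 124) (nat_lit 5) (nat_lit 138) (nat_lit 5) (nat_lit 139) (nat_lit 5) (nat_lit 343) (nat_lit 324) (nat_lit 113)) (XT.nd (nat_lit 78) (nat_lit 532) (nat_lit 0) (XT.lf (nat_lit 0) (nat_lit 29583711934) (nat_lit 1064) (nat_lit 798976928) (nat_lit 1140) (nat_lit 7347391785) (nat_lit 124) (nat_lit 5) (nat_lit 138) (nat_lit 5) (nat_lit 139) (nat_lit 5) (nat_lit 344) (nat_lit 324) (nat_lit 112)) (XT.lf (nat_lit 0) (nat_lit 7651168576) (nat_lit 532) (nat_lit 25670077866) (nat_lit 608) (nat_lit 5066666549) (nat_lit 117) (nat_lit 5) (nat_lit 124) (nat_lit 5) (nat_lit 125) (nat_lit 5) (nat_lit 345) (nat_lit 324) (nat_lit 111))))))) (XT.nd (nat_lit 858) (nat_lit 1216) (nat_lit 0) (XT.nd (nat_lit 390) (nat_lit 912) (nat_lit 0) (XT.nd (nat_lit 156) (nat_lit 608) (nat_lit 0) (XT.nd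 (nat_lit 78) (nat_lit 456) (nat_lit 0) (XT.lf (nat_lit 0) (nat_lit 24079987203) (nat_lit 532) (nat_lit 12356327594) (nat_lit 608) (nat_lit 2626519960) (nat_lit 117) (nat_lit 5) (nat_lit 124) (nat_lit 5) (nat_lit 125) (nat_lit 5) (nat_lit 346) (nat_lit 324) (nat_lit 110)) (XT.lf (nat_lit 0) (nat_lit 1253503041) (nat_lit 456) (nat_lit 38414735248) (nat_lit 532) (nat_lit 89068721) (nat_lit 111) (nat_lit 5) (nat_lit 117) (nat_lit 5) (nat_lit 118) (nat_lit 5) (nat_lit 347) (nat_lit 324) (nat_lit 109))) (XT.nd (nat_lit 78) (nat_lit 532) (nat_lit 0) (XT.lf (nat_lit 0) (nat_lit 2748703095) (nat_lit 532) (nat_lit 22333704936) (nat_lit 76) (nat_lit 15381278252) (nat_lit 110) (nat_lit 5) (nat_lit 117) (nat_lit 5) (nat_lit 111) (nat_lit 5) (nat_lit 348) (nat_lit 324) (nat_lit 108)) (XT.nd (nat_lit 78) (nat_lit 532) (nat_lit 0) (XT.lf (nat_lit 0) (nat_lit 5668190681) (nat_lit 532) (nat_lit 5680941404) (nat_lit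 76) (nat_lit 29842151716) (nat_lit 110) (nat_lit 5) (nat_lit 117) (nat_lit 5) (nat_lit 111) (nat_lit 5) (nat_lit 349) (nat_lit 324) (nat_lit 107)) (XT.lf (nat_lit 0) (nat_lit 8814125290) (nat_lit 608) (nat_lit 30267212627) (nat_lit 76) (nat_lit 2855209833) (nat_lit 103) (nat_lit 5) (nat_lit 111) (nat_lit 5) (nat_lit 104) (nat_lit 5) (nat_lit 350) (nat_lit 324) (nat_lit 106))))) (XT.nd (nat_lit 234) (nat_lit 456) (nat_lit 0) (XT.nd (nat_lit 78) (nat_lit 456) (nat_lit 0) (XT.lf (nat_lit 0) (nat_lit 12223192264) (nat_lit 608) (nat_lit 13160358217) (nat_lit 76) (nat_lit 17315560756) (nat_lit 103) (nat_lit 5) (nat_lit 111) (nat_lit 5) (nat_lit 104) (nat_lit 5) (nat_lit 351) (nat_lit 324) (nat_lit 105)) (XT.nd (nat_lit 78) (nat_lit 0) (nat_lit 0) (XT.lf (nat_lit 0) (nat_lit 4546926167) (nat_lit 456) (nat_lit 11229810321) (nat_lit 532) (nat_lit 27706553109) (nat_lit 97) (nat_lit 5) (nat_lit 103) (nat_lit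 5) (nat_lit 104) (nat_lit 5) (nat_lit 352) (nat_lit 324) (nat_lit 104)) (XT.lf (nat_lit 0) (nat_lit 19601811597) (nat_lit 532) (nat_lit 21266842872) (nat_lit 76) (nat_lit 3417395107) (nat_lit 97) (nat_lit 5) (nat_lit 104) (nat_lit 5) (nat_lit 98) (nat_lit 5) (nat_lit 353) (nat_lit 324) (nat_lit 103)))) (XT.nd (nat_lit 78) (nat_lit 456) (nat_lit 0) (XT.lf (nat_lit 0) (nat_lit 23651394838) (nat_lit 532) (nat_lit 3179914093) (nat_lit 76) (nat_lit 18278294635) (nat_lit 97) (nat_lit 5) (nat_lit 104) (nat_lit 5) (nat_lit 98) (nat_lit 5) (nat_lit 354) (nat_lit 324) (nat_lit 102)) (XT.nd (nat_lit 78) (nat_lit 0) (nat_lit 0) (XT.lf (nat_lit 0) (nat_lit 15755623794) (nat_lit 456) (nat_lit 12216905775) (nat_lit 532) (nat_lit 17980836462) (nat_lit 91) (nat_lit 5) (nat_lit 97) (nat_lit 5) (nat_lit 98) (nat_lit 5) (nat_lit 355) (nat_lit 324) (nat_lit 101)) (XT.lf (nat_lit 0) (nat_lit 32481625140) (nat_lit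 532) (nat_lit 11526121091) (nat_lit 76) (nat_lit 2812949001) (nat_lit 91) (nat_lit 5) (nat_lit 98) (nat_lit 5) (nat_lit 92) (nat_lit 5) (nat_lit 356) (nat_lit 324) (nat_lit 100)))))) (XT.nd (nat_lit 390) (nat_lit 380) (nat_lit 0) (XT.nd (nat_lit 156) (nat_lit 456) (nat_lit 0) (XT.nd (nat_lit 78) (nat_lit 0) (nat_lit 0) (XT.lf (nat_lit 0) (nat_lit 7734176528) (nat_lit 380) (nat_lit 29585799120) (nat_lit 456) (nat_lit 10388252758) (nat_lit 86) (nat_lit 5) (nat_lit 91) (nat_lit 5) (nat_lit 92) (nat_lit 5) (nat_lit 357) (nat_lit 324) (nat_lit 99)) (XT.lf (nat_lit 0) (nat_lit 27807136982) (nat_lit 380) (nat_lit 14611432764) (nat_lit 456) (nat_lit 6200368490) (nat_lit 86) (nat_lit 5) (nat_lit 91) (nat_lit 5) (nat_lit 92) (nat_lit 5) (nat_lit 358) (nat_lit 324) (nat_lit 98))) (XT.nd (nat_lit 78) (nat_lit 456) (nat_lit 0) (XT.lf (nat_lit 0) (nat_lit 47676667216) (nat_lit 456) (nat_lit 1083909070) (nat_lit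 76) (nat_lit 796200065) (nat_lit 86) (nat_lit 5) (nat_lit 92) (nat_lit 5) (nat_lit 87) (nat_lit 5) (nat_lit 359) (nat_lit 324) (nat_lit 97)) (XT.nd (nat_lit 78) (nat_lit 0) (nat_lit 0) (XT.lf (nat_lit 0) (nat_lit 2853480385) (nat_lit 456) (nat_lit 31071111667) (nat_lit 76) (nat_lit 16587403627) (nat_lit 80) (nat_lit 5) (nat_lit 86) (nat_lit 5) (nat_lit 81) (nat_lit 5) (nat_lit 360) (nat_lit 324) (nat_lit 96)) (XT.lf (nat_lit 0) (nat_lit 7701125808) (nat_lit 456) (nat_lit 10912017971) (nat_lit 76) (nat_lit 32881877333) (nat_lit 80) (nat_lit 5) (nat_lit 86) (nat_lit 5) (nat_lit 81) (nat_lit 5) (nat_lit 361) (nat_lit 324) (nat_lit 95))))) (XT.nd (nat_lit 37752) (nat_lit 0) (nat_lit 4256) (XT.nd (nat_lit 78) (nat_lit 0) (nat_lit 0) (XT.lf (nat_lit 0) (nat_lit 10046541885) (nat_lit 380) (nat_lit 2743050488) (nat_lit 456) (nat_lit 39715086161) (nat_lit 75) (nat_lit 5) (nat_lit 80) (nat_lit 5) (nat_lit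 81) (nat_lit 5) (nat_lit 362) (nat_lit 324) (nat_lit 94)) (XT.nd (nat_lit 78) (nat_lit 0) (nat_lit 0) (XT.lf (nat_lit 0) (nat_lit 18271593799) (nat_lit 456) (nat_lit 21817002135) (nat_lit 76) (nat_lit 13448806214) (nat_lit 75) (nat_lit 5) (nat_lit 81) (nat_lit 5) (nat_lit 76) (nat_lit 5) (nat_lit 363) (nat_lit 324) (nat_lit 93)) (XT.lf (nat_lit 0) (nat_lit 23944086152) (nat_lit 456) (nat_lit 585126109) (nat_lit 76) (nat_lit 30071117090) (nat_lit 75) (nat_lit 5) (nat_lit 81) (nat_lit 5) (nat_lit 76) (nat_lit 5) (nat_lit 364) (nat_lit 324) (nat_lit 92)))) (XT.nd (nat_lit 78) (nat_lit 0) (nat_lit 0) (XT.lf (nat_lit 0) (nat_lit 2351820109) (nat_lit 1140) (nat_lit 5881334554) (nat_lit 1140) (nat_lit 5881334554) (nat_lit 131) (nat_lit 3) (nat_lit 146) (nat_lit 3) (nat_lit 146) (nat_lit 5) (nat_lit 325) (nat_lit 325) (nat_lit 130)) (XT.nd (nat_lit 78) (nat_lit 0) (nat_lit 76) (XT.lf (nat_lit 0) (nat_lit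 4847307511) (nat_lit 1140) (nat_lit 536838625) (nat_lit 1140) (nat_lit 23265852275) (nat_lit 131) (nat_lit 3) (nat_lit 146) (nat_lit 3) (nat_lit 146) (nat_lit 5) (nat_lit 326) (nat_lit 325) (nat_lit 129)) (XT.lf (nat_lit 0) (nat_lit 5159564798) (nat_lit 1064) (nat_lit 17895854832) (nat_lit 1140) (nat_lit 6023309593) (nat_lit 132) (nat_lit 5) (nat_lit 146) (nat_lit 5) (nat_lit 147) (nat_lit 5) (nat_lit 327) (nat_lit 325) (nat_lit 128))))))))
noncomputable def xc246 : XT := (XT.nd (nat_lit 1716) (nat_lit 2660) (nat_lit 0) (XT.nd (nat_lit 858) (nat_lit 1672) (nat_lit 0) (XT.nd (nat_lit 390) (nat_lit 0) (nat_lit 152) (XT.nd (nat_lit 156) (nat_lit 0) (nat_lit 76) (XT.nd (nat_lit 78) (nat_lit 0) (nat_lit 0) (XT.lf (nat_lit 0) (nat_lit 5537201304) (nat_lit 1064) (nat_lit 6309901929) (nat_lit 1140) (nat_lit 17671546768) (nat_lit 132) (nat_lit 5) (nat_lit 146) (nat_lit 5) (nat_lit 147) (nat_lit 5) (nat_lit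 328) (nat_lit 325) (nat_lit 127)) (XT.lf (nat_lit 76) (nat_lit 5734002135) (nat_lit 0) (nat_lit 244592663) (nat_lit 1140) (nat_lit 23991608907) (nat_lit 133) (nat_lit 5) (nat_lit 132) (nat_lit 5) (nat_lit 147) (nat_lit 5) (nat_lit 329) (nat_lit 325) (nat_lit 126))) (XT.nd (nat_lit 78) (nat_lit 0) (nat_lit 0) (XT.lf (nat_lit 0) (nat_lit 6607487649) (nat_lit 1064) (nat_lit 12279579488) (nat_lit 1140) (nat_lit 11543017065) (nat_lit 133) (nat_lit 5) (nat_lit 147) (nat_lit 5) (nat_lit 148) (nat_lit 5) (nat_lit 330) (nat_lit 325) (nat_lit 125)) (XT.nd (nat_lit 78) (nat_lit 0) (nat_lit 76) (XT.lf (nat_lit 76) (nat_lit 32397286) (nat_lit 0) (nat_lit 7223043204) (nat_lit 1140) (nat_lit 23648322499) (nat_lit 134) (nat_lit 5) (nat_lit 133) (nat_lit 5) (nat_lit 148) (nat_lit 5) (nat_lit 331) (nat_lit 325) (nat_lit 124)) (XT.lf (nat_lit 0) (nat_lit 8091640695) (nat_lit 1064) (nat_lit 18471390375) (nat_lit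 1140) (nat_lit 4823564258) (nat_lit 134) (nat_lit 5) (nat_lit 148) (nat_lit 5) (nat_lit 149) (nat_lit 5) (nat_lit 332) (nat_lit 325) (nat_lit 123))))) (XT.nd (nat_lit 234) (nat_lit 0) (nat_lit 76) (XT.nd (nat_lit 78) (nat_lit 0) (nat_lit 0) (XT.lf (nat_lit 0) (nat_lit 9022042483) (nat_lit 1064) (nat_lit 5772513721) (nat_lit 1140) (nat_lit 17087290199) (nat_lit 134) (nat_lit 5) (nat_lit 148) (nat_lit 5) (nat_lit 149) (nat_lit 5) (nat_lit 333) (nat_lit 325) (nat_lit 122)) (XT.nd (nat_lit 78) (nat_lit 0) (nat_lit 76) (XT.lf (nat_lit 76) (nat_lit 7451192273) (nat_lit 0) (nat_lit 2598459663) (nat_lit 1140) (nat_lit 22340231230) (nat_lit 135) (nat_lit 5) (nat_lit 134) (nat_lit 5) (nat_lit 149) (nat_lit 5) (nat_lit 334) (nat_lit 325) (nat_lit 121)) (XT.lf (nat_lit 0) (nat_lit 11260464015) (nat_lit 1064) (nat_lit 11819428433) (nat_lit 1140) (nat_lit 9828704172) (nat_lit 135) (nat_lit 5) (nat_lit 149)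 (nat_lit 5) (nat_lit 150) (nat_lit 5) (nat_lit 335) (nat_lit 325) (nat_lit 120)))) (XT.nd (nat_lit 78) (nat_lit 0) (nat_lit 76) (XT.lf (nat_lit 76) (nat_lit 1699286626) (nat_lit 0) (nat_lit 10848172515) (nat_lit 1140) (nat_lit 20894223196) (nat_lit 136) (nat_lit 5) (nat_lit 135) (nat_lit 5) (nat_lit 150) (nat_lit 5) (nat_lit 336) (nat_lit 325) (nat_lit 119)) (XT.nd (nat_lit 78) (nat_lit 0) (nat_lit 0) (XT.lf (nat_lit 0) (nat_lit 14008277768) (nat_lit 1064) (nat_lit 18140957594) (nat_lit 1140) (nat_lit 1837475281) (nat_lit 136) (nat_lit 5) (nat_lit 150) (nat_lit 5) (nat_lit 151) (nat_lit 5) (nat_lit 337) (nat_lit 325) (nat_lit 118)) (XT.lf (nat_lit 0) (nat_lit 15618243178) (nat_lit 1064) (nat_lit 4240455645) (nat_lit 1140) (nat_lit 14686237549) (nat_lit 136) (nat_lit 5) (nat_lit 150) (nat_lit 5) (nat_lit 151) (nat_lit 5) (nat_lit 338) (nat_lit 325) (nat_lit 117)))))) (XT.nd (nat_lit 390) (nat_lit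 1976) (nat_lit 0) (XT.nd (nat_lit 156) (nat_lit 0) (nat_lit 76) (XT.nd (nat_lit 78) (nat_lit 0) (nat_lit 76) (XT.lf (nat_lit 76) (nat_lit 10276058387) (nat_lit 0) (nat_lit 7097204238) (nat_lit 1140) (nat_lit 17743749653) (nat_lit 137) (nat_lit 5) (nat_lit 136) (nat_lit 5) (nat_lit 151) (nat_lit 5) (nat_lit 339) (nat_lit 325) (nat_lit 116)) (XT.lf (nat_lit 0) (nat_lit 19280329946) (nat_lit 1064) (nat_lit 10450106281) (nat_lit 1140) (nat_lit 5972838198) (nat_lit 137) (nat_lit 5) (nat_lit 151) (nat_lit 5) (nat_lit 152) (nat_lit 5) (nat_lit 340) (nat_lit 325) (nat_lit 115))) (XT.nd (nat_lit 78) (nat_lit 0) (nat_lit 0) (XT.lf (nat_lit 76) (nat_lit 4386254343) (nat_lit 0) (nat_lit 16968869472) (nat_lit 1140) (nat_lit 14948690895) (nat_lit 138) (nat_lit 5) (nat_lit 137) (nat_lit 5) (nat_lit 152) (nat_lit 5) (nat_lit 341) (nat_lit 325) (nat_lit 114)) (XT.nd (nat_lit 78) (nat_lit 0) (nat_lit 76) (XT.lf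 (nat_lit 76) (nat_lit 19880403080) (nat_lit 0) (nat_lit 3715407086) (nat_lit 1140) (nat_lit 13323457123) (nat_lit 138) (nat_lit 5) (nat_lit 137) (nat_lit 5) (nat_lit 152) (nat_lit 5) (nat_lit 342) (nat_lit 325) (nat_lit 113)) (XT.lf (nat_lit 0) (nat_lit 25997405826) (nat_lit 1064) (nat_lit 1810853563) (nat_lit 76) (nat_lit 9742118776) (nat_lit 138) (nat_lit 5) (nat_lit 152) (nat_lit 5) (nat_lit 139) (nat_lit 5) (nat_lit 343) (nat_lit 325) (nat_lit 112))))) (XT.nd (nat_lit 234) (nat_lit 532) (nat_lit 0) (XT.nd (nat_lit 78) (nat_lit 532) (nat_lit 0) (XT.lf (nat_lit 0) (nat_lit 14111075149) (nat_lit 1064) (nat_lit 14530638763) (nat_lit 1140) (nat_lit 9553593745) (nat_lit 124) (nat_lit 5) (nat_lit 138) (nat_lit 5) (nat_lit 139) (nat_lit 5) (nat_lit 344) (nat_lit 325) (nat_lit 111)) (XT.nd (nat_lit 78) (nat_lit 532) (nat_lit 0) (XT.lf (nat_lit 0) (nat_lit 30546303149) (nat_lit 1064) (nat_lit 835605440)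 (nat_lit 1140) (nat_lit 7477184798) (nat_lit 124) (nat_lit 5) (nat_lit 138) (nat_lit 5) (nat_lit 139) (nat_lit 5) (nat_lit 345) (nat_lit 325) (nat_lit 110)) (XT.lf (nat_lit 0) (nat_lit 7958029256) (nat_lit 532) (nat_lit 26448663291) (nat_lit 608) (nat_lit 5130033565) (nat_lit 117) (nat_lit 5) (nat_lit 124) (nat_lit 5) (nat_lit 125) (nat_lit 5) (nat_lit 346) (nat_lit 325) (nat_lit 109)))) (XT.nd (nat_lit 78) (nat_lit 532) (nat_lit 0) (XT.lf (nat_lit 0) (nat_lit 24877460239) (nat_lit 532) (nat_lit 12735253431) (nat_lit 608) (nat_lit 2619264122) (nat_lit 117) (nat_lit 5) (nat_lit 124) (nat_lit 5) (nat_lit 125) (nat_lit 5) (nat_lit 347) (nat_lit 325) (nat_lit 108)) (XT.nd (nat_lit 78) (nat_lit 76) (nat_lit 0) (XT.lf (nat_lit 0) (nat_lit 1368239057) (nat_lit 456) (nat_lit 39571593888) (nat_lit 532) (nat_lit 7511195) (nat_lit 111) (nat_lit 5) (nat_lit 117) (nat_lit 5) (nat_lit 118) (nat_lit 5) (nat_lit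 348) (nat_lit 325) (nat_lit 107)) (XT.lf (nat_lit 0) (nat_lit 2911344736) (nat_lit 532) (nat_lit 22927013814) (nat_lit 76) (nat_lit 15836610778) (nat_lit 110) (nat_lit 5) (nat_lit 117) (nat_lit 5) (nat_lit 111) (nat_lit 5) (nat_lit 349) (nat_lit 325) (nat_lit 106))))))) (XT.nd (nat_lit 858) (nat_lit 836) (nat_lit 0) (XT.nd (nat_lit 390) (nat_lit 836) (nat_lit 0) (XT.nd (nat_lit 156) (nat_lit 456) (nat_lit 0) (XT.nd (nat_lit 78) (nat_lit 532) (nat_lit 0) (XT.lf (nat_lit 0) (nat_lit 5916081594) (nat_lit 532) (nat_lit 5776901422) (nat_lit 76) (nat_lit 30731488286) (nat_lit 110) (nat_lit 5) (nat_lit 117) (nat_lit 5) (nat_lit 111) (nat_lit 5) (nat_lit 350) (nat_lit 325) (nat_lit 105)) (XT.lf (nat_lit 0) (nat_lit 9154811224) (nat_lit 608) (nat_lit 31098968388) (nat_lit 76) (nat_lit 2938367329) (nat_lit 103) (nat_lit 5) (nat_lit 111) (nat_lit 5) (nat_lit 104) (nat_lit 5) (nat_lit 351) (nat_lit 325)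 (nat_lit 104))) (XT.nd (nat_lit 78) (nat_lit 456) (nat_lit 0) (XT.lf (nat_lit 0) (nat_lit 12663928978) (nat_lit 608) (nat_lit 13481129529) (nat_lit 76) (nat_lit 17832601561) (nat_lit 103) (nat_lit 5) (nat_lit 111) (nat_lit 5) (nat_lit 104) (nat_lit 5) (nat_lit 352) (nat_lit 325) (nat_lit 103)) (XT.nd (nat_lit 78) (nat_lit 0) (nat_lit 0) (XT.lf (nat_lit 0) (nat_lit 4756647510) (nat_lit 456) (nat_lit 11565980221) (nat_lit 532) (nat_lit 28462785521) (nat_lit 97) (nat_lit 5) (nat_lit 103) (nat_lit 5) (nat_lit 104) (nat_lit 5) (nat_lit 353) (nat_lit 325) (nat_lit 102)) (XT.lf (nat_lit 0) (nat_lit 20260347607) (nat_lit 532) (nat_lit 21831370851) (nat_lit 76) (nat_lit 3520606546) (nat_lit 97) (nat_lit 5) (nat_lit 104) (nat_lit 5) (nat_lit 98) (nat_lit 5) (nat_lit 354) (nat_lit 325) (nat_lit 101))))) (XT.nd (nat_lit 234) (nat_lit 380) (nat_lit 0) (XT.nd (nat_lit 78) (nat_lit 456) (nat_lit 0) (XT.lf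 (nat_lit 0) (nat_lit 24429365481) (nat_lit 532) (nat_lit 3203974324) (nat_lit 76) (nat_lit 18827312975) (nat_lit 97) (nat_lit 5) (nat_lit 104) (nat_lit 5) (nat_lit 98) (nat_lit 5) (nat_lit 355) (nat_lit 325) (nat_lit 100)) (XT.nd (nat_lit 78) (nat_lit 0) (nat_lit 0) (XT.lf (nat_lit 0) (nat_lit 16298930315) (nat_lit 456) (nat_lit 12579889882) (nat_lit 532) (nat_lit 18450952763) (nat_lit 91) (nat_lit 5) (nat_lit 97) (nat_lit 5) (nat_lit 98) (nat_lit 5) (nat_lit 356) (nat_lit 325) (nat_lit 99)) (XT.lf (nat_lit 0) (nat_lit 33521266716) (nat_lit 532) (nat_lit 11801227060) (nat_lit 76) (nat_lit 2900691179) (nat_lit 91) (nat_lit 5) (nat_lit 98) (nat_lit 5) (nat_lit 92) (nat_lit 5) (nat_lit 357) (nat_lit 325) (nat_lit 98)))) (XT.nd (nat_lit 78) (nat_lit 0) (nat_lit 0) (XT.lf (nat_lit 0) (nat_lit 8036186569) (nat_lit 380) (nat_lit 30467355086) (nat_lit 456) (nat_lit 10633844359) (nat_lit 86) (nat_lit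 5) (nat_lit 91) (nat_lit 5) (nat_lit 92) (nat_lit 5) (nat_lit 358) (nat_lit 325) (nat_lit 97)) (XT.nd (nat_lit 78) (nat_lit 0) (nat_lit 0) (XT.lf (nat_lit 0) (nat_lit 28709297447) (nat_lit 380) (nat_lit 15043933022) (nat_lit 456) (nat_lit 6322247523) (nat_lit 86) (nat_lit 5) (nat_lit 91) (nat_lit 5) (nat_lit 92) (nat_lit 5) (nat_lit 359) (nat_lit 325) (nat_lit 96)) (XT.lf (nat_lit 0) (nat_lit 49167316546) (nat_lit 456) (nat_lit 1048544222) (nat_lit 76) (nat_lit 825647924) (nat_lit 86) (nat_lit 5) (nat_lit 92) (nat_lit 5) (nat_lit 87) (nat_lit 5) (nat_lit 360) (nat_lit 325) (nat_lit 95)))))) (XT.nd (nat_lit 38064) (nat_lit 0) (nat_lit 4332) (XT.nd (nat_lit 156) (nat_lit 380) (nat_lit 0) (XT.nd (nat_lit 78) (nat_lit 0) (nat_lit 0) (XT.lf (nat_lit 0) (nat_lit 2999061757) (nat_lit 456) (nat_lit 31934683491) (nat_lit 76) (nat_lit 17091659734) (nat_lit 80) (nat_lit 5) (nat_lit 86) (nat_lit 5) (nat_lit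 81) (nat_lit 5) (nat_lit 361) (nat_lit 325) (nat_lit 94)) (XT.lf (nat_lit 0) (nat_lit 7990389641) (nat_lit 456) (nat_lit 11172813922) (nat_lit 76) (nat_lit 33874774428) (nat_lit 80) (nat_lit 5) (nat_lit 86) (nat_lit 5) (nat_lit 81) (nat_lit 5) (nat_lit 362) (nat_lit 325) (nat_lit 93))) (XT.nd (nat_lit 37752) (nat_lit 0) (nat_lit 4256) (XT.lf (nat_lit 0) (nat_lit 10413850136) (nat_lit 380) (nat_lit 2816597632) (nat_lit 456) (nat_lit 40847513517) (nat_lit 75) (nat_lit 5) (nat_lit 80) (nat_lit 5) (nat_lit 81) (nat_lit 5) (nat_lit 363) (nat_lit 325) (nat_lit 92)) (XT.nd (nat_lit 78) (nat_lit 0) (nat_lit 0) (XT.lf (nat_lit 0) (nat_lit 2494784598) (nat_lit 1140) (nat_lit 6020373903) (nat_lit 1140) (nat_lit 6020373903) (nat_lit 131) (nat_lit 3) (nat_lit 146) (nat_lit 3) (nat_lit 146) (nat_lit 5) (nat_lit 326) (nat_lit 326) (nat_lit 128)) (XT.lf (nat_lit 0) (nat_lit 5133328457) (nat_lit 1140) (nat_lit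 480321088) (nat_lit 1140) (nat_lit 23891205148) (nat_lit 131) (nat_lit 3) (nat_lit 146) (nat_lit 3) (nat_lit 146) (nat_lit 5) (nat_lit 327) (nat_lit 326) (nat_lit 127))))) (XT.nd (nat_lit 234) (nat_lit 0) (nat_lit 76) (XT.nd (nat_lit 78) (nat_lit 0) (nat_lit 0) (XT.lf (nat_lit 0) (nat_lit 5450921937) (nat_lit 1064) (nat_lit 18355663033) (nat_lit 1140) (nat_lit 6139995801) (nat_lit 132) (nat_lit 5) (nat_lit 146) (nat_lit 5) (nat_lit 147) (nat_lit 5) (nat_lit 328) (nat_lit 326) (nat_lit 126)) (XT.nd (nat_lit 78) (nat_lit 0) (nat_lit 0) (XT.lf (nat_lit 0) (nat_lit 5835909766) (nat_lit 1064) (nat_lit 6424376226) (nat_lit 1140) (nat_lit 18139544549) (nat_lit 132) (nat_lit 5) (nat_lit 146) (nat_lit 5) (nat_lit 147) (nat_lit 5) (nat_lit 329) (nat_lit 326) (nat_lit 125)) (XT.lf (nat_lit 76) (nat_lit 5980111404) (nat_lit 0) (nat_lit 307283937) (nat_lit 1140) (nat_lit 24577641693) (nat_lit 133) (nat_lit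 5) (nat_lit 132) (nat_lit 5) (nat_lit 147) (nat_lit 5) (nat_lit 330) (nat_lit 326) (nat_lit 124)))) (XT.nd (nat_lit 78) (nat_lit 0) (nat_lit 0) (XT.lf (nat_lit 0) (nat_lit 6930868207) (nat_lit 1064) (nat_lit 12571370679) (nat_lit 1140) (nat_lit 11836615006) (nat_lit 133) (nat_lit 5) (nat_lit 147) (nat_lit 5) (nat_lit 148) (nat_lit 5) (nat_lit 331) (nat_lit 326) (nat_lit 123)) (XT.nd (nat_lit 78) (nat_lit 0) (nat_lit 76) (XT.lf (nat_lit 76) (nat_lit 109214454) (nat_lit 0) (nat_lit 7486128931) (nat_lit 1140) (nat_lit 24231498159) (nat_lit 134) (nat_lit 5) (nat_lit 133) (nat_lit 5) (nat_lit 148) (nat_lit 5) (nat_lit 332) (nat_lit 326) (nat_lit 122)) (XT.lf (nat_lit 0) (nat_lit 8452636236) (nat_lit 1064) (nat_lit 18947546111) (nat_lit 1140) (nat_lit 4924107002) (nat_lit 134) (nat_lit 5) (nat_lit 148) (nat_lit 5) (nat_lit 149) (nat_lit 5) (nat_lit 333) (nat_lit 326) (nat_lit 121))))))))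
noncomputable def xc247 : XT := (XT.nd (nat_lit 1716) (nat_lit 1292) (nat_lit 0) (XT.nd (nat_lit 858) (nat_lit 2812) (nat_lit 0) (XT.nd (nat_lit 390) (nat_lit 0) (nat_lit 152) (XT.nd (nat_lit 156) (nat_lit 0) (nat_lit 76) (XT.nd (nat_lit 78) (nat_lit 0) (nat_lit 0) (XT.lf (nat_lit 0) (nat_lit 9407506010) (nat_lit 1064) (nat_lit 5869974593) (nat_lit 1140) (nat_lit 17557031057) (nat_lit 134) (nat_lit 5) (nat_lit 148) (nat_lit 5) (nat_lit 149) (nat_lit 5) (nat_lit 334) (nat_lit 326) (nat_lit 120)) (XT.lf (nat_lit 76) (nat_lit 7749700282) (nat_lit 0) (nat_lit 2713620389) (nat_lit 1140) (nat_lit 22894557627) (nat_lit 135) (nat_lit 5) (nat_lit 134) (nat_lit 5) (nat_lit 149) (nat_lit 5) (nat_lit 335) (nat_lit 326) (nat_lit 119))) (XT.nd (nat_lit 78) (nat_lit 0) (nat_lit 0) (XT.lf (nat_lit 0) (nat_lit 11706842518) (nat_lit 1064) (nat_lit 12097281908) (nat_lit 1140) (nat_lit 10088146953) (nat_lit 135)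 (nat_lit 5) (nat_lit 149) (nat_lit 5) (nat_lit 150) (nat_lit 5) (nat_lit 336) (nat_lit 326) (nat_lit 118)) (XT.nd (nat_lit 78) (nat_lit 0) (nat_lit 76) (XT.lf (nat_lit 76) (nat_lit 1826242354) (nat_lit 0) (nat_lit 11203773408) (nat_lit 1140) (nat_lit 21411416359) (nat_lit 136) (nat_lit 5) (nat_lit 135) (nat_lit 5) (nat_lit 150) (nat_lit 5) (nat_lit 337) (nat_lit 326) (nat_lit 117)) (XT.lf (nat_lit 0) (nat_lit 14531286267) (nat_lit 1064) (nat_lit 18607741963) (nat_lit 1140) (nat_lit 1863893451) (nat_lit 136) (nat_lit 5) (nat_lit 150) (nat_lit 5) (nat_lit 151) (nat_lit 5) (nat_lit 338) (nat_lit 326) (nat_lit 116))))) (XT.nd (nat_lit 234) (nat_lit 0) (nat_lit 76) (XT.nd (nat_lit 78) (nat_lit 0) (nat_lit 0) (XT.lf (nat_lit 0) (nat_lit 16186557625) (nat_lit 1064) (nat_lit 4292480616) (nat_lit 1140) (nat_lit 15098954687) (nat_lit 136) (nat_lit 5) (nat_lit 150) (nat_lit 5) (nat_lit 151) (nat_lit 5)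 (nat_lit 339) (nat_lit 326) (nat_lit 115)) (XT.nd (nat_lit 78) (nat_lit 0) (nat_lit 76) (XT.lf (nat_lit 76) (nat_lit 10658791693) (nat_lit 0) (nat_lit 7333245797) (nat_lit 1140) (nat_lit 18175268020) (nat_lit 137) (nat_lit 5) (nat_lit 136) (nat_lit 5) (nat_lit 151) (nat_lit 5) (nat_lit 340) (nat_lit 326) (nat_lit 114)) (XT.lf (nat_lit 0) (nat_lit 19953258962) (nat_lit 1064) (nat_lit 10687987153) (nat_lit 1140) (nat_lit 6130009585) (nat_lit 137) (nat_lit 5) (nat_lit 151) (nat_lit 5) (nat_lit 152) (nat_lit 5) (nat_lit 341) (nat_lit 326) (nat_lit 113)))) (XT.nd (nat_lit 78) (nat_lit 0) (nat_lit 0) (XT.lf (nat_lit 76) (nat_lit 4592722894) (nat_lit 0) (nat_lit 17495540570) (nat_lit 1140) (nat_lit 15301617921) (nat_lit 138) (nat_lit 5) (nat_lit 137) (nat_lit 5) (nat_lit 152) (nat_lit 5) (nat_lit 342) (nat_lit 326) (nat_lit 112)) (XT.nd (nat_lit 78) (nat_lit 0) (nat_lit 76) (XT.lf (nat_lit 76) (nat_lit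 20549515095) (nat_lit 0) (nat_lit 3843961545) (nat_lit 1140) (nat_lit 13630409670) (nat_lit 138) (nat_lit 5) (nat_lit 137) (nat_lit 5) (nat_lit 152) (nat_lit 5) (nat_lit 343) (nat_lit 326) (nat_lit 111)) (XT.lf (nat_lit 0) (nat_lit 26864345348) (nat_lit 1064) (nat_lit 1791564392) (nat_lit 76) (nat_lit 10018111743) (nat_lit 138) (nat_lit 5) (nat_lit 152) (nat_lit 5) (nat_lit 139) (nat_lit 5) (nat_lit 344) (nat_lit 326) (nat_lit 110)))))) (XT.nd (nat_lit 390) (nat_lit 988) (nat_lit 0) (XT.nd (nat_lit 156) (nat_lit 1064) (nat_lit 0) (XT.nd (nat_lit 78) (nat_lit 0) (nat_lit 0) (XT.lf (nat_lit 0) (nat_lit 14607300468) (nat_lit 1064) (nat_lit 14978848416) (nat_lit 1140) (nat_lit 9752212490) (nat_lit 124) (nat_lit 5) (nat_lit 138) (nat_lit 5) (nat_lit 139) (nat_lit 5) (nat_lit 345) (nat_lit 326) (nat_lit 109)) (XT.lf (nat_lit 0) (nat_lit 31533462209) (nat_lit 1064) (nat_lit 872606118) (nat_lit 1140)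 (nat_lit 7616074063) (nat_lit 124) (nat_lit 5) (nat_lit 138) (nat_lit 5) (nat_lit 139) (nat_lit 5) (nat_lit 346) (nat_lit 326) (nat_lit 108))) (XT.nd (nat_lit 78) (nat_lit 532) (nat_lit 0) (XT.lf (nat_lit 0) (nat_lit 8269656949) (nat_lit 532) (nat_lit 27250119316) (nat_lit 608) (nat_lit 5200389488) (nat_lit 117) (nat_lit 5) (nat_lit 124) (nat_lit 5) (nat_lit 125) (nat_lit 5) (nat_lit 347) (nat_lit 326) (nat_lit 107)) (XT.nd (nat_lit 78) (nat_lit 532) (nat_lit 0) (XT.lf (nat_lit 0) (nat_lit 25694547945) (nat_lit 532) (nat_lit 13125074263) (nat_lit 608) (nat_lit 2616730313) (nat_lit 117) (nat_lit 5) (nat_lit 124) (nat_lit 5) (nat_lit 125) (nat_lit 5) (nat_lit 348) (nat_lit 326) (nat_lit 106)) (XT.lf (nat_lit 0) (nat_lit 70259628) (nat_lit 532) (nat_lit 40691935644) (nat_lit 76) (nat_lit 1411020410) (nat_lit 110) (nat_lit 5) (nat_lit 117) (nat_lit 5) (nat_lit 111) (nat_lit 5) (nat_lit 349) (nat_lit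 326) (nat_lit 105))))) (XT.nd (nat_lit 234) (nat_lit 456) (nat_lit 0) (XT.nd (nat_lit 78) (nat_lit 532) (nat_lit 0) (XT.lf (nat_lit 0) (nat_lit 3074262935) (nat_lit 532) (nat_lit 23542524982) (nat_lit 76) (nat_lit 16305953778) (nat_lit 110) (nat_lit 5) (nat_lit 117) (nat_lit 5) (nat_lit 111) (nat_lit 5) (nat_lit 350) (nat_lit 326) (nat_lit 104)) (XT.nd (nat_lit 78) (nat_lit 532) (nat_lit 0) (XT.lf (nat_lit 0) (nat_lit 6166940602) (nat_lit 532) (nat_lit 5880015022) (nat_lit 76) (nat_lit 31647845242) (nat_lit 110) (nat_lit 5) (nat_lit 117) (nat_lit 5) (nat_lit 111) (nat_lit 5) (nat_lit 351) (nat_lit 326) (nat_lit 103)) (XT.lf (nat_lit 0) (nat_lit 9501339975) (nat_lit 608) (nat_lit 31960054493) (nat_lit 76) (nat_lit 3024162992) (nat_lit 103) (nat_lit 5) (nat_lit 111) (nat_lit 5) (nat_lit 104) (nat_lit 5) (nat_lit 352) (nat_lit 326) (nat_lit 102)))) (XT.nd (nat_lit 78) (nat_lit 456) (nat_lit 0)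 (XT.lf (nat_lit 0) (nat_lit 13113637541) (nat_lit 608) (nat_lit 13815774147) (nat_lit 76) (nat_lit 18365292853) (nat_lit 103) (nat_lit 5) (nat_lit 111) (nat_lit 5) (nat_lit 104) (nat_lit 5) (nat_lit 353) (nat_lit 326) (nat_lit 101)) (XT.nd (nat_lit 78) (nat_lit 0) (nat_lit 0) (XT.lf (nat_lit 0) (nat_lit 4968451996) (nat_lit 456) (nat_lit 11912276803) (nat_lit 532) (nat_lit 29246008157) (nat_lit 97) (nat_lit 5) (nat_lit 103) (nat_lit 5) (nat_lit 104) (nat_lit 5) (nat_lit 354) (nat_lit 326) (nat_lit 100)) (XT.lf (nat_lit 0) (nat_lit 20934593762) (nat_lit 532) (nat_lit 22417052567) (nat_lit 76) (nat_lit 3626874743) (nat_lit 97) (nat_lit 5) (nat_lit 104) (nat_lit 5) (nat_lit 98) (nat_lit 5) (nat_lit 355) (nat_lit 326) (nat_lit 99))))))) (XT.nd (nat_lit 38688) (nat_lit 0) (nat_lit 3952) (XT.nd (nat_lit 390) (nat_lit 456) (nat_lit 0) (XT.nd (nat_lit 156) (nat_lit 380) (nat_lit 0) (XT.nd (nat_lit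 78) (nat_lit 456) (nat_lit 0) (XT.lf (nat_lit 0) (nat_lit 25226747151) (nat_lit 532) (nat_lit 3232851409) (nat_lit 76) (nat_lit 19392763433) (nat_lit 97) (nat_lit 5) (nat_lit 104) (nat_lit 5) (nat_lit 98) (nat_lit 5) (nat_lit 356) (nat_lit 326) (nat_lit 98)) (XT.lf (nat_lit 0) (nat_lit 16854481133) (nat_lit 456) (nat_lit 12953965750) (nat_lit 532) (nat_lit 18939151162) (nat_lit 91) (nat_lit 5) (nat_lit 97) (nat_lit 5) (nat_lit 98) (nat_lit 5) (nat_lit 357) (nat_lit 326) (nat_lit 97))) (XT.nd (nat_lit 78) (nat_lit 380) (nat_lit 0) (XT.lf (nat_lit 0) (nat_lit 34588355205) (nat_lit 532) (nat_lit 12088643396) (nat_lit 76) (nat_lit 2990873105) (nat_lit 91) (nat_lit 5) (nat_lit 98) (nat_lit 5) (nat_lit 92) (nat_lit 5) (nat_lit 358) (nat_lit 326) (nat_lit 96)) (XT.nd (nat_lit 78) (nat_lit 0) (nat_lit 0) (XT.lf (nat_lit 0) (nat_lit 8343239501) (nat_lit 380) (nat_lit 31375703189) (nat_lit 456) (nat_lit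 10890595591) (nat_lit 86) (nat_lit 5) (nat_lit 91) (nat_lit 5) (nat_lit 92) (nat_lit 5) (nat_lit 359) (nat_lit 326) (nat_lit 95)) (XT.lf (nat_lit 0) (nat_lit 29634622326) (nat_lit 380) (nat_lit 15489743683) (nat_lit 456) (nat_lit 6451464368) (nat_lit 86) (nat_lit 5) (nat_lit 91) (nat_lit 5) (nat_lit 92) (nat_lit 5) (nat_lit 360) (nat_lit 326) (nat_lit 94))))) (XT.nd (nat_lit 38064) (nat_lit 0) (nat_lit 3876) (XT.nd (nat_lit 78) (nat_lit 456) (nat_lit 0) (XT.lf (nat_lit 0) (nat_lit 50699221058) (nat_lit 456) (nat_lit 1016015140) (nat_lit 76) (nat_lit 855659946) (nat_lit 86) (nat_lit 5) (nat_lit 92) (nat_lit 5) (nat_lit 87) (nat_lit 5) (nat_lit 361) (nat_lit 326) (nat_lit 93)) (XT.nd (nat_lit 37908) (nat_lit 0) (nat_lit 3876) (XT.lf (nat_lit 0) (nat_lit 3145567648) (nat_lit 456) (nat_lit 32828098182) (nat_lit 76) (nat_lit 17610662705) (nat_lit 80) (nat_lit 5) (nat_lit 86) (nat_lit 5) (nat_lit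 81) (nat_lit 5) (nat_lit 362) (nat_lit 326) (nat_lit 92)) (XT.lf (nat_lit 0) (nat_lit 2637881399) (nat_lit 1140) (nat_lit 6165731384) (nat_lit 1140) (nat_lit 6165731384) (nat_lit 131) (nat_lit 3) (nat_lit 146) (nat_lit 3) (nat_lit 146) (nat_lit 5) (nat_lit 327) (nat_lit 327) (nat_lit 126)))) (XT.nd (nat_lit 78) (nat_lit 0) (nat_lit 76) (XT.lf (nat_lit 0) (nat_lit 5419858918) (nat_lit 1140) (nat_lit 426276864) (nat_lit 1140) (nat_lit 24539487446) (nat_lit 131) (nat_lit 3) (nat_lit 146) (nat_lit 3) (nat_lit 146) (nat_lit 5) (nat_lit 328) (nat_lit 327) (nat_lit 125)) (XT.nd (nat_lit 78) (nat_lit 0) (nat_lit 0) (XT.lf (nat_lit 0) (nat_lit 5743180103) (nat_lit 1064) (nat_lit 18833689467) (nat_lit 1140) (nat_lit 6263857207) (nat_lit 132) (nat_lit 5) (nat_lit 146) (nat_lit 5) (nat_lit 147) (nat_lit 5) (nat_lit 329) (nat_lit 327) (nat_lit 124)) (XT.lf (nat_lit 0) (nat_lit 6135968134) (nat_lit 1064)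 (nat_lit 6546579884) (nat_lit 1140) (nat_lit 18625149849) (nat_lit 132) (nat_lit 5) (nat_lit 146) (nat_lit 5) (nat_lit 147) (nat_lit 5) (nat_lit 330) (nat_lit 327) (nat_lit 123)))))) (XT.nd (nat_lit 468) (nat_lit 0) (nat_lit 228) (XT.nd (nat_lit 234) (nat_lit 0) (nat_lit 152) (XT.nd (nat_lit 78) (nat_lit 0) (nat_lit 76) (XT.lf (nat_lit 76) (nat_lit 6229350927) (nat_lit 0) (nat_lit 368678432) (nat_lit 1140) (nat_lit 25188931279) (nat_lit 133) (nat_lit 5) (nat_lit 132) (nat_lit 5) (nat_lit 147) (nat_lit 5) (nat_lit 331) (nat_lit 327) (nat_lit 122)) (XT.nd (nat_lit 78) (nat_lit 0) (nat_lit 0) (XT.lf (nat_lit 0) (nat_lit 7256765720) (nat_lit 1064) (nat_lit 12876312541) (nat_lit 1140) (nat_lit 12142045654) (nat_lit 133) (nat_lit 5) (nat_lit 147) (nat_lit 5) (nat_lit 148) (nat_lit 5) (nat_lit 332) (nat_lit 327) (nat_lit 121)) (XT.lf (nat_lit 76) (nat_lit 183982310) (nat_lit 0) (nat_lit 7754444001)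 (nat_lit 1140) (nat_lit 24839417734) (nat_lit 134) (nat_lit 5) (nat_lit 133) (nat_lit 5) (nat_lit 148) (nat_lit 5) (nat_lit 333) (nat_lit 327) (nat_lit 120)))) (XT.nd (nat_lit 78) (nat_lit 0) (nat_lit 0) (XT.lf (nat_lit 0) (nat_lit 8817673821) (nat_lit 1064) (nat_lit 19442463233) (nat_lit 1140) (nat_lit 5030201233) (nat_lit 134) (nat_lit 5) (nat_lit 148) (nat_lit 5) (nat_lit 149) (nat_lit 5) (nat_lit 334) (nat_lit 327) (nat_lit 119)) (XT.nd (nat_lit 78) (nat_lit 0) (nat_lit 0) (XT.lf (nat_lit 0) (nat_lit 9797943325) (nat_lit 1064) (nat_lit 5974705616) (nat_lit 1140) (nat_lit 18043325504) (nat_lit 134) (nat_lit 5) (nat_lit 148) (nat_lit 5) (nat_lit 149) (nat_lit 5) (nat_lit 335) (nat_lit 327) (nat_lit 118)) (XT.lf (nat_lit 76) (nat_lit 8052859817) (nat_lit 0) (nat_lit 2830100107) (nat_lit 1140) (nat_lit 23472165833) (nat_lit 135) (nat_lit 5) (nat_lit 134) (nat_lit 5) (nat_lit 149) (nat_lit 5)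 (nat_lit 336) (nat_lit 327) (nat_lit 117))))) (XT.nd (nat_lit 234) (nat_lit 0) (nat_lit 76) (XT.nd (nat_lit 78) (nat_lit 0) (nat_lit 0) (XT.lf (nat_lit 0) (nat_lit 12160380326) (nat_lit 1064) (nat_lit 12387875568) (nat_lit 1140) (nat_lit 10357406174) (nat_lit 135) (nat_lit 5) (nat_lit 149) (nat_lit 5) (nat_lit 150) (nat_lit 5) (nat_lit 337) (nat_lit 327) (nat_lit 116)) (XT.nd (nat_lit 78) (nat_lit 0) (nat_lit 76) (XT.lf (nat_lit 76) (nat_lit 1952645355) (nat_lit 0) (nat_lit 11568311267) (nat_lit 1140) (nat_lit 21950418730) (nat_lit 136) (nat_lit 5) (nat_lit 135) (nat_lit 5) (nat_lit 150) (nat_lit 5) (nat_lit 338) (nat_lit 327) (nat_lit 115)) (XT.lf (nat_lit 0) (nat_lit 15064086168) (nat_lit 1064) (nat_lit 19092975485) (nat_lit 1140) (nat_lit 1892752013) (nat_lit 136) (nat_lit 5) (nat_lit 150) (nat_lit 5) (nat_lit 151) (nat_lit 5) (nat_lit 339) (nat_lit 327) (nat_lit 114)))) (XT.nd (nat_lit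 78) (nat_lit 0) (nat_lit 0) (XT.lf (nat_lit 0) (nat_lit 16766194463) (nat_lit 1064) (nat_lit 4350382475) (nat_lit 1140) (nat_lit 15525653190) (nat_lit 136) (nat_lit 5) (nat_lit 150) (nat_lit 5) (nat_lit 151) (nat_lit 5) (nat_lit 340) (nat_lit 327) (nat_lit 113)) (XT.nd (nat_lit 78) (nat_lit 0) (nat_lit 76) (XT.lf (nat_lit 76) (nat_lit 11048733175) (nat_lit 0) (nat_lit 7575041109) (nat_lit 1140) (nat_lit 18625517934) (nat_lit 137) (nat_lit 5) (nat_lit 136) (nat_lit 5) (nat_lit 151) (nat_lit 5) (nat_lit 341) (nat_lit 327) (nat_lit 112)) (XT.lf (nat_lit 0) (nat_lit 20640950064) (nat_lit 1064) (nat_lit 10937345482) (nat_lit 1140) (nat_lit 6293159793) (nat_lit 137) (nat_lit 5) (nat_lit 151) (nat_lit 5) (nat_lit 152) (nat_lit 5) (nat_lit 342) (nat_lit 327) (nat_lit 111))))))))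
noncomputable def xc248 : XT := (XT.nd (nat_lit 39624) (nat_lit 0) (nat_lit 1824) (XT.nd (nat_lit 858) (nat_lit 1292) (nat_lit 0) (XT.nd (nat_lit 390) (nat_lit 1596) (nat_lit 0) (XT.nd (nat_lit 156) (nat_lit 988) (nat_lit 0) (XT.nd (nat_lit 78) (nat_lit 0) (nat_lit 0) (XT.lf (nat_lit 76) (nat_lit 4801087031) (nat_lit 0) (nat_lit 18037001201) (nat_lit 1140) (nat_lit 15670616782) (nat_lit 138) (nat_lit 5) (nat_lit 137) (nat_lit 5) (nat_lit 152) (nat_lit 5) (nat_lit 343) (nat_lit 327) (nat_lit 110)) (XT.lf (nat_lit 76) (nat_lit 21234527199) (nat_lit 0) (nat_lit 3975391473) (nat_lit 1140) (nat_lit 13951895090) (nat_lit 138) (nat_lit 5) (nat_lit 137) (nat_lit 5) (nat_lit 152) (nat_lit 5) (nat_lit 344) (nat_lit 327) (nat_lit 109))) (XT.nd (nat_lit 78) (nat_lit 1064) (nat_lit 0) (XT.lf (nat_lit 0) (nat_lit 27752297905) (nat_lit 1064) (nat_lit 1775922336) (nat_lit 76) (nat_lit 10303318497) (nat_lit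 138) (nat_lit 5) (nat_lit 152) (nat_lit 5) (nat_lit 139) (nat_lit 5) (nat_lit 345) (nat_lit 327) (nat_lit 108)) (XT.nd (nat_lit 78) (nat_lit 0) (nat_lit 0) (XT.lf (nat_lit 0) (nat_lit 15114228187) (nat_lit 1064) (nat_lit 15439798834) (nat_lit 1140) (nat_lit 9961840729) (nat_lit 124) (nat_lit 5) (nat_lit 138) (nat_lit 5) (nat_lit 139) (nat_lit 5) (nat_lit 346) (nat_lit 327) (nat_lit 107)) (XT.lf (nat_lit 0) (nat_lit 32546173555) (nat_lit 1064) (nat_lit 910031842) (nat_lit 1140) (nat_lit 7764033823) (nat_lit 124) (nat_lit 5) (nat_lit 138) (nat_lit 5) (nat_lit 139) (nat_lit 5) (nat_lit 347) (nat_lit 327) (nat_lit 106))))) (XT.nd (nat_lit 234) (nat_lit 532) (nat_lit 0) (XT.nd (nat_lit 78) (nat_lit 532) (nat_lit 0) (XT.lf (nat_lit 0) (nat_lit 8586449472) (nat_lit 532) (nat_lit 28075160010) (nat_lit 608) (nat_lit 5277651918) (nat_lit 117) (nat_lit 5) (nat_lit 124) (nat_lit 5) (nat_lit 125) (nat_lit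 5) (nat_lit 348) (nat_lit 327) (nat_lit 105)) (XT.nd (nat_lit 78) (nat_lit 532) (nat_lit 0) (XT.lf (nat_lit 0) (nat_lit 26532086145) (nat_lit 532) (nat_lit 13526144078) (nat_lit 608) (nat_lit 2618776635) (nat_lit 117) (nat_lit 5) (nat_lit 124) (nat_lit 5) (nat_lit 125) (nat_lit 5) (nat_lit 349) (nat_lit 327) (nat_lit 104)) (XT.lf (nat_lit 0) (nat_lit 145743977) (nat_lit 532) (nat_lit 41842500270) (nat_lit 76) (nat_lit 1447763330) (nat_lit 110) (nat_lit 5) (nat_lit 117) (nat_lit 5) (nat_lit 111) (nat_lit 5) (nat_lit 350) (nat_lit 327) (nat_lit 103)))) (XT.nd (nat_lit 78) (nat_lit 532) (nat_lit 0) (XT.lf (nat_lit 0) (nat_lit 3237730201) (nat_lit 532) (nat_lit 24180651758) (nat_lit 76) (nat_lit 16789707448) (nat_lit 110) (nat_lit 5) (nat_lit 117) (nat_lit 5) (nat_lit 111) (nat_lit 5) (nat_lit 351) (nat_lit 327) (nat_lit 102)) (XT.nd (nat_lit 78) (nat_lit 532) (nat_lit 0) (XT.lf (nat_lit 0) (nat_lit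 6421113265) (nat_lit 532) (nat_lit 5990251420) (nat_lit 76) (nat_lit 32592013664) (nat_lit 110) (nat_lit 5) (nat_lit 117) (nat_lit 5) (nat_lit 111) (nat_lit 5) (nat_lit 352) (nat_lit 327) (nat_lit 101)) (XT.lf (nat_lit 0) (nat_lit 9854138129) (nat_lit 608) (nat_lit 32851099557) (nat_lit 76) (nat_lit 3112667731) (nat_lit 103) (nat_lit 5) (nat_lit 111) (nat_lit 5) (nat_lit 104) (nat_lit 5) (nat_lit 353) (nat_lit 327) (nat_lit 100)))))) (XT.nd (nat_lit 390) (nat_lit 380) (nat_lit 0) (XT.nd (nat_lit 156) (nat_lit 456) (nat_lit 0) (XT.nd (nat_lit 78) (nat_lit 456) (nat_lit 0) (XT.lf (nat_lit 0) (nat_lit 13572831089) (nat_lit 608) (nat_lit 14164464292) (nat_lit 76) (nat_lit 18914096153) (nat_lit 103) (nat_lit 5) (nat_lit 111) (nat_lit 5) (nat_lit 104) (nat_lit 5) (nat_lit 354) (nat_lit 327) (nat_lit 99)) (XT.lf (nat_lit 0) (nat_lit 5182643702) (nat_lit 456) (nat_lit 12269001479) (nat_lit 532) (nat_lit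 30056783698) (nat_lit 97) (nat_lit 5) (nat_lit 103) (nat_lit 5) (nat_lit 104) (nat_lit 5) (nat_lit 355) (nat_lit 327) (nat_lit 98))) (XT.nd (nat_lit 78) (nat_lit 456) (nat_lit 0) (XT.lf (nat_lit 0) (nat_lit 21625253619) (nat_lit 532) (nat_lit 23024280509) (nat_lit 76) (nat_lit 3736293673) (nat_lit 97) (nat_lit 5) (nat_lit 104) (nat_lit 5) (nat_lit 98) (nat_lit 5) (nat_lit 356) (nat_lit 327) (nat_lit 97)) (XT.nd (nat_lit 78) (nat_lit 456) (nat_lit 0) (XT.lf (nat_lit 0) (nat_lit 26044347667) (nat_lit 532) (nat_lit 3266454781) (nat_lit 76) (nat_lit 19975141179) (nat_lit 97) (nat_lit 5) (nat_lit 104) (nat_lit 5) (nat_lit 98) (nat_lit 5) (nat_lit 357) (nat_lit 327) (nat_lit 96)) (XT.lf (nat_lit 0) (nat_lit 17422876344) (nat_lit 456) (nat_lit 13339454523) (nat_lit 532) (nat_lit 19445745732) (nat_lit 91) (nat_lit 5) (nat_lit 97) (nat_lit 5) (nat_lit 98) (nat_lit 5) (nat_lit 358) (nat_lit 327) (nat_lit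 95))))) (XT.nd (nat_lit 234) (nat_lit 0) (nat_lit 0) (XT.nd (nat_lit 78) (nat_lit 380) (nat_lit 0) (XT.lf (nat_lit 0) (nat_lit 35683928839) (nat_lit 532) (nat_lit 12388506509) (nat_lit 76) (nat_lit 3083579024) (nat_lit 91) (nat_lit 5) (nat_lit 98) (nat_lit 5) (nat_lit 92) (nat_lit 5) (nat_lit 359) (nat_lit 327) (nat_lit 94)) (XT.nd (nat_lit 78) (nat_lit 0) (nat_lit 0) (XT.lf (nat_lit 0) (nat_lit 8655717226) (nat_lit 380) (nat_lit 32311627363) (nat_lit 456) (nat_lit 11158623574) (nat_lit 86) (nat_lit 5) (nat_lit 91) (nat_lit 5) (nat_lit 92) (nat_lit 5) (nat_lit 360) (nat_lit 327) (nat_lit 93)) (XT.lf (nat_lit 0) (nat_lit 30584030452) (nat_lit 380) (nat_lit 15949244807) (nat_lit 456) (nat_lit 6588027828) (nat_lit 86) (nat_lit 5) (nat_lit 91) (nat_lit 5) (nat_lit 92) (nat_lit 5) (nat_lit 361) (nat_lit 327) (nat_lit 92)))) (XT.nd (nat_lit 37986) (nat_lit 0) (nat_lit 3420) (XT.lf (nat_lit 0) (nat_lit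 52273817273) (nat_lit 456) (nat_lit 986183210) (nat_lit 76) (nat_lit 886271383) (nat_lit 86) (nat_lit 5) (nat_lit 92) (nat_lit 5) (nat_lit 87) (nat_lit 5) (nat_lit 362) (nat_lit 327) (nat_lit 91)) (XT.nd (nat_lit 78) (nat_lit 0) (nat_lit 0) (XT.lf (nat_lit 0) (nat_lit 2781353087) (nat_lit 1140) (nat_lit 6317473298) (nat_lit 1140) (nat_lit 6317473298) (nat_lit 131) (nat_lit 3) (nat_lit 146) (nat_lit 3) (nat_lit 146) (nat_lit 5) (nat_lit 328) (nat_lit 328) (nat_lit 124)) (XT.lf (nat_lit 0) (nat_lit 5707377493) (nat_lit 1140) (nat_lit 374540846) (nat_lit 1140) (nat_lit 25211147745) (nat_lit 131) (nat_lit 3) (nat_lit 146) (nat_lit 3) (nat_lit 146) (nat_lit 5) (nat_lit 329) (nat_lit 328) (nat_lit 123))))))) (XT.nd (nat_lit 858) (nat_lit 1672) (nat_lit 0) (XT.nd (nat_lit 390) (nat_lit 0) (nat_lit 152) (XT.nd (nat_lit 156) (nat_lit 0) (nat_lit 0) (XT.nd (nat_lit 78) (nat_lit 0) (nat_lit 0) (XT.lf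 (nat_lit 0) (nat_lit 6036816356) (nat_lit 1064) (nat_lit 19330226726) (nat_lit 1140) (nat_lit 6394898131) (nat_lit 132) (nat_lit 5) (nat_lit 146) (nat_lit 5) (nat_lit 147) (nat_lit 5) (nat_lit 330) (nat_lit 328) (nat_lit 122)) (XT.lf (nat_lit 0) (nat_lit 6437853829) (nat_lit 1064) (nat_lit 6676498227) (nat_lit 1140) (nat_lit 19128686099) (nat_lit 132) (nat_lit 5) (nat_lit 146) (nat_lit 5) (nat_lit 147) (nat_lit 5) (nat_lit 331) (nat_lit 328) (nat_lit 121))) (XT.nd (nat_lit 78) (nat_lit 0) (nat_lit 76) (XT.lf (nat_lit 76) (nat_lit 6482058753) (nat_lit 0) (nat_lit 428919648) (nat_lit 1140) (nat_lit 25825794744) (nat_lit 133) (nat_lit 5) (nat_lit 132) (nat_lit 5) (nat_lit 147) (nat_lit 5) (nat_lit 332) (nat_lit 328) (nat_lit 120)) (XT.nd (nat_lit 78) (nat_lit 0) (nat_lit 0) (XT.lf (nat_lit 0) (nat_lit 7585668113) (nat_lit 1064) (nat_lit 13194547192) (nat_lit 1140) (nat_lit 12459490357) (nat_lit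 133) (nat_lit 5) (nat_lit 147) (nat_lit 5) (nat_lit 148) (nat_lit 5) (nat_lit 333) (nat_lit 328) (nat_lit 119)) (XT.lf (nat_lit 76) (nat_lit 256889302) (nat_lit 0) (nat_lit 8028298172) (nat_lit 1140) (nat_lit 25472407440) (nat_lit 134) (nat_lit 5) (nat_lit 133) (nat_lit 5) (nat_lit 148) (nat_lit 5) (nat_lit 334) (nat_lit 328) (nat_lit 118))))) (XT.nd (nat_lit 234) (nat_lit 0) (nat_lit 76) (XT.nd (nat_lit 78) (nat_lit 0) (nat_lit 0) (XT.lf (nat_lit 0) (nat_lit 9187264359) (nat_lit 1064) (nat_lit 19956447600) (nat_lit 1140) (nat_lit 5141867965) (nat_lit 134) (nat_lit 5) (nat_lit 148) (nat_lit 5) (nat_lit 149) (nat_lit 5) (nat_lit 335) (nat_lit 328) (nat_lit 117)) (XT.nd (nat_lit 78) (nat_lit 0) (nat_lit 0) (XT.lf (nat_lit 0) (nat_lit 10193881939) (nat_lit 1064) (nat_lit 6086675397) (nat_lit 1140) (nat_lit 18546528857) (nat_lit 134) (nat_lit 5) (nat_lit 148) (nat_lit 5) (nat_lit 149) (nat_lit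 5) (nat_lit 336) (nat_lit 328) (nat_lit 116)) (XT.lf (nat_lit 76) (nat_lit 8361057476) (nat_lit 0) (nat_lit 2948060992) (nat_lit 1140) (nat_lit 24073372449) (nat_lit 135) (nat_lit 5) (nat_lit 134) (nat_lit 5) (nat_lit 149) (nat_lit 5) (nat_lit 337) (nat_lit 328) (nat_lit 115)))) (XT.nd (nat_lit 78) (nat_lit 0) (nat_lit 0) (XT.lf (nat_lit 0) (nat_lit 12621649962) (nat_lit 1064) (nat_lit 12691338777) (nat_lit 1140) (nat_lit 10636659619) (nat_lit 135) (nat_lit 5) (nat_lit 149) (nat_lit 5) (nat_lit 150) (nat_lit 5) (nat_lit 338) (nat_lit 328) (nat_lit 114)) (XT.nd (nat_lit 78) (nat_lit 0) (nat_lit 76) (XT.lf (nat_lit 76) (nat_lit 2078729411) (nat_lit 0) (nat_lit 11942153569) (nat_lit 1140) (nat_lit 22511523318) (nat_lit 136) (nat_lit 5) (nat_lit 135) (nat_lit 5) (nat_lit 150) (nat_lit 5) (nat_lit 339) (nat_lit 328) (nat_lit 113)) (XT.lf (nat_lit 0) (nat_lit 15607309830) (nat_lit 1064) (nat_lit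 19596956440) (nat_lit 1140) (nat_lit 1924029585) (nat_lit 136) (nat_lit 5) (nat_lit 150) (nat_lit 5) (nat_lit 151) (nat_lit 5) (nat_lit 340) (nat_lit 328) (nat_lit 112)))))) (XT.nd (nat_lit 390) (nat_lit 1976) (nat_lit 0) (XT.nd (nat_lit 156) (nat_lit 0) (nat_lit 76) (XT.nd (nat_lit 78) (nat_lit 0) (nat_lit 0) (XT.lf (nat_lit 0) (nat_lit 17357822119) (nat_lit 1064) (nat_lit 4414089764) (nat_lit 1140) (nat_lit 15966660661) (nat_lit 136) (nat_lit 5) (nat_lit 150) (nat_lit 5) (nat_lit 151) (nat_lit 5) (nat_lit 341) (nat_lit 328) (nat_lit 111)) (XT.lf (nat_lit 76) (nat_lit 11446344412) (nat_lit 0) (nat_lit 7822838989) (nat_lit 1140) (nat_lit 19094729200) (nat_lit 137) (nat_lit 5) (nat_lit 136) (nat_lit 5) (nat_lit 151) (nat_lit 5) (nat_lit 342) (nat_lit 328) (nat_lit 110))) (XT.nd (nat_lit 78) (nat_lit 0) (nat_lit 0) (XT.lf (nat_lit 0) (nat_lit 21344157577) (nat_lit 1064) (nat_lit 11198276398)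 (nat_lit 1140) (nat_lit 6462395647) (nat_lit 137) (nat_lit 5) (nat_lit 151) (nat_lit 5) (nat_lit 152) (nat_lit 5) (nat_lit 343) (nat_lit 328) (nat_lit 109)) (XT.nd (nat_lit 78) (nat_lit 0) (nat_lit 0) (XT.lf (nat_lit 76) (nat_lit 5011650370) (nat_lit 0) (nat_lit 18593753063) (nat_lit 1140) (nat_lit 16055854830) (nat_lit 138) (nat_lit 5) (nat_lit 137) (nat_lit 5) (nat_lit 152) (nat_lit 5) (nat_lit 344) (nat_lit 328) (nat_lit 108)) (XT.lf (nat_lit 76) (nat_lit 21936155955) (nat_lit 0) (nat_lit 4109839456) (nat_lit 1140) (nat_lit 14288043733) (nat_lit 138) (nat_lit 5) (nat_lit 137) (nat_lit 5) (nat_lit 152) (nat_lit 5) (nat_lit 345) (nat_lit 328) (nat_lit 107))))) (XT.nd (nat_lit 234) (nat_lit 1064) (nat_lit 0) (XT.nd (nat_lit 78) (nat_lit 1064) (nat_lit 0) (XT.lf (nat_lit 0) (nat_lit 28662180629) (nat_lit 1064) (nat_lit 1763794229) (nat_lit 76) (nat_lit 10597961837) (nat_lit 138) (nat_lit 5)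 (nat_lit 152) (nat_lit 5) (nat_lit 139) (nat_lit 5) (nat_lit 346) (nat_lit 328) (nat_lit 106)) (XT.nd (nat_lit 78) (nat_lit 0) (nat_lit 0) (XT.lf (nat_lit 0) (nat_lit 15632419576) (nat_lit 1064) (nat_lit 15913912741) (nat_lit 1140) (nat_lit 10182518804) (nat_lit 124) (nat_lit 5) (nat_lit 138) (nat_lit 5) (nat_lit 139) (nat_lit 5) (nat_lit 347) (nat_lit 328) (nat_lit 105)) (XT.lf (nat_lit 0) (nat_lit 33585436960) (nat_lit 1064) (nat_lit 947934682) (nat_lit 1140) (nat_lit 7921054695) (nat_lit 124) (nat_lit 5) (nat_lit 138) (nat_lit 5) (nat_lit 139) (nat_lit 5) (nat_lit 348) (nat_lit 328) (nat_lit 104)))) (XT.nd (nat_lit 78) (nat_lit 532) (nat_lit 0) (XT.lf (nat_lit 0) (nat_lit 8908801948) (nat_lit 532) (nat_lit 28924519264) (nat_lit 608) (nat_lit 5361752750) (nat_lit 117) (nat_lit 5) (nat_lit 124) (nat_lit 5) (nat_lit 125) (nat_lit 5) (nat_lit 349) (nat_lit 328) (nat_lit 103)) (XT.nd (nat_lit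 78) (nat_lit 532) (nat_lit 0) (XT.lf (nat_lit 0) (nat_lit 27390921537) (nat_lit 532) (nat_lit 13938825928) (nat_lit 608) (nat_lit 2625273211) (nat_lit 117) (nat_lit 5) (nat_lit 124) (nat_lit 5) (nat_lit 125) (nat_lit 5) (nat_lit 350) (nat_lit 328) (nat_lit 102)) (XT.lf (nat_lit 0) (nat_lit 219280741) (nat_lit 532) (nat_lit 43031611226) (nat_lit 76) (nat_lit 1485929295) (nat_lit 110) (nat_lit 5) (nat_lit 117) (nat_lit 5) (nat_lit 111) (nat_lit 5) (nat_lit 351) (nat_lit 328) (nat_lit 101))))))))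
noncomputable def xc249 : XT := (XT.nd (nat_lit 39780) (nat_lit 0) (nat_lit 380) (XT.nd (nat_lit 38922) (nat_lit 0) (nat_lit 3420) (XT.nd (nat_lit 390) (nat_lit 836) (nat_lit 0) (XT.nd (nat_lit 156) (nat_lit 988) (nat_lit 0) (XT.nd (nat_lit 78) (nat_lit 0) (nat_lit 0) (XT.lf (nat_lit 0) (nat_lit 3402012054) (nat_lit 532) (nat_lit 24841834366) (nat_lit 76) (nat_lit 17288285142) (nat_lit 110) (nat_lit 5) (nat_lit 117) (nat_lit 5) (nat_lit 111) (nat_lit 5) (nat_lit 352) (nat_lit 328) (nat_lit 100)) (XT.lf (nat_lit 0) (nat_lit 6678940786) (nat_lit 532) (nat_lit 6107592998) (nat_lit 76) (nat_lit 33564809483) (nat_lit 110) (nat_lit 5) (nat_lit 117) (nat_lit 5) (nat_lit 111) (nat_lit 5) (nat_lit 353) (nat_lit 328) (nat_lit 99))) (XT.nd (nat_lit 78) (nat_lit 456) (nat_lit 0) (XT.lf (nat_lit 0) (nat_lit 10213630643) (nat_lit 608) (nat_lit 33772765477) (nat_lit 76) (nat_lit 3203955059) (nat_lit 103)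 (nat_lit 5) (nat_lit 111) (nat_lit 5) (nat_lit 104) (nat_lit 5) (nat_lit 354) (nat_lit 328) (nat_lit 98)) (XT.nd (nat_lit 78) (nat_lit 456) (nat_lit 0) (XT.lf (nat_lit 0) (nat_lit 14042024149) (nat_lit 608) (nat_lit 14527391360) (nat_lit 76) (nat_lit 19479487285) (nat_lit 103) (nat_lit 5) (nat_lit 111) (nat_lit 5) (nat_lit 104) (nat_lit 5) (nat_lit 355) (nat_lit 328) (nat_lit 97)) (XT.lf (nat_lit 0) (nat_lit 5399521964) (nat_lit 456) (nat_lit 12636464842) (nat_lit 532) (nat_lit 30895705888) (nat_lit 97) (nat_lit 5) (nat_lit 103) (nat_lit 5) (nat_lit 104) (nat_lit 5) (nat_lit 356) (nat_lit 328) (nat_lit 96))))) (XT.nd (nat_lit 234) (nat_lit 380) (nat_lit 0) (XT.nd (nat_lit 78) (nat_lit 456) (nat_lit 0) (XT.lf (nat_lit 0) (nat_lit 22333038510) (nat_lit 532) (nat_lit 23653472836) (nat_lit 76) (nat_lit 3848960001) (nat_lit 97) (nat_lit 5) (nat_lit 104) (nat_lit 5) (nat_lit 98) (nat_lit 5) (nat_lit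 357) (nat_lit 328) (nat_lit 95)) (XT.nd (nat_lit 78) (nat_lit 456) (nat_lit 0) (XT.lf (nat_lit 0) (nat_lit 26882986138) (nat_lit 532) (nat_lit 3304704650) (nat_lit 76) (nat_lit 20574956111) (nat_lit 97) (nat_lit 5) (nat_lit 104) (nat_lit 5) (nat_lit 98) (nat_lit 5) (nat_lit 358) (nat_lit 328) (nat_lit 94)) (XT.lf (nat_lit 0) (nat_lit 18004720686) (nat_lit 456) (nat_lit 13736687646) (nat_lit 532) (nat_lit 19971073081) (nat_lit 91) (nat_lit 5) (nat_lit 97) (nat_lit 5) (nat_lit 98) (nat_lit 5) (nat_lit 359) (nat_lit 328) (nat_lit 93)))) (XT.nd (nat_lit 78) (nat_lit 380) (nat_lit 0) (XT.lf (nat_lit 0) (nat_lit 36809044666) (nat_lit 532) (nat_lit 12700970273) (nat_lit 76) (nat_lit 3178895073) (nat_lit 91) (nat_lit 5) (nat_lit 98) (nat_lit 5) (nat_lit 92) (nat_lit 5) (nat_lit 360) (nat_lit 328) (nat_lit 92)) (XT.nd (nat_lit 38142) (nat_lit 0) (nat_lit 3420) (XT.lf (nat_lit 0) (nat_lit 8973999865)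 (nat_lit 380) (nat_lit 33275936197) (nat_lit 456) (nat_lit 11438061436) (nat_lit 86) (nat_lit 5) (nat_lit 91) (nat_lit 5) (nat_lit 92) (nat_lit 5) (nat_lit 361) (nat_lit 328) (nat_lit 91)) (XT.lf (nat_lit 0) (nat_lit 2925435819) (nat_lit 1140) (nat_lit 6475675010) (nat_lit 1140) (nat_lit 6475675010) (nat_lit 131) (nat_lit 3) (nat_lit 146) (nat_lit 3) (nat_lit 146) (nat_lit 5) (nat_lit 329) (nat_lit 329) (nat_lit 122)))))) (XT.nd (nat_lit 390) (nat_lit 0) (nat_lit 152) (XT.nd (nat_lit 156) (nat_lit 0) (nat_lit 76) (XT.nd (nat_lit 78) (nat_lit 0) (nat_lit 76) (XT.lf (nat_lit 0) (nat_lit 5996350546) (nat_lit 1140) (nat_lit 324956707) (nat_lit 1140) (nat_lit 25906661813) (nat_lit 131) (nat_lit 3) (nat_lit 146) (nat_lit 3) (nat_lit 146) (nat_lit 5) (nat_lit 330) (nat_lit 329) (nat_lit 121)) (XT.lf (nat_lit 0) (nat_lit 6332296235) (nat_lit 1064) (nat_lit 19845590757) (nat_lit 1140) (nat_lit 6533135128)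 (nat_lit 132) (nat_lit 5) (nat_lit 146) (nat_lit 5) (nat_lit 147) (nat_lit 5) (nat_lit 331) (nat_lit 329) (nat_lit 120))) (XT.nd (nat_lit 78) (nat_lit 0) (nat_lit 0) (XT.lf (nat_lit 0) (nat_lit 6742033510) (nat_lit 1064) (nat_lit 6814130290) (nat_lit 1140) (nat_lit 19650498190) (nat_lit 132) (nat_lit 5) (nat_lit 146) (nat_lit 5) (nat_lit 147) (nat_lit 5) (nat_lit 332) (nat_lit 329) (nat_lit 119)) (XT.nd (nat_lit 78) (nat_lit 0) (nat_lit 76) (XT.lf (nat_lit 76) (nat_lit 6738569058) (nat_lit 0) (nat_lit 488144917) (nat_lit 1140) (nat_lit 26488583976) (nat_lit 133) (nat_lit 5) (nat_lit 132) (nat_lit 5) (nat_lit 147) (nat_lit 5) (nat_lit 333) (nat_lit 329) (nat_lit 118)) (XT.lf (nat_lit 0) (nat_lit 7918054277) (nat_lit 1064) (nat_lit 13526235502) (nat_lit 1140) (nat_lit 12789145869) (nat_lit 133) (nat_lit 5) (nat_lit 147) (nat_lit 5) (nat_lit 148) (nat_lit 5) (nat_lit 334) (nat_lit 329) (nat_lit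 117))))) (XT.nd (nat_lit 234) (nat_lit 0) (nat_lit 76) (XT.nd (nat_lit 78) (nat_lit 0) (nat_lit 76) (XT.lf (nat_lit 76) (nat_lit 328115184) (nat_lit 0) (nat_lit 8308001723) (nat_lit 1140) (nat_lit 26130827164) (nat_lit 134) (nat_lit 5) (nat_lit 133) (nat_lit 5) (nat_lit 148) (nat_lit 5) (nat_lit 335) (nat_lit 329) (nat_lit 116)) (XT.nd (nat_lit 78) (nat_lit 0) (nat_lit 0) (XT.lf (nat_lit 0) (nat_lit 9561911722) (nat_lit 1064) (nat_lit 20489829002) (nat_lit 1140) (nat_lit 5259137196) (nat_lit 134) (nat_lit 5) (nat_lit 148) (nat_lit 5) (nat_lit 149) (nat_lit 5) (nat_lit 336) (nat_lit 329) (nat_lit 115)) (XT.lf (nat_lit 0) (nat_lit 10595843476) (nat_lit 1064) (nat_lit 6205865924) (nat_lit 1140) (nat_lit 19067015200) (nat_lit 134) (nat_lit 5) (nat_lit 148) (nat_lit 5) (nat_lit 149) (nat_lit 5) (nat_lit 337) (nat_lit 329) (nat_lit 114)))) (XT.nd (nat_lit 78) (nat_lit 0) (nat_lit 76) (XT.lf (nat_lit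 76) (nat_lit 8674677271) (nat_lit 0) (nat_lit 3067663045) (nat_lit 1140) (nat_lit 24698525495) (nat_lit 135) (nat_lit 5) (nat_lit 134) (nat_lit 5) (nat_lit 149) (nat_lit 5) (nat_lit 338) (nat_lit 329) (nat_lit 113)) (XT.nd (nat_lit 78) (nat_lit 0) (nat_lit 0) (XT.lf (nat_lit 0) (nat_lit 13091220591) (nat_lit 1064) (nat_lit 13007819295) (nat_lit 1140) (nat_lit 10926097101) (nat_lit 135) (nat_lit 5) (nat_lit 149) (nat_lit 5) (nat_lit 150) (nat_lit 5) (nat_lit 339) (nat_lit 329) (nat_lit 112)) (XT.lf (nat_lit 76) (nat_lit 2204720943) (nat_lit 0) (nat_lit 12325673115) (nat_lit 1140) (nat_lit 23095052660) (nat_lit 136) (nat_lit 5) (nat_lit 135) (nat_lit 5) (nat_lit 150) (nat_lit 5) (nat_lit 340) (nat_lit 329) (nat_lit 111))))))) (XT.nd (nat_lit 858) (nat_lit 1976) (nat_lit 0) (XT.nd (nat_lit 390) (nat_lit 1444) (nat_lit 0) (XT.nd (nat_lit 156) (nat_lit 0) (nat_lit 0) (XT.nd (nat_lit 78) (nat_lit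 0) (nat_lit 0) (XT.lf (nat_lit 0) (nat_lit 16161589147) (nat_lit 1064) (nat_lit 20120006701) (nat_lit 1140) (nat_lit 1957709576) (nat_lit 136) (nat_lit 5) (nat_lit 150) (nat_lit 5) (nat_lit 151) (nat_lit 5) (nat_lit 341) (nat_lit 329) (nat_lit 110)) (XT.lf (nat_lit 0) (nat_lit 17962110202) (nat_lit 1064) (nat_lit 4483543106) (nat_lit 1140) (nat_lit 16422319804) (nat_lit 136) (nat_lit 5) (nat_lit 150) (nat_lit 5) (nat_lit 151) (nat_lit 5) (nat_lit 342) (nat_lit 329) (nat_lit 109))) (XT.nd (nat_lit 78) (nat_lit 0) (nat_lit 76) (XT.lf (nat_lit 76) (nat_lit 11852086749) (nat_lit 0) (nat_lit 8076891344) (nat_lit 1140) (nat_lit 19583157585) (nat_lit 137) (nat_lit 5) (nat_lit 136) (nat_lit 5) (nat_lit 151) (nat_lit 5) (nat_lit 343) (nat_lit 329) (nat_lit 108)) (XT.nd (nat_lit 78) (nat_lit 0) (nat_lit 0) (XT.lf (nat_lit 0) (nat_lit 22063640577) (nat_lit 1064) (nat_lit 11470892190) (nat_lit 1140) (nat_lit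 6637831340) (nat_lit 137) (nat_lit 5) (nat_lit 151) (nat_lit 5) (nat_lit 152) (nat_lit 5) (nat_lit 344) (nat_lit 329) (nat_lit 107)) (XT.lf (nat_lit 76) (nat_lit 5224711474) (nat_lit 0) (nat_lit 19166309577) (nat_lit 1140) (nat_lit 16457522504) (nat_lit 138) (nat_lit 5) (nat_lit 137) (nat_lit 5) (nat_lit 152) (nat_lit 5) (nat_lit 345) (nat_lit 329) (nat_lit 106))))) (XT.nd (nat_lit 234) (nat_lit 532) (nat_lit 0) (XT.nd (nat_lit 78) (nat_lit 988) (nat_lit 0) (XT.lf (nat_lit 76) (nat_lit 22655125675) (nat_lit 0) (nat_lit 4247449127) (nat_lit 1140) (nat_lit 14639007404) (nat_lit 138) (nat_lit 5) (nat_lit 137) (nat_lit 5) (nat_lit 152) (nat_lit 5) (nat_lit 346) (nat_lit 329) (nat_lit 105)) (XT.nd (nat_lit 78) (nat_lit 1064) (nat_lit 0) (XT.lf (nat_lit 0) (nat_lit 29594921706) (nat_lit 1064) (nat_lit 1755056838) (nat_lit 76) (nat_lit 10902274323) (nat_lit 138) (nat_lit 5) (nat_lit 152) (nat_lit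 5) (nat_lit 139) (nat_lit 5) (nat_lit 347) (nat_lit 329) (nat_lit 104)) (XT.lf (nat_lit 0) (nat_lit 16162438957) (nat_lit 1064) (nat_lit 16401623215) (nat_lit 1140) (nat_lit 10414304909) (nat_lit 124) (nat_lit 5) (nat_lit 138) (nat_lit 5) (nat_lit 139) (nat_lit 5) (nat_lit 348) (nat_lit 329) (nat_lit 103)))) (XT.nd (nat_lit 78) (nat_lit 532) (nat_lit 0) (XT.lf (nat_lit 0) (nat_lit 34652268800) (nat_lit 1064) (nat_lit 986366015) (nat_lit 1140) (nat_lit 8087143172) (nat_lit 124) (nat_lit 5) (nat_lit 138) (nat_lit 5) (nat_lit 139) (nat_lit 5) (nat_lit 349) (nat_lit 329) (nat_lit 102)) (XT.nd (nat_lit 78) (nat_lit 0) (nat_lit 0) (XT.lf (nat_lit 0) (nat_lit 9237107567) (nat_lit 532) (nat_lit 29798951471) (nat_lit 608) (nat_lit 5452637640) (nat_lit 117) (nat_lit 5) (nat_lit 124) (nat_lit 5) (nat_lit 125) (nat_lit 5) (nat_lit 350) (nat_lit 329) (nat_lit 101)) (XT.lf (nat_lit 0) (nat_lit 28271912834)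 (nat_lit 532) (nat_lit 14363492288) (nat_lit 608) (nat_lit 2636101608) (nat_lit 117) (nat_lit 5) (nat_lit 124) (nat_lit 5) (nat_lit 125) (nat_lit 5) (nat_lit 351) (nat_lit 329) (nat_lit 100)))))) (XT.nd (nat_lit 390) (nat_lit 912) (nat_lit 0) (XT.nd (nat_lit 156) (nat_lit 532) (nat_lit 0) (XT.nd (nat_lit 78) (nat_lit 0) (nat_lit 0) (XT.lf (nat_lit 0) (nat_lit 291053287) (nat_lit 532) (nat_lit 44260193597) (nat_lit 76) (nat_lit 1525542582) (nat_lit 110) (nat_lit 5) (nat_lit 117) (nat_lit 5) (nat_lit 111) (nat_lit 5) (nat_lit 352) (nat_lit 329) (nat_lit 99)) (XT.lf (nat_lit 0) (nat_lit 3567367681) (nat_lit 532) (nat_lit 25526539917) (nat_lit 76) (nat_lit 17802113705) (nat_lit 110) (nat_lit 5) (nat_lit 117) (nat_lit 5) (nat_lit 111) (nat_lit 5) (nat_lit 353) (nat_lit 329) (nat_lit 98))) (XT.nd (nat_lit 78) (nat_lit 532) (nat_lit 0) (XT.lf (nat_lit 0) (nat_lit 6940760724) (nat_lit 532) (nat_lit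 6232034884) (nat_lit 76) (nat_lit 34567074163) (nat_lit 110) (nat_lit 5) (nat_lit 117) (nat_lit 5) (nat_lit 111) (nat_lit 5) (nat_lit 354) (nat_lit 329) (nat_lit 97)) (XT.nd (nat_lit 78) (nat_lit 0) (nat_lit 0) (XT.lf (nat_lit 0) (nat_lit 10580241628) (nat_lit 608) (nat_lit 34725747605) (nat_lit 76) (nat_lit 3298101136) (nat_lit 103) (nat_lit 5) (nat_lit 111) (nat_lit 5) (nat_lit 104) (nat_lit 5) (nat_lit 355) (nat_lit 329) (nat_lit 96)) (XT.lf (nat_lit 0) (nat_lit 14521733480) (nat_lit 608) (nat_lit 14904765687) (nat_lit 76) (nat_lit 20061956783) (nat_lit 103) (nat_lit 5) (nat_lit 111) (nat_lit 5) (nat_lit 104) (nat_lit 5) (nat_lit 356) (nat_lit 329) (nat_lit 95))))) (XT.nd (nat_lit 234) (nat_lit 456) (nat_lit 0) (XT.nd (nat_lit 78) (nat_lit 0) (nat_lit 0) (XT.lf (nat_lit 0) (nat_lit 5619382022) (nat_lit 456) (nat_lit 13014986932) (nat_lit 532) (nat_lit 31763399648) (nat_lit 97) (nat_lit 5)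 (nat_lit 103) (nat_lit 5) (nat_lit 104) (nat_lit 5) (nat_lit 357) (nat_lit 329) (nat_lit 94)) (XT.nd (nat_lit 78) (nat_lit 0) (nat_lit 0) (XT.lf (nat_lit 0) (nat_lit 23058668541) (nat_lit 532) (nat_lit 24305073356) (nat_lit 76) (nat_lit 3964973166) (nat_lit 97) (nat_lit 5) (nat_lit 104) (nat_lit 5) (nat_lit 98) (nat_lit 5) (nat_lit 358) (nat_lit 329) (nat_lit 93)) (XT.lf (nat_lit 0) (nat_lit 27743494048) (nat_lit 532) (nat_lit 3347531552) (nat_lit 76) (nat_lit 21192733304) (nat_lit 97) (nat_lit 5) (nat_lit 104) (nat_lit 5) (nat_lit 98) (nat_lit 5) (nat_lit 359) (nat_lit 329) (nat_lit 92)))) (XT.nd (nat_lit 38298) (nat_lit 0) (nat_lit 3040) (XT.lf (nat_lit 0) (nat_lit 18600624443) (nat_lit 456) (nat_lit 14146007134) (nat_lit 532) (nat_lit 20515492273) (nat_lit 91) (nat_lit 5) (nat_lit 97) (nat_lit 5) (nat_lit 98) (nat_lit 5) (nat_lit 360) (nat_lit 329) (nat_lit 91)) (XT.nd (nat_lit 78) (nat_lit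 0) (nat_lit 0) (XT.lf (nat_lit 0) (nat_lit 3070359926) (nat_lit 1140) (nat_lit 6640420811) (nat_lit 1140) (nat_lit 6640420811) (nat_lit 131) (nat_lit 3) (nat_lit 146) (nat_lit 3) (nat_lit 146) (nat_lit 5) (nat_lit 330) (nat_lit 330) (nat_lit 120)) (XT.lf (nat_lit 0) (nat_lit 6287233359) (nat_lit 1140) (nat_lit 277376381) (nat_lit 1140) (nat_lit 26626532641) (nat_lit 131) (nat_lit 3) (nat_lit 146) (nat_lit 3) (nat_lit 146) (nat_lit 5) (nat_lit 331) (nat_lit 330) (nat_lit 119))))))))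
noncomputable def xc250 : XT := (XT.nd (nat_lit 1716) (nat_lit 988) (nat_lit 0) (XT.nd (nat_lit 858) (nat_lit 1672) (nat_lit 0) (XT.nd (nat_lit 390) (nat_lit 0) (nat_lit 152) (XT.nd (nat_lit 156) (nat_lit 0) (nat_lit 0) (XT.nd (nat_lit 78) (nat_lit 0) (nat_lit 0) (XT.lf (nat_lit 0) (nat_lit 6630074896) (nat_lit 1064) (nat_lit 20380120728) (nat_lit 1140) (nat_lit 6678596665) (nat_lit 132) (nat_lit 5) (nat_lit 146) (nat_lit 5) (nat_lit 147) (nat_lit 5) (nat_lit 332) (nat_lit 330) (nat_lit 118)) (XT.lf (nat_lit 0) (nat_lit 7048964199) (nat_lit 1064) (nat_lit 6959488420) (nat_lit 1140) (nat_lit 20190952440) (nat_lit 132) (nat_lit 5) (nat_lit 146) (nat_lit 5) (nat_lit 147) (nat_lit 5) (nat_lit 333) (nat_lit 330) (nat_lit 117))) (XT.nd (nat_lit 78) (nat_lit 0) (nat_lit 76) (XT.lf (nat_lit 76) (nat_lit 6999212832) (nat_lit 0) (nat_lit 546485824) (nat_lit 1140) (nat_lit 27177685259) (nat_lit 133) (nat_lit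 5) (nat_lit 132) (nat_lit 5) (nat_lit 147) (nat_lit 5) (nat_lit 334) (nat_lit 330) (nat_lit 116)) (XT.nd (nat_lit 78) (nat_lit 0) (nat_lit 0) (XT.lf (nat_lit 0) (nat_lit 8254395151) (nat_lit 1064) (nat_lit 13871556825) (nat_lit 1140) (nat_lit 13131224243) (nat_lit 133) (nat_lit 5) (nat_lit 147) (nat_lit 5) (nat_lit 148) (nat_lit 5) (nat_lit 335) (nat_lit 330) (nat_lit 115)) (XT.lf (nat_lit 76) (nat_lit 397831580) (nat_lit 0) (nat_lit 8593865968) (nat_lit 1140) (nat_lit 26815070105) (nat_lit 134) (nat_lit 5) (nat_lit 133) (nat_lit 5) (nat_lit 148) (nat_lit 5) (nat_lit 336) (nat_lit 330) (nat_lit 114))))) (XT.nd (nat_lit 234) (nat_lit 0) (nat_lit 76) (XT.nd (nat_lit 78) (nat_lit 0) (nat_lit 0) (XT.lf (nat_lit 0) (nat_lit 9942113810) (nat_lit 1064) (nat_lit 21042961022) (nat_lit 1140) (nat_lit 5382047697) (nat_lit 134) (nat_lit 5) (nat_lit 148) (nat_lit 5) (nat_lit 149) (nat_lit 5) (nat_lit 337)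 (nat_lit 330) (nat_lit 113)) (XT.nd (nat_lit 78) (nat_lit 0) (nat_lit 0) (XT.lf (nat_lit 0) (nat_lit 11004344739) (nat_lit 1064) (nat_lit 6332272145) (nat_lit 1140) (nat_lit 19605177487) (nat_lit 134) (nat_lit 5) (nat_lit 148) (nat_lit 5) (nat_lit 149) (nat_lit 5) (nat_lit 338) (nat_lit 330) (nat_lit 112)) (XT.lf (nat_lit 76) (nat_lit 8994101368) (nat_lit 0) (nat_lit 3189064436) (nat_lit 1140) (nat_lit 25348004092) (nat_lit 135) (nat_lit 5) (nat_lit 134) (nat_lit 5) (nat_lit 149) (nat_lit 5) (nat_lit 339) (nat_lit 330) (nat_lit 111)))) (XT.nd (nat_lit 78) (nat_lit 0) (nat_lit 0) (XT.lf (nat_lit 0) (nat_lit 13569659093) (nat_lit 1064) (nat_lit 13337482994) (nat_lit 1140) (nat_lit 11225920445) (nat_lit 135) (nat_lit 5) (nat_lit 149) (nat_lit 5) (nat_lit 150) (nat_lit 5) (nat_lit 340) (nat_lit 330) (nat_lit 110)) (XT.nd (nat_lit 78) (nat_lit 0) (nat_lit 76) (XT.lf (nat_lit 76) (nat_lit 2330839618)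 (nat_lit 0) (nat_lit 12719248511) (nat_lit 1140) (nat_lit 23701358517) (nat_lit 136) (nat_lit 5) (nat_lit 135) (nat_lit 5) (nat_lit 150) (nat_lit 5) (nat_lit 341) (nat_lit 330) (nat_lit 109)) (XT.lf (nat_lit 0) (nat_lit 16727556646) (nat_lit 1064) (nat_lit 20662471610) (nat_lit 1140) (nat_lit 1993780012) (nat_lit 136) (nat_lit 5) (nat_lit 150) (nat_lit 5) (nat_lit 151) (nat_lit 5) (nat_lit 342) (nat_lit 330) (nat_lit 108)))))) (XT.nd (nat_lit 390) (nat_lit 1976) (nat_lit 0) (XT.nd (nat_lit 156) (nat_lit 0) (nat_lit 76) (XT.nd (nat_lit 78) (nat_lit 0) (nat_lit 0) (XT.lf (nat_lit 0) (nat_lit 18579730619) (nat_lit 1064) (nat_lit 4558694747) (nat_lit 1140) (nat_lit 16892988572) (nat_lit 136) (nat_lit 5) (nat_lit 150) (nat_lit 5) (nat_lit 151) (nat_lit 5) (nat_lit 343) (nat_lit 330) (nat_lit 107)) (XT.lf (nat_lit 76) (nat_lit 12266422096) (nat_lit 0) (nat_lit 8337453514) (nat_lit 1140) (nat_lit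 20091084502) (nat_lit 137) (nat_lit 5) (nat_lit 136) (nat_lit 5) (nat_lit 151) (nat_lit 5) (nat_lit 344) (nat_lit 330) (nat_lit 106))) (XT.nd (nat_lit 78) (nat_lit 0) (nat_lit 0) (XT.lf (nat_lit 0) (nat_lit 22800164059) (nat_lit 1064) (nat_lit 11755322001) (nat_lit 1140) (nat_lit 6819588416) (nat_lit 137) (nat_lit 5) (nat_lit 151) (nat_lit 5) (nat_lit 152) (nat_lit 5) (nat_lit 345) (nat_lit 330) (nat_lit 105)) (XT.nd (nat_lit 78) (nat_lit 0) (nat_lit 0) (XT.lf (nat_lit 76) (nat_lit 5440564508) (nat_lit 0) (nat_lit 19755196424) (nat_lit 1140) (nat_lit 16875832993) (nat_lit 138) (nat_lit 5) (nat_lit 137) (nat_lit 5) (nat_lit 152) (nat_lit 5) (nat_lit 346) (nat_lit 330) (nat_lit 104)) (XT.lf (nat_lit 76) (nat_lit 23392169436) (nat_lit 0) (nat_lit 4388365377) (nat_lit 1140) (nat_lit 15004958999) (nat_lit 138) (nat_lit 5) (nat_lit 137) (nat_lit 5) (nat_lit 152) (nat_lit 5) (nat_lit 347) (nat_lit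 330) (nat_lit 103))))) (XT.nd (nat_lit 234) (nat_lit 1064) (nat_lit 0) (XT.nd (nat_lit 78) (nat_lit 1064) (nat_lit 0) (XT.lf (nat_lit 0) (nat_lit 30551461655) (nat_lit 1064) (nat_lit 1749596358) (nat_lit 76) (nat_lit 11216498394) (nat_lit 138) (nat_lit 5) (nat_lit 152) (nat_lit 5) (nat_lit 139) (nat_lit 5) (nat_lit 348) (nat_lit 330) (nat_lit 102)) (XT.nd (nat_lit 78) (nat_lit 0) (nat_lit 0) (XT.lf (nat_lit 0) (nat_lit 16704854584) (nat_lit 1064) (nat_lit 16903374138) (nat_lit 1140) (nat_lit 10657274674) (nat_lit 124) (nat_lit 5) (nat_lit 138) (nat_lit 5) (nat_lit 139) (nat_lit 5) (nat_lit 349) (nat_lit 330) (nat_lit 101)) (XT.lf (nat_lit 0) (nat_lit 35747703329) (nat_lit 1064) (nat_lit 1025376633) (nat_lit 1140) (nat_lit 8262321174) (nat_lit 124) (nat_lit 5) (nat_lit 138) (nat_lit 5) (nat_lit 139) (nat_lit 5) (nat_lit 350) (nat_lit 330) (nat_lit 100)))) (XT.nd (nat_lit 78) (nat_lit 532) (nat_lit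 0) (XT.lf (nat_lit 0) (nat_lit 9571758319) (nat_lit 532) (nat_lit 30699232231) (nat_lit 608) (nat_lit 5550265508) (nat_lit 117) (nat_lit 5) (nat_lit 124) (nat_lit 5) (nat_lit 125) (nat_lit 5) (nat_lit 351) (nat_lit 330) (nat_lit 99)) (XT.nd (nat_lit 78) (nat_lit 532) (nat_lit 0) (XT.lf (nat_lit 0) (nat_lit 29175931894) (nat_lit 532) (nat_lit 14800525421) (nat_lit 608) (nat_lit 2651154306) (nat_lit 117) (nat_lit 5) (nat_lit 124) (nat_lit 5) (nat_lit 125) (nat_lit 5) (nat_lit 352) (nat_lit 330) (nat_lit 98)) (XT.lf (nat_lit 0) (nat_lit 361236599) (nat_lit 532) (nat_lit 45529213502) (nat_lit 76) (nat_lit 1566629256) (nat_lit 110) (nat_lit 5) (nat_lit 117) (nat_lit 5) (nat_lit 111) (nat_lit 5) (nat_lit 353) (nat_lit 330) (nat_lit 97))))))) (XT.nd (nat_lit 39234) (nat_lit 0) (nat_lit 2736) (XT.nd (nat_lit 390) (nat_lit 0) (nat_lit 0) (XT.nd (nat_lit 156) (nat_lit 988) (nat_lit 0) (XT.nd (nat_lit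 78) (nat_lit 0) (nat_lit 0) (XT.lf (nat_lit 0) (nat_lit 3734050569) (nat_lit 532) (nat_lit 26235262421) (nat_lit 76) (nat_lit 18331633811) (nat_lit 110) (nat_lit 5) (nat_lit 117) (nat_lit 5) (nat_lit 111) (nat_lit 5) (nat_lit 354) (nat_lit 330) (nat_lit 96)) (XT.lf (nat_lit 0) (nat_lit 7206907679) (nat_lit 532) (nat_lit 6363584578) (nat_lit 76) (nat_lit 35599675413) (nat_lit 110) (nat_lit 5) (nat_lit 117) (nat_lit 5) (nat_lit 111) (nat_lit 5) (nat_lit 355) (nat_lit 330) (nat_lit 95))) (XT.nd (nat_lit 78) (nat_lit 456) (nat_lit 0) (XT.lf (nat_lit 0) (nat_lit 10954395097) (nat_lit 608) (nat_lit 35710774971) (nat_lit 76) (nat_lit 3395184829) (nat_lit 103) (nat_lit 5) (nat_lit 111) (nat_lit 5) (nat_lit 104) (nat_lit 5) (nat_lit 356) (nat_lit 330) (nat_lit 94)) (XT.nd (nat_lit 78) (nat_lit 456) (nat_lit 0) (XT.lf (nat_lit 0) (nat_lit 15012478902) (nat_lit 608) (nat_lit 15296816365) (nat_lit 76)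 (nat_lit 20662010301) (nat_lit 103) (nat_lit 5) (nat_lit 111) (nat_lit 5) (nat_lit 104) (nat_lit 5) (nat_lit 357) (nat_lit 330) (nat_lit 93)) (XT.lf (nat_lit 0) (nat_lit 5842515656) (nat_lit 456) (nat_lit 13404897511) (nat_lit 532) (nat_lit 32660521247) (nat_lit 97) (nat_lit 5) (nat_lit 103) (nat_lit 5) (nat_lit 104) (nat_lit 5) (nat_lit 358) (nat_lit 330) (nat_lit 92))))) (XT.nd (nat_lit 38610) (nat_lit 0) (nat_lit 2660) (XT.nd (nat_lit 38454) (nat_lit 0) (nat_lit 2584) (XT.lf (nat_lit 0) (nat_lit 23802873573) (nat_lit 532) (nat_lit 24979551540) (nat_lit 76) (nat_lit 4084435478) (nat_lit 97) (nat_lit 5) (nat_lit 104) (nat_lit 5) (nat_lit 98) (nat_lit 5) (nat_lit 359) (nat_lit 330) (nat_lit 91)) (XT.nd (nat_lit 78) (nat_lit 0) (nat_lit 0) (XT.lf (nat_lit 0) (nat_lit 3216350480) (nat_lit 1140) (nat_lit 6811803811) (nat_lit 1140) (nat_lit 6811803811) (nat_lit 131) (nat_lit 3) (nat_lit 146) (nat_lit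 3) (nat_lit 146) (nat_lit 5) (nat_lit 331) (nat_lit 331) (nat_lit 118)) (XT.lf (nat_lit 0) (nat_lit 6580471244) (nat_lit 1140) (nat_lit 231659566) (nat_lit 1140) (nat_lit 27371290514) (nat_lit 131) (nat_lit 3) (nat_lit 146) (nat_lit 3) (nat_lit 146) (nat_lit 5) (nat_lit 332) (nat_lit 331) (nat_lit 117)))) (XT.nd (nat_lit 78) (nat_lit 0) (nat_lit 0) (XT.lf (nat_lit 0) (nat_lit 6930598194) (nat_lit 1064) (nat_lit 20934178934) (nat_lit 1140) (nat_lit 6831322821) (nat_lit 132) (nat_lit 5) (nat_lit 146) (nat_lit 5) (nat_lit 147) (nat_lit 5) (nat_lit 333) (nat_lit 331) (nat_lit 116)) (XT.nd (nat_lit 78) (nat_lit 0) (nat_lit 0) (XT.lf (nat_lit 0) (nat_lit 7359094340) (nat_lit 1064) (nat_lit 7112597912) (nat_lit 1140) (nat_lit 20750436602) (nat_lit 132) (nat_lit 5) (nat_lit 146) (nat_lit 5) (nat_lit 147) (nat_lit 5) (nat_lit 334) (nat_lit 331) (nat_lit 115)) (XT.lf (nat_lit 76) (nat_lit 7264318543)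 (nat_lit 0) (nat_lit 604068597) (nat_lit 1140) (nat_lit 27893518941) (nat_lit 133) (nat_lit 5) (nat_lit 132) (nat_lit 5) (nat_lit 147) (nat_lit 5) (nat_lit 335) (nat_lit 331) (nat_lit 114)))))) (XT.nd (nat_lit 390) (nat_lit 0) (nat_lit 152) (XT.nd (nat_lit 156) (nat_lit 0) (nat_lit 76) (XT.nd (nat_lit 78) (nat_lit 0) (nat_lit 0) (XT.lf (nat_lit 0) (nat_lit 8595154770) (nat_lit 1064) (nat_lit 14230708769) (nat_lit 1140) (nat_lit 13485952749) (nat_lit 133) (nat_lit 5) (nat_lit 147) (nat_lit 5) (nat_lit 148) (nat_lit 5) (nat_lit 336) (nat_lit 331) (nat_lit 113)) (XT.lf (nat_lit 76) (nat_lit 466202516) (nat_lit 0) (nat_lit 8886203761) (nat_lit 1140) (nat_lit 27525562482) (nat_lit 134) (nat_lit 5) (nat_lit 133) (nat_lit 5) (nat_lit 148) (nat_lit 5) (nat_lit 337) (nat_lit 331) (nat_lit 112))) (XT.nd (nat_lit 78) (nat_lit 0) (nat_lit 0) (XT.lf (nat_lit 0) (nat_lit 10328363592) (nat_lit 1064) (nat_lit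 21616220963) (nat_lit 1140) (nat_lit 5510646828) (nat_lit 134) (nat_lit 5) (nat_lit 148) (nat_lit 5) (nat_lit 149) (nat_lit 5) (nat_lit 338) (nat_lit 331) (nat_lit 111)) (XT.nd (nat_lit 78) (nat_lit 0) (nat_lit 0) (XT.lf (nat_lit 0) (nat_lit 11419898739) (nat_lit 1064) (nat_lit 6465901581) (nat_lit 1140) (nat_lit 20161427665) (nat_lit 134) (nat_lit 5) (nat_lit 148) (nat_lit 5) (nat_lit 149) (nat_lit 5) (nat_lit 339) (nat_lit 331) (nat_lit 110)) (XT.lf (nat_lit 76) (nat_lit 9319710796) (nat_lit 0) (nat_lit 3312421824) (nat_lit 1140) (nat_lit 26022218210) (nat_lit 135) (nat_lit 5) (nat_lit 134) (nat_lit 5) (nat_lit 149) (nat_lit 5) (nat_lit 340) (nat_lit 331) (nat_lit 109))))) (XT.nd (nat_lit 234) (nat_lit 0) (nat_lit 76) (XT.nd (nat_lit 78) (nat_lit 0) (nat_lit 0) (XT.lf (nat_lit 0) (nat_lit 14057531112) (nat_lit 1064) (nat_lit 13680513621) (nat_lit 1140) (nat_lit 11536343484) (nat_lit 135)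 (nat_lit 5) (nat_lit 149) (nat_lit 5) (nat_lit 150) (nat_lit 5) (nat_lit 341) (nat_lit 331) (nat_lit 108)) (XT.nd (nat_lit 78) (nat_lit 0) (nat_lit 76) (XT.lf (nat_lit 76) (nat_lit 2457298926) (nat_lit 0) (nat_lit 13123264653) (nat_lit 1140) (nat_lit 24330821627) (nat_lit 136) (nat_lit 5) (nat_lit 135) (nat_lit 5) (nat_lit 150) (nat_lit 5) (nat_lit 342) (nat_lit 331) (nat_lit 107)) (XT.lf (nat_lit 0) (nat_lit 17305846560) (nat_lit 1064) (nat_lit 21224719881) (nat_lit 1140) (nat_lit 2032233386) (nat_lit 136) (nat_lit 5) (nat_lit 150) (nat_lit 5) (nat_lit 151) (nat_lit 5) (nat_lit 343) (nat_lit 331) (nat_lit 106)))) (XT.nd (nat_lit 78) (nat_lit 0) (nat_lit 0) (XT.lf (nat_lit 0) (nat_lit 19211358669) (nat_lit 1064) (nat_lit 4639508136) (nat_lit 1140) (nat_lit 17379040340) (nat_lit 136) (nat_lit 5) (nat_lit 150) (nat_lit 5) (nat_lit 151) (nat_lit 5) (nat_lit 344) (nat_lit 331) (nat_lit 105)) (XT.nd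 (nat_lit 78) (nat_lit 0) (nat_lit 76) (XT.lf (nat_lit 76) (nat_lit 12689813707) (nat_lit 0) (nat_lit 8604784613) (nat_lit 1140) (nat_lit 20618816744) (nat_lit 137) (nat_lit 5) (nat_lit 136) (nat_lit 5) (nat_lit 151) (nat_lit 5) (nat_lit 345) (nat_lit 331) (nat_lit 104)) (XT.lf (nat_lit 0) (nat_lit 23554500080) (nat_lit 1064) (nat_lit 12051711556) (nat_lit 1140) (nat_lit 7007795764) (nat_lit 137) (nat_lit 5) (nat_lit 151) (nat_lit 5) (nat_lit 152) (nat_lit 5) (nat_lit 346) (nat_lit 331) (nat_lit 103))))))))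
noncomputable def xc251 : XT := (XT.nd (nat_lit 40248) (nat_lit 0) (nat_lit 0) (XT.nd (nat_lit 858) (nat_lit 0) (nat_lit 0) (XT.nd (nat_lit 390) (nat_lit 1596) (nat_lit 0) (XT.nd (nat_lit 156) (nat_lit 988) (nat_lit 0) (XT.nd (nat_lit 78) (nat_lit 0) (nat_lit 0) (XT.lf (nat_lit 76) (nat_lit 5659499881) (nat_lit 0) (nat_lit 20360952100) (nat_lit 1140) (nat_lit 17311021937) (nat_lit 138) (nat_lit 5) (nat_lit 137) (nat_lit 5) (nat_lit 152) (nat_lit 5) (nat_lit 347) (nat_lit 331) (nat_lit 102)) (XT.lf (nat_lit 76) (nat_lit 24148030089) (nat_lit 0) (nat_lit 4532734575) (nat_lit 1140) (nat_lit 15386092190) (nat_lit 138) (nat_lit 5) (nat_lit 137) (nat_lit 5) (nat_lit 152) (nat_lit 5) (nat_lit 348) (nat_lit 331) (nat_lit 101))) (XT.nd (nat_lit 78) (nat_lit 1064) (nat_lit 0) (XT.lf (nat_lit 0) (nat_lit 31532754584) (nat_lit 1064) (nat_lit 1747307940) (nat_lit 76) (nat_lit 11540886493) (nat_lit 138)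 (nat_lit 5) (nat_lit 152) (nat_lit 5) (nat_lit 139) (nat_lit 5) (nat_lit 349) (nat_lit 331) (nat_lit 100)) (XT.nd (nat_lit 78) (nat_lit 0) (nat_lit 0) (XT.lf (nat_lit 0) (nat_lit 17260239507) (nat_lit 1064) (nat_lit 17419620641) (nat_lit 1140) (nat_lit 10911520784) (nat_lit 124) (nat_lit 5) (nat_lit 138) (nat_lit 5) (nat_lit 139) (nat_lit 5) (nat_lit 350) (nat_lit 331) (nat_lit 99)) (XT.lf (nat_lit 0) (nat_lit 36872793929) (nat_lit 1064) (nat_lit 1065016844) (nat_lit 1140) (nat_lit 8446625634) (nat_lit 124) (nat_lit 5) (nat_lit 138) (nat_lit 5) (nat_lit 139) (nat_lit 5) (nat_lit 351) (nat_lit 331) (nat_lit 98))))) (XT.nd (nat_lit 234) (nat_lit 532) (nat_lit 0) (XT.nd (nat_lit 78) (nat_lit 532) (nat_lit 0) (XT.lf (nat_lit 0) (nat_lit 9913145705) (nat_lit 532) (nat_lit 31626159066) (nat_lit 608) (nat_lit 5654608084) (nat_lit 117) (nat_lit 5) (nat_lit 124) (nat_lit 5) (nat_lit 125) (nat_lit 5)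 (nat_lit 352) (nat_lit 331) (nat_lit 97)) (XT.nd (nat_lit 78) (nat_lit 532) (nat_lit 0) (XT.lf (nat_lit 0) (nat_lit 30103864837) (nat_lit 532) (nat_lit 15250317755) (nat_lit 608) (nat_lit 2670334189) (nat_lit 117) (nat_lit 5) (nat_lit 124) (nat_lit 5) (nat_lit 125) (nat_lit 5) (nat_lit 353) (nat_lit 331) (nat_lit 96)) (XT.lf (nat_lit 0) (nat_lit 429997831) (nat_lit 532) (nat_lit 46839678555) (nat_lit 76) (nat_lit 1609217158) (nat_lit 110) (nat_lit 5) (nat_lit 117) (nat_lit 5) (nat_lit 111) (nat_lit 5) (nat_lit 354) (nat_lit 331) (nat_lit 95)))) (XT.nd (nat_lit 78) (nat_lit 532) (nat_lit 0) (XT.lf (nat_lit 0) (nat_lit 3902309110) (nat_lit 532) (nat_lit 26968522865) (nat_lit 76) (nat_lit 18877300325) (nat_lit 110) (nat_lit 5) (nat_lit 117) (nat_lit 5) (nat_lit 111) (nat_lit 5) (nat_lit 355) (nat_lit 331) (nat_lit 94)) (XT.nd (nat_lit 78) (nat_lit 532) (nat_lit 0) (XT.lf (nat_lit 0) (nat_lit 7477713962)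 (nat_lit 532) (nat_lit 6502261602) (nat_lit 76) (nat_lit 36663507908) (nat_lit 110) (nat_lit 5) (nat_lit 117) (nat_lit 5) (nat_lit 111) (nat_lit 5) (nat_lit 356) (nat_lit 331) (nat_lit 93)) (XT.lf (nat_lit 0) (nat_lit 11336515705) (nat_lit 608) (nat_lit 36728610557) (nat_lit 76) (nat_lit 3495287767) (nat_lit 103) (nat_lit 5) (nat_lit 111) (nat_lit 5) (nat_lit 104) (nat_lit 5) (nat_lit 357) (nat_lit 331) (nat_lit 92)))))) (XT.nd (nat_lit 38922) (nat_lit 0) (nat_lit 2204) (XT.nd (nat_lit 38688) (nat_lit 0) (nat_lit 2128) (XT.nd (nat_lit 38610) (nat_lit 0) (nat_lit 2128) (XT.lf (nat_lit 0) (nat_lit 15514784099) (nat_lit 608) (nat_lit 15703791086) (nat_lit 76) (nat_lit 21280169049) (nat_lit 103) (nat_lit 5) (nat_lit 111) (nat_lit 5) (nat_lit 104) (nat_lit 5) (nat_lit 358) (nat_lit 331) (nat_lit 91)) (XT.lf (nat_lit 0) (nat_lit 3363627832) (nat_lit 1140) (nat_lit 6989925835) (nat_lit 1140) (nat_lit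 6989925835) (nat_lit 131) (nat_lit 3) (nat_lit 146) (nat_lit 3) (nat_lit 146) (nat_lit 5) (nat_lit 332) (nat_lit 332) (nat_lit 116))) (XT.nd (nat_lit 78) (nat_lit 0) (nat_lit 76) (XT.lf (nat_lit 0) (nat_lit 6876500600) (nat_lit 1140) (nat_lit 187673256) (nat_lit 1140) (nat_lit 28141493132) (nat_lit 131) (nat_lit 3) (nat_lit 146) (nat_lit 3) (nat_lit 146) (nat_lit 5) (nat_lit 333) (nat_lit 332) (nat_lit 115)) (XT.nd (nat_lit 78) (nat_lit 0) (nat_lit 0) (XT.lf (nat_lit 0) (nat_lit 7234303728) (nat_lit 1064) (nat_lit 21508150747) (nat_lit 1140) (nat_lit 6991365019) (nat_lit 132) (nat_lit 5) (nat_lit 146) (nat_lit 5) (nat_lit 147) (nat_lit 5) (nat_lit 334) (nat_lit 332) (nat_lit 114)) (XT.lf (nat_lit 0) (nat_lit 7672864827) (nat_lit 1064) (nat_lit 7273496670) (nat_lit 1140) (nat_lit 21329359907) (nat_lit 132) (nat_lit 5) (nat_lit 146) (nat_lit 5) (nat_lit 147) (nat_lit 5) (nat_lit 335) (nat_lit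 332) (nat_lit 113))))) (XT.nd (nat_lit 234) (nat_lit 0) (nat_lit 152) (XT.nd (nat_lit 78) (nat_lit 0) (nat_lit 76) (XT.lf (nat_lit 76) (nat_lit 7534212776) (nat_lit 0) (nat_lit 661014482) (nat_lit 1140) (nat_lit 28636539161) (nat_lit 133) (nat_lit 5) (nat_lit 132) (nat_lit 5) (nat_lit 147) (nat_lit 5) (nat_lit 336) (nat_lit 332) (nat_lit 112)) (XT.nd (nat_lit 78) (nat_lit 0) (nat_lit 0) (XT.lf (nat_lit 0) (nat_lit 8940791264) (nat_lit 1064) (nat_lit 14603907003) (nat_lit 1140) (nat_lit 13853573823) (nat_lit 133) (nat_lit 5) (nat_lit 147) (nat_lit 5) (nat_lit 148) (nat_lit 5) (nat_lit 337) (nat_lit 332) (nat_lit 111)) (XT.lf (nat_lit 76) (nat_lit 533384924) (nat_lit 0) (nat_lit 9185329995) (nat_lit 1140) (nat_lit 28262763303) (nat_lit 134) (nat_lit 5) (nat_lit 133) (nat_lit 5) (nat_lit 148) (nat_lit 5) (nat_lit 338) (nat_lit 332) (nat_lit 110)))) (XT.nd (nat_lit 78) (nat_lit 0) (nat_lit 0) (XT.lf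 (nat_lit 0) (nat_lit 10721150090) (nat_lit 1064) (nat_lit 22210009798) (nat_lit 1140) (nat_lit 5644990363) (nat_lit 134) (nat_lit 5) (nat_lit 148) (nat_lit 5) (nat_lit 149) (nat_lit 5) (nat_lit 339) (nat_lit 332) (nat_lit 109)) (XT.nd (nat_lit 78) (nat_lit 0) (nat_lit 0) (XT.lf (nat_lit 0) (nat_lit 11843015691) (nat_lit 1064) (nat_lit 6606773974) (nat_lit 1140) (nat_lit 20736196835) (nat_lit 134) (nat_lit 5) (nat_lit 148) (nat_lit 5) (nat_lit 149) (nat_lit 5) (nat_lit 340) (nat_lit 332) (nat_lit 108)) (XT.lf (nat_lit 76) (nat_lit 9651886141) (nat_lit 0) (nat_lit 3437890676) (nat_lit 1140) (nat_lit 26721608477) (nat_lit 135) (nat_lit 5) (nat_lit 134) (nat_lit 5) (nat_lit 149) (nat_lit 5) (nat_lit 341) (nat_lit 332) (nat_lit 107))))))) (XT.nd (nat_lit 858) (nat_lit 1596) (nat_lit 0) (XT.nd (nat_lit 390) (nat_lit 836) (nat_lit 0) (XT.nd (nat_lit 156) (nat_lit 0) (nat_lit 76) (XT.nd (nat_lit 78)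 (nat_lit 0) (nat_lit 0) (XT.lf (nat_lit 0) (nat_lit 14555402059) (nat_lit 1064) (nat_lit 14037112588) (nat_lit 1140) (nat_lit 11857592074) (nat_lit 135) (nat_lit 5) (nat_lit 149) (nat_lit 5) (nat_lit 150) (nat_lit 5) (nat_lit 342) (nat_lit 332) (nat_lit 106)) (XT.lf (nat_lit 76) (nat_lit 2584306723) (nat_lit 0) (nat_lit 13538113206) (nat_lit 1140) (nat_lit 24983851522) (nat_lit 136) (nat_lit 5) (nat_lit 135) (nat_lit 5) (nat_lit 150) (nat_lit 5) (nat_lit 343) (nat_lit 332) (nat_lit 105))) (XT.nd (nat_lit 78) (nat_lit 0) (nat_lit 0) (XT.lf (nat_lit 0) (nat_lit 17897095870) (nat_lit 1064) (nat_lit 21807143562) (nat_lit 1140) (nat_lit 2073066515) (nat_lit 136) (nat_lit 5) (nat_lit 150) (nat_lit 5) (nat_lit 151) (nat_lit 5) (nat_lit 344) (nat_lit 332) (nat_lit 104)) (XT.nd (nat_lit 78) (nat_lit 0) (nat_lit 0) (XT.lf (nat_lit 0) (nat_lit 19857674102) (nat_lit 1064) (nat_lit 4725957540) (nat_lit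 1140) (nat_lit 17880864100) (nat_lit 136) (nat_lit 5) (nat_lit 150) (nat_lit 5) (nat_lit 151) (nat_lit 5) (nat_lit 345) (nat_lit 332) (nat_lit 103)) (XT.lf (nat_lit 76) (nat_lit 13122726941) (nat_lit 0) (nat_lit 8879147865) (nat_lit 1140) (nat_lit 21166686277) (nat_lit 137) (nat_lit 5) (nat_lit 136) (nat_lit 5) (nat_lit 151) (nat_lit 5) (nat_lit 346) (nat_lit 332) (nat_lit 102))))) (XT.nd (nat_lit 234) (nat_lit 988) (nat_lit 0) (XT.nd (nat_lit 78) (nat_lit 0) (nat_lit 0) (XT.lf (nat_lit 0) (nat_lit 24327428890) (nat_lit 1064) (nat_lit 12360222932) (nat_lit 1140) (nat_lit 7202589629) (nat_lit 137) (nat_lit 5) (nat_lit 151) (nat_lit 5) (nat_lit 152) (nat_lit 5) (nat_lit 347) (nat_lit 332) (nat_lit 101)) (XT.nd (nat_lit 78) (nat_lit 0) (nat_lit 0) (XT.lf (nat_lit 76) (nat_lit 5881804849) (nat_lit 0) (nat_lit 20984128466) (nat_lit 1140) (nat_lit 17763347179) (nat_lit 138) (nat_lit 5) (nat_lit 137)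 (nat_lit 5) (nat_lit 152) (nat_lit 5) (nat_lit 348) (nat_lit 332) (nat_lit 100)) (XT.lf (nat_lit 76) (nat_lit 24923461255) (nat_lit 0) (nat_lit 4680704770) (nat_lit 1140) (nat_lit 15782621154) (nat_lit 138) (nat_lit 5) (nat_lit 137) (nat_lit 5) (nat_lit 152) (nat_lit 5) (nat_lit 349) (nat_lit 332) (nat_lit 99)))) (XT.nd (nat_lit 78) (nat_lit 1064) (nat_lit 0) (XT.lf (nat_lit 0) (nat_lit 32539769439) (nat_lit 1064) (nat_lit 1748095254) (nat_lit 76) (nat_lit 11875701219) (nat_lit 138) (nat_lit 5) (nat_lit 152) (nat_lit 5) (nat_lit 139) (nat_lit 5) (nat_lit 350) (nat_lit 332) (nat_lit 98)) (XT.nd (nat_lit 78) (nat_lit 0) (nat_lit 0) (XT.lf (nat_lit 0) (nat_lit 17829172421) (nat_lit 1064) (nat_lit 17950829563) (nat_lit 1140) (nat_lit 11177152646) (nat_lit 124) (nat_lit 5) (nat_lit 138) (nat_lit 5) (nat_lit 139) (nat_lit 5) (nat_lit 351) (nat_lit 332) (nat_lit 97)) (XT.lf (nat_lit 0) (nat_lit 38028614377)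 (nat_lit 1064) (nat_lit 1105336575) (nat_lit 1140) (nat_lit 8640108130) (nat_lit 124) (nat_lit 5) (nat_lit 138) (nat_lit 5) (nat_lit 139) (nat_lit 5) (nat_lit 352) (nat_lit 332) (nat_lit 96)))))) (XT.nd (nat_lit 39078) (nat_lit 0) (nat_lit 2128) (XT.nd (nat_lit 234) (nat_lit 532) (nat_lit 0) (XT.nd (nat_lit 78) (nat_lit 532) (nat_lit 0) (XT.lf (nat_lit 0) (nat_lit 10261661422) (nat_lit 532) (nat_lit 32580552160) (nat_lit 608) (nat_lit 5765649486) (nat_lit 117) (nat_lit 5) (nat_lit 124) (nat_lit 5) (nat_lit 125) (nat_lit 5) (nat_lit 353) (nat_lit 332) (nat_lit 95)) (XT.nd (nat_lit 78) (nat_lit 532) (nat_lit 0) (XT.lf (nat_lit 0) (nat_lit 31056613157) (nat_lit 532) (nat_lit 15713272260) (nat_lit 608) (nat_lit 2693554077) (nat_lit 117) (nat_lit 5) (nat_lit 124) (nat_lit 5) (nat_lit 125) (nat_lit 5) (nat_lit 354) (nat_lit 332) (nat_lit 94)) (XT.lf (nat_lit 0) (nat_lit 497496818) (nat_lit 532) (nat_lit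 48192638397) (nat_lit 76) (nat_lit 1653335905) (nat_lit 110) (nat_lit 5) (nat_lit 117) (nat_lit 5) (nat_lit 111) (nat_lit 5) (nat_lit 355) (nat_lit 332) (nat_lit 93)))) (XT.nd (nat_lit 78) (nat_lit 532) (nat_lit 0) (XT.lf (nat_lit 0) (nat_lit 4072387171) (nat_lit 532) (nat_lit 27726869314) (nat_lit 76) (nat_lit 19439582667) (nat_lit 110) (nat_lit 5) (nat_lit 117) (nat_lit 5) (nat_lit 111) (nat_lit 5) (nat_lit 356) (nat_lit 332) (nat_lit 92)) (XT.nd (nat_lit 78) (nat_lit 532) (nat_lit 0) (XT.lf (nat_lit 0) (nat_lit 7753510223) (nat_lit 532) (nat_lit 6648097181) (nat_lit 76) (nat_lit 37759494050) (nat_lit 110) (nat_lit 5) (nat_lit 117) (nat_lit 5) (nat_lit 111) (nat_lit 5) (nat_lit 357) (nat_lit 332) (nat_lit 91)) (XT.lf (nat_lit 0) (nat_lit 11727029458) (nat_lit 608) (nat_lit 37780051622) (nat_lit 76) (nat_lit 3598494399) (nat_lit 103) (nat_lit 5) (nat_lit 111) (nat_lit 5) (nat_lit 104) (nat_lit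 5) (nat_lit 358) (nat_lit 332) (nat_lit 90))))) (XT.nd (nat_lit 234) (nat_lit 0) (nat_lit 76) (XT.nd (nat_lit 78) (nat_lit 0) (nat_lit 0) (XT.lf (nat_lit 0) (nat_lit 3512408132) (nat_lit 1140) (nat_lit 7174897349) (nat_lit 1140) (nat_lit 7174897349) (nat_lit 131) (nat_lit 3) (nat_lit 146) (nat_lit 3) (nat_lit 146) (nat_lit 5) (nat_lit 333) (nat_lit 333) (nat_lit 114)) (XT.nd (nat_lit 78) (nat_lit 0) (nat_lit 76) (XT.lf (nat_lit 0) (nat_lit 7175749919) (nat_lit 1140) (nat_lit 145291296) (nat_lit 1140) (nat_lit 28937725768) (nat_lit 131) (nat_lit 3) (nat_lit 146) (nat_lit 3) (nat_lit 146) (nat_lit 5) (nat_lit 334) (nat_lit 333) (nat_lit 113)) (XT.lf (nat_lit 0) (nat_lit 7541621827) (nat_lit 1064) (nat_lit 22102444611) (nat_lit 1140) (nat_lit 7158785783) (nat_lit 132) (nat_lit 5) (nat_lit 146) (nat_lit 5) (nat_lit 147) (nat_lit 5) (nat_lit 335) (nat_lit 333) (nat_lit 112)))) (XT.nd (nat_lit 78)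 (nat_lit 0) (nat_lit 0) (XT.lf (nat_lit 0) (nat_lit 7990709984) (nat_lit 1064) (nat_lit 7442234911) (nat_lit 1140) (nat_lit 21928153144) (nat_lit 132) (nat_lit 5) (nat_lit 146) (nat_lit 5) (nat_lit 147) (nat_lit 5) (nat_lit 336) (nat_lit 333) (nat_lit 111)) (XT.nd (nat_lit 78) (nat_lit 0) (nat_lit 76) (XT.lf (nat_lit 76) (nat_lit 7809220852) (nat_lit 0) (nat_lit 717440097) (nat_lit 1140) (nat_lit 29407233651) (nat_lit 133) (nat_lit 5) (nat_lit 132) (nat_lit 5) (nat_lit 147) (nat_lit 5) (nat_lit 337) (nat_lit 333) (nat_lit 110)) (XT.lf (nat_lit 0) (nat_lit 9291757815) (nat_lit 1064) (nat_lit 14991385106) (nat_lit 1140) (nat_lit 14234345041) (nat_lit 133) (nat_lit 5) (nat_lit 147) (nat_lit 5) (nat_lit 148) (nat_lit 5) (nat_lit 338) (nat_lit 333) (nat_lit 109))))))))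
noncomputable def xc252 : XT := (XT.nd (nat_lit 40482) (nat_lit 0) (nat_lit 532) (XT.nd (nat_lit 858) (nat_lit 1748) (nat_lit 0) (XT.nd (nat_lit 390) (nat_lit 0) (nat_lit 152) (XT.nd (nat_lit 156) (nat_lit 0) (nat_lit 76) (XT.nd (nat_lit 78) (nat_lit 0) (nat_lit 76) (XT.lf (nat_lit 76) (nat_lit 599529117) (nat_lit 0) (nat_lit 9491562079) (nat_lit 1140) (nat_lit 29027164203) (nat_lit 134) (nat_lit 5) (nat_lit 133) (nat_lit 5) (nat_lit 148) (nat_lit 5) (nat_lit 339) (nat_lit 333) (nat_lit 108)) (XT.lf (nat_lit 0) (nat_lit 11120959340) (nat_lit 1064) (nat_lit 22824752174) (nat_lit 1140) (nat_lit 5785142346) (nat_lit 134) (nat_lit 5) (nat_lit 148) (nat_lit 5) (nat_lit 149) (nat_lit 5) (nat_lit 340) (nat_lit 333) (nat_lit 107))) (XT.nd (nat_lit 78) (nat_lit 0) (nat_lit 0) (XT.lf (nat_lit 0) (nat_lit 12274203975) (nat_lit 1064) (nat_lit 6754920963) (nat_lit 1140) (nat_lit 21329935431) (nat_lit 134)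 (nat_lit 5) (nat_lit 148) (nat_lit 5) (nat_lit 149) (nat_lit 5) (nat_lit 341) (nat_lit 333) (nat_lit 106)) (XT.nd (nat_lit 78) (nat_lit 0) (nat_lit 76) (XT.lf (nat_lit 76) (nat_lit 9991008208) (nat_lit 0) (nat_lit 3565625565) (nat_lit 1140) (nat_lit 27446646043) (nat_lit 135) (nat_lit 5) (nat_lit 134) (nat_lit 5) (nat_lit 149) (nat_lit 5) (nat_lit 342) (nat_lit 333) (nat_lit 105)) (XT.lf (nat_lit 0) (nat_lit 15063838100) (nat_lit 1064) (nat_lit 14407498808) (nat_lit 1140) (nat_lit 12189904138) (nat_lit 135) (nat_lit 5) (nat_lit 149) (nat_lit 5) (nat_lit 150) (nat_lit 5) (nat_lit 343) (nat_lit 333) (nat_lit 104))))) (XT.nd (nat_lit 234) (nat_lit 0) (nat_lit 76) (XT.nd (nat_lit 78) (nat_lit 0) (nat_lit 76) (XT.lf (nat_lit 76) (nat_lit 2712065758) (nat_lit 0) (nat_lit 13964193084) (nat_lit 1140) (nat_lit 25660886387) (nat_lit 136) (nat_lit 5) (nat_lit 135) (nat_lit 5) (nat_lit 150) (nat_lit 5)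 (nat_lit 344) (nat_lit 333) (nat_lit 103)) (XT.nd (nat_lit 78) (nat_lit 0) (nat_lit 0) (XT.lf (nat_lit 0) (nat_lit 18501945322) (nat_lit 1064) (nat_lit 22410158024) (nat_lit 1140) (nat_lit 2116280404) (nat_lit 136) (nat_lit 5) (nat_lit 150) (nat_lit 5) (nat_lit 151) (nat_lit 5) (nat_lit 345) (nat_lit 333) (nat_lit 102)) (XT.lf (nat_lit 0) (nat_lit 20519362166) (nat_lit 1064) (nat_lit 4818027679) (nat_lit 1140) (nat_lit 18398864677) (nat_lit 136) (nat_lit 5) (nat_lit 150) (nat_lit 5) (nat_lit 151) (nat_lit 5) (nat_lit 346) (nat_lit 333) (nat_lit 101)))) (XT.nd (nat_lit 78) (nat_lit 0) (nat_lit 76) (XT.lf (nat_lit 76) (nat_lit 13565629997) (nat_lit 0) (nat_lit 9160810936) (nat_lit 1140) (nat_lit 21735050077) (nat_lit 137) (nat_lit 5) (nat_lit 136) (nat_lit 5) (nat_lit 151) (nat_lit 5) (nat_lit 347) (nat_lit 333) (nat_lit 100)) (XT.nd (nat_lit 78) (nat_lit 0) (nat_lit 0) (XT.lf (nat_lit 0) (nat_lit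 25119740028) (nat_lit 1064) (nat_lit 12681034360) (nat_lit 1140) (nat_lit 7404113630) (nat_lit 137) (nat_lit 5) (nat_lit 151) (nat_lit 5) (nat_lit 152) (nat_lit 5) (nat_lit 348) (nat_lit 333) (nat_lit 99)) (XT.lf (nat_lit 76) (nat_lit 6107764105) (nat_lit 0) (nat_lit 21625291308) (nat_lit 1140) (nat_lit 18233088564) (nat_lit 138) (nat_lit 5) (nat_lit 137) (nat_lit 5) (nat_lit 152) (nat_lit 5) (nat_lit 349) (nat_lit 333) (nat_lit 98)))))) (XT.nd (nat_lit 390) (nat_lit 532) (nat_lit 0) (XT.nd (nat_lit 156) (nat_lit 1520) (nat_lit 0) (XT.nd (nat_lit 78) (nat_lit 0) (nat_lit 76) (XT.lf (nat_lit 76) (nat_lit 25719228307) (nat_lit 0) (nat_lit 4832425901) (nat_lit 1140) (nat_lit 16194780341) (nat_lit 138) (nat_lit 5) (nat_lit 137) (nat_lit 5) (nat_lit 152) (nat_lit 5) (nat_lit 350) (nat_lit 333) (nat_lit 97)) (XT.lf (nat_lit 0) (nat_lit 33573491240) (nat_lit 1064) (nat_lit 1751870071) (nat_lit 76)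 (nat_lit 12221215474) (nat_lit 138) (nat_lit 5) (nat_lit 152) (nat_lit 5) (nat_lit 139) (nat_lit 5) (nat_lit 351) (nat_lit 333) (nat_lit 96))) (XT.nd (nat_lit 78) (nat_lit 532) (nat_lit 0) (XT.lf (nat_lit 0) (nat_lit 18412238497) (nat_lit 1064) (nat_lit 18497479912) (nat_lit 1140) (nat_lit 11454296086) (nat_lit 124) (nat_lit 5) (nat_lit 138) (nat_lit 5) (nat_lit 139) (nat_lit 5) (nat_lit 352) (nat_lit 333) (nat_lit 95)) (XT.nd (nat_lit 78) (nat_lit 532) (nat_lit 0) (XT.lf (nat_lit 0) (nat_lit 39216260093) (nat_lit 1064) (nat_lit 1146385470) (nat_lit 1140) (nat_lit 8842834539) (nat_lit 124) (nat_lit 5) (nat_lit 138) (nat_lit 5) (nat_lit 139) (nat_lit 5) (nat_lit 353) (nat_lit 333) (nat_lit 94)) (XT.lf (nat_lit 0) (nat_lit 10617698036) (nat_lit 532) (nat_lit 33563255105) (nat_lit 608) (nat_lit 5883385827) (nat_lit 117) (nat_lit 5) (nat_lit 124) (nat_lit 5) (nat_lit 125) (nat_lit 5) (nat_lit 354)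 (nat_lit 333) (nat_lit 93))))) (XT.nd (nat_lit 39000) (nat_lit 0) (nat_lit 1596) (XT.nd (nat_lit 78) (nat_lit 532) (nat_lit 0) (XT.lf (nat_lit 0) (nat_lit 32035094825) (nat_lit 532) (nat_lit 16189802836) (nat_lit 608) (nat_lit 2720736289) (nat_lit 117) (nat_lit 5) (nat_lit 124) (nat_lit 5) (nat_lit 125) (nat_lit 5) (nat_lit 355) (nat_lit 333) (nat_lit 92)) (XT.nd (nat_lit 78) (nat_lit 0) (nat_lit 0) (XT.lf (nat_lit 0) (nat_lit 563886565) (nat_lit 532) (nat_lit 49589185281) (nat_lit 76) (nat_lit 1699016888) (nat_lit 110) (nat_lit 5) (nat_lit 117) (nat_lit 5) (nat_lit 111) (nat_lit 5) (nat_lit 356) (nat_lit 333) (nat_lit 91)) (XT.lf (nat_lit 0) (nat_lit 4244524653) (nat_lit 532) (nat_lit 28510877074) (nat_lit 76) (nat_lit 20018965201) (nat_lit 110) (nat_lit 5) (nat_lit 117) (nat_lit 5) (nat_lit 111) (nat_lit 5) (nat_lit 357) (nat_lit 333) (nat_lit 90)))) (XT.nd (nat_lit 78) (nat_lit 0) (nat_lit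 0) (XT.lf (nat_lit 0) (nat_lit 3662903823) (nat_lit 1140) (nat_lit 7366837397) (nat_lit 1140) (nat_lit 7366837397) (nat_lit 131) (nat_lit 3) (nat_lit 146) (nat_lit 3) (nat_lit 146) (nat_lit 5) (nat_lit 334) (nat_lit 334) (nat_lit 112)) (XT.nd (nat_lit 78) (nat_lit 0) (nat_lit 76) (XT.lf (nat_lit 0) (nat_lit 7478640761) (nat_lit 1140) (nat_lit 104393972) (nat_lit 1140) (nat_lit 29760601478) (nat_lit 131) (nat_lit 3) (nat_lit 146) (nat_lit 3) (nat_lit 146) (nat_lit 5) (nat_lit 335) (nat_lit 334) (nat_lit 111)) (XT.lf (nat_lit 0) (nat_lit 7852976513) (nat_lit 1064) (nat_lit 22717492066) (nat_lit 1140) (nat_lit 7333658521) (nat_lit 132) (nat_lit 5) (nat_lit 146) (nat_lit 5) (nat_lit 147) (nat_lit 5) (nat_lit 336) (nat_lit 334) (nat_lit 110))))))) (XT.nd (nat_lit 858) (nat_lit 1140) (nat_lit 0) (XT.nd (nat_lit 390) (nat_lit 0) (nat_lit 152) (XT.nd (nat_lit 156) (nat_lit 0) (nat_lit 76) (XT.nd (nat_lit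 78) (nat_lit 0) (nat_lit 0) (XT.lf (nat_lit 0) (nat_lit 8313058498) (nat_lit 1064) (nat_lit 7618874887) (nat_lit 1140) (nat_lit 22547268772) (nat_lit 132) (nat_lit 5) (nat_lit 146) (nat_lit 5) (nat_lit 147) (nat_lit 5) (nat_lit 337) (nat_lit 334) (nat_lit 109)) (XT.lf (nat_lit 76) (nat_lit 8089667420) (nat_lit 0) (nat_lit 773457767) (nat_lit 1140) (nat_lit 30206123593) (nat_lit 133) (nat_lit 5) (nat_lit 132) (nat_lit 5) (nat_lit 147) (nat_lit 5) (nat_lit 338) (nat_lit 334) (nat_lit 108))) (XT.nd (nat_lit 78) (nat_lit 0) (nat_lit 0) (XT.lf (nat_lit 0) (nat_lit 9648503587) (nat_lit 1064) (nat_lit 15393394444) (nat_lit 1140) (nat_lit 14628539124) (nat_lit 133) (nat_lit 5) (nat_lit 147) (nat_lit 5) (nat_lit 148) (nat_lit 5) (nat_lit 339) (nat_lit 334) (nat_lit 107)) (XT.nd (nat_lit 78) (nat_lit 0) (nat_lit 76) (XT.lf (nat_lit 76) (nat_lit 664779243) (nat_lit 0) (nat_lit 9805220418) (nat_lit 1140)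 (nat_lit 29819289338) (nat_lit 134) (nat_lit 5) (nat_lit 133) (nat_lit 5) (nat_lit 148) (nat_lit 5) (nat_lit 340) (nat_lit 334) (nat_lit 106)) (XT.lf (nat_lit 0) (nat_lit 11528275318) (nat_lit 1064) (nat_lit 23460896458) (nat_lit 1140) (nat_lit 5931174957) (nat_lit 134) (nat_lit 5) (nat_lit 148) (nat_lit 5) (nat_lit 149) (nat_lit 5) (nat_lit 341) (nat_lit 334) (nat_lit 105))))) (XT.nd (nat_lit 234) (nat_lit 0) (nat_lit 76) (XT.nd (nat_lit 78) (nat_lit 0) (nat_lit 0) (XT.lf (nat_lit 0) (nat_lit 12713971063) (nat_lit 1064) (nat_lit 6910385794) (nat_lit 1140) (nat_lit 21943113437) (nat_lit 134) (nat_lit 5) (nat_lit 148) (nat_lit 5) (nat_lit 149) (nat_lit 5) (nat_lit 342) (nat_lit 334) (nat_lit 104)) (XT.nd (nat_lit 78) (nat_lit 0) (nat_lit 76) (XT.lf (nat_lit 76) (nat_lit 10337458676) (nat_lit 0) (nat_lit 3695780464) (nat_lit 1140) (nat_lit 28197832503) (nat_lit 135) (nat_lit 5) (nat_lit 134)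 (nat_lit 5) (nat_lit 149) (nat_lit 5) (nat_lit 343) (nat_lit 334) (nat_lit 103)) (XT.lf (nat_lit 0) (nat_lit 15583407103) (nat_lit 1064) (nat_lit 14791908560) (nat_lit 1140) (nat_lit 12533529720) (nat_lit 135) (nat_lit 5) (nat_lit 149) (nat_lit 5) (nat_lit 150) (nat_lit 5) (nat_lit 344) (nat_lit 334) (nat_lit 102)))) (XT.nd (nat_lit 78) (nat_lit 0) (nat_lit 76) (XT.lf (nat_lit 76) (nat_lit 2840774165) (nat_lit 0) (nat_lit 14401910923) (nat_lit 1140) (nat_lit 26362392986) (nat_lit 136) (nat_lit 5) (nat_lit 135) (nat_lit 5) (nat_lit 150) (nat_lit 5) (nat_lit 345) (nat_lit 334) (nat_lit 101)) (XT.nd (nat_lit 78) (nat_lit 0) (nat_lit 0) (XT.lf (nat_lit 0) (nat_lit 19121040420) (nat_lit 1064) (nat_lit 23034202001) (nat_lit 1140) (nat_lit 2161880131) (nat_lit 136) (nat_lit 5) (nat_lit 150) (nat_lit 5) (nat_lit 151) (nat_lit 5) (nat_lit 346) (nat_lit 334) (nat_lit 100)) (XT.lf (nat_lit 0) (nat_lit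 21197114621) (nat_lit 1064) (nat_lit 4915713398) (nat_lit 1140) (nat_lit 18933462962) (nat_lit 136) (nat_lit 5) (nat_lit 150) (nat_lit 5) (nat_lit 151) (nat_lit 5) (nat_lit 347) (nat_lit 334) (nat_lit 99)))))) (XT.nd (nat_lit 390) (nat_lit 1444) (nat_lit 0) (XT.nd (nat_lit 156) (nat_lit 0) (nat_lit 76) (XT.nd (nat_lit 78) (nat_lit 0) (nat_lit 76) (XT.lf (nat_lit 76) (nat_lit 14018994644) (nat_lit 0) (nat_lit 9450046268) (nat_lit 1140) (nat_lit 22324290014) (nat_lit 137) (nat_lit 5) (nat_lit 136) (nat_lit 5) (nat_lit 151) (nat_lit 5) (nat_lit 348) (nat_lit 334) (nat_lit 98)) (XT.lf (nat_lit 0) (nat_lit 25932233418) (nat_lit 1064) (nat_lit 13014340063) (nat_lit 1140) (nat_lit 7612518792) (nat_lit 137) (nat_lit 5) (nat_lit 151) (nat_lit 5) (nat_lit 152) (nat_lit 5) (nat_lit 349) (nat_lit 334) (nat_lit 97))) (XT.nd (nat_lit 78) (nat_lit 0) (nat_lit 0) (XT.lf (nat_lit 76) (nat_lit 6337660342) (nat_lit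 0) (nat_lit 22285020909) (nat_lit 1140) (nat_lit 18720547776) (nat_lit 138) (nat_lit 5) (nat_lit 137) (nat_lit 5) (nat_lit 152) (nat_lit 5) (nat_lit 350) (nat_lit 334) (nat_lit 96)) (XT.nd (nat_lit 78) (nat_lit 0) (nat_lit 76) (XT.lf (nat_lit 76) (nat_lit 26536109345) (nat_lit 0) (nat_lit 4988050001) (nat_lit 1140) (nat_lit 16622824291) (nat_lit 138) (nat_lit 5) (nat_lit 137) (nat_lit 5) (nat_lit 152) (nat_lit 5) (nat_lit 351) (nat_lit 334) (nat_lit 95)) (XT.lf (nat_lit 0) (nat_lit 34634922311) (nat_lit 1064) (nat_lit 1758551878) (nat_lit 76) (nat_lit 12577712640) (nat_lit 138) (nat_lit 5) (nat_lit 152) (nat_lit 5) (nat_lit 139) (nat_lit 5) (nat_lit 352) (nat_lit 334) (nat_lit 94))))) (XT.nd (nat_lit 234) (nat_lit 0) (nat_lit 0) (XT.nd (nat_lit 78) (nat_lit 532) (nat_lit 0) (XT.lf (nat_lit 0) (nat_lit 19010030200) (nat_lit 1064) (nat_lit 19060063336) (nat_lit 1140) (nat_lit 11743093091) (nat_lit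 124) (nat_lit 5) (nat_lit 138) (nat_lit 5) (nat_lit 139) (nat_lit 5) (nat_lit 353) (nat_lit 334) (nat_lit 93)) (XT.nd (nat_lit 78) (nat_lit 532) (nat_lit 0) (XT.lf (nat_lit 0) (nat_lit 40436849398) (nat_lit 1064) (nat_lit 1188212983) (nat_lit 1140) (nat_lit 9054884742) (nat_lit 124) (nat_lit 5) (nat_lit 138) (nat_lit 5) (nat_lit 139) (nat_lit 5) (nat_lit 354) (nat_lit 334) (nat_lit 92)) (XT.lf (nat_lit 0) (nat_lit 10981649631) (nat_lit 532) (nat_lit 34575135679) (nat_lit 608) (nat_lit 6007824868) (nat_lit 117) (nat_lit 5) (nat_lit 124) (nat_lit 5) (nat_lit 125) (nat_lit 5) (nat_lit 355) (nat_lit 334) (nat_lit 91)))) (XT.nd (nat_lit 39000) (nat_lit 0) (nat_lit 1064) (XT.lf (nat_lit 0) (nat_lit 33040245392) (nat_lit 532) (nat_lit 16680334709) (nat_lit 608) (nat_lit 2751812228) (nat_lit 117) (nat_lit 5) (nat_lit 124) (nat_lit 5) (nat_lit 125) (nat_lit 5) (nat_lit 356) (nat_lit 334) (nat_lit 90))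 (XT.nd (nat_lit 78) (nat_lit 0) (nat_lit 0) (XT.lf (nat_lit 0) (nat_lit 3815324114) (nat_lit 1140) (nat_lit 7565873556) (nat_lit 1140) (nat_lit 7565873556) (nat_lit 131) (nat_lit 3) (nat_lit 146) (nat_lit 3) (nat_lit 146) (nat_lit 5) (nat_lit 335) (nat_lit 335) (nat_lit 110)) (XT.lf (nat_lit 0) (nat_lit 7785588676) (nat_lit 1140) (nat_lit 64867611) (nat_lit 1140) (nat_lit 30610761343) (nat_lit 131) (nat_lit 3) (nat_lit 146) (nat_lit 3) (nat_lit 146) (nat_lit 5) (nat_lit 336) (nat_lit 335) (nat_lit 109))))))))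
noncomputable def xc253 : XT := (XT.nd (nat_lit 40794) (nat_lit 0) (nat_lit 0) (XT.nd (nat_lit 858) (nat_lit 608) (nat_lit 0) (XT.nd (nat_lit 390) (nat_lit 0) (nat_lit 152) (XT.nd (nat_lit 156) (nat_lit 0) (nat_lit 0) (XT.nd (nat_lit 78) (nat_lit 0) (nat_lit 0) (XT.lf (nat_lit 0) (nat_lit 8168786405) (nat_lit 1064) (nat_lit 23353747827) (nat_lit 1140) (nat_lit 7516067338) (nat_lit 132) (nat_lit 5) (nat_lit 146) (nat_lit 5) (nat_lit 147) (nat_lit 5) (nat_lit 337) (nat_lit 335) (nat_lit 108)) (XT.lf (nat_lit 0) (nat_lit 8640334327) (nat_lit 1064) (nat_lit 7803490648) (nat_lit 1140) (nat_lit 23187181070) (nat_lit 132) (nat_lit 5) (nat_lit 146) (nat_lit 5) (nat_lit 147) (nat_lit 5) (nat_lit 338) (nat_lit 335) (nat_lit 107))) (XT.nd (nat_lit 78) (nat_lit 0) (nat_lit 76) (XT.lf (nat_lit 76) (nat_lit 8375877042) (nat_lit 0) (nat_lit 829175844) (nat_lit 1140) (nat_lit 31033763548) (nat_lit 133) (nat_lit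 5) (nat_lit 132) (nat_lit 5) (nat_lit 147) (nat_lit 5) (nat_lit 339) (nat_lit 335) (nat_lit 106)) (XT.nd (nat_lit 78) (nat_lit 0) (nat_lit 0) (XT.lf (nat_lit 0) (nat_lit 10011474612) (nat_lit 1064) (nat_lit 15810204087) (nat_lit 1140) (nat_lit 15036443966) (nat_lit 133) (nat_lit 5) (nat_lit 147) (nat_lit 5) (nat_lit 148) (nat_lit 5) (nat_lit 340) (nat_lit 335) (nat_lit 105)) (XT.lf (nat_lit 76) (nat_lit 729273711) (nat_lit 0) (nat_lit 10126628869) (nat_lit 1140) (nat_lit 30639695342) (nat_lit 134) (nat_lit 5) (nat_lit 133) (nat_lit 5) (nat_lit 148) (nat_lit 5) (nat_lit 341) (nat_lit 335) (nat_lit 104))))) (XT.nd (nat_lit 234) (nat_lit 0) (nat_lit 76) (XT.nd (nat_lit 78) (nat_lit 0) (nat_lit 0) (XT.lf (nat_lit 0) (nat_lit 11943580828) (nat_lit 1064) (nat_lit 24118914810) (nat_lit 1140) (nat_lit 6083168403) (nat_lit 134) (nat_lit 5) (nat_lit 148) (nat_lit 5) (nat_lit 149) (nat_lit 5) (nat_lit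 342) (nat_lit 335) (nat_lit 103)) (XT.nd (nat_lit 78) (nat_lit 0) (nat_lit 0) (XT.lf (nat_lit 0) (nat_lit 13162824419) (nat_lit 1064) (nat_lit 7073223056) (nat_lit 1140) (nat_lit 22576220623) (nat_lit 134) (nat_lit 5) (nat_lit 148) (nat_lit 5) (nat_lit 149) (nat_lit 5) (nat_lit 343) (nat_lit 335) (nat_lit 102)) (XT.lf (nat_lit 76) (nat_lit 10691620726) (nat_lit 0) (nat_lit 3828509032) (nat_lit 1140) (nat_lit 28975699874) (nat_lit 135) (nat_lit 5) (nat_lit 134) (nat_lit 5) (nat_lit 149) (nat_lit 5) (nat_lit 344) (nat_lit 335) (nat_lit 101)))) (XT.nd (nat_lit 78) (nat_lit 0) (nat_lit 0) (XT.lf (nat_lit 0) (nat_lit 16114679567) (nat_lit 1064) (nat_lit 15190595395) (nat_lit 1140) (nat_lit 12888731067) (nat_lit 135) (nat_lit 5) (nat_lit 149) (nat_lit 5) (nat_lit 150) (nat_lit 5) (nat_lit 345) (nat_lit 335) (nat_lit 100)) (XT.nd (nat_lit 78) (nat_lit 0) (nat_lit 76) (XT.lf (nat_lit 76) (nat_lit 2970625946)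 (nat_lit 0) (nat_lit 14851681557) (nat_lit 1140) (nat_lit 27088866629) (nat_lit 136) (nat_lit 5) (nat_lit 135) (nat_lit 5) (nat_lit 150) (nat_lit 5) (nat_lit 346) (nat_lit 335) (nat_lit 99)) (XT.lf (nat_lit 0) (nat_lit 19755032400) (nat_lit 1064) (nat_lit 23679737661) (nat_lit 1140) (nat_lit 2209874733) (nat_lit 136) (nat_lit 5) (nat_lit 150) (nat_lit 5) (nat_lit 151) (nat_lit 5) (nat_lit 347) (nat_lit 335) (nat_lit 98)))))) (XT.nd (nat_lit 390) (nat_lit 912) (nat_lit 0) (XT.nd (nat_lit 156) (nat_lit 0) (nat_lit 76) (XT.nd (nat_lit 78) (nat_lit 0) (nat_lit 0) (XT.lf (nat_lit 0) (nat_lit 21891630747) (nat_lit 1064) (nat_lit 5019019364) (nat_lit 1140) (nat_lit 19485096170) (nat_lit 136) (nat_lit 5) (nat_lit 150) (nat_lit 5) (nat_lit 151) (nat_lit 5) (nat_lit 348) (nat_lit 335) (nat_lit 97)) (XT.lf (nat_lit 76) (nat_lit 14483296925) (nat_lit 0) (nat_lit 9747131411) (nat_lit 1140) (nat_lit 22934812791)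 (nat_lit 137) (nat_lit 5) (nat_lit 136) (nat_lit 5) (nat_lit 151) (nat_lit 5) (nat_lit 349) (nat_lit 335) (nat_lit 96))) (XT.nd (nat_lit 78) (nat_lit 0) (nat_lit 0) (XT.lf (nat_lit 0) (nat_lit 26765720440) (nat_lit 1064) (nat_lit 13360350124) (nat_lit 1140) (nat_lit 7827963593) (nat_lit 137) (nat_lit 5) (nat_lit 151) (nat_lit 5) (nat_lit 152) (nat_lit 5) (nat_lit 350) (nat_lit 335) (nat_lit 95)) (XT.nd (nat_lit 78) (nat_lit 0) (nat_lit 0) (XT.lf (nat_lit 76) (nat_lit 6571774802) (nat_lit 0) (nat_lit 22963912626) (nat_lit 1140) (nat_lit 19226048229) (nat_lit 138) (nat_lit 5) (nat_lit 137) (nat_lit 5) (nat_lit 152) (nat_lit 5) (nat_lit 351) (nat_lit 335) (nat_lit 94)) (XT.lf (nat_lit 76) (nat_lit 27374896168) (nat_lit 0) (nat_lit 5147731394) (nat_lit 1140) (nat_lit 17067027485) (nat_lit 138) (nat_lit 5) (nat_lit 137) (nat_lit 5) (nat_lit 152) (nat_lit 5) (nat_lit 352) (nat_lit 335) (nat_lit 93)))))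 (XT.nd (nat_lit 39312) (nat_lit 0) (nat_lit 532) (XT.nd (nat_lit 78) (nat_lit 1064) (nat_lit 0) (XT.lf (nat_lit 0) (nat_lit 35725083502) (nat_lit 1064) (nat_lit 1768067510) (nat_lit 76) (nat_lit 12945486759) (nat_lit 138) (nat_lit 5) (nat_lit 152) (nat_lit 5) (nat_lit 139) (nat_lit 5) (nat_lit 353) (nat_lit 335) (nat_lit 92)) (XT.nd (nat_lit 78) (nat_lit 0) (nat_lit 0) (XT.lf (nat_lit 0) (nat_lit 19623148099) (nat_lit 1064) (nat_lit 19639084604) (nat_lit 1140) (nat_lit 12043701580) (nat_lit 124) (nat_lit 5) (nat_lit 138) (nat_lit 5) (nat_lit 139) (nat_lit 5) (nat_lit 354) (nat_lit 335) (nat_lit 91)) (XT.lf (nat_lit 0) (nat_lit 41691524776) (nat_lit 1064) (nat_lit 1230868467) (nat_lit 1140) (nat_lit 9276352349) (nat_lit 124) (nat_lit 5) (nat_lit 138) (nat_lit 5) (nat_lit 139) (nat_lit 5) (nat_lit 355) (nat_lit 335) (nat_lit 90)))) (XT.nd (nat_lit 78) (nat_lit 0) (nat_lit 0) (XT.lf (nat_lit 0)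 (nat_lit 3969875436) (nat_lit 1140) (nat_lit 7772141909) (nat_lit 1140) (nat_lit 7772141909) (nat_lit 131) (nat_lit 3) (nat_lit 146) (nat_lit 3) (nat_lit 146) (nat_lit 5) (nat_lit 336) (nat_lit 336) (nat_lit 108)) (XT.nd (nat_lit 78) (nat_lit 0) (nat_lit 76) (XT.lf (nat_lit 0) (nat_lit 8097004100) (nat_lit 1140) (nat_lit 26604214) (nat_lit 1140) (nat_lit 31488874757) (nat_lit 131) (nat_lit 3) (nat_lit 146) (nat_lit 3) (nat_lit 146) (nat_lit 5) (nat_lit 337) (nat_lit 336) (nat_lit 107)) (XT.lf (nat_lit 0) (nat_lit 8489465603) (nat_lit 1064) (nat_lit 24011689887) (nat_lit 1140) (nat_lit 7706106868) (nat_lit 132) (nat_lit 5) (nat_lit 146) (nat_lit 5) (nat_lit 147) (nat_lit 5) (nat_lit 338) (nat_lit 336) (nat_lit 106))))))) (XT.nd (nat_lit 858) (nat_lit 608) (nat_lit 0) (XT.nd (nat_lit 390) (nat_lit 0) (nat_lit 152) (XT.nd (nat_lit 156) (nat_lit 0) (nat_lit 76) (XT.nd (nat_lit 78) (nat_lit 0) (nat_lit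 0) (XT.lf (nat_lit 0) (nat_lit 8972957567) (nat_lit 1064) (nat_lit 7996167818) (nat_lit 1140) (nat_lit 23848386317) (nat_lit 132) (nat_lit 5) (nat_lit 146) (nat_lit 5) (nat_lit 147) (nat_lit 5) (nat_lit 339) (nat_lit 336) (nat_lit 105)) (XT.lf (nat_lit 76) (nat_lit 8668174749) (nat_lit 0) (nat_lit 884699007) (nat_lit 1140) (nat_lit 31890741435) (nat_lit 133) (nat_lit 5) (nat_lit 132) (nat_lit 5) (nat_lit 147) (nat_lit 5) (nat_lit 340) (nat_lit 336) (nat_lit 104))) (XT.nd (nat_lit 78) (nat_lit 0) (nat_lit 0) (XT.lf (nat_lit 0) (nat_lit 10381114654) (nat_lit 1064) (nat_lit 16242100755) (nat_lit 1140) (nat_lit 15458362686) (nat_lit 133) (nat_lit 5) (nat_lit 147) (nat_lit 5) (nat_lit 148) (nat_lit 5) (nat_lit 341) (nat_lit 336) (nat_lit 103)) (XT.nd (nat_lit 78) (nat_lit 0) (nat_lit 76) (XT.lf (nat_lit 76) (nat_lit 793145598) (nat_lit 0) (nat_lit 10456115207) (nat_lit 1140) (nat_lit 31488971342)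 (nat_lit 134) (nat_lit 5) (nat_lit 133) (nat_lit 5) (nat_lit 148) (nat_lit 5) (nat_lit 342) (nat_lit 336) (nat_lit 102)) (XT.lf (nat_lit 0) (nat_lit 12367358374) (nat_lit 1064) (nat_lit 24799303310) (nat_lit 1140) (nat_lit 6241210817) (nat_lit 134) (nat_lit 5) (nat_lit 148) (nat_lit 5) (nat_lit 149) (nat_lit 5) (nat_lit 343) (nat_lit 336) (nat_lit 101))))) (XT.nd (nat_lit 234) (nat_lit 0) (nat_lit 76) (XT.nd (nat_lit 78) (nat_lit 0) (nat_lit 0) (XT.lf (nat_lit 0) (nat_lit 13621272375) (nat_lit 1064) (nat_lit 7243498443) (nat_lit 1140) (nat_lit 23229766817) (nat_lit 134) (nat_lit 5) (nat_lit 148) (nat_lit 5) (nat_lit 149) (nat_lit 5) (nat_lit 344) (nat_lit 336) (nat_lit 100)) (XT.nd (nat_lit 78) (nat_lit 0) (nat_lit 76) (XT.lf (nat_lit 76) (nat_lit 11053879659) (nat_lit 0) (nat_lit 3963964882) (nat_lit 1140) (nat_lit 29780810625) (nat_lit 135) (nat_lit 5) (nat_lit 134) (nat_lit 5) (nat_lit 149)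 (nat_lit 5) (nat_lit 345) (nat_lit 336) (nat_lit 99)) (XT.lf (nat_lit 0) (nat_lit 16658229531) (nat_lit 1064) (nat_lit 15603830060) (nat_lit 1140) (nat_lit 13255782720) (nat_lit 135) (nat_lit 5) (nat_lit 149) (nat_lit 5) (nat_lit 150) (nat_lit 5) (nat_lit 346) (nat_lit 336) (nat_lit 98)))) (XT.nd (nat_lit 78) (nat_lit 0) (nat_lit 76) (XT.lf (nat_lit 76) (nat_lit 3101811418) (nat_lit 0) (nat_lit 15313928494) (nat_lit 1140) (nat_lit 27840831199) (nat_lit 136) (nat_lit 5) (nat_lit 135) (nat_lit 5) (nat_lit 150) (nat_lit 5) (nat_lit 347) (nat_lit 336) (nat_lit 97)) (XT.nd (nat_lit 78) (nat_lit 0) (nat_lit 0) (XT.lf (nat_lit 0) (nat_lit 20404579185) (nat_lit 1064) (nat_lit 24347250727) (nat_lit 1140) (nat_lit 2260277110) (nat_lit 136) (nat_lit 5) (nat_lit 150) (nat_lit 5) (nat_lit 151) (nat_lit 5) (nat_lit 348) (nat_lit 336) (nat_lit 96)) (XT.lf (nat_lit 0) (nat_lit 22603618323) (nat_lit 1064) (nat_lit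 5127959786) (nat_lit 1140) (nat_lit 20054218118) (nat_lit 136) (nat_lit 5) (nat_lit 150) (nat_lit 5) (nat_lit 151) (nat_lit 5) (nat_lit 349) (nat_lit 336) (nat_lit 95)))))) (XT.nd (nat_lit 39624) (nat_lit 0) (nat_lit 532) (XT.nd (nat_lit 234) (nat_lit 912) (nat_lit 0) (XT.nd (nat_lit 78) (nat_lit 0) (nat_lit 76) (XT.lf (nat_lit 76) (nat_lit 14959017853) (nat_lit 0) (nat_lit 10052349344) (nat_lit 1140) (nat_lit 23567049913) (nat_lit 137) (nat_lit 5) (nat_lit 136) (nat_lit 5) (nat_lit 151) (nat_lit 5) (nat_lit 350) (nat_lit 336) (nat_lit 94)) (XT.nd (nat_lit 78) (nat_lit 0) (nat_lit 0) (XT.lf (nat_lit 0) (nat_lit 27621024997) (nat_lit 1064) (nat_lit 13719290385) (nat_lit 1140) (nat_lit 8050614016) (nat_lit 137) (nat_lit 5) (nat_lit 151) (nat_lit 5) (nat_lit 152) (nat_lit 5) (nat_lit 351) (nat_lit 336) (nat_lit 93)) (XT.lf (nat_lit 76) (nat_lit 6810387796) (nat_lit 0) (nat_lit 23662577474) (nat_lit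 1140) (nat_lit 19749934981) (nat_lit 138) (nat_lit 5) (nat_lit 137) (nat_lit 5) (nat_lit 152) (nat_lit 5) (nat_lit 352) (nat_lit 336) (nat_lit 92)))) (XT.nd (nat_lit 78) (nat_lit 988) (nat_lit 0) (XT.lf (nat_lit 76) (nat_lit 28236395238) (nat_lit 0) (nat_lit 5311626898) (nat_lit 1140) (nat_lit 17527684237) (nat_lit 138) (nat_lit 5) (nat_lit 137) (nat_lit 5) (nat_lit 152) (nat_lit 5) (nat_lit 353) (nat_lit 336) (nat_lit 91)) (XT.nd (nat_lit 78) (nat_lit 1064) (nat_lit 0) (XT.lf (nat_lit 0) (nat_lit 36845015402) (nat_lit 1064) (nat_lit 1780350818) (nat_lit 76) (nat_lit 13324842726) (nat_lit 138) (nat_lit 5) (nat_lit 152) (nat_lit 5) (nat_lit 139) (nat_lit 5) (nat_lit 354) (nat_lit 336) (nat_lit 90)) (XT.lf (nat_lit 0) (nat_lit 20252201664) (nat_lit 1064) (nat_lit 20235062089) (nat_lit 1140) (nat_lit 12356295213) (nat_lit 124) (nat_lit 5) (nat_lit 138) (nat_lit 5) (nat_lit 139) (nat_lit 5) (nat_lit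 355) (nat_lit 336) (nat_lit 89))))) (XT.nd (nat_lit 234) (nat_lit 0) (nat_lit 76) (XT.nd (nat_lit 78) (nat_lit 0) (nat_lit 0) (XT.lf (nat_lit 0) (nat_lit 4126761876) (nat_lit 1140) (nat_lit 7985787027) (nat_lit 1140) (nat_lit 7985787027) (nat_lit 131) (nat_lit 3) (nat_lit 146) (nat_lit 3) (nat_lit 146) (nat_lit 5) (nat_lit 337) (nat_lit 337) (nat_lit 106)) (XT.nd (nat_lit 78) (nat_lit 0) (nat_lit 76) (XT.lf (nat_lit 76) (nat_lit 10707848) (nat_lit 0) (nat_lit 8402688289) (nat_lit 1140) (nat_lit 32385034841) (nat_lit 132) (nat_lit 5) (nat_lit 131) (nat_lit 3) (nat_lit 146) (nat_lit 5) (nat_lit 338) (nat_lit 337) (nat_lit 105)) (XT.lf (nat_lit 0) (nat_lit 8815424532) (nat_lit 1064) (nat_lit 24691819663) (nat_lit 1140) (nat_lit 7903882127) (nat_lit 132) (nat_lit 5) (nat_lit 146) (nat_lit 5) (nat_lit 147) (nat_lit 5) (nat_lit 339) (nat_lit 337) (nat_lit 104)))) (XT.nd (nat_lit 78) (nat_lit 0) (nat_lit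 0) (XT.lf (nat_lit 0) (nat_lit 9311345285) (nat_lit 1064) (nat_lit 8197003415) (nat_lit 1140) (nat_lit 24531403007) (nat_lit 132) (nat_lit 5) (nat_lit 146) (nat_lit 5) (nat_lit 147) (nat_lit 5) (nat_lit 340) (nat_lit 337) (nat_lit 103)) (XT.nd (nat_lit 78) (nat_lit 0) (nat_lit 76) (XT.lf (nat_lit 76) (nat_lit 8966886592) (nat_lit 0) (nat_lit 940128551) (nat_lit 1140) (nat_lit 32777678571) (nat_lit 133) (nat_lit 5) (nat_lit 132) (nat_lit 5) (nat_lit 147) (nat_lit 5) (nat_lit 341) (nat_lit 337) (nat_lit 102)) (XT.lf (nat_lit 0) (nat_lit 10757866034) (nat_lit 1064) (nat_lit 16689388798) (nat_lit 1140) (nat_lit 15894613709) (nat_lit 133) (nat_lit 5) (nat_lit 147) (nat_lit 5) (nat_lit 148) (nat_lit 5) (nat_lit 342) (nat_lit 337) (nat_lit 101))))))))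
noncomputable def xc254 : XT := (XT.nd (nat_lit 41028) (nat_lit 0) (nat_lit 0) (XT.nd (nat_lit 858) (nat_lit 152) (nat_lit 0) (XT.nd (nat_lit 390) (nat_lit 0) (nat_lit 152) (XT.nd (nat_lit 156) (nat_lit 0) (nat_lit 76) (XT.nd (nat_lit 78) (nat_lit 0) (nat_lit 76) (XT.lf (nat_lit 76) (nat_lit 856523034) (nat_lit 0) (nat_lit 10794011569) (nat_lit 1140) (nat_lit 32367739021) (nat_lit 134) (nat_lit 5) (nat_lit 133) (nat_lit 5) (nat_lit 148) (nat_lit 5) (nat_lit 343) (nat_lit 337) (nat_lit 100)) (XT.lf (nat_lit 0) (nat_lit 12800090993) (nat_lit 1064) (nat_lit 25502582114) (nat_lit 1140) (nat_lit 6405398185) (nat_lit 134) (nat_lit 5) (nat_lit 148) (nat_lit 5) (nat_lit 149) (nat_lit 5) (nat_lit 344) (nat_lit 337) (nat_lit 99))) (XT.nd (nat_lit 78) (nat_lit 0) (nat_lit 0) (XT.lf (nat_lit 0) (nat_lit 14089824981) (nat_lit 1064) (nat_lit 7421288545) (nat_lit 1140) (nat_lit 23904282194) (nat_lit 134)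 (nat_lit 5) (nat_lit 148) (nat_lit 5) (nat_lit 149) (nat_lit 5) (nat_lit 345) (nat_lit 337) (nat_lit 98)) (XT.nd (nat_lit 78) (nat_lit 0) (nat_lit 76) (XT.lf (nat_lit 76) (nat_lit 11424623499) (nat_lit 0) (nat_lit 4102301850) (nat_lit 1140) (nat_lit 30613757759) (nat_lit 135) (nat_lit 5) (nat_lit 134) (nat_lit 5) (nat_lit 149) (nat_lit 5) (nat_lit 346) (nat_lit 337) (nat_lit 97)) (XT.lf (nat_lit 0) (nat_lit 17214635459) (nat_lit 1064) (nat_lit 16031900475) (nat_lit 1140) (nat_lit 13634971633) (nat_lit 135) (nat_lit 5) (nat_lit 149) (nat_lit 5) (nat_lit 150) (nat_lit 5) (nat_lit 347) (nat_lit 337) (nat_lit 96))))) (XT.nd (nat_lit 234) (nat_lit 0) (nat_lit 76) (XT.nd (nat_lit 78) (nat_lit 0) (nat_lit 76) (XT.lf (nat_lit 76) (nat_lit 3234517655) (nat_lit 0) (nat_lit 15789084392) (nat_lit 1140) (nat_lit 28618839216) (nat_lit 136) (nat_lit 5) (nat_lit 135) (nat_lit 5) (nat_lit 150) (nat_lit 5) (nat_lit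 348) (nat_lit 337) (nat_lit 95)) (XT.nd (nat_lit 78) (nat_lit 0) (nat_lit 0) (XT.lf (nat_lit 0) (nat_lit 21070346321) (nat_lit 1064) (nat_lit 25037250619) (nat_lit 1140) (nat_lit 2313103931) (nat_lit 136) (nat_lit 5) (nat_lit 150) (nat_lit 5) (nat_lit 151) (nat_lit 5) (nat_lit 349) (nat_lit 337) (nat_lit 94)) (XT.lf (nat_lit 0) (nat_lit 23333794601) (nat_lit 1064) (nat_lit 5242558161) (nat_lit 1140) (nat_lit 20641299523) (nat_lit 136) (nat_lit 5) (nat_lit 150) (nat_lit 5) (nat_lit 151) (nat_lit 5) (nat_lit 350) (nat_lit 337) (nat_lit 93)))) (XT.nd (nat_lit 78) (nat_lit 0) (nat_lit 76) (XT.lf (nat_lit 76) (nat_lit 15446644097) (nat_lit 0) (nat_lit 10365988814) (nat_lit 1140) (nat_lit 24221457714) (nat_lit 137) (nat_lit 5) (nat_lit 136) (nat_lit 5) (nat_lit 151) (nat_lit 5) (nat_lit 351) (nat_lit 337) (nat_lit 92)) (XT.nd (nat_lit 78) (nat_lit 0) (nat_lit 0) (XT.lf (nat_lit 0) (nat_lit 28498984565)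 (nat_lit 1064) (nat_lit 14091402377) (nat_lit 1140) (nat_lit 8280643621) (nat_lit 137) (nat_lit 5) (nat_lit 151) (nat_lit 5) (nat_lit 152) (nat_lit 5) (nat_lit 352) (nat_lit 337) (nat_lit 91)) (XT.lf (nat_lit 76) (nat_lit 7053779221) (nat_lit 0) (nat_lit 24381642723) (nat_lit 1140) (nat_lit 20292574709) (nat_lit 138) (nat_lit 5) (nat_lit 137) (nat_lit 5) (nat_lit 152) (nat_lit 5) (nat_lit 353) (nat_lit 337) (nat_lit 90)))))) (XT.nd (nat_lit 39702) (nat_lit 0) (nat_lit 76) (XT.nd (nat_lit 39468) (nat_lit 0) (nat_lit 0) (XT.nd (nat_lit 39390) (nat_lit 456) (nat_lit 0) (XT.lf (nat_lit 76) (nat_lit 29121428640) (nat_lit 0) (nat_lit 5479896020) (nat_lit 1140) (nat_lit 18005108626) (nat_lit 138) (nat_lit 5) (nat_lit 137) (nat_lit 5) (nat_lit 152) (nat_lit 5) (nat_lit 354) (nat_lit 337) (nat_lit 89)) (XT.lf (nat_lit 0) (nat_lit 4286185598) (nat_lit 1140) (nat_lit 8206961978) (nat_lit 1140) (nat_lit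 8206961978) (nat_lit 131) (nat_lit 3) (nat_lit 146) (nat_lit 3) (nat_lit 146) (nat_lit 5) (nat_lit 338) (nat_lit 338) (nat_lit 104))) (XT.nd (nat_lit 78) (nat_lit 0) (nat_lit 76) (XT.lf (nat_lit 76) (nat_lit 47465646) (nat_lit 0) (nat_lit 8687849355) (nat_lit 1140) (nat_lit 33284774020) (nat_lit 132) (nat_lit 5) (nat_lit 131) (nat_lit 3) (nat_lit 146) (nat_lit 5) (nat_lit 339) (nat_lit 338) (nat_lit 103)) (XT.nd (nat_lit 78) (nat_lit 0) (nat_lit 0) (XT.lf (nat_lit 0) (nat_lit 9147070755) (nat_lit 1064) (nat_lit 25394662177) (nat_lit 1140) (nat_lit 8109508397) (nat_lit 132) (nat_lit 5) (nat_lit 146) (nat_lit 5) (nat_lit 147) (nat_lit 5) (nat_lit 340) (nat_lit 338) (nat_lit 102)) (XT.lf (nat_lit 0) (nat_lit 9655912329) (nat_lit 1064) (nat_lit 8406105677) (nat_lit 1140) (nat_lit 25236772093) (nat_lit 132) (nat_lit 5) (nat_lit 146) (nat_lit 5) (nat_lit 147) (nat_lit 5) (nat_lit 341) (nat_lit 338)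 (nat_lit 101))))) (XT.nd (nat_lit 234) (nat_lit 0) (nat_lit 152) (XT.nd (nat_lit 78) (nat_lit 0) (nat_lit 76) (XT.lf (nat_lit 76) (nat_lit 9272340169) (nat_lit 0) (nat_lit 995562658) (nat_lit 1140) (nat_lit 33695229772) (nat_lit 133) (nat_lit 5) (nat_lit 132) (nat_lit 5) (nat_lit 147) (nat_lit 5) (nat_lit 342) (nat_lit 338) (nat_lit 100)) (XT.nd (nat_lit 78) (nat_lit 0) (nat_lit 0) (XT.lf (nat_lit 0) (nat_lit 11142170439) (nat_lit 1064) (nat_lit 17152390211) (nat_lit 1140) (nat_lit 16345530867) (nat_lit 133) (nat_lit 5) (nat_lit 147) (nat_lit 5) (nat_lit 148) (nat_lit 5) (nat_lit 343) (nat_lit 338) (nat_lit 99)) (XT.lf (nat_lit 76) (nat_lit 919529562) (nat_lit 0) (nat_lit 11140654902) (nat_lit 1140) (nat_lit 33276652744) (nat_lit 134) (nat_lit 5) (nat_lit 133) (nat_lit 5) (nat_lit 148) (nat_lit 5) (nat_lit 344) (nat_lit 338) (nat_lit 98)))) (XT.nd (nat_lit 78) (nat_lit 0) (nat_lit 0) (XT.lf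 (nat_lit 0) (nat_lit 13242263077) (nat_lit 1064) (nat_lit 26229295645) (nat_lit 1140) (nat_lit 6575834279) (nat_lit 134) (nat_lit 5) (nat_lit 148) (nat_lit 5) (nat_lit 149) (nat_lit 5) (nat_lit 345) (nat_lit 338) (nat_lit 97)) (XT.nd (nat_lit 78) (nat_lit 0) (nat_lit 0) (XT.lf (nat_lit 0) (nat_lit 14568994832) (nat_lit 1064) (nat_lit 7606680665) (nat_lit 1140) (nat_lit 24600317600) (nat_lit 134) (nat_lit 5) (nat_lit 148) (nat_lit 5) (nat_lit 149) (nat_lit 5) (nat_lit 346) (nat_lit 338) (nat_lit 96)) (XT.lf (nat_lit 76) (nat_lit 11804243578) (nat_lit 0) (nat_lit 4243674252) (nat_lit 1140) (nat_lit 31475164945) (nat_lit 135) (nat_lit 5) (nat_lit 134) (nat_lit 5) (nat_lit 149) (nat_lit 5) (nat_lit 347) (nat_lit 338) (nat_lit 95))))))) (XT.nd (nat_lit 40326) (nat_lit 0) (nat_lit 0) (XT.nd (nat_lit 390) (nat_lit 304) (nat_lit 0) (XT.nd (nat_lit 156) (nat_lit 0) (nat_lit 76) (XT.nd (nat_lit 78) (nat_lit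 0) (nat_lit 0) (XT.lf (nat_lit 0) (nat_lit 17784481104) (nat_lit 1064) (nat_lit 16475111720) (nat_lit 1140) (nat_lit 14026597303) (nat_lit 135) (nat_lit 5) (nat_lit 149) (nat_lit 5) (nat_lit 150) (nat_lit 5) (nat_lit 348) (nat_lit 338) (nat_lit 94)) (XT.lf (nat_lit 76) (nat_lit 3368928897) (nat_lit 0) (nat_lit 16277591539) (nat_lit 1140) (nat_lit 29423471959) (nat_lit 136) (nat_lit 5) (nat_lit 135) (nat_lit 5) (nat_lit 150) (nat_lit 5) (nat_lit 349) (nat_lit 338) (nat_lit 93))) (XT.nd (nat_lit 78) (nat_lit 0) (nat_lit 0) (XT.lf (nat_lit 0) (nat_lit 21753007903) (nat_lit 1064) (nat_lit 25750270644) (nat_lit 1140) (nat_lit 2368375555) (nat_lit 136) (nat_lit 5) (nat_lit 150) (nat_lit 5) (nat_lit 151) (nat_lit 5) (nat_lit 350) (nat_lit 338) (nat_lit 92)) (XT.nd (nat_lit 78) (nat_lit 0) (nat_lit 0) (XT.lf (nat_lit 0) (nat_lit 24082887267) (nat_lit 1064) (nat_lit 5362847049) (nat_lit 1140) (nat_lit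 21246828321) (nat_lit 136) (nat_lit 5) (nat_lit 150) (nat_lit 5) (nat_lit 151) (nat_lit 5) (nat_lit 351) (nat_lit 338) (nat_lit 91)) (XT.lf (nat_lit 76) (nat_lit 15946668651) (nat_lit 0) (nat_lit 10688344659) (nat_lit 1140) (nat_lit 24898517416) (nat_lit 137) (nat_lit 5) (nat_lit 136) (nat_lit 5) (nat_lit 151) (nat_lit 5) (nat_lit 352) (nat_lit 338) (nat_lit 90))))) (XT.nd (nat_lit 39702) (nat_lit 0) (nat_lit 76) (XT.nd (nat_lit 39546) (nat_lit 456) (nat_lit 0) (XT.lf (nat_lit 0) (nat_lit 29400451245) (nat_lit 1064) (nat_lit 14476943280) (nat_lit 1140) (nat_lit 8518233619) (nat_lit 137) (nat_lit 5) (nat_lit 151) (nat_lit 5) (nat_lit 152) (nat_lit 5) (nat_lit 353) (nat_lit 338) (nat_lit 89)) (XT.nd (nat_lit 78) (nat_lit 0) (nat_lit 0) (XT.lf (nat_lit 0) (nat_lit 4448347248) (nat_lit 1140) (nat_lit 8435828335) (nat_lit 1140) (nat_lit 8435828335) (nat_lit 131) (nat_lit 3) (nat_lit 146) (nat_lit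 3) (nat_lit 146) (nat_lit 5) (nat_lit 339) (nat_lit 339) (nat_lit 102)) (XT.lf (nat_lit 76) (nat_lit 83234570) (nat_lit 0) (nat_lit 8979666302) (nat_lit 1140) (nat_lit 34215627670) (nat_lit 132) (nat_lit 5) (nat_lit 131) (nat_lit 3) (nat_lit 146) (nat_lit 5) (nat_lit 340) (nat_lit 339) (nat_lit 101)))) (XT.nd (nat_lit 78) (nat_lit 0) (nat_lit 0) (XT.lf (nat_lit 0) (nat_lit 9484809757) (nat_lit 1064) (nat_lit 26120766275) (nat_lit 1140) (nat_lit 8323111122) (nat_lit 132) (nat_lit 5) (nat_lit 146) (nat_lit 5) (nat_lit 147) (nat_lit 5) (nat_lit 341) (nat_lit 339) (nat_lit 100)) (XT.nd (nat_lit 78) (nat_lit 0) (nat_lit 0) (XT.lf (nat_lit 0) (nat_lit 10007072106) (nat_lit 1064) (nat_lit 8623593928) (nat_lit 1140) (nat_lit 25965057268) (nat_lit 132) (nat_lit 5) (nat_lit 146) (nat_lit 5) (nat_lit 147) (nat_lit 5) (nat_lit 342) (nat_lit 339) (nat_lit 99)) (XT.lf (nat_lit 76) (nat_lit 9584865147) (nat_lit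 0) (nat_lit 1051096662) (nat_lit 1140) (nat_lit 34644083501) (nat_lit 133) (nat_lit 5) (nat_lit 132) (nat_lit 5) (nat_lit 147) (nat_lit 5) (nat_lit 343) (nat_lit 339) (nat_lit 98)))))) (XT.nd (nat_lit 390) (nat_lit 152) (nat_lit 0) (XT.nd (nat_lit 156) (nat_lit 0) (nat_lit 76) (XT.nd (nat_lit 78) (nat_lit 0) (nat_lit 0) (XT.lf (nat_lit 0) (nat_lit 11534469696) (nat_lit 1064) (nat_lit 17631444667) (nat_lit 1140) (nat_lit 16811463525) (nat_lit 133) (nat_lit 5) (nat_lit 147) (nat_lit 5) (nat_lit 148) (nat_lit 5) (nat_lit 344) (nat_lit 339) (nat_lit 97)) (XT.lf (nat_lit 76) (nat_lit 982284491) (nat_lit 0) (nat_lit 11496387403) (nat_lit 1140) (nat_lit 34216399731) (nat_lit 134) (nat_lit 5) (nat_lit 133) (nat_lit 5) (nat_lit 148) (nat_lit 5) (nat_lit 345) (nat_lit 339) (nat_lit 96))) (XT.nd (nat_lit 78) (nat_lit 0) (nat_lit 0) (XT.lf (nat_lit 0) (nat_lit 13694361164) (nat_lit 1064) (nat_lit 26980012829)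 (nat_lit 1140) (nat_lit 6752630608) (nat_lit 134) (nat_lit 5) (nat_lit 148) (nat_lit 5) (nat_lit 149) (nat_lit 5) (nat_lit 346) (nat_lit 339) (nat_lit 95)) (XT.nd (nat_lit 78) (nat_lit 0) (nat_lit 0) (XT.lf (nat_lit 0) (nat_lit 15059297876) (nat_lit 1064) (nat_lit 7799772653) (nat_lit 1140) (nat_lit 25318444896) (nat_lit 134) (nat_lit 5) (nat_lit 148) (nat_lit 5) (nat_lit 149) (nat_lit 5) (nat_lit 347) (nat_lit 339) (nat_lit 94)) (XT.lf (nat_lit 76) (nat_lit 12193135118) (nat_lit 0) (nat_lit 4388237140) (nat_lit 1140) (nat_lit 32365686698) (nat_lit 135) (nat_lit 5) (nat_lit 134) (nat_lit 5) (nat_lit 149) (nat_lit 5) (nat_lit 348) (nat_lit 339) (nat_lit 93))))) (XT.nd (nat_lit 234) (nat_lit 304) (nat_lit 0) (XT.nd (nat_lit 78) (nat_lit 0) (nat_lit 0) (XT.lf (nat_lit 0) (nat_lit 18368356362) (nat_lit 1064) (nat_lit 16933786064) (nat_lit 1140) (nat_lit 14430971923) (nat_lit 135) (nat_lit 5) (nat_lit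 149) (nat_lit 5) (nat_lit 150) (nat_lit 5) (nat_lit 349) (nat_lit 339) (nat_lit 92)) (XT.nd (nat_lit 78) (nat_lit 0) (nat_lit 76) (XT.lf (nat_lit 76) (nat_lit 3505226958) (nat_lit 0) (nat_lit 16779902332) (nat_lit 1140) (nat_lit 30255339627) (nat_lit 136) (nat_lit 5) (nat_lit 135) (nat_lit 5) (nat_lit 150) (nat_lit 5) (nat_lit 350) (nat_lit 339) (nat_lit 91)) (XT.lf (nat_lit 0) (nat_lit 22453247488) (nat_lit 1064) (nat_lit 26486868222) (nat_lit 1140) (nat_lit 2426115960) (nat_lit 136) (nat_lit 5) (nat_lit 150) (nat_lit 5) (nat_lit 151) (nat_lit 5) (nat_lit 351) (nat_lit 339) (nat_lit 90)))) (XT.nd (nat_lit 39702) (nat_lit 380) (nat_lit 0) (XT.lf (nat_lit 0) (nat_lit 24851635387) (nat_lit 1064) (nat_lit 5488867857) (nat_lit 1140) (nat_lit 21871310004) (nat_lit 136) (nat_lit 5) (nat_lit 150) (nat_lit 5) (nat_lit 151) (nat_lit 5) (nat_lit 352) (nat_lit 339) (nat_lit 89)) (XT.nd (nat_lit 78) (nat_lit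 0) (nat_lit 0) (XT.lf (nat_lit 0) (nat_lit 4613446344) (nat_lit 1140) (nat_lit 8672556214) (nat_lit 1140) (nat_lit 8672556214) (nat_lit 131) (nat_lit 3) (nat_lit 146) (nat_lit 3) (nat_lit 146) (nat_lit 5) (nat_lit 340) (nat_lit 340) (nat_lit 100)) (XT.lf (nat_lit 76) (nat_lit 118105021) (nat_lit 0) (nat_lit 9278447814) (nat_lit 1140) (nat_lit 35178292587) (nat_lit 132) (nat_lit 5) (nat_lit 131) (nat_lit 3) (nat_lit 146) (nat_lit 5) (nat_lit 341) (nat_lit 340) (nat_lit 99))))))))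
noncomputable def xc255 : XT := (XT.nd (nat_lit 81354) (nat_lit 0) (nat_lit 0) (XT.nd (nat_lit 40638) (nat_lit 0) (nat_lit 0) (XT.nd (nat_lit 390) (nat_lit 76) (nat_lit 0) (XT.nd (nat_lit 156) (nat_lit 0) (nat_lit 0) (XT.nd (nat_lit 78) (nat_lit 0) (nat_lit 0) (XT.lf (nat_lit 0) (nat_lit 9829045707) (nat_lit 1064) (nat_lit 26870704875) (nat_lit 1140) (nat_lit 8544825826) (nat_lit 132) (nat_lit 5) (nat_lit 146) (nat_lit 5) (nat_lit 147) (nat_lit 5) (nat_lit 342) (nat_lit 340) (nat_lit 98)) (XT.lf (nat_lit 0) (nat_lit 10365237335) (nat_lit 1064) (nat_lit 8849598457) (nat_lit 1140) (nat_lit 26716845268) (nat_lit 132) (nat_lit 5) (nat_lit 146) (nat_lit 5) (nat_lit 147) (nat_lit 5) (nat_lit 343) (nat_lit 340) (nat_lit 97))) (XT.nd (nat_lit 78) (nat_lit 0) (nat_lit 76) (XT.lf (nat_lit 76) (nat_lit 9904793770) (nat_lit 0) (nat_lit 1106823287) (nat_lit 1140) (nat_lit 35624962078) (nat_lit 133) (nat_lit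 5) (nat_lit 132) (nat_lit 5) (nat_lit 147) (nat_lit 5) (nat_lit 344) (nat_lit 340) (nat_lit 96)) (XT.nd (nat_lit 78) (nat_lit 0) (nat_lit 0) (XT.lf (nat_lit 0) (nat_lit 11935206534) (nat_lit 1064) (nat_lit 18126909591) (nat_lit 1140) (nat_lit 17292776733) (nat_lit 133) (nat_lit 5) (nat_lit 147) (nat_lit 5) (nat_lit 148) (nat_lit 5) (nat_lit 345) (nat_lit 340) (nat_lit 95)) (XT.lf (nat_lit 76) (nat_lit 1044903222) (nat_lit 0) (nat_lit 11861556952) (nat_lit 1140) (nat_lit 35187700287) (nat_lit 134) (nat_lit 5) (nat_lit 133) (nat_lit 5) (nat_lit 148) (nat_lit 5) (nat_lit 346) (nat_lit 340) (nat_lit 94))))) (XT.nd (nat_lit 234) (nat_lit 228) (nat_lit 0) (XT.nd (nat_lit 78) (nat_lit 0) (nat_lit 0) (XT.lf (nat_lit 0) (nat_lit 14156874717) (nat_lit 1064) (nat_lit 27755327356) (nat_lit 1140) (nat_lit 6935906389) (nat_lit 134) (nat_lit 5) (nat_lit 148) (nat_lit 5) (nat_lit 149) (nat_lit 5) (nat_lit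 347) (nat_lit 340) (nat_lit 93)) (XT.nd (nat_lit 78) (nat_lit 0) (nat_lit 0) (XT.lf (nat_lit 0) (nat_lit 15561254208) (nat_lit 1064) (nat_lit 8000672767) (nat_lit 1140) (nat_lit 26059257332) (nat_lit 134) (nat_lit 5) (nat_lit 148) (nat_lit 5) (nat_lit 149) (nat_lit 5) (nat_lit 348) (nat_lit 340) (nat_lit 92)) (XT.lf (nat_lit 76) (nat_lit 12591697795) (nat_lit 0) (nat_lit 4536146542) (nat_lit 1140) (nat_lit 33286008609) (nat_lit 135) (nat_lit 5) (nat_lit 134) (nat_lit 5) (nat_lit 149) (nat_lit 5) (nat_lit 349) (nat_lit 340) (nat_lit 91)))) (XT.nd (nat_lit 78) (nat_lit 304) (nat_lit 0) (XT.lf (nat_lit 0) (nat_lit 18966858109) (nat_lit 1064) (nat_lit 17408263019) (nat_lit 1140) (nat_lit 14848420545) (nat_lit 135) (nat_lit 5) (nat_lit 149) (nat_lit 5) (nat_lit 150) (nat_lit 5) (nat_lit 350) (nat_lit 340) (nat_lit 90)) (XT.nd (nat_lit 39858) (nat_lit 304) (nat_lit 0) (XT.lf (nat_lit 76) (nat_lit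 3643591604) (nat_lit 0) (nat_lit 17296479765) (nat_lit 1140) (nat_lit 31115081547) (nat_lit 136) (nat_lit 5) (nat_lit 135) (nat_lit 5) (nat_lit 150) (nat_lit 5) (nat_lit 351) (nat_lit 340) (nat_lit 89)) (XT.lf (nat_lit 0) (nat_lit 4781681648) (nat_lit 1140) (nat_lit 8917324312) (nat_lit 1140) (nat_lit 8917324312) (nat_lit 131) (nat_lit 3) (nat_lit 146) (nat_lit 3) (nat_lit 146) (nat_lit 5) (nat_lit 341) (nat_lit 341) (nat_lit 98)))))) (XT.nd (nat_lit 390) (nat_lit 0) (nat_lit 0) (XT.nd (nat_lit 156) (nat_lit 0) (nat_lit 76) (XT.nd (nat_lit 78) (nat_lit 0) (nat_lit 76) (XT.lf (nat_lit 76) (nat_lit 152163220) (nat_lit 0) (nat_lit 9584505577) (nat_lit 1140) (nat_lit 36173500057) (nat_lit 132) (nat_lit 5) (nat_lit 131) (nat_lit 3) (nat_lit 146) (nat_lit 5) (nat_lit 342) (nat_lit 341) (nat_lit 97)) (XT.lf (nat_lit 0) (nat_lit 10180182191) (nat_lit 1064) (nat_lit 27645075255) (nat_lit 1140) (nat_lit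 8774798059) (nat_lit 132) (nat_lit 5) (nat_lit 146) (nat_lit 5) (nat_lit 147) (nat_lit 5) (nat_lit 343) (nat_lit 341) (nat_lit 96))) (XT.nd (nat_lit 78) (nat_lit 0) (nat_lit 0) (XT.lf (nat_lit 0) (nat_lit 10730820778) (nat_lit 1064) (nat_lit 9084260424) (nat_lit 1140) (nat_lit 27492746217) (nat_lit 132) (nat_lit 5) (nat_lit 146) (nat_lit 5) (nat_lit 147) (nat_lit 5) (nat_lit 344) (nat_lit 341) (nat_lit 95)) (XT.nd (nat_lit 78) (nat_lit 0) (nat_lit 76) (XT.lf (nat_lit 76) (nat_lit 10232461355) (nat_lit 0) (nat_lit 1162832892) (nat_lit 1140) (nat_lit 36638621933) (nat_lit 133) (nat_lit 5) (nat_lit 132) (nat_lit 5) (nat_lit 147) (nat_lit 5) (nat_lit 345) (nat_lit 341) (nat_lit 94)) (XT.lf (nat_lit 0) (nat_lit 12344825316) (nat_lit 1064) (nat_lit 18639160262) (nat_lit 1140) (nat_lit 17789851394) (nat_lit 133) (nat_lit 5) (nat_lit 147) (nat_lit 5) (nat_lit 148) (nat_lit 5) (nat_lit 346) (nat_lit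 341) (nat_lit 93))))) (XT.nd (nat_lit 234) (nat_lit 152) (nat_lit 0) (XT.nd (nat_lit 78) (nat_lit 0) (nat_lit 76) (XT.lf (nat_lit 76) (nat_lit 1107497557) (nat_lit 0) (nat_lit 12236517552) (nat_lit 1140) (nat_lit 36191308073) (nat_lit 134) (nat_lit 5) (nat_lit 133) (nat_lit 5) (nat_lit 148) (nat_lit 5) (nat_lit 347) (nat_lit 341) (nat_lit 92)) (XT.nd (nat_lit 78) (nat_lit 0) (nat_lit 0) (XT.lf (nat_lit 0) (nat_lit 14630296877) (nat_lit 1064) (nat_lit 28555857988) (nat_lit 1140) (nat_lit 7125788521) (nat_lit 134) (nat_lit 5) (nat_lit 148) (nat_lit 5) (nat_lit 149) (nat_lit 5) (nat_lit 348) (nat_lit 341) (nat_lit 91)) (XT.lf (nat_lit 0) (nat_lit 16075388843) (nat_lit 1064) (nat_lit 8209499562) (nat_lit 1140) (nat_lit 26823369947) (nat_lit 134) (nat_lit 5) (nat_lit 148) (nat_lit 5) (nat_lit 149) (nat_lit 5) (nat_lit 349) (nat_lit 341) (nat_lit 90)))) (XT.nd (nat_lit 78) (nat_lit 228) (nat_lit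 0) (XT.lf (nat_lit 76) (nat_lit 13000336299) (nat_lit 0) (nat_lit 4687559703) (nat_lit 1140) (nat_lit 34236847619) (nat_lit 135) (nat_lit 5) (nat_lit 134) (nat_lit 5) (nat_lit 149) (nat_lit 5) (nat_lit 350) (nat_lit 341) (nat_lit 89)) (XT.nd (nat_lit 39936) (nat_lit 304) (nat_lit 0) (XT.lf (nat_lit 0) (nat_lit 19580591023) (nat_lit 1064) (nat_lit 17898899422) (nat_lit 1140) (nat_lit 15279281272) (nat_lit 135) (nat_lit 5) (nat_lit 149) (nat_lit 5) (nat_lit 150) (nat_lit 5) (nat_lit 351) (nat_lit 341) (nat_lit 88)) (XT.lf (nat_lit 0) (nat_lit 4953251538) (nat_lit 1140) (nat_lit 9170319969) (nat_lit 1140) (nat_lit 9170319969) (nat_lit 131) (nat_lit 3) (nat_lit 146) (nat_lit 3) (nat_lit 146) (nat_lit 5) (nat_lit 342) (nat_lit 342) (nat_lit 96))))))) (XT.nd (nat_lit 40872) (nat_lit 0) (nat_lit 0) (XT.nd (nat_lit 390) (nat_lit 0) (nat_lit 0) (XT.nd (nat_lit 156) (nat_lit 0) (nat_lit 76) (XT.nd (nat_lit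 78) (nat_lit 0) (nat_lit 76) (XT.lf (nat_lit 76) (nat_lit 185491475) (nat_lit 0) (nat_lit 9898154732) (nat_lit 1140) (nat_lit 37202016108) (nat_lit 132) (nat_lit 5) (nat_lit 131) (nat_lit 3) (nat_lit 146) (nat_lit 5) (nat_lit 343) (nat_lit 342) (nat_lit 95)) (XT.lf (nat_lit 0) (nat_lit 10538622921) (nat_lit 1064) (nat_lit 28444499371) (nat_lit 1140) (nat_lit 9013183351) (nat_lit 132) (nat_lit 5) (nat_lit 146) (nat_lit 5) (nat_lit 147) (nat_lit 5) (nat_lit 344) (nat_lit 342) (nat_lit 94))) (XT.nd (nat_lit 78) (nat_lit 0) (nat_lit 0) (XT.lf (nat_lit 0) (nat_lit 11104235950) (nat_lit 1064) (nat_lit 9327731787) (nat_lit 1140) (nat_lit 28293393992) (nat_lit 132) (nat_lit 5) (nat_lit 146) (nat_lit 5) (nat_lit 147) (nat_lit 5) (nat_lit 345) (nat_lit 342) (nat_lit 93)) (XT.nd (nat_lit 78) (nat_lit 0) (nat_lit 76) (XT.lf (nat_lit 76) (nat_lit 10568206777) (nat_lit 0) (nat_lit 1219213691) (nat_lit 1140)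 (nat_lit 37685853917) (nat_lit 133) (nat_lit 5) (nat_lit 132) (nat_lit 5) (nat_lit 147) (nat_lit 5) (nat_lit 346) (nat_lit 342) (nat_lit 92)) (XT.lf (nat_lit 0) (nat_lit 12763772757) (nat_lit 1064) (nat_lit 19168589931) (nat_lit 1140) (nat_lit 18303084459) (nat_lit 133) (nat_lit 5) (nat_lit 147) (nat_lit 5) (nat_lit 148) (nat_lit 5) (nat_lit 347) (nat_lit 342) (nat_lit 91))))) (XT.nd (nat_lit 40248) (nat_lit 152) (nat_lit 0) (XT.nd (nat_lit 78) (nat_lit 0) (nat_lit 76) (XT.lf (nat_lit 76) (nat_lit 1170176003) (nat_lit 0) (nat_lit 12621629755) (nat_lit 1140) (nat_lit 37228010439) (nat_lit 134) (nat_lit 5) (nat_lit 133) (nat_lit 5) (nat_lit 148) (nat_lit 5) (nat_lit 348) (nat_lit 342) (nat_lit 90)) (XT.nd (nat_lit 78) (nat_lit 0) (nat_lit 0) (XT.lf (nat_lit 0) (nat_lit 15115125208) (nat_lit 1064) (nat_lit 29382248885) (nat_lit 1140) (nat_lit 7322411589) (nat_lit 134) (nat_lit 5) (nat_lit 148)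 (nat_lit 5) (nat_lit 149) (nat_lit 5) (nat_lit 349) (nat_lit 342) (nat_lit 89)) (XT.lf (nat_lit 0) (nat_lit 16602232474) (nat_lit 1064) (nat_lit 8426381790) (nat_lit 1140) (nat_lit 27611419989) (nat_lit 134) (nat_lit 5) (nat_lit 148) (nat_lit 5) (nat_lit 149) (nat_lit 5) (nat_lit 350) (nat_lit 342) (nat_lit 88)))) (XT.nd (nat_lit 78) (nat_lit 0) (nat_lit 0) (XT.lf (nat_lit 0) (nat_lit 5128354354) (nat_lit 1140) (nat_lit 9431739237) (nat_lit 1140) (nat_lit 9431739237) (nat_lit 131) (nat_lit 3) (nat_lit 146) (nat_lit 3) (nat_lit 146) (nat_lit 5) (nat_lit 343) (nat_lit 343) (nat_lit 94)) (XT.nd (nat_lit 78) (nat_lit 0) (nat_lit 76) (XT.lf (nat_lit 76) (nat_lit 218168444) (nat_lit 0) (nat_lit 10219714311) (nat_lit 1140) (nat_lit 38264641819) (nat_lit 132) (nat_lit 5) (nat_lit 131) (nat_lit 3) (nat_lit 146) (nat_lit 5) (nat_lit 344) (nat_lit 343) (nat_lit 93)) (XT.lf (nat_lit 0) (nat_lit 10904772432)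 (nat_lit 1064) (nat_lit 29269624207) (nat_lit 1140) (nat_lit 9260147190) (nat_lit 132) (nat_lit 5) (nat_lit 146) (nat_lit 5) (nat_lit 147) (nat_lit 5) (nat_lit 345) (nat_lit 343) (nat_lit 92)))))) (XT.nd (nat_lit 40638) (nat_lit 0) (nat_lit 0) (XT.nd (nat_lit 234) (nat_lit 76) (nat_lit 0) (XT.nd (nat_lit 78) (nat_lit 0) (nat_lit 0) (XT.lf (nat_lit 0) (nat_lit 11485897808) (nat_lit 1064) (nat_lit 9580175251) (nat_lit 1140) (nat_lit 29119446626) (nat_lit 132) (nat_lit 5) (nat_lit 146) (nat_lit 5) (nat_lit 147) (nat_lit 5) (nat_lit 346) (nat_lit 343) (nat_lit 91)) (XT.nd (nat_lit 78) (nat_lit 0) (nat_lit 76) (XT.lf (nat_lit 76) (nat_lit 10912372956) (nat_lit 0) (nat_lit 1276051966) (nat_lit 1140) (nat_lit 38767483665) (nat_lit 133) (nat_lit 5) (nat_lit 132) (nat_lit 5) (nat_lit 147) (nat_lit 5) (nat_lit 347) (nat_lit 343) (nat_lit 90)) (XT.lf (nat_lit 0) (nat_lit 13192498630) (nat_lit 1064) (nat_lit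 19715609983) (nat_lit 1140) (nat_lit 18832889146) (nat_lit 133) (nat_lit 5) (nat_lit 147) (nat_lit 5) (nat_lit 148) (nat_lit 5) (nat_lit 348) (nat_lit 343) (nat_lit 89)))) (XT.nd (nat_lit 40248) (nat_lit 152) (nat_lit 0) (XT.lf (nat_lit 76) (nat_lit 1233044050) (nat_lit 0) (nat_lit 13017261093) (nat_lit 1140) (nat_lit 38298628793) (nat_lit 134) (nat_lit 5) (nat_lit 133) (nat_lit 5) (nat_lit 148) (nat_lit 5) (nat_lit 349) (nat_lit 343) (nat_lit 88)) (XT.nd (nat_lit 78) (nat_lit 0) (nat_lit 0) (XT.lf (nat_lit 0) (nat_lit 5307188743) (nat_lit 1140) (nat_lit 9701786963) (nat_lit 1140) (nat_lit 9701786963) (nat_lit 131) (nat_lit 3) (nat_lit 146) (nat_lit 3) (nat_lit 146) (nat_lit 5) (nat_lit 344) (nat_lit 344) (nat_lit 92)) (XT.lf (nat_lit 76) (nat_lit 250269370) (nat_lit 0) (nat_lit 10549507680) (nat_lit 1140) (nat_lit 39362213675) (nat_lit 132) (nat_lit 5) (nat_lit 131) (nat_lit 3) (nat_lit 146)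 (nat_lit 5) (nat_lit 345) (nat_lit 344) (nat_lit 91))))) (XT.nd (nat_lit 40560) (nat_lit 76) (nat_lit 0) (XT.nd (nat_lit 78) (nat_lit 0) (nat_lit 0) (XT.lf (nat_lit 0) (nat_lit 11279036751) (nat_lit 1064) (nat_lit 30121122166) (nat_lit 1140) (nat_lit 9515865018) (nat_lit 132) (nat_lit 5) (nat_lit 146) (nat_lit 5) (nat_lit 147) (nat_lit 5) (nat_lit 346) (nat_lit 344) (nat_lit 90)) (XT.nd (nat_lit 78) (nat_lit 0) (nat_lit 0) (XT.lf (nat_lit 0) (nat_lit 11876223428) (nat_lit 1064) (nat_lit 9841764230) (nat_lit 1140) (nat_lit 29971586735) (nat_lit 132) (nat_lit 5) (nat_lit 146) (nat_lit 5) (nat_lit 147) (nat_lit 5) (nat_lit 347) (nat_lit 344) (nat_lit 89)) (XT.lf (nat_lit 76) (nat_lit 11265307323) (nat_lit 0) (nat_lit 1333432275) (nat_lit 1140) (nat_lit 39884371998) (nat_lit 133) (nat_lit 5) (nat_lit 132) (nat_lit 5) (nat_lit 147) (nat_lit 5) (nat_lit 348) (nat_lit 344) (nat_lit 88)))) (XT.nd (nat_lit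 78) (nat_lit 0) (nat_lit 0) (XT.lf (nat_lit 0) (nat_lit 5489953994) (nat_lit 1140) (nat_lit 9980676890) (nat_lit 1140) (nat_lit 9980676890) (nat_lit 131) (nat_lit 3) (nat_lit 146) (nat_lit 3) (nat_lit 146) (nat_lit 5) (nat_lit 345) (nat_lit 345) (nat_lit 90)) (XT.nd (nat_lit 78) (nat_lit 0) (nat_lit 76) (XT.lf (nat_lit 76) (nat_lit 281866311) (nat_lit 0) (nat_lit 10887862964) (nat_lit 1140) (nat_lit 40495603982) (nat_lit 132) (nat_lit 5) (nat_lit 131) (nat_lit 3) (nat_lit 146) (nat_lit 5) (nat_lit 346) (nat_lit 345) (nat_lit 89)) (XT.lf (nat_lit 0) (nat_lit 11661824053) (nat_lit 1064) (nat_lit 30999691483) (nat_lit 1140) (nat_lit 9780522240) (nat_lit 132) (nat_lit 5) (nat_lit 146) (nat_lit 5) (nat_lit 147) (nat_lit 5) (nat_lit 347) (nat_lit 345) (nat_lit 88))))))))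

set_option maxRecDepth 10000000 in
noncomputable def Tp : PT := (PT.nd (nat_lit 5454852) (PT.nd (nat_lit 4927884) (PT.nd (nat_lit 4481022) (PT.nd (nat_lit 4075344) (PT.nd (nat_lit 3791034) pc0 pc1) (PT.nd (nat_lit 243126) pc2 pc3)) (PT.nd (nat_lit 244062) (PT.nd (nat_lit 122148) pc4 pc5) (PT.nd (nat_lit 121212) pc6 pc7))) (PT.nd (nat_lit 284544) (PT.nd (nat_lit 162084) (PT.nd (nat_lit 81198) pc8 pc9) (PT.nd (nat_lit 80574) pc10 pc11)) (PT.nd (nat_lit 121758) (PT.nd (nat_lit 80106) pc12 pc13) (PT.nd (nat_lit 79404) pc14 pc15)))) (PT.nd (nat_lit 325104) (PT.nd (nat_lit 163644) (PT.nd (nat_lit 82056) (PT.nd (nat_lit 41106) pc16 pc17) (PT.nd (nat_lit 40794) pc18 pc19)) (PT.nd (nat_lit 81042) (PT.nd (nat_lit 40560) pc20 pc21) (PT.nd (nat_lit 40248) pc22 pc23))) (PT.nd (nat_lit 124176) (PT.nd (nat_lit 79794) (PT.nd (nat_lit 39936) pc24 pc25) (PT.nd (nat_lit 3276) pc26 pc27)) (PT.nd (nat_lit 158262)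 (PT.nd (nat_lit 77610) pc28 pc29) (PT.nd (nat_lit 85566) pc30 pc31)))))

set_option maxRecDepth 10000000 in
noncomputable def Tx : XT := (XT.nd (nat_lit 7752498) (nat_lit 0) (nat_lit 152) XT.nil (XT.nd (nat_lit 6294756) (nat_lit 0) (nat_lit 0) (XT.nd (nat_lit 3042780) (nat_lit 0) (nat_lit 304) (XT.nd (nat_lit 2108964) (nat_lit 0) (nat_lit 152) (XT.nd (nat_lit 1461252) (nat_lit 0) (nat_lit 0) (XT.nd (nat_lit 1014702) (nat_lit 0) (nat_lit 0) (XT.nd (nat_lit 690612) (nat_lit 0) (nat_lit 0) (XT.nd (nat_lit 486486) (nat_lit 0) (nat_lit 0) (XT.nd (nat_lit 324480) (nat_lit 0) (nat_lit 0) (XT.nd (nat_lit 203112) (nat_lit 0) (nat_lit 0) xc0 xc1) (XT.nd (nat_lit 81276) (nat_lit 0) (nat_lit 0) xc2 xc3)) (XT.nd (nat_lit 121524) (nat_lit 0) (nat_lit 0) (XT.nd (nat_lit 41808) (nat_lit 0) (nat_lit 0) xc4 xc5) (XT.nd (nat_lit 41340) (nat_lit 0) (nat_lit 0) xc6 xc7))) (XT.nd (nat_lit 200226) (nat_lit 0) (nat_lit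 0) (XT.nd (nat_lit 119184) (nat_lit 0) (nat_lit 0) (XT.nd (nat_lit 78468) (nat_lit 0) (nat_lit 0) xc8 xc9) (XT.nd (nat_lit 40560) (nat_lit 0) (nat_lit 0) xc10 xc11)) (XT.nd (nat_lit 43758) (nat_lit 0) (nat_lit 0) (XT.nd (nat_lit 40248) (nat_lit 0) (nat_lit 0) xc12 xc13) (XT.nd (nat_lit 40092) (nat_lit 0) (nat_lit 0) xc14 xc15)))) (XT.nd (nat_lit 243360) (nat_lit 0) (nat_lit 0) (XT.nd (nat_lit 122382) (nat_lit 0) (nat_lit 0) (XT.nd (nat_lit 79404) (nat_lit 0) (nat_lit 0) (XT.nd (nat_lit 39780) (nat_lit 0) (nat_lit 0) xc16 xc17) (XT.nd (nat_lit 39468) (nat_lit 0) (nat_lit 152) xc18 xc19)) (XT.nd (nat_lit 78468) (nat_lit 0) (nat_lit 0) (XT.nd (nat_lit 39312) (nat_lit 0) (nat_lit 0) xc20 xc21) (XT.nd (nat_lit 3432) (nat_lit 0) (nat_lit 0) xc22 xc23))) (XT.nd (nat_lit 119574) (nat_lit 0) (nat_lit 0) (XT.nd (nat_lit 42276) (nat_lit 0) (nat_lit 0) (XT.nd (nat_lit 38844) (nat_lit 0) (nat_lit 0) xc24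 xc25) (XT.nd (nat_lit 38688) (nat_lit 0) (nat_lit 0) xc26 xc27)) (XT.nd (nat_lit 41886) (nat_lit 0) (nat_lit 0) (XT.nd (nat_lit 3432) (nat_lit 152) (nat_lit 0) xc28 xc29) (XT.nd (nat_lit 38220) (nat_lit 0) (nat_lit 228) xc30 xc31))))) (XT.nd (nat_lit 361998) (nat_lit 0) (nat_lit 76) (XT.nd (nat_lit 199524) (nat_lit 0) (nat_lit 76) (XT.nd (nat_lit 82992) (nat_lit 0) (nat_lit 0) (XT.nd (nat_lit 41496) (nat_lit 0) (nat_lit 0) (XT.nd (nat_lit 38064) (nat_lit 0) (nat_lit 152) xc32 xc33) (XT.nd (nat_lit 37986) (nat_lit 0) (nat_lit 76) xc34 xc35)) (XT.nd (nat_lit 75504) (nat_lit 0) (nat_lit 76) (XT.nd (nat_lit 37830) (nat_lit 0) (nat_lit 0) xc36 xc37) (XT.nd (nat_lit 3432) (nat_lit 228) (nat_lit 0) xc38 xc39))) (XT.nd (nat_lit 81510) (nat_lit 0) (nat_lit 0) (XT.nd (nat_lit 40794) (nat_lit 0) (nat_lit 0) (XT.nd (nat_lit 3432) (nat_lit 152) (nat_lit 0) xc40 xc41) (XT.nd (nat_lit 3432) (nat_lit 152)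 (nat_lit 0) xc42 xc43)) (XT.nd (nat_lit 40560) (nat_lit 0) (nat_lit 0) (XT.nd (nat_lit 3432) (nat_lit 152) (nat_lit 0) xc44 xc45) (XT.nd (nat_lit 3432) (nat_lit 152) (nat_lit 0) xc46 xc47)))) (XT.nd (nat_lit 127140) (nat_lit 0) (nat_lit 76) (XT.nd (nat_lit 80262) (nat_lit 0) (nat_lit 76) (XT.nd (nat_lit 40170) (nat_lit 0) (nat_lit 76) (XT.nd (nat_lit 3432) (nat_lit 228) (nat_lit 0) xc48 xc49) (XT.nd (nat_lit 3432) (nat_lit 228) (nat_lit 0) xc50 xc51)) (XT.nd (nat_lit 39936) (nat_lit 0) (nat_lit 0) (XT.nd (nat_lit 3432) (nat_lit 304) (nat_lit 0) xc52 xc53) (XT.nd (nat_lit 3432) (nat_lit 608) (nat_lit 0) xc54 xc55))) (XT.nd (nat_lit 79482) (nat_lit 0) (nat_lit 0) (XT.nd (nat_lit 39780) (nat_lit 0) (nat_lit 0) (XT.nd (nat_lit 36348) (nat_lit 0) (nat_lit 76) xc56 xc57) (XT.nd (nat_lit 36192) (nat_lit 0) (nat_lit 152) xc58 xc59)) (XT.nd (nat_lit 39546) (nat_lit 0) (nat_lit 0) (XT.nd (nat_lit 36036)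 (nat_lit 0) (nat_lit 380) xc60 xc61) (XT.nd (nat_lit 36036) (nat_lit 0) (nat_lit 912) xc62 xc63)))))) (XT.nd (nat_lit 490074) (nat_lit 0) (nat_lit 76) (XT.nd (nat_lit 247650) (nat_lit 0) (nat_lit 0) (XT.nd (nat_lit 124488) (nat_lit 0) (nat_lit 0) (XT.nd (nat_lit 78546) (nat_lit 0) (nat_lit 0) (XT.nd (nat_lit 39312) (nat_lit 0) (nat_lit 0) (XT.nd (nat_lit 3432) (nat_lit 76) (nat_lit 0) xc64 xc65) (XT.nd (nat_lit 3432) (nat_lit 228) (nat_lit 0) xc66 xc67)) (XT.nd (nat_lit 39000) (nat_lit 0) (nat_lit 152) (XT.nd (nat_lit 3432) (nat_lit 608) (nat_lit 0) xc68 xc69) (XT.nd (nat_lit 3432) (nat_lit 1368) (nat_lit 0) xc70 xc71))) (XT.nd (nat_lit 77610) (nat_lit 0) (nat_lit 0) (XT.nd (nat_lit 38844) (nat_lit 0) (nat_lit 0) (XT.nd (nat_lit 35412) (nat_lit 0) (nat_lit 608) xc72 xc73) (XT.nd (nat_lit 35256) (nat_lit 0) (nat_lit 1748) xc74 xc75)) (XT.nd (nat_lit 38610) (nat_lit 0) (nat_lit 76) (XT.nd (nat_lit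 3432) (nat_lit 228) (nat_lit 0) xc76 xc77) (XT.nd (nat_lit 3432) (nat_lit 760) (nat_lit 0) xc78 xc79)))) (XT.nd (nat_lit 121836) (nat_lit 0) (nat_lit 76) (XT.nd (nat_lit 76752) (nat_lit 0) (nat_lit 76) (XT.nd (nat_lit 38376) (nat_lit 0) (nat_lit 76) (XT.nd (nat_lit 34944) (nat_lit 0) (nat_lit 380) xc80 xc81) (XT.nd (nat_lit 34866) (nat_lit 0) (nat_lit 1292) xc82 xc83)) (XT.nd (nat_lit 38142) (nat_lit 0) (nat_lit 0) (XT.nd (nat_lit 3432) (nat_lit 76) (nat_lit 0) xc84 xc85) (XT.nd (nat_lit 3432) (nat_lit 836) (nat_lit 0) xc86 xc87))) (XT.nd (nat_lit 75894) (nat_lit 0) (nat_lit 0) (XT.nd (nat_lit 37986) (nat_lit 0) (nat_lit 0) (XT.nd (nat_lit 34554) (nat_lit 0) (nat_lit 532) xc88 xc89) (XT.nd (nat_lit 34398) (nat_lit 0) (nat_lit 2356) xc90 xc91)) (XT.nd (nat_lit 37752) (nat_lit 0) (nat_lit 228) (XT.nd (nat_lit 3432) (nat_lit 304) (nat_lit 0) xc92 xc93) (XT.nd (nat_lit 3432) (nat_lit 1672) (nat_lit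 0) xc94 xc95))))) (XT.nd (nat_lit 237198) (nat_lit 0) (nat_lit 0) (XT.nd (nat_lit 119184) (nat_lit 0) (nat_lit 0) (XT.nd (nat_lit 74958) (nat_lit 0) (nat_lit 0) (XT.nd (nat_lit 37518) (nat_lit 0) (nat_lit 0) (XT.nd (nat_lit 34086) (nat_lit 0) (nat_lit 1444) xc96 xc97) (XT.nd (nat_lit 3432) (nat_lit 152) (nat_lit 0) xc98 xc99)) (XT.nd (nat_lit 6864) (nat_lit 152) (nat_lit 0) (XT.nd (nat_lit 3432) (nat_lit 1292) (nat_lit 0) xc100 xc101) (XT.nd (nat_lit 33852) (nat_lit 0) (nat_lit 1292) xc102 xc103))) (XT.nd (nat_lit 44070) (nat_lit 0) (nat_lit 0) (XT.nd (nat_lit 37128) (nat_lit 0) (nat_lit 152) (XT.nd (nat_lit 3432) (nat_lit 76) (nat_lit 0) xc104 xc105) (XT.nd (nat_lit 3432) (nat_lit 1292) (nat_lit 0) xc106 xc107)) (XT.nd (nat_lit 37050) (nat_lit 0) (nat_lit 0) (XT.nd (nat_lit 33540) (nat_lit 0) (nat_lit 1444) xc108 xc109) (XT.nd (nat_lit 3432) (nat_lit 228) (nat_lit 0) xc110 xc111)))) (XT.nd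 (nat_lit 87828) (nat_lit 0) (nat_lit 76) (XT.nd (nat_lit 43836) (nat_lit 0) (nat_lit 76) (XT.nd (nat_lit 6864) (nat_lit 228) (nat_lit 0) (XT.nd (nat_lit 3432) (nat_lit 1672) (nat_lit 0) xc112 xc113) (XT.nd (nat_lit 33462) (nat_lit 0) (nat_lit 2052) xc114 xc115)) (XT.nd (nat_lit 37050) (nat_lit 0) (nat_lit 228) (XT.nd (nat_lit 3432) (nat_lit 228) (nat_lit 0) xc116 xc117) (XT.nd (nat_lit 3432) (nat_lit 2052) (nat_lit 0) xc118 xc119))) (XT.nd (nat_lit 74412) (nat_lit 0) (nat_lit 0) (XT.nd (nat_lit 37128) (nat_lit 0) (nat_lit 0) (XT.nd (nat_lit 33696) (nat_lit 0) (nat_lit 2280) xc120 xc121) (XT.nd (nat_lit 3432) (nat_lit 228) (nat_lit 0) xc122 xc123)) (XT.nd (nat_lit 6942) (nat_lit 228) (nat_lit 0) (XT.nd (nat_lit 3432) (nat_lit 2052) (nat_lit 0) xc124 xc125) (XT.nd (nat_lit 33852) (nat_lit 0) (nat_lit 2204) xc126 xc127))))))) (XT.nd (nat_lit 1015872) (nat_lit 0) (nat_lit 684) (XT.nd (nat_lit 483834)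 (nat_lit 0) (nat_lit 228) (XT.nd (nat_lit 240084) (nat_lit 0) (nat_lit 152) (XT.nd (nat_lit 119574) (nat_lit 0) (nat_lit 76) (XT.nd (nat_lit 44382) (nat_lit 0) (nat_lit 76) (XT.nd (nat_lit 37440) (nat_lit 0) (nat_lit 228) (XT.nd (nat_lit 3432) (nat_lit 228) (nat_lit 0) xc128 xc129) (XT.nd (nat_lit 3432) (nat_lit 1748) (nat_lit 0) xc130 xc131)) (XT.nd (nat_lit 37518) (nat_lit 0) (nat_lit 0) (XT.nd (nat_lit 34086) (nat_lit 0) (nat_lit 1520) xc132 xc133) (XT.nd (nat_lit 3432) (nat_lit 76) (nat_lit 0) xc134 xc135))) (XT.nd (nat_lit 44616) (nat_lit 0) (nat_lit 76) (XT.nd (nat_lit 6864) (nat_lit 0) (nat_lit 0) (XT.nd (nat_lit 3432) (nat_lit 1292) (nat_lit 0) xc136 xc137) (XT.nd (nat_lit 34242) (nat_lit 0) (nat_lit 912) xc138 xc139)) (XT.nd (nat_lit 37908) (nat_lit 0) (nat_lit 0) (XT.nd (nat_lit 34398) (nat_lit 0) (nat_lit 3800) xc140 xc141) (XT.nd (nat_lit 3432) (nat_lit 608) (nat_lit 0) xc142 xc143))))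 (XT.nd (nat_lit 121368) (nat_lit 0) (nat_lit 0) (XT.nd (nat_lit 44928) (nat_lit 0) (nat_lit 0) (XT.nd (nat_lit 6864) (nat_lit 380) (nat_lit 0) (XT.nd (nat_lit 3432) (nat_lit 2432) (nat_lit 0) xc144 xc145) (XT.nd (nat_lit 34554) (nat_lit 0) (nat_lit 1824) xc146 xc147)) (XT.nd (nat_lit 38142) (nat_lit 0) (nat_lit 0) (XT.nd (nat_lit 3432) (nat_lit 76) (nat_lit 0) xc148 xc149) (XT.nd (nat_lit 3432) (nat_lit 1216) (nat_lit 0) xc150 xc151))) (XT.nd (nat_lit 45240) (nat_lit 0) (nat_lit 76) (XT.nd (nat_lit 6864) (nat_lit 684) (nat_lit 0) (XT.nd (nat_lit 3432) (nat_lit 3116) (nat_lit 0) xc152 xc153) (XT.nd (nat_lit 34866) (nat_lit 0) (nat_lit 2356) xc154 xc155)) (XT.nd (nat_lit 38532) (nat_lit 0) (nat_lit 0) (XT.nd (nat_lit 3432) (nat_lit 228) (nat_lit 0) xc156 xc157) (XT.nd (nat_lit 3432) (nat_lit 1140) (nat_lit 0) xc158 xc159))))) (XT.nd (nat_lit 247494) (nat_lit 0) (nat_lit 228) (XT.nd (nat_lit 123240)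 (nat_lit 0) (nat_lit 0) (XT.nd (nat_lit 45552) (nat_lit 0) (nat_lit 0) (XT.nd (nat_lit 6864) (nat_lit 456) (nat_lit 0) (XT.nd (nat_lit 3432) (nat_lit 2888) (nat_lit 0) xc160 xc161) (XT.nd (nat_lit 35178) (nat_lit 0) (nat_lit 1748) xc162 xc163)) (XT.nd (nat_lit 38766) (nat_lit 0) (nat_lit 0) (XT.nd (nat_lit 35334) (nat_lit 0) (nat_lit 4332) xc164 xc165) (XT.nd (nat_lit 3432) (nat_lit 608) (nat_lit 0) xc166 xc167))) (XT.nd (nat_lit 45864) (nat_lit 0) (nat_lit 228) (XT.nd (nat_lit 38922) (nat_lit 0) (nat_lit 760) (XT.nd (nat_lit 3432) (nat_lit 1976) (nat_lit 0) xc168 xc169) (XT.nd (nat_lit 3432) (nat_lit 3572) (nat_lit 0) xc170 xc171)) (XT.nd (nat_lit 39156) (nat_lit 0) (nat_lit 0) (XT.nd (nat_lit 35646) (nat_lit 0) (nat_lit 1520) xc172 xc173) (XT.nd (nat_lit 35724) (nat_lit 0) (nat_lit 3420) xc174 xc175)))) (XT.nd (nat_lit 125190) (nat_lit 0) (nat_lit 76) (XT.nd (nat_lit 78780) (nat_lit 0) (nat_lit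 76) (XT.nd (nat_lit 39312) (nat_lit 0) (nat_lit 0) (XT.nd (nat_lit 3432) (nat_lit 304) (nat_lit 0) xc176 xc177) (XT.nd (nat_lit 3432) (nat_lit 1064) (nat_lit 0) xc178 xc179)) (XT.nd (nat_lit 39468) (nat_lit 0) (nat_lit 456) (XT.nd (nat_lit 3432) (nat_lit 2204) (nat_lit 0) xc180 xc181) (XT.nd (nat_lit 3432) (nat_lit 3572) (nat_lit 0) xc182 xc183))) (XT.nd (nat_lit 79404) (nat_lit 0) (nat_lit 152) (XT.nd (nat_lit 39624) (nat_lit 0) (nat_lit 0) (XT.nd (nat_lit 36192) (nat_lit 0) (nat_lit 988) xc184 xc185) (XT.nd (nat_lit 36270) (nat_lit 0) (nat_lit 1976) xc186 xc187)) (XT.nd (nat_lit 39936) (nat_lit 0) (nat_lit 0) (XT.nd (nat_lit 36426) (nat_lit 0) (nat_lit 2888) xc188 xc189) (XT.nd (nat_lit 36504) (nat_lit 0) (nat_lit 3876) xc190 xc191)))))) (XT.nd (nat_lit 691080) (nat_lit 0) (nat_lit 1292) (XT.nd (nat_lit 324246) (nat_lit 0) (nat_lit 532) (XT.nd (nat_lit 161148) (nat_lit 0) (nat_lit 304) (XT.nd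 (nat_lit 80340) (nat_lit 0) (nat_lit 152) (XT.nd (nat_lit 40092) (nat_lit 0) (nat_lit 76) (XT.nd (nat_lit 3432) (nat_lit 304) (nat_lit 0) xc192 xc193) (XT.nd (nat_lit 3432) (nat_lit 608) (nat_lit 0) xc194 xc195)) (XT.nd (nat_lit 40326) (nat_lit 0) (nat_lit 0) (XT.nd (nat_lit 3432) (nat_lit 912) (nat_lit 0) xc196 xc197) (XT.nd (nat_lit 3432) (nat_lit 1140) (nat_lit 0) xc198 xc199))) (XT.nd (nat_lit 81276) (nat_lit 0) (nat_lit 0) (XT.nd (nat_lit 40560) (nat_lit 0) (nat_lit 0) (XT.nd (nat_lit 3432) (nat_lit 1216) (nat_lit 0) xc200 xc201) (XT.nd (nat_lit 3432) (nat_lit 1520) (nat_lit 0) xc202 xc203)) (XT.nd (nat_lit 40872) (nat_lit 0) (nat_lit 152) (XT.nd (nat_lit 3432) (nat_lit 1520) (nat_lit 0) xc204 xc205) (XT.nd (nat_lit 3432) (nat_lit 1064) (nat_lit 0) xc206 xc207)))) (XT.nd (nat_lit 164892) (nat_lit 0) (nat_lit 304) (XT.nd (nat_lit 82212) (nat_lit 0) (nat_lit 152) (XT.nd (nat_lit 41028) (nat_lit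 0) (nat_lit 0) (XT.nd (nat_lit 3432) (nat_lit 760) (nat_lit 0) xc208 xc209) (XT.nd (nat_lit 3432) (nat_lit 608) (nat_lit 0) xc210 xc211)) (XT.nd (nat_lit 41262) (nat_lit 0) (nat_lit 0) (XT.nd (nat_lit 3432) (nat_lit 0) (nat_lit 0) xc212 xc213) (XT.nd (nat_lit 37908) (nat_lit 0) (nat_lit 2204) xc214 xc215))) (XT.nd (nat_lit 83148) (nat_lit 0) (nat_lit 228) (XT.nd (nat_lit 41496) (nat_lit 0) (nat_lit 0) (XT.nd (nat_lit 38064) (nat_lit 0) (nat_lit 1216) xc216 xc217) (XT.nd (nat_lit 38142) (nat_lit 0) (nat_lit 304) xc218 xc219)) (XT.nd (nat_lit 76752) (nat_lit 0) (nat_lit 76) (XT.nd (nat_lit 38298) (nat_lit 0) (nat_lit 76) xc220 xc221) (XT.nd (nat_lit 3432) (nat_lit 1140) (nat_lit 0) xc222 xc223))))) (XT.nd (nat_lit 486954) (nat_lit 0) (nat_lit 1900) (XT.nd (nat_lit 205062) (nat_lit 0) (nat_lit 760) (XT.nd (nat_lit 119886) (nat_lit 0) (nat_lit 456) (XT.nd (nat_lit 42120) (nat_lit 0) (nat_lit 0)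 (XT.nd (nat_lit 38688) (nat_lit 0) (nat_lit 1900) xc224 xc225) (XT.nd (nat_lit 38766) (nat_lit 0) (nat_lit 228) xc226 xc227)) (XT.nd (nat_lit 42510) (nat_lit 0) (nat_lit 76) (XT.nd (nat_lit 3432) (nat_lit 2128) (nat_lit 0) xc228 xc229) (XT.nd (nat_lit 39156) (nat_lit 0) (nat_lit 1368) xc230 xc231))) (XT.nd (nat_lit 121914) (nat_lit 0) (nat_lit 532) (XT.nd (nat_lit 78780) (nat_lit 0) (nat_lit 228) (XT.nd (nat_lit 39312) (nat_lit 0) (nat_lit 0) xc232 xc233) (XT.nd (nat_lit 39624) (nat_lit 0) (nat_lit 1216) xc234 xc235)) (XT.nd (nat_lit 79716) (nat_lit 0) (nat_lit 304) (XT.nd (nat_lit 39780) (nat_lit 0) (nat_lit 76) xc236 xc237) (XT.nd (nat_lit 40014) (nat_lit 0) (nat_lit 304) xc238 xc239)))) (XT.nd (nat_lit 326196) (nat_lit 0) (nat_lit 2204) (XT.nd (nat_lit 124722) (nat_lit 0) (nat_lit 684) (XT.nd (nat_lit 80652) (nat_lit 0) (nat_lit 684) (XT.nd (nat_lit 40248) (nat_lit 0) (nat_lit 304) xc240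 xc241) (XT.nd (nat_lit 3432) (nat_lit 0) (nat_lit 0) xc242 xc243)) (XT.nd (nat_lit 119028) (nat_lit 0) (nat_lit 684) (XT.nd (nat_lit 78078) (nat_lit 0) (nat_lit 684) xc244 xc245) (XT.nd (nat_lit 41106) (nat_lit 0) (nat_lit 380) xc246 xc247))) (XT.nd (nat_lit 243516) (nat_lit 0) (nat_lit 1824) (XT.nd (nat_lit 121056) (nat_lit 0) (nat_lit 836) (XT.nd (nat_lit 41340) (nat_lit 0) (nat_lit 0) xc248 xc249) (XT.nd (nat_lit 41808) (nat_lit 0) (nat_lit 456) xc250 xc251)) (XT.nd (nat_lit 162864) (nat_lit 0) (nat_lit 1596) (XT.nd (nat_lit 81120) (nat_lit 0) (nat_lit 1064) xc252 xc253) (XT.nd (nat_lit 121836) (nat_lit 0) (nat_lit 0) xc254 xc255)))))))) XT.nil))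

set_option maxRecDepth 10000000 in
noncomputable def Te : XT := XT.nil

set_option maxRecDepth 10000000 in
noncomputable def Tz : ZL := (ZL.cons (nat_lit 76) (nat_lit 3) (nat_lit 81454604153308313713) (ZL.cons (nat_lit 152) (nat_lit 6) (nat_lit 160911772323768389178) (ZL.cons (nat_lit 228) (nat_lit 6) (nat_lit 158987441681680800076) (ZL.cons (nat_lit 304) (nat_lit 3) (nat_lit 79460955220090130015) (ZL.cons (nat_lit 380) (nat_lit 6) (nat_lit 157005381120330583298) (ZL.cons (nat_lit 456) (nat_lit 6) (nat_lit 155160509726949587420) (ZL.cons (nat_lit 532) (nat_lit 3) (nat_lit 77548443581192978154) (ZL.cons (nat_lit 608) (nat_lit 6) (nat_lit 153260292191767161666) (ZL.cons (nat_lit 684) (nat_lit 6) (nat_lit 151493991416752299450) (ZL.cons (nat_lit 760) (nat_lit 3) (nat_lit 75716110968296717147) (ZL.cons (nat_lit 836) (nat_lit 6) (nat_lit 149796441467732133376) (ZL.cons (nat_lit 912) (nat_lit 6)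 (nat_lit 149674701618486991370) (ZL.cons (nat_lit 988) (nat_lit 6) (nat_lit 147986195540082497164) (ZL.cons (nat_lit 1064) (nat_lit 3) (nat_lit 73963112585498110157) (ZL.cons (nat_lit 1140) (nat_lit 6) (nat_lit 146365228307719209886) (ZL.cons (nat_lit 1216) (nat_lit 6) (nat_lit 146247034279325868132) (ZL.cons (nat_lit 1292) (nat_lit 6) (nat_lit 144635661689298747140) (ZL.cons (nat_lit 1368) (nat_lit 3) (nat_lit 72288719014995841118) (ZL.cons (nat_lit 1444) (nat_lit 6) (nat_lit 143090699405447843348) (ZL.cons (nat_lit 1520) (nat_lit 6) (nat_lit 142975947921570812518) (ZL.cons (nat_lit 1596) (nat_lit 6) (nat_lit 141610797460729015190) (ZL.cons (nat_lit 1672) (nat_lit 6) (nat_lit 141441164593774347538) (ZL.cons (nat_lit 1748) (nat_lit 3) (nat_lit 70692318384602190806) (ZL.cons (nat_lit 1824) (nat_lit 6) (nat_lit 139971746973791591358) (ZL.cons (nat_lit 1900) (nat_lit 6) (nat_lit 139860337766143988610)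 (ZL.cons (nat_lit 1976) (nat_lit 6) (nat_lit 138566411104478869722) (ZL.cons (nat_lit 2052) (nat_lit 6) (nat_lit 138401719000639386564) (ZL.cons (nat_lit 2128) (nat_lit 3) (nat_lit 69173418808780874871) (ZL.cons (nat_lit 2204) (nat_lit 6) (nat_lit 137223929022455229766) (ZL.cons (nat_lit 2280) (nat_lit 6) (nat_lit 137007505951439163688) (ZL.cons (nat_lit 2356) (nat_lit 6) (nat_lit 136899341672169646456) (ZL.cons (nat_lit 2432) (nat_lit 6) (nat_lit 135676480374131397456) (ZL.cons (nat_lit 2508) (nat_lit 6) (nat_lit 135516585127685297304) (ZL.cons (nat_lit 2584) (nat_lit 3) (nat_lit 67731651115746708447) (ZL.cons (nat_lit 2660) (nat_lit 6) (nat_lit 134407479236658246130) (ZL.cons (nat_lit 2736) (nat_lit 6) (nat_lit 134197359750234881006) (ZL.cons (nat_lit 2812) (nat_lit 6) (nat_lit 134092345886866417676) (ZL.cons (nat_lit 2888) (nat_lit 6) (nat_lit 133199393703074344820) (ZL.cons (nat_lit 2964)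 (nat_lit 6) (nat_lit 132940512818614800112) (ZL.cons (nat_lit 3040) (nat_lit 6) (nat_lit 132785274715269071810) (ZL.cons (nat_lit 3116) (nat_lit 3) (nat_lit 66366771874046244445) (ZL.cons (nat_lit 3192) (nat_lit 6) (nat_lit 131744946117059561348) (ZL.cons (nat_lit 3268) (nat_lit 6) (nat_lit 131540946615677653462) (ZL.cons (nat_lit 3344) (nat_lit 6) (nat_lit 131438991408523805570) (ZL.cons (nat_lit 3420) (nat_lit 6) (nat_lit 130609614975635766934) (ZL.cons (nat_lit 3496) (nat_lit 6) (nat_lit 130358274311111937120) (ZL.cons (nat_lit 3572) (nat_lit 6) (nat_lit 130207557705921909644) (ZL.cons (nat_lit 3648) (nat_lit 3) (nat_lit 65078666732972322336) (ZL.cons (nat_lit 3724) (nat_lit 6) (nat_lit 129533527357423726176) (ZL.cons (nat_lit 3800) (nat_lit 6) (nat_lit 129236224398587350800) (ZL.cons (nat_lit 3876) (nat_lit 6) (nat_lit 129038166630255401396) (ZL.cons (nat_lit 3952) (nat_lit 6) (nat_lit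 128939180992241956840) (ZL.cons (nat_lit 4028) (nat_lit 6) (nat_lit 128173816446141494380) (ZL.cons (nat_lit 4104) (nat_lit 6) (nat_lit 127929796383496999414) (ZL.cons (nat_lit 4180) (nat_lit 6) (nat_lit 127783469582341632930) (ZL.cons (nat_lit 4256) (nat_lit 3) (nat_lit 63867354092152726673) (ZL.cons (nat_lit 4332) (nat_lit 6) (nat_lit 127170122136146017106) (ZL.cons (nat_lit 4408) (nat_lit 6) (nat_lit 126881478486790312862) (ZL.cons (nat_lit 4484) (nat_lit 6) (nat_lit 126689189391322400816) (ZL.cons (nat_lit 4560) (nat_lit 6) (nat_lit 126593086830144299304) (ZL.cons (nat_lit 4636) (nat_lit 6) (nat_lit 126224264454155291866) (ZL.cons (nat_lit 4712) (nat_lit 6) (nat_lit 125892296934206180550) (ZL.cons (nat_lit 4788) (nat_lit 6) (nat_lit 125655384252027059226) (ZL.cons (nat_lit 4864) (nat_lit 6) (nat_lit 125513319396536412152) (ZL.cons (nat_lit 4940) (nat_lit 3) (nat_lit 62732989116697245112)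 (ZL.cons (nat_lit 5016) (nat_lit 6) (nat_lit 124961387392349140624) (ZL.cons (nat_lit 5092) (nat_lit 6) (nat_lit 124681150839576612228) (ZL.cons (nat_lit 5168) (nat_lit 6) (nat_lit 124494462397374755876) (ZL.cons (nat_lit 5244) (nat_lit 6) (nat_lit 124401158939920288386) (ZL.cons (nat_lit 5320) (nat_lit 6) (nat_lit 124087936445114657800) (ZL.cons (nat_lit 5396) (nat_lit 6) (nat_lit 123765637882057268172) (ZL.cons (nat_lit 5472) (nat_lit 6) (nat_lit 123535625569262004748) (ZL.cons (nat_lit 5548) (nat_lit 6) (nat_lit 123397698525096327980) (ZL.cons (nat_lit 5624) (nat_lit 3) (nat_lit 61675868115391891209) (ZL.cons (nat_lit 5700) (nat_lit 6) (nat_lit 123271180882937187386) (ZL.cons (nat_lit 5776) (nat_lit 6) (nat_lit 122908045416690612096) (ZL.cons (nat_lit 5852) (nat_lit 6) (nat_lit 122635971093610487440) (ZL.cons (nat_lit 5928) (nat_lit 6) (nat_lit 122454720178851403600) (ZL.cons (nat_lit 6004)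 (nat_lit 6) (nat_lit 122364134297827648760) (ZL.cons (nat_lit 6080) (nat_lit 6) (nat_lit 122510407035908030626) (ZL.cons (nat_lit 6156) (nat_lit 6) (nat_lit 122107624090837003234) (ZL.cons (nat_lit 6232) (nat_lit 6) (nat_lit 121794712864567692916) (ZL.cons (nat_lit 6308) (nat_lit 6) (nat_lit 121571399939523747844) (ZL.cons (nat_lit 6384) (nat_lit 6) (nat_lit 121437490187906585932) (ZL.cons (nat_lit 6460) (nat_lit 3) (nat_lit 60696433300597688327) (ZL.cons (nat_lit 6536) (nat_lit 6) (nat_lit 121363674507221423868) (ZL.cons (nat_lit 6612) (nat_lit 6) (nat_lit 121011115802127661448) (ZL.cons (nat_lit 6688) (nat_lit 6) (nat_lit 120746965973894530714) (ZL.cons (nat_lit 6764) (nat_lit 6) (nat_lit 120570994211992507570) (ZL.cons (nat_lit 6840) (nat_lit 6) (nat_lit 120483046754687891220) (ZL.cons (nat_lit 6916) (nat_lit 6) (nat_lit 120675546612809646794) (ZL.cons (nat_lit 6992) (nat_lit 6) (nat_lit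 120284495209828066804) (ZL.cons (nat_lit 7068) (nat_lit 6) (nat_lit 119980697902770483968) (ZL.cons (nat_lit 7144) (nat_lit 6) (nat_lit 119763889237679275162) (ZL.cons (nat_lit 7220) (nat_lit 6) (nat_lit 119633879770089797580) (ZL.cons (nat_lit 7296) (nat_lit 3) (nat_lit 59795277949748195254) (ZL.cons (nat_lit 7372) (nat_lit 6) (nat_lit 120042639130800729680) (ZL.cons (nat_lit 7448) (nat_lit 6) (nat_lit 119614216176471753988) (ZL.cons (nat_lit 7524) (nat_lit 6) (nat_lit 119271926171526353582) (ZL.cons (nat_lit 7600) (nat_lit 6) (nat_lit 119015470027610692674) (ZL.cons (nat_lit 7676) (nat_lit 6) (nat_lit 118844623656832029430) (ZL.cons (nat_lit 7752) (nat_lit 6) (nat_lit 118759237775953761126) (ZL.cons (nat_lit 7828) (nat_lit 6) (nat_lit 119464399035239519108) (ZL.cons (nat_lit 7904) (nat_lit 6) (nat_lit 118999693021349965064) (ZL.cons (nat_lit 7980) (nat_lit 6) (nat_lit 118620031465057168956)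 (ZL.cons (nat_lit 8056) (nat_lit 6) (nat_lit 118325082623253690478) (ZL.cons (nat_lit 8132) (nat_lit 6) (nat_lit 118114588773650575132) (ZL.cons (nat_lit 8208) (nat_lit 6) (nat_lit 117988365989583121166) (ZL.cons (nat_lit 8284) (nat_lit 3) (nat_lit 58973151989649129967) (ZL.cons (nat_lit 8360) (nat_lit 6) (nat_lit 118940321067790087802) (ZL.cons (nat_lit 8436) (nat_lit 6) (nat_lit 118440388782482496524) (ZL.cons (nat_lit 8512) (nat_lit 6) (nat_lit 118024444166629122064) (ZL.cons (nat_lit 8588) (nat_lit 6) (nat_lit 117692123773478247884) (ZL.cons (nat_lit 8664) (nat_lit 6) (nat_lit 117443137225987314968) (ZL.cons (nat_lit 8740) (nat_lit 6) (nat_lit 117277266963095408900) (ZL.cons (nat_lit 8816) (nat_lit 6) (nat_lit 117194368049621362006) (ZL.cons (nat_lit 8892) (nat_lit 6) (nat_lit 117935814747427619514) (ZL.cons (nat_lit 8968) (nat_lit 6) (nat_lit 117484643860156207820) (ZL.cons (nat_lit 9044)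 (nat_lit 6) (nat_lit 117116040407444755288) (ZL.cons (nat_lit 9120) (nat_lit 6) (nat_lit 116829682308606426670) (ZL.cons (nat_lit 9196) (nat_lit 6) (nat_lit 116625319347826703032) (ZL.cons (nat_lit 9272) (nat_lit 6) (nat_lit 116502772955528204036) (ZL.cons (nat_lit 9348) (nat_lit 3) (nat_lit 58230968026169509187) (ZL.cons (nat_lit 9424) (nat_lit 6) (nat_lit 117485530026251790934) (ZL.cons (nat_lit 9500) (nat_lit 6) (nat_lit 117000158875467721732) (ZL.cons (nat_lit 9576) (nat_lit 6) (nat_lit 116596329151338231966) (ZL.cons (nat_lit 9652) (nat_lit 6) (nat_lit 116273687992939324996) (ZL.cons (nat_lit 9728) (nat_lit 6) (nat_lit 116031953480812205656) (ZL.cons (nat_lit 9804) (nat_lit 6) (nat_lit 115870914390625889090) (ZL.cons (nat_lit 9880) (nat_lit 6) (nat_lit 115790430008612251326) (ZL.cons (nat_lit 9956) (nat_lit 3) (nat_lit 57900137579438091228) (ZL.cons (nat_lit 10032) (nat_lit 6) (nat_lit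 115826486813082844396) (ZL.cons (nat_lit 10108) (nat_lit 6) (nat_lit 115905144679090001078) (ZL.cons (nat_lit 10184) (nat_lit 6) (nat_lit 116036317487071833516) (ZL.cons (nat_lit 10260) (nat_lit 6) (nat_lit 116220119854045024868) (ZL.cons (nat_lit 10336) (nat_lit 6) (nat_lit 116456712384019551702) (ZL.cons (nat_lit 10412) (nat_lit 6) (nat_lit 116746301808332284968) (ZL.cons (nat_lit 10488) (nat_lit 6) (nat_lit 117089141166286022202) (ZL.cons (nat_lit 10564) (nat_lit 6) (nat_lit 116570565876169275806) (ZL.cons (nat_lit 10640) (nat_lit 6) (nat_lit 116132535888527128532) (ZL.cons (nat_lit 10716) (nat_lit 6) (nat_lit 115774668458710184328) (ZL.cons (nat_lit 10792) (nat_lit 6) (nat_lit 115496650887022486636) (ZL.cons (nat_lit 10868) (nat_lit 6) (nat_lit 115298240245488774368) (ZL.cons (nat_lit 10944) (nat_lit 6) (nat_lit 115179263165587319034) (ZL.cons (nat_lit 11020) (nat_lit 3) (nat_lit 57569807843381433466)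 (ZL.cons (nat_lit 11096) (nat_lit 6) (nat_lit 115074828685432256164) (ZL.cons (nat_lit 11172) (nat_lit 6) (nat_lit 115128038343471779898) (ZL.cons (nat_lit 11248) (nat_lit 6) (nat_lit 115234504153426784230) (ZL.cons (nat_lit 11324) (nat_lit 6) (nat_lit 115394319143674899750) (ZL.cons (nat_lit 11400) (nat_lit 6) (nat_lit 115607622958382362672) (ZL.cons (nat_lit 11476) (nat_lit 6) (nat_lit 115874601979523189224) (ZL.cons (nat_lit 11552) (nat_lit 6) (nat_lit 116195489489737211202) (ZL.cons (nat_lit 11628) (nat_lit 6) (nat_lit 115724255362762386734) (ZL.cons (nat_lit 11704) (nat_lit 6) (nat_lit 115332187669432785022) (ZL.cons (nat_lit 11780) (nat_lit 6) (nat_lit 115018943826327050096) (ZL.cons (nat_lit 11856) (nat_lit 6) (nat_lit 114784250125232759476) (ZL.cons (nat_lit 11932) (nat_lit 6) (nat_lit 114627901493983908440) (ZL.cons (nat_lit 12008) (nat_lit 6) (nat_lit 114549761317271638768) (ZL.cons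 (nat_lit 12084) (nat_lit 3) (nat_lit 57198361687565125900) (ZL.cons (nat_lit 12160) (nat_lit 6) (nat_lit 114423721378963113594) (ZL.cons (nat_lit 12236) (nat_lit 6) (nat_lit 114504738980950484978) (ZL.cons (nat_lit 12312) (nat_lit 6) (nat_lit 114639846973171772392) (ZL.cons (nat_lit 12388) (nat_lit 6) (nat_lit 114829163411154159482) (ZL.cons (nat_lit 12464) (nat_lit 6) (nat_lit 115072853717027922122) (ZL.cons (nat_lit 12540) (nat_lit 6) (nat_lit 115371130824070037386) (ZL.cons (nat_lit 12616) (nat_lit 6) (nat_lit 114945858991407758480) (ZL.cons (nat_lit 12692) (nat_lit 6) (nat_lit 114598414884789366046) (ZL.cons (nat_lit 12768) (nat_lit 6) (nat_lit 114328494912277038192) (ZL.cons (nat_lit 12844) (nat_lit 6) (nat_lit 114135863221467608804) (ZL.cons (nat_lit 12920) (nat_lit 6) (nat_lit 114020351493407943430) (ZL.cons (nat_lit 12996) (nat_lit 3) (nat_lit 56990929397760062930) (ZL.cons (nat_lit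 13072) (nat_lit 6) (nat_lit 113791578362973654792) (ZL.cons (nat_lit 13148) (nat_lit 6) (nat_lit 113846384310754364236) (ZL.cons (nat_lit 13224) (nat_lit 6) (nat_lit 113956044095008018702) (ZL.cons (nat_lit 13300) (nat_lit 6) (nat_lit 114120653534963577686) (ZL.cons (nat_lit 13376) (nat_lit 6) (nat_lit 114340356464112264494) (ZL.cons (nat_lit 13452) (nat_lit 6) (nat_lit 114615344855887315846) (ZL.cons (nat_lit 13528) (nat_lit 6) (nat_lit 114234696609936246218) (ZL.cons (nat_lit 13604) (nat_lit 6) (nat_lit 113930576373911260856) (ZL.cons (nat_lit 13680) (nat_lit 6) (nat_lit 113702718411683794234) (ZL.cons (nat_lit 13756) (nat_lit 6) (nat_lit 113550923624063550508) (ZL.cons (nat_lit 13832) (nat_lit 6) (nat_lit 113475059374828337236) (ZL.cons (nat_lit 13908) (nat_lit 3) (nat_lit 56615528468764133531) (ZL.cons (nat_lit 13984) (nat_lit 6) (nat_lit 113258864881476114712) (ZL.cons (nat_lit 14060)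 (nat_lit 6) (nat_lit 113342313011523107238) (ZL.cons (nat_lit 14136) (nat_lit 6) (nat_lit 113481474243511033274) (ZL.cons (nat_lit 14212) (nat_lit 6) (nat_lit 113676470174632891976) (ZL.cons (nat_lit 14288) (nat_lit 6) (nat_lit 113927471189682867496) (ZL.cons (nat_lit 14364) (nat_lit 6) (nat_lit 113590146814325204940) (ZL.cons (nat_lit 14440) (nat_lit 6) (nat_lit 113328088588585080810) (ZL.cons (nat_lit 14516) (nat_lit 6) (nat_lit 113141067529546799850) (ZL.cons (nat_lit 14592) (nat_lit 6) (nat_lit 113028920220751008226) (ZL.cons (nat_lit 14668) (nat_lit 3) (nat_lit 56495774334701806262) (ZL.cons (nat_lit 14744) (nat_lit 6) (nat_lit 112741667326624134054) (ZL.cons (nat_lit 14820) (nat_lit 6) (nat_lit 112798117452838264786) (ZL.cons (nat_lit 14896) (nat_lit 6) (nat_lit 112911067030619528882) (ZL.cons (nat_lit 14972) (nat_lit 6) (nat_lit 113080614753773754636) (ZL.cons (nat_lit 15048) (nat_lit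 6) (nat_lit 113306908770796902050) (ZL.cons (nat_lit 15124) (nat_lit 6) (nat_lit 113011646405724100726) (ZL.cons (nat_lit 15200) (nat_lit 6) (nat_lit 112790425083173162258) (ZL.cons (nat_lit 15276) (nat_lit 6) (nat_lit 112643051502959333400) (ZL.cons (nat_lit 15352) (nat_lit 6) (nat_lit 112569396892051359346) (ZL.cons (nat_lit 15428) (nat_lit 3) (nat_lit 56147169863002431139) (ZL.cons (nat_lit 15504) (nat_lit 6) (nat_lit 112322981908271145360) (ZL.cons (nat_lit 15580) (nat_lit 6) (nat_lit 112408933482219547662) (ZL.cons (nat_lit 15656) (nat_lit 6) (nat_lit 112552269551167111476) (ZL.cons (nat_lit 15732) (nat_lit 6) (nat_lit 112753115360222625942) (ZL.cons (nat_lit 15808) (nat_lit 6) (nat_lit 112498689898339010280) (ZL.cons (nat_lit 15884) (nat_lit 6) (nat_lit 112317116054612523914) (ZL.cons (nat_lit 15960) (nat_lit 6) (nat_lit 112208235172286512626) (ZL.cons (nat_lit 16036) (nat_lit 3) (nat_lit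 56085976056362967137) (ZL.cons (nat_lit 16112) (nat_lit 6) (nat_lit 111916491210841059246) (ZL.cons (nat_lit 16188) (nat_lit 6) (nat_lit 111974634840841613898) (ZL.cons (nat_lit 16264) (nat_lit 6) (nat_lit 112090972905956315918) (ZL.cons (nat_lit 16340) (nat_lit 6) (nat_lit 112265607060805168444) (ZL.cons (nat_lit 16416) (nat_lit 6) (nat_lit 112050829077746004884) (ZL.cons (nat_lit 16492) (nat_lit 6) (nat_lit 111907747931907336088) (ZL.cons (nat_lit 16568) (nat_lit 6) (nat_lit 111836238600928720502) (ZL.cons (nat_lit 16644) (nat_lit 3) (nat_lit 55789145087250854158) (ZL.cons (nat_lit 16720) (nat_lit 6) (nat_lit 111607791622235979886) (ZL.cons (nat_lit 16796) (nat_lit 6) (nat_lit 111696321743402834256) (ZL.cons (nat_lit 16872) (nat_lit 6) (nat_lit 111843957894418824988) (ZL.cons (nat_lit 16948) (nat_lit 6) (nat_lit 111667672609247478998) (ZL.cons (nat_lit 17024) (nat_lit 6) (nat_lit 111561963014756205904)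 (ZL.cons (nat_lit 17100) (nat_lit 3) (nat_lit 55763368371669084335) (ZL.cons (nat_lit 17176) (nat_lit 6) (nat_lit 111308083283784446526) (ZL.cons (nat_lit 17252) (nat_lit 6) (nat_lit 111367971222685017814) (ZL.cons (nat_lit 17328) (nat_lit 6) (nat_lit 111487799429753160896) (ZL.cons (nat_lit 17404) (nat_lit 6) (nat_lit 111348885695929210608) (ZL.cons (nat_lit 17480) (nat_lit 6) (nat_lit 111279459160998515866) (ZL.cons (nat_lit 17556) (nat_lit 3) (nat_lit 55537623972207290219) (ZL.cons (nat_lit 17632) (nat_lit 6) (nat_lit 111105634435580880156) (ZL.cons (nat_lit 17708) (nat_lit 6) (nat_lit 111196820460382740156) (ZL.cons (nat_lit 17784) (nat_lit 6) (nat_lit 111094189786119368220) (ZL.cons (nat_lit 17860) (nat_lit 3) (nat_lit 55529994761303355356) (ZL.cons (nat_lit 17936) (nat_lit 6) (nat_lit 110909082155771592420) (ZL.cons (nat_lit 18012) (nat_lit 6) (nat_lit 110970766732839180850) (ZL.cons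 (nat_lit 18088) (nat_lit 6) (nat_lit 110903362329993846148) (ZL.cons (nat_lit 18164) (nat_lit 3) (nat_lit 55389071319273320818) (ZL.cons (nat_lit 18240) (nat_lit 6) (nat_lit 110809440724447930348) (ZL.cons (nat_lit 18316) (nat_lit 3) (nat_lit 55388118292557626577) (ZL.cons (nat_lit 18392) (nat_lit 6) (nat_lit 110712701470735637072) (ZL.cons (nat_lit 18468) (nat_lit 1) (nat_lit 18446744073709551617) ZL.nil)))))))))))))))))))))))))))))))))))))))))))))))))))))))))))))))))))))))))))))))))))))))))))))))))))))))))))))))))))))))))))))))))))))))))))))))))))))))))))))))))))))))))))))))))))))))))))))))))))))))))))))))))))))))))))))))))))))))))))))))))))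

noncomputable def vl : XL := ⟨(nat_lit 0), (nat_lit 76), (nat_lit 176756743), (nat_lit 152), (nat_lit 279802221), (nat_lit 152), (nat_lit 279802221), (nat_lit 1), (nat_lit 4), (nat_lit 2), (nat_lit 5), (nat_lit 2), (nat_lit 4), (nat_lit 0), (nat_lit 0), (nat_lit 0)⟩

noncomputable def cp0 : Nat := (nat_lit 43163136082491839315492849174561972207990690430951315893976180424871096382278188966041444163788230565991649616069096343191975181215141984386761684318865706109482577616383201161987539312256585369470009068225689857676630431289502865978383197990618843483045802453564032887108954932798111155937982186178116945568694827393994770572977098984605735177622215050864374486643228839761678103504462797279553915677755332734157883666720410645886964345818544062668836638130445774518688808413157725903923040192864079443913485416523661210051961640389641390037274566068914896463301587173625062139776972526159617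908856025286016202931135408393226324137133303668242491523249505094256730366805583615102796569775887332771828911195450514405793511023910623732655890073547787946397650668203009188125661464901810137073776286673221401936793930129858335260854568987815912672132660165818233333220156551845239007001371836378163845279436321889554862387258952204726007028114286511932357373087882879423772441174356245790898056939354803871983350415772530289407638677591403409237631146220427895184247666688749498221020440776379396879843299601580763310817307653432534079983546603425054728714245542201686585895027431797164472564696757380454552790119623819628673407546220414730391200475369761275602849067677645906640986505612067933152419501105429264511042888781300811851868334130979981356972750543503447770031593540051377081855861472058485878398891093786841475168182629218056308446533050002220700930532599591224695695614283913902024478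563814687665356512831581759041872045224544135202811008624749503089052613995146317773648221256913204875113932685882955177465793516544756309160284726709865260206387332479057168653147831787368395162265406846351573228239907581822646031281656894260955101256826216773336112527517111544448933612198243748170977727306072540664423421182714872677298661765168424761113904264102158675315741361850787128281156982036696616612694772272619806130051975812432300347032628203560263661849329121479187799598446250835951515067361015521990442855552269605642202660487981678168808180087113521368264582694126756162880427081588587749394290256227175510578630677283407352428301650949650934279901484116933996387198418114217733236048495649208498494043815252198987922104471105391997133126082148845456774245336636188034806444832065446238768503426385826555579638083636468970824173088950888748881816525029321492874440891988509010221949029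133733070337781366651939922630643412243148347395691546921390889522883477486834812831071908947479485375814899539823635671700392034219485218107077388497770314149478293900158016756430804529961806775932484341391923566762644379611923554851388036927881758545876424569245532961809126647842554800201739597153474480408788019251131265177305953343877215960467379479502185168110564455426789263270679018600156206615226951294865367222101744913732915506191254041344571483412986026142661613822480529419936259972817489148431767931613396272206087385098490123025841546155416005449465179107560642153852517219511046751594610202131314036178311813889258305741312898685887411237122008137674289707570686836650795401300641218944499934178541166222370899901407540394510237373137683949882232124722147062702546319257783810556885398913082685862135743466752686470468206595660319171936288606439302253665909244103253434609077091667888309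976932730013000948684979445677991616050664985881691546010142123532391293397466824799299029034471168605080736725926371313172955093313817062637362146546171136072938156589263592252052418476930377257253090372376356523692814731041470454547489518105473918461087335662479510650504424746036342382470519242868471130439865388372285254508284100480424987334124868350938850527485360847385887970345199962949291408395278083806453512508957149492517745432518095074059764206696566300740314020153268499369444465476099858421318994337834483993547858720583673080194159800943687617830292680458489112686707352315806489494291309485585457736192688680109490626661115289316602783049163723829521558603432628377410757929374312222206454984485145297955725220985718846567433097901442168698209397059528142677604176303708676363603875723041788710638919252647940500631232831965937794529830389223369787364254148226091772704730169500809725957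694753950496328673158866248487753821961502980511667985228891059786811154003304457969527871143217333199061285152917976976998348710487030236469256751573534940043818003074688300314362062468631677106110517598749464793811958142501530538974965362840792063621502065002183714015702557710360285157073354113063645635168646752860609831225408519486775854244850170685104168803887582480968427549877236123970137922136778543790168673917203800496594646992421793935170389022263954683822020597732081782094999727602596912672859467085197830825327969586702839977892000960015543491628105502248785376120194247034975060782427220116490036603723754252859391312044914307907576340964150106946826452857878895645853995915630007786127091789208384570157929583659382599875262193784628070735882705912132714652104111591180530017143161081896701050458000208700032216387191157948005327544459284704963097710415099473143607645659835943884890053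35249989279619226041187680853458205676733347888506814641239614506097011154596498107567646241944505139791950095683733620540440065610060184030397884692467264297755800420191802334757276415647618439569219655904350457283208587848586011246695897804159585453605783722667770117753043936816831661206128663162243636247314929465256392388464471783027935804616129572402204573605781957567420447113045455489280829555824475837995363649217630267913242213458395818106826324280170445275136)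

noncomputable def cp1 : Nat := (nat_lit 606084834055430175978698321101768305767664616680771323175292561895214503755136753399389648691584429933279986030302554348941622546123278349823036144242767370576272885679579474041736198642589887040864442627511613161536774303155150019171311021215531942882088538644073880707857204785943041872817274086237165351414075917845298864435747676898783504517638248646818451885378318400338262510318827674389393965182660378306454478586164051152489854634424564310329336367188459194603163590553492207037120605292768496763007833566587802315335178283682802854042860606886800536327255774401652071927247896246943668192815039498994476895521669211450081566668169505448731756136515739598833778145664348082137400615664577572023748010908095056876466229528799803605242025978723770636830808403347533650613970731619886666648750396042936493010408461819341498894482627523622490977825761554925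980669777008977501559360047447643672282676808060919522630953953795476390896329654430367462221156232276539343732123438548756405879451687976245447647784309489254649555412924685225361782932584643669636855533708878058109813923983118185850770106588546354381240594600704182363640490427304874861769082975490904005946020172558150289910736115444148578526102542705225586910777258265324425616796361271914752863042513248317243702915081192509716592060407415481579316775450158459922008228900616869094065709781252354643021157448738961550357539261719825565209164480969443426619096091532647111539748942370103206259866344253163536945896995628132317213770993036941891052402475979284928911638468675357884395010787345225737628383900513583165435678447420047347903526402913867470292408620055730222223261660215249596042724974991540452574694276563529604455242595483713114044901372409418170604703344298806677869037592492210729845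652668439740612416892735111775537598781097933431110792536448011434220969898642860748303373683695631006498589809069485638547370980348238490071496177940811072635280933965779300712992563899552436314449510169749110531214058398249211972367888712244481081338514678868670697381643837525016802879838722563106440068780312443791997941430023011109211012047066473963563101581742995803459640947343790310855136166164994256390208301691228276088050758988278151314871575548336167308033555937234932049505157533818683588264591489707957383252254648208914775228403235717597083816694564478666622919364413099494989502720645693388445800635286543846334235120686241173866795595114596029474241645209843212600761137038171727679336926044492423185497476982546160722360195358438823602805525004899143018773972318511713420892973254542732053265957528016881067975662329543778499674007958825859855720612525528550176780971492076018458123967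260802838661433123229111206114272084691932907864691142446870463508470830328572987412561831690404247949649658188371162012736636597874136477649512080812233688290007177374850490494528916420661570079850794890734725911267200201184116964752212666166910811057530208899143905896283707323370169988811929814495149946398427245275777904288617275813144073771194313375535836067677070346348639068647372347422896074222164549455827055671627288748696126974734002184653689363518687237448600929691763165755502113166099217709076611018324702833011866963809616411524879264950517389489208453262471182563968968111887815079975665319846573844276802436369967602596473160481531561251254259839670658841680302209022086283845757631653134507116630246337660523188024716538069860985137290806586427052765381698536041454538543118179648738317674371671295188007665948223703562048490289794212976804413608544624109573218002075356069850110226499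954428916420736748925564679626579041147732836954486825923473104771917022295443333638561391105723702154639140837691418737254483840928984092198816443414023606725698481980904812330617721255294628115724677429280058138136236763508345752616117261028849505099475261870321832632580663206147471970268929975193579677284283654331266268609489623127755601422336375604696598080253874168974431068369938776243109560901087998983784708279995571770565068506916443710657760000011405936863476989623813501911925930192034739470299904233720773988847224935168528764013982126312766191820607320199833835865993169918324905302727027832587771322746558714207164395146304543973281635854875636512540490008439949377336617052667140224952283732199099447340200721648096365440844761037576910024745958350337561345241174149164020555089816435696884240883793965278730194991559081922368635006509443045643550745975652956792742742895114111827608579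5276744532451645646204786274168972741187614321440708737915141484617918716241602018750059991453065539292125026722817006234286516120077925844928188983069548515647899421584884629515137993649250396001971998516425555400672233454651084676469370080151154785197082667508980682948851114559610299977389889512583137314191325698947023910314576917544839935459264828332500490450939084270653924634958932203149075150646357659045781233878394837451665446374480339145678284536958216594298860703708498598204263962051732965892355030733183073974105472862122830466839146390248002641105219578446041070247811743202516554415053591386484304247381297828080589268675730134704941662509108771662519651947082798688267418694078004684917829848051561332429217756634835274935293161814097237728960822523943161668727146483808909636330881992516117021356904265349328231196979726300391983595070145918555484146993189995104895625833646251175664121142272980500060035033754867617420550554181672667271955604371838040078459215065558894901030331418214760554131663246898387028677923871625473836881451894971516180655380770470338816481887702020026921910272)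

noncomputable def rc0 : Nat := (nat_lit 424167902249485447306000307215547652800060818731645613235983083028143394633834820292993945241099143491059105567366540245572545750471753495850863220010249536797932383801797371676454348702053350331871238269273507079716157811864597937158948658321214528370510564996476853579731129215168759263068413085583894693214209366868603178860421969602158405526245847266239669095952968019075174694209989435575274122251667575127370054522873766001318324142933366866577446863558610271803046766765567816490216090542563639507290842603221423925514683555236315343616258471101385603389195707245040958691193610003246275492365037205079641555160361652371310784174253752404350662315271182668387142272612852501163984904094546619495506508515440085035936316113637215039178458025604819117273267466990353717430215475410575640451278806133627665571283594084823608541947337050444485877542685033873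596665403162521873782536104641260404792059980574583952559170022713760382206075854832856205182880567368426934371572818831170701360244251877683677554177419796590320729941250852674884510488164855009502393964167634626877432498426334619373279907464358949131452969528367835334890514971427529057987717956068589393890208834806781287732686260931366407342400231740400348226565789178255178093599552542399235539701507323431867446286633990724472268343995277946179789680766330078933032071465593067929147371011097755330120439590567227966672863350398032896519648608248569264367985951891547085770469456806432718641219127822050802018946944660129885606814321198535995657281678537050898725742862408527137158658180035414156478179013048752482991915353731630343855756187312383833896922225859540418854234645663577448117218281291688681820374348292749784406492331429080021490358991756981070304634032590362786479234054396380771358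789593554157806818781156365180171641104967739412469721073505849545298781074291582773718270293500435526162899019395752007250638618273898671899980369078305970736477363731424911612416076507870191846939471551181299680809811479454898584553121840846424139995930437830952183123998028124548866766544328645651122859021605244932621274265036682612706994755965987792696442985350013207808166388364006210554954579472307641399418240985297934092352093031121890501187084498303796295057372904995773093309749066640632348338550798120506752178586340143814542698924695691269410333313663643671459501999786551981921724826237389680011467329984168735839451798287745775337576671895735707877960291262467260285126661950781007652146189239493396439251607298912766903493753611192761440822280387852569530797163338344994000036524963348922789542869201268827372029740775924817364420405031043191612795012054043078952027207528870523143429596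408891684705276891238812096365570541611276140671876674595640719744600568529406156137249890809715450062752674008203225487036534839475000150228364240027957620662369726920194677717100006631880327497736994737775887076653458920990039147637721853036157863154256014682011584477581624650848869021511569557986257990342615668254968767274373399014786725579123671342975736463931006354204953814498559611410368522889280588465582092126031640081312273037997317834876481888081508921727863444261841782699766650864390061105240757575725795510975412315167388495622235089809648834514533836102561545298376474117085554227738139260304146250440491458078735908909506307760543449014344958582613265068709059579084415236835999724576141329405490995509168739332258379780343705536137186114532341283887695792292712128862878159263487596707951150996084434375457153230519607702382658200520490914760233528536493016237430579873574897187160047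804823981791650183434422850529895524117930181318594318324067020677842634533142695437181874610547843438474392916930166625899352206856421458234459710026302970725878435629987848971803531708695604322349760202685376216821161995724847920609055933356916591367802220023526290878095966261436074865906276416373521734914630714110265006048493076320079140393829520363582461551003705981505417688215150510782454578599596497890340158359441072266991126007683975350939818637385274328526868786784371259091572586553725748885749565588761173900390987093704011275268523012601242815497352840981987447442943366065512832101370886590406856415577029286317260322209452019950591879313374604772133290373651943680778119717510627768537357628370224334549096191255247921104650333989989176391501746746677389595960694835761070499794407084385992365416676217198461569813229721567254633833804566479666114876436501046750811574821981237801234316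5375268939031537057946696507802721420157820811072097593461841470843823108158414845747745785771734646029159791839686047203876988522773914481687665520940584895727323931082139090581441031230906235041144429867279588905769416505156201947706618475830358510994333805874655060481843537518587900095730948459911730789934880360647628130569797399328276897601800588476068879381878049175649482662389690436004572250212959737763768004838361106026803241797671938123742278908691717110257236124313820792986446121288584568561630956206428086022132985281331705272180369533756152856017991354672586625357924005549331917187524922142050731825888334444361660530940242152425169716800445635938385107756924625407393092331313019336576420862667353495171171706183713472618686170235410131003692404446047890167769487323932261971610963534601698760671435482708582510992026002115475426101476134279532114044462477970419176034105257551310390178052744424268622766400852653963623242700989706387407915811561089759145050581150779536882333506688708995783165960037717028936750572727515109129117026851248875602255575791421797288060366918245324131663872)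

noncomputable def rc1 : Nat := (nat_lit 447338926202917382934063916673190068999801033044395176638232858218365436106033324831153672857583024582956271417650436756499928690771713412781853742121308797943801960530333037800843671200450707134908211916302993268852675919980817072624492244414165012829076640443824792316797991692793294671729821461205450989858246811795913218347393815558031785797375196305949629082172937943591247448209844781263793117855415209760734952457276011975288489699697808436646935556578394698140646994227468274180118804874649819269215418798339988632718671486728260806500712664910571055768701250721431169861915976727845603442647340939979921590812277490795626943819690237933161127817914163844697879238475851713244639278964286466380969412749278759351195430705849315946869354739238910246412501030995629361367445910592935653770788416998343672261369067485724811542150605134445013872993629541461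387719558346072250195813211690028641642819893636344052378620127043001349396987345908561718805016582623672540331196016983320361659013839314252808898385148801301918397264383154145960688428377767707576946279440258207906254234769508314075618715517448032625371243552365865021764842070331619449198942087363406299460007130377975235260129904585387187419107842662256126472356669532232970425854912993720573514297635643814035740881809388231044661010294516571615044717214960492874765481834002525243334469213281781316928185179280354498787921136986329215195040879139206744821112350958616188593526335326336177215607351862651381318830422899279332094898321688692531174470113195554802654448773744459508673547080776494036631449407464629886345170374794464532563562491995943530274617928304718276107432336184817481925497544476369384339263435175258016906797580730689362935389145288423119489104255646449943227805752863856157309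942650426008992657079317990351918467967241944897977461745694077271568305894573362178960429793389905852169865272090502344183075783871415546463225165052926445050996849823667365459010361727518856864292257359267305545163979625928190162537838722584790497604462510694318448761593619224562111225304859064338262216961096745059557120562687268159358504270216863564309697985405192920999768534672726488177793073613671314754391803130999260396372449938134349022755328026767867717867300860097604053657830824438024817995929380307001367973950429145492034245217336477717916567616419086263230774471847828195411512316260700748656173377681620064714510615662083980016825002747891031993654450861170153540667009287463519539139807913865128333564906721585760932123924835605298188124044213355570075396086705687744659893106488364373370726909099972609311916139080253011644675409483075009889637828213269271240909310966121442302313856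275375388438660957362582529691161573196568725269019458657385497612902708100742611174783794951478152931745776414320598880218306186137756672400047753343155459248449423353150402181578085874035539104631988957576041595326525026882800969643265699359102642100600477461226683364227006054760480979045121879880145938035579512651100067376973039855227802871726400168263335039038046646816409165838715497617547473236748685025472228151775093214476471609170062737563647930724588680075229597112697479399162091600350477980433074112990017981447088748484347776681330601256172434360812631815271507274220474116001904958502556753881044899140055793933413398630013365058496377098067595542842421475777530237947491452766443782991054149372788511725972172207981255726721144755025222327158911862351371991732788062797708371697785830176961595800425213316033922707851841597471571684280246412780620377831702866668459360169227332981573535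856481428525250072445103934027251803696180277560456080986408568711490536037753566295246703687071008612853679700453171542069193470310714066742144070119698320272825862463125067407019387067756055831036304225052245080561485905042333800023109183826405618136491881992577525707486925631590678437460393059579251531969219551940987094427781484335411253655313586421555848529849315905491551617446267435744510320252730783921493152814861251015808180526409977515509223831661197119723084551372994965180997046142548679876146759676248857015528744804603917324856432707071800144731979291112527666567186300447213477649815870001504577701664770006765236771326440189627014736230604031650768012056945439636369384212572861788780077879679044987558964284424155610362752706350170167117245832907524752909345508531388940866931532310023833394130617691304221280347872328361303320204024445237758104110843254896918357953976065313402732805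7717983779322333007143960846979914383967783834387652315991121717922516500985762737538324161807519524663334557391696781497244841912196237041079151461914552068726285999421189432334355061799577195195479755007420956600978984161477913426099362710107615173733743456998769688422708368271493507571533532656953456106055121099030363051722672487414057732418089454212754181694455741728888680906183178996576366222972160083253816885825539994851435747353826986155648018700927119558132950904120280255827375661575650023064776010407069231157037310081014425225704052211211565436548159038365677232614034863167248362529167483639396452567720217208921444977142338942387478218869751383369681560655704321639794143200245136592816524507704057189449732375136417762878966971302831532273337016520142644275180006941825385397116657207720339066125700800790931299060417569670248883879033543238717330439003298860114441813895801843686690187312817223899610707747326473106019371736509009429698726054124253983744429757725273038879580653855302692890311449549527448296320303118182814146528533020324215475701366955948013412569295176926283209637888)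

noncomputable def rc2 : Nat := (nat_lit 470517491096819595202846472972684012042087189172122380860118673522636899031049411439721425348609735750757490022553581995075028624382427350444430389686420668004572207083945566794117085216971277915532648503339980533999532173177829896900189763910145400634593335115527351131746709228202608612645286825754033982006816393184681903026011139441760925446853462771149522821422901786738784722063971819621778336478948314280268904766348435107961602820585266975998988553962279565106744202234240705547604930315162471085322947401546001065184954495944313089625358944639727659109675846830358233546717890995749187755346389349872530539068200910424369950494883060931040141594225496126102805324593389594915153968037144990226500433929274907824069144984645786852753027912461964501786984398968892966631269730911167033747083462154890103994319649877884459835340780177880356933782225565586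295558054384876877247005373388189358290559941377005883704430798584140135014164991145041638825315137928530870122995287244552360372830189796102798595930799494778424627471496577190062775078697226608512112632611765779446671235376994654884053412469310241084415439403767579439792537452733644854235450918114304410205611725040666172557671495998882988238105839870163265087941178882670959329939835409874280379649109258524627019522782350274223556475630017207707226313950215605657197347374345208839189353800915515920746523878684235260152683424710320339932391473835611419475688549066068839882049486404886478005438072083056481425899129698215371180283919069571145000893336171468251645281880216070237620777019213288472973070445719642181256024763571881212346299318725802600931336117015891393418901319220623860094482516005974846815684054473627757510761935875806340242069243873455542968049771394646262798089132874744322689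925270144874161066841023111442010380598890962589555850973263927644623724856686481209124958193460248844980466701157587575059534290299035839801424195782268395437336396018225268283219972301317762167262981804609134759914130345472693272131693284616685196923662809423043949947242696093825917119213484842824158011155438393088447714438256883601776370410452146322728979978652638027642449419208712135929060784561320168702152234333061785229643474006038402409767966408706071489779438389284696944670072214368350457488854833035630311655537203778036570908680507002332271644574806915311097847397666814821878561116203062815559442616340303320840091388052005053457634374120271305069492023842418219523064833632504547709411976867140636804992441938812801370069209295045754423535034790048095537889980496084988552479878936986342779261244571473911331737531100939425037936273086110527409407355832876235303162020742218540143869505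436815382636048455908092563190662884187329534540110980511647242234339873027079008797301783818425251524087471303878316951766618265792516461766770949723914851102266112724881368950649912992186592551448874397643681130542274251593925823860732723783808685328982138884853985976391348694001971368500855802672339339084116175325116717888128154379583363236267012166156198972231391258752902049705522673890745162267557126238707210364212486099826360010493365109566013446505864487534232861583187463905638445898172658945749890496788519482612277851148851764740741630553621741134454598086338136735404621793329385101148818262798257434539580879946115371550248174646687196522290340507294536046518892151591508426800964062588673270959566780856422280082938538076926767167393700872910619016049500794192756888873665391813173716549072728772314468759278781714902518305366816590466984967652614948886935392076672724151698882314132923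647138838021678395136383199015056835256461362084354190979116557605387375304252879195859983293456044554074364384817074947189209280552147687782379647608111772773496847727829316881552419172235871418612740622707390716156268207102814234195151551094157895212006155285023769164845536304803622740615234655681443462878777132681247104887564432307501969603317459018577346091641410938225549191201735580904478579731226783108484143603754436230630845105474625731526650073275657691207460771453607889477916736864384497374715429525494902111845249791702523907412319050720651425565352534109592053993338754328644919606314279458408577027674687374545960869152431717295492300136579224076943365886543815539935169350730253991816694849107801402397908960499687004269371287212292403181120777572278271167203743064386992058572949118724044321081279288258259122856089487367103231788185279118569898413409842414689836373792715325403814279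8046919652961093397084283519304427725460735135711964101730729695501057960713630989231188002549875407212420238004709205223392648847623390528780391847091819868456705057418865770902063132936740622688449917358292250072189650300001708094845813480710111865687922674388194277770189177115905921343351811895894937830623767778069035751034895961080727123548027993559286482120483718802580762106943157294899174529720860293549975519167431176106581813212501170225512919847424231890080713931226746582649946930211838968257019274519013434874158107107609143869103583948912338280867548287849042296909761323793584024391382894412838944647548233894737068271491693987183073634794642154030301872635301406678076122867211550071797687940700794295057786713146282621657557429997800997680332282096250777513627419315016490053123854466019931650861644706388217569513417374393523135576897701218817710880962607376480904234044603876125467709309408244667107430665041820969452530657199733420316463876397128920177758871198973429854249746087754007816296112406889120471068070897356093419002501627473345704553200237795345091183736918165640133476352)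

noncomputable def rc3 : Nat := (nat_lit 493468092387760066647220375442392590146327210851914284104452047488034847120758402199895626160802303591816121802742546866595888810074763012241301911629989604610542790824695071940489758268029524752258310666968645110100134927172103548311776141528615717324511914367024360311514255628605790923613561532589538219484083964561489423359006950937415764440982055029428716827808500656512505109982609004192307337417678888417659386696229845361304532856636689316799292586030130168746368659018801501159278797530222826478221449197617218556993879289087656184121575029451758054112129894037557097230189914940722438280814125480581664081455509718661378464603295503032810921853301836621703826823599325022417247397669288431971800982358895744872553684035094916815512299646981785197884668136501594735904351395528269949268502984519472753971888920547445275062015263899323846631525847651068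502398317846375864523641756018478954403617925727424425039720482426566038419183346449255908776371557784860141159431944559418235637301151295315425604669421819672900855950789874616661154882781650982116514759723432155567594964228154503391338274591914605900226299961132330247276750416978928620587767226280416617096983948158246513414099185767710779512106863924726327631083746987437407904294273644310869192678136339392347111895702927339304425984830605457997516034434608548918866674283013934685622313115743676105485751608096728921343724750027884684846823052974920896458965729093632225015561615331745037224142467376108988015952260002681967922807869285389918710570909065650678712889799389645989664252445803063429432583620125152733545638472528545867796609403372773335957678806879740632419656654076027768567964913304187022199802171777001448917131978993102783772772727322995696712301401630748810985214948854820896910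992176092412871073856062949452523279186659941571729429571141525225230561962718651399529275579615632993104175478584423659974398606991237643373686384339898105807980759580144234865268954123633417382939574013996456336966917363032999932830616461273261949257180226965410268751615476559740042351798534439061232656102455097578768490087212904605807128467148888503890932304483477557744391298758066852759698704045795512317636981157842527481568263277015699372110795883213424955805475664556479151357883955020208709234757525936357264557610283314153700155787949431344727623439870018331046566222628450385438793634153124922483273614252575940028580644939764821849155030210279180895629062559528008627351961729359715436543141681630047839327484299111900029430250649836461384967377563064314676918630026426158033383054913582784952768433424320264977569791416854498759721553485962930976733132990415362681960476311162550611496807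648287674306303809989684106656992173830977435710710504352755748261551488014211713559411706072059413663456315927407467697785667084440833273984908500283121302860790448088166175515097876099795461475298169524189623856728494785938734887485118733410701200879579922193633151877403148167797749581986113160598370941805701323256340931885602814778882607039944379328913231614696326960162026442289178956292428043131471245132720372820842749570862923265433863691410622462822106570983764520724480570803265682942714225589803278492580049415593284846394840419589108639078619161893820451314757691308973177881703537697613341040382005441781314177830776023840104831542390734166320386099700417757572872912786235355578720367413755192308524665269163554198799393089612152042135570189672197884833962998107147189189661303171988914541198002544605540266182693834629881114670118135900793537349695960989008649583154202060109328388590572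240674101811564118618071040625615278670322966136037329857946743382451151518899049563027254599632484907968321500919329341302190928349920115098425324921629878149323492715914439488579810962667425846015667006049096128405852980647304297564074213788184118172303160360934715163200335212260347028212219890689687613766510096409890433559572873440339650563722301310280336369722570184238738082126238906670747422328836848384929834913657494779807329334225795873865156104307774608722734633978286424584414003623315895343718854326449719769700713338447245940577314369437430550756063230169024463273582234276144815853905706301691423716854158036534709081056838189563266680272814727918368838170731859101022838376213226340956898045744705560571963491591673427827129135605419788868698495247590391912510334460211815271978796922595398938838496598561485964483592434039365931347190209324530842492837069548831231896556607312305340652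8920945995488034153143555241637832141166294855564734771962154869560886820093557046577914551459801199068164659788460657739401816817723777210073144583815807456780244941459160998676425064312304723532038262448456140739763343514216102133098434378261655184083501541775863920890941815491337403740620710732017004668098111614712404983877602168214309708299812729754395546608077799896234525989484877498892518558749484828575741043707674520849291820552156065487555743199007979407723980376773394120144504427001527863965142184539613334238569606275242016848885844588105049564484160558200238254087161373795196257853795722168504954220538510563523559369492375502306793035537584177012024848909211825539221593054029400893841390473395726495810112587595554368229545388458372414357097909868591447608679978161455737060282747101687808575222240666428984009771592115393722652361047143420949395015464538252493993475689734196436811136350512711849277743463451449770677786186786017638558484283425418405893695112429852444764706083887627278746596245634361839880546611460712986083067709141450228909766288632606080121435616103687171289907200)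

noncomputable def rc4 : Nat := (nat_lit 515755783402724712144883022698470863350399920978919443251677342682899656626861150683521687932526449794951926009204464001561234361200809248308199095852278306081222010197431741637893443310364090484867519899240128748992983243569494526654522500737810826885513662713104972395574118493381958595949641930532650351905896217777899303044870452593491018500026750263705323973019062675219344413969159778237893529770469527182572976065355519746919526560288658041164484894449655987675443046047455056555770930607558056432624737625501499958901697428537955679483724780237008511875025448529078625047037281539739795699323608666480299932440970867677485822062381792656453158769442665457005283495916852828935874639756505067291669881106746625294054280508111235432985056827841547807692242777756687298064917668067339802553166932724126334117953545481129833335105713138920008147826116782004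396316279642988077411389432598955663324119919963179783452586701588169372744000989162494115304488302612583714376420235704643398497923880536815224193448327126221105006993187776300238300465906403104047601790382945315633489580639207481080931532276128469287288450331667201771335115811333724426981739996544558751932690443396791154198291089206500461818508562215140230062167528722548626550742013692962929900925594047156726895138939324737980176028182036676199467094695970626709965747817081734618447256250591238848201707281748272168987888525360690520230766142012506620387297517434404082895130509863927340215366319032154512750840886968201037357426596620172671424258215867602824585600859541799644992847025066437516893157433316432353262661089424124932161359942615745899644743602070240167671516729685042488407492771660193998496025320670201669052859723940656004258800982229820370652918549069336874895813110239859431743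497765591926257181893953487177177927473516462716216779890445901865387953579100263277740847589339349306692064195436984797021833236426954921464343941766418437209063757780928970946848539170443128150568129191227828120051498911091405663648611470738209718941723561122259774728290044281206777404845688443481641233454808229374049754896787837811864743081945691492691266348809235197394364492518085030626214785289390775864689897531218198962346056844084493038637928757768515327141973268042371464569239184924367011607280338577254350817129373525768228178139803304775341510376417649081969871916343673337298216630736487581518244461564943322238248289140907829475982276733095394958763554773670455286690293621161663697687518904656617523819388963754938619360195852914751510672964120754845530861010817822854356767557995646440677894004718289229083254932269935999392605738240298306474201735321861959993952238236027266002056465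164282189461449402726060234960273866981841034071892034413662849090501337865977021162116211901167402620233927593995346449094537946791251808194836605013973032196218836964901366488891122875356568723760941475962198642278427912313304869083287818234301893986293412841704369690181009436395667238242419812623447706801084660439969262441562599195760052354077379201575046088806989124547026560029386467771900074469652727842905972242869023192214199501287274437195030424482819097956736354077994809051874037367147430036795736456226629953515994840647028444051599988200297652667461619972996051391264817554526181877771888630783399369974823922249254143027434079662607997877701421681341722500423628647868384119010977354569169138009249147747867589061163623998948166624265444287627185370742001790418573988337315653409374419609942818952401774711290181493991144283663739525701749679096203925497171684830138461653117307214811786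412791602233544886339941201073920209818082879949646519318315778622264692389691239545453740035755099425238637651492389075902057219152214881611967398363926413038588630638861364997790359218089002017768652970084114577205806477141082896207023290417437507694486805389958705183863890717790965135978630566361507552950250750828041166783369534956470962754962590247945905300778119685410584718673737792496898490004547074252972697064277123277531439118764836370849530486798034271798341027872208360202124246882451454852538904290428543439058840179901031349128540971037950019256638446091686480729735649739454477450186549611382224215942050440567434517431749562454298036728589046889982949827966610944932843080340328460231849033926959447007649673059945579983473230920686023326276548838075520923964036303206932112468744227965539036351275571793568863058596151001085401228664370531790309679459129146568313770163176236551573632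7112273971735885312365067294499826374050130132721734385638808138495932518484747948831768967715355585593841024043618920829566340027569605357101505112555286957942790954560537439341958222027878038111201075401861670137180962635459397552350622310782395777780260156608997342216007377635939370299340159532330816932430515110508213017179883239508337199148211888224917445562107983322626448976457191938286614465574803120752322137193229681392713453004651710849326001662941699001865111179995657978374132180951583941539065843313473169580995241835158415369500589906408444655752237318671810183579454779156448157203160492790280781635067066319488260548955561578784844402432163700400949518978892529793026028088183332254840658829980865081589684451690365297160826472654272045316081334244860829384611214353919388645547728790890721484351421363617115985037538289794184251830314565236763830083891998521152589465443794998374318710436535446715954571452777253863959078609682719997688986465050797465340506390405592055831293880193583963790720071773491646444144871000453348763869640567942317346158269137724644732989040962130028429049856)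

noncomputable def rc5 : Nat := (nat_lit 537124747477610603300269678205068492283546568383098589220474915320019901580492542995815156821072001204587018967983277421716233240230802871983958819094894187844882282668599111381335126825730777950228151005485337999654331037984794061759552630657630397849278261573102130393182032265511046440754707785755077204313333194123158639737697391395492336035917492732703656746645300784211141836028686315383895254463340386144914373511592801810488872426471113577511089606252346109653348016728519601323150133186747732289669985167983981063755049212486273730299497730303925677634331861880510657147053076534232822225879491199558081417838871361931880312985415611705524651028806562546578958478673008157416195677569694213185965537244030573855587655856205417086067067704132416495128806548558953058303052385441396803084188876913733637686558719438730140220935505557300781660104862307183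687952044704911770472840223052979282773141355492729761833404227310568157088745660444882216607504626358574749984814633220040312576163644896272291649517106067059723012380954161873099188888844413078911401411799485558311363573060207761719316528717983316795022101950457654779469500963823684201297873746056867619899806476354736020198494498386556548381183129055548233390838083894309781767073250697439412901170860833514415722187307148831223599002273974940869363842751502969653566853409966413838164572384251853123006859613137354658952937398580891250249827690708162696801714572714850344355105062549110246311382546797652752908040546760474914503550875199976859359773365091932358293542398047558981535941204389085894010755910658383470251708110367815857188789734164439838205102993764550790354373283820394255454788730545632060528127237128990170032457165340656448091296502858079598058404681526859510552095978277518024749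049105911630164922280645210365201681518804549686457852187848518780412371461062403071849353509351750007383034721213104654748111488538141306791565227430624059492602224946131250616283669891114993570807623981597552429360586203216912001961022071106417728335420808564185184836421685066568033544584695761811603261828203321822149053878533616937417127734355273595835031583900262468135944982069613086419509935522449759983652072368172755865377867119707347221027251992958334401268845322025772727841365137313961636391357716626582712146007100070826971490638299228514025225364003520321777875024222257068298887250555375499228000283762390158517116975325353347086452329464054137007658608766615442749515714946660696787034437076914552775194692833665312253381214218596480051975530680264988970338956195305983419382563302592850995866317854029507702220915899693339577710748633674389117395165556398289995831932266582714706968145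161035933291854541915549674948221122791895629474112755222660773191627793439111769834311311292489573594283726061289596572223268780864238705400049108921736156421157583443738521145635137071579921433276856268364189048282637564665730124073175829617905799126585921502219103501081141200750667962887830241180031118693854424130544921230122820676800181961021829555513869049232643827837088030952731879168867779206610459934159474612482684653516236168900288260043822565246409864199914679160929230311928428373280885477267931438731960906944680205955645676556492006786673864714034847028961251336722815394569681094170471500465415610686789181512478372122582849715351023133182869595800875372897586086492197242355108260004056252375836501153916426003172984778530526930614799848202108440040244972543112500828498178465247283342755862345385396256284101596372212394728315874562667233426473332966730436596863155046295499633039525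110739730284003025870131290196815907504101235144428114603971982293842386993259352394112007797189771863454088161239950726636588238563382070434023989162753382803996855428938494372979935812387208455950341609563535150936837904955136872605140044561800454847675544124881056530885929909757458726884491206882451758771185960761013109614380663448357137889313169158898973037576757046501325126199575863847096080645690304270993028922172480104745011834253222997034866561263411505066892639802847423827930812944494027062265681577546671542380477694257189526814121227071814835250743951115410304853463997106204407166077110336052496508251550863479974492418806939423654201632258747468469831193191746091061136968368889853175830297462650948385818977513953553742130549192748037888095386682193186680167802809519827433422929745404179594898724684996891665236722665942893931380808440568258923580402058794322201435513031764950489939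6706237614331211699211623072892318712897735506918974374280175810175990899896430340474567462311172321748932932864569465290922329199597867000232627779768074582140619369777080531562577805318198222102612482517045877715944677209231140360797502253740952687587327208820248535651833071949775018394279382730001777440780983296551802782223697016703467455901763841479812916798907231538568057191439488905291688737231693083957767356483843778475306872810712855672650193349019969824998323785211150072041676559655697706788006691713486848559146556135597075779402957053729823293988893949139250269777929717346246836902858388221363385753332382384959135967500374648948810552615545257655333185433459233086064473194786532160304629153471891843733584270459940435630539557670525002426092792496134046606659963073250003283806415422950651643312752525755754870821580279061307053964612687298741803095790628345657471583791895583537986529962139929126637093212189999145278184158082221361554893188336553729793983145564170849994096808705064829491458280737158244352203149923150431744981673629678071791495030258522621083963578920327684395368448)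

noncomputable def rc6 : Nat := (nat_lit 557438248733568110433692112582383389291311508781584180893791407506978167134655441396261391422396665811107092117108209117793294050926302618185334444439839761692093991930478218759796025328849842284709127915714549095934060891346643317996632666684954583772956873657619502031026452206471677992873040228142847990115208789299722857334843275821350039275527363380072295887060313714534737000222053948515587465276040785148899807866884395939461704021710496172393008172263893193215806352982646227760898074062215130812193194925637887259834481300343607565159335767653538099279855342966765605225575531706812406115324275841554295655193539871096208566979869597020170704491241800056027473856201674674939226095943870259623999403290528205917267629459357913037155548772060533704129178188038660352260669898859990822148373681818745772142123883815794570295549050158543164167743673402347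187927568728748600213959393821305956330544818001727273405184955001430456838743921700466374227135656425959252186159968567792042675389758862123205021276124617436113440371690517047298806552181444659415976807427968458033634327531820939780720535901027672048447050212761948335457881717769484902758279456544146463896174031453070146541503623519010544394605908297763801065169022638720616209037714529242213355522512365148445905762511279255852241352377111277310602104578278483526544934725230942644129997860277715585052907430723685847426238296315829042800905359415281215236593412981530298323549080145959627618720107359713445885705337200877238939913466601426580458398286353919269865158796330109364625543246226872396428386793743055301768367222016688725893831406577799354982718027868861470184628804061133310080414530334933155215970948497200106025907961211962842136341596284626476686848583375419234282771977937008753066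815368845234445095822809043275381993644975798879908866228220309178840151171206662740338894985962095015966133153931494974163139598900154485117246830628346659597361245693588933526471445109863032348774401787540458739621480312652880810287189287183879769483598791162002333089599433302949724532546489674128871041490301234179647393942266908815927006762841306551876904241220566389761293145304421718082266388160254310112201761919816339310146992096168499401562938671026710959554032460799366144032672372702038857395461826209563530300776152106964461920298245151634707310310745744309682393803569533295573550111730333612902290041633063079444735081259027794161223496131008858671816822655025933337620102870029457655748475706615037062405214434602559775328898290938587691294279331096755732051685062432933860763786823446275697974154526876129028131743503468666367898780560509171973189668268993900273011390620158421874036093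547036865166792411000781435511103093797958869203841421916366988743489809265218483583585423287544532490239169070686548892384208523933955077323455832039587152092214389119349713277380242523472699861412313652007085810676205653394118313987819961865305529265341749026828308743544725743788413800192312841751299078741004305071876377178237614168607441905528989972334453572098823841161700078653378183171416700676695354885058258041994385524742721538089094743541281710502792740876104817335456594888728949839661022539363435059998878444914091943220247815160278206959009059003159888518255836580788503777467259644454114381108669582005853751832160488110397248348291210141777187572701686583001718177518965217269444189786447928360092104264575829562403771521095362867091649289477928125434107955438185896819803732326830518321272060907480589473197317635125666674399158532146891722841335208204575578418662736935816968509951763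593286219667058917755688346797476059069954991982601209603995112831985403000018507844894088033814995508248938854205483629306332006848020739950731508332629722860379031216467323397580740838020969947763535263394841326022748138542589351842176311535211336304609330974878548247972974887300249308843133299391098453909190549067961112737700335230710843607872312479057392913260643857342612049090933127134042204393382346840931431892913372368593507960247313918502099271631664562774694892883673317281380008633352327447151136419239281378225670429116114432304503069004905170995674494460286770537785812969962079058501515430973082665969593622250826015610453724417930601944583264686898231127078126954449440083502162649434604275158153119426203861619584811195884719590150069920721220162907599651236325247662905808523275641118275914640699161143573738402741914502431967308436683387357178828587627414943509806444384281106212939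5880896307842935495745908740038442801715859246821062120821565333003066671288600760664370925440164160194545794795958039346777371610811554243363627901090451656739031159115631312884582247631644877003256354577289898481561204466126298635280202841550588773893327713444727220297401394802640106337008752257290565387036393077696404058383882943370486468800743626751416283737474797152018138960192120649619229364599702349846111697647257557485170647680592671766050770363799892960654122332565956760228156737952561895943567051891764798244192593729440895397678741832369416710473322453798943528734759846292254492839752804266955208094547737488731050867233704860844579705161824147993981581469942051035378543209950635619073753915464456147811213843714313537153047928395473795988496980252069554909152047290215609516697233037329743487365855818097706496828531009872918042471421241799676155588315136074911577399691130923448584245790655500578485398207000295050496762707367717068630830906190388041077039971723504618615192039017238726205869825064505087535532568815510583757465344237159230064424206421999079139722411223374860841385984)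

noncomputable def rc7 : Nat := (nat_lit 576631174536259411414509892375895121608244451034956153622694550765959190956798572493391861012767449119869021814841138074542397222668743741742250043683978290338150678499254920583470466417528403069579406208225454944462904723434479888737953284188095600686216748644155242591047909912056211565361736936266152739756604413478730520430844200985706135647156477070188291583482691585885905061344124689657634959024415835595711470829827528699703246293591139526746360224967735970747495355484799016413448210923825155323236111114260623832586656582166172158126973992465205481411510488210033984962725896439750355983430682149901836499270898205957912235100851518635022781841890945686194715431267988347603805165302720721547034272149318498205257162960360969592014596786640405462404028640767447387655376120774970319254176785618183313117571704509681856477671367612982561425490413786736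021569921666793285695773799553277264213099686665231550695280756482071438400124077208308414121003650345013027423821019490279880055425685049771715767325029570806790912907341771956023653263175249333325218878860520583224517224099219575167560895035563591039518611971258954771522653107990742574471855928666153100108431576539780727261952683429076652376421498191411857272237608800440033254881194789441200480168799655418977909661305741326705059850020883264876927166572684203861047009160187249809585664066639786367600015477782630800531870052334358003984419466468799128390071622200054795811692329935122976338813934847913250087462095505241445040107829248388681664247062902096818714067806565557658796242597509254980757013033712157462488284001602396012315316952897330071100818745819524863334146832064149311763132013071196503996311330985476529536555282692395086100019340856000022064551616059360749863617403252753271389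977215727356551471334026016607190736982132680879479472100418623293255493992818678763388763019137001404159604442349708689136413541658453281995415374189421814603129532401592217115211831860982936803454271782703976711400482491599569739808773328966892886989008714253242275391912841033439671756303743675532655218574685230544160136606823437033645940142163048173407445035806039211192936349008278835015748998654585426046995970866750561246895437706135230744071117762644917475372739474745521514698424526989675281270023200516657868052150184004811043906768724037725610467099196358553745973208823878821487528241667324107029975121929795256266885572322190008003718477420152233540886427286122582976768851520093843392730471409525318430119817375624246799856930058887465247219606663235560659567904529655818562351434889992920213244049663354959312455232115984041879497913109501987311333309117632579401986966210815038783477749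089421354399193577915882458658585152104217457174840417987991230084502307852530777877447219576395856383153868244510867407250954668267179696619255860938333826402189803691569667523243688721815324996088217359944144535100218302324933278314168219246108692974157132341266699530126357425124260988784664387434379305844277254815524400007877831999819567704263932156904873024822197527071362698010464897558910669426518878901593552939204234230492928265421153750701810323790912135387540895654568771104644786389694068809853522571766893251612808011732387760967843241954826378811330452432449154966294751258467805462348282120642752248115626358155270853543402850737256479611875153527353037055890069267387190382338723974039241823110051772769394706661480721715368648889902812143071928014125532336712514797764296256029598305673594447006889790618605991787298124946159283680091952133133704591548857281687837857918640987291188162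449811270751688944223637401734863842651105249554632365710945481041766946916600483176212086890706284371064830740347102287728127508740512271390638382184920773701670917265601857278359230773617139859725597280477245889501381081424788328874573494269110972327703396317690693125948625597872268191524578255423948278157583364697005540730475161388048902193512258134793830769755065186047909479993348190916843639861891500356570238843384909644735350802118345043844936535377489624926927611401942845823732527492793839810455956786666179555015338501196217252165355114743276531310801215345952234745992310675013202205025638207716021560656065566917174678352005319191605846767343983981731174347447219562017959439230732122676241786891258498275754095231493279987498531179307640564394009315609123358788105025918841509485860607325263300078599769017653860867180619294772266800685256102037750157028100626952432037287606633762700409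4438995010452723020752340657935998969282414544493119332106304791059797711740186588430180494025249128952821152406487369332569563916361039260409931071719083422649717300666811589294883231788648176096578811507309164783694678945100005880288909002588056274005085086108889676464447837542745047390022148795299167236451505138599375897183292760210119599512740785011151959898875197390396552434330880807904316517346842944935648719488743297262367854730594411745409696511869233439309340417125902951282425920657818092440190460056211483199488256047539957098470831724337979989300896372768324604303794686317922638400000946405997693953417138198582576277623399102859248872095329322075042883581685279013797988592847899319462250594423883270789482131424499632259279456512076576358706293113995599480253078647530741780353428462424615863784471078327957084903821550144417208423457697661949118853205672067895399137741386458804582417367159245773939864307268703078457194700348159806280196813172803688012420430758241827102962338834008147310770009639487220268108786450714072482619781321463701260525399974109995557256530922676307479232512)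

noncomputable def rc8 : Nat := (nat_lit 594682415001230496344373040375796890904980710805301494527646343512287216833128441383091049555023209399032739585943486538432199639853379493478238617521710561446253676049284457208843103991138587663700620315334778626787528934807311182187044695590932090327351214011176182820148523500654785328362218841123835953146690852762267207823140988211275447437524139925065874189001694520628476371063250666884893266108185727775459416736460305264413042211296295117416594737957747903070583389187660690738482134754606246203798874606549576825633985805022466479261117082696359909216405137233267367776853240627518644139860184522930724208176056369677298343299806077839577524956282776379690164774750195150950809058155480104052447663629798731906683155166474295415298195737274436477423141499852245490837844036464753487878161174566561312046578095638006202839768445230088036085870307510018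758745182884308810621255235647214382803473347959967944380444498882244756727097297150534889255576427149349169166031722169640581167950425335959421051737637539399909911302520871274373407638076754403706124709047189514440166649849313289744170523349689628971940643517768857313020679181588071705480312819102456368020030337652529583066166723569423135107504406323524960421281347388646767207456937179451895555540423649162168654439262655916784923279979721499274389981045049903328223815243702881895822218588035797386925972788889768622207932867758078429700479636172069592599276320209557481042579976054142300400526398845929400704073318397435041628977639121511800177117946794109006325670827324121909699529493844773756835824224827921161976001341595494829368682086616853809222696298083395176418710971831469380772786403353955189810556004317808808603677500783115921516356825413590517861975551711004440039647518968026097081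659252050900653581237324466965858741821593640031429701105699141119155654807649731191263999340168571842316291569821622136447117358277949492392803655982999432271410087529474621196321646542658281954766963634962922458548421323714384588428576371705262883893685319921434289244402348940096331262217144547371790437191925819310998202762368650796125558466232455412297804790230111101712045353493097597550445189556910799873471995050564559043303703215466410611106972283180147939494796329400051291503965696303314600233472989071816812862175581831830743834083589943543731269214575107968612274360890252174674107463077468063891286722342475753632325434916703353157604088487815639837138986056310963963537206709155768598781472049967259136477457651073408267793162729080109664275183973697225622274205115271562440002880671024656837764008924762279100460517903087034670273054346786738937678523050029121985397389808241772361278488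424685879435646446261496587046444550168129758208661816435281631711255963227140953590895421741864713174614518268125341844357065448072629373020639957548442596219799597749832453789551585315656139475662010043799076479164460607399191398323087247982349275885785601818379831916941925707388362079368355121639643342262709884657356391668975812247328001908301324894792259520308293729098535113415466230857723006385810241652640192872952538736896544231977016907844588167642486033140787286465684479997810223833154197851487397050184625347247393022872062543432906969327142214547569132471840789683966149332795390831308514356674600135602359495894657124643274401165634265734410157066197642415769754238650849774246929662621157154740467413592134980698664608949030806696128024135787026989181844451956146209033657706849766140087376424029641672126907979124740730507654736827199618258989649262473841856467787674027561944936650198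142513887958897816510955157374150959502620631479809509703351567127003341795987784249113418143422581382443508994746227441793061965973519415869329225596030036384672149894692740369466490732664394923156508755233890428418343952834398162610969264475195069825029695369268336582975533887825085080440260245752857628302819001497329799865375580983346850046798831377520177266784793816558945489809603705353267669729004563758506942295133706571733482085046233503653229833239627069115876005914723949132275612485034007642574709480643204633094099649628148227569977572733512031096377909013150449239693666690147398593018863757514913576182140775615785340983700866732267448921079588357363449450104694131121154634932108728959555845736245585681584908662518841741596645408691342805010734632781132553084910923292061309414940013580288412662632258850357199040713610175241620128074172058524372647101438125794671492099530294255631432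0142664274743109872903484791567867469990580938024204711015713103856003346027232613224065683580668261788602290858201631186125151382407862069730362225841435374303949252137604212839168446348340154873721627612561814720293435121486982193354395376210905612936678231809059032438847683614843188805378124556178612725285338604042341701238787661242124958138169986443874647060459291526996229471871827384673849602676715670576721436990659536116506890919318384399511136273049294090768843421822319164128911740313262524978911517992621598281118993813464774500349121608042590666876332327858165910163653024438998855308695611434040431537890021495133524237252658905274874862402033338957413769420183252965613227364678234974858604054941318604530376894312456864233199870193586184490799831781044049212951646562554976859975335964694725953052501970366885895229827346727483500582989701930943981678653020645671662706184832939216580977120831616221649648463219912334045183071132440897804979146577469950926989854203788142450198218063192272858297852814449501835233141992561526786037759988523246399333486951973530237055621833504849097916416)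

noncomputable def rc9 : Nat := (nat_lit 606084834055430175978698321101768305767664616680771323175292561895214503755136753399389648691584429933279986030302554348941622546123278349823036144242767370576272885679579474041736198642589887040864442627511613161536774303155150019171311021215531942882088538644073880707857204785943041872817274086237165351414075917845298864435747676898783504517638248646818451885378318400338262510318827674389393965182660378306454478586164051152489854634424564310329336367188459194603163590553492207037120605292768496763007833566587802315335178283682802854042860606886800536327255774401652071927247896246943668192815039498994476895521669211450081566668169505448731756136515739598833778145664348082137400615664577572023748010908095056876466229528799803605242025978723770636830808403347533650613970731619886666648750396042936493010408461819341498894482627523622490977825761554925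980669777008977501559360047447643672282676808060919522630953953795476390896329654430367462221156232276539343732123438548756405879451687976245447647784309489254649555412924685225361782932584643669636855533708878058109813923983118185850770106588546354381240594600704182363640490427304874861769082975490904005946020172558150289910736115444148578526102542705225586910777258265324425616796361271914752863042513248317243702915081192509716592060407415481579316775450158459922008228900616869094065709781252354643021157448738961550357539261719825565209164480969443426619096091532647111539748942370103206259866344253163536945896995628132317213770993036941891052402475979284928911638468675357884395010787345225737628383900513583165435678447420047347903526402913867470292408620055730222223261660215249596042724974991540452574694276563529604455242595483713114044901372409418170604703344298806677869037592492210729845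652668439740612416892735111775537598781097933431110792536448011434220969898642860748303373683695631006498589809069485638547370980348238490071496177940811072635280933965779300712992563899552436314449510169749110531214058398249211972367888712244481081338514678868670697381643837525016802879838722563106440068780312443791997941430023011109211012047066473963563101581742995803459640947343790310855136166164994256390208301691228276088050758988278151314871575548336167308033555937234932049505157533818683588264591489707957383252254648208914775228403235717597083816694564478666622919364413099494989502720645693388445800635286543846334235120686241173866795595114596029474241645209843212600761137038171727679336926044492423185497476982546160722360195358438823602805525004899143018773972318511713420892973254542732053265957528016881067975662329543778499674007958825859855720612525528550176780971492076018458123967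260802838661433123229111206114272084691932907864691142446870463508470830328572987412561831690404247949649658188371162012736636597874136477649512080812233688290007177374850490494528916420661570079850794890734725911267200201184116964752212666166910811057530208899143905896283707323370169988811929814495149946398427245275777904288617275813144073771194313375535836067677070346348639068647372347422896074222164549455827055671627288748696126974734002184653689363518687237448600929691763165755502113166099217709076611018324702833011866963809616411524879264950517389489208453262471182563968968111887815079975665319846573844276802436369967602596473160481531561251254259839670658841680302209022086283845757631653134507116630246337660523188024716538069860985137290806586427052765381698536041454538543118179648738317674371671295188007665948223703562048490289794212976804413608544624109573218002075356069850110226499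954428916420736748925564679626579041147732836954486825923473104771917022295443333638561391105723702154639140837691418737254483840928984092198816443414023606725698481980904812330617721255294628115724677429280058138136236763508345752616117261028849505099475261870321832632580663206147471970268929975193579677284283654331266268609489623127755601422336375604696598080253874168974431068369938776243109560901087998983784708279995571770565068506916443710657760000011405936863476989623813501911925930192034739470299904233720773988847224935168528764013982126312766191820607320199833835865993169918324905302727027832587771322746558714207164395146304543973281635854875636512540490008439949377336617052667140224952283732199099447340200721648096365440844761037576910024745958350337561345241174149164020555089816435696884240883793965278730194991559081922368635006509443045643550745975652956792742742895114111827608579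5276744532451645646204786274168972741187614321440708737915141484617918716241602018750059991453065539292125026722817006234286516120077925844928188983069548515647899421584884629515137993649250396001971998516425555400672233454651084676469370080151154785197082667508980682948851114559610299977389889512583137314191325698947023910314576917544839935459264828332500490450939084270653924634958932203149075150646357659045781233878394837451665446374480339145678284536958216594298860703708498598204263962051732965892355030733183073974105472862122830466839146390248002641105219578446041070247811743202516554415053591386484304247381297828080589268675730134704941662509108771662519651947082798688267418694078004684917829848051561332429217756634835274935293161814097237728960822523943161668727146483808909636330881992516117021356904265349328231196979726300391983595070145918555484146993189995104895625833646251175664121142272980500060035033754867617420550554181672667271955604371838040078459215065558894901030331418214760554131663246898387028677923871625473836881451894971516180655380770470338816481887702020026921910272)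

end Vale.Agent.Lib.P154.PChain.BW.S6
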